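import Vale.Agent.Lib.P154.PChain.BB.R8_4

set_option linter.all false

namespace Vale.Agent.Lib.P154.PChain.BB.S9

open Vale.Agent.Lib.P154.Chain

noncomputable def pc0 : PT := (PT.nd (nat_lit 15044718) (PT.nd (nat_lit 14720082) (PT.nd (nat_lit 14476800) (PT.nd (nat_lit 14395524) (PT.nd (nat_lit 4169490) (PT.nd (nat_lit 4088370) PT.nil (PT.lf (nat_lit 76) (nat_lit 3) (nat_lit 1) (nat_lit 1) (nat_lit 365) (nat_lit 50) (nat_lit 365))) (PT.nd (nat_lit 78) (PT.lf (nat_lit 152) (nat_lit 6) (nat_lit 2) (nat_lit 3) (nat_lit 364) (nat_lit 51) (nat_lit 365)) (PT.lf (nat_lit 152) (nat_lit 6) (nat_lit 2) (nat_lit 1) (nat_lit 365) (nat_lit 51) (nat_lit 364)))) (PT.nd (nat_lit 81120) (PT.nd (nat_lit 78) (PT.lf (nat_lit 5700) (nat_lit 6) (nat_lit 75) (nat_lit 3) (nat_lit 301) (nat_lit 177) (nat_lit 302)) (PT.lf (nat_lit 5700) (nat_lit 6) (nat_lit 75) (nat_lit 1) (nat_lit 302) (nat_lit 177) (nat_lit 301))) (PT.nd (nat_lit 78) (PT.lf (nat_lit 5928) (nat_lit 6) (nat_lit 78) (nat_lit 3) (nat_lit 300) (nat_lit 178) (nat_lit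 302)) (PT.lf (nat_lit 6004) (nat_lit 3) (nat_lit 79) (nat_lit 1) (nat_lit 301) (nat_lit 178) (nat_lit 301))))) (PT.nd (nat_lit 81198) (PT.nd (nat_lit 81042) (PT.nd (nat_lit 80964) (PT.lf (nat_lit 5928) (nat_lit 6) (nat_lit 78) (nat_lit 1) (nat_lit 302) (nat_lit 178) (nat_lit 300)) (PT.lf (nat_lit 6156) (nat_lit 6) (nat_lit 81) (nat_lit 3) (nat_lit 299) (nat_lit 179) (nat_lit 302))) (PT.nd (nat_lit 78) (PT.lf (nat_lit 6232) (nat_lit 6) (nat_lit 82) (nat_lit 3) (nat_lit 300) (nat_lit 179) (nat_lit 301)) (PT.lf (nat_lit 6232) (nat_lit 6) (nat_lit 82) (nat_lit 1) (nat_lit 301) (nat_lit 179) (nat_lit 300)))) (PT.nd (nat_lit 81042) (PT.nd (nat_lit 80964) (PT.lf (nat_lit 6156) (nat_lit 6) (nat_lit 81) (nat_lit 1) (nat_lit 302) (nat_lit 179) (nat_lit 299)) (PT.lf (nat_lit 6460) (nat_lit 6) (nat_lit 85) (nat_lit 3) (nat_lit 299) (nat_lit 180) (nat_lit 301))) (PT.nd (nat_lit 78) (PT.lf (nat_lit 6536) (nat_lit 3) (nat_lit 86) (nat_lit 1) (nat_lit 300) (nat_lit 180) (nat_lit 300)) (PT.lf (nat_lit 6460) (nat_lit 6) (nat_lit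 85) (nat_lit 1) (nat_lit 301) (nat_lit 180) (nat_lit 299)))))) (PT.nd (nat_lit 162396) (PT.nd (nat_lit 81198) (PT.nd (nat_lit 156) (PT.nd (nat_lit 78) (PT.lf (nat_lit 6688) (nat_lit 6) (nat_lit 88) (nat_lit 3) (nat_lit 298) (nat_lit 181) (nat_lit 301)) (PT.lf (nat_lit 6764) (nat_lit 6) (nat_lit 89) (nat_lit 3) (nat_lit 299) (nat_lit 181) (nat_lit 300))) (PT.nd (nat_lit 78) (PT.lf (nat_lit 6764) (nat_lit 6) (nat_lit 89) (nat_lit 1) (nat_lit 300) (nat_lit 181) (nat_lit 299)) (PT.lf (nat_lit 6688) (nat_lit 6) (nat_lit 88) (nat_lit 1) (nat_lit 301) (nat_lit 181) (nat_lit 298)))) (PT.nd (nat_lit 156) (PT.nd (nat_lit 78) (PT.lf (nat_lit 6992) (nat_lit 6) (nat_lit 92) (nat_lit 3) (nat_lit 298) (nat_lit 182) (nat_lit 300)) (PT.lf (nat_lit 7068) (nat_lit 3) (nat_lit 93) (nat_lit 1) (nat_lit 299) (nat_lit 182) (nat_lit 299))) (PT.nd (nat_lit 80964) (PT.lf (nat_lit 6992) (nat_lit 6) (nat_lit 92) (nat_lit 1) (nat_lit 300) (nat_lit 182) (nat_lit 298)) (PT.lf (nat_lit 7220) (nat_lit 6) (nat_lit 95) (nat_lit 3) (nat_lit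 297) (nat_lit 183) (nat_lit 300))))) (PT.nd (nat_lit 81120) (PT.nd (nat_lit 156) (PT.nd (nat_lit 78) (PT.lf (nat_lit 7296) (nat_lit 6) (nat_lit 96) (nat_lit 3) (nat_lit 298) (nat_lit 183) (nat_lit 299)) (PT.lf (nat_lit 7296) (nat_lit 6) (nat_lit 96) (nat_lit 1) (nat_lit 299) (nat_lit 183) (nat_lit 298))) (PT.nd (nat_lit 80886) (PT.lf (nat_lit 7220) (nat_lit 6) (nat_lit 95) (nat_lit 1) (nat_lit 300) (nat_lit 183) (nat_lit 297)) (PT.lf (nat_lit 7448) (nat_lit 6) (nat_lit 98) (nat_lit 3) (nat_lit 296) (nat_lit 184) (nat_lit 300)))) (PT.nd (nat_lit 156) (PT.nd (nat_lit 78) (PT.lf (nat_lit 7524) (nat_lit 6) (nat_lit 99) (nat_lit 3) (nat_lit 297) (nat_lit 184) (nat_lit 299)) (PT.lf (nat_lit 7600) (nat_lit 3) (nat_lit 100) (nat_lit 1) (nat_lit 298) (nat_lit 184) (nat_lit 298))) (PT.nd (nat_lit 78) (PT.lf (nat_lit 7524) (nat_lit 6) (nat_lit 99) (nat_lit 1) (nat_lit 299) (nat_lit 184) (nat_lit 297)) (PT.lf (nat_lit 7448) (nat_lit 6) (nat_lit 98) (nat_lit 1) (nat_lit 300) (nat_lit 184) (nat_lit 296))))))) (PT.nd (nat_lit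 243438) (PT.nd (nat_lit 81354) (PT.nd (nat_lit 234) (PT.nd (nat_lit 78) (PT.lf (nat_lit 7828) (nat_lit 6) (nat_lit 103) (nat_lit 3) (nat_lit 296) (nat_lit 185) (nat_lit 299)) (PT.nd (nat_lit 78) (PT.lf (nat_lit 7904) (nat_lit 6) (nat_lit 104) (nat_lit 3) (nat_lit 297) (nat_lit 185) (nat_lit 298)) (PT.lf (nat_lit 7904) (nat_lit 6) (nat_lit 104) (nat_lit 1) (nat_lit 298) (nat_lit 185) (nat_lit 297)))) (PT.nd (nat_lit 80964) (PT.nd (nat_lit 80886) (PT.lf (nat_lit 7828) (nat_lit 6) (nat_lit 103) (nat_lit 1) (nat_lit 299) (nat_lit 185) (nat_lit 296)) (PT.lf (nat_lit 8056) (nat_lit 6) (nat_lit 106) (nat_lit 3) (nat_lit 295) (nat_lit 186) (nat_lit 299))) (PT.nd (nat_lit 78) (PT.lf (nat_lit 8132) (nat_lit 6) (nat_lit 107) (nat_lit 3) (nat_lit 296) (nat_lit 186) (nat_lit 298)) (PT.lf (nat_lit 8208) (nat_lit 3) (nat_lit 108) (nat_lit 1) (nat_lit 297) (nat_lit 186) (nat_lit 297))))) (PT.nd (nat_lit 81042) (PT.nd (nat_lit 80886) (PT.nd (nat_lit 78) (PT.lf (nat_lit 8132) (nat_lit 6) (nat_lit 107) (nat_lit 1) (nat_lit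 298) (nat_lit 186) (nat_lit 296)) (PT.lf (nat_lit 8056) (nat_lit 6) (nat_lit 106) (nat_lit 1) (nat_lit 299) (nat_lit 186) (nat_lit 295))) (PT.nd (nat_lit 78) (PT.lf (nat_lit 8360) (nat_lit 6) (nat_lit 110) (nat_lit 3) (nat_lit 294) (nat_lit 187) (nat_lit 299)) (PT.lf (nat_lit 8436) (nat_lit 6) (nat_lit 111) (nat_lit 3) (nat_lit 295) (nat_lit 187) (nat_lit 298)))) (PT.nd (nat_lit 156) (PT.nd (nat_lit 78) (PT.lf (nat_lit 8512) (nat_lit 6) (nat_lit 112) (nat_lit 3) (nat_lit 296) (nat_lit 187) (nat_lit 297)) (PT.lf (nat_lit 8512) (nat_lit 6) (nat_lit 112) (nat_lit 1) (nat_lit 297) (nat_lit 187) (nat_lit 296))) (PT.nd (nat_lit 78) (PT.lf (nat_lit 8436) (nat_lit 6) (nat_lit 111) (nat_lit 1) (nat_lit 298) (nat_lit 187) (nat_lit 295)) (PT.lf (nat_lit 8360) (nat_lit 6) (nat_lit 110) (nat_lit 1) (nat_lit 299) (nat_lit 187) (nat_lit 294)))))) (PT.nd (nat_lit 81354) (PT.nd (nat_lit 312) (PT.nd (nat_lit 156) (PT.nd (nat_lit 78) (PT.lf (nat_lit 8664) (nat_lit 6) (nat_lit 114) (nat_lit 3) (nat_lit 294) (nat_lit 188) (nat_lit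 298)) (PT.lf (nat_lit 8740) (nat_lit 6) (nat_lit 115) (nat_lit 3) (nat_lit 295) (nat_lit 188) (nat_lit 297))) (PT.nd (nat_lit 78) (PT.lf (nat_lit 8816) (nat_lit 3) (nat_lit 116) (nat_lit 1) (nat_lit 296) (nat_lit 188) (nat_lit 296)) (PT.lf (nat_lit 8740) (nat_lit 6) (nat_lit 115) (nat_lit 1) (nat_lit 297) (nat_lit 188) (nat_lit 295)))) (PT.nd (nat_lit 80886) (PT.nd (nat_lit 80808) (PT.lf (nat_lit 8664) (nat_lit 6) (nat_lit 114) (nat_lit 1) (nat_lit 298) (nat_lit 188) (nat_lit 294)) (PT.lf (nat_lit 8968) (nat_lit 6) (nat_lit 118) (nat_lit 3) (nat_lit 293) (nat_lit 189) (nat_lit 298))) (PT.nd (nat_lit 78) (PT.lf (nat_lit 9044) (nat_lit 6) (nat_lit 119) (nat_lit 3) (nat_lit 294) (nat_lit 189) (nat_lit 297)) (PT.lf (nat_lit 9120) (nat_lit 6) (nat_lit 120) (nat_lit 3) (nat_lit 295) (nat_lit 189) (nat_lit 296))))) (PT.nd (nat_lit 81042) (PT.nd (nat_lit 156) (PT.nd (nat_lit 78) (PT.lf (nat_lit 9120) (nat_lit 6) (nat_lit 120) (nat_lit 1) (nat_lit 296) (nat_lit 189) (nat_lit 295)) (PT.lf (nat_lit 9044) (nat_lit 6)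 (nat_lit 119) (nat_lit 1) (nat_lit 297) (nat_lit 189) (nat_lit 294))) (PT.nd (nat_lit 80808) (PT.lf (nat_lit 8968) (nat_lit 6) (nat_lit 118) (nat_lit 1) (nat_lit 298) (nat_lit 189) (nat_lit 293)) (PT.lf (nat_lit 9348) (nat_lit 6) (nat_lit 123) (nat_lit 3) (nat_lit 293) (nat_lit 190) (nat_lit 297)))) (PT.nd (nat_lit 156) (PT.nd (nat_lit 78) (PT.lf (nat_lit 9424) (nat_lit 6) (nat_lit 124) (nat_lit 3) (nat_lit 294) (nat_lit 190) (nat_lit 296)) (PT.lf (nat_lit 9500) (nat_lit 3) (nat_lit 125) (nat_lit 1) (nat_lit 295) (nat_lit 190) (nat_lit 295))) (PT.nd (nat_lit 78) (PT.lf (nat_lit 9424) (nat_lit 6) (nat_lit 124) (nat_lit 1) (nat_lit 296) (nat_lit 190) (nat_lit 294)) (PT.lf (nat_lit 9348) (nat_lit 6) (nat_lit 123) (nat_lit 1) (nat_lit 297) (nat_lit 190) (nat_lit 293))))))))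
noncomputable def pc1 : PT := (PT.nd (nat_lit 324870) (PT.nd (nat_lit 162474) (PT.nd (nat_lit 81198) (PT.nd (nat_lit 234) (PT.nd (nat_lit 78) (PT.lf (nat_lit 9652) (nat_lit 6) (nat_lit 127) (nat_lit 3) (nat_lit 292) (nat_lit 191) (nat_lit 297)) (PT.nd (nat_lit 78) (PT.lf (nat_lit 9728) (nat_lit 6) (nat_lit 128) (nat_lit 3) (nat_lit 293) (nat_lit 191) (nat_lit 296)) (PT.lf (nat_lit 9804) (nat_lit 6) (nat_lit 129) (nat_lit 3) (nat_lit 294) (nat_lit 191) (nat_lit 295)))) (PT.nd (nat_lit 156) (PT.nd (nat_lit 78) (PT.lf (nat_lit 9804) (nat_lit 6) (nat_lit 129) (nat_lit 1) (nat_lit 295) (nat_lit 191) (nat_lit 294)) (PT.lf (nat_lit 9728) (nat_lit 6) (nat_lit 128) (nat_lit 1) (nat_lit 296) (nat_lit 191) (nat_lit 293))) (PT.nd (nat_lit 80730) (PT.lf (nat_lit 9652) (nat_lit 6) (nat_lit 127) (nat_lit 1) (nat_lit 297) (nat_lit 191) (nat_lit 292)) (PT.lf (nat_lit 9956) (nat_lit 6) (nat_lit 131) (nat_lit 3) (nat_lit 291) (nat_lit 192) (nat_lit 297))))) (PT.nd (nat_lit 312) (PT.nd (nat_lit 156) (PT.nd (nat_lit 78) (PT.lf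 (nat_lit 10032) (nat_lit 6) (nat_lit 132) (nat_lit 3) (nat_lit 292) (nat_lit 192) (nat_lit 296)) (PT.lf (nat_lit 10108) (nat_lit 6) (nat_lit 133) (nat_lit 3) (nat_lit 293) (nat_lit 192) (nat_lit 295))) (PT.nd (nat_lit 78) (PT.lf (nat_lit 10184) (nat_lit 3) (nat_lit 134) (nat_lit 1) (nat_lit 294) (nat_lit 192) (nat_lit 294)) (PT.lf (nat_lit 10108) (nat_lit 6) (nat_lit 133) (nat_lit 1) (nat_lit 295) (nat_lit 192) (nat_lit 293)))) (PT.nd (nat_lit 80808) (PT.nd (nat_lit 78) (PT.lf (nat_lit 10032) (nat_lit 6) (nat_lit 132) (nat_lit 1) (nat_lit 296) (nat_lit 192) (nat_lit 292)) (PT.lf (nat_lit 9956) (nat_lit 6) (nat_lit 131) (nat_lit 1) (nat_lit 297) (nat_lit 192) (nat_lit 291))) (PT.nd (nat_lit 78) (PT.lf (nat_lit 10336) (nat_lit 6) (nat_lit 136) (nat_lit 3) (nat_lit 291) (nat_lit 193) (nat_lit 296)) (PT.lf (nat_lit 10412) (nat_lit 6) (nat_lit 137) (nat_lit 3) (nat_lit 292) (nat_lit 193) (nat_lit 295)))))) (PT.nd (nat_lit 81276) (PT.nd (nat_lit 80964) (PT.nd (nat_lit 156) (PT.nd (nat_lit 78) (PT.lf (nat_lit 10488)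 (nat_lit 6) (nat_lit 138) (nat_lit 3) (nat_lit 293) (nat_lit 193) (nat_lit 294)) (PT.lf (nat_lit 10488) (nat_lit 6) (nat_lit 138) (nat_lit 1) (nat_lit 294) (nat_lit 193) (nat_lit 293))) (PT.nd (nat_lit 78) (PT.lf (nat_lit 10412) (nat_lit 6) (nat_lit 137) (nat_lit 1) (nat_lit 295) (nat_lit 193) (nat_lit 292)) (PT.lf (nat_lit 10336) (nat_lit 6) (nat_lit 136) (nat_lit 1) (nat_lit 296) (nat_lit 193) (nat_lit 291)))) (PT.nd (nat_lit 156) (PT.nd (nat_lit 78) (PT.lf (nat_lit 10640) (nat_lit 6) (nat_lit 140) (nat_lit 3) (nat_lit 290) (nat_lit 194) (nat_lit 296)) (PT.lf (nat_lit 10716) (nat_lit 6) (nat_lit 141) (nat_lit 3) (nat_lit 291) (nat_lit 194) (nat_lit 295))) (PT.nd (nat_lit 78) (PT.lf (nat_lit 10792) (nat_lit 6) (nat_lit 142) (nat_lit 3) (nat_lit 292) (nat_lit 194) (nat_lit 294)) (PT.lf (nat_lit 10868) (nat_lit 3) (nat_lit 143) (nat_lit 1) (nat_lit 293) (nat_lit 194) (nat_lit 293))))) (PT.nd (nat_lit 80808) (PT.nd (nat_lit 156) (PT.nd (nat_lit 78) (PT.lf (nat_lit 10792) (nat_lit 6) (nat_lit 142) (nat_lit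 1) (nat_lit 294) (nat_lit 194) (nat_lit 292)) (PT.lf (nat_lit 10716) (nat_lit 6) (nat_lit 141) (nat_lit 1) (nat_lit 295) (nat_lit 194) (nat_lit 291))) (PT.nd (nat_lit 80574) (PT.lf (nat_lit 10640) (nat_lit 6) (nat_lit 140) (nat_lit 1) (nat_lit 296) (nat_lit 194) (nat_lit 290)) (PT.lf (nat_lit 10944) (nat_lit 6) (nat_lit 144) (nat_lit 3) (nat_lit 288) (nat_lit 195) (nat_lit 297)))) (PT.nd (nat_lit 156) (PT.nd (nat_lit 78) (PT.lf (nat_lit 11020) (nat_lit 6) (nat_lit 145) (nat_lit 3) (nat_lit 289) (nat_lit 195) (nat_lit 296)) (PT.lf (nat_lit 11096) (nat_lit 6) (nat_lit 146) (nat_lit 3) (nat_lit 290) (nat_lit 195) (nat_lit 295))) (PT.nd (nat_lit 78) (PT.lf (nat_lit 11172) (nat_lit 6) (nat_lit 147) (nat_lit 3) (nat_lit 291) (nat_lit 195) (nat_lit 294)) (PT.lf (nat_lit 11248) (nat_lit 6) (nat_lit 148) (nat_lit 3) (nat_lit 292) (nat_lit 195) (nat_lit 293))))))) (PT.nd (nat_lit 162084) (PT.nd (nat_lit 81042) (PT.nd (nat_lit 312) (PT.nd (nat_lit 156) (PT.nd (nat_lit 78) (PT.lf (nat_lit 11248) (nat_lit 6) (nat_lit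 148) (nat_lit 1) (nat_lit 293) (nat_lit 195) (nat_lit 292)) (PT.lf (nat_lit 11172) (nat_lit 6) (nat_lit 147) (nat_lit 1) (nat_lit 294) (nat_lit 195) (nat_lit 291))) (PT.nd (nat_lit 78) (PT.lf (nat_lit 11096) (nat_lit 6) (nat_lit 146) (nat_lit 1) (nat_lit 295) (nat_lit 195) (nat_lit 290)) (PT.lf (nat_lit 11020) (nat_lit 6) (nat_lit 145) (nat_lit 1) (nat_lit 296) (nat_lit 195) (nat_lit 289)))) (PT.nd (nat_lit 80574) (PT.nd (nat_lit 80496) (PT.lf (nat_lit 10944) (nat_lit 6) (nat_lit 144) (nat_lit 1) (nat_lit 297) (nat_lit 195) (nat_lit 288)) (PT.lf (nat_lit 11324) (nat_lit 6) (nat_lit 149) (nat_lit 3) (nat_lit 288) (nat_lit 196) (nat_lit 296))) (PT.nd (nat_lit 78) (PT.lf (nat_lit 11400) (nat_lit 6) (nat_lit 150) (nat_lit 3) (nat_lit 289) (nat_lit 196) (nat_lit 295)) (PT.lf (nat_lit 11476) (nat_lit 6) (nat_lit 151) (nat_lit 3) (nat_lit 290) (nat_lit 196) (nat_lit 294))))) (PT.nd (nat_lit 312) (PT.nd (nat_lit 156) (PT.nd (nat_lit 78) (PT.lf (nat_lit 11552) (nat_lit 6) (nat_lit 152) (nat_lit 3) (nat_lit 291) (nat_lit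 196) (nat_lit 293)) (PT.lf (nat_lit 11628) (nat_lit 3) (nat_lit 153) (nat_lit 1) (nat_lit 292) (nat_lit 196) (nat_lit 292))) (PT.nd (nat_lit 78) (PT.lf (nat_lit 11552) (nat_lit 6) (nat_lit 152) (nat_lit 1) (nat_lit 293) (nat_lit 196) (nat_lit 291)) (PT.lf (nat_lit 11476) (nat_lit 6) (nat_lit 151) (nat_lit 1) (nat_lit 294) (nat_lit 196) (nat_lit 290)))) (PT.nd (nat_lit 80574) (PT.nd (nat_lit 78) (PT.lf (nat_lit 11400) (nat_lit 6) (nat_lit 150) (nat_lit 1) (nat_lit 295) (nat_lit 196) (nat_lit 289)) (PT.lf (nat_lit 11324) (nat_lit 6) (nat_lit 149) (nat_lit 1) (nat_lit 296) (nat_lit 196) (nat_lit 288))) (PT.nd (nat_lit 78) (PT.lf (nat_lit 11704) (nat_lit 6) (nat_lit 154) (nat_lit 3) (nat_lit 287) (nat_lit 197) (nat_lit 296)) (PT.lf (nat_lit 11780) (nat_lit 6) (nat_lit 155) (nat_lit 3) (nat_lit 288) (nat_lit 197) (nat_lit 295)))))) (PT.nd (nat_lit 81042) (PT.nd (nat_lit 312) (PT.nd (nat_lit 156) (PT.nd (nat_lit 78) (PT.lf (nat_lit 11856) (nat_lit 6) (nat_lit 156) (nat_lit 3) (nat_lit 289) (nat_lit 197) (nat_lit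 294)) (PT.lf (nat_lit 11932) (nat_lit 6) (nat_lit 157) (nat_lit 3) (nat_lit 290) (nat_lit 197) (nat_lit 293))) (PT.nd (nat_lit 78) (PT.lf (nat_lit 12008) (nat_lit 6) (nat_lit 158) (nat_lit 3) (nat_lit 291) (nat_lit 197) (nat_lit 292)) (PT.lf (nat_lit 12008) (nat_lit 6) (nat_lit 158) (nat_lit 1) (nat_lit 292) (nat_lit 197) (nat_lit 291)))) (PT.nd (nat_lit 156) (PT.nd (nat_lit 78) (PT.lf (nat_lit 11932) (nat_lit 6) (nat_lit 157) (nat_lit 1) (nat_lit 293) (nat_lit 197) (nat_lit 290)) (PT.lf (nat_lit 11856) (nat_lit 6) (nat_lit 156) (nat_lit 1) (nat_lit 294) (nat_lit 197) (nat_lit 289))) (PT.nd (nat_lit 78) (PT.lf (nat_lit 11780) (nat_lit 6) (nat_lit 155) (nat_lit 1) (nat_lit 295) (nat_lit 197) (nat_lit 288)) (PT.lf (nat_lit 11704) (nat_lit 6) (nat_lit 154) (nat_lit 1) (nat_lit 296) (nat_lit 197) (nat_lit 287))))) (PT.nd (nat_lit 312) (PT.nd (nat_lit 156) (PT.nd (nat_lit 78) (PT.lf (nat_lit 12084) (nat_lit 6) (nat_lit 159) (nat_lit 3) (nat_lit 287) (nat_lit 198) (nat_lit 295)) (PT.lf (nat_lit 12160) (nat_lit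 6) (nat_lit 160) (nat_lit 3) (nat_lit 288) (nat_lit 198) (nat_lit 294))) (PT.nd (nat_lit 78) (PT.lf (nat_lit 12236) (nat_lit 6) (nat_lit 161) (nat_lit 3) (nat_lit 289) (nat_lit 198) (nat_lit 293)) (PT.lf (nat_lit 12312) (nat_lit 6) (nat_lit 162) (nat_lit 3) (nat_lit 290) (nat_lit 198) (nat_lit 292)))) (PT.nd (nat_lit 156) (PT.nd (nat_lit 78) (PT.lf (nat_lit 12388) (nat_lit 3) (nat_lit 163) (nat_lit 1) (nat_lit 291) (nat_lit 198) (nat_lit 291)) (PT.lf (nat_lit 12312) (nat_lit 6) (nat_lit 162) (nat_lit 1) (nat_lit 292) (nat_lit 198) (nat_lit 290))) (PT.nd (nat_lit 78) (PT.lf (nat_lit 12236) (nat_lit 6) (nat_lit 161) (nat_lit 1) (nat_lit 293) (nat_lit 198) (nat_lit 289)) (PT.lf (nat_lit 12160) (nat_lit 6) (nat_lit 160) (nat_lit 1) (nat_lit 294) (nat_lit 198) (nat_lit 288))))))))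
noncomputable def pc2 : PT := (PT.nd (nat_lit 243516) (PT.nd (nat_lit 161928) (PT.nd (nat_lit 80964) (PT.nd (nat_lit 80652) (PT.nd (nat_lit 80496) (PT.lf (nat_lit 12084) (nat_lit 6) (nat_lit 159) (nat_lit 1) (nat_lit 295) (nat_lit 198) (nat_lit 287)) (PT.nd (nat_lit 78) (PT.lf (nat_lit 12464) (nat_lit 6) (nat_lit 164) (nat_lit 3) (nat_lit 286) (nat_lit 199) (nat_lit 295)) (PT.lf (nat_lit 12540) (nat_lit 6) (nat_lit 165) (nat_lit 3) (nat_lit 287) (nat_lit 199) (nat_lit 294)))) (PT.nd (nat_lit 156) (PT.nd (nat_lit 78) (PT.lf (nat_lit 12616) (nat_lit 6) (nat_lit 166) (nat_lit 3) (nat_lit 288) (nat_lit 199) (nat_lit 293)) (PT.lf (nat_lit 12692) (nat_lit 6) (nat_lit 167) (nat_lit 3) (nat_lit 289) (nat_lit 199) (nat_lit 292))) (PT.nd (nat_lit 78) (PT.lf (nat_lit 12768) (nat_lit 6) (nat_lit 168) (nat_lit 3) (nat_lit 290) (nat_lit 199) (nat_lit 291)) (PT.lf (nat_lit 12768) (nat_lit 6) (nat_lit 168) (nat_lit 1) (nat_lit 291) (nat_lit 199) (nat_lit 290))))) (PT.nd (nat_lit 80652) (PT.nd (nat_lit 156) (PT.nd (nat_lit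 78) (PT.lf (nat_lit 12692) (nat_lit 6) (nat_lit 167) (nat_lit 1) (nat_lit 292) (nat_lit 199) (nat_lit 289)) (PT.lf (nat_lit 12616) (nat_lit 6) (nat_lit 166) (nat_lit 1) (nat_lit 293) (nat_lit 199) (nat_lit 288))) (PT.nd (nat_lit 78) (PT.lf (nat_lit 12540) (nat_lit 6) (nat_lit 165) (nat_lit 1) (nat_lit 294) (nat_lit 199) (nat_lit 287)) (PT.lf (nat_lit 12464) (nat_lit 6) (nat_lit 164) (nat_lit 1) (nat_lit 295) (nat_lit 199) (nat_lit 286)))) (PT.nd (nat_lit 156) (PT.nd (nat_lit 78) (PT.lf (nat_lit 12844) (nat_lit 6) (nat_lit 169) (nat_lit 3) (nat_lit 285) (nat_lit 200) (nat_lit 295)) (PT.lf (nat_lit 12920) (nat_lit 6) (nat_lit 170) (nat_lit 3) (nat_lit 286) (nat_lit 200) (nat_lit 294))) (PT.nd (nat_lit 78) (PT.lf (nat_lit 12996) (nat_lit 6) (nat_lit 171) (nat_lit 3) (nat_lit 287) (nat_lit 200) (nat_lit 293)) (PT.lf (nat_lit 13072) (nat_lit 6) (nat_lit 172) (nat_lit 3) (nat_lit 288) (nat_lit 200) (nat_lit 292)))))) (PT.nd (nat_lit 80964) (PT.nd (nat_lit 312) (PT.nd (nat_lit 156) (PT.nd (nat_lit 78) (PT.lf (nat_lit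 13148) (nat_lit 6) (nat_lit 173) (nat_lit 3) (nat_lit 289) (nat_lit 200) (nat_lit 291)) (PT.lf (nat_lit 13224) (nat_lit 3) (nat_lit 174) (nat_lit 1) (nat_lit 290) (nat_lit 200) (nat_lit 290))) (PT.nd (nat_lit 78) (PT.lf (nat_lit 13148) (nat_lit 6) (nat_lit 173) (nat_lit 1) (nat_lit 291) (nat_lit 200) (nat_lit 289)) (PT.lf (nat_lit 13072) (nat_lit 6) (nat_lit 172) (nat_lit 1) (nat_lit 292) (nat_lit 200) (nat_lit 288)))) (PT.nd (nat_lit 156) (PT.nd (nat_lit 78) (PT.lf (nat_lit 12996) (nat_lit 6) (nat_lit 171) (nat_lit 1) (nat_lit 293) (nat_lit 200) (nat_lit 287)) (PT.lf (nat_lit 12920) (nat_lit 6) (nat_lit 170) (nat_lit 1) (nat_lit 294) (nat_lit 200) (nat_lit 286))) (PT.nd (nat_lit 80418) (PT.lf (nat_lit 12844) (nat_lit 6) (nat_lit 169) (nat_lit 1) (nat_lit 295) (nat_lit 200) (nat_lit 285)) (PT.lf (nat_lit 13300) (nat_lit 6) (nat_lit 175) (nat_lit 3) (nat_lit 285) (nat_lit 201) (nat_lit 294))))) (PT.nd (nat_lit 312) (PT.nd (nat_lit 156) (PT.nd (nat_lit 78) (PT.lf (nat_lit 13376) (nat_lit 6) (nat_lit 176) (nat_lit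 3) (nat_lit 286) (nat_lit 201) (nat_lit 293)) (PT.lf (nat_lit 13452) (nat_lit 6) (nat_lit 177) (nat_lit 3) (nat_lit 287) (nat_lit 201) (nat_lit 292))) (PT.nd (nat_lit 78) (PT.lf (nat_lit 13528) (nat_lit 6) (nat_lit 178) (nat_lit 3) (nat_lit 288) (nat_lit 201) (nat_lit 291)) (PT.lf (nat_lit 13604) (nat_lit 6) (nat_lit 179) (nat_lit 3) (nat_lit 289) (nat_lit 201) (nat_lit 290)))) (PT.nd (nat_lit 156) (PT.nd (nat_lit 78) (PT.lf (nat_lit 13604) (nat_lit 6) (nat_lit 179) (nat_lit 1) (nat_lit 290) (nat_lit 201) (nat_lit 289)) (PT.lf (nat_lit 13528) (nat_lit 6) (nat_lit 178) (nat_lit 1) (nat_lit 291) (nat_lit 201) (nat_lit 288))) (PT.nd (nat_lit 78) (PT.lf (nat_lit 13452) (nat_lit 6) (nat_lit 177) (nat_lit 1) (nat_lit 292) (nat_lit 201) (nat_lit 287)) (PT.lf (nat_lit 13376) (nat_lit 6) (nat_lit 176) (nat_lit 1) (nat_lit 293) (nat_lit 201) (nat_lit 286))))))) (PT.nd (nat_lit 161850) (PT.nd (nat_lit 80886) (PT.nd (nat_lit 80574) (PT.nd (nat_lit 80418) (PT.lf (nat_lit 13300) (nat_lit 6) (nat_lit 175) (nat_lit 1) (nat_lit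 294) (nat_lit 201) (nat_lit 285)) (PT.nd (nat_lit 78) (PT.lf (nat_lit 13680) (nat_lit 6) (nat_lit 180) (nat_lit 3) (nat_lit 284) (nat_lit 202) (nat_lit 294)) (PT.lf (nat_lit 13756) (nat_lit 6) (nat_lit 181) (nat_lit 3) (nat_lit 285) (nat_lit 202) (nat_lit 293)))) (PT.nd (nat_lit 156) (PT.nd (nat_lit 78) (PT.lf (nat_lit 13832) (nat_lit 6) (nat_lit 182) (nat_lit 3) (nat_lit 286) (nat_lit 202) (nat_lit 292)) (PT.lf (nat_lit 13908) (nat_lit 6) (nat_lit 183) (nat_lit 3) (nat_lit 287) (nat_lit 202) (nat_lit 291))) (PT.nd (nat_lit 78) (PT.lf (nat_lit 13984) (nat_lit 6) (nat_lit 184) (nat_lit 3) (nat_lit 288) (nat_lit 202) (nat_lit 290)) (PT.lf (nat_lit 14060) (nat_lit 3) (nat_lit 185) (nat_lit 1) (nat_lit 289) (nat_lit 202) (nat_lit 289))))) (PT.nd (nat_lit 312) (PT.nd (nat_lit 156) (PT.nd (nat_lit 78) (PT.lf (nat_lit 13984) (nat_lit 6) (nat_lit 184) (nat_lit 1) (nat_lit 290) (nat_lit 202) (nat_lit 288)) (PT.lf (nat_lit 13908) (nat_lit 6) (nat_lit 183) (nat_lit 1) (nat_lit 291) (nat_lit 202) (nat_lit 287))) (PT.nd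 (nat_lit 78) (PT.lf (nat_lit 13832) (nat_lit 6) (nat_lit 182) (nat_lit 1) (nat_lit 292) (nat_lit 202) (nat_lit 286)) (PT.lf (nat_lit 13756) (nat_lit 6) (nat_lit 181) (nat_lit 1) (nat_lit 293) (nat_lit 202) (nat_lit 285)))) (PT.nd (nat_lit 80496) (PT.nd (nat_lit 80418) (PT.lf (nat_lit 13680) (nat_lit 6) (nat_lit 180) (nat_lit 1) (nat_lit 294) (nat_lit 202) (nat_lit 284)) (PT.lf (nat_lit 14136) (nat_lit 6) (nat_lit 186) (nat_lit 3) (nat_lit 284) (nat_lit 203) (nat_lit 293))) (PT.nd (nat_lit 78) (PT.lf (nat_lit 14212) (nat_lit 6) (nat_lit 187) (nat_lit 3) (nat_lit 285) (nat_lit 203) (nat_lit 292)) (PT.lf (nat_lit 14288) (nat_lit 6) (nat_lit 188) (nat_lit 3) (nat_lit 286) (nat_lit 203) (nat_lit 291)))))) (PT.nd (nat_lit 80964) (PT.nd (nat_lit 312) (PT.nd (nat_lit 156) (PT.nd (nat_lit 78) (PT.lf (nat_lit 14364) (nat_lit 6) (nat_lit 189) (nat_lit 3) (nat_lit 287) (nat_lit 203) (nat_lit 290)) (PT.lf (nat_lit 14440) (nat_lit 6) (nat_lit 190) (nat_lit 3) (nat_lit 288) (nat_lit 203) (nat_lit 289))) (PT.nd (nat_lit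 78) (PT.lf (nat_lit 14440) (nat_lit 6) (nat_lit 190) (nat_lit 1) (nat_lit 289) (nat_lit 203) (nat_lit 288)) (PT.lf (nat_lit 14364) (nat_lit 6) (nat_lit 189) (nat_lit 1) (nat_lit 290) (nat_lit 203) (nat_lit 287)))) (PT.nd (nat_lit 156) (PT.nd (nat_lit 78) (PT.lf (nat_lit 14288) (nat_lit 6) (nat_lit 188) (nat_lit 1) (nat_lit 291) (nat_lit 203) (nat_lit 286)) (PT.lf (nat_lit 14212) (nat_lit 6) (nat_lit 187) (nat_lit 1) (nat_lit 292) (nat_lit 203) (nat_lit 285))) (PT.nd (nat_lit 80418) (PT.lf (nat_lit 14136) (nat_lit 6) (nat_lit 186) (nat_lit 1) (nat_lit 293) (nat_lit 203) (nat_lit 284)) (PT.lf (nat_lit 14516) (nat_lit 6) (nat_lit 191) (nat_lit 3) (nat_lit 283) (nat_lit 204) (nat_lit 293))))) (PT.nd (nat_lit 312) (PT.nd (nat_lit 156) (PT.nd (nat_lit 78) (PT.lf (nat_lit 14592) (nat_lit 6) (nat_lit 192) (nat_lit 3) (nat_lit 284) (nat_lit 204) (nat_lit 292)) (PT.lf (nat_lit 14668) (nat_lit 6) (nat_lit 193) (nat_lit 3) (nat_lit 285) (nat_lit 204) (nat_lit 291))) (PT.nd (nat_lit 78) (PT.lf (nat_lit 14744) (nat_lit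 6) (nat_lit 194) (nat_lit 3) (nat_lit 286) (nat_lit 204) (nat_lit 290)) (PT.lf (nat_lit 14820) (nat_lit 6) (nat_lit 195) (nat_lit 3) (nat_lit 287) (nat_lit 204) (nat_lit 289)))) (PT.nd (nat_lit 156) (PT.nd (nat_lit 78) (PT.lf (nat_lit 14896) (nat_lit 3) (nat_lit 196) (nat_lit 1) (nat_lit 288) (nat_lit 204) (nat_lit 288)) (PT.lf (nat_lit 14820) (nat_lit 6) (nat_lit 195) (nat_lit 1) (nat_lit 289) (nat_lit 204) (nat_lit 287))) (PT.nd (nat_lit 78) (PT.lf (nat_lit 14744) (nat_lit 6) (nat_lit 194) (nat_lit 1) (nat_lit 290) (nat_lit 204) (nat_lit 286)) (PT.lf (nat_lit 14668) (nat_lit 6) (nat_lit 193) (nat_lit 1) (nat_lit 291) (nat_lit 204) (nat_lit 285))))))))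
noncomputable def pc3 : PT := (PT.nd (nat_lit 243204) (PT.nd (nat_lit 161694) (PT.nd (nat_lit 80808) (PT.nd (nat_lit 80496) (PT.nd (nat_lit 78) (PT.lf (nat_lit 14592) (nat_lit 6) (nat_lit 192) (nat_lit 1) (nat_lit 292) (nat_lit 204) (nat_lit 284)) (PT.nd (nat_lit 80340) (PT.lf (nat_lit 14516) (nat_lit 6) (nat_lit 191) (nat_lit 1) (nat_lit 293) (nat_lit 204) (nat_lit 283)) (PT.lf (nat_lit 14972) (nat_lit 6) (nat_lit 197) (nat_lit 3) (nat_lit 282) (nat_lit 205) (nat_lit 293)))) (PT.nd (nat_lit 156) (PT.nd (nat_lit 78) (PT.lf (nat_lit 15048) (nat_lit 6) (nat_lit 198) (nat_lit 3) (nat_lit 283) (nat_lit 205) (nat_lit 292)) (PT.lf (nat_lit 15124) (nat_lit 6) (nat_lit 199) (nat_lit 3) (nat_lit 284) (nat_lit 205) (nat_lit 291))) (PT.nd (nat_lit 78) (PT.lf (nat_lit 15200) (nat_lit 6) (nat_lit 200) (nat_lit 3) (nat_lit 285) (nat_lit 205) (nat_lit 290)) (PT.lf (nat_lit 15276) (nat_lit 6) (nat_lit 201) (nat_lit 3) (nat_lit 286) (nat_lit 205) (nat_lit 289))))) (PT.nd (nat_lit 312) (PT.nd (nat_lit 156) (PT.nd (nat_lit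 78) (PT.lf (nat_lit 15352) (nat_lit 6) (nat_lit 202) (nat_lit 3) (nat_lit 287) (nat_lit 205) (nat_lit 288)) (PT.lf (nat_lit 15352) (nat_lit 6) (nat_lit 202) (nat_lit 1) (nat_lit 288) (nat_lit 205) (nat_lit 287))) (PT.nd (nat_lit 78) (PT.lf (nat_lit 15276) (nat_lit 6) (nat_lit 201) (nat_lit 1) (nat_lit 289) (nat_lit 205) (nat_lit 286)) (PT.lf (nat_lit 15200) (nat_lit 6) (nat_lit 200) (nat_lit 1) (nat_lit 290) (nat_lit 205) (nat_lit 285)))) (PT.nd (nat_lit 156) (PT.nd (nat_lit 78) (PT.lf (nat_lit 15124) (nat_lit 6) (nat_lit 199) (nat_lit 1) (nat_lit 291) (nat_lit 205) (nat_lit 284)) (PT.lf (nat_lit 15048) (nat_lit 6) (nat_lit 198) (nat_lit 1) (nat_lit 292) (nat_lit 205) (nat_lit 283))) (PT.nd (nat_lit 80340) (PT.lf (nat_lit 14972) (nat_lit 6) (nat_lit 197) (nat_lit 1) (nat_lit 293) (nat_lit 205) (nat_lit 282)) (PT.lf (nat_lit 15428) (nat_lit 6) (nat_lit 203) (nat_lit 3) (nat_lit 282) (nat_lit 206) (nat_lit 292)))))) (PT.nd (nat_lit 624) (PT.nd (nat_lit 312) (PT.nd (nat_lit 156) (PT.nd (nat_lit 78) (PT.lf (nat_lit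 15504) (nat_lit 6) (nat_lit 204) (nat_lit 3) (nat_lit 283) (nat_lit 206) (nat_lit 291)) (PT.lf (nat_lit 15580) (nat_lit 6) (nat_lit 205) (nat_lit 3) (nat_lit 284) (nat_lit 206) (nat_lit 290))) (PT.nd (nat_lit 78) (PT.lf (nat_lit 15656) (nat_lit 6) (nat_lit 206) (nat_lit 3) (nat_lit 285) (nat_lit 206) (nat_lit 289)) (PT.lf (nat_lit 15732) (nat_lit 6) (nat_lit 207) (nat_lit 3) (nat_lit 286) (nat_lit 206) (nat_lit 288)))) (PT.nd (nat_lit 156) (PT.nd (nat_lit 78) (PT.lf (nat_lit 15808) (nat_lit 3) (nat_lit 208) (nat_lit 1) (nat_lit 287) (nat_lit 206) (nat_lit 287)) (PT.lf (nat_lit 15732) (nat_lit 6) (nat_lit 207) (nat_lit 1) (nat_lit 288) (nat_lit 206) (nat_lit 286))) (PT.nd (nat_lit 78) (PT.lf (nat_lit 15656) (nat_lit 6) (nat_lit 206) (nat_lit 1) (nat_lit 289) (nat_lit 206) (nat_lit 285)) (PT.lf (nat_lit 15580) (nat_lit 6) (nat_lit 205) (nat_lit 1) (nat_lit 290) (nat_lit 206) (nat_lit 284))))) (PT.nd (nat_lit 80574) (PT.nd (nat_lit 80418) (PT.nd (nat_lit 78) (PT.lf (nat_lit 15504) (nat_lit 6) (nat_lit 204)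 (nat_lit 1) (nat_lit 291) (nat_lit 206) (nat_lit 283)) (PT.lf (nat_lit 15428) (nat_lit 6) (nat_lit 203) (nat_lit 1) (nat_lit 292) (nat_lit 206) (nat_lit 282))) (PT.nd (nat_lit 78) (PT.lf (nat_lit 15884) (nat_lit 6) (nat_lit 209) (nat_lit 3) (nat_lit 281) (nat_lit 207) (nat_lit 292)) (PT.lf (nat_lit 15960) (nat_lit 6) (nat_lit 210) (nat_lit 3) (nat_lit 282) (nat_lit 207) (nat_lit 291)))) (PT.nd (nat_lit 156) (PT.nd (nat_lit 78) (PT.lf (nat_lit 16036) (nat_lit 6) (nat_lit 211) (nat_lit 3) (nat_lit 283) (nat_lit 207) (nat_lit 290)) (PT.lf (nat_lit 16112) (nat_lit 6) (nat_lit 212) (nat_lit 3) (nat_lit 284) (nat_lit 207) (nat_lit 289))) (PT.nd (nat_lit 78) (PT.lf (nat_lit 16188) (nat_lit 6) (nat_lit 213) (nat_lit 3) (nat_lit 285) (nat_lit 207) (nat_lit 288)) (PT.lf (nat_lit 16264) (nat_lit 6) (nat_lit 214) (nat_lit 3) (nat_lit 286) (nat_lit 207) (nat_lit 287))))))) (PT.nd (nat_lit 81432) (PT.nd (nat_lit 80808) (PT.nd (nat_lit 312) (PT.nd (nat_lit 156) (PT.nd (nat_lit 78) (PT.lf (nat_lit 16264) (nat_lit 6) (nat_lit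 214) (nat_lit 1) (nat_lit 287) (nat_lit 207) (nat_lit 286)) (PT.lf (nat_lit 16188) (nat_lit 6) (nat_lit 213) (nat_lit 1) (nat_lit 288) (nat_lit 207) (nat_lit 285))) (PT.nd (nat_lit 78) (PT.lf (nat_lit 16112) (nat_lit 6) (nat_lit 212) (nat_lit 1) (nat_lit 289) (nat_lit 207) (nat_lit 284)) (PT.lf (nat_lit 16036) (nat_lit 6) (nat_lit 211) (nat_lit 1) (nat_lit 290) (nat_lit 207) (nat_lit 283)))) (PT.nd (nat_lit 80340) (PT.nd (nat_lit 78) (PT.lf (nat_lit 15960) (nat_lit 6) (nat_lit 210) (nat_lit 1) (nat_lit 291) (nat_lit 207) (nat_lit 282)) (PT.lf (nat_lit 15884) (nat_lit 6) (nat_lit 209) (nat_lit 1) (nat_lit 292) (nat_lit 207) (nat_lit 281))) (PT.nd (nat_lit 78) (PT.lf (nat_lit 16340) (nat_lit 6) (nat_lit 215) (nat_lit 3) (nat_lit 280) (nat_lit 208) (nat_lit 292)) (PT.lf (nat_lit 16416) (nat_lit 6) (nat_lit 216) (nat_lit 3) (nat_lit 281) (nat_lit 208) (nat_lit 291))))) (PT.nd (nat_lit 312) (PT.nd (nat_lit 156) (PT.nd (nat_lit 78) (PT.lf (nat_lit 16492) (nat_lit 6) (nat_lit 217) (nat_lit 3) (nat_lit 282) (nat_lit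 208) (nat_lit 290)) (PT.lf (nat_lit 16568) (nat_lit 6) (nat_lit 218) (nat_lit 3) (nat_lit 283) (nat_lit 208) (nat_lit 289))) (PT.nd (nat_lit 78) (PT.lf (nat_lit 16644) (nat_lit 6) (nat_lit 219) (nat_lit 3) (nat_lit 284) (nat_lit 208) (nat_lit 288)) (PT.lf (nat_lit 16720) (nat_lit 6) (nat_lit 220) (nat_lit 3) (nat_lit 285) (nat_lit 208) (nat_lit 287)))) (PT.nd (nat_lit 156) (PT.nd (nat_lit 78) (PT.lf (nat_lit 16796) (nat_lit 3) (nat_lit 221) (nat_lit 1) (nat_lit 286) (nat_lit 208) (nat_lit 286)) (PT.lf (nat_lit 16720) (nat_lit 6) (nat_lit 220) (nat_lit 1) (nat_lit 287) (nat_lit 208) (nat_lit 285))) (PT.nd (nat_lit 78) (PT.lf (nat_lit 16644) (nat_lit 6) (nat_lit 219) (nat_lit 1) (nat_lit 288) (nat_lit 208) (nat_lit 284)) (PT.lf (nat_lit 16568) (nat_lit 6) (nat_lit 218) (nat_lit 1) (nat_lit 289) (nat_lit 208) (nat_lit 283)))))) (PT.nd (nat_lit 80808) (PT.nd (nat_lit 80496) (PT.nd (nat_lit 156) (PT.nd (nat_lit 78) (PT.lf (nat_lit 16492) (nat_lit 6) (nat_lit 217) (nat_lit 1) (nat_lit 290) (nat_lit 208) (nat_lit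 282)) (PT.lf (nat_lit 16416) (nat_lit 6) (nat_lit 216) (nat_lit 1) (nat_lit 291) (nat_lit 208) (nat_lit 281))) (PT.nd (nat_lit 80262) (PT.lf (nat_lit 16340) (nat_lit 6) (nat_lit 215) (nat_lit 1) (nat_lit 292) (nat_lit 208) (nat_lit 280)) (PT.lf (nat_lit 16872) (nat_lit 6) (nat_lit 222) (nat_lit 3) (nat_lit 280) (nat_lit 209) (nat_lit 291)))) (PT.nd (nat_lit 156) (PT.nd (nat_lit 78) (PT.lf (nat_lit 16948) (nat_lit 6) (nat_lit 223) (nat_lit 3) (nat_lit 281) (nat_lit 209) (nat_lit 290)) (PT.lf (nat_lit 17024) (nat_lit 6) (nat_lit 224) (nat_lit 3) (nat_lit 282) (nat_lit 209) (nat_lit 289))) (PT.nd (nat_lit 78) (PT.lf (nat_lit 17100) (nat_lit 6) (nat_lit 225) (nat_lit 3) (nat_lit 283) (nat_lit 209) (nat_lit 288)) (PT.lf (nat_lit 17176) (nat_lit 6) (nat_lit 226) (nat_lit 3) (nat_lit 284) (nat_lit 209) (nat_lit 287))))) (PT.nd (nat_lit 312) (PT.nd (nat_lit 156) (PT.nd (nat_lit 78) (PT.lf (nat_lit 17252) (nat_lit 6) (nat_lit 227) (nat_lit 3) (nat_lit 285) (nat_lit 209) (nat_lit 286)) (PT.lf (nat_lit 17252) (nat_lit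 6) (nat_lit 227) (nat_lit 1) (nat_lit 286) (nat_lit 209) (nat_lit 285))) (PT.nd (nat_lit 78) (PT.lf (nat_lit 17176) (nat_lit 6) (nat_lit 226) (nat_lit 1) (nat_lit 287) (nat_lit 209) (nat_lit 284)) (PT.lf (nat_lit 17100) (nat_lit 6) (nat_lit 225) (nat_lit 1) (nat_lit 288) (nat_lit 209) (nat_lit 283)))) (PT.nd (nat_lit 156) (PT.nd (nat_lit 78) (PT.lf (nat_lit 17024) (nat_lit 6) (nat_lit 224) (nat_lit 1) (nat_lit 289) (nat_lit 209) (nat_lit 282)) (PT.lf (nat_lit 16948) (nat_lit 6) (nat_lit 223) (nat_lit 1) (nat_lit 290) (nat_lit 209) (nat_lit 281))) (PT.nd (nat_lit 80262) (PT.lf (nat_lit 16872) (nat_lit 6) (nat_lit 222) (nat_lit 1) (nat_lit 291) (nat_lit 209) (nat_lit 280)) (PT.lf (nat_lit 17328) (nat_lit 6) (nat_lit 228) (nat_lit 3) (nat_lit 279) (nat_lit 210) (nat_lit 291))))))))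
noncomputable def pc4 : PT := (PT.nd (nat_lit 162630) (PT.nd (nat_lit 81276) (PT.nd (nat_lit 546) (PT.nd (nat_lit 234) (PT.nd (nat_lit 78) (PT.lf (nat_lit 17404) (nat_lit 6) (nat_lit 229) (nat_lit 3) (nat_lit 280) (nat_lit 210) (nat_lit 290)) (PT.nd (nat_lit 78) (PT.lf (nat_lit 17480) (nat_lit 6) (nat_lit 230) (nat_lit 3) (nat_lit 281) (nat_lit 210) (nat_lit 289)) (PT.lf (nat_lit 17556) (nat_lit 6) (nat_lit 231) (nat_lit 3) (nat_lit 282) (nat_lit 210) (nat_lit 288)))) (PT.nd (nat_lit 156) (PT.nd (nat_lit 78) (PT.lf (nat_lit 17632) (nat_lit 6) (nat_lit 232) (nat_lit 3) (nat_lit 283) (nat_lit 210) (nat_lit 287)) (PT.lf (nat_lit 17708) (nat_lit 6) (nat_lit 233) (nat_lit 3) (nat_lit 284) (nat_lit 210) (nat_lit 286))) (PT.nd (nat_lit 78) (PT.lf (nat_lit 17784) (nat_lit 3) (nat_lit 234) (nat_lit 1) (nat_lit 285) (nat_lit 210) (nat_lit 285)) (PT.lf (nat_lit 17708) (nat_lit 6) (nat_lit 233) (nat_lit 1) (nat_lit 286) (nat_lit 210) (nat_lit 284))))) (PT.nd (nat_lit 312) (PT.nd (nat_lit 156) (PT.nd (nat_lit 78) (PT.lf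 (nat_lit 17632) (nat_lit 6) (nat_lit 232) (nat_lit 1) (nat_lit 287) (nat_lit 210) (nat_lit 283)) (PT.lf (nat_lit 17556) (nat_lit 6) (nat_lit 231) (nat_lit 1) (nat_lit 288) (nat_lit 210) (nat_lit 282))) (PT.nd (nat_lit 78) (PT.lf (nat_lit 17480) (nat_lit 6) (nat_lit 230) (nat_lit 1) (nat_lit 289) (nat_lit 210) (nat_lit 281)) (PT.lf (nat_lit 17404) (nat_lit 6) (nat_lit 229) (nat_lit 1) (nat_lit 290) (nat_lit 210) (nat_lit 280)))) (PT.nd (nat_lit 80262) (PT.nd (nat_lit 80184) (PT.lf (nat_lit 17328) (nat_lit 6) (nat_lit 228) (nat_lit 1) (nat_lit 291) (nat_lit 210) (nat_lit 279)) (PT.lf (nat_lit 17860) (nat_lit 6) (nat_lit 235) (nat_lit 3) (nat_lit 278) (nat_lit 211) (nat_lit 291))) (PT.nd (nat_lit 78) (PT.lf (nat_lit 17936) (nat_lit 6) (nat_lit 236) (nat_lit 3) (nat_lit 279) (nat_lit 211) (nat_lit 290)) (PT.lf (nat_lit 18012) (nat_lit 6) (nat_lit 237) (nat_lit 3) (nat_lit 280) (nat_lit 211) (nat_lit 289)))))) (PT.nd (nat_lit 624) (PT.nd (nat_lit 312) (PT.nd (nat_lit 156) (PT.nd (nat_lit 78) (PT.lf (nat_lit 18088)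 (nat_lit 6) (nat_lit 238) (nat_lit 3) (nat_lit 281) (nat_lit 211) (nat_lit 288)) (PT.lf (nat_lit 18164) (nat_lit 6) (nat_lit 239) (nat_lit 3) (nat_lit 282) (nat_lit 211) (nat_lit 287))) (PT.nd (nat_lit 78) (PT.lf (nat_lit 18240) (nat_lit 6) (nat_lit 240) (nat_lit 3) (nat_lit 283) (nat_lit 211) (nat_lit 286)) (PT.lf (nat_lit 18316) (nat_lit 6) (nat_lit 241) (nat_lit 3) (nat_lit 284) (nat_lit 211) (nat_lit 285)))) (PT.nd (nat_lit 156) (PT.nd (nat_lit 78) (PT.lf (nat_lit 18316) (nat_lit 6) (nat_lit 241) (nat_lit 1) (nat_lit 285) (nat_lit 211) (nat_lit 284)) (PT.lf (nat_lit 18240) (nat_lit 6) (nat_lit 240) (nat_lit 1) (nat_lit 286) (nat_lit 211) (nat_lit 283))) (PT.nd (nat_lit 78) (PT.lf (nat_lit 18164) (nat_lit 6) (nat_lit 239) (nat_lit 1) (nat_lit 287) (nat_lit 211) (nat_lit 282)) (PT.lf (nat_lit 18088) (nat_lit 6) (nat_lit 238) (nat_lit 1) (nat_lit 288) (nat_lit 211) (nat_lit 281))))) (PT.nd (nat_lit 80418) (PT.nd (nat_lit 156) (PT.nd (nat_lit 78) (PT.lf (nat_lit 18012) (nat_lit 6) (nat_lit 237) (nat_lit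 1) (nat_lit 289) (nat_lit 211) (nat_lit 280)) (PT.lf (nat_lit 17936) (nat_lit 6) (nat_lit 236) (nat_lit 1) (nat_lit 290) (nat_lit 211) (nat_lit 279))) (PT.nd (nat_lit 80184) (PT.lf (nat_lit 17860) (nat_lit 6) (nat_lit 235) (nat_lit 1) (nat_lit 291) (nat_lit 211) (nat_lit 278)) (PT.lf (nat_lit 18392) (nat_lit 6) (nat_lit 242) (nat_lit 3) (nat_lit 278) (nat_lit 212) (nat_lit 290)))) (PT.nd (nat_lit 156) (PT.nd (nat_lit 78) (PT.lf (nat_lit 18468) (nat_lit 6) (nat_lit 243) (nat_lit 3) (nat_lit 279) (nat_lit 212) (nat_lit 289)) (PT.lf (nat_lit 18544) (nat_lit 6) (nat_lit 244) (nat_lit 3) (nat_lit 280) (nat_lit 212) (nat_lit 288))) (PT.nd (nat_lit 78) (PT.lf (nat_lit 18620) (nat_lit 6) (nat_lit 245) (nat_lit 3) (nat_lit 281) (nat_lit 212) (nat_lit 287)) (PT.lf (nat_lit 18696) (nat_lit 6) (nat_lit 246) (nat_lit 3) (nat_lit 282) (nat_lit 212) (nat_lit 286))))))) (PT.nd (nat_lit 81276) (PT.nd (nat_lit 546) (PT.nd (nat_lit 234) (PT.nd (nat_lit 78) (PT.lf (nat_lit 18772) (nat_lit 6) (nat_lit 247) (nat_lit 3) (nat_lit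 283) (nat_lit 212) (nat_lit 285)) (PT.nd (nat_lit 78) (PT.lf (nat_lit 18848) (nat_lit 3) (nat_lit 248) (nat_lit 1) (nat_lit 284) (nat_lit 212) (nat_lit 284)) (PT.lf (nat_lit 18772) (nat_lit 6) (nat_lit 247) (nat_lit 1) (nat_lit 285) (nat_lit 212) (nat_lit 283)))) (PT.nd (nat_lit 156) (PT.nd (nat_lit 78) (PT.lf (nat_lit 18696) (nat_lit 6) (nat_lit 246) (nat_lit 1) (nat_lit 286) (nat_lit 212) (nat_lit 282)) (PT.lf (nat_lit 18620) (nat_lit 6) (nat_lit 245) (nat_lit 1) (nat_lit 287) (nat_lit 212) (nat_lit 281))) (PT.nd (nat_lit 78) (PT.lf (nat_lit 18544) (nat_lit 6) (nat_lit 244) (nat_lit 1) (nat_lit 288) (nat_lit 212) (nat_lit 280)) (PT.lf (nat_lit 18468) (nat_lit 6) (nat_lit 243) (nat_lit 1) (nat_lit 289) (nat_lit 212) (nat_lit 279))))) (PT.nd (nat_lit 80418) (PT.nd (nat_lit 80262) (PT.nd (nat_lit 80184) (PT.lf (nat_lit 18392) (nat_lit 6) (nat_lit 242) (nat_lit 1) (nat_lit 290) (nat_lit 212) (nat_lit 278)) (PT.lf (nat_lit 18924) (nat_lit 6) (nat_lit 249) (nat_lit 3) (nat_lit 277) (nat_lit 213) (nat_lit 290)))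 (PT.nd (nat_lit 78) (PT.lf (nat_lit 19000) (nat_lit 6) (nat_lit 250) (nat_lit 3) (nat_lit 278) (nat_lit 213) (nat_lit 289)) (PT.lf (nat_lit 19076) (nat_lit 6) (nat_lit 251) (nat_lit 3) (nat_lit 279) (nat_lit 213) (nat_lit 288)))) (PT.nd (nat_lit 156) (PT.nd (nat_lit 78) (PT.lf (nat_lit 19152) (nat_lit 6) (nat_lit 252) (nat_lit 3) (nat_lit 280) (nat_lit 213) (nat_lit 287)) (PT.lf (nat_lit 19228) (nat_lit 6) (nat_lit 253) (nat_lit 3) (nat_lit 281) (nat_lit 213) (nat_lit 286))) (PT.nd (nat_lit 78) (PT.lf (nat_lit 19304) (nat_lit 6) (nat_lit 254) (nat_lit 3) (nat_lit 282) (nat_lit 213) (nat_lit 285)) (PT.lf (nat_lit 19380) (nat_lit 6) (nat_lit 255) (nat_lit 3) (nat_lit 283) (nat_lit 213) (nat_lit 284)))))) (PT.nd (nat_lit 80652) (PT.nd (nat_lit 312) (PT.nd (nat_lit 156) (PT.nd (nat_lit 78) (PT.lf (nat_lit 19380) (nat_lit 6) (nat_lit 255) (nat_lit 1) (nat_lit 284) (nat_lit 213) (nat_lit 283)) (PT.lf (nat_lit 19304) (nat_lit 6) (nat_lit 254) (nat_lit 1) (nat_lit 285) (nat_lit 213) (nat_lit 282))) (PT.nd (nat_lit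 78) (PT.lf (nat_lit 19228) (nat_lit 6) (nat_lit 253) (nat_lit 1) (nat_lit 286) (nat_lit 213) (nat_lit 281)) (PT.lf (nat_lit 19152) (nat_lit 6) (nat_lit 252) (nat_lit 1) (nat_lit 287) (nat_lit 213) (nat_lit 280)))) (PT.nd (nat_lit 156) (PT.nd (nat_lit 78) (PT.lf (nat_lit 19076) (nat_lit 6) (nat_lit 251) (nat_lit 1) (nat_lit 288) (nat_lit 213) (nat_lit 279)) (PT.lf (nat_lit 19000) (nat_lit 6) (nat_lit 250) (nat_lit 1) (nat_lit 289) (nat_lit 213) (nat_lit 278))) (PT.nd (nat_lit 80106) (PT.lf (nat_lit 18924) (nat_lit 6) (nat_lit 249) (nat_lit 1) (nat_lit 290) (nat_lit 213) (nat_lit 277)) (PT.lf (nat_lit 19456) (nat_lit 6) (nat_lit 256) (nat_lit 3) (nat_lit 276) (nat_lit 214) (nat_lit 290))))) (PT.nd (nat_lit 312) (PT.nd (nat_lit 156) (PT.nd (nat_lit 78) (PT.lf (nat_lit 19532) (nat_lit 6) (nat_lit 257) (nat_lit 3) (nat_lit 277) (nat_lit 214) (nat_lit 289)) (PT.lf (nat_lit 19608) (nat_lit 6) (nat_lit 258) (nat_lit 3) (nat_lit 278) (nat_lit 214) (nat_lit 288))) (PT.nd (nat_lit 78) (PT.lf (nat_lit 19684) (nat_lit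 6) (nat_lit 259) (nat_lit 3) (nat_lit 279) (nat_lit 214) (nat_lit 287)) (PT.lf (nat_lit 19760) (nat_lit 6) (nat_lit 260) (nat_lit 3) (nat_lit 280) (nat_lit 214) (nat_lit 286)))) (PT.nd (nat_lit 156) (PT.nd (nat_lit 78) (PT.lf (nat_lit 19836) (nat_lit 6) (nat_lit 261) (nat_lit 3) (nat_lit 281) (nat_lit 214) (nat_lit 285)) (PT.lf (nat_lit 19912) (nat_lit 6) (nat_lit 262) (nat_lit 3) (nat_lit 282) (nat_lit 214) (nat_lit 284))) (PT.nd (nat_lit 78) (PT.lf (nat_lit 19988) (nat_lit 3) (nat_lit 263) (nat_lit 1) (nat_lit 283) (nat_lit 214) (nat_lit 283)) (PT.lf (nat_lit 19912) (nat_lit 6) (nat_lit 262) (nat_lit 1) (nat_lit 284) (nat_lit 214) (nat_lit 282))))))))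
noncomputable def pc5 : PT := (PT.nd (nat_lit 162474) (PT.nd (nat_lit 81198) (PT.nd (nat_lit 80574) (PT.nd (nat_lit 234) (PT.nd (nat_lit 78) (PT.lf (nat_lit 19836) (nat_lit 6) (nat_lit 261) (nat_lit 1) (nat_lit 285) (nat_lit 214) (nat_lit 281)) (PT.nd (nat_lit 78) (PT.lf (nat_lit 19760) (nat_lit 6) (nat_lit 260) (nat_lit 1) (nat_lit 286) (nat_lit 214) (nat_lit 280)) (PT.lf (nat_lit 19684) (nat_lit 6) (nat_lit 259) (nat_lit 1) (nat_lit 287) (nat_lit 214) (nat_lit 279)))) (PT.nd (nat_lit 156) (PT.nd (nat_lit 78) (PT.lf (nat_lit 19608) (nat_lit 6) (nat_lit 258) (nat_lit 1) (nat_lit 288) (nat_lit 214) (nat_lit 278)) (PT.lf (nat_lit 19532) (nat_lit 6) (nat_lit 257) (nat_lit 1) (nat_lit 289) (nat_lit 214) (nat_lit 277))) (PT.nd (nat_lit 80106) (PT.lf (nat_lit 19456) (nat_lit 6) (nat_lit 256) (nat_lit 1) (nat_lit 290) (nat_lit 214) (nat_lit 276)) (PT.lf (nat_lit 20140) (nat_lit 6) (nat_lit 265) (nat_lit 3) (nat_lit 276) (nat_lit 215) (nat_lit 289))))) (PT.nd (nat_lit 312) (PT.nd (nat_lit 156) (PT.nd (nat_lit 78)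 (PT.lf (nat_lit 20216) (nat_lit 6) (nat_lit 266) (nat_lit 3) (nat_lit 277) (nat_lit 215) (nat_lit 288)) (PT.lf (nat_lit 20292) (nat_lit 6) (nat_lit 267) (nat_lit 3) (nat_lit 278) (nat_lit 215) (nat_lit 287))) (PT.nd (nat_lit 78) (PT.lf (nat_lit 20368) (nat_lit 6) (nat_lit 268) (nat_lit 3) (nat_lit 279) (nat_lit 215) (nat_lit 286)) (PT.lf (nat_lit 20444) (nat_lit 6) (nat_lit 269) (nat_lit 3) (nat_lit 280) (nat_lit 215) (nat_lit 285)))) (PT.nd (nat_lit 156) (PT.nd (nat_lit 78) (PT.lf (nat_lit 20520) (nat_lit 6) (nat_lit 270) (nat_lit 3) (nat_lit 281) (nat_lit 215) (nat_lit 284)) (PT.lf (nat_lit 20596) (nat_lit 6) (nat_lit 271) (nat_lit 3) (nat_lit 282) (nat_lit 215) (nat_lit 283))) (PT.nd (nat_lit 78) (PT.lf (nat_lit 20596) (nat_lit 6) (nat_lit 271) (nat_lit 1) (nat_lit 283) (nat_lit 215) (nat_lit 282)) (PT.lf (nat_lit 20520) (nat_lit 6) (nat_lit 270) (nat_lit 1) (nat_lit 284) (nat_lit 215) (nat_lit 281)))))) (PT.nd (nat_lit 80652) (PT.nd (nat_lit 312) (PT.nd (nat_lit 156) (PT.nd (nat_lit 78) (PT.lf (nat_lit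 20444) (nat_lit 6) (nat_lit 269) (nat_lit 1) (nat_lit 285) (nat_lit 215) (nat_lit 280)) (PT.lf (nat_lit 20368) (nat_lit 6) (nat_lit 268) (nat_lit 1) (nat_lit 286) (nat_lit 215) (nat_lit 279))) (PT.nd (nat_lit 78) (PT.lf (nat_lit 20292) (nat_lit 6) (nat_lit 267) (nat_lit 1) (nat_lit 287) (nat_lit 215) (nat_lit 278)) (PT.lf (nat_lit 20216) (nat_lit 6) (nat_lit 266) (nat_lit 1) (nat_lit 288) (nat_lit 215) (nat_lit 277)))) (PT.nd (nat_lit 80184) (PT.nd (nat_lit 80106) (PT.lf (nat_lit 20140) (nat_lit 6) (nat_lit 265) (nat_lit 1) (nat_lit 289) (nat_lit 215) (nat_lit 276)) (PT.lf (nat_lit 20672) (nat_lit 6) (nat_lit 272) (nat_lit 3) (nat_lit 275) (nat_lit 216) (nat_lit 289))) (PT.nd (nat_lit 78) (PT.lf (nat_lit 20748) (nat_lit 6) (nat_lit 273) (nat_lit 3) (nat_lit 276) (nat_lit 216) (nat_lit 288)) (PT.lf (nat_lit 20824) (nat_lit 6) (nat_lit 274) (nat_lit 3) (nat_lit 277) (nat_lit 216) (nat_lit 287))))) (PT.nd (nat_lit 312) (PT.nd (nat_lit 156) (PT.nd (nat_lit 78) (PT.lf (nat_lit 20900) (nat_lit 6) (nat_lit 275)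 (nat_lit 3) (nat_lit 278) (nat_lit 216) (nat_lit 286)) (PT.lf (nat_lit 20976) (nat_lit 6) (nat_lit 276) (nat_lit 3) (nat_lit 279) (nat_lit 216) (nat_lit 285))) (PT.nd (nat_lit 78) (PT.lf (nat_lit 21052) (nat_lit 6) (nat_lit 277) (nat_lit 3) (nat_lit 280) (nat_lit 216) (nat_lit 284)) (PT.lf (nat_lit 21128) (nat_lit 6) (nat_lit 278) (nat_lit 3) (nat_lit 281) (nat_lit 216) (nat_lit 283)))) (PT.nd (nat_lit 156) (PT.nd (nat_lit 78) (PT.lf (nat_lit 21204) (nat_lit 3) (nat_lit 279) (nat_lit 1) (nat_lit 282) (nat_lit 216) (nat_lit 282)) (PT.lf (nat_lit 21128) (nat_lit 6) (nat_lit 278) (nat_lit 1) (nat_lit 283) (nat_lit 216) (nat_lit 281))) (PT.nd (nat_lit 78) (PT.lf (nat_lit 21052) (nat_lit 6) (nat_lit 277) (nat_lit 1) (nat_lit 284) (nat_lit 216) (nat_lit 280)) (PT.lf (nat_lit 20976) (nat_lit 6) (nat_lit 276) (nat_lit 1) (nat_lit 285) (nat_lit 216) (nat_lit 279))))))) (PT.nd (nat_lit 81198) (PT.nd (nat_lit 80574) (PT.nd (nat_lit 80262) (PT.nd (nat_lit 156) (PT.nd (nat_lit 78) (PT.lf (nat_lit 20900) (nat_lit 6) (nat_lit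 275) (nat_lit 1) (nat_lit 286) (nat_lit 216) (nat_lit 278)) (PT.lf (nat_lit 20824) (nat_lit 6) (nat_lit 274) (nat_lit 1) (nat_lit 287) (nat_lit 216) (nat_lit 277))) (PT.nd (nat_lit 78) (PT.lf (nat_lit 20748) (nat_lit 6) (nat_lit 273) (nat_lit 1) (nat_lit 288) (nat_lit 216) (nat_lit 276)) (PT.lf (nat_lit 20672) (nat_lit 6) (nat_lit 272) (nat_lit 1) (nat_lit 289) (nat_lit 216) (nat_lit 275)))) (PT.nd (nat_lit 156) (PT.nd (nat_lit 78) (PT.lf (nat_lit 21280) (nat_lit 6) (nat_lit 280) (nat_lit 3) (nat_lit 274) (nat_lit 217) (nat_lit 289)) (PT.lf (nat_lit 21356) (nat_lit 6) (nat_lit 281) (nat_lit 3) (nat_lit 275) (nat_lit 217) (nat_lit 288))) (PT.nd (nat_lit 78) (PT.lf (nat_lit 21432) (nat_lit 6) (nat_lit 282) (nat_lit 3) (nat_lit 276) (nat_lit 217) (nat_lit 287)) (PT.lf (nat_lit 21508) (nat_lit 6) (nat_lit 283) (nat_lit 3) (nat_lit 277) (nat_lit 217) (nat_lit 286))))) (PT.nd (nat_lit 312) (PT.nd (nat_lit 156) (PT.nd (nat_lit 78) (PT.lf (nat_lit 21584) (nat_lit 6) (nat_lit 284) (nat_lit 3) (nat_lit 278) (nat_lit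 217) (nat_lit 285)) (PT.lf (nat_lit 21660) (nat_lit 6) (nat_lit 285) (nat_lit 3) (nat_lit 279) (nat_lit 217) (nat_lit 284))) (PT.nd (nat_lit 78) (PT.lf (nat_lit 21736) (nat_lit 6) (nat_lit 286) (nat_lit 3) (nat_lit 280) (nat_lit 217) (nat_lit 283)) (PT.lf (nat_lit 21812) (nat_lit 6) (nat_lit 287) (nat_lit 3) (nat_lit 281) (nat_lit 217) (nat_lit 282)))) (PT.nd (nat_lit 156) (PT.nd (nat_lit 78) (PT.lf (nat_lit 21812) (nat_lit 6) (nat_lit 287) (nat_lit 1) (nat_lit 282) (nat_lit 217) (nat_lit 281)) (PT.lf (nat_lit 21736) (nat_lit 6) (nat_lit 286) (nat_lit 1) (nat_lit 283) (nat_lit 217) (nat_lit 280))) (PT.nd (nat_lit 78) (PT.lf (nat_lit 21660) (nat_lit 6) (nat_lit 285) (nat_lit 1) (nat_lit 284) (nat_lit 217) (nat_lit 279)) (PT.lf (nat_lit 21584) (nat_lit 6) (nat_lit 284) (nat_lit 1) (nat_lit 285) (nat_lit 217) (nat_lit 278)))))) (PT.nd (nat_lit 80496) (PT.nd (nat_lit 80184) (PT.nd (nat_lit 156) (PT.nd (nat_lit 78) (PT.lf (nat_lit 21508) (nat_lit 6) (nat_lit 283) (nat_lit 1) (nat_lit 286) (nat_lit 217) (nat_lit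 277)) (PT.lf (nat_lit 21432) (nat_lit 6) (nat_lit 282) (nat_lit 1) (nat_lit 287) (nat_lit 217) (nat_lit 276))) (PT.nd (nat_lit 78) (PT.lf (nat_lit 21356) (nat_lit 6) (nat_lit 281) (nat_lit 1) (nat_lit 288) (nat_lit 217) (nat_lit 275)) (PT.lf (nat_lit 21280) (nat_lit 6) (nat_lit 280) (nat_lit 1) (nat_lit 289) (nat_lit 217) (nat_lit 274)))) (PT.nd (nat_lit 156) (PT.nd (nat_lit 78) (PT.lf (nat_lit 21888) (nat_lit 6) (nat_lit 288) (nat_lit 3) (nat_lit 273) (nat_lit 218) (nat_lit 289)) (PT.lf (nat_lit 21964) (nat_lit 6) (nat_lit 289) (nat_lit 3) (nat_lit 274) (nat_lit 218) (nat_lit 288))) (PT.nd (nat_lit 78) (PT.lf (nat_lit 22040) (nat_lit 6) (nat_lit 290) (nat_lit 3) (nat_lit 275) (nat_lit 218) (nat_lit 287)) (PT.lf (nat_lit 22116) (nat_lit 6) (nat_lit 291) (nat_lit 3) (nat_lit 276) (nat_lit 218) (nat_lit 286))))) (PT.nd (nat_lit 312) (PT.nd (nat_lit 156) (PT.nd (nat_lit 78) (PT.lf (nat_lit 22192) (nat_lit 6) (nat_lit 292) (nat_lit 3) (nat_lit 277) (nat_lit 218) (nat_lit 285)) (PT.lf (nat_lit 22268) (nat_lit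 6) (nat_lit 293) (nat_lit 3) (nat_lit 278) (nat_lit 218) (nat_lit 284))) (PT.nd (nat_lit 78) (PT.lf (nat_lit 22344) (nat_lit 6) (nat_lit 294) (nat_lit 3) (nat_lit 279) (nat_lit 218) (nat_lit 283)) (PT.lf (nat_lit 22420) (nat_lit 6) (nat_lit 295) (nat_lit 3) (nat_lit 280) (nat_lit 218) (nat_lit 282)))) (PT.nd (nat_lit 156) (PT.nd (nat_lit 78) (PT.lf (nat_lit 22496) (nat_lit 3) (nat_lit 296) (nat_lit 1) (nat_lit 281) (nat_lit 218) (nat_lit 281)) (PT.lf (nat_lit 22420) (nat_lit 6) (nat_lit 295) (nat_lit 1) (nat_lit 282) (nat_lit 218) (nat_lit 280))) (PT.nd (nat_lit 78) (PT.lf (nat_lit 22344) (nat_lit 6) (nat_lit 294) (nat_lit 1) (nat_lit 283) (nat_lit 218) (nat_lit 279)) (PT.lf (nat_lit 22268) (nat_lit 6) (nat_lit 293) (nat_lit 1) (nat_lit 284) (nat_lit 218) (nat_lit 278))))))))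
noncomputable def pc6 : PT := (PT.nd (nat_lit 162162) (PT.nd (nat_lit 81042) (PT.nd (nat_lit 80418) (PT.nd (nat_lit 234) (PT.nd (nat_lit 78) (PT.lf (nat_lit 22192) (nat_lit 6) (nat_lit 292) (nat_lit 1) (nat_lit 285) (nat_lit 218) (nat_lit 277)) (PT.nd (nat_lit 78) (PT.lf (nat_lit 22116) (nat_lit 6) (nat_lit 291) (nat_lit 1) (nat_lit 286) (nat_lit 218) (nat_lit 276)) (PT.lf (nat_lit 22040) (nat_lit 6) (nat_lit 290) (nat_lit 1) (nat_lit 287) (nat_lit 218) (nat_lit 275)))) (PT.nd (nat_lit 80028) (PT.nd (nat_lit 78) (PT.lf (nat_lit 21964) (nat_lit 6) (nat_lit 289) (nat_lit 1) (nat_lit 288) (nat_lit 218) (nat_lit 274)) (PT.lf (nat_lit 21888) (nat_lit 6) (nat_lit 288) (nat_lit 1) (nat_lit 289) (nat_lit 218) (nat_lit 273))) (PT.nd (nat_lit 78) (PT.lf (nat_lit 22572) (nat_lit 6) (nat_lit 297) (nat_lit 3) (nat_lit 273) (nat_lit 219) (nat_lit 288)) (PT.lf (nat_lit 22648) (nat_lit 6) (nat_lit 298) (nat_lit 3) (nat_lit 274) (nat_lit 219) (nat_lit 287))))) (PT.nd (nat_lit 312) (PT.nd (nat_lit 156) (PT.nd (nat_lit 78)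 (PT.lf (nat_lit 22724) (nat_lit 6) (nat_lit 299) (nat_lit 3) (nat_lit 275) (nat_lit 219) (nat_lit 286)) (PT.lf (nat_lit 22800) (nat_lit 6) (nat_lit 300) (nat_lit 3) (nat_lit 276) (nat_lit 219) (nat_lit 285))) (PT.nd (nat_lit 78) (PT.lf (nat_lit 22876) (nat_lit 6) (nat_lit 301) (nat_lit 3) (nat_lit 277) (nat_lit 219) (nat_lit 284)) (PT.lf (nat_lit 22952) (nat_lit 6) (nat_lit 302) (nat_lit 3) (nat_lit 278) (nat_lit 219) (nat_lit 283)))) (PT.nd (nat_lit 156) (PT.nd (nat_lit 78) (PT.lf (nat_lit 23028) (nat_lit 6) (nat_lit 303) (nat_lit 3) (nat_lit 279) (nat_lit 219) (nat_lit 282)) (PT.lf (nat_lit 23104) (nat_lit 6) (nat_lit 304) (nat_lit 3) (nat_lit 280) (nat_lit 219) (nat_lit 281))) (PT.nd (nat_lit 78) (PT.lf (nat_lit 23104) (nat_lit 6) (nat_lit 304) (nat_lit 1) (nat_lit 281) (nat_lit 219) (nat_lit 280)) (PT.lf (nat_lit 23028) (nat_lit 6) (nat_lit 303) (nat_lit 1) (nat_lit 282) (nat_lit 219) (nat_lit 279)))))) (PT.nd (nat_lit 80496) (PT.nd (nat_lit 312) (PT.nd (nat_lit 156) (PT.nd (nat_lit 78) (PT.lf (nat_lit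 22952) (nat_lit 6) (nat_lit 302) (nat_lit 1) (nat_lit 283) (nat_lit 219) (nat_lit 278)) (PT.lf (nat_lit 22876) (nat_lit 6) (nat_lit 301) (nat_lit 1) (nat_lit 284) (nat_lit 219) (nat_lit 277))) (PT.nd (nat_lit 78) (PT.lf (nat_lit 22800) (nat_lit 6) (nat_lit 300) (nat_lit 1) (nat_lit 285) (nat_lit 219) (nat_lit 276)) (PT.lf (nat_lit 22724) (nat_lit 6) (nat_lit 299) (nat_lit 1) (nat_lit 286) (nat_lit 219) (nat_lit 275)))) (PT.nd (nat_lit 80028) (PT.nd (nat_lit 78) (PT.lf (nat_lit 22648) (nat_lit 6) (nat_lit 298) (nat_lit 1) (nat_lit 287) (nat_lit 219) (nat_lit 274)) (PT.lf (nat_lit 22572) (nat_lit 6) (nat_lit 297) (nat_lit 1) (nat_lit 288) (nat_lit 219) (nat_lit 273))) (PT.nd (nat_lit 78) (PT.lf (nat_lit 23180) (nat_lit 6) (nat_lit 305) (nat_lit 3) (nat_lit 272) (nat_lit 220) (nat_lit 288)) (PT.lf (nat_lit 23256) (nat_lit 6) (nat_lit 306) (nat_lit 3) (nat_lit 273) (nat_lit 220) (nat_lit 287))))) (PT.nd (nat_lit 312) (PT.nd (nat_lit 156) (PT.nd (nat_lit 78) (PT.lf (nat_lit 23332) (nat_lit 6) (nat_lit 307) (nat_lit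 3) (nat_lit 274) (nat_lit 220) (nat_lit 286)) (PT.lf (nat_lit 23408) (nat_lit 6) (nat_lit 308) (nat_lit 3) (nat_lit 275) (nat_lit 220) (nat_lit 285))) (PT.nd (nat_lit 78) (PT.lf (nat_lit 23484) (nat_lit 6) (nat_lit 309) (nat_lit 3) (nat_lit 276) (nat_lit 220) (nat_lit 284)) (PT.lf (nat_lit 23560) (nat_lit 6) (nat_lit 310) (nat_lit 3) (nat_lit 277) (nat_lit 220) (nat_lit 283)))) (PT.nd (nat_lit 156) (PT.nd (nat_lit 78) (PT.lf (nat_lit 23636) (nat_lit 6) (nat_lit 311) (nat_lit 3) (nat_lit 278) (nat_lit 220) (nat_lit 282)) (PT.lf (nat_lit 23712) (nat_lit 6) (nat_lit 312) (nat_lit 3) (nat_lit 279) (nat_lit 220) (nat_lit 281))) (PT.nd (nat_lit 78) (PT.lf (nat_lit 23788) (nat_lit 3) (nat_lit 313) (nat_lit 1) (nat_lit 280) (nat_lit 220) (nat_lit 280)) (PT.lf (nat_lit 23712) (nat_lit 6) (nat_lit 312) (nat_lit 1) (nat_lit 281) (nat_lit 220) (nat_lit 279))))))) (PT.nd (nat_lit 81042) (PT.nd (nat_lit 80418) (PT.nd (nat_lit 312) (PT.nd (nat_lit 156) (PT.nd (nat_lit 78) (PT.lf (nat_lit 23636) (nat_lit 6) (nat_lit 311)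 (nat_lit 1) (nat_lit 282) (nat_lit 220) (nat_lit 278)) (PT.lf (nat_lit 23560) (nat_lit 6) (nat_lit 310) (nat_lit 1) (nat_lit 283) (nat_lit 220) (nat_lit 277))) (PT.nd (nat_lit 78) (PT.lf (nat_lit 23484) (nat_lit 6) (nat_lit 309) (nat_lit 1) (nat_lit 284) (nat_lit 220) (nat_lit 276)) (PT.lf (nat_lit 23408) (nat_lit 6) (nat_lit 308) (nat_lit 1) (nat_lit 285) (nat_lit 220) (nat_lit 275)))) (PT.nd (nat_lit 156) (PT.nd (nat_lit 78) (PT.lf (nat_lit 23332) (nat_lit 6) (nat_lit 307) (nat_lit 1) (nat_lit 286) (nat_lit 220) (nat_lit 274)) (PT.lf (nat_lit 23256) (nat_lit 6) (nat_lit 306) (nat_lit 1) (nat_lit 287) (nat_lit 220) (nat_lit 273))) (PT.nd (nat_lit 79872) (PT.lf (nat_lit 23180) (nat_lit 6) (nat_lit 305) (nat_lit 1) (nat_lit 288) (nat_lit 220) (nat_lit 272)) (PT.lf (nat_lit 23864) (nat_lit 6) (nat_lit 314) (nat_lit 3) (nat_lit 271) (nat_lit 221) (nat_lit 288))))) (PT.nd (nat_lit 312) (PT.nd (nat_lit 156) (PT.nd (nat_lit 78) (PT.lf (nat_lit 23940) (nat_lit 6) (nat_lit 315) (nat_lit 3) (nat_lit 272) (nat_lit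 221) (nat_lit 287)) (PT.lf (nat_lit 24016) (nat_lit 6) (nat_lit 316) (nat_lit 3) (nat_lit 273) (nat_lit 221) (nat_lit 286))) (PT.nd (nat_lit 78) (PT.lf (nat_lit 24092) (nat_lit 6) (nat_lit 317) (nat_lit 3) (nat_lit 274) (nat_lit 221) (nat_lit 285)) (PT.lf (nat_lit 24168) (nat_lit 6) (nat_lit 318) (nat_lit 3) (nat_lit 275) (nat_lit 221) (nat_lit 284)))) (PT.nd (nat_lit 156) (PT.nd (nat_lit 78) (PT.lf (nat_lit 24244) (nat_lit 6) (nat_lit 319) (nat_lit 3) (nat_lit 276) (nat_lit 221) (nat_lit 283)) (PT.lf (nat_lit 24320) (nat_lit 6) (nat_lit 320) (nat_lit 3) (nat_lit 277) (nat_lit 221) (nat_lit 282))) (PT.nd (nat_lit 78) (PT.lf (nat_lit 24396) (nat_lit 6) (nat_lit 321) (nat_lit 3) (nat_lit 278) (nat_lit 221) (nat_lit 281)) (PT.lf (nat_lit 24472) (nat_lit 6) (nat_lit 322) (nat_lit 3) (nat_lit 279) (nat_lit 221) (nat_lit 280)))))) (PT.nd (nat_lit 624) (PT.nd (nat_lit 312) (PT.nd (nat_lit 156) (PT.nd (nat_lit 78) (PT.lf (nat_lit 24472) (nat_lit 6) (nat_lit 322) (nat_lit 1) (nat_lit 280) (nat_lit 221) (nat_lit 279))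 (PT.lf (nat_lit 24396) (nat_lit 6) (nat_lit 321) (nat_lit 1) (nat_lit 281) (nat_lit 221) (nat_lit 278))) (PT.nd (nat_lit 78) (PT.lf (nat_lit 24320) (nat_lit 6) (nat_lit 320) (nat_lit 1) (nat_lit 282) (nat_lit 221) (nat_lit 277)) (PT.lf (nat_lit 24244) (nat_lit 6) (nat_lit 319) (nat_lit 1) (nat_lit 283) (nat_lit 221) (nat_lit 276)))) (PT.nd (nat_lit 156) (PT.nd (nat_lit 78) (PT.lf (nat_lit 24168) (nat_lit 6) (nat_lit 318) (nat_lit 1) (nat_lit 284) (nat_lit 221) (nat_lit 275)) (PT.lf (nat_lit 24092) (nat_lit 6) (nat_lit 317) (nat_lit 1) (nat_lit 285) (nat_lit 221) (nat_lit 274))) (PT.nd (nat_lit 78) (PT.lf (nat_lit 24016) (nat_lit 6) (nat_lit 316) (nat_lit 1) (nat_lit 286) (nat_lit 221) (nat_lit 273)) (PT.lf (nat_lit 23940) (nat_lit 6) (nat_lit 315) (nat_lit 1) (nat_lit 287) (nat_lit 221) (nat_lit 272))))) (PT.nd (nat_lit 80028) (PT.nd (nat_lit 79872) (PT.nd (nat_lit 79794) (PT.lf (nat_lit 23864) (nat_lit 6) (nat_lit 314) (nat_lit 1) (nat_lit 288) (nat_lit 221) (nat_lit 271)) (PT.lf (nat_lit 24548) (nat_lit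 6) (nat_lit 323) (nat_lit 3) (nat_lit 270) (nat_lit 222) (nat_lit 288))) (PT.nd (nat_lit 78) (PT.lf (nat_lit 24624) (nat_lit 6) (nat_lit 324) (nat_lit 3) (nat_lit 271) (nat_lit 222) (nat_lit 287)) (PT.lf (nat_lit 24700) (nat_lit 6) (nat_lit 325) (nat_lit 3) (nat_lit 272) (nat_lit 222) (nat_lit 286)))) (PT.nd (nat_lit 156) (PT.nd (nat_lit 78) (PT.lf (nat_lit 24776) (nat_lit 6) (nat_lit 326) (nat_lit 3) (nat_lit 273) (nat_lit 222) (nat_lit 285)) (PT.lf (nat_lit 24852) (nat_lit 6) (nat_lit 327) (nat_lit 3) (nat_lit 274) (nat_lit 222) (nat_lit 284))) (PT.nd (nat_lit 78) (PT.lf (nat_lit 24928) (nat_lit 6) (nat_lit 328) (nat_lit 3) (nat_lit 275) (nat_lit 222) (nat_lit 283)) (PT.lf (nat_lit 25004) (nat_lit 6) (nat_lit 329) (nat_lit 3) (nat_lit 276) (nat_lit 222) (nat_lit 282))))))))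
noncomputable def pc7 : PT := (PT.nd (nat_lit 161850) (PT.nd (nat_lit 80886) (PT.nd (nat_lit 546) (PT.nd (nat_lit 234) (PT.nd (nat_lit 78) (PT.lf (nat_lit 25080) (nat_lit 6) (nat_lit 330) (nat_lit 3) (nat_lit 277) (nat_lit 222) (nat_lit 281)) (PT.nd (nat_lit 78) (PT.lf (nat_lit 25156) (nat_lit 6) (nat_lit 331) (nat_lit 3) (nat_lit 278) (nat_lit 222) (nat_lit 280)) (PT.lf (nat_lit 25232) (nat_lit 3) (nat_lit 332) (nat_lit 1) (nat_lit 279) (nat_lit 222) (nat_lit 279)))) (PT.nd (nat_lit 156) (PT.nd (nat_lit 78) (PT.lf (nat_lit 25156) (nat_lit 6) (nat_lit 331) (nat_lit 1) (nat_lit 280) (nat_lit 222) (nat_lit 278)) (PT.lf (nat_lit 25080) (nat_lit 6) (nat_lit 330) (nat_lit 1) (nat_lit 281) (nat_lit 222) (nat_lit 277))) (PT.nd (nat_lit 78) (PT.lf (nat_lit 25004) (nat_lit 6) (nat_lit 329) (nat_lit 1) (nat_lit 282) (nat_lit 222) (nat_lit 276)) (PT.lf (nat_lit 24928) (nat_lit 6) (nat_lit 328) (nat_lit 1) (nat_lit 283) (nat_lit 222) (nat_lit 275))))) (PT.nd (nat_lit 312) (PT.nd (nat_lit 156) (PT.nd (nat_lit 78) (PT.lf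 (nat_lit 24852) (nat_lit 6) (nat_lit 327) (nat_lit 1) (nat_lit 284) (nat_lit 222) (nat_lit 274)) (PT.lf (nat_lit 24776) (nat_lit 6) (nat_lit 326) (nat_lit 1) (nat_lit 285) (nat_lit 222) (nat_lit 273))) (PT.nd (nat_lit 78) (PT.lf (nat_lit 24700) (nat_lit 6) (nat_lit 325) (nat_lit 1) (nat_lit 286) (nat_lit 222) (nat_lit 272)) (PT.lf (nat_lit 24624) (nat_lit 6) (nat_lit 324) (nat_lit 1) (nat_lit 287) (nat_lit 222) (nat_lit 271)))) (PT.nd (nat_lit 79872) (PT.nd (nat_lit 79794) (PT.lf (nat_lit 24548) (nat_lit 6) (nat_lit 323) (nat_lit 1) (nat_lit 288) (nat_lit 222) (nat_lit 270)) (PT.lf (nat_lit 25308) (nat_lit 6) (nat_lit 333) (nat_lit 3) (nat_lit 270) (nat_lit 223) (nat_lit 287))) (PT.nd (nat_lit 78) (PT.lf (nat_lit 25384) (nat_lit 6) (nat_lit 334) (nat_lit 3) (nat_lit 271) (nat_lit 223) (nat_lit 286)) (PT.lf (nat_lit 25460) (nat_lit 6) (nat_lit 335) (nat_lit 3) (nat_lit 272) (nat_lit 223) (nat_lit 285)))))) (PT.nd (nat_lit 624) (PT.nd (nat_lit 312) (PT.nd (nat_lit 156) (PT.nd (nat_lit 78) (PT.lf (nat_lit 25536)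 (nat_lit 6) (nat_lit 336) (nat_lit 3) (nat_lit 273) (nat_lit 223) (nat_lit 284)) (PT.lf (nat_lit 25612) (nat_lit 6) (nat_lit 337) (nat_lit 3) (nat_lit 274) (nat_lit 223) (nat_lit 283))) (PT.nd (nat_lit 78) (PT.lf (nat_lit 25688) (nat_lit 6) (nat_lit 338) (nat_lit 3) (nat_lit 275) (nat_lit 223) (nat_lit 282)) (PT.lf (nat_lit 25764) (nat_lit 6) (nat_lit 339) (nat_lit 3) (nat_lit 276) (nat_lit 223) (nat_lit 281)))) (PT.nd (nat_lit 156) (PT.nd (nat_lit 78) (PT.lf (nat_lit 25840) (nat_lit 6) (nat_lit 340) (nat_lit 3) (nat_lit 277) (nat_lit 223) (nat_lit 280)) (PT.lf (nat_lit 25916) (nat_lit 6) (nat_lit 341) (nat_lit 3) (nat_lit 278) (nat_lit 223) (nat_lit 279))) (PT.nd (nat_lit 78) (PT.lf (nat_lit 25916) (nat_lit 6) (nat_lit 341) (nat_lit 1) (nat_lit 279) (nat_lit 223) (nat_lit 278)) (PT.lf (nat_lit 25840) (nat_lit 6) (nat_lit 340) (nat_lit 1) (nat_lit 280) (nat_lit 223) (nat_lit 277))))) (PT.nd (nat_lit 312) (PT.nd (nat_lit 156) (PT.nd (nat_lit 78) (PT.lf (nat_lit 25764) (nat_lit 6) (nat_lit 339) (nat_lit 1)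 (nat_lit 281) (nat_lit 223) (nat_lit 276)) (PT.lf (nat_lit 25688) (nat_lit 6) (nat_lit 338) (nat_lit 1) (nat_lit 282) (nat_lit 223) (nat_lit 275))) (PT.nd (nat_lit 78) (PT.lf (nat_lit 25612) (nat_lit 6) (nat_lit 337) (nat_lit 1) (nat_lit 283) (nat_lit 223) (nat_lit 274)) (PT.lf (nat_lit 25536) (nat_lit 6) (nat_lit 336) (nat_lit 1) (nat_lit 284) (nat_lit 223) (nat_lit 273)))) (PT.nd (nat_lit 156) (PT.nd (nat_lit 78) (PT.lf (nat_lit 25460) (nat_lit 6) (nat_lit 335) (nat_lit 1) (nat_lit 285) (nat_lit 223) (nat_lit 272)) (PT.lf (nat_lit 25384) (nat_lit 6) (nat_lit 334) (nat_lit 1) (nat_lit 286) (nat_lit 223) (nat_lit 271))) (PT.nd (nat_lit 79794) (PT.lf (nat_lit 25308) (nat_lit 6) (nat_lit 333) (nat_lit 1) (nat_lit 287) (nat_lit 223) (nat_lit 270)) (PT.lf (nat_lit 25992) (nat_lit 6) (nat_lit 342) (nat_lit 3) (nat_lit 269) (nat_lit 224) (nat_lit 287))))))) (PT.nd (nat_lit 1248) (PT.nd (nat_lit 624) (PT.nd (nat_lit 312) (PT.nd (nat_lit 156) (PT.nd (nat_lit 78) (PT.lf (nat_lit 26068) (nat_lit 6) (nat_lit 343) (nat_lit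 3) (nat_lit 270) (nat_lit 224) (nat_lit 286)) (PT.lf (nat_lit 26144) (nat_lit 6) (nat_lit 344) (nat_lit 3) (nat_lit 271) (nat_lit 224) (nat_lit 285))) (PT.nd (nat_lit 78) (PT.lf (nat_lit 26220) (nat_lit 6) (nat_lit 345) (nat_lit 3) (nat_lit 272) (nat_lit 224) (nat_lit 284)) (PT.lf (nat_lit 26296) (nat_lit 6) (nat_lit 346) (nat_lit 3) (nat_lit 273) (nat_lit 224) (nat_lit 283)))) (PT.nd (nat_lit 156) (PT.nd (nat_lit 78) (PT.lf (nat_lit 26372) (nat_lit 6) (nat_lit 347) (nat_lit 3) (nat_lit 274) (nat_lit 224) (nat_lit 282)) (PT.lf (nat_lit 26448) (nat_lit 6) (nat_lit 348) (nat_lit 3) (nat_lit 275) (nat_lit 224) (nat_lit 281))) (PT.nd (nat_lit 78) (PT.lf (nat_lit 26524) (nat_lit 6) (nat_lit 349) (nat_lit 3) (nat_lit 276) (nat_lit 224) (nat_lit 280)) (PT.lf (nat_lit 26600) (nat_lit 6) (nat_lit 350) (nat_lit 3) (nat_lit 277) (nat_lit 224) (nat_lit 279))))) (PT.nd (nat_lit 312) (PT.nd (nat_lit 156) (PT.nd (nat_lit 78) (PT.lf (nat_lit 26676) (nat_lit 3) (nat_lit 351) (nat_lit 1) (nat_lit 278) (nat_lit 224) (nat_lit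 278)) (PT.lf (nat_lit 26600) (nat_lit 6) (nat_lit 350) (nat_lit 1) (nat_lit 279) (nat_lit 224) (nat_lit 277))) (PT.nd (nat_lit 78) (PT.lf (nat_lit 26524) (nat_lit 6) (nat_lit 349) (nat_lit 1) (nat_lit 280) (nat_lit 224) (nat_lit 276)) (PT.lf (nat_lit 26448) (nat_lit 6) (nat_lit 348) (nat_lit 1) (nat_lit 281) (nat_lit 224) (nat_lit 275)))) (PT.nd (nat_lit 156) (PT.nd (nat_lit 78) (PT.lf (nat_lit 26372) (nat_lit 6) (nat_lit 347) (nat_lit 1) (nat_lit 282) (nat_lit 224) (nat_lit 274)) (PT.lf (nat_lit 26296) (nat_lit 6) (nat_lit 346) (nat_lit 1) (nat_lit 283) (nat_lit 224) (nat_lit 273))) (PT.nd (nat_lit 78) (PT.lf (nat_lit 26220) (nat_lit 6) (nat_lit 345) (nat_lit 1) (nat_lit 284) (nat_lit 224) (nat_lit 272)) (PT.lf (nat_lit 26144) (nat_lit 6) (nat_lit 344) (nat_lit 1) (nat_lit 285) (nat_lit 224) (nat_lit 271)))))) (PT.nd (nat_lit 80262) (PT.nd (nat_lit 79950) (PT.nd (nat_lit 79794) (PT.nd (nat_lit 78) (PT.lf (nat_lit 26068) (nat_lit 6) (nat_lit 343) (nat_lit 1) (nat_lit 286) (nat_lit 224) (nat_lit 270)) (PT.lf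 (nat_lit 25992) (nat_lit 6) (nat_lit 342) (nat_lit 1) (nat_lit 287) (nat_lit 224) (nat_lit 269))) (PT.nd (nat_lit 78) (PT.lf (nat_lit 26752) (nat_lit 6) (nat_lit 352) (nat_lit 3) (nat_lit 268) (nat_lit 225) (nat_lit 287)) (PT.lf (nat_lit 26828) (nat_lit 6) (nat_lit 353) (nat_lit 3) (nat_lit 269) (nat_lit 225) (nat_lit 286)))) (PT.nd (nat_lit 156) (PT.nd (nat_lit 78) (PT.lf (nat_lit 26904) (nat_lit 6) (nat_lit 354) (nat_lit 3) (nat_lit 270) (nat_lit 225) (nat_lit 285)) (PT.lf (nat_lit 26980) (nat_lit 6) (nat_lit 355) (nat_lit 3) (nat_lit 271) (nat_lit 225) (nat_lit 284))) (PT.nd (nat_lit 78) (PT.lf (nat_lit 27056) (nat_lit 6) (nat_lit 356) (nat_lit 3) (nat_lit 272) (nat_lit 225) (nat_lit 283)) (PT.lf (nat_lit 27132) (nat_lit 6) (nat_lit 357) (nat_lit 3) (nat_lit 273) (nat_lit 225) (nat_lit 282))))) (PT.nd (nat_lit 312) (PT.nd (nat_lit 156) (PT.nd (nat_lit 78) (PT.lf (nat_lit 27208) (nat_lit 6) (nat_lit 358) (nat_lit 3) (nat_lit 274) (nat_lit 225) (nat_lit 281)) (PT.lf (nat_lit 27284) (nat_lit 6) (nat_lit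 359) (nat_lit 3) (nat_lit 275) (nat_lit 225) (nat_lit 280))) (PT.nd (nat_lit 78) (PT.lf (nat_lit 27360) (nat_lit 6) (nat_lit 360) (nat_lit 3) (nat_lit 276) (nat_lit 225) (nat_lit 279)) (PT.lf (nat_lit 27436) (nat_lit 6) (nat_lit 361) (nat_lit 3) (nat_lit 277) (nat_lit 225) (nat_lit 278)))) (PT.nd (nat_lit 156) (PT.nd (nat_lit 78) (PT.lf (nat_lit 27436) (nat_lit 6) (nat_lit 361) (nat_lit 1) (nat_lit 278) (nat_lit 225) (nat_lit 277)) (PT.lf (nat_lit 27360) (nat_lit 6) (nat_lit 360) (nat_lit 1) (nat_lit 279) (nat_lit 225) (nat_lit 276))) (PT.nd (nat_lit 78) (PT.lf (nat_lit 27284) (nat_lit 6) (nat_lit 359) (nat_lit 1) (nat_lit 280) (nat_lit 225) (nat_lit 275)) (PT.lf (nat_lit 27208) (nat_lit 6) (nat_lit 358) (nat_lit 1) (nat_lit 281) (nat_lit 225) (nat_lit 274))))))))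
noncomputable def pc8 : PT := (PT.nd (nat_lit 161538) (PT.nd (nat_lit 80730) (PT.nd (nat_lit 80106) (PT.nd (nat_lit 234) (PT.nd (nat_lit 78) (PT.lf (nat_lit 27132) (nat_lit 6) (nat_lit 357) (nat_lit 1) (nat_lit 282) (nat_lit 225) (nat_lit 273)) (PT.nd (nat_lit 78) (PT.lf (nat_lit 27056) (nat_lit 6) (nat_lit 356) (nat_lit 1) (nat_lit 283) (nat_lit 225) (nat_lit 272)) (PT.lf (nat_lit 26980) (nat_lit 6) (nat_lit 355) (nat_lit 1) (nat_lit 284) (nat_lit 225) (nat_lit 271)))) (PT.nd (nat_lit 156) (PT.nd (nat_lit 78) (PT.lf (nat_lit 26904) (nat_lit 6) (nat_lit 354) (nat_lit 1) (nat_lit 285) (nat_lit 225) (nat_lit 270)) (PT.lf (nat_lit 26828) (nat_lit 6) (nat_lit 353) (nat_lit 1) (nat_lit 286) (nat_lit 225) (nat_lit 269))) (PT.nd (nat_lit 79638) (PT.lf (nat_lit 26752) (nat_lit 6) (nat_lit 352) (nat_lit 1) (nat_lit 287) (nat_lit 225) (nat_lit 268)) (PT.lf (nat_lit 27512) (nat_lit 6) (nat_lit 362) (nat_lit 3) (nat_lit 267) (nat_lit 226) (nat_lit 287))))) (PT.nd (nat_lit 312) (PT.nd (nat_lit 156) (PT.nd (nat_lit 78)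 (PT.lf (nat_lit 27588) (nat_lit 6) (nat_lit 363) (nat_lit 3) (nat_lit 268) (nat_lit 226) (nat_lit 286)) (PT.lf (nat_lit 27664) (nat_lit 6) (nat_lit 364) (nat_lit 3) (nat_lit 269) (nat_lit 226) (nat_lit 285))) (PT.nd (nat_lit 78) (PT.lf (nat_lit 27740) (nat_lit 6) (nat_lit 365) (nat_lit 3) (nat_lit 270) (nat_lit 226) (nat_lit 284)) (PT.lf (nat_lit 27816) (nat_lit 6) (nat_lit 366) (nat_lit 3) (nat_lit 271) (nat_lit 226) (nat_lit 283)))) (PT.nd (nat_lit 156) (PT.nd (nat_lit 78) (PT.lf (nat_lit 27892) (nat_lit 6) (nat_lit 367) (nat_lit 3) (nat_lit 272) (nat_lit 226) (nat_lit 282)) (PT.lf (nat_lit 27968) (nat_lit 6) (nat_lit 368) (nat_lit 3) (nat_lit 273) (nat_lit 226) (nat_lit 281))) (PT.nd (nat_lit 78) (PT.lf (nat_lit 28044) (nat_lit 6) (nat_lit 369) (nat_lit 3) (nat_lit 274) (nat_lit 226) (nat_lit 280)) (PT.lf (nat_lit 28120) (nat_lit 6) (nat_lit 370) (nat_lit 3) (nat_lit 275) (nat_lit 226) (nat_lit 279)))))) (PT.nd (nat_lit 624) (PT.nd (nat_lit 312) (PT.nd (nat_lit 156) (PT.nd (nat_lit 78) (PT.lf (nat_lit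 28196) (nat_lit 6) (nat_lit 371) (nat_lit 3) (nat_lit 276) (nat_lit 226) (nat_lit 278)) (PT.lf (nat_lit 28272) (nat_lit 3) (nat_lit 372) (nat_lit 1) (nat_lit 277) (nat_lit 226) (nat_lit 277))) (PT.nd (nat_lit 78) (PT.lf (nat_lit 28196) (nat_lit 6) (nat_lit 371) (nat_lit 1) (nat_lit 278) (nat_lit 226) (nat_lit 276)) (PT.lf (nat_lit 28120) (nat_lit 6) (nat_lit 370) (nat_lit 1) (nat_lit 279) (nat_lit 226) (nat_lit 275)))) (PT.nd (nat_lit 156) (PT.nd (nat_lit 78) (PT.lf (nat_lit 28044) (nat_lit 6) (nat_lit 369) (nat_lit 1) (nat_lit 280) (nat_lit 226) (nat_lit 274)) (PT.lf (nat_lit 27968) (nat_lit 6) (nat_lit 368) (nat_lit 1) (nat_lit 281) (nat_lit 226) (nat_lit 273))) (PT.nd (nat_lit 78) (PT.lf (nat_lit 27892) (nat_lit 6) (nat_lit 367) (nat_lit 1) (nat_lit 282) (nat_lit 226) (nat_lit 272)) (PT.lf (nat_lit 27816) (nat_lit 6) (nat_lit 366) (nat_lit 1) (nat_lit 283) (nat_lit 226) (nat_lit 271))))) (PT.nd (nat_lit 79872) (PT.nd (nat_lit 156) (PT.nd (nat_lit 78) (PT.lf (nat_lit 27740) (nat_lit 6) (nat_lit 365) (nat_lit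 1) (nat_lit 284) (nat_lit 226) (nat_lit 270)) (PT.lf (nat_lit 27664) (nat_lit 6) (nat_lit 364) (nat_lit 1) (nat_lit 285) (nat_lit 226) (nat_lit 269))) (PT.nd (nat_lit 78) (PT.lf (nat_lit 27588) (nat_lit 6) (nat_lit 363) (nat_lit 1) (nat_lit 286) (nat_lit 226) (nat_lit 268)) (PT.lf (nat_lit 27512) (nat_lit 6) (nat_lit 362) (nat_lit 1) (nat_lit 287) (nat_lit 226) (nat_lit 267)))) (PT.nd (nat_lit 156) (PT.nd (nat_lit 78) (PT.lf (nat_lit 28348) (nat_lit 6) (nat_lit 373) (nat_lit 3) (nat_lit 267) (nat_lit 227) (nat_lit 286)) (PT.lf (nat_lit 28424) (nat_lit 6) (nat_lit 374) (nat_lit 3) (nat_lit 268) (nat_lit 227) (nat_lit 285))) (PT.nd (nat_lit 78) (PT.lf (nat_lit 28500) (nat_lit 6) (nat_lit 375) (nat_lit 3) (nat_lit 269) (nat_lit 227) (nat_lit 284)) (PT.lf (nat_lit 28576) (nat_lit 6) (nat_lit 376) (nat_lit 3) (nat_lit 270) (nat_lit 227) (nat_lit 283))))))) (PT.nd (nat_lit 1170) (PT.nd (nat_lit 546) (PT.nd (nat_lit 234) (PT.nd (nat_lit 78) (PT.lf (nat_lit 28652) (nat_lit 6) (nat_lit 377) (nat_lit 3) (nat_lit 271)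 (nat_lit 227) (nat_lit 282)) (PT.nd (nat_lit 78) (PT.lf (nat_lit 28728) (nat_lit 6) (nat_lit 378) (nat_lit 3) (nat_lit 272) (nat_lit 227) (nat_lit 281)) (PT.lf (nat_lit 28804) (nat_lit 6) (nat_lit 379) (nat_lit 3) (nat_lit 273) (nat_lit 227) (nat_lit 280)))) (PT.nd (nat_lit 156) (PT.nd (nat_lit 78) (PT.lf (nat_lit 28880) (nat_lit 6) (nat_lit 380) (nat_lit 3) (nat_lit 274) (nat_lit 227) (nat_lit 279)) (PT.lf (nat_lit 28956) (nat_lit 6) (nat_lit 381) (nat_lit 3) (nat_lit 275) (nat_lit 227) (nat_lit 278))) (PT.nd (nat_lit 78) (PT.lf (nat_lit 29032) (nat_lit 6) (nat_lit 382) (nat_lit 3) (nat_lit 276) (nat_lit 227) (nat_lit 277)) (PT.lf (nat_lit 29032) (nat_lit 6) (nat_lit 382) (nat_lit 1) (nat_lit 277) (nat_lit 227) (nat_lit 276))))) (PT.nd (nat_lit 312) (PT.nd (nat_lit 156) (PT.nd (nat_lit 78) (PT.lf (nat_lit 28956) (nat_lit 6) (nat_lit 381) (nat_lit 1) (nat_lit 278) (nat_lit 227) (nat_lit 275)) (PT.lf (nat_lit 28880) (nat_lit 6) (nat_lit 380) (nat_lit 1) (nat_lit 279) (nat_lit 227) (nat_lit 274))) (PT.nd (nat_lit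 78) (PT.lf (nat_lit 28804) (nat_lit 6) (nat_lit 379) (nat_lit 1) (nat_lit 280) (nat_lit 227) (nat_lit 273)) (PT.lf (nat_lit 28728) (nat_lit 6) (nat_lit 378) (nat_lit 1) (nat_lit 281) (nat_lit 227) (nat_lit 272)))) (PT.nd (nat_lit 156) (PT.nd (nat_lit 78) (PT.lf (nat_lit 28652) (nat_lit 6) (nat_lit 377) (nat_lit 1) (nat_lit 282) (nat_lit 227) (nat_lit 271)) (PT.lf (nat_lit 28576) (nat_lit 6) (nat_lit 376) (nat_lit 1) (nat_lit 283) (nat_lit 227) (nat_lit 270))) (PT.nd (nat_lit 78) (PT.lf (nat_lit 28500) (nat_lit 6) (nat_lit 375) (nat_lit 1) (nat_lit 284) (nat_lit 227) (nat_lit 269)) (PT.lf (nat_lit 28424) (nat_lit 6) (nat_lit 374) (nat_lit 1) (nat_lit 285) (nat_lit 227) (nat_lit 268)))))) (PT.nd (nat_lit 80184) (PT.nd (nat_lit 79872) (PT.nd (nat_lit 79716) (PT.nd (nat_lit 79638) (PT.lf (nat_lit 28348) (nat_lit 6) (nat_lit 373) (nat_lit 1) (nat_lit 286) (nat_lit 227) (nat_lit 267)) (PT.lf (nat_lit 29108) (nat_lit 6) (nat_lit 383) (nat_lit 3) (nat_lit 266) (nat_lit 228) (nat_lit 286))) (PT.nd (nat_lit 78) (PT.lf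 (nat_lit 29184) (nat_lit 6) (nat_lit 384) (nat_lit 3) (nat_lit 267) (nat_lit 228) (nat_lit 285)) (PT.lf (nat_lit 29260) (nat_lit 6) (nat_lit 385) (nat_lit 3) (nat_lit 268) (nat_lit 228) (nat_lit 284)))) (PT.nd (nat_lit 156) (PT.nd (nat_lit 78) (PT.lf (nat_lit 29336) (nat_lit 6) (nat_lit 386) (nat_lit 3) (nat_lit 269) (nat_lit 228) (nat_lit 283)) (PT.lf (nat_lit 29412) (nat_lit 6) (nat_lit 387) (nat_lit 3) (nat_lit 270) (nat_lit 228) (nat_lit 282))) (PT.nd (nat_lit 78) (PT.lf (nat_lit 29488) (nat_lit 6) (nat_lit 388) (nat_lit 3) (nat_lit 271) (nat_lit 228) (nat_lit 281)) (PT.lf (nat_lit 29564) (nat_lit 6) (nat_lit 389) (nat_lit 3) (nat_lit 272) (nat_lit 228) (nat_lit 280))))) (PT.nd (nat_lit 312) (PT.nd (nat_lit 156) (PT.nd (nat_lit 78) (PT.lf (nat_lit 29640) (nat_lit 6) (nat_lit 390) (nat_lit 3) (nat_lit 273) (nat_lit 228) (nat_lit 279)) (PT.lf (nat_lit 29716) (nat_lit 6) (nat_lit 391) (nat_lit 3) (nat_lit 274) (nat_lit 228) (nat_lit 278))) (PT.nd (nat_lit 78) (PT.lf (nat_lit 29792) (nat_lit 6) (nat_lit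 392) (nat_lit 3) (nat_lit 275) (nat_lit 228) (nat_lit 277)) (PT.lf (nat_lit 29868) (nat_lit 3) (nat_lit 393) (nat_lit 1) (nat_lit 276) (nat_lit 228) (nat_lit 276)))) (PT.nd (nat_lit 156) (PT.nd (nat_lit 78) (PT.lf (nat_lit 29792) (nat_lit 6) (nat_lit 392) (nat_lit 1) (nat_lit 277) (nat_lit 228) (nat_lit 275)) (PT.lf (nat_lit 29716) (nat_lit 6) (nat_lit 391) (nat_lit 1) (nat_lit 278) (nat_lit 228) (nat_lit 274))) (PT.nd (nat_lit 78) (PT.lf (nat_lit 29640) (nat_lit 6) (nat_lit 390) (nat_lit 1) (nat_lit 279) (nat_lit 228) (nat_lit 273)) (PT.lf (nat_lit 29564) (nat_lit 6) (nat_lit 389) (nat_lit 1) (nat_lit 280) (nat_lit 228) (nat_lit 272))))))))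
noncomputable def pc9 : PT := (PT.nd (nat_lit 161304) (PT.nd (nat_lit 80652) (PT.nd (nat_lit 80028) (PT.nd (nat_lit 234) (PT.nd (nat_lit 78) (PT.lf (nat_lit 29488) (nat_lit 6) (nat_lit 388) (nat_lit 1) (nat_lit 281) (nat_lit 228) (nat_lit 271)) (PT.nd (nat_lit 78) (PT.lf (nat_lit 29412) (nat_lit 6) (nat_lit 387) (nat_lit 1) (nat_lit 282) (nat_lit 228) (nat_lit 270)) (PT.lf (nat_lit 29336) (nat_lit 6) (nat_lit 386) (nat_lit 1) (nat_lit 283) (nat_lit 228) (nat_lit 269)))) (PT.nd (nat_lit 156) (PT.nd (nat_lit 78) (PT.lf (nat_lit 29260) (nat_lit 6) (nat_lit 385) (nat_lit 1) (nat_lit 284) (nat_lit 228) (nat_lit 268)) (PT.lf (nat_lit 29184) (nat_lit 6) (nat_lit 384) (nat_lit 1) (nat_lit 285) (nat_lit 228) (nat_lit 267))) (PT.nd (nat_lit 79560) (PT.lf (nat_lit 29108) (nat_lit 6) (nat_lit 383) (nat_lit 1) (nat_lit 286) (nat_lit 228) (nat_lit 266)) (PT.lf (nat_lit 29944) (nat_lit 6) (nat_lit 394) (nat_lit 3) (nat_lit 265) (nat_lit 229) (nat_lit 286))))) (PT.nd (nat_lit 312) (PT.nd (nat_lit 156) (PT.nd (nat_lit 78)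 (PT.lf (nat_lit 30020) (nat_lit 6) (nat_lit 395) (nat_lit 3) (nat_lit 266) (nat_lit 229) (nat_lit 285)) (PT.lf (nat_lit 30096) (nat_lit 6) (nat_lit 396) (nat_lit 3) (nat_lit 267) (nat_lit 229) (nat_lit 284))) (PT.nd (nat_lit 78) (PT.lf (nat_lit 30172) (nat_lit 6) (nat_lit 397) (nat_lit 3) (nat_lit 268) (nat_lit 229) (nat_lit 283)) (PT.lf (nat_lit 30248) (nat_lit 6) (nat_lit 398) (nat_lit 3) (nat_lit 269) (nat_lit 229) (nat_lit 282)))) (PT.nd (nat_lit 156) (PT.nd (nat_lit 78) (PT.lf (nat_lit 30324) (nat_lit 6) (nat_lit 399) (nat_lit 3) (nat_lit 270) (nat_lit 229) (nat_lit 281)) (PT.lf (nat_lit 30400) (nat_lit 6) (nat_lit 400) (nat_lit 3) (nat_lit 271) (nat_lit 229) (nat_lit 280))) (PT.nd (nat_lit 78) (PT.lf (nat_lit 30476) (nat_lit 6) (nat_lit 401) (nat_lit 3) (nat_lit 272) (nat_lit 229) (nat_lit 279)) (PT.lf (nat_lit 30552) (nat_lit 6) (nat_lit 402) (nat_lit 3) (nat_lit 273) (nat_lit 229) (nat_lit 278)))))) (PT.nd (nat_lit 624) (PT.nd (nat_lit 312) (PT.nd (nat_lit 156) (PT.nd (nat_lit 78) (PT.lf (nat_lit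 30628) (nat_lit 6) (nat_lit 403) (nat_lit 3) (nat_lit 274) (nat_lit 229) (nat_lit 277)) (PT.lf (nat_lit 30704) (nat_lit 6) (nat_lit 404) (nat_lit 3) (nat_lit 275) (nat_lit 229) (nat_lit 276))) (PT.nd (nat_lit 78) (PT.lf (nat_lit 30704) (nat_lit 6) (nat_lit 404) (nat_lit 1) (nat_lit 276) (nat_lit 229) (nat_lit 275)) (PT.lf (nat_lit 30628) (nat_lit 6) (nat_lit 403) (nat_lit 1) (nat_lit 277) (nat_lit 229) (nat_lit 274)))) (PT.nd (nat_lit 156) (PT.nd (nat_lit 78) (PT.lf (nat_lit 30552) (nat_lit 6) (nat_lit 402) (nat_lit 1) (nat_lit 278) (nat_lit 229) (nat_lit 273)) (PT.lf (nat_lit 30476) (nat_lit 6) (nat_lit 401) (nat_lit 1) (nat_lit 279) (nat_lit 229) (nat_lit 272))) (PT.nd (nat_lit 78) (PT.lf (nat_lit 30400) (nat_lit 6) (nat_lit 400) (nat_lit 1) (nat_lit 280) (nat_lit 229) (nat_lit 271)) (PT.lf (nat_lit 30324) (nat_lit 6) (nat_lit 399) (nat_lit 1) (nat_lit 281) (nat_lit 229) (nat_lit 270))))) (PT.nd (nat_lit 312) (PT.nd (nat_lit 156) (PT.nd (nat_lit 78) (PT.lf (nat_lit 30248) (nat_lit 6) (nat_lit 398) (nat_lit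 1) (nat_lit 282) (nat_lit 229) (nat_lit 269)) (PT.lf (nat_lit 30172) (nat_lit 6) (nat_lit 397) (nat_lit 1) (nat_lit 283) (nat_lit 229) (nat_lit 268))) (PT.nd (nat_lit 78) (PT.lf (nat_lit 30096) (nat_lit 6) (nat_lit 396) (nat_lit 1) (nat_lit 284) (nat_lit 229) (nat_lit 267)) (PT.lf (nat_lit 30020) (nat_lit 6) (nat_lit 395) (nat_lit 1) (nat_lit 285) (nat_lit 229) (nat_lit 266)))) (PT.nd (nat_lit 79560) (PT.nd (nat_lit 79482) (PT.lf (nat_lit 29944) (nat_lit 6) (nat_lit 394) (nat_lit 1) (nat_lit 286) (nat_lit 229) (nat_lit 265)) (PT.lf (nat_lit 30780) (nat_lit 6) (nat_lit 405) (nat_lit 3) (nat_lit 264) (nat_lit 230) (nat_lit 286))) (PT.nd (nat_lit 78) (PT.lf (nat_lit 30856) (nat_lit 6) (nat_lit 406) (nat_lit 3) (nat_lit 265) (nat_lit 230) (nat_lit 285)) (PT.lf (nat_lit 30932) (nat_lit 6) (nat_lit 407) (nat_lit 3) (nat_lit 266) (nat_lit 230) (nat_lit 284))))))) (PT.nd (nat_lit 1248) (PT.nd (nat_lit 624) (PT.nd (nat_lit 312) (PT.nd (nat_lit 156) (PT.nd (nat_lit 78) (PT.lf (nat_lit 31008) (nat_lit 6) (nat_lit 408)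 (nat_lit 3) (nat_lit 267) (nat_lit 230) (nat_lit 283)) (PT.lf (nat_lit 31084) (nat_lit 6) (nat_lit 409) (nat_lit 3) (nat_lit 268) (nat_lit 230) (nat_lit 282))) (PT.nd (nat_lit 78) (PT.lf (nat_lit 31160) (nat_lit 6) (nat_lit 410) (nat_lit 3) (nat_lit 269) (nat_lit 230) (nat_lit 281)) (PT.lf (nat_lit 31236) (nat_lit 6) (nat_lit 411) (nat_lit 3) (nat_lit 270) (nat_lit 230) (nat_lit 280)))) (PT.nd (nat_lit 156) (PT.nd (nat_lit 78) (PT.lf (nat_lit 31312) (nat_lit 6) (nat_lit 412) (nat_lit 3) (nat_lit 271) (nat_lit 230) (nat_lit 279)) (PT.lf (nat_lit 31388) (nat_lit 6) (nat_lit 413) (nat_lit 3) (nat_lit 272) (nat_lit 230) (nat_lit 278))) (PT.nd (nat_lit 78) (PT.lf (nat_lit 31464) (nat_lit 6) (nat_lit 414) (nat_lit 3) (nat_lit 273) (nat_lit 230) (nat_lit 277)) (PT.lf (nat_lit 31540) (nat_lit 6) (nat_lit 415) (nat_lit 3) (nat_lit 274) (nat_lit 230) (nat_lit 276))))) (PT.nd (nat_lit 312) (PT.nd (nat_lit 156) (PT.nd (nat_lit 78) (PT.lf (nat_lit 31616) (nat_lit 3) (nat_lit 416) (nat_lit 1) (nat_lit 275) (nat_lit 230)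 (nat_lit 275)) (PT.lf (nat_lit 31540) (nat_lit 6) (nat_lit 415) (nat_lit 1) (nat_lit 276) (nat_lit 230) (nat_lit 274))) (PT.nd (nat_lit 78) (PT.lf (nat_lit 31464) (nat_lit 6) (nat_lit 414) (nat_lit 1) (nat_lit 277) (nat_lit 230) (nat_lit 273)) (PT.lf (nat_lit 31388) (nat_lit 6) (nat_lit 413) (nat_lit 1) (nat_lit 278) (nat_lit 230) (nat_lit 272)))) (PT.nd (nat_lit 156) (PT.nd (nat_lit 78) (PT.lf (nat_lit 31312) (nat_lit 6) (nat_lit 412) (nat_lit 1) (nat_lit 279) (nat_lit 230) (nat_lit 271)) (PT.lf (nat_lit 31236) (nat_lit 6) (nat_lit 411) (nat_lit 1) (nat_lit 280) (nat_lit 230) (nat_lit 270))) (PT.nd (nat_lit 78) (PT.lf (nat_lit 31160) (nat_lit 6) (nat_lit 410) (nat_lit 1) (nat_lit 281) (nat_lit 230) (nat_lit 269)) (PT.lf (nat_lit 31084) (nat_lit 6) (nat_lit 409) (nat_lit 1) (nat_lit 282) (nat_lit 230) (nat_lit 268)))))) (PT.nd (nat_lit 80028) (PT.nd (nat_lit 79716) (PT.nd (nat_lit 156) (PT.nd (nat_lit 78) (PT.lf (nat_lit 31008) (nat_lit 6) (nat_lit 408) (nat_lit 1) (nat_lit 283) (nat_lit 230) (nat_lit 267))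 (PT.lf (nat_lit 30932) (nat_lit 6) (nat_lit 407) (nat_lit 1) (nat_lit 284) (nat_lit 230) (nat_lit 266))) (PT.nd (nat_lit 78) (PT.lf (nat_lit 30856) (nat_lit 6) (nat_lit 406) (nat_lit 1) (nat_lit 285) (nat_lit 230) (nat_lit 265)) (PT.lf (nat_lit 30780) (nat_lit 6) (nat_lit 405) (nat_lit 1) (nat_lit 286) (nat_lit 230) (nat_lit 264)))) (PT.nd (nat_lit 156) (PT.nd (nat_lit 78) (PT.lf (nat_lit 31768) (nat_lit 6) (nat_lit 418) (nat_lit 3) (nat_lit 264) (nat_lit 231) (nat_lit 285)) (PT.lf (nat_lit 31844) (nat_lit 6) (nat_lit 419) (nat_lit 3) (nat_lit 265) (nat_lit 231) (nat_lit 284))) (PT.nd (nat_lit 78) (PT.lf (nat_lit 31920) (nat_lit 6) (nat_lit 420) (nat_lit 3) (nat_lit 266) (nat_lit 231) (nat_lit 283)) (PT.lf (nat_lit 31996) (nat_lit 6) (nat_lit 421) (nat_lit 3) (nat_lit 267) (nat_lit 231) (nat_lit 282))))) (PT.nd (nat_lit 312) (PT.nd (nat_lit 156) (PT.nd (nat_lit 78) (PT.lf (nat_lit 32072) (nat_lit 6) (nat_lit 422) (nat_lit 3) (nat_lit 268) (nat_lit 231) (nat_lit 281)) (PT.lf (nat_lit 32148) (nat_lit 6) (nat_lit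 423) (nat_lit 3) (nat_lit 269) (nat_lit 231) (nat_lit 280))) (PT.nd (nat_lit 78) (PT.lf (nat_lit 32224) (nat_lit 6) (nat_lit 424) (nat_lit 3) (nat_lit 270) (nat_lit 231) (nat_lit 279)) (PT.lf (nat_lit 32300) (nat_lit 6) (nat_lit 425) (nat_lit 3) (nat_lit 271) (nat_lit 231) (nat_lit 278)))) (PT.nd (nat_lit 156) (PT.nd (nat_lit 78) (PT.lf (nat_lit 32376) (nat_lit 6) (nat_lit 426) (nat_lit 3) (nat_lit 272) (nat_lit 231) (nat_lit 277)) (PT.lf (nat_lit 32452) (nat_lit 6) (nat_lit 427) (nat_lit 3) (nat_lit 273) (nat_lit 231) (nat_lit 276))) (PT.nd (nat_lit 78) (PT.lf (nat_lit 32528) (nat_lit 6) (nat_lit 428) (nat_lit 3) (nat_lit 274) (nat_lit 231) (nat_lit 275)) (PT.lf (nat_lit 32528) (nat_lit 6) (nat_lit 428) (nat_lit 1) (nat_lit 275) (nat_lit 231) (nat_lit 274))))))))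
noncomputable def pc10 : PT := (PT.nd (nat_lit 81822) (PT.nd (nat_lit 80574) (PT.nd (nat_lit 546) (PT.nd (nat_lit 234) (PT.nd (nat_lit 78) (PT.lf (nat_lit 32452) (nat_lit 6) (nat_lit 427) (nat_lit 1) (nat_lit 276) (nat_lit 231) (nat_lit 273)) (PT.nd (nat_lit 78) (PT.lf (nat_lit 32376) (nat_lit 6) (nat_lit 426) (nat_lit 1) (nat_lit 277) (nat_lit 231) (nat_lit 272)) (PT.lf (nat_lit 32300) (nat_lit 6) (nat_lit 425) (nat_lit 1) (nat_lit 278) (nat_lit 231) (nat_lit 271)))) (PT.nd (nat_lit 156) (PT.nd (nat_lit 78) (PT.lf (nat_lit 32224) (nat_lit 6) (nat_lit 424) (nat_lit 1) (nat_lit 279) (nat_lit 231) (nat_lit 270)) (PT.lf (nat_lit 32148) (nat_lit 6) (nat_lit 423) (nat_lit 1) (nat_lit 280) (nat_lit 231) (nat_lit 269))) (PT.nd (nat_lit 78) (PT.lf (nat_lit 32072) (nat_lit 6) (nat_lit 422) (nat_lit 1) (nat_lit 281) (nat_lit 231) (nat_lit 268)) (PT.lf (nat_lit 31996) (nat_lit 6) (nat_lit 421) (nat_lit 1) (nat_lit 282) (nat_lit 231) (nat_lit 267))))) (PT.nd (nat_lit 79716) (PT.nd (nat_lit 156) (PT.nd (nat_lit 78) (PT.lf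 (nat_lit 31920) (nat_lit 6) (nat_lit 420) (nat_lit 1) (nat_lit 283) (nat_lit 231) (nat_lit 266)) (PT.lf (nat_lit 31844) (nat_lit 6) (nat_lit 419) (nat_lit 1) (nat_lit 284) (nat_lit 231) (nat_lit 265))) (PT.nd (nat_lit 79482) (PT.lf (nat_lit 31768) (nat_lit 6) (nat_lit 418) (nat_lit 1) (nat_lit 285) (nat_lit 231) (nat_lit 264)) (PT.lf (nat_lit 32604) (nat_lit 6) (nat_lit 429) (nat_lit 3) (nat_lit 263) (nat_lit 232) (nat_lit 285)))) (PT.nd (nat_lit 156) (PT.nd (nat_lit 78) (PT.lf (nat_lit 32680) (nat_lit 6) (nat_lit 430) (nat_lit 3) (nat_lit 264) (nat_lit 232) (nat_lit 284)) (PT.lf (nat_lit 32756) (nat_lit 6) (nat_lit 431) (nat_lit 3) (nat_lit 265) (nat_lit 232) (nat_lit 283))) (PT.nd (nat_lit 78) (PT.lf (nat_lit 32832) (nat_lit 6) (nat_lit 432) (nat_lit 3) (nat_lit 266) (nat_lit 232) (nat_lit 282)) (PT.lf (nat_lit 32908) (nat_lit 6) (nat_lit 433) (nat_lit 3) (nat_lit 267) (nat_lit 232) (nat_lit 281)))))) (PT.nd (nat_lit 624) (PT.nd (nat_lit 312) (PT.nd (nat_lit 156) (PT.nd (nat_lit 78) (PT.lf (nat_lit 32984)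 (nat_lit 6) (nat_lit 434) (nat_lit 3) (nat_lit 268) (nat_lit 232) (nat_lit 280)) (PT.lf (nat_lit 33060) (nat_lit 6) (nat_lit 435) (nat_lit 3) (nat_lit 269) (nat_lit 232) (nat_lit 279))) (PT.nd (nat_lit 78) (PT.lf (nat_lit 33136) (nat_lit 6) (nat_lit 436) (nat_lit 3) (nat_lit 270) (nat_lit 232) (nat_lit 278)) (PT.lf (nat_lit 33212) (nat_lit 6) (nat_lit 437) (nat_lit 3) (nat_lit 271) (nat_lit 232) (nat_lit 277)))) (PT.nd (nat_lit 156) (PT.nd (nat_lit 78) (PT.lf (nat_lit 33288) (nat_lit 6) (nat_lit 438) (nat_lit 3) (nat_lit 272) (nat_lit 232) (nat_lit 276)) (PT.lf (nat_lit 33364) (nat_lit 6) (nat_lit 439) (nat_lit 3) (nat_lit 273) (nat_lit 232) (nat_lit 275))) (PT.nd (nat_lit 78) (PT.lf (nat_lit 33440) (nat_lit 3) (nat_lit 440) (nat_lit 1) (nat_lit 274) (nat_lit 232) (nat_lit 274)) (PT.lf (nat_lit 33364) (nat_lit 6) (nat_lit 439) (nat_lit 1) (nat_lit 275) (nat_lit 232) (nat_lit 273))))) (PT.nd (nat_lit 312) (PT.nd (nat_lit 156) (PT.nd (nat_lit 78) (PT.lf (nat_lit 33288) (nat_lit 6) (nat_lit 438) (nat_lit 1)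 (nat_lit 276) (nat_lit 232) (nat_lit 272)) (PT.lf (nat_lit 33212) (nat_lit 6) (nat_lit 437) (nat_lit 1) (nat_lit 277) (nat_lit 232) (nat_lit 271))) (PT.nd (nat_lit 78) (PT.lf (nat_lit 33136) (nat_lit 6) (nat_lit 436) (nat_lit 1) (nat_lit 278) (nat_lit 232) (nat_lit 270)) (PT.lf (nat_lit 33060) (nat_lit 6) (nat_lit 435) (nat_lit 1) (nat_lit 279) (nat_lit 232) (nat_lit 269)))) (PT.nd (nat_lit 156) (PT.nd (nat_lit 78) (PT.lf (nat_lit 32984) (nat_lit 6) (nat_lit 434) (nat_lit 1) (nat_lit 280) (nat_lit 232) (nat_lit 268)) (PT.lf (nat_lit 32908) (nat_lit 6) (nat_lit 433) (nat_lit 1) (nat_lit 281) (nat_lit 232) (nat_lit 267))) (PT.nd (nat_lit 78) (PT.lf (nat_lit 32832) (nat_lit 6) (nat_lit 432) (nat_lit 1) (nat_lit 282) (nat_lit 232) (nat_lit 266)) (PT.lf (nat_lit 32756) (nat_lit 6) (nat_lit 431) (nat_lit 1) (nat_lit 283) (nat_lit 232) (nat_lit 265))))))) (PT.nd (nat_lit 80574) (PT.nd (nat_lit 79950) (PT.nd (nat_lit 79638) (PT.nd (nat_lit 79482) (PT.nd (nat_lit 78) (PT.lf (nat_lit 32680) (nat_lit 6) (nat_lit 430)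 (nat_lit 1) (nat_lit 284) (nat_lit 232) (nat_lit 264)) (PT.lf (nat_lit 32604) (nat_lit 6) (nat_lit 429) (nat_lit 1) (nat_lit 285) (nat_lit 232) (nat_lit 263))) (PT.nd (nat_lit 78) (PT.lf (nat_lit 33516) (nat_lit 6) (nat_lit 441) (nat_lit 3) (nat_lit 262) (nat_lit 233) (nat_lit 285)) (PT.lf (nat_lit 33592) (nat_lit 6) (nat_lit 442) (nat_lit 3) (nat_lit 263) (nat_lit 233) (nat_lit 284)))) (PT.nd (nat_lit 156) (PT.nd (nat_lit 78) (PT.lf (nat_lit 33668) (nat_lit 6) (nat_lit 443) (nat_lit 3) (nat_lit 264) (nat_lit 233) (nat_lit 283)) (PT.lf (nat_lit 33744) (nat_lit 6) (nat_lit 444) (nat_lit 3) (nat_lit 265) (nat_lit 233) (nat_lit 282))) (PT.nd (nat_lit 78) (PT.lf (nat_lit 33820) (nat_lit 6) (nat_lit 445) (nat_lit 3) (nat_lit 266) (nat_lit 233) (nat_lit 281)) (PT.lf (nat_lit 33896) (nat_lit 6) (nat_lit 446) (nat_lit 3) (nat_lit 267) (nat_lit 233) (nat_lit 280))))) (PT.nd (nat_lit 312) (PT.nd (nat_lit 156) (PT.nd (nat_lit 78) (PT.lf (nat_lit 33972) (nat_lit 6) (nat_lit 447) (nat_lit 3) (nat_lit 268) (nat_lit 233)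 (nat_lit 279)) (PT.lf (nat_lit 34048) (nat_lit 6) (nat_lit 448) (nat_lit 3) (nat_lit 269) (nat_lit 233) (nat_lit 278))) (PT.nd (nat_lit 78) (PT.lf (nat_lit 34124) (nat_lit 6) (nat_lit 449) (nat_lit 3) (nat_lit 270) (nat_lit 233) (nat_lit 277)) (PT.lf (nat_lit 34200) (nat_lit 6) (nat_lit 450) (nat_lit 3) (nat_lit 271) (nat_lit 233) (nat_lit 276)))) (PT.nd (nat_lit 156) (PT.nd (nat_lit 78) (PT.lf (nat_lit 34276) (nat_lit 6) (nat_lit 451) (nat_lit 3) (nat_lit 272) (nat_lit 233) (nat_lit 275)) (PT.lf (nat_lit 34352) (nat_lit 6) (nat_lit 452) (nat_lit 3) (nat_lit 273) (nat_lit 233) (nat_lit 274))) (PT.nd (nat_lit 78) (PT.lf (nat_lit 34352) (nat_lit 6) (nat_lit 452) (nat_lit 1) (nat_lit 274) (nat_lit 233) (nat_lit 273)) (PT.lf (nat_lit 34276) (nat_lit 6) (nat_lit 451) (nat_lit 1) (nat_lit 275) (nat_lit 233) (nat_lit 272)))))) (PT.nd (nat_lit 624) (PT.nd (nat_lit 312) (PT.nd (nat_lit 156) (PT.nd (nat_lit 78) (PT.lf (nat_lit 34200) (nat_lit 6) (nat_lit 450) (nat_lit 1) (nat_lit 276) (nat_lit 233) (nat_lit 271))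 (PT.lf (nat_lit 34124) (nat_lit 6) (nat_lit 449) (nat_lit 1) (nat_lit 277) (nat_lit 233) (nat_lit 270))) (PT.nd (nat_lit 78) (PT.lf (nat_lit 34048) (nat_lit 6) (nat_lit 448) (nat_lit 1) (nat_lit 278) (nat_lit 233) (nat_lit 269)) (PT.lf (nat_lit 33972) (nat_lit 6) (nat_lit 447) (nat_lit 1) (nat_lit 279) (nat_lit 233) (nat_lit 268)))) (PT.nd (nat_lit 156) (PT.nd (nat_lit 78) (PT.lf (nat_lit 33896) (nat_lit 6) (nat_lit 446) (nat_lit 1) (nat_lit 280) (nat_lit 233) (nat_lit 267)) (PT.lf (nat_lit 33820) (nat_lit 6) (nat_lit 445) (nat_lit 1) (nat_lit 281) (nat_lit 233) (nat_lit 266))) (PT.nd (nat_lit 78) (PT.lf (nat_lit 33744) (nat_lit 6) (nat_lit 444) (nat_lit 1) (nat_lit 282) (nat_lit 233) (nat_lit 265)) (PT.lf (nat_lit 33668) (nat_lit 6) (nat_lit 443) (nat_lit 1) (nat_lit 283) (nat_lit 233) (nat_lit 264))))) (PT.nd (nat_lit 79560) (PT.nd (nat_lit 79404) (PT.nd (nat_lit 78) (PT.lf (nat_lit 33592) (nat_lit 6) (nat_lit 442) (nat_lit 1) (nat_lit 284) (nat_lit 233) (nat_lit 263)) (PT.lf (nat_lit 33516) (nat_lit 6)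 (nat_lit 441) (nat_lit 1) (nat_lit 285) (nat_lit 233) (nat_lit 262))) (PT.nd (nat_lit 78) (PT.lf (nat_lit 34428) (nat_lit 6) (nat_lit 453) (nat_lit 3) (nat_lit 261) (nat_lit 234) (nat_lit 285)) (PT.lf (nat_lit 34504) (nat_lit 6) (nat_lit 454) (nat_lit 3) (nat_lit 262) (nat_lit 234) (nat_lit 284)))) (PT.nd (nat_lit 156) (PT.nd (nat_lit 78) (PT.lf (nat_lit 34580) (nat_lit 6) (nat_lit 455) (nat_lit 3) (nat_lit 263) (nat_lit 234) (nat_lit 283)) (PT.lf (nat_lit 34656) (nat_lit 6) (nat_lit 456) (nat_lit 3) (nat_lit 264) (nat_lit 234) (nat_lit 282))) (PT.nd (nat_lit 78) (PT.lf (nat_lit 34732) (nat_lit 6) (nat_lit 457) (nat_lit 3) (nat_lit 265) (nat_lit 234) (nat_lit 281)) (PT.lf (nat_lit 34808) (nat_lit 6) (nat_lit 458) (nat_lit 3) (nat_lit 266) (nat_lit 234) (nat_lit 280))))))))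
noncomputable def pc11 : PT := (PT.nd (nat_lit 81588) (PT.nd (nat_lit 1170) (PT.nd (nat_lit 546) (PT.nd (nat_lit 234) (PT.nd (nat_lit 78) (PT.lf (nat_lit 34884) (nat_lit 6) (nat_lit 459) (nat_lit 3) (nat_lit 267) (nat_lit 234) (nat_lit 279)) (PT.nd (nat_lit 78) (PT.lf (nat_lit 34960) (nat_lit 6) (nat_lit 460) (nat_lit 3) (nat_lit 268) (nat_lit 234) (nat_lit 278)) (PT.lf (nat_lit 35036) (nat_lit 6) (nat_lit 461) (nat_lit 3) (nat_lit 269) (nat_lit 234) (nat_lit 277)))) (PT.nd (nat_lit 156) (PT.nd (nat_lit 78) (PT.lf (nat_lit 35112) (nat_lit 6) (nat_lit 462) (nat_lit 3) (nat_lit 270) (nat_lit 234) (nat_lit 276)) (PT.lf (nat_lit 35188) (nat_lit 6) (nat_lit 463) (nat_lit 3) (nat_lit 271) (nat_lit 234) (nat_lit 275))) (PT.nd (nat_lit 78) (PT.lf (nat_lit 35264) (nat_lit 6) (nat_lit 464) (nat_lit 3) (nat_lit 272) (nat_lit 234) (nat_lit 274)) (PT.lf (nat_lit 35340) (nat_lit 3) (nat_lit 465) (nat_lit 1) (nat_lit 273) (nat_lit 234) (nat_lit 273))))) (PT.nd (nat_lit 312) (PT.nd (nat_lit 156) (PT.nd (nat_lit 78) (PT.lf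 (nat_lit 35264) (nat_lit 6) (nat_lit 464) (nat_lit 1) (nat_lit 274) (nat_lit 234) (nat_lit 272)) (PT.lf (nat_lit 35188) (nat_lit 6) (nat_lit 463) (nat_lit 1) (nat_lit 275) (nat_lit 234) (nat_lit 271))) (PT.nd (nat_lit 78) (PT.lf (nat_lit 35112) (nat_lit 6) (nat_lit 462) (nat_lit 1) (nat_lit 276) (nat_lit 234) (nat_lit 270)) (PT.lf (nat_lit 35036) (nat_lit 6) (nat_lit 461) (nat_lit 1) (nat_lit 277) (nat_lit 234) (nat_lit 269)))) (PT.nd (nat_lit 156) (PT.nd (nat_lit 78) (PT.lf (nat_lit 34960) (nat_lit 6) (nat_lit 460) (nat_lit 1) (nat_lit 278) (nat_lit 234) (nat_lit 268)) (PT.lf (nat_lit 34884) (nat_lit 6) (nat_lit 459) (nat_lit 1) (nat_lit 279) (nat_lit 234) (nat_lit 267))) (PT.nd (nat_lit 78) (PT.lf (nat_lit 34808) (nat_lit 6) (nat_lit 458) (nat_lit 1) (nat_lit 280) (nat_lit 234) (nat_lit 266)) (PT.lf (nat_lit 34732) (nat_lit 6) (nat_lit 457) (nat_lit 1) (nat_lit 281) (nat_lit 234) (nat_lit 265)))))) (PT.nd (nat_lit 79794) (PT.nd (nat_lit 79482) (PT.nd (nat_lit 156) (PT.nd (nat_lit 78) (PT.lf (nat_lit 34656)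 (nat_lit 6) (nat_lit 456) (nat_lit 1) (nat_lit 282) (nat_lit 234) (nat_lit 264)) (PT.lf (nat_lit 34580) (nat_lit 6) (nat_lit 455) (nat_lit 1) (nat_lit 283) (nat_lit 234) (nat_lit 263))) (PT.nd (nat_lit 78) (PT.lf (nat_lit 34504) (nat_lit 6) (nat_lit 454) (nat_lit 1) (nat_lit 284) (nat_lit 234) (nat_lit 262)) (PT.lf (nat_lit 34428) (nat_lit 6) (nat_lit 453) (nat_lit 1) (nat_lit 285) (nat_lit 234) (nat_lit 261)))) (PT.nd (nat_lit 156) (PT.nd (nat_lit 78) (PT.lf (nat_lit 35568) (nat_lit 6) (nat_lit 468) (nat_lit 3) (nat_lit 260) (nat_lit 235) (nat_lit 285)) (PT.lf (nat_lit 35644) (nat_lit 6) (nat_lit 469) (nat_lit 3) (nat_lit 261) (nat_lit 235) (nat_lit 284))) (PT.nd (nat_lit 78) (PT.lf (nat_lit 35720) (nat_lit 6) (nat_lit 470) (nat_lit 3) (nat_lit 262) (nat_lit 235) (nat_lit 283)) (PT.lf (nat_lit 35796) (nat_lit 6) (nat_lit 471) (nat_lit 3) (nat_lit 263) (nat_lit 235) (nat_lit 282))))) (PT.nd (nat_lit 312) (PT.nd (nat_lit 156) (PT.nd (nat_lit 78) (PT.lf (nat_lit 35872) (nat_lit 6) (nat_lit 472) (nat_lit 3)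 (nat_lit 264) (nat_lit 235) (nat_lit 281)) (PT.lf (nat_lit 35948) (nat_lit 6) (nat_lit 473) (nat_lit 3) (nat_lit 265) (nat_lit 235) (nat_lit 280))) (PT.nd (nat_lit 78) (PT.lf (nat_lit 36024) (nat_lit 6) (nat_lit 474) (nat_lit 3) (nat_lit 266) (nat_lit 235) (nat_lit 279)) (PT.lf (nat_lit 36100) (nat_lit 6) (nat_lit 475) (nat_lit 3) (nat_lit 267) (nat_lit 235) (nat_lit 278)))) (PT.nd (nat_lit 156) (PT.nd (nat_lit 78) (PT.lf (nat_lit 36176) (nat_lit 6) (nat_lit 476) (nat_lit 3) (nat_lit 268) (nat_lit 235) (nat_lit 277)) (PT.lf (nat_lit 36252) (nat_lit 6) (nat_lit 477) (nat_lit 3) (nat_lit 269) (nat_lit 235) (nat_lit 276))) (PT.nd (nat_lit 78) (PT.lf (nat_lit 36328) (nat_lit 6) (nat_lit 478) (nat_lit 3) (nat_lit 270) (nat_lit 235) (nat_lit 275)) (PT.lf (nat_lit 36404) (nat_lit 6) (nat_lit 479) (nat_lit 3) (nat_lit 271) (nat_lit 235) (nat_lit 274))))))) (PT.nd (nat_lit 80340) (PT.nd (nat_lit 624) (PT.nd (nat_lit 312) (PT.nd (nat_lit 156) (PT.nd (nat_lit 78) (PT.lf (nat_lit 36480) (nat_lit 6) (nat_lit 480) (nat_lit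 3) (nat_lit 272) (nat_lit 235) (nat_lit 273)) (PT.lf (nat_lit 36480) (nat_lit 6) (nat_lit 480) (nat_lit 1) (nat_lit 273) (nat_lit 235) (nat_lit 272))) (PT.nd (nat_lit 78) (PT.lf (nat_lit 36404) (nat_lit 6) (nat_lit 479) (nat_lit 1) (nat_lit 274) (nat_lit 235) (nat_lit 271)) (PT.lf (nat_lit 36328) (nat_lit 6) (nat_lit 478) (nat_lit 1) (nat_lit 275) (nat_lit 235) (nat_lit 270)))) (PT.nd (nat_lit 156) (PT.nd (nat_lit 78) (PT.lf (nat_lit 36252) (nat_lit 6) (nat_lit 477) (nat_lit 1) (nat_lit 276) (nat_lit 235) (nat_lit 269)) (PT.lf (nat_lit 36176) (nat_lit 6) (nat_lit 476) (nat_lit 1) (nat_lit 277) (nat_lit 235) (nat_lit 268))) (PT.nd (nat_lit 78) (PT.lf (nat_lit 36100) (nat_lit 6) (nat_lit 475) (nat_lit 1) (nat_lit 278) (nat_lit 235) (nat_lit 267)) (PT.lf (nat_lit 36024) (nat_lit 6) (nat_lit 474) (nat_lit 1) (nat_lit 279) (nat_lit 235) (nat_lit 266))))) (PT.nd (nat_lit 312) (PT.nd (nat_lit 156) (PT.nd (nat_lit 78) (PT.lf (nat_lit 35948) (nat_lit 6) (nat_lit 473) (nat_lit 1) (nat_lit 280) (nat_lit 235) (nat_lit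 265)) (PT.lf (nat_lit 35872) (nat_lit 6) (nat_lit 472) (nat_lit 1) (nat_lit 281) (nat_lit 235) (nat_lit 264))) (PT.nd (nat_lit 78) (PT.lf (nat_lit 35796) (nat_lit 6) (nat_lit 471) (nat_lit 1) (nat_lit 282) (nat_lit 235) (nat_lit 263)) (PT.lf (nat_lit 35720) (nat_lit 6) (nat_lit 470) (nat_lit 1) (nat_lit 283) (nat_lit 235) (nat_lit 262)))) (PT.nd (nat_lit 79248) (PT.nd (nat_lit 78) (PT.lf (nat_lit 35644) (nat_lit 6) (nat_lit 469) (nat_lit 1) (nat_lit 284) (nat_lit 235) (nat_lit 261)) (PT.lf (nat_lit 35568) (nat_lit 6) (nat_lit 468) (nat_lit 1) (nat_lit 285) (nat_lit 235) (nat_lit 260))) (PT.nd (nat_lit 78) (PT.lf (nat_lit 35492) (nat_lit 6) (nat_lit 467) (nat_lit 3) (nat_lit 259) (nat_lit 236) (nat_lit 285)) (PT.lf (nat_lit 37468) (nat_lit 6) (nat_lit 493) (nat_lit 3) (nat_lit 260) (nat_lit 236) (nat_lit 284)))))) (PT.nd (nat_lit 624) (PT.nd (nat_lit 312) (PT.nd (nat_lit 156) (PT.nd (nat_lit 78) (PT.lf (nat_lit 37544) (nat_lit 6) (nat_lit 494) (nat_lit 3) (nat_lit 261) (nat_lit 236) (nat_lit 283)) (PT.lf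 (nat_lit 37620) (nat_lit 6) (nat_lit 495) (nat_lit 3) (nat_lit 262) (nat_lit 236) (nat_lit 282))) (PT.nd (nat_lit 78) (PT.lf (nat_lit 37696) (nat_lit 6) (nat_lit 496) (nat_lit 3) (nat_lit 263) (nat_lit 236) (nat_lit 281)) (PT.lf (nat_lit 37772) (nat_lit 6) (nat_lit 497) (nat_lit 3) (nat_lit 264) (nat_lit 236) (nat_lit 280)))) (PT.nd (nat_lit 156) (PT.nd (nat_lit 78) (PT.lf (nat_lit 37848) (nat_lit 6) (nat_lit 498) (nat_lit 3) (nat_lit 265) (nat_lit 236) (nat_lit 279)) (PT.lf (nat_lit 37924) (nat_lit 6) (nat_lit 499) (nat_lit 3) (nat_lit 266) (nat_lit 236) (nat_lit 278))) (PT.nd (nat_lit 78) (PT.lf (nat_lit 38000) (nat_lit 6) (nat_lit 500) (nat_lit 3) (nat_lit 267) (nat_lit 236) (nat_lit 277)) (PT.lf (nat_lit 38076) (nat_lit 6) (nat_lit 501) (nat_lit 3) (nat_lit 268) (nat_lit 236) (nat_lit 276))))) (PT.nd (nat_lit 312) (PT.nd (nat_lit 156) (PT.nd (nat_lit 78) (PT.lf (nat_lit 38152) (nat_lit 6) (nat_lit 502) (nat_lit 3) (nat_lit 269) (nat_lit 236) (nat_lit 275)) (PT.lf (nat_lit 38228) (nat_lit 6) (nat_lit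 503) (nat_lit 3) (nat_lit 270) (nat_lit 236) (nat_lit 274))) (PT.nd (nat_lit 78) (PT.lf (nat_lit 38304) (nat_lit 6) (nat_lit 504) (nat_lit 3) (nat_lit 271) (nat_lit 236) (nat_lit 273)) (PT.lf (nat_lit 38380) (nat_lit 3) (nat_lit 505) (nat_lit 1) (nat_lit 272) (nat_lit 236) (nat_lit 272)))) (PT.nd (nat_lit 156) (PT.nd (nat_lit 78) (PT.lf (nat_lit 38304) (nat_lit 6) (nat_lit 504) (nat_lit 1) (nat_lit 273) (nat_lit 236) (nat_lit 271)) (PT.lf (nat_lit 38228) (nat_lit 6) (nat_lit 503) (nat_lit 1) (nat_lit 274) (nat_lit 236) (nat_lit 270))) (PT.nd (nat_lit 78) (PT.lf (nat_lit 38152) (nat_lit 6) (nat_lit 502) (nat_lit 1) (nat_lit 275) (nat_lit 236) (nat_lit 269)) (PT.lf (nat_lit 38076) (nat_lit 6) (nat_lit 501) (nat_lit 1) (nat_lit 276) (nat_lit 236) (nat_lit 268))))))))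
noncomputable def pc12 : PT := (PT.nd (nat_lit 81432) (PT.nd (nat_lit 80184) (PT.nd (nat_lit 546) (PT.nd (nat_lit 234) (PT.nd (nat_lit 78) (PT.lf (nat_lit 38000) (nat_lit 6) (nat_lit 500) (nat_lit 1) (nat_lit 277) (nat_lit 236) (nat_lit 267)) (PT.nd (nat_lit 78) (PT.lf (nat_lit 37924) (nat_lit 6) (nat_lit 499) (nat_lit 1) (nat_lit 278) (nat_lit 236) (nat_lit 266)) (PT.lf (nat_lit 37848) (nat_lit 6) (nat_lit 498) (nat_lit 1) (nat_lit 279) (nat_lit 236) (nat_lit 265)))) (PT.nd (nat_lit 156) (PT.nd (nat_lit 78) (PT.lf (nat_lit 37772) (nat_lit 6) (nat_lit 497) (nat_lit 1) (nat_lit 280) (nat_lit 236) (nat_lit 264)) (PT.lf (nat_lit 37696) (nat_lit 6) (nat_lit 496) (nat_lit 1) (nat_lit 281) (nat_lit 236) (nat_lit 263))) (PT.nd (nat_lit 78) (PT.lf (nat_lit 37620) (nat_lit 6) (nat_lit 495) (nat_lit 1) (nat_lit 282) (nat_lit 236) (nat_lit 262)) (PT.lf (nat_lit 37544) (nat_lit 6) (nat_lit 494) (nat_lit 1) (nat_lit 283) (nat_lit 236) (nat_lit 261))))) (PT.nd (nat_lit 79326) (PT.nd (nat_lit 79170) (PT.nd (nat_lit 78)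 (PT.lf (nat_lit 37468) (nat_lit 6) (nat_lit 493) (nat_lit 1) (nat_lit 284) (nat_lit 236) (nat_lit 260)) (PT.lf (nat_lit 35492) (nat_lit 6) (nat_lit 467) (nat_lit 1) (nat_lit 285) (nat_lit 236) (nat_lit 259))) (PT.nd (nat_lit 78) (PT.lf (nat_lit 35416) (nat_lit 6) (nat_lit 466) (nat_lit 3) (nat_lit 258) (nat_lit 237) (nat_lit 285)) (PT.lf (nat_lit 37392) (nat_lit 6) (nat_lit 492) (nat_lit 3) (nat_lit 259) (nat_lit 237) (nat_lit 284)))) (PT.nd (nat_lit 156) (PT.nd (nat_lit 78) (PT.lf (nat_lit 39292) (nat_lit 6) (nat_lit 517) (nat_lit 3) (nat_lit 260) (nat_lit 237) (nat_lit 283)) (PT.lf (nat_lit 39368) (nat_lit 6) (nat_lit 518) (nat_lit 3) (nat_lit 261) (nat_lit 237) (nat_lit 282))) (PT.nd (nat_lit 78) (PT.lf (nat_lit 39444) (nat_lit 6) (nat_lit 519) (nat_lit 3) (nat_lit 262) (nat_lit 237) (nat_lit 281)) (PT.lf (nat_lit 39520) (nat_lit 6) (nat_lit 520) (nat_lit 3) (nat_lit 263) (nat_lit 237) (nat_lit 280)))))) (PT.nd (nat_lit 624) (PT.nd (nat_lit 312) (PT.nd (nat_lit 156) (PT.nd (nat_lit 78) (PT.lf (nat_lit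 39596) (nat_lit 6) (nat_lit 521) (nat_lit 3) (nat_lit 264) (nat_lit 237) (nat_lit 279)) (PT.lf (nat_lit 39672) (nat_lit 6) (nat_lit 522) (nat_lit 3) (nat_lit 265) (nat_lit 237) (nat_lit 278))) (PT.nd (nat_lit 78) (PT.lf (nat_lit 39748) (nat_lit 6) (nat_lit 523) (nat_lit 3) (nat_lit 266) (nat_lit 237) (nat_lit 277)) (PT.lf (nat_lit 39824) (nat_lit 6) (nat_lit 524) (nat_lit 3) (nat_lit 267) (nat_lit 237) (nat_lit 276)))) (PT.nd (nat_lit 156) (PT.nd (nat_lit 78) (PT.lf (nat_lit 39900) (nat_lit 6) (nat_lit 525) (nat_lit 3) (nat_lit 268) (nat_lit 237) (nat_lit 275)) (PT.lf (nat_lit 39976) (nat_lit 6) (nat_lit 526) (nat_lit 3) (nat_lit 269) (nat_lit 237) (nat_lit 274))) (PT.nd (nat_lit 78) (PT.lf (nat_lit 40052) (nat_lit 6) (nat_lit 527) (nat_lit 3) (nat_lit 270) (nat_lit 237) (nat_lit 273)) (PT.lf (nat_lit 40128) (nat_lit 6) (nat_lit 528) (nat_lit 3) (nat_lit 271) (nat_lit 237) (nat_lit 272))))) (PT.nd (nat_lit 312) (PT.nd (nat_lit 156) (PT.nd (nat_lit 78) (PT.lf (nat_lit 40128) (nat_lit 6) (nat_lit 528) (nat_lit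 1) (nat_lit 272) (nat_lit 237) (nat_lit 271)) (PT.lf (nat_lit 40052) (nat_lit 6) (nat_lit 527) (nat_lit 1) (nat_lit 273) (nat_lit 237) (nat_lit 270))) (PT.nd (nat_lit 78) (PT.lf (nat_lit 39976) (nat_lit 6) (nat_lit 526) (nat_lit 1) (nat_lit 274) (nat_lit 237) (nat_lit 269)) (PT.lf (nat_lit 39900) (nat_lit 6) (nat_lit 525) (nat_lit 1) (nat_lit 275) (nat_lit 237) (nat_lit 268)))) (PT.nd (nat_lit 156) (PT.nd (nat_lit 78) (PT.lf (nat_lit 39824) (nat_lit 6) (nat_lit 524) (nat_lit 1) (nat_lit 276) (nat_lit 237) (nat_lit 267)) (PT.lf (nat_lit 39748) (nat_lit 6) (nat_lit 523) (nat_lit 1) (nat_lit 277) (nat_lit 237) (nat_lit 266))) (PT.nd (nat_lit 78) (PT.lf (nat_lit 39672) (nat_lit 6) (nat_lit 522) (nat_lit 1) (nat_lit 278) (nat_lit 237) (nat_lit 265)) (PT.lf (nat_lit 39596) (nat_lit 6) (nat_lit 521) (nat_lit 1) (nat_lit 279) (nat_lit 237) (nat_lit 264))))))) (PT.nd (nat_lit 80184) (PT.nd (nat_lit 79560) (PT.nd (nat_lit 234) (PT.nd (nat_lit 78) (PT.lf (nat_lit 39520) (nat_lit 6) (nat_lit 520) (nat_lit 1) (nat_lit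 280) (nat_lit 237) (nat_lit 263)) (PT.nd (nat_lit 78) (PT.lf (nat_lit 39444) (nat_lit 6) (nat_lit 519) (nat_lit 1) (nat_lit 281) (nat_lit 237) (nat_lit 262)) (PT.lf (nat_lit 39368) (nat_lit 6) (nat_lit 518) (nat_lit 1) (nat_lit 282) (nat_lit 237) (nat_lit 261)))) (PT.nd (nat_lit 156) (PT.nd (nat_lit 78) (PT.lf (nat_lit 39292) (nat_lit 6) (nat_lit 517) (nat_lit 1) (nat_lit 283) (nat_lit 237) (nat_lit 260)) (PT.lf (nat_lit 37392) (nat_lit 6) (nat_lit 492) (nat_lit 1) (nat_lit 284) (nat_lit 237) (nat_lit 259))) (PT.nd (nat_lit 79092) (PT.lf (nat_lit 35416) (nat_lit 6) (nat_lit 466) (nat_lit 1) (nat_lit 285) (nat_lit 237) (nat_lit 258)) (PT.lf (nat_lit 37316) (nat_lit 6) (nat_lit 491) (nat_lit 3) (nat_lit 258) (nat_lit 238) (nat_lit 284))))) (PT.nd (nat_lit 312) (PT.nd (nat_lit 156) (PT.nd (nat_lit 78) (PT.lf (nat_lit 39216) (nat_lit 6) (nat_lit 516) (nat_lit 3) (nat_lit 259) (nat_lit 238) (nat_lit 283)) (PT.lf (nat_lit 41040) (nat_lit 6) (nat_lit 540) (nat_lit 3) (nat_lit 260) (nat_lit 238) (nat_lit 282)))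 (PT.nd (nat_lit 78) (PT.lf (nat_lit 41116) (nat_lit 6) (nat_lit 541) (nat_lit 3) (nat_lit 261) (nat_lit 238) (nat_lit 281)) (PT.lf (nat_lit 41192) (nat_lit 6) (nat_lit 542) (nat_lit 3) (nat_lit 262) (nat_lit 238) (nat_lit 280)))) (PT.nd (nat_lit 156) (PT.nd (nat_lit 78) (PT.lf (nat_lit 41268) (nat_lit 6) (nat_lit 543) (nat_lit 3) (nat_lit 263) (nat_lit 238) (nat_lit 279)) (PT.lf (nat_lit 41344) (nat_lit 6) (nat_lit 544) (nat_lit 3) (nat_lit 264) (nat_lit 238) (nat_lit 278))) (PT.nd (nat_lit 78) (PT.lf (nat_lit 41420) (nat_lit 6) (nat_lit 545) (nat_lit 3) (nat_lit 265) (nat_lit 238) (nat_lit 277)) (PT.lf (nat_lit 41496) (nat_lit 6) (nat_lit 546) (nat_lit 3) (nat_lit 266) (nat_lit 238) (nat_lit 276)))))) (PT.nd (nat_lit 624) (PT.nd (nat_lit 312) (PT.nd (nat_lit 156) (PT.nd (nat_lit 78) (PT.lf (nat_lit 41572) (nat_lit 6) (nat_lit 547) (nat_lit 3) (nat_lit 267) (nat_lit 238) (nat_lit 275)) (PT.lf (nat_lit 41648) (nat_lit 6) (nat_lit 548) (nat_lit 3) (nat_lit 268) (nat_lit 238) (nat_lit 274))) (PT.nd (nat_lit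 78) (PT.lf (nat_lit 41724) (nat_lit 6) (nat_lit 549) (nat_lit 3) (nat_lit 269) (nat_lit 238) (nat_lit 273)) (PT.lf (nat_lit 41800) (nat_lit 6) (nat_lit 550) (nat_lit 3) (nat_lit 270) (nat_lit 238) (nat_lit 272)))) (PT.nd (nat_lit 156) (PT.nd (nat_lit 78) (PT.lf (nat_lit 41876) (nat_lit 3) (nat_lit 551) (nat_lit 1) (nat_lit 271) (nat_lit 238) (nat_lit 271)) (PT.lf (nat_lit 41800) (nat_lit 6) (nat_lit 550) (nat_lit 1) (nat_lit 272) (nat_lit 238) (nat_lit 270))) (PT.nd (nat_lit 78) (PT.lf (nat_lit 41724) (nat_lit 6) (nat_lit 549) (nat_lit 1) (nat_lit 273) (nat_lit 238) (nat_lit 269)) (PT.lf (nat_lit 41648) (nat_lit 6) (nat_lit 548) (nat_lit 1) (nat_lit 274) (nat_lit 238) (nat_lit 268))))) (PT.nd (nat_lit 312) (PT.nd (nat_lit 156) (PT.nd (nat_lit 78) (PT.lf (nat_lit 41572) (nat_lit 6) (nat_lit 547) (nat_lit 1) (nat_lit 275) (nat_lit 238) (nat_lit 267)) (PT.lf (nat_lit 41496) (nat_lit 6) (nat_lit 546) (nat_lit 1) (nat_lit 276) (nat_lit 238) (nat_lit 266))) (PT.nd (nat_lit 78) (PT.lf (nat_lit 41420) (nat_lit 6)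 (nat_lit 545) (nat_lit 1) (nat_lit 277) (nat_lit 238) (nat_lit 265)) (PT.lf (nat_lit 41344) (nat_lit 6) (nat_lit 544) (nat_lit 1) (nat_lit 278) (nat_lit 238) (nat_lit 264)))) (PT.nd (nat_lit 156) (PT.nd (nat_lit 78) (PT.lf (nat_lit 41268) (nat_lit 6) (nat_lit 543) (nat_lit 1) (nat_lit 279) (nat_lit 238) (nat_lit 263)) (PT.lf (nat_lit 41192) (nat_lit 6) (nat_lit 542) (nat_lit 1) (nat_lit 280) (nat_lit 238) (nat_lit 262))) (PT.nd (nat_lit 78) (PT.lf (nat_lit 41116) (nat_lit 6) (nat_lit 541) (nat_lit 1) (nat_lit 281) (nat_lit 238) (nat_lit 261)) (PT.lf (nat_lit 41040) (nat_lit 6) (nat_lit 540) (nat_lit 1) (nat_lit 282) (nat_lit 238) (nat_lit 260))))))))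
noncomputable def pc13 : PT := (PT.nd (nat_lit 160368) (PT.nd (nat_lit 80184) (PT.nd (nat_lit 79560) (PT.nd (nat_lit 79248) (PT.nd (nat_lit 78) (PT.lf (nat_lit 39216) (nat_lit 6) (nat_lit 516) (nat_lit 1) (nat_lit 283) (nat_lit 238) (nat_lit 259)) (PT.nd (nat_lit 79092) (PT.lf (nat_lit 37316) (nat_lit 6) (nat_lit 491) (nat_lit 1) (nat_lit 284) (nat_lit 238) (nat_lit 258)) (PT.lf (nat_lit 37240) (nat_lit 6) (nat_lit 490) (nat_lit 3) (nat_lit 257) (nat_lit 239) (nat_lit 284)))) (PT.nd (nat_lit 156) (PT.nd (nat_lit 78) (PT.lf (nat_lit 39140) (nat_lit 6) (nat_lit 515) (nat_lit 3) (nat_lit 258) (nat_lit 239) (nat_lit 283)) (PT.lf (nat_lit 40964) (nat_lit 6) (nat_lit 539) (nat_lit 3) (nat_lit 259) (nat_lit 239) (nat_lit 282))) (PT.nd (nat_lit 78) (PT.lf (nat_lit 42712) (nat_lit 6) (nat_lit 562) (nat_lit 3) (nat_lit 260) (nat_lit 239) (nat_lit 281)) (PT.lf (nat_lit 42788) (nat_lit 6) (nat_lit 563) (nat_lit 3) (nat_lit 261) (nat_lit 239) (nat_lit 280))))) (PT.nd (nat_lit 312) (PT.nd (nat_lit 156) (PT.nd (nat_lit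 78) (PT.lf (nat_lit 42864) (nat_lit 6) (nat_lit 564) (nat_lit 3) (nat_lit 262) (nat_lit 239) (nat_lit 279)) (PT.lf (nat_lit 42940) (nat_lit 6) (nat_lit 565) (nat_lit 3) (nat_lit 263) (nat_lit 239) (nat_lit 278))) (PT.nd (nat_lit 78) (PT.lf (nat_lit 43016) (nat_lit 6) (nat_lit 566) (nat_lit 3) (nat_lit 264) (nat_lit 239) (nat_lit 277)) (PT.lf (nat_lit 43092) (nat_lit 6) (nat_lit 567) (nat_lit 3) (nat_lit 265) (nat_lit 239) (nat_lit 276)))) (PT.nd (nat_lit 156) (PT.nd (nat_lit 78) (PT.lf (nat_lit 43168) (nat_lit 6) (nat_lit 568) (nat_lit 3) (nat_lit 266) (nat_lit 239) (nat_lit 275)) (PT.lf (nat_lit 43244) (nat_lit 6) (nat_lit 569) (nat_lit 3) (nat_lit 267) (nat_lit 239) (nat_lit 274))) (PT.nd (nat_lit 78) (PT.lf (nat_lit 43320) (nat_lit 6) (nat_lit 570) (nat_lit 3) (nat_lit 268) (nat_lit 239) (nat_lit 273)) (PT.lf (nat_lit 43396) (nat_lit 6) (nat_lit 571) (nat_lit 3) (nat_lit 269) (nat_lit 239) (nat_lit 272)))))) (PT.nd (nat_lit 624) (PT.nd (nat_lit 312) (PT.nd (nat_lit 156) (PT.nd (nat_lit 78) (PT.lf (nat_lit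 43472) (nat_lit 6) (nat_lit 572) (nat_lit 3) (nat_lit 270) (nat_lit 239) (nat_lit 271)) (PT.lf (nat_lit 43472) (nat_lit 6) (nat_lit 572) (nat_lit 1) (nat_lit 271) (nat_lit 239) (nat_lit 270))) (PT.nd (nat_lit 78) (PT.lf (nat_lit 43396) (nat_lit 6) (nat_lit 571) (nat_lit 1) (nat_lit 272) (nat_lit 239) (nat_lit 269)) (PT.lf (nat_lit 43320) (nat_lit 6) (nat_lit 570) (nat_lit 1) (nat_lit 273) (nat_lit 239) (nat_lit 268)))) (PT.nd (nat_lit 156) (PT.nd (nat_lit 78) (PT.lf (nat_lit 43244) (nat_lit 6) (nat_lit 569) (nat_lit 1) (nat_lit 274) (nat_lit 239) (nat_lit 267)) (PT.lf (nat_lit 43168) (nat_lit 6) (nat_lit 568) (nat_lit 1) (nat_lit 275) (nat_lit 239) (nat_lit 266))) (PT.nd (nat_lit 78) (PT.lf (nat_lit 43092) (nat_lit 6) (nat_lit 567) (nat_lit 1) (nat_lit 276) (nat_lit 239) (nat_lit 265)) (PT.lf (nat_lit 43016) (nat_lit 6) (nat_lit 566) (nat_lit 1) (nat_lit 277) (nat_lit 239) (nat_lit 264))))) (PT.nd (nat_lit 312) (PT.nd (nat_lit 156) (PT.nd (nat_lit 78) (PT.lf (nat_lit 42940) (nat_lit 6) (nat_lit 565) (nat_lit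 1) (nat_lit 278) (nat_lit 239) (nat_lit 263)) (PT.lf (nat_lit 42864) (nat_lit 6) (nat_lit 564) (nat_lit 1) (nat_lit 279) (nat_lit 239) (nat_lit 262))) (PT.nd (nat_lit 78) (PT.lf (nat_lit 42788) (nat_lit 6) (nat_lit 563) (nat_lit 1) (nat_lit 280) (nat_lit 239) (nat_lit 261)) (PT.lf (nat_lit 42712) (nat_lit 6) (nat_lit 562) (nat_lit 1) (nat_lit 281) (nat_lit 239) (nat_lit 260)))) (PT.nd (nat_lit 156) (PT.nd (nat_lit 78) (PT.lf (nat_lit 40964) (nat_lit 6) (nat_lit 539) (nat_lit 1) (nat_lit 282) (nat_lit 239) (nat_lit 259)) (PT.lf (nat_lit 39140) (nat_lit 6) (nat_lit 515) (nat_lit 1) (nat_lit 283) (nat_lit 239) (nat_lit 258))) (PT.nd (nat_lit 79014) (PT.lf (nat_lit 37240) (nat_lit 6) (nat_lit 490) (nat_lit 1) (nat_lit 284) (nat_lit 239) (nat_lit 257)) (PT.lf (nat_lit 37164) (nat_lit 6) (nat_lit 489) (nat_lit 3) (nat_lit 256) (nat_lit 240) (nat_lit 284))))))) (PT.nd (nat_lit 1248) (PT.nd (nat_lit 624) (PT.nd (nat_lit 312) (PT.nd (nat_lit 156) (PT.nd (nat_lit 78) (PT.lf (nat_lit 39064) (nat_lit 6) (nat_lit 514)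 (nat_lit 3) (nat_lit 257) (nat_lit 240) (nat_lit 283)) (PT.lf (nat_lit 40888) (nat_lit 6) (nat_lit 538) (nat_lit 3) (nat_lit 258) (nat_lit 240) (nat_lit 282))) (PT.nd (nat_lit 78) (PT.lf (nat_lit 42636) (nat_lit 6) (nat_lit 561) (nat_lit 3) (nat_lit 259) (nat_lit 240) (nat_lit 281)) (PT.lf (nat_lit 44308) (nat_lit 6) (nat_lit 583) (nat_lit 3) (nat_lit 260) (nat_lit 240) (nat_lit 280)))) (PT.nd (nat_lit 156) (PT.nd (nat_lit 78) (PT.lf (nat_lit 44384) (nat_lit 6) (nat_lit 584) (nat_lit 3) (nat_lit 261) (nat_lit 240) (nat_lit 279)) (PT.lf (nat_lit 44460) (nat_lit 6) (nat_lit 585) (nat_lit 3) (nat_lit 262) (nat_lit 240) (nat_lit 278))) (PT.nd (nat_lit 78) (PT.lf (nat_lit 44536) (nat_lit 6) (nat_lit 586) (nat_lit 3) (nat_lit 263) (nat_lit 240) (nat_lit 277)) (PT.lf (nat_lit 44612) (nat_lit 6) (nat_lit 587) (nat_lit 3) (nat_lit 264) (nat_lit 240) (nat_lit 276))))) (PT.nd (nat_lit 312) (PT.nd (nat_lit 156) (PT.nd (nat_lit 78) (PT.lf (nat_lit 44688) (nat_lit 6) (nat_lit 588) (nat_lit 3) (nat_lit 265) (nat_lit 240)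 (nat_lit 275)) (PT.lf (nat_lit 44764) (nat_lit 6) (nat_lit 589) (nat_lit 3) (nat_lit 266) (nat_lit 240) (nat_lit 274))) (PT.nd (nat_lit 78) (PT.lf (nat_lit 44840) (nat_lit 6) (nat_lit 590) (nat_lit 3) (nat_lit 267) (nat_lit 240) (nat_lit 273)) (PT.lf (nat_lit 44916) (nat_lit 6) (nat_lit 591) (nat_lit 3) (nat_lit 268) (nat_lit 240) (nat_lit 272)))) (PT.nd (nat_lit 156) (PT.nd (nat_lit 78) (PT.lf (nat_lit 44992) (nat_lit 6) (nat_lit 592) (nat_lit 3) (nat_lit 269) (nat_lit 240) (nat_lit 271)) (PT.lf (nat_lit 45068) (nat_lit 3) (nat_lit 593) (nat_lit 1) (nat_lit 270) (nat_lit 240) (nat_lit 270))) (PT.nd (nat_lit 78) (PT.lf (nat_lit 44992) (nat_lit 6) (nat_lit 592) (nat_lit 1) (nat_lit 271) (nat_lit 240) (nat_lit 269)) (PT.lf (nat_lit 44916) (nat_lit 6) (nat_lit 591) (nat_lit 1) (nat_lit 272) (nat_lit 240) (nat_lit 268)))))) (PT.nd (nat_lit 624) (PT.nd (nat_lit 312) (PT.nd (nat_lit 156) (PT.nd (nat_lit 78) (PT.lf (nat_lit 44840) (nat_lit 6) (nat_lit 590) (nat_lit 1) (nat_lit 273) (nat_lit 240) (nat_lit 267))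 (PT.lf (nat_lit 44764) (nat_lit 6) (nat_lit 589) (nat_lit 1) (nat_lit 274) (nat_lit 240) (nat_lit 266))) (PT.nd (nat_lit 78) (PT.lf (nat_lit 44688) (nat_lit 6) (nat_lit 588) (nat_lit 1) (nat_lit 275) (nat_lit 240) (nat_lit 265)) (PT.lf (nat_lit 44612) (nat_lit 6) (nat_lit 587) (nat_lit 1) (nat_lit 276) (nat_lit 240) (nat_lit 264)))) (PT.nd (nat_lit 156) (PT.nd (nat_lit 78) (PT.lf (nat_lit 44536) (nat_lit 6) (nat_lit 586) (nat_lit 1) (nat_lit 277) (nat_lit 240) (nat_lit 263)) (PT.lf (nat_lit 44460) (nat_lit 6) (nat_lit 585) (nat_lit 1) (nat_lit 278) (nat_lit 240) (nat_lit 262))) (PT.nd (nat_lit 78) (PT.lf (nat_lit 44384) (nat_lit 6) (nat_lit 584) (nat_lit 1) (nat_lit 279) (nat_lit 240) (nat_lit 261)) (PT.lf (nat_lit 44308) (nat_lit 6) (nat_lit 583) (nat_lit 1) (nat_lit 280) (nat_lit 240) (nat_lit 260))))) (PT.nd (nat_lit 79170) (PT.nd (nat_lit 156) (PT.nd (nat_lit 78) (PT.lf (nat_lit 42636) (nat_lit 6) (nat_lit 561) (nat_lit 1) (nat_lit 281) (nat_lit 240) (nat_lit 259)) (PT.lf (nat_lit 40888) (nat_lit 6)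 (nat_lit 538) (nat_lit 1) (nat_lit 282) (nat_lit 240) (nat_lit 258))) (PT.nd (nat_lit 78) (PT.lf (nat_lit 39064) (nat_lit 6) (nat_lit 514) (nat_lit 1) (nat_lit 283) (nat_lit 240) (nat_lit 257)) (PT.lf (nat_lit 37164) (nat_lit 6) (nat_lit 489) (nat_lit 1) (nat_lit 284) (nat_lit 240) (nat_lit 256)))) (PT.nd (nat_lit 156) (PT.nd (nat_lit 78) (PT.lf (nat_lit 37088) (nat_lit 6) (nat_lit 488) (nat_lit 3) (nat_lit 255) (nat_lit 241) (nat_lit 284)) (PT.lf (nat_lit 38988) (nat_lit 6) (nat_lit 513) (nat_lit 3) (nat_lit 256) (nat_lit 241) (nat_lit 283))) (PT.nd (nat_lit 78) (PT.lf (nat_lit 40812) (nat_lit 6) (nat_lit 537) (nat_lit 3) (nat_lit 257) (nat_lit 241) (nat_lit 282)) (PT.lf (nat_lit 42560) (nat_lit 6) (nat_lit 560) (nat_lit 3) (nat_lit 258) (nat_lit 241) (nat_lit 281))))))))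
noncomputable def pc14 : PT := (PT.nd (nat_lit 81198) (PT.nd (nat_lit 1170) (PT.nd (nat_lit 546) (PT.nd (nat_lit 234) (PT.nd (nat_lit 78) (PT.lf (nat_lit 44232) (nat_lit 6) (nat_lit 582) (nat_lit 3) (nat_lit 259) (nat_lit 241) (nat_lit 280)) (PT.nd (nat_lit 78) (PT.lf (nat_lit 45828) (nat_lit 6) (nat_lit 603) (nat_lit 3) (nat_lit 260) (nat_lit 241) (nat_lit 279)) (PT.lf (nat_lit 45904) (nat_lit 6) (nat_lit 604) (nat_lit 3) (nat_lit 261) (nat_lit 241) (nat_lit 278)))) (PT.nd (nat_lit 156) (PT.nd (nat_lit 78) (PT.lf (nat_lit 45980) (nat_lit 6) (nat_lit 605) (nat_lit 3) (nat_lit 262) (nat_lit 241) (nat_lit 277)) (PT.lf (nat_lit 46056) (nat_lit 6) (nat_lit 606) (nat_lit 3) (nat_lit 263) (nat_lit 241) (nat_lit 276))) (PT.nd (nat_lit 78) (PT.lf (nat_lit 46132) (nat_lit 6) (nat_lit 607) (nat_lit 3) (nat_lit 264) (nat_lit 241) (nat_lit 275)) (PT.lf (nat_lit 46208) (nat_lit 6) (nat_lit 608) (nat_lit 3) (nat_lit 265) (nat_lit 241) (nat_lit 274))))) (PT.nd (nat_lit 312) (PT.nd (nat_lit 156) (PT.nd (nat_lit 78) (PT.lf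 (nat_lit 46284) (nat_lit 6) (nat_lit 609) (nat_lit 3) (nat_lit 266) (nat_lit 241) (nat_lit 273)) (PT.lf (nat_lit 46360) (nat_lit 6) (nat_lit 610) (nat_lit 3) (nat_lit 267) (nat_lit 241) (nat_lit 272))) (PT.nd (nat_lit 78) (PT.lf (nat_lit 46436) (nat_lit 6) (nat_lit 611) (nat_lit 3) (nat_lit 268) (nat_lit 241) (nat_lit 271)) (PT.lf (nat_lit 46512) (nat_lit 6) (nat_lit 612) (nat_lit 3) (nat_lit 269) (nat_lit 241) (nat_lit 270)))) (PT.nd (nat_lit 156) (PT.nd (nat_lit 78) (PT.lf (nat_lit 46512) (nat_lit 6) (nat_lit 612) (nat_lit 1) (nat_lit 270) (nat_lit 241) (nat_lit 269)) (PT.lf (nat_lit 46436) (nat_lit 6) (nat_lit 611) (nat_lit 1) (nat_lit 271) (nat_lit 241) (nat_lit 268))) (PT.nd (nat_lit 78) (PT.lf (nat_lit 46360) (nat_lit 6) (nat_lit 610) (nat_lit 1) (nat_lit 272) (nat_lit 241) (nat_lit 267)) (PT.lf (nat_lit 46284) (nat_lit 6) (nat_lit 609) (nat_lit 1) (nat_lit 273) (nat_lit 241) (nat_lit 266)))))) (PT.nd (nat_lit 624) (PT.nd (nat_lit 312) (PT.nd (nat_lit 156) (PT.nd (nat_lit 78) (PT.lf (nat_lit 46208)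 (nat_lit 6) (nat_lit 608) (nat_lit 1) (nat_lit 274) (nat_lit 241) (nat_lit 265)) (PT.lf (nat_lit 46132) (nat_lit 6) (nat_lit 607) (nat_lit 1) (nat_lit 275) (nat_lit 241) (nat_lit 264))) (PT.nd (nat_lit 78) (PT.lf (nat_lit 46056) (nat_lit 6) (nat_lit 606) (nat_lit 1) (nat_lit 276) (nat_lit 241) (nat_lit 263)) (PT.lf (nat_lit 45980) (nat_lit 6) (nat_lit 605) (nat_lit 1) (nat_lit 277) (nat_lit 241) (nat_lit 262)))) (PT.nd (nat_lit 156) (PT.nd (nat_lit 78) (PT.lf (nat_lit 45904) (nat_lit 6) (nat_lit 604) (nat_lit 1) (nat_lit 278) (nat_lit 241) (nat_lit 261)) (PT.lf (nat_lit 45828) (nat_lit 6) (nat_lit 603) (nat_lit 1) (nat_lit 279) (nat_lit 241) (nat_lit 260))) (PT.nd (nat_lit 78) (PT.lf (nat_lit 44232) (nat_lit 6) (nat_lit 582) (nat_lit 1) (nat_lit 280) (nat_lit 241) (nat_lit 259)) (PT.lf (nat_lit 42560) (nat_lit 6) (nat_lit 560) (nat_lit 1) (nat_lit 281) (nat_lit 241) (nat_lit 258))))) (PT.nd (nat_lit 79092) (PT.nd (nat_lit 156) (PT.nd (nat_lit 78) (PT.lf (nat_lit 40812) (nat_lit 6) (nat_lit 537) (nat_lit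 1) (nat_lit 282) (nat_lit 241) (nat_lit 257)) (PT.lf (nat_lit 38988) (nat_lit 6) (nat_lit 513) (nat_lit 1) (nat_lit 283) (nat_lit 241) (nat_lit 256))) (PT.nd (nat_lit 78858) (PT.lf (nat_lit 37088) (nat_lit 6) (nat_lit 488) (nat_lit 1) (nat_lit 284) (nat_lit 241) (nat_lit 255)) (PT.lf (nat_lit 37012) (nat_lit 6) (nat_lit 487) (nat_lit 3) (nat_lit 254) (nat_lit 242) (nat_lit 284)))) (PT.nd (nat_lit 156) (PT.nd (nat_lit 78) (PT.lf (nat_lit 38912) (nat_lit 6) (nat_lit 512) (nat_lit 3) (nat_lit 255) (nat_lit 242) (nat_lit 283)) (PT.lf (nat_lit 40736) (nat_lit 6) (nat_lit 536) (nat_lit 3) (nat_lit 256) (nat_lit 242) (nat_lit 282))) (PT.nd (nat_lit 78) (PT.lf (nat_lit 42484) (nat_lit 6) (nat_lit 559) (nat_lit 3) (nat_lit 257) (nat_lit 242) (nat_lit 281)) (PT.lf (nat_lit 44156) (nat_lit 6) (nat_lit 581) (nat_lit 3) (nat_lit 258) (nat_lit 242) (nat_lit 280))))))) (PT.nd (nat_lit 1248) (PT.nd (nat_lit 624) (PT.nd (nat_lit 312) (PT.nd (nat_lit 156) (PT.nd (nat_lit 78) (PT.lf (nat_lit 45752) (nat_lit 6) (nat_lit 602)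 (nat_lit 3) (nat_lit 259) (nat_lit 242) (nat_lit 279)) (PT.lf (nat_lit 47272) (nat_lit 6) (nat_lit 622) (nat_lit 3) (nat_lit 260) (nat_lit 242) (nat_lit 278))) (PT.nd (nat_lit 78) (PT.lf (nat_lit 47348) (nat_lit 6) (nat_lit 623) (nat_lit 3) (nat_lit 261) (nat_lit 242) (nat_lit 277)) (PT.lf (nat_lit 47424) (nat_lit 6) (nat_lit 624) (nat_lit 3) (nat_lit 262) (nat_lit 242) (nat_lit 276)))) (PT.nd (nat_lit 156) (PT.nd (nat_lit 78) (PT.lf (nat_lit 47500) (nat_lit 6) (nat_lit 625) (nat_lit 3) (nat_lit 263) (nat_lit 242) (nat_lit 275)) (PT.lf (nat_lit 47576) (nat_lit 6) (nat_lit 626) (nat_lit 3) (nat_lit 264) (nat_lit 242) (nat_lit 274))) (PT.nd (nat_lit 78) (PT.lf (nat_lit 47652) (nat_lit 6) (nat_lit 627) (nat_lit 3) (nat_lit 265) (nat_lit 242) (nat_lit 273)) (PT.lf (nat_lit 47728) (nat_lit 6) (nat_lit 628) (nat_lit 3) (nat_lit 266) (nat_lit 242) (nat_lit 272))))) (PT.nd (nat_lit 312) (PT.nd (nat_lit 156) (PT.nd (nat_lit 78) (PT.lf (nat_lit 47804) (nat_lit 6) (nat_lit 629) (nat_lit 3) (nat_lit 267) (nat_lit 242)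 (nat_lit 271)) (PT.lf (nat_lit 47880) (nat_lit 6) (nat_lit 630) (nat_lit 3) (nat_lit 268) (nat_lit 242) (nat_lit 270))) (PT.nd (nat_lit 78) (PT.lf (nat_lit 47956) (nat_lit 3) (nat_lit 631) (nat_lit 1) (nat_lit 269) (nat_lit 242) (nat_lit 269)) (PT.lf (nat_lit 47880) (nat_lit 6) (nat_lit 630) (nat_lit 1) (nat_lit 270) (nat_lit 242) (nat_lit 268)))) (PT.nd (nat_lit 156) (PT.nd (nat_lit 78) (PT.lf (nat_lit 47804) (nat_lit 6) (nat_lit 629) (nat_lit 1) (nat_lit 271) (nat_lit 242) (nat_lit 267)) (PT.lf (nat_lit 47728) (nat_lit 6) (nat_lit 628) (nat_lit 1) (nat_lit 272) (nat_lit 242) (nat_lit 266))) (PT.nd (nat_lit 78) (PT.lf (nat_lit 47652) (nat_lit 6) (nat_lit 627) (nat_lit 1) (nat_lit 273) (nat_lit 242) (nat_lit 265)) (PT.lf (nat_lit 47576) (nat_lit 6) (nat_lit 626) (nat_lit 1) (nat_lit 274) (nat_lit 242) (nat_lit 264)))))) (PT.nd (nat_lit 624) (PT.nd (nat_lit 312) (PT.nd (nat_lit 156) (PT.nd (nat_lit 78) (PT.lf (nat_lit 47500) (nat_lit 6) (nat_lit 625) (nat_lit 1) (nat_lit 275) (nat_lit 242) (nat_lit 263))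 (PT.lf (nat_lit 47424) (nat_lit 6) (nat_lit 624) (nat_lit 1) (nat_lit 276) (nat_lit 242) (nat_lit 262))) (PT.nd (nat_lit 78) (PT.lf (nat_lit 47348) (nat_lit 6) (nat_lit 623) (nat_lit 1) (nat_lit 277) (nat_lit 242) (nat_lit 261)) (PT.lf (nat_lit 47272) (nat_lit 6) (nat_lit 622) (nat_lit 1) (nat_lit 278) (nat_lit 242) (nat_lit 260)))) (PT.nd (nat_lit 156) (PT.nd (nat_lit 78) (PT.lf (nat_lit 45752) (nat_lit 6) (nat_lit 602) (nat_lit 1) (nat_lit 279) (nat_lit 242) (nat_lit 259)) (PT.lf (nat_lit 44156) (nat_lit 6) (nat_lit 581) (nat_lit 1) (nat_lit 280) (nat_lit 242) (nat_lit 258))) (PT.nd (nat_lit 78) (PT.lf (nat_lit 42484) (nat_lit 6) (nat_lit 559) (nat_lit 1) (nat_lit 281) (nat_lit 242) (nat_lit 257)) (PT.lf (nat_lit 40736) (nat_lit 6) (nat_lit 536) (nat_lit 1) (nat_lit 282) (nat_lit 242) (nat_lit 256))))) (PT.nd (nat_lit 79014) (PT.nd (nat_lit 78858) (PT.nd (nat_lit 78) (PT.lf (nat_lit 38912) (nat_lit 6) (nat_lit 512) (nat_lit 1) (nat_lit 283) (nat_lit 242) (nat_lit 255)) (PT.lf (nat_lit 37012) (nat_lit 6)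 (nat_lit 487) (nat_lit 1) (nat_lit 284) (nat_lit 242) (nat_lit 254))) (PT.nd (nat_lit 78) (PT.lf (nat_lit 36936) (nat_lit 6) (nat_lit 486) (nat_lit 3) (nat_lit 253) (nat_lit 243) (nat_lit 284)) (PT.lf (nat_lit 38836) (nat_lit 6) (nat_lit 511) (nat_lit 3) (nat_lit 254) (nat_lit 243) (nat_lit 283)))) (PT.nd (nat_lit 156) (PT.nd (nat_lit 78) (PT.lf (nat_lit 40660) (nat_lit 6) (nat_lit 535) (nat_lit 3) (nat_lit 255) (nat_lit 243) (nat_lit 282)) (PT.lf (nat_lit 42408) (nat_lit 6) (nat_lit 558) (nat_lit 3) (nat_lit 256) (nat_lit 243) (nat_lit 281))) (PT.nd (nat_lit 78) (PT.lf (nat_lit 44080) (nat_lit 6) (nat_lit 580) (nat_lit 3) (nat_lit 257) (nat_lit 243) (nat_lit 280)) (PT.lf (nat_lit 45676) (nat_lit 6) (nat_lit 601) (nat_lit 3) (nat_lit 258) (nat_lit 243) (nat_lit 279))))))))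
noncomputable def pc15 : PT := (PT.nd (nat_lit 81042) (PT.nd (nat_lit 1170) (PT.nd (nat_lit 546) (PT.nd (nat_lit 234) (PT.nd (nat_lit 78) (PT.lf (nat_lit 47196) (nat_lit 6) (nat_lit 621) (nat_lit 3) (nat_lit 259) (nat_lit 243) (nat_lit 278)) (PT.nd (nat_lit 78) (PT.lf (nat_lit 48640) (nat_lit 6) (nat_lit 640) (nat_lit 3) (nat_lit 260) (nat_lit 243) (nat_lit 277)) (PT.lf (nat_lit 48716) (nat_lit 6) (nat_lit 641) (nat_lit 3) (nat_lit 261) (nat_lit 243) (nat_lit 276)))) (PT.nd (nat_lit 156) (PT.nd (nat_lit 78) (PT.lf (nat_lit 48792) (nat_lit 6) (nat_lit 642) (nat_lit 3) (nat_lit 262) (nat_lit 243) (nat_lit 275)) (PT.lf (nat_lit 48868) (nat_lit 6) (nat_lit 643) (nat_lit 3) (nat_lit 263) (nat_lit 243) (nat_lit 274))) (PT.nd (nat_lit 78) (PT.lf (nat_lit 48944) (nat_lit 6) (nat_lit 644) (nat_lit 3) (nat_lit 264) (nat_lit 243) (nat_lit 273)) (PT.lf (nat_lit 49020) (nat_lit 6) (nat_lit 645) (nat_lit 3) (nat_lit 265) (nat_lit 243) (nat_lit 272))))) (PT.nd (nat_lit 312) (PT.nd (nat_lit 156) (PT.nd (nat_lit 78) (PT.lf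 (nat_lit 49096) (nat_lit 6) (nat_lit 646) (nat_lit 3) (nat_lit 266) (nat_lit 243) (nat_lit 271)) (PT.lf (nat_lit 49172) (nat_lit 6) (nat_lit 647) (nat_lit 3) (nat_lit 267) (nat_lit 243) (nat_lit 270))) (PT.nd (nat_lit 78) (PT.lf (nat_lit 49248) (nat_lit 6) (nat_lit 648) (nat_lit 3) (nat_lit 268) (nat_lit 243) (nat_lit 269)) (PT.lf (nat_lit 49248) (nat_lit 6) (nat_lit 648) (nat_lit 1) (nat_lit 269) (nat_lit 243) (nat_lit 268)))) (PT.nd (nat_lit 156) (PT.nd (nat_lit 78) (PT.lf (nat_lit 49172) (nat_lit 6) (nat_lit 647) (nat_lit 1) (nat_lit 270) (nat_lit 243) (nat_lit 267)) (PT.lf (nat_lit 49096) (nat_lit 6) (nat_lit 646) (nat_lit 1) (nat_lit 271) (nat_lit 243) (nat_lit 266))) (PT.nd (nat_lit 78) (PT.lf (nat_lit 49020) (nat_lit 6) (nat_lit 645) (nat_lit 1) (nat_lit 272) (nat_lit 243) (nat_lit 265)) (PT.lf (nat_lit 48944) (nat_lit 6) (nat_lit 644) (nat_lit 1) (nat_lit 273) (nat_lit 243) (nat_lit 264)))))) (PT.nd (nat_lit 624) (PT.nd (nat_lit 312) (PT.nd (nat_lit 156) (PT.nd (nat_lit 78) (PT.lf (nat_lit 48868)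 (nat_lit 6) (nat_lit 643) (nat_lit 1) (nat_lit 274) (nat_lit 243) (nat_lit 263)) (PT.lf (nat_lit 48792) (nat_lit 6) (nat_lit 642) (nat_lit 1) (nat_lit 275) (nat_lit 243) (nat_lit 262))) (PT.nd (nat_lit 78) (PT.lf (nat_lit 48716) (nat_lit 6) (nat_lit 641) (nat_lit 1) (nat_lit 276) (nat_lit 243) (nat_lit 261)) (PT.lf (nat_lit 48640) (nat_lit 6) (nat_lit 640) (nat_lit 1) (nat_lit 277) (nat_lit 243) (nat_lit 260)))) (PT.nd (nat_lit 156) (PT.nd (nat_lit 78) (PT.lf (nat_lit 47196) (nat_lit 6) (nat_lit 621) (nat_lit 1) (nat_lit 278) (nat_lit 243) (nat_lit 259)) (PT.lf (nat_lit 45676) (nat_lit 6) (nat_lit 601) (nat_lit 1) (nat_lit 279) (nat_lit 243) (nat_lit 258))) (PT.nd (nat_lit 78) (PT.lf (nat_lit 44080) (nat_lit 6) (nat_lit 580) (nat_lit 1) (nat_lit 280) (nat_lit 243) (nat_lit 257)) (PT.lf (nat_lit 42408) (nat_lit 6) (nat_lit 558) (nat_lit 1) (nat_lit 281) (nat_lit 243) (nat_lit 256))))) (PT.nd (nat_lit 78936) (PT.nd (nat_lit 156) (PT.nd (nat_lit 78) (PT.lf (nat_lit 40660) (nat_lit 6) (nat_lit 535) (nat_lit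 1) (nat_lit 282) (nat_lit 243) (nat_lit 255)) (PT.lf (nat_lit 38836) (nat_lit 6) (nat_lit 511) (nat_lit 1) (nat_lit 283) (nat_lit 243) (nat_lit 254))) (PT.nd (nat_lit 78702) (PT.lf (nat_lit 36936) (nat_lit 6) (nat_lit 486) (nat_lit 1) (nat_lit 284) (nat_lit 243) (nat_lit 253)) (PT.lf (nat_lit 36860) (nat_lit 6) (nat_lit 485) (nat_lit 3) (nat_lit 252) (nat_lit 244) (nat_lit 284)))) (PT.nd (nat_lit 156) (PT.nd (nat_lit 78) (PT.lf (nat_lit 38760) (nat_lit 6) (nat_lit 510) (nat_lit 3) (nat_lit 253) (nat_lit 244) (nat_lit 283)) (PT.lf (nat_lit 40584) (nat_lit 6) (nat_lit 534) (nat_lit 3) (nat_lit 254) (nat_lit 244) (nat_lit 282))) (PT.nd (nat_lit 78) (PT.lf (nat_lit 42332) (nat_lit 6) (nat_lit 557) (nat_lit 3) (nat_lit 255) (nat_lit 244) (nat_lit 281)) (PT.lf (nat_lit 44004) (nat_lit 6) (nat_lit 579) (nat_lit 3) (nat_lit 256) (nat_lit 244) (nat_lit 280))))))) (PT.nd (nat_lit 1248) (PT.nd (nat_lit 624) (PT.nd (nat_lit 312) (PT.nd (nat_lit 156) (PT.nd (nat_lit 78) (PT.lf (nat_lit 45600) (nat_lit 6) (nat_lit 600)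 (nat_lit 3) (nat_lit 257) (nat_lit 244) (nat_lit 279)) (PT.lf (nat_lit 47120) (nat_lit 6) (nat_lit 620) (nat_lit 3) (nat_lit 258) (nat_lit 244) (nat_lit 278))) (PT.nd (nat_lit 78) (PT.lf (nat_lit 48564) (nat_lit 6) (nat_lit 639) (nat_lit 3) (nat_lit 259) (nat_lit 244) (nat_lit 277)) (PT.lf (nat_lit 49932) (nat_lit 6) (nat_lit 657) (nat_lit 3) (nat_lit 260) (nat_lit 244) (nat_lit 276)))) (PT.nd (nat_lit 156) (PT.nd (nat_lit 78) (PT.lf (nat_lit 50008) (nat_lit 6) (nat_lit 658) (nat_lit 3) (nat_lit 261) (nat_lit 244) (nat_lit 275)) (PT.lf (nat_lit 50084) (nat_lit 6) (nat_lit 659) (nat_lit 3) (nat_lit 262) (nat_lit 244) (nat_lit 274))) (PT.nd (nat_lit 78) (PT.lf (nat_lit 50160) (nat_lit 6) (nat_lit 660) (nat_lit 3) (nat_lit 263) (nat_lit 244) (nat_lit 273)) (PT.lf (nat_lit 50236) (nat_lit 6) (nat_lit 661) (nat_lit 3) (nat_lit 264) (nat_lit 244) (nat_lit 272))))) (PT.nd (nat_lit 312) (PT.nd (nat_lit 156) (PT.nd (nat_lit 78) (PT.lf (nat_lit 50312) (nat_lit 6) (nat_lit 662) (nat_lit 3) (nat_lit 265) (nat_lit 244)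 (nat_lit 271)) (PT.lf (nat_lit 50388) (nat_lit 6) (nat_lit 663) (nat_lit 3) (nat_lit 266) (nat_lit 244) (nat_lit 270))) (PT.nd (nat_lit 78) (PT.lf (nat_lit 50464) (nat_lit 6) (nat_lit 664) (nat_lit 3) (nat_lit 267) (nat_lit 244) (nat_lit 269)) (PT.lf (nat_lit 50540) (nat_lit 3) (nat_lit 665) (nat_lit 1) (nat_lit 268) (nat_lit 244) (nat_lit 268)))) (PT.nd (nat_lit 156) (PT.nd (nat_lit 78) (PT.lf (nat_lit 50464) (nat_lit 6) (nat_lit 664) (nat_lit 1) (nat_lit 269) (nat_lit 244) (nat_lit 267)) (PT.lf (nat_lit 50388) (nat_lit 6) (nat_lit 663) (nat_lit 1) (nat_lit 270) (nat_lit 244) (nat_lit 266))) (PT.nd (nat_lit 78) (PT.lf (nat_lit 50312) (nat_lit 6) (nat_lit 662) (nat_lit 1) (nat_lit 271) (nat_lit 244) (nat_lit 265)) (PT.lf (nat_lit 50236) (nat_lit 6) (nat_lit 661) (nat_lit 1) (nat_lit 272) (nat_lit 244) (nat_lit 264)))))) (PT.nd (nat_lit 624) (PT.nd (nat_lit 312) (PT.nd (nat_lit 156) (PT.nd (nat_lit 78) (PT.lf (nat_lit 50160) (nat_lit 6) (nat_lit 660) (nat_lit 1) (nat_lit 273) (nat_lit 244) (nat_lit 263))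 (PT.lf (nat_lit 50084) (nat_lit 6) (nat_lit 659) (nat_lit 1) (nat_lit 274) (nat_lit 244) (nat_lit 262))) (PT.nd (nat_lit 78) (PT.lf (nat_lit 50008) (nat_lit 6) (nat_lit 658) (nat_lit 1) (nat_lit 275) (nat_lit 244) (nat_lit 261)) (PT.lf (nat_lit 49932) (nat_lit 6) (nat_lit 657) (nat_lit 1) (nat_lit 276) (nat_lit 244) (nat_lit 260)))) (PT.nd (nat_lit 156) (PT.nd (nat_lit 78) (PT.lf (nat_lit 48564) (nat_lit 6) (nat_lit 639) (nat_lit 1) (nat_lit 277) (nat_lit 244) (nat_lit 259)) (PT.lf (nat_lit 47120) (nat_lit 6) (nat_lit 620) (nat_lit 1) (nat_lit 278) (nat_lit 244) (nat_lit 258))) (PT.nd (nat_lit 78) (PT.lf (nat_lit 45600) (nat_lit 6) (nat_lit 600) (nat_lit 1) (nat_lit 279) (nat_lit 244) (nat_lit 257)) (PT.lf (nat_lit 44004) (nat_lit 6) (nat_lit 579) (nat_lit 1) (nat_lit 280) (nat_lit 244) (nat_lit 256))))) (PT.nd (nat_lit 78858) (PT.nd (nat_lit 156) (PT.nd (nat_lit 78) (PT.lf (nat_lit 42332) (nat_lit 6) (nat_lit 557) (nat_lit 1) (nat_lit 281) (nat_lit 244) (nat_lit 255)) (PT.lf (nat_lit 40584) (nat_lit 6)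 (nat_lit 534) (nat_lit 1) (nat_lit 282) (nat_lit 244) (nat_lit 254))) (PT.nd (nat_lit 78) (PT.lf (nat_lit 38760) (nat_lit 6) (nat_lit 510) (nat_lit 1) (nat_lit 283) (nat_lit 244) (nat_lit 253)) (PT.lf (nat_lit 36860) (nat_lit 6) (nat_lit 485) (nat_lit 1) (nat_lit 284) (nat_lit 244) (nat_lit 252)))) (PT.nd (nat_lit 156) (PT.nd (nat_lit 78) (PT.lf (nat_lit 36784) (nat_lit 6) (nat_lit 484) (nat_lit 3) (nat_lit 251) (nat_lit 245) (nat_lit 284)) (PT.lf (nat_lit 38684) (nat_lit 6) (nat_lit 509) (nat_lit 3) (nat_lit 252) (nat_lit 245) (nat_lit 283))) (PT.nd (nat_lit 78) (PT.lf (nat_lit 40508) (nat_lit 6) (nat_lit 533) (nat_lit 3) (nat_lit 253) (nat_lit 245) (nat_lit 282)) (PT.lf (nat_lit 42256) (nat_lit 6) (nat_lit 556) (nat_lit 3) (nat_lit 254) (nat_lit 245) (nat_lit 281))))))))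
noncomputable def pc16 : PT := (PT.nd (nat_lit 80886) (PT.nd (nat_lit 1170) (PT.nd (nat_lit 546) (PT.nd (nat_lit 234) (PT.nd (nat_lit 78) (PT.lf (nat_lit 43928) (nat_lit 6) (nat_lit 578) (nat_lit 3) (nat_lit 255) (nat_lit 245) (nat_lit 280)) (PT.nd (nat_lit 78) (PT.lf (nat_lit 45524) (nat_lit 6) (nat_lit 599) (nat_lit 3) (nat_lit 256) (nat_lit 245) (nat_lit 279)) (PT.lf (nat_lit 47044) (nat_lit 6) (nat_lit 619) (nat_lit 3) (nat_lit 257) (nat_lit 245) (nat_lit 278)))) (PT.nd (nat_lit 156) (PT.nd (nat_lit 78) (PT.lf (nat_lit 48488) (nat_lit 6) (nat_lit 638) (nat_lit 3) (nat_lit 258) (nat_lit 245) (nat_lit 277)) (PT.lf (nat_lit 49856) (nat_lit 6) (nat_lit 656) (nat_lit 3) (nat_lit 259) (nat_lit 245) (nat_lit 276))) (PT.nd (nat_lit 78) (PT.lf (nat_lit 51148) (nat_lit 6) (nat_lit 673) (nat_lit 3) (nat_lit 260) (nat_lit 245) (nat_lit 275)) (PT.lf (nat_lit 51224) (nat_lit 6) (nat_lit 674) (nat_lit 3) (nat_lit 261) (nat_lit 245) (nat_lit 274))))) (PT.nd (nat_lit 312) (PT.nd (nat_lit 156) (PT.nd (nat_lit 78) (PT.lf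 (nat_lit 51300) (nat_lit 6) (nat_lit 675) (nat_lit 3) (nat_lit 262) (nat_lit 245) (nat_lit 273)) (PT.lf (nat_lit 51376) (nat_lit 6) (nat_lit 676) (nat_lit 3) (nat_lit 263) (nat_lit 245) (nat_lit 272))) (PT.nd (nat_lit 78) (PT.lf (nat_lit 51452) (nat_lit 6) (nat_lit 677) (nat_lit 3) (nat_lit 264) (nat_lit 245) (nat_lit 271)) (PT.lf (nat_lit 51528) (nat_lit 6) (nat_lit 678) (nat_lit 3) (nat_lit 265) (nat_lit 245) (nat_lit 270)))) (PT.nd (nat_lit 156) (PT.nd (nat_lit 78) (PT.lf (nat_lit 51604) (nat_lit 6) (nat_lit 679) (nat_lit 3) (nat_lit 266) (nat_lit 245) (nat_lit 269)) (PT.lf (nat_lit 51680) (nat_lit 6) (nat_lit 680) (nat_lit 3) (nat_lit 267) (nat_lit 245) (nat_lit 268))) (PT.nd (nat_lit 78) (PT.lf (nat_lit 51680) (nat_lit 6) (nat_lit 680) (nat_lit 1) (nat_lit 268) (nat_lit 245) (nat_lit 267)) (PT.lf (nat_lit 51604) (nat_lit 6) (nat_lit 679) (nat_lit 1) (nat_lit 269) (nat_lit 245) (nat_lit 266)))))) (PT.nd (nat_lit 624) (PT.nd (nat_lit 312) (PT.nd (nat_lit 156) (PT.nd (nat_lit 78) (PT.lf (nat_lit 51528)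 (nat_lit 6) (nat_lit 678) (nat_lit 1) (nat_lit 270) (nat_lit 245) (nat_lit 265)) (PT.lf (nat_lit 51452) (nat_lit 6) (nat_lit 677) (nat_lit 1) (nat_lit 271) (nat_lit 245) (nat_lit 264))) (PT.nd (nat_lit 78) (PT.lf (nat_lit 51376) (nat_lit 6) (nat_lit 676) (nat_lit 1) (nat_lit 272) (nat_lit 245) (nat_lit 263)) (PT.lf (nat_lit 51300) (nat_lit 6) (nat_lit 675) (nat_lit 1) (nat_lit 273) (nat_lit 245) (nat_lit 262)))) (PT.nd (nat_lit 156) (PT.nd (nat_lit 78) (PT.lf (nat_lit 51224) (nat_lit 6) (nat_lit 674) (nat_lit 1) (nat_lit 274) (nat_lit 245) (nat_lit 261)) (PT.lf (nat_lit 51148) (nat_lit 6) (nat_lit 673) (nat_lit 1) (nat_lit 275) (nat_lit 245) (nat_lit 260))) (PT.nd (nat_lit 78) (PT.lf (nat_lit 49856) (nat_lit 6) (nat_lit 656) (nat_lit 1) (nat_lit 276) (nat_lit 245) (nat_lit 259)) (PT.lf (nat_lit 48488) (nat_lit 6) (nat_lit 638) (nat_lit 1) (nat_lit 277) (nat_lit 245) (nat_lit 258))))) (PT.nd (nat_lit 312) (PT.nd (nat_lit 156) (PT.nd (nat_lit 78) (PT.lf (nat_lit 47044) (nat_lit 6) (nat_lit 619) (nat_lit 1)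 (nat_lit 278) (nat_lit 245) (nat_lit 257)) (PT.lf (nat_lit 45524) (nat_lit 6) (nat_lit 599) (nat_lit 1) (nat_lit 279) (nat_lit 245) (nat_lit 256))) (PT.nd (nat_lit 78) (PT.lf (nat_lit 43928) (nat_lit 6) (nat_lit 578) (nat_lit 1) (nat_lit 280) (nat_lit 245) (nat_lit 255)) (PT.lf (nat_lit 42256) (nat_lit 6) (nat_lit 556) (nat_lit 1) (nat_lit 281) (nat_lit 245) (nat_lit 254)))) (PT.nd (nat_lit 156) (PT.nd (nat_lit 78) (PT.lf (nat_lit 40508) (nat_lit 6) (nat_lit 533) (nat_lit 1) (nat_lit 282) (nat_lit 245) (nat_lit 253)) (PT.lf (nat_lit 38684) (nat_lit 6) (nat_lit 509) (nat_lit 1) (nat_lit 283) (nat_lit 245) (nat_lit 252))) (PT.nd (nat_lit 78546) (PT.lf (nat_lit 36784) (nat_lit 6) (nat_lit 484) (nat_lit 1) (nat_lit 284) (nat_lit 245) (nat_lit 251)) (PT.lf (nat_lit 36708) (nat_lit 6) (nat_lit 483) (nat_lit 3) (nat_lit 250) (nat_lit 246) (nat_lit 284))))))) (PT.nd (nat_lit 1170) (PT.nd (nat_lit 546) (PT.nd (nat_lit 234) (PT.nd (nat_lit 78) (PT.lf (nat_lit 38608) (nat_lit 6) (nat_lit 508) (nat_lit 3) (nat_lit 251)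 (nat_lit 246) (nat_lit 283)) (PT.nd (nat_lit 78) (PT.lf (nat_lit 40432) (nat_lit 6) (nat_lit 532) (nat_lit 3) (nat_lit 252) (nat_lit 246) (nat_lit 282)) (PT.lf (nat_lit 42180) (nat_lit 6) (nat_lit 555) (nat_lit 3) (nat_lit 253) (nat_lit 246) (nat_lit 281)))) (PT.nd (nat_lit 156) (PT.nd (nat_lit 78) (PT.lf (nat_lit 43852) (nat_lit 6) (nat_lit 577) (nat_lit 3) (nat_lit 254) (nat_lit 246) (nat_lit 280)) (PT.lf (nat_lit 45448) (nat_lit 6) (nat_lit 598) (nat_lit 3) (nat_lit 255) (nat_lit 246) (nat_lit 279))) (PT.nd (nat_lit 78) (PT.lf (nat_lit 46968) (nat_lit 6) (nat_lit 618) (nat_lit 3) (nat_lit 256) (nat_lit 246) (nat_lit 278)) (PT.lf (nat_lit 48412) (nat_lit 6) (nat_lit 637) (nat_lit 3) (nat_lit 257) (nat_lit 246) (nat_lit 277))))) (PT.nd (nat_lit 312) (PT.nd (nat_lit 156) (PT.nd (nat_lit 78) (PT.lf (nat_lit 49780) (nat_lit 6) (nat_lit 655) (nat_lit 3) (nat_lit 258) (nat_lit 246) (nat_lit 276)) (PT.lf (nat_lit 51072) (nat_lit 6) (nat_lit 672) (nat_lit 3) (nat_lit 259) (nat_lit 246) (nat_lit 275))) (PT.nd (nat_lit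 78) (PT.lf (nat_lit 52288) (nat_lit 6) (nat_lit 688) (nat_lit 3) (nat_lit 260) (nat_lit 246) (nat_lit 274)) (PT.lf (nat_lit 52364) (nat_lit 6) (nat_lit 689) (nat_lit 3) (nat_lit 261) (nat_lit 246) (nat_lit 273)))) (PT.nd (nat_lit 156) (PT.nd (nat_lit 78) (PT.lf (nat_lit 52440) (nat_lit 6) (nat_lit 690) (nat_lit 3) (nat_lit 262) (nat_lit 246) (nat_lit 272)) (PT.lf (nat_lit 52516) (nat_lit 6) (nat_lit 691) (nat_lit 3) (nat_lit 263) (nat_lit 246) (nat_lit 271))) (PT.nd (nat_lit 78) (PT.lf (nat_lit 52592) (nat_lit 6) (nat_lit 692) (nat_lit 3) (nat_lit 264) (nat_lit 246) (nat_lit 270)) (PT.lf (nat_lit 52668) (nat_lit 6) (nat_lit 693) (nat_lit 3) (nat_lit 265) (nat_lit 246) (nat_lit 269)))))) (PT.nd (nat_lit 624) (PT.nd (nat_lit 312) (PT.nd (nat_lit 156) (PT.nd (nat_lit 78) (PT.lf (nat_lit 52744) (nat_lit 6) (nat_lit 694) (nat_lit 3) (nat_lit 266) (nat_lit 246) (nat_lit 268)) (PT.lf (nat_lit 52820) (nat_lit 3) (nat_lit 695) (nat_lit 1) (nat_lit 267) (nat_lit 246) (nat_lit 267))) (PT.nd (nat_lit 78) (PT.lf (nat_lit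 52744) (nat_lit 6) (nat_lit 694) (nat_lit 1) (nat_lit 268) (nat_lit 246) (nat_lit 266)) (PT.lf (nat_lit 52668) (nat_lit 6) (nat_lit 693) (nat_lit 1) (nat_lit 269) (nat_lit 246) (nat_lit 265)))) (PT.nd (nat_lit 156) (PT.nd (nat_lit 78) (PT.lf (nat_lit 52592) (nat_lit 6) (nat_lit 692) (nat_lit 1) (nat_lit 270) (nat_lit 246) (nat_lit 264)) (PT.lf (nat_lit 52516) (nat_lit 6) (nat_lit 691) (nat_lit 1) (nat_lit 271) (nat_lit 246) (nat_lit 263))) (PT.nd (nat_lit 78) (PT.lf (nat_lit 52440) (nat_lit 6) (nat_lit 690) (nat_lit 1) (nat_lit 272) (nat_lit 246) (nat_lit 262)) (PT.lf (nat_lit 52364) (nat_lit 6) (nat_lit 689) (nat_lit 1) (nat_lit 273) (nat_lit 246) (nat_lit 261))))) (PT.nd (nat_lit 312) (PT.nd (nat_lit 156) (PT.nd (nat_lit 78) (PT.lf (nat_lit 52288) (nat_lit 6) (nat_lit 688) (nat_lit 1) (nat_lit 274) (nat_lit 246) (nat_lit 260)) (PT.lf (nat_lit 51072) (nat_lit 6) (nat_lit 672) (nat_lit 1) (nat_lit 275) (nat_lit 246) (nat_lit 259))) (PT.nd (nat_lit 78) (PT.lf (nat_lit 49780) (nat_lit 6) (nat_lit 655) (nat_lit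 1) (nat_lit 276) (nat_lit 246) (nat_lit 258)) (PT.lf (nat_lit 48412) (nat_lit 6) (nat_lit 637) (nat_lit 1) (nat_lit 277) (nat_lit 246) (nat_lit 257)))) (PT.nd (nat_lit 156) (PT.nd (nat_lit 78) (PT.lf (nat_lit 46968) (nat_lit 6) (nat_lit 618) (nat_lit 1) (nat_lit 278) (nat_lit 246) (nat_lit 256)) (PT.lf (nat_lit 45448) (nat_lit 6) (nat_lit 598) (nat_lit 1) (nat_lit 279) (nat_lit 246) (nat_lit 255))) (PT.nd (nat_lit 78) (PT.lf (nat_lit 43852) (nat_lit 6) (nat_lit 577) (nat_lit 1) (nat_lit 280) (nat_lit 246) (nat_lit 254)) (PT.lf (nat_lit 42180) (nat_lit 6) (nat_lit 555) (nat_lit 1) (nat_lit 281) (nat_lit 246) (nat_lit 253))))))))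
noncomputable def pc17 : PT := (PT.nd (nat_lit 80808) (PT.nd (nat_lit 79560) (PT.nd (nat_lit 78936) (PT.nd (nat_lit 78624) (PT.nd (nat_lit 78) (PT.lf (nat_lit 40432) (nat_lit 6) (nat_lit 532) (nat_lit 1) (nat_lit 282) (nat_lit 246) (nat_lit 252)) (PT.nd (nat_lit 78) (PT.lf (nat_lit 38608) (nat_lit 6) (nat_lit 508) (nat_lit 1) (nat_lit 283) (nat_lit 246) (nat_lit 251)) (PT.lf (nat_lit 36708) (nat_lit 6) (nat_lit 483) (nat_lit 1) (nat_lit 284) (nat_lit 246) (nat_lit 250)))) (PT.nd (nat_lit 156) (PT.nd (nat_lit 78) (PT.lf (nat_lit 36632) (nat_lit 6) (nat_lit 482) (nat_lit 3) (nat_lit 249) (nat_lit 247) (nat_lit 284)) (PT.lf (nat_lit 38532) (nat_lit 6) (nat_lit 507) (nat_lit 3) (nat_lit 250) (nat_lit 247) (nat_lit 283))) (PT.nd (nat_lit 78) (PT.lf (nat_lit 40356) (nat_lit 6) (nat_lit 531) (nat_lit 3) (nat_lit 251) (nat_lit 247) (nat_lit 282)) (PT.lf (nat_lit 42104) (nat_lit 6) (nat_lit 554) (nat_lit 3) (nat_lit 252) (nat_lit 247) (nat_lit 281))))) (PT.nd (nat_lit 312) (PT.nd (nat_lit 156) (PT.nd (nat_lit 78)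 (PT.lf (nat_lit 43776) (nat_lit 6) (nat_lit 576) (nat_lit 3) (nat_lit 253) (nat_lit 247) (nat_lit 280)) (PT.lf (nat_lit 45372) (nat_lit 6) (nat_lit 597) (nat_lit 3) (nat_lit 254) (nat_lit 247) (nat_lit 279))) (PT.nd (nat_lit 78) (PT.lf (nat_lit 46892) (nat_lit 6) (nat_lit 617) (nat_lit 3) (nat_lit 255) (nat_lit 247) (nat_lit 278)) (PT.lf (nat_lit 48336) (nat_lit 6) (nat_lit 636) (nat_lit 3) (nat_lit 256) (nat_lit 247) (nat_lit 277)))) (PT.nd (nat_lit 156) (PT.nd (nat_lit 78) (PT.lf (nat_lit 49704) (nat_lit 6) (nat_lit 654) (nat_lit 3) (nat_lit 257) (nat_lit 247) (nat_lit 276)) (PT.lf (nat_lit 50996) (nat_lit 6) (nat_lit 671) (nat_lit 3) (nat_lit 258) (nat_lit 247) (nat_lit 275))) (PT.nd (nat_lit 78) (PT.lf (nat_lit 52212) (nat_lit 6) (nat_lit 687) (nat_lit 3) (nat_lit 259) (nat_lit 247) (nat_lit 274)) (PT.lf (nat_lit 53352) (nat_lit 6) (nat_lit 702) (nat_lit 3) (nat_lit 260) (nat_lit 247) (nat_lit 273)))))) (PT.nd (nat_lit 624) (PT.nd (nat_lit 312) (PT.nd (nat_lit 156) (PT.nd (nat_lit 78) (PT.lf (nat_lit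 53428) (nat_lit 6) (nat_lit 703) (nat_lit 3) (nat_lit 261) (nat_lit 247) (nat_lit 272)) (PT.lf (nat_lit 53504) (nat_lit 6) (nat_lit 704) (nat_lit 3) (nat_lit 262) (nat_lit 247) (nat_lit 271))) (PT.nd (nat_lit 78) (PT.lf (nat_lit 53580) (nat_lit 6) (nat_lit 705) (nat_lit 3) (nat_lit 263) (nat_lit 247) (nat_lit 270)) (PT.lf (nat_lit 53656) (nat_lit 6) (nat_lit 706) (nat_lit 3) (nat_lit 264) (nat_lit 247) (nat_lit 269)))) (PT.nd (nat_lit 156) (PT.nd (nat_lit 78) (PT.lf (nat_lit 53732) (nat_lit 6) (nat_lit 707) (nat_lit 3) (nat_lit 265) (nat_lit 247) (nat_lit 268)) (PT.lf (nat_lit 53808) (nat_lit 6) (nat_lit 708) (nat_lit 3) (nat_lit 266) (nat_lit 247) (nat_lit 267))) (PT.nd (nat_lit 78) (PT.lf (nat_lit 53808) (nat_lit 6) (nat_lit 708) (nat_lit 1) (nat_lit 267) (nat_lit 247) (nat_lit 266)) (PT.lf (nat_lit 53732) (nat_lit 6) (nat_lit 707) (nat_lit 1) (nat_lit 268) (nat_lit 247) (nat_lit 265))))) (PT.nd (nat_lit 312) (PT.nd (nat_lit 156) (PT.nd (nat_lit 78) (PT.lf (nat_lit 53656) (nat_lit 6) (nat_lit 706) (nat_lit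 1) (nat_lit 269) (nat_lit 247) (nat_lit 264)) (PT.lf (nat_lit 53580) (nat_lit 6) (nat_lit 705) (nat_lit 1) (nat_lit 270) (nat_lit 247) (nat_lit 263))) (PT.nd (nat_lit 78) (PT.lf (nat_lit 53504) (nat_lit 6) (nat_lit 704) (nat_lit 1) (nat_lit 271) (nat_lit 247) (nat_lit 262)) (PT.lf (nat_lit 53428) (nat_lit 6) (nat_lit 703) (nat_lit 1) (nat_lit 272) (nat_lit 247) (nat_lit 261)))) (PT.nd (nat_lit 156) (PT.nd (nat_lit 78) (PT.lf (nat_lit 53352) (nat_lit 6) (nat_lit 702) (nat_lit 1) (nat_lit 273) (nat_lit 247) (nat_lit 260)) (PT.lf (nat_lit 52212) (nat_lit 6) (nat_lit 687) (nat_lit 1) (nat_lit 274) (nat_lit 247) (nat_lit 259))) (PT.nd (nat_lit 78) (PT.lf (nat_lit 50996) (nat_lit 6) (nat_lit 671) (nat_lit 1) (nat_lit 275) (nat_lit 247) (nat_lit 258)) (PT.lf (nat_lit 49704) (nat_lit 6) (nat_lit 654) (nat_lit 1) (nat_lit 276) (nat_lit 247) (nat_lit 257))))))) (PT.nd (nat_lit 79560) (PT.nd (nat_lit 78936) (PT.nd (nat_lit 312) (PT.nd (nat_lit 156) (PT.nd (nat_lit 78) (PT.lf (nat_lit 48336) (nat_lit 6) (nat_lit 636)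 (nat_lit 1) (nat_lit 277) (nat_lit 247) (nat_lit 256)) (PT.lf (nat_lit 46892) (nat_lit 6) (nat_lit 617) (nat_lit 1) (nat_lit 278) (nat_lit 247) (nat_lit 255))) (PT.nd (nat_lit 78) (PT.lf (nat_lit 45372) (nat_lit 6) (nat_lit 597) (nat_lit 1) (nat_lit 279) (nat_lit 247) (nat_lit 254)) (PT.lf (nat_lit 43776) (nat_lit 6) (nat_lit 576) (nat_lit 1) (nat_lit 280) (nat_lit 247) (nat_lit 253)))) (PT.nd (nat_lit 156) (PT.nd (nat_lit 78) (PT.lf (nat_lit 42104) (nat_lit 6) (nat_lit 554) (nat_lit 1) (nat_lit 281) (nat_lit 247) (nat_lit 252)) (PT.lf (nat_lit 40356) (nat_lit 6) (nat_lit 531) (nat_lit 1) (nat_lit 282) (nat_lit 247) (nat_lit 251))) (PT.nd (nat_lit 78) (PT.lf (nat_lit 38532) (nat_lit 6) (nat_lit 507) (nat_lit 1) (nat_lit 283) (nat_lit 247) (nat_lit 250)) (PT.lf (nat_lit 36632) (nat_lit 6) (nat_lit 482) (nat_lit 1) (nat_lit 284) (nat_lit 247) (nat_lit 249))))) (PT.nd (nat_lit 312) (PT.nd (nat_lit 156) (PT.nd (nat_lit 78) (PT.lf (nat_lit 36556) (nat_lit 3) (nat_lit 481) (nat_lit 3) (nat_lit 248) (nat_lit 248)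 (nat_lit 284)) (PT.lf (nat_lit 38456) (nat_lit 6) (nat_lit 506) (nat_lit 3) (nat_lit 249) (nat_lit 248) (nat_lit 283))) (PT.nd (nat_lit 78) (PT.lf (nat_lit 40280) (nat_lit 6) (nat_lit 530) (nat_lit 3) (nat_lit 250) (nat_lit 248) (nat_lit 282)) (PT.lf (nat_lit 42028) (nat_lit 6) (nat_lit 553) (nat_lit 3) (nat_lit 251) (nat_lit 248) (nat_lit 281)))) (PT.nd (nat_lit 156) (PT.nd (nat_lit 78) (PT.lf (nat_lit 43700) (nat_lit 6) (nat_lit 575) (nat_lit 3) (nat_lit 252) (nat_lit 248) (nat_lit 280)) (PT.lf (nat_lit 45296) (nat_lit 6) (nat_lit 596) (nat_lit 3) (nat_lit 253) (nat_lit 248) (nat_lit 279))) (PT.nd (nat_lit 78) (PT.lf (nat_lit 46816) (nat_lit 6) (nat_lit 616) (nat_lit 3) (nat_lit 254) (nat_lit 248) (nat_lit 278)) (PT.lf (nat_lit 48260) (nat_lit 6) (nat_lit 635) (nat_lit 3) (nat_lit 255) (nat_lit 248) (nat_lit 277)))))) (PT.nd (nat_lit 624) (PT.nd (nat_lit 312) (PT.nd (nat_lit 156) (PT.nd (nat_lit 78) (PT.lf (nat_lit 49628) (nat_lit 6) (nat_lit 653) (nat_lit 3) (nat_lit 256) (nat_lit 248) (nat_lit 276))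 (PT.lf (nat_lit 50920) (nat_lit 6) (nat_lit 670) (nat_lit 3) (nat_lit 257) (nat_lit 248) (nat_lit 275))) (PT.nd (nat_lit 78) (PT.lf (nat_lit 52136) (nat_lit 6) (nat_lit 686) (nat_lit 3) (nat_lit 258) (nat_lit 248) (nat_lit 274)) (PT.lf (nat_lit 53276) (nat_lit 6) (nat_lit 701) (nat_lit 3) (nat_lit 259) (nat_lit 248) (nat_lit 273)))) (PT.nd (nat_lit 156) (PT.nd (nat_lit 78) (PT.lf (nat_lit 54340) (nat_lit 6) (nat_lit 715) (nat_lit 3) (nat_lit 260) (nat_lit 248) (nat_lit 272)) (PT.lf (nat_lit 54416) (nat_lit 6) (nat_lit 716) (nat_lit 3) (nat_lit 261) (nat_lit 248) (nat_lit 271))) (PT.nd (nat_lit 78) (PT.lf (nat_lit 54492) (nat_lit 6) (nat_lit 717) (nat_lit 3) (nat_lit 262) (nat_lit 248) (nat_lit 270)) (PT.lf (nat_lit 54568) (nat_lit 6) (nat_lit 718) (nat_lit 3) (nat_lit 263) (nat_lit 248) (nat_lit 269))))) (PT.nd (nat_lit 312) (PT.nd (nat_lit 156) (PT.nd (nat_lit 78) (PT.lf (nat_lit 54644) (nat_lit 6) (nat_lit 719) (nat_lit 3) (nat_lit 264) (nat_lit 248) (nat_lit 268)) (PT.lf (nat_lit 54720) (nat_lit 6) (nat_lit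 720) (nat_lit 3) (nat_lit 265) (nat_lit 248) (nat_lit 267))) (PT.nd (nat_lit 78) (PT.lf (nat_lit 54796) (nat_lit 3) (nat_lit 721) (nat_lit 1) (nat_lit 266) (nat_lit 248) (nat_lit 266)) (PT.lf (nat_lit 54720) (nat_lit 6) (nat_lit 720) (nat_lit 1) (nat_lit 267) (nat_lit 248) (nat_lit 265)))) (PT.nd (nat_lit 156) (PT.nd (nat_lit 78) (PT.lf (nat_lit 54644) (nat_lit 6) (nat_lit 719) (nat_lit 1) (nat_lit 268) (nat_lit 248) (nat_lit 264)) (PT.lf (nat_lit 54568) (nat_lit 6) (nat_lit 718) (nat_lit 1) (nat_lit 269) (nat_lit 248) (nat_lit 263))) (PT.nd (nat_lit 78) (PT.lf (nat_lit 54492) (nat_lit 6) (nat_lit 717) (nat_lit 1) (nat_lit 270) (nat_lit 248) (nat_lit 262)) (PT.lf (nat_lit 54416) (nat_lit 6) (nat_lit 716) (nat_lit 1) (nat_lit 271) (nat_lit 248) (nat_lit 261))))))))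
noncomputable def pc18 : PT := (PT.nd (nat_lit 80652) (PT.nd (nat_lit 79404) (PT.nd (nat_lit 546) (PT.nd (nat_lit 234) (PT.nd (nat_lit 78) (PT.lf (nat_lit 54340) (nat_lit 6) (nat_lit 715) (nat_lit 1) (nat_lit 272) (nat_lit 248) (nat_lit 260)) (PT.nd (nat_lit 78) (PT.lf (nat_lit 53276) (nat_lit 6) (nat_lit 701) (nat_lit 1) (nat_lit 273) (nat_lit 248) (nat_lit 259)) (PT.lf (nat_lit 52136) (nat_lit 6) (nat_lit 686) (nat_lit 1) (nat_lit 274) (nat_lit 248) (nat_lit 258)))) (PT.nd (nat_lit 156) (PT.nd (nat_lit 78) (PT.lf (nat_lit 50920) (nat_lit 6) (nat_lit 670) (nat_lit 1) (nat_lit 275) (nat_lit 248) (nat_lit 257)) (PT.lf (nat_lit 49628) (nat_lit 6) (nat_lit 653) (nat_lit 1) (nat_lit 276) (nat_lit 248) (nat_lit 256))) (PT.nd (nat_lit 78) (PT.lf (nat_lit 48260) (nat_lit 6) (nat_lit 635) (nat_lit 1) (nat_lit 277) (nat_lit 248) (nat_lit 255)) (PT.lf (nat_lit 46816) (nat_lit 6) (nat_lit 616) (nat_lit 1) (nat_lit 278) (nat_lit 248) (nat_lit 254))))) (PT.nd (nat_lit 312) (PT.nd (nat_lit 156) (PT.nd (nat_lit 78) (PT.lf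 (nat_lit 45296) (nat_lit 6) (nat_lit 596) (nat_lit 1) (nat_lit 279) (nat_lit 248) (nat_lit 253)) (PT.lf (nat_lit 43700) (nat_lit 6) (nat_lit 575) (nat_lit 1) (nat_lit 280) (nat_lit 248) (nat_lit 252))) (PT.nd (nat_lit 78) (PT.lf (nat_lit 42028) (nat_lit 6) (nat_lit 553) (nat_lit 1) (nat_lit 281) (nat_lit 248) (nat_lit 251)) (PT.lf (nat_lit 40280) (nat_lit 6) (nat_lit 530) (nat_lit 1) (nat_lit 282) (nat_lit 248) (nat_lit 250)))) (PT.nd (nat_lit 78390) (PT.nd (nat_lit 78) (PT.lf (nat_lit 38456) (nat_lit 6) (nat_lit 506) (nat_lit 1) (nat_lit 283) (nat_lit 248) (nat_lit 249)) (PT.lf (nat_lit 36556) (nat_lit 3) (nat_lit 481) (nat_lit 0) (nat_lit 284) (nat_lit 248) (nat_lit 248))) (PT.nd (nat_lit 78) (PT.lf (nat_lit 36632) (nat_lit 6) (nat_lit 482) (nat_lit 5) (nat_lit 247) (nat_lit 249) (nat_lit 284)) (PT.lf (nat_lit 38456) (nat_lit 6) (nat_lit 506) (nat_lit 5) (nat_lit 248) (nat_lit 249) (nat_lit 283)))))) (PT.nd (nat_lit 624) (PT.nd (nat_lit 312) (PT.nd (nat_lit 156) (PT.nd (nat_lit 78) (PT.lf (nat_lit 40204)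 (nat_lit 3) (nat_lit 529) (nat_lit 3) (nat_lit 249) (nat_lit 249) (nat_lit 282)) (PT.lf (nat_lit 41952) (nat_lit 6) (nat_lit 552) (nat_lit 3) (nat_lit 250) (nat_lit 249) (nat_lit 281))) (PT.nd (nat_lit 78) (PT.lf (nat_lit 43624) (nat_lit 6) (nat_lit 574) (nat_lit 3) (nat_lit 251) (nat_lit 249) (nat_lit 280)) (PT.lf (nat_lit 45220) (nat_lit 6) (nat_lit 595) (nat_lit 3) (nat_lit 252) (nat_lit 249) (nat_lit 279)))) (PT.nd (nat_lit 156) (PT.nd (nat_lit 78) (PT.lf (nat_lit 46740) (nat_lit 6) (nat_lit 615) (nat_lit 3) (nat_lit 253) (nat_lit 249) (nat_lit 278)) (PT.lf (nat_lit 48184) (nat_lit 6) (nat_lit 634) (nat_lit 3) (nat_lit 254) (nat_lit 249) (nat_lit 277))) (PT.nd (nat_lit 78) (PT.lf (nat_lit 49552) (nat_lit 6) (nat_lit 652) (nat_lit 3) (nat_lit 255) (nat_lit 249) (nat_lit 276)) (PT.lf (nat_lit 50844) (nat_lit 6) (nat_lit 669) (nat_lit 3) (nat_lit 256) (nat_lit 249) (nat_lit 275))))) (PT.nd (nat_lit 312) (PT.nd (nat_lit 156) (PT.nd (nat_lit 78) (PT.lf (nat_lit 52060) (nat_lit 6) (nat_lit 685) (nat_lit 3)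 (nat_lit 257) (nat_lit 249) (nat_lit 274)) (PT.lf (nat_lit 53200) (nat_lit 6) (nat_lit 700) (nat_lit 3) (nat_lit 258) (nat_lit 249) (nat_lit 273))) (PT.nd (nat_lit 78) (PT.lf (nat_lit 54264) (nat_lit 6) (nat_lit 714) (nat_lit 3) (nat_lit 259) (nat_lit 249) (nat_lit 272)) (PT.lf (nat_lit 55252) (nat_lit 6) (nat_lit 727) (nat_lit 3) (nat_lit 260) (nat_lit 249) (nat_lit 271)))) (PT.nd (nat_lit 156) (PT.nd (nat_lit 78) (PT.lf (nat_lit 55328) (nat_lit 6) (nat_lit 728) (nat_lit 3) (nat_lit 261) (nat_lit 249) (nat_lit 270)) (PT.lf (nat_lit 55404) (nat_lit 6) (nat_lit 729) (nat_lit 3) (nat_lit 262) (nat_lit 249) (nat_lit 269))) (PT.nd (nat_lit 78) (PT.lf (nat_lit 55480) (nat_lit 6) (nat_lit 730) (nat_lit 3) (nat_lit 263) (nat_lit 249) (nat_lit 268)) (PT.lf (nat_lit 55556) (nat_lit 6) (nat_lit 731) (nat_lit 3) (nat_lit 264) (nat_lit 249) (nat_lit 267))))))) (PT.nd (nat_lit 1248) (PT.nd (nat_lit 624) (PT.nd (nat_lit 312) (PT.nd (nat_lit 156) (PT.nd (nat_lit 78) (PT.lf (nat_lit 55632) (nat_lit 6) (nat_lit 732) (nat_lit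 3) (nat_lit 265) (nat_lit 249) (nat_lit 266)) (PT.lf (nat_lit 55632) (nat_lit 6) (nat_lit 732) (nat_lit 1) (nat_lit 266) (nat_lit 249) (nat_lit 265))) (PT.nd (nat_lit 78) (PT.lf (nat_lit 55556) (nat_lit 6) (nat_lit 731) (nat_lit 1) (nat_lit 267) (nat_lit 249) (nat_lit 264)) (PT.lf (nat_lit 55480) (nat_lit 6) (nat_lit 730) (nat_lit 1) (nat_lit 268) (nat_lit 249) (nat_lit 263)))) (PT.nd (nat_lit 156) (PT.nd (nat_lit 78) (PT.lf (nat_lit 55404) (nat_lit 6) (nat_lit 729) (nat_lit 1) (nat_lit 269) (nat_lit 249) (nat_lit 262)) (PT.lf (nat_lit 55328) (nat_lit 6) (nat_lit 728) (nat_lit 1) (nat_lit 270) (nat_lit 249) (nat_lit 261))) (PT.nd (nat_lit 78) (PT.lf (nat_lit 55252) (nat_lit 6) (nat_lit 727) (nat_lit 1) (nat_lit 271) (nat_lit 249) (nat_lit 260)) (PT.lf (nat_lit 54264) (nat_lit 6) (nat_lit 714) (nat_lit 1) (nat_lit 272) (nat_lit 249) (nat_lit 259))))) (PT.nd (nat_lit 312) (PT.nd (nat_lit 156) (PT.nd (nat_lit 78) (PT.lf (nat_lit 53200) (nat_lit 6) (nat_lit 700) (nat_lit 1) (nat_lit 273) (nat_lit 249) (nat_lit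 258)) (PT.lf (nat_lit 52060) (nat_lit 6) (nat_lit 685) (nat_lit 1) (nat_lit 274) (nat_lit 249) (nat_lit 257))) (PT.nd (nat_lit 78) (PT.lf (nat_lit 50844) (nat_lit 6) (nat_lit 669) (nat_lit 1) (nat_lit 275) (nat_lit 249) (nat_lit 256)) (PT.lf (nat_lit 49552) (nat_lit 6) (nat_lit 652) (nat_lit 1) (nat_lit 276) (nat_lit 249) (nat_lit 255)))) (PT.nd (nat_lit 156) (PT.nd (nat_lit 78) (PT.lf (nat_lit 48184) (nat_lit 6) (nat_lit 634) (nat_lit 1) (nat_lit 277) (nat_lit 249) (nat_lit 254)) (PT.lf (nat_lit 46740) (nat_lit 6) (nat_lit 615) (nat_lit 1) (nat_lit 278) (nat_lit 249) (nat_lit 253))) (PT.nd (nat_lit 78) (PT.lf (nat_lit 45220) (nat_lit 6) (nat_lit 595) (nat_lit 1) (nat_lit 279) (nat_lit 249) (nat_lit 252)) (PT.lf (nat_lit 43624) (nat_lit 6) (nat_lit 574) (nat_lit 1) (nat_lit 280) (nat_lit 249) (nat_lit 251)))))) (PT.nd (nat_lit 78780) (PT.nd (nat_lit 78468) (PT.nd (nat_lit 156) (PT.nd (nat_lit 78) (PT.lf (nat_lit 41952) (nat_lit 6) (nat_lit 552) (nat_lit 1) (nat_lit 281) (nat_lit 249) (nat_lit 250)) (PT.lf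 (nat_lit 40204) (nat_lit 3) (nat_lit 529) (nat_lit 0) (nat_lit 282) (nat_lit 249) (nat_lit 249))) (PT.nd (nat_lit 78) (PT.lf (nat_lit 38456) (nat_lit 6) (nat_lit 506) (nat_lit 0) (nat_lit 283) (nat_lit 249) (nat_lit 248)) (PT.lf (nat_lit 36632) (nat_lit 6) (nat_lit 482) (nat_lit 0) (nat_lit 284) (nat_lit 249) (nat_lit 247)))) (PT.nd (nat_lit 156) (PT.nd (nat_lit 78) (PT.lf (nat_lit 36708) (nat_lit 6) (nat_lit 483) (nat_lit 5) (nat_lit 246) (nat_lit 250) (nat_lit 284)) (PT.lf (nat_lit 38532) (nat_lit 6) (nat_lit 507) (nat_lit 5) (nat_lit 247) (nat_lit 250) (nat_lit 283))) (PT.nd (nat_lit 78) (PT.lf (nat_lit 40280) (nat_lit 6) (nat_lit 530) (nat_lit 5) (nat_lit 248) (nat_lit 250) (nat_lit 282)) (PT.lf (nat_lit 41952) (nat_lit 6) (nat_lit 552) (nat_lit 5) (nat_lit 249) (nat_lit 250) (nat_lit 281))))) (PT.nd (nat_lit 312) (PT.nd (nat_lit 156) (PT.nd (nat_lit 78) (PT.lf (nat_lit 43548) (nat_lit 3) (nat_lit 573) (nat_lit 3) (nat_lit 250) (nat_lit 250) (nat_lit 280)) (PT.lf (nat_lit 45144) (nat_lit 6) (nat_lit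 594) (nat_lit 3) (nat_lit 251) (nat_lit 250) (nat_lit 279))) (PT.nd (nat_lit 78) (PT.lf (nat_lit 46664) (nat_lit 6) (nat_lit 614) (nat_lit 3) (nat_lit 252) (nat_lit 250) (nat_lit 278)) (PT.lf (nat_lit 48108) (nat_lit 6) (nat_lit 633) (nat_lit 3) (nat_lit 253) (nat_lit 250) (nat_lit 277)))) (PT.nd (nat_lit 156) (PT.nd (nat_lit 78) (PT.lf (nat_lit 49476) (nat_lit 6) (nat_lit 651) (nat_lit 3) (nat_lit 254) (nat_lit 250) (nat_lit 276)) (PT.lf (nat_lit 50768) (nat_lit 6) (nat_lit 668) (nat_lit 3) (nat_lit 255) (nat_lit 250) (nat_lit 275))) (PT.nd (nat_lit 78) (PT.lf (nat_lit 51984) (nat_lit 6) (nat_lit 684) (nat_lit 3) (nat_lit 256) (nat_lit 250) (nat_lit 274)) (PT.lf (nat_lit 53124) (nat_lit 6) (nat_lit 699) (nat_lit 3) (nat_lit 257) (nat_lit 250) (nat_lit 273))))))))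
noncomputable def pc19 : PT := (PT.nd (nat_lit 80496) (PT.nd (nat_lit 1170) (PT.nd (nat_lit 546) (PT.nd (nat_lit 234) (PT.nd (nat_lit 78) (PT.lf (nat_lit 54188) (nat_lit 6) (nat_lit 713) (nat_lit 3) (nat_lit 258) (nat_lit 250) (nat_lit 272)) (PT.nd (nat_lit 78) (PT.lf (nat_lit 55176) (nat_lit 6) (nat_lit 726) (nat_lit 3) (nat_lit 259) (nat_lit 250) (nat_lit 271)) (PT.lf (nat_lit 56088) (nat_lit 6) (nat_lit 738) (nat_lit 3) (nat_lit 260) (nat_lit 250) (nat_lit 270)))) (PT.nd (nat_lit 156) (PT.nd (nat_lit 78) (PT.lf (nat_lit 56164) (nat_lit 6) (nat_lit 739) (nat_lit 3) (nat_lit 261) (nat_lit 250) (nat_lit 269)) (PT.lf (nat_lit 56240) (nat_lit 6) (nat_lit 740) (nat_lit 3) (nat_lit 262) (nat_lit 250) (nat_lit 268))) (PT.nd (nat_lit 78) (PT.lf (nat_lit 56316) (nat_lit 6) (nat_lit 741) (nat_lit 3) (nat_lit 263) (nat_lit 250) (nat_lit 267)) (PT.lf (nat_lit 56392) (nat_lit 6) (nat_lit 742) (nat_lit 3) (nat_lit 264) (nat_lit 250) (nat_lit 266))))) (PT.nd (nat_lit 312) (PT.nd (nat_lit 156) (PT.nd (nat_lit 78) (PT.lf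 (nat_lit 56468) (nat_lit 3) (nat_lit 743) (nat_lit 1) (nat_lit 265) (nat_lit 250) (nat_lit 265)) (PT.lf (nat_lit 56392) (nat_lit 6) (nat_lit 742) (nat_lit 1) (nat_lit 266) (nat_lit 250) (nat_lit 264))) (PT.nd (nat_lit 78) (PT.lf (nat_lit 56316) (nat_lit 6) (nat_lit 741) (nat_lit 1) (nat_lit 267) (nat_lit 250) (nat_lit 263)) (PT.lf (nat_lit 56240) (nat_lit 6) (nat_lit 740) (nat_lit 1) (nat_lit 268) (nat_lit 250) (nat_lit 262)))) (PT.nd (nat_lit 156) (PT.nd (nat_lit 78) (PT.lf (nat_lit 56164) (nat_lit 6) (nat_lit 739) (nat_lit 1) (nat_lit 269) (nat_lit 250) (nat_lit 261)) (PT.lf (nat_lit 56088) (nat_lit 6) (nat_lit 738) (nat_lit 1) (nat_lit 270) (nat_lit 250) (nat_lit 260))) (PT.nd (nat_lit 78) (PT.lf (nat_lit 55176) (nat_lit 6) (nat_lit 726) (nat_lit 1) (nat_lit 271) (nat_lit 250) (nat_lit 259)) (PT.lf (nat_lit 54188) (nat_lit 6) (nat_lit 713) (nat_lit 1) (nat_lit 272) (nat_lit 250) (nat_lit 258)))))) (PT.nd (nat_lit 624) (PT.nd (nat_lit 312) (PT.nd (nat_lit 156) (PT.nd (nat_lit 78) (PT.lf (nat_lit 53124)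 (nat_lit 6) (nat_lit 699) (nat_lit 1) (nat_lit 273) (nat_lit 250) (nat_lit 257)) (PT.lf (nat_lit 51984) (nat_lit 6) (nat_lit 684) (nat_lit 1) (nat_lit 274) (nat_lit 250) (nat_lit 256))) (PT.nd (nat_lit 78) (PT.lf (nat_lit 50768) (nat_lit 6) (nat_lit 668) (nat_lit 1) (nat_lit 275) (nat_lit 250) (nat_lit 255)) (PT.lf (nat_lit 49476) (nat_lit 6) (nat_lit 651) (nat_lit 1) (nat_lit 276) (nat_lit 250) (nat_lit 254)))) (PT.nd (nat_lit 156) (PT.nd (nat_lit 78) (PT.lf (nat_lit 48108) (nat_lit 6) (nat_lit 633) (nat_lit 1) (nat_lit 277) (nat_lit 250) (nat_lit 253)) (PT.lf (nat_lit 46664) (nat_lit 6) (nat_lit 614) (nat_lit 1) (nat_lit 278) (nat_lit 250) (nat_lit 252))) (PT.nd (nat_lit 78) (PT.lf (nat_lit 45144) (nat_lit 6) (nat_lit 594) (nat_lit 1) (nat_lit 279) (nat_lit 250) (nat_lit 251)) (PT.lf (nat_lit 43548) (nat_lit 3) (nat_lit 573) (nat_lit 0) (nat_lit 280) (nat_lit 250) (nat_lit 250))))) (PT.nd (nat_lit 78390) (PT.nd (nat_lit 156) (PT.nd (nat_lit 78) (PT.lf (nat_lit 41952) (nat_lit 6) (nat_lit 552) (nat_lit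 0) (nat_lit 281) (nat_lit 250) (nat_lit 249)) (PT.lf (nat_lit 40280) (nat_lit 6) (nat_lit 530) (nat_lit 0) (nat_lit 282) (nat_lit 250) (nat_lit 248))) (PT.nd (nat_lit 78) (PT.lf (nat_lit 38532) (nat_lit 6) (nat_lit 507) (nat_lit 0) (nat_lit 283) (nat_lit 250) (nat_lit 247)) (PT.lf (nat_lit 36708) (nat_lit 6) (nat_lit 483) (nat_lit 0) (nat_lit 284) (nat_lit 250) (nat_lit 246)))) (PT.nd (nat_lit 156) (PT.nd (nat_lit 78) (PT.lf (nat_lit 36784) (nat_lit 6) (nat_lit 484) (nat_lit 5) (nat_lit 245) (nat_lit 251) (nat_lit 284)) (PT.lf (nat_lit 38608) (nat_lit 6) (nat_lit 508) (nat_lit 5) (nat_lit 246) (nat_lit 251) (nat_lit 283))) (PT.nd (nat_lit 78) (PT.lf (nat_lit 40356) (nat_lit 6) (nat_lit 531) (nat_lit 5) (nat_lit 247) (nat_lit 251) (nat_lit 282)) (PT.lf (nat_lit 42028) (nat_lit 6) (nat_lit 553) (nat_lit 5) (nat_lit 248) (nat_lit 251) (nat_lit 281))))))) (PT.nd (nat_lit 1248) (PT.nd (nat_lit 624) (PT.nd (nat_lit 312) (PT.nd (nat_lit 156) (PT.nd (nat_lit 78) (PT.lf (nat_lit 43624) (nat_lit 6) (nat_lit 574) (nat_lit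 5) (nat_lit 249) (nat_lit 251) (nat_lit 280)) (PT.lf (nat_lit 45144) (nat_lit 6) (nat_lit 594) (nat_lit 5) (nat_lit 250) (nat_lit 251) (nat_lit 279))) (PT.nd (nat_lit 78) (PT.lf (nat_lit 46588) (nat_lit 3) (nat_lit 613) (nat_lit 3) (nat_lit 251) (nat_lit 251) (nat_lit 278)) (PT.lf (nat_lit 48032) (nat_lit 6) (nat_lit 632) (nat_lit 3) (nat_lit 252) (nat_lit 251) (nat_lit 277)))) (PT.nd (nat_lit 156) (PT.nd (nat_lit 78) (PT.lf (nat_lit 49400) (nat_lit 6) (nat_lit 650) (nat_lit 3) (nat_lit 253) (nat_lit 251) (nat_lit 276)) (PT.lf (nat_lit 50692) (nat_lit 6) (nat_lit 667) (nat_lit 3) (nat_lit 254) (nat_lit 251) (nat_lit 275))) (PT.nd (nat_lit 78) (PT.lf (nat_lit 51908) (nat_lit 6) (nat_lit 683) (nat_lit 3) (nat_lit 255) (nat_lit 251) (nat_lit 274)) (PT.lf (nat_lit 53048) (nat_lit 6) (nat_lit 698) (nat_lit 3) (nat_lit 256) (nat_lit 251) (nat_lit 273))))) (PT.nd (nat_lit 312) (PT.nd (nat_lit 156) (PT.nd (nat_lit 78) (PT.lf (nat_lit 54112) (nat_lit 6) (nat_lit 712) (nat_lit 3) (nat_lit 257) (nat_lit 251) (nat_lit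 272)) (PT.lf (nat_lit 55100) (nat_lit 6) (nat_lit 725) (nat_lit 3) (nat_lit 258) (nat_lit 251) (nat_lit 271))) (PT.nd (nat_lit 78) (PT.lf (nat_lit 56012) (nat_lit 6) (nat_lit 737) (nat_lit 3) (nat_lit 259) (nat_lit 251) (nat_lit 270)) (PT.lf (nat_lit 56848) (nat_lit 6) (nat_lit 748) (nat_lit 3) (nat_lit 260) (nat_lit 251) (nat_lit 269)))) (PT.nd (nat_lit 156) (PT.nd (nat_lit 78) (PT.lf (nat_lit 56924) (nat_lit 6) (nat_lit 749) (nat_lit 3) (nat_lit 261) (nat_lit 251) (nat_lit 268)) (PT.lf (nat_lit 57000) (nat_lit 6) (nat_lit 750) (nat_lit 3) (nat_lit 262) (nat_lit 251) (nat_lit 267))) (PT.nd (nat_lit 78) (PT.lf (nat_lit 57076) (nat_lit 6) (nat_lit 751) (nat_lit 3) (nat_lit 263) (nat_lit 251) (nat_lit 266)) (PT.lf (nat_lit 57152) (nat_lit 6) (nat_lit 752) (nat_lit 3) (nat_lit 264) (nat_lit 251) (nat_lit 265)))))) (PT.nd (nat_lit 624) (PT.nd (nat_lit 312) (PT.nd (nat_lit 156) (PT.nd (nat_lit 78) (PT.lf (nat_lit 57152) (nat_lit 6) (nat_lit 752) (nat_lit 1) (nat_lit 265) (nat_lit 251) (nat_lit 264)) (PT.lf (nat_lit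 57076) (nat_lit 6) (nat_lit 751) (nat_lit 1) (nat_lit 266) (nat_lit 251) (nat_lit 263))) (PT.nd (nat_lit 78) (PT.lf (nat_lit 57000) (nat_lit 6) (nat_lit 750) (nat_lit 1) (nat_lit 267) (nat_lit 251) (nat_lit 262)) (PT.lf (nat_lit 56924) (nat_lit 6) (nat_lit 749) (nat_lit 1) (nat_lit 268) (nat_lit 251) (nat_lit 261)))) (PT.nd (nat_lit 156) (PT.nd (nat_lit 78) (PT.lf (nat_lit 56848) (nat_lit 6) (nat_lit 748) (nat_lit 1) (nat_lit 269) (nat_lit 251) (nat_lit 260)) (PT.lf (nat_lit 56012) (nat_lit 6) (nat_lit 737) (nat_lit 1) (nat_lit 270) (nat_lit 251) (nat_lit 259))) (PT.nd (nat_lit 78) (PT.lf (nat_lit 55100) (nat_lit 6) (nat_lit 725) (nat_lit 1) (nat_lit 271) (nat_lit 251) (nat_lit 258)) (PT.lf (nat_lit 54112) (nat_lit 6) (nat_lit 712) (nat_lit 1) (nat_lit 272) (nat_lit 251) (nat_lit 257))))) (PT.nd (nat_lit 312) (PT.nd (nat_lit 156) (PT.nd (nat_lit 78) (PT.lf (nat_lit 53048) (nat_lit 6) (nat_lit 698) (nat_lit 1) (nat_lit 273) (nat_lit 251) (nat_lit 256)) (PT.lf (nat_lit 51908) (nat_lit 6) (nat_lit 683) (nat_lit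 1) (nat_lit 274) (nat_lit 251) (nat_lit 255))) (PT.nd (nat_lit 78) (PT.lf (nat_lit 50692) (nat_lit 6) (nat_lit 667) (nat_lit 1) (nat_lit 275) (nat_lit 251) (nat_lit 254)) (PT.lf (nat_lit 49400) (nat_lit 6) (nat_lit 650) (nat_lit 1) (nat_lit 276) (nat_lit 251) (nat_lit 253)))) (PT.nd (nat_lit 156) (PT.nd (nat_lit 78) (PT.lf (nat_lit 48032) (nat_lit 6) (nat_lit 632) (nat_lit 1) (nat_lit 277) (nat_lit 251) (nat_lit 252)) (PT.lf (nat_lit 46588) (nat_lit 3) (nat_lit 613) (nat_lit 0) (nat_lit 278) (nat_lit 251) (nat_lit 251))) (PT.nd (nat_lit 78) (PT.lf (nat_lit 45144) (nat_lit 6) (nat_lit 594) (nat_lit 0) (nat_lit 279) (nat_lit 251) (nat_lit 250)) (PT.lf (nat_lit 43624) (nat_lit 6) (nat_lit 574) (nat_lit 0) (nat_lit 280) (nat_lit 251) (nat_lit 249))))))))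
noncomputable def pc20 : PT := (PT.nd (nat_lit 80418) (PT.nd (nat_lit 79170) (PT.nd (nat_lit 78546) (PT.nd (nat_lit 234) (PT.nd (nat_lit 78) (PT.lf (nat_lit 42028) (nat_lit 6) (nat_lit 553) (nat_lit 0) (nat_lit 281) (nat_lit 251) (nat_lit 248)) (PT.nd (nat_lit 78) (PT.lf (nat_lit 40356) (nat_lit 6) (nat_lit 531) (nat_lit 0) (nat_lit 282) (nat_lit 251) (nat_lit 247)) (PT.lf (nat_lit 38608) (nat_lit 6) (nat_lit 508) (nat_lit 0) (nat_lit 283) (nat_lit 251) (nat_lit 246)))) (PT.nd (nat_lit 78156) (PT.nd (nat_lit 78078) (PT.lf (nat_lit 36784) (nat_lit 6) (nat_lit 484) (nat_lit 0) (nat_lit 284) (nat_lit 251) (nat_lit 245)) (PT.lf (nat_lit 36860) (nat_lit 6) (nat_lit 485) (nat_lit 5) (nat_lit 244) (nat_lit 252) (nat_lit 284))) (PT.nd (nat_lit 78) (PT.lf (nat_lit 38684) (nat_lit 6) (nat_lit 509) (nat_lit 5) (nat_lit 245) (nat_lit 252) (nat_lit 283)) (PT.lf (nat_lit 40432) (nat_lit 6) (nat_lit 532) (nat_lit 5) (nat_lit 246) (nat_lit 252) (nat_lit 282))))) (PT.nd (nat_lit 312) (PT.nd (nat_lit 156) (PT.nd (nat_lit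 78) (PT.lf (nat_lit 42104) (nat_lit 6) (nat_lit 554) (nat_lit 5) (nat_lit 247) (nat_lit 252) (nat_lit 281)) (PT.lf (nat_lit 43700) (nat_lit 6) (nat_lit 575) (nat_lit 5) (nat_lit 248) (nat_lit 252) (nat_lit 280))) (PT.nd (nat_lit 78) (PT.lf (nat_lit 45220) (nat_lit 6) (nat_lit 595) (nat_lit 5) (nat_lit 249) (nat_lit 252) (nat_lit 279)) (PT.lf (nat_lit 46664) (nat_lit 6) (nat_lit 614) (nat_lit 5) (nat_lit 250) (nat_lit 252) (nat_lit 278)))) (PT.nd (nat_lit 156) (PT.nd (nat_lit 78) (PT.lf (nat_lit 48032) (nat_lit 6) (nat_lit 632) (nat_lit 5) (nat_lit 251) (nat_lit 252) (nat_lit 277)) (PT.lf (nat_lit 49324) (nat_lit 3) (nat_lit 649) (nat_lit 3) (nat_lit 252) (nat_lit 252) (nat_lit 276))) (PT.nd (nat_lit 78) (PT.lf (nat_lit 50616) (nat_lit 6) (nat_lit 666) (nat_lit 3) (nat_lit 253) (nat_lit 252) (nat_lit 275)) (PT.lf (nat_lit 51832) (nat_lit 6) (nat_lit 682) (nat_lit 3) (nat_lit 254) (nat_lit 252) (nat_lit 274)))))) (PT.nd (nat_lit 624) (PT.nd (nat_lit 312) (PT.nd (nat_lit 156) (PT.nd (nat_lit 78) (PT.lf (nat_lit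 52972) (nat_lit 6) (nat_lit 697) (nat_lit 3) (nat_lit 255) (nat_lit 252) (nat_lit 273)) (PT.lf (nat_lit 54036) (nat_lit 6) (nat_lit 711) (nat_lit 3) (nat_lit 256) (nat_lit 252) (nat_lit 272))) (PT.nd (nat_lit 78) (PT.lf (nat_lit 55024) (nat_lit 6) (nat_lit 724) (nat_lit 3) (nat_lit 257) (nat_lit 252) (nat_lit 271)) (PT.lf (nat_lit 55936) (nat_lit 6) (nat_lit 736) (nat_lit 3) (nat_lit 258) (nat_lit 252) (nat_lit 270)))) (PT.nd (nat_lit 156) (PT.nd (nat_lit 78) (PT.lf (nat_lit 56772) (nat_lit 6) (nat_lit 747) (nat_lit 3) (nat_lit 259) (nat_lit 252) (nat_lit 269)) (PT.lf (nat_lit 57532) (nat_lit 6) (nat_lit 757) (nat_lit 3) (nat_lit 260) (nat_lit 252) (nat_lit 268))) (PT.nd (nat_lit 78) (PT.lf (nat_lit 57608) (nat_lit 6) (nat_lit 758) (nat_lit 3) (nat_lit 261) (nat_lit 252) (nat_lit 267)) (PT.lf (nat_lit 57684) (nat_lit 6) (nat_lit 759) (nat_lit 3) (nat_lit 262) (nat_lit 252) (nat_lit 266))))) (PT.nd (nat_lit 312) (PT.nd (nat_lit 156) (PT.nd (nat_lit 78) (PT.lf (nat_lit 57760) (nat_lit 6) (nat_lit 760) (nat_lit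 3) (nat_lit 263) (nat_lit 252) (nat_lit 265)) (PT.lf (nat_lit 57836) (nat_lit 3) (nat_lit 761) (nat_lit 1) (nat_lit 264) (nat_lit 252) (nat_lit 264))) (PT.nd (nat_lit 78) (PT.lf (nat_lit 57760) (nat_lit 6) (nat_lit 760) (nat_lit 1) (nat_lit 265) (nat_lit 252) (nat_lit 263)) (PT.lf (nat_lit 57684) (nat_lit 6) (nat_lit 759) (nat_lit 1) (nat_lit 266) (nat_lit 252) (nat_lit 262)))) (PT.nd (nat_lit 156) (PT.nd (nat_lit 78) (PT.lf (nat_lit 57608) (nat_lit 6) (nat_lit 758) (nat_lit 1) (nat_lit 267) (nat_lit 252) (nat_lit 261)) (PT.lf (nat_lit 57532) (nat_lit 6) (nat_lit 757) (nat_lit 1) (nat_lit 268) (nat_lit 252) (nat_lit 260))) (PT.nd (nat_lit 78) (PT.lf (nat_lit 56772) (nat_lit 6) (nat_lit 747) (nat_lit 1) (nat_lit 269) (nat_lit 252) (nat_lit 259)) (PT.lf (nat_lit 55936) (nat_lit 6) (nat_lit 736) (nat_lit 1) (nat_lit 270) (nat_lit 252) (nat_lit 258))))))) (PT.nd (nat_lit 79092) (PT.nd (nat_lit 546) (PT.nd (nat_lit 234) (PT.nd (nat_lit 78) (PT.lf (nat_lit 55024) (nat_lit 6) (nat_lit 724) (nat_lit 1) (nat_lit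 271) (nat_lit 252) (nat_lit 257)) (PT.nd (nat_lit 78) (PT.lf (nat_lit 54036) (nat_lit 6) (nat_lit 711) (nat_lit 1) (nat_lit 272) (nat_lit 252) (nat_lit 256)) (PT.lf (nat_lit 52972) (nat_lit 6) (nat_lit 697) (nat_lit 1) (nat_lit 273) (nat_lit 252) (nat_lit 255)))) (PT.nd (nat_lit 156) (PT.nd (nat_lit 78) (PT.lf (nat_lit 51832) (nat_lit 6) (nat_lit 682) (nat_lit 1) (nat_lit 274) (nat_lit 252) (nat_lit 254)) (PT.lf (nat_lit 50616) (nat_lit 6) (nat_lit 666) (nat_lit 1) (nat_lit 275) (nat_lit 252) (nat_lit 253))) (PT.nd (nat_lit 78) (PT.lf (nat_lit 49324) (nat_lit 3) (nat_lit 649) (nat_lit 0) (nat_lit 276) (nat_lit 252) (nat_lit 252)) (PT.lf (nat_lit 48032) (nat_lit 6) (nat_lit 632) (nat_lit 0) (nat_lit 277) (nat_lit 252) (nat_lit 251))))) (PT.nd (nat_lit 312) (PT.nd (nat_lit 156) (PT.nd (nat_lit 78) (PT.lf (nat_lit 46664) (nat_lit 6) (nat_lit 614) (nat_lit 0) (nat_lit 278) (nat_lit 252) (nat_lit 250)) (PT.lf (nat_lit 45220) (nat_lit 6) (nat_lit 595) (nat_lit 0) (nat_lit 279) (nat_lit 252) (nat_lit 249))) (PT.nd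 (nat_lit 78) (PT.lf (nat_lit 43700) (nat_lit 6) (nat_lit 575) (nat_lit 0) (nat_lit 280) (nat_lit 252) (nat_lit 248)) (PT.lf (nat_lit 42104) (nat_lit 6) (nat_lit 554) (nat_lit 0) (nat_lit 281) (nat_lit 252) (nat_lit 247)))) (PT.nd (nat_lit 156) (PT.nd (nat_lit 78) (PT.lf (nat_lit 40432) (nat_lit 6) (nat_lit 532) (nat_lit 0) (nat_lit 282) (nat_lit 252) (nat_lit 246)) (PT.lf (nat_lit 38684) (nat_lit 6) (nat_lit 509) (nat_lit 0) (nat_lit 283) (nat_lit 252) (nat_lit 245))) (PT.nd (nat_lit 78000) (PT.lf (nat_lit 36860) (nat_lit 6) (nat_lit 485) (nat_lit 0) (nat_lit 284) (nat_lit 252) (nat_lit 244)) (PT.lf (nat_lit 36936) (nat_lit 6) (nat_lit 486) (nat_lit 5) (nat_lit 243) (nat_lit 253) (nat_lit 284)))))) (PT.nd (nat_lit 624) (PT.nd (nat_lit 312) (PT.nd (nat_lit 156) (PT.nd (nat_lit 78) (PT.lf (nat_lit 38760) (nat_lit 6) (nat_lit 510) (nat_lit 5) (nat_lit 244) (nat_lit 253) (nat_lit 283)) (PT.lf (nat_lit 40508) (nat_lit 6) (nat_lit 533) (nat_lit 5) (nat_lit 245) (nat_lit 253) (nat_lit 282))) (PT.nd (nat_lit 78)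 (PT.lf (nat_lit 42180) (nat_lit 6) (nat_lit 555) (nat_lit 5) (nat_lit 246) (nat_lit 253) (nat_lit 281)) (PT.lf (nat_lit 43776) (nat_lit 6) (nat_lit 576) (nat_lit 5) (nat_lit 247) (nat_lit 253) (nat_lit 280)))) (PT.nd (nat_lit 156) (PT.nd (nat_lit 78) (PT.lf (nat_lit 45296) (nat_lit 6) (nat_lit 596) (nat_lit 5) (nat_lit 248) (nat_lit 253) (nat_lit 279)) (PT.lf (nat_lit 46740) (nat_lit 6) (nat_lit 615) (nat_lit 5) (nat_lit 249) (nat_lit 253) (nat_lit 278))) (PT.nd (nat_lit 78) (PT.lf (nat_lit 48108) (nat_lit 6) (nat_lit 633) (nat_lit 5) (nat_lit 250) (nat_lit 253) (nat_lit 277)) (PT.lf (nat_lit 49400) (nat_lit 6) (nat_lit 650) (nat_lit 5) (nat_lit 251) (nat_lit 253) (nat_lit 276))))) (PT.nd (nat_lit 312) (PT.nd (nat_lit 156) (PT.nd (nat_lit 78) (PT.lf (nat_lit 50616) (nat_lit 6) (nat_lit 666) (nat_lit 5) (nat_lit 252) (nat_lit 253) (nat_lit 275)) (PT.lf (nat_lit 51756) (nat_lit 3) (nat_lit 681) (nat_lit 3) (nat_lit 253) (nat_lit 253) (nat_lit 274))) (PT.nd (nat_lit 78) (PT.lf (nat_lit 52896) (nat_lit 6) (nat_lit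 696) (nat_lit 3) (nat_lit 254) (nat_lit 253) (nat_lit 273)) (PT.lf (nat_lit 53960) (nat_lit 6) (nat_lit 710) (nat_lit 3) (nat_lit 255) (nat_lit 253) (nat_lit 272)))) (PT.nd (nat_lit 156) (PT.nd (nat_lit 78) (PT.lf (nat_lit 54948) (nat_lit 6) (nat_lit 723) (nat_lit 3) (nat_lit 256) (nat_lit 253) (nat_lit 271)) (PT.lf (nat_lit 55860) (nat_lit 6) (nat_lit 735) (nat_lit 3) (nat_lit 257) (nat_lit 253) (nat_lit 270))) (PT.nd (nat_lit 78) (PT.lf (nat_lit 56696) (nat_lit 6) (nat_lit 746) (nat_lit 3) (nat_lit 258) (nat_lit 253) (nat_lit 269)) (PT.lf (nat_lit 57456) (nat_lit 6) (nat_lit 756) (nat_lit 3) (nat_lit 259) (nat_lit 253) (nat_lit 268))))))))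
noncomputable def pc21 : PT := (PT.nd (nat_lit 80262) (PT.nd (nat_lit 1170) (PT.nd (nat_lit 546) (PT.nd (nat_lit 234) (PT.nd (nat_lit 78) (PT.lf (nat_lit 58140) (nat_lit 6) (nat_lit 765) (nat_lit 3) (nat_lit 260) (nat_lit 253) (nat_lit 267)) (PT.nd (nat_lit 78) (PT.lf (nat_lit 58216) (nat_lit 6) (nat_lit 766) (nat_lit 3) (nat_lit 261) (nat_lit 253) (nat_lit 266)) (PT.lf (nat_lit 58292) (nat_lit 6) (nat_lit 767) (nat_lit 3) (nat_lit 262) (nat_lit 253) (nat_lit 265)))) (PT.nd (nat_lit 156) (PT.nd (nat_lit 78) (PT.lf (nat_lit 58368) (nat_lit 6) (nat_lit 768) (nat_lit 3) (nat_lit 263) (nat_lit 253) (nat_lit 264)) (PT.lf (nat_lit 58368) (nat_lit 6) (nat_lit 768) (nat_lit 1) (nat_lit 264) (nat_lit 253) (nat_lit 263))) (PT.nd (nat_lit 78) (PT.lf (nat_lit 58292) (nat_lit 6) (nat_lit 767) (nat_lit 1) (nat_lit 265) (nat_lit 253) (nat_lit 262)) (PT.lf (nat_lit 58216) (nat_lit 6) (nat_lit 766) (nat_lit 1) (nat_lit 266) (nat_lit 253) (nat_lit 261))))) (PT.nd (nat_lit 312) (PT.nd (nat_lit 156) (PT.nd (nat_lit 78) (PT.lf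 (nat_lit 58140) (nat_lit 6) (nat_lit 765) (nat_lit 1) (nat_lit 267) (nat_lit 253) (nat_lit 260)) (PT.lf (nat_lit 57456) (nat_lit 6) (nat_lit 756) (nat_lit 1) (nat_lit 268) (nat_lit 253) (nat_lit 259))) (PT.nd (nat_lit 78) (PT.lf (nat_lit 56696) (nat_lit 6) (nat_lit 746) (nat_lit 1) (nat_lit 269) (nat_lit 253) (nat_lit 258)) (PT.lf (nat_lit 55860) (nat_lit 6) (nat_lit 735) (nat_lit 1) (nat_lit 270) (nat_lit 253) (nat_lit 257)))) (PT.nd (nat_lit 156) (PT.nd (nat_lit 78) (PT.lf (nat_lit 54948) (nat_lit 6) (nat_lit 723) (nat_lit 1) (nat_lit 271) (nat_lit 253) (nat_lit 256)) (PT.lf (nat_lit 53960) (nat_lit 6) (nat_lit 710) (nat_lit 1) (nat_lit 272) (nat_lit 253) (nat_lit 255))) (PT.nd (nat_lit 78) (PT.lf (nat_lit 52896) (nat_lit 6) (nat_lit 696) (nat_lit 1) (nat_lit 273) (nat_lit 253) (nat_lit 254)) (PT.lf (nat_lit 51756) (nat_lit 3) (nat_lit 681) (nat_lit 0) (nat_lit 274) (nat_lit 253) (nat_lit 253)))))) (PT.nd (nat_lit 624) (PT.nd (nat_lit 312) (PT.nd (nat_lit 156) (PT.nd (nat_lit 78) (PT.lf (nat_lit 50616)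 (nat_lit 6) (nat_lit 666) (nat_lit 0) (nat_lit 275) (nat_lit 253) (nat_lit 252)) (PT.lf (nat_lit 49400) (nat_lit 6) (nat_lit 650) (nat_lit 0) (nat_lit 276) (nat_lit 253) (nat_lit 251))) (PT.nd (nat_lit 78) (PT.lf (nat_lit 48108) (nat_lit 6) (nat_lit 633) (nat_lit 0) (nat_lit 277) (nat_lit 253) (nat_lit 250)) (PT.lf (nat_lit 46740) (nat_lit 6) (nat_lit 615) (nat_lit 0) (nat_lit 278) (nat_lit 253) (nat_lit 249)))) (PT.nd (nat_lit 156) (PT.nd (nat_lit 78) (PT.lf (nat_lit 45296) (nat_lit 6) (nat_lit 596) (nat_lit 0) (nat_lit 279) (nat_lit 253) (nat_lit 248)) (PT.lf (nat_lit 43776) (nat_lit 6) (nat_lit 576) (nat_lit 0) (nat_lit 280) (nat_lit 253) (nat_lit 247))) (PT.nd (nat_lit 78) (PT.lf (nat_lit 42180) (nat_lit 6) (nat_lit 555) (nat_lit 0) (nat_lit 281) (nat_lit 253) (nat_lit 246)) (PT.lf (nat_lit 40508) (nat_lit 6) (nat_lit 533) (nat_lit 0) (nat_lit 282) (nat_lit 253) (nat_lit 245))))) (PT.nd (nat_lit 78156) (PT.nd (nat_lit 78000) (PT.nd (nat_lit 78) (PT.lf (nat_lit 38760) (nat_lit 6) (nat_lit 510) (nat_lit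 0) (nat_lit 283) (nat_lit 253) (nat_lit 244)) (PT.lf (nat_lit 36936) (nat_lit 6) (nat_lit 486) (nat_lit 0) (nat_lit 284) (nat_lit 253) (nat_lit 243))) (PT.nd (nat_lit 78) (PT.lf (nat_lit 37012) (nat_lit 6) (nat_lit 487) (nat_lit 5) (nat_lit 242) (nat_lit 254) (nat_lit 284)) (PT.lf (nat_lit 38836) (nat_lit 6) (nat_lit 511) (nat_lit 5) (nat_lit 243) (nat_lit 254) (nat_lit 283)))) (PT.nd (nat_lit 156) (PT.nd (nat_lit 78) (PT.lf (nat_lit 40584) (nat_lit 6) (nat_lit 534) (nat_lit 5) (nat_lit 244) (nat_lit 254) (nat_lit 282)) (PT.lf (nat_lit 42256) (nat_lit 6) (nat_lit 556) (nat_lit 5) (nat_lit 245) (nat_lit 254) (nat_lit 281))) (PT.nd (nat_lit 78) (PT.lf (nat_lit 43852) (nat_lit 6) (nat_lit 577) (nat_lit 5) (nat_lit 246) (nat_lit 254) (nat_lit 280)) (PT.lf (nat_lit 45372) (nat_lit 6) (nat_lit 597) (nat_lit 5) (nat_lit 247) (nat_lit 254) (nat_lit 279))))))) (PT.nd (nat_lit 1248) (PT.nd (nat_lit 624) (PT.nd (nat_lit 312) (PT.nd (nat_lit 156) (PT.nd (nat_lit 78) (PT.lf (nat_lit 46816) (nat_lit 6) (nat_lit 616) (nat_lit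 5) (nat_lit 248) (nat_lit 254) (nat_lit 278)) (PT.lf (nat_lit 48184) (nat_lit 6) (nat_lit 634) (nat_lit 5) (nat_lit 249) (nat_lit 254) (nat_lit 277))) (PT.nd (nat_lit 78) (PT.lf (nat_lit 49476) (nat_lit 6) (nat_lit 651) (nat_lit 5) (nat_lit 250) (nat_lit 254) (nat_lit 276)) (PT.lf (nat_lit 50692) (nat_lit 6) (nat_lit 667) (nat_lit 5) (nat_lit 251) (nat_lit 254) (nat_lit 275)))) (PT.nd (nat_lit 156) (PT.nd (nat_lit 78) (PT.lf (nat_lit 51832) (nat_lit 6) (nat_lit 682) (nat_lit 5) (nat_lit 252) (nat_lit 254) (nat_lit 274)) (PT.lf (nat_lit 52896) (nat_lit 6) (nat_lit 696) (nat_lit 5) (nat_lit 253) (nat_lit 254) (nat_lit 273))) (PT.nd (nat_lit 78) (PT.lf (nat_lit 53884) (nat_lit 3) (nat_lit 709) (nat_lit 3) (nat_lit 254) (nat_lit 254) (nat_lit 272)) (PT.lf (nat_lit 54872) (nat_lit 6) (nat_lit 722) (nat_lit 3) (nat_lit 255) (nat_lit 254) (nat_lit 271))))) (PT.nd (nat_lit 312) (PT.nd (nat_lit 156) (PT.nd (nat_lit 78) (PT.lf (nat_lit 55784) (nat_lit 6) (nat_lit 734) (nat_lit 3) (nat_lit 256) (nat_lit 254) (nat_lit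 270)) (PT.lf (nat_lit 56620) (nat_lit 6) (nat_lit 745) (nat_lit 3) (nat_lit 257) (nat_lit 254) (nat_lit 269))) (PT.nd (nat_lit 78) (PT.lf (nat_lit 57380) (nat_lit 6) (nat_lit 755) (nat_lit 3) (nat_lit 258) (nat_lit 254) (nat_lit 268)) (PT.lf (nat_lit 58064) (nat_lit 6) (nat_lit 764) (nat_lit 3) (nat_lit 259) (nat_lit 254) (nat_lit 267)))) (PT.nd (nat_lit 156) (PT.nd (nat_lit 78) (PT.lf (nat_lit 58672) (nat_lit 6) (nat_lit 772) (nat_lit 3) (nat_lit 260) (nat_lit 254) (nat_lit 266)) (PT.lf (nat_lit 58748) (nat_lit 6) (nat_lit 773) (nat_lit 3) (nat_lit 261) (nat_lit 254) (nat_lit 265))) (PT.nd (nat_lit 78) (PT.lf (nat_lit 58824) (nat_lit 6) (nat_lit 774) (nat_lit 3) (nat_lit 262) (nat_lit 254) (nat_lit 264)) (PT.lf (nat_lit 58900) (nat_lit 3) (nat_lit 775) (nat_lit 1) (nat_lit 263) (nat_lit 254) (nat_lit 263)))))) (PT.nd (nat_lit 624) (PT.nd (nat_lit 312) (PT.nd (nat_lit 156) (PT.nd (nat_lit 78) (PT.lf (nat_lit 58824) (nat_lit 6) (nat_lit 774) (nat_lit 1) (nat_lit 264) (nat_lit 254) (nat_lit 262)) (PT.lf (nat_lit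 58748) (nat_lit 6) (nat_lit 773) (nat_lit 1) (nat_lit 265) (nat_lit 254) (nat_lit 261))) (PT.nd (nat_lit 78) (PT.lf (nat_lit 58672) (nat_lit 6) (nat_lit 772) (nat_lit 1) (nat_lit 266) (nat_lit 254) (nat_lit 260)) (PT.lf (nat_lit 58064) (nat_lit 6) (nat_lit 764) (nat_lit 1) (nat_lit 267) (nat_lit 254) (nat_lit 259)))) (PT.nd (nat_lit 156) (PT.nd (nat_lit 78) (PT.lf (nat_lit 57380) (nat_lit 6) (nat_lit 755) (nat_lit 1) (nat_lit 268) (nat_lit 254) (nat_lit 258)) (PT.lf (nat_lit 56620) (nat_lit 6) (nat_lit 745) (nat_lit 1) (nat_lit 269) (nat_lit 254) (nat_lit 257))) (PT.nd (nat_lit 78) (PT.lf (nat_lit 55784) (nat_lit 6) (nat_lit 734) (nat_lit 1) (nat_lit 270) (nat_lit 254) (nat_lit 256)) (PT.lf (nat_lit 54872) (nat_lit 6) (nat_lit 722) (nat_lit 1) (nat_lit 271) (nat_lit 254) (nat_lit 255))))) (PT.nd (nat_lit 312) (PT.nd (nat_lit 156) (PT.nd (nat_lit 78) (PT.lf (nat_lit 53884) (nat_lit 3) (nat_lit 709) (nat_lit 0) (nat_lit 272) (nat_lit 254) (nat_lit 254)) (PT.lf (nat_lit 52896) (nat_lit 6) (nat_lit 696) (nat_lit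 0) (nat_lit 273) (nat_lit 254) (nat_lit 253))) (PT.nd (nat_lit 78) (PT.lf (nat_lit 51832) (nat_lit 6) (nat_lit 682) (nat_lit 0) (nat_lit 274) (nat_lit 254) (nat_lit 252)) (PT.lf (nat_lit 50692) (nat_lit 6) (nat_lit 667) (nat_lit 0) (nat_lit 275) (nat_lit 254) (nat_lit 251)))) (PT.nd (nat_lit 156) (PT.nd (nat_lit 78) (PT.lf (nat_lit 49476) (nat_lit 6) (nat_lit 651) (nat_lit 0) (nat_lit 276) (nat_lit 254) (nat_lit 250)) (PT.lf (nat_lit 48184) (nat_lit 6) (nat_lit 634) (nat_lit 0) (nat_lit 277) (nat_lit 254) (nat_lit 249))) (PT.nd (nat_lit 78) (PT.lf (nat_lit 46816) (nat_lit 6) (nat_lit 616) (nat_lit 0) (nat_lit 278) (nat_lit 254) (nat_lit 248)) (PT.lf (nat_lit 45372) (nat_lit 6) (nat_lit 597) (nat_lit 0) (nat_lit 279) (nat_lit 254) (nat_lit 247))))))))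
noncomputable def pc22 : PT := (PT.nd (nat_lit 80184) (PT.nd (nat_lit 78936) (PT.nd (nat_lit 78312) (PT.nd (nat_lit 234) (PT.nd (nat_lit 78) (PT.lf (nat_lit 43852) (nat_lit 6) (nat_lit 577) (nat_lit 0) (nat_lit 280) (nat_lit 254) (nat_lit 246)) (PT.nd (nat_lit 78) (PT.lf (nat_lit 42256) (nat_lit 6) (nat_lit 556) (nat_lit 0) (nat_lit 281) (nat_lit 254) (nat_lit 245)) (PT.lf (nat_lit 40584) (nat_lit 6) (nat_lit 534) (nat_lit 0) (nat_lit 282) (nat_lit 254) (nat_lit 244)))) (PT.nd (nat_lit 77922) (PT.nd (nat_lit 78) (PT.lf (nat_lit 38836) (nat_lit 6) (nat_lit 511) (nat_lit 0) (nat_lit 283) (nat_lit 254) (nat_lit 243)) (PT.lf (nat_lit 37012) (nat_lit 6) (nat_lit 487) (nat_lit 0) (nat_lit 284) (nat_lit 254) (nat_lit 242))) (PT.nd (nat_lit 78) (PT.lf (nat_lit 37088) (nat_lit 6) (nat_lit 488) (nat_lit 5) (nat_lit 241) (nat_lit 255) (nat_lit 284)) (PT.lf (nat_lit 38912) (nat_lit 6) (nat_lit 512) (nat_lit 5) (nat_lit 242) (nat_lit 255) (nat_lit 283))))) (PT.nd (nat_lit 312) (PT.nd (nat_lit 156) (PT.nd (nat_lit 78)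 (PT.lf (nat_lit 40660) (nat_lit 6) (nat_lit 535) (nat_lit 5) (nat_lit 243) (nat_lit 255) (nat_lit 282)) (PT.lf (nat_lit 42332) (nat_lit 6) (nat_lit 557) (nat_lit 5) (nat_lit 244) (nat_lit 255) (nat_lit 281))) (PT.nd (nat_lit 78) (PT.lf (nat_lit 43928) (nat_lit 6) (nat_lit 578) (nat_lit 5) (nat_lit 245) (nat_lit 255) (nat_lit 280)) (PT.lf (nat_lit 45448) (nat_lit 6) (nat_lit 598) (nat_lit 5) (nat_lit 246) (nat_lit 255) (nat_lit 279)))) (PT.nd (nat_lit 156) (PT.nd (nat_lit 78) (PT.lf (nat_lit 46892) (nat_lit 6) (nat_lit 617) (nat_lit 5) (nat_lit 247) (nat_lit 255) (nat_lit 278)) (PT.lf (nat_lit 48260) (nat_lit 6) (nat_lit 635) (nat_lit 5) (nat_lit 248) (nat_lit 255) (nat_lit 277))) (PT.nd (nat_lit 78) (PT.lf (nat_lit 49552) (nat_lit 6) (nat_lit 652) (nat_lit 5) (nat_lit 249) (nat_lit 255) (nat_lit 276)) (PT.lf (nat_lit 50768) (nat_lit 6) (nat_lit 668) (nat_lit 5) (nat_lit 250) (nat_lit 255) (nat_lit 275)))))) (PT.nd (nat_lit 624) (PT.nd (nat_lit 312) (PT.nd (nat_lit 156) (PT.nd (nat_lit 78) (PT.lf (nat_lit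 51908) (nat_lit 6) (nat_lit 683) (nat_lit 5) (nat_lit 251) (nat_lit 255) (nat_lit 274)) (PT.lf (nat_lit 52972) (nat_lit 6) (nat_lit 697) (nat_lit 5) (nat_lit 252) (nat_lit 255) (nat_lit 273))) (PT.nd (nat_lit 78) (PT.lf (nat_lit 53960) (nat_lit 6) (nat_lit 710) (nat_lit 5) (nat_lit 253) (nat_lit 255) (nat_lit 272)) (PT.lf (nat_lit 54872) (nat_lit 6) (nat_lit 722) (nat_lit 5) (nat_lit 254) (nat_lit 255) (nat_lit 271)))) (PT.nd (nat_lit 156) (PT.nd (nat_lit 78) (PT.lf (nat_lit 55708) (nat_lit 3) (nat_lit 733) (nat_lit 3) (nat_lit 255) (nat_lit 255) (nat_lit 270)) (PT.lf (nat_lit 56544) (nat_lit 6) (nat_lit 744) (nat_lit 3) (nat_lit 256) (nat_lit 255) (nat_lit 269))) (PT.nd (nat_lit 78) (PT.lf (nat_lit 57304) (nat_lit 6) (nat_lit 754) (nat_lit 3) (nat_lit 257) (nat_lit 255) (nat_lit 268)) (PT.lf (nat_lit 57988) (nat_lit 6) (nat_lit 763) (nat_lit 3) (nat_lit 258) (nat_lit 255) (nat_lit 267))))) (PT.nd (nat_lit 312) (PT.nd (nat_lit 156) (PT.nd (nat_lit 78) (PT.lf (nat_lit 58596) (nat_lit 6) (nat_lit 771) (nat_lit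 3) (nat_lit 259) (nat_lit 255) (nat_lit 266)) (PT.lf (nat_lit 59128) (nat_lit 6) (nat_lit 778) (nat_lit 3) (nat_lit 260) (nat_lit 255) (nat_lit 265))) (PT.nd (nat_lit 78) (PT.lf (nat_lit 59204) (nat_lit 6) (nat_lit 779) (nat_lit 3) (nat_lit 261) (nat_lit 255) (nat_lit 264)) (PT.lf (nat_lit 59280) (nat_lit 6) (nat_lit 780) (nat_lit 3) (nat_lit 262) (nat_lit 255) (nat_lit 263)))) (PT.nd (nat_lit 156) (PT.nd (nat_lit 78) (PT.lf (nat_lit 59280) (nat_lit 6) (nat_lit 780) (nat_lit 1) (nat_lit 263) (nat_lit 255) (nat_lit 262)) (PT.lf (nat_lit 59204) (nat_lit 6) (nat_lit 779) (nat_lit 1) (nat_lit 264) (nat_lit 255) (nat_lit 261))) (PT.nd (nat_lit 78) (PT.lf (nat_lit 59128) (nat_lit 6) (nat_lit 778) (nat_lit 1) (nat_lit 265) (nat_lit 255) (nat_lit 260)) (PT.lf (nat_lit 58596) (nat_lit 6) (nat_lit 771) (nat_lit 1) (nat_lit 266) (nat_lit 255) (nat_lit 259))))))) (PT.nd (nat_lit 1248) (PT.nd (nat_lit 624) (PT.nd (nat_lit 312) (PT.nd (nat_lit 156) (PT.nd (nat_lit 78) (PT.lf (nat_lit 57988) (nat_lit 6) (nat_lit 763) (nat_lit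 1) (nat_lit 267) (nat_lit 255) (nat_lit 258)) (PT.lf (nat_lit 57304) (nat_lit 6) (nat_lit 754) (nat_lit 1) (nat_lit 268) (nat_lit 255) (nat_lit 257))) (PT.nd (nat_lit 78) (PT.lf (nat_lit 56544) (nat_lit 6) (nat_lit 744) (nat_lit 1) (nat_lit 269) (nat_lit 255) (nat_lit 256)) (PT.lf (nat_lit 55708) (nat_lit 3) (nat_lit 733) (nat_lit 0) (nat_lit 270) (nat_lit 255) (nat_lit 255)))) (PT.nd (nat_lit 156) (PT.nd (nat_lit 78) (PT.lf (nat_lit 54872) (nat_lit 6) (nat_lit 722) (nat_lit 0) (nat_lit 271) (nat_lit 255) (nat_lit 254)) (PT.lf (nat_lit 53960) (nat_lit 6) (nat_lit 710) (nat_lit 0) (nat_lit 272) (nat_lit 255) (nat_lit 253))) (PT.nd (nat_lit 78) (PT.lf (nat_lit 52972) (nat_lit 6) (nat_lit 697) (nat_lit 0) (nat_lit 273) (nat_lit 255) (nat_lit 252)) (PT.lf (nat_lit 51908) (nat_lit 6) (nat_lit 683) (nat_lit 0) (nat_lit 274) (nat_lit 255) (nat_lit 251))))) (PT.nd (nat_lit 312) (PT.nd (nat_lit 156) (PT.nd (nat_lit 78) (PT.lf (nat_lit 50768) (nat_lit 6) (nat_lit 668) (nat_lit 0) (nat_lit 275) (nat_lit 255) (nat_lit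 250)) (PT.lf (nat_lit 49552) (nat_lit 6) (nat_lit 652) (nat_lit 0) (nat_lit 276) (nat_lit 255) (nat_lit 249))) (PT.nd (nat_lit 78) (PT.lf (nat_lit 48260) (nat_lit 6) (nat_lit 635) (nat_lit 0) (nat_lit 277) (nat_lit 255) (nat_lit 248)) (PT.lf (nat_lit 46892) (nat_lit 6) (nat_lit 617) (nat_lit 0) (nat_lit 278) (nat_lit 255) (nat_lit 247)))) (PT.nd (nat_lit 156) (PT.nd (nat_lit 78) (PT.lf (nat_lit 45448) (nat_lit 6) (nat_lit 598) (nat_lit 0) (nat_lit 279) (nat_lit 255) (nat_lit 246)) (PT.lf (nat_lit 43928) (nat_lit 6) (nat_lit 578) (nat_lit 0) (nat_lit 280) (nat_lit 255) (nat_lit 245))) (PT.nd (nat_lit 78) (PT.lf (nat_lit 42332) (nat_lit 6) (nat_lit 557) (nat_lit 0) (nat_lit 281) (nat_lit 255) (nat_lit 244)) (PT.lf (nat_lit 40660) (nat_lit 6) (nat_lit 535) (nat_lit 0) (nat_lit 282) (nat_lit 255) (nat_lit 243)))))) (PT.nd (nat_lit 78312) (PT.nd (nat_lit 78000) (PT.nd (nat_lit 77844) (PT.nd (nat_lit 78) (PT.lf (nat_lit 38912) (nat_lit 6) (nat_lit 512) (nat_lit 0) (nat_lit 283) (nat_lit 255) (nat_lit 242)) (PT.lf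 (nat_lit 37088) (nat_lit 6) (nat_lit 488) (nat_lit 0) (nat_lit 284) (nat_lit 255) (nat_lit 241))) (PT.nd (nat_lit 78) (PT.lf (nat_lit 37164) (nat_lit 6) (nat_lit 489) (nat_lit 5) (nat_lit 240) (nat_lit 256) (nat_lit 284)) (PT.lf (nat_lit 38988) (nat_lit 6) (nat_lit 513) (nat_lit 5) (nat_lit 241) (nat_lit 256) (nat_lit 283)))) (PT.nd (nat_lit 156) (PT.nd (nat_lit 78) (PT.lf (nat_lit 40736) (nat_lit 6) (nat_lit 536) (nat_lit 5) (nat_lit 242) (nat_lit 256) (nat_lit 282)) (PT.lf (nat_lit 42408) (nat_lit 6) (nat_lit 558) (nat_lit 5) (nat_lit 243) (nat_lit 256) (nat_lit 281))) (PT.nd (nat_lit 78) (PT.lf (nat_lit 44004) (nat_lit 6) (nat_lit 579) (nat_lit 5) (nat_lit 244) (nat_lit 256) (nat_lit 280)) (PT.lf (nat_lit 45524) (nat_lit 6) (nat_lit 599) (nat_lit 5) (nat_lit 245) (nat_lit 256) (nat_lit 279))))) (PT.nd (nat_lit 312) (PT.nd (nat_lit 156) (PT.nd (nat_lit 78) (PT.lf (nat_lit 46968) (nat_lit 6) (nat_lit 618) (nat_lit 5) (nat_lit 246) (nat_lit 256) (nat_lit 278)) (PT.lf (nat_lit 48336) (nat_lit 6) (nat_lit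 636) (nat_lit 5) (nat_lit 247) (nat_lit 256) (nat_lit 277))) (PT.nd (nat_lit 78) (PT.lf (nat_lit 49628) (nat_lit 6) (nat_lit 653) (nat_lit 5) (nat_lit 248) (nat_lit 256) (nat_lit 276)) (PT.lf (nat_lit 50844) (nat_lit 6) (nat_lit 669) (nat_lit 5) (nat_lit 249) (nat_lit 256) (nat_lit 275)))) (PT.nd (nat_lit 156) (PT.nd (nat_lit 78) (PT.lf (nat_lit 51984) (nat_lit 6) (nat_lit 684) (nat_lit 5) (nat_lit 250) (nat_lit 256) (nat_lit 274)) (PT.lf (nat_lit 53048) (nat_lit 6) (nat_lit 698) (nat_lit 5) (nat_lit 251) (nat_lit 256) (nat_lit 273))) (PT.nd (nat_lit 78) (PT.lf (nat_lit 54036) (nat_lit 6) (nat_lit 711) (nat_lit 5) (nat_lit 252) (nat_lit 256) (nat_lit 272)) (PT.lf (nat_lit 54948) (nat_lit 6) (nat_lit 723) (nat_lit 5) (nat_lit 253) (nat_lit 256) (nat_lit 271))))))))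
noncomputable def pc23 : PT := (PT.nd (nat_lit 80028) (PT.nd (nat_lit 1170) (PT.nd (nat_lit 546) (PT.nd (nat_lit 234) (PT.nd (nat_lit 78) (PT.lf (nat_lit 55784) (nat_lit 6) (nat_lit 734) (nat_lit 5) (nat_lit 254) (nat_lit 256) (nat_lit 270)) (PT.nd (nat_lit 78) (PT.lf (nat_lit 56544) (nat_lit 6) (nat_lit 744) (nat_lit 5) (nat_lit 255) (nat_lit 256) (nat_lit 269)) (PT.lf (nat_lit 57228) (nat_lit 3) (nat_lit 753) (nat_lit 3) (nat_lit 256) (nat_lit 256) (nat_lit 268)))) (PT.nd (nat_lit 156) (PT.nd (nat_lit 78) (PT.lf (nat_lit 57912) (nat_lit 6) (nat_lit 762) (nat_lit 3) (nat_lit 257) (nat_lit 256) (nat_lit 267)) (PT.lf (nat_lit 58520) (nat_lit 6) (nat_lit 770) (nat_lit 3) (nat_lit 258) (nat_lit 256) (nat_lit 266))) (PT.nd (nat_lit 78) (PT.lf (nat_lit 59052) (nat_lit 6) (nat_lit 777) (nat_lit 3) (nat_lit 259) (nat_lit 256) (nat_lit 265)) (PT.lf (nat_lit 59508) (nat_lit 6) (nat_lit 783) (nat_lit 3) (nat_lit 260) (nat_lit 256) (nat_lit 264))))) (PT.nd (nat_lit 312) (PT.nd (nat_lit 156) (PT.nd (nat_lit 78) (PT.lf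 (nat_lit 59584) (nat_lit 6) (nat_lit 784) (nat_lit 3) (nat_lit 261) (nat_lit 256) (nat_lit 263)) (PT.lf (nat_lit 59660) (nat_lit 3) (nat_lit 785) (nat_lit 1) (nat_lit 262) (nat_lit 256) (nat_lit 262))) (PT.nd (nat_lit 78) (PT.lf (nat_lit 59584) (nat_lit 6) (nat_lit 784) (nat_lit 1) (nat_lit 263) (nat_lit 256) (nat_lit 261)) (PT.lf (nat_lit 59508) (nat_lit 6) (nat_lit 783) (nat_lit 1) (nat_lit 264) (nat_lit 256) (nat_lit 260)))) (PT.nd (nat_lit 156) (PT.nd (nat_lit 78) (PT.lf (nat_lit 59052) (nat_lit 6) (nat_lit 777) (nat_lit 1) (nat_lit 265) (nat_lit 256) (nat_lit 259)) (PT.lf (nat_lit 58520) (nat_lit 6) (nat_lit 770) (nat_lit 1) (nat_lit 266) (nat_lit 256) (nat_lit 258))) (PT.nd (nat_lit 78) (PT.lf (nat_lit 57912) (nat_lit 6) (nat_lit 762) (nat_lit 1) (nat_lit 267) (nat_lit 256) (nat_lit 257)) (PT.lf (nat_lit 57228) (nat_lit 3) (nat_lit 753) (nat_lit 0) (nat_lit 268) (nat_lit 256) (nat_lit 256)))))) (PT.nd (nat_lit 624) (PT.nd (nat_lit 312) (PT.nd (nat_lit 156) (PT.nd (nat_lit 78) (PT.lf (nat_lit 56544)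 (nat_lit 6) (nat_lit 744) (nat_lit 0) (nat_lit 269) (nat_lit 256) (nat_lit 255)) (PT.lf (nat_lit 55784) (nat_lit 6) (nat_lit 734) (nat_lit 0) (nat_lit 270) (nat_lit 256) (nat_lit 254))) (PT.nd (nat_lit 78) (PT.lf (nat_lit 54948) (nat_lit 6) (nat_lit 723) (nat_lit 0) (nat_lit 271) (nat_lit 256) (nat_lit 253)) (PT.lf (nat_lit 54036) (nat_lit 6) (nat_lit 711) (nat_lit 0) (nat_lit 272) (nat_lit 256) (nat_lit 252)))) (PT.nd (nat_lit 156) (PT.nd (nat_lit 78) (PT.lf (nat_lit 53048) (nat_lit 6) (nat_lit 698) (nat_lit 0) (nat_lit 273) (nat_lit 256) (nat_lit 251)) (PT.lf (nat_lit 51984) (nat_lit 6) (nat_lit 684) (nat_lit 0) (nat_lit 274) (nat_lit 256) (nat_lit 250))) (PT.nd (nat_lit 78) (PT.lf (nat_lit 50844) (nat_lit 6) (nat_lit 669) (nat_lit 0) (nat_lit 275) (nat_lit 256) (nat_lit 249)) (PT.lf (nat_lit 49628) (nat_lit 6) (nat_lit 653) (nat_lit 0) (nat_lit 276) (nat_lit 256) (nat_lit 248))))) (PT.nd (nat_lit 312) (PT.nd (nat_lit 156) (PT.nd (nat_lit 78) (PT.lf (nat_lit 48336) (nat_lit 6) (nat_lit 636) (nat_lit 0)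 (nat_lit 277) (nat_lit 256) (nat_lit 247)) (PT.lf (nat_lit 46968) (nat_lit 6) (nat_lit 618) (nat_lit 0) (nat_lit 278) (nat_lit 256) (nat_lit 246))) (PT.nd (nat_lit 78) (PT.lf (nat_lit 45524) (nat_lit 6) (nat_lit 599) (nat_lit 0) (nat_lit 279) (nat_lit 256) (nat_lit 245)) (PT.lf (nat_lit 44004) (nat_lit 6) (nat_lit 579) (nat_lit 0) (nat_lit 280) (nat_lit 256) (nat_lit 244)))) (PT.nd (nat_lit 156) (PT.nd (nat_lit 78) (PT.lf (nat_lit 42408) (nat_lit 6) (nat_lit 558) (nat_lit 0) (nat_lit 281) (nat_lit 256) (nat_lit 243)) (PT.lf (nat_lit 40736) (nat_lit 6) (nat_lit 536) (nat_lit 0) (nat_lit 282) (nat_lit 256) (nat_lit 242))) (PT.nd (nat_lit 78) (PT.lf (nat_lit 38988) (nat_lit 6) (nat_lit 513) (nat_lit 0) (nat_lit 283) (nat_lit 256) (nat_lit 241)) (PT.lf (nat_lit 37164) (nat_lit 6) (nat_lit 489) (nat_lit 0) (nat_lit 284) (nat_lit 256) (nat_lit 240))))))) (PT.nd (nat_lit 1248) (PT.nd (nat_lit 624) (PT.nd (nat_lit 312) (PT.nd (nat_lit 156) (PT.nd (nat_lit 78) (PT.lf (nat_lit 37240) (nat_lit 6) (nat_lit 490) (nat_lit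 5) (nat_lit 239) (nat_lit 257) (nat_lit 284)) (PT.lf (nat_lit 39064) (nat_lit 6) (nat_lit 514) (nat_lit 5) (nat_lit 240) (nat_lit 257) (nat_lit 283))) (PT.nd (nat_lit 78) (PT.lf (nat_lit 40812) (nat_lit 6) (nat_lit 537) (nat_lit 5) (nat_lit 241) (nat_lit 257) (nat_lit 282)) (PT.lf (nat_lit 42484) (nat_lit 6) (nat_lit 559) (nat_lit 5) (nat_lit 242) (nat_lit 257) (nat_lit 281)))) (PT.nd (nat_lit 156) (PT.nd (nat_lit 78) (PT.lf (nat_lit 44080) (nat_lit 6) (nat_lit 580) (nat_lit 5) (nat_lit 243) (nat_lit 257) (nat_lit 280)) (PT.lf (nat_lit 45600) (nat_lit 6) (nat_lit 600) (nat_lit 5) (nat_lit 244) (nat_lit 257) (nat_lit 279))) (PT.nd (nat_lit 78) (PT.lf (nat_lit 47044) (nat_lit 6) (nat_lit 619) (nat_lit 5) (nat_lit 245) (nat_lit 257) (nat_lit 278)) (PT.lf (nat_lit 48412) (nat_lit 6) (nat_lit 637) (nat_lit 5) (nat_lit 246) (nat_lit 257) (nat_lit 277))))) (PT.nd (nat_lit 312) (PT.nd (nat_lit 156) (PT.nd (nat_lit 78) (PT.lf (nat_lit 49704) (nat_lit 6) (nat_lit 654) (nat_lit 5) (nat_lit 247) (nat_lit 257) (nat_lit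 276)) (PT.lf (nat_lit 50920) (nat_lit 6) (nat_lit 670) (nat_lit 5) (nat_lit 248) (nat_lit 257) (nat_lit 275))) (PT.nd (nat_lit 78) (PT.lf (nat_lit 52060) (nat_lit 6) (nat_lit 685) (nat_lit 5) (nat_lit 249) (nat_lit 257) (nat_lit 274)) (PT.lf (nat_lit 53124) (nat_lit 6) (nat_lit 699) (nat_lit 5) (nat_lit 250) (nat_lit 257) (nat_lit 273)))) (PT.nd (nat_lit 156) (PT.nd (nat_lit 78) (PT.lf (nat_lit 54112) (nat_lit 6) (nat_lit 712) (nat_lit 5) (nat_lit 251) (nat_lit 257) (nat_lit 272)) (PT.lf (nat_lit 55024) (nat_lit 6) (nat_lit 724) (nat_lit 5) (nat_lit 252) (nat_lit 257) (nat_lit 271))) (PT.nd (nat_lit 78) (PT.lf (nat_lit 55860) (nat_lit 6) (nat_lit 735) (nat_lit 5) (nat_lit 253) (nat_lit 257) (nat_lit 270)) (PT.lf (nat_lit 56620) (nat_lit 6) (nat_lit 745) (nat_lit 5) (nat_lit 254) (nat_lit 257) (nat_lit 269)))))) (PT.nd (nat_lit 624) (PT.nd (nat_lit 312) (PT.nd (nat_lit 156) (PT.nd (nat_lit 78) (PT.lf (nat_lit 57304) (nat_lit 6) (nat_lit 754) (nat_lit 5) (nat_lit 255) (nat_lit 257) (nat_lit 268)) (PT.lf (nat_lit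 57912) (nat_lit 6) (nat_lit 762) (nat_lit 5) (nat_lit 256) (nat_lit 257) (nat_lit 267))) (PT.nd (nat_lit 78) (PT.lf (nat_lit 58444) (nat_lit 3) (nat_lit 769) (nat_lit 3) (nat_lit 257) (nat_lit 257) (nat_lit 266)) (PT.lf (nat_lit 58976) (nat_lit 6) (nat_lit 776) (nat_lit 3) (nat_lit 258) (nat_lit 257) (nat_lit 265)))) (PT.nd (nat_lit 156) (PT.nd (nat_lit 78) (PT.lf (nat_lit 59432) (nat_lit 6) (nat_lit 782) (nat_lit 3) (nat_lit 259) (nat_lit 257) (nat_lit 264)) (PT.lf (nat_lit 59812) (nat_lit 6) (nat_lit 787) (nat_lit 3) (nat_lit 260) (nat_lit 257) (nat_lit 263))) (PT.nd (nat_lit 78) (PT.lf (nat_lit 59888) (nat_lit 6) (nat_lit 788) (nat_lit 3) (nat_lit 261) (nat_lit 257) (nat_lit 262)) (PT.lf (nat_lit 59888) (nat_lit 6) (nat_lit 788) (nat_lit 1) (nat_lit 262) (nat_lit 257) (nat_lit 261))))) (PT.nd (nat_lit 312) (PT.nd (nat_lit 156) (PT.nd (nat_lit 78) (PT.lf (nat_lit 59812) (nat_lit 6) (nat_lit 787) (nat_lit 1) (nat_lit 263) (nat_lit 257) (nat_lit 260)) (PT.lf (nat_lit 59432) (nat_lit 6) (nat_lit 782) (nat_lit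 1) (nat_lit 264) (nat_lit 257) (nat_lit 259))) (PT.nd (nat_lit 78) (PT.lf (nat_lit 58976) (nat_lit 6) (nat_lit 776) (nat_lit 1) (nat_lit 265) (nat_lit 257) (nat_lit 258)) (PT.lf (nat_lit 58444) (nat_lit 3) (nat_lit 769) (nat_lit 0) (nat_lit 266) (nat_lit 257) (nat_lit 257)))) (PT.nd (nat_lit 156) (PT.nd (nat_lit 78) (PT.lf (nat_lit 57912) (nat_lit 6) (nat_lit 762) (nat_lit 0) (nat_lit 267) (nat_lit 257) (nat_lit 256)) (PT.lf (nat_lit 57304) (nat_lit 6) (nat_lit 754) (nat_lit 0) (nat_lit 268) (nat_lit 257) (nat_lit 255))) (PT.nd (nat_lit 78) (PT.lf (nat_lit 56620) (nat_lit 6) (nat_lit 745) (nat_lit 0) (nat_lit 269) (nat_lit 257) (nat_lit 254)) (PT.lf (nat_lit 55860) (nat_lit 6) (nat_lit 735) (nat_lit 0) (nat_lit 270) (nat_lit 257) (nat_lit 253))))))))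
noncomputable def pc24 : PT := (PT.nd (nat_lit 79872) (PT.nd (nat_lit 78624) (PT.nd (nat_lit 546) (PT.nd (nat_lit 234) (PT.nd (nat_lit 78) (PT.lf (nat_lit 55024) (nat_lit 6) (nat_lit 724) (nat_lit 0) (nat_lit 271) (nat_lit 257) (nat_lit 252)) (PT.nd (nat_lit 78) (PT.lf (nat_lit 54112) (nat_lit 6) (nat_lit 712) (nat_lit 0) (nat_lit 272) (nat_lit 257) (nat_lit 251)) (PT.lf (nat_lit 53124) (nat_lit 6) (nat_lit 699) (nat_lit 0) (nat_lit 273) (nat_lit 257) (nat_lit 250)))) (PT.nd (nat_lit 156) (PT.nd (nat_lit 78) (PT.lf (nat_lit 52060) (nat_lit 6) (nat_lit 685) (nat_lit 0) (nat_lit 274) (nat_lit 257) (nat_lit 249)) (PT.lf (nat_lit 50920) (nat_lit 6) (nat_lit 670) (nat_lit 0) (nat_lit 275) (nat_lit 257) (nat_lit 248))) (PT.nd (nat_lit 78) (PT.lf (nat_lit 49704) (nat_lit 6) (nat_lit 654) (nat_lit 0) (nat_lit 276) (nat_lit 257) (nat_lit 247)) (PT.lf (nat_lit 48412) (nat_lit 6) (nat_lit 637) (nat_lit 0) (nat_lit 277) (nat_lit 257) (nat_lit 246))))) (PT.nd (nat_lit 312) (PT.nd (nat_lit 156) (PT.nd (nat_lit 78) (PT.lf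 (nat_lit 47044) (nat_lit 6) (nat_lit 619) (nat_lit 0) (nat_lit 278) (nat_lit 257) (nat_lit 245)) (PT.lf (nat_lit 45600) (nat_lit 6) (nat_lit 600) (nat_lit 0) (nat_lit 279) (nat_lit 257) (nat_lit 244))) (PT.nd (nat_lit 78) (PT.lf (nat_lit 44080) (nat_lit 6) (nat_lit 580) (nat_lit 0) (nat_lit 280) (nat_lit 257) (nat_lit 243)) (PT.lf (nat_lit 42484) (nat_lit 6) (nat_lit 559) (nat_lit 0) (nat_lit 281) (nat_lit 257) (nat_lit 242)))) (PT.nd (nat_lit 156) (PT.nd (nat_lit 78) (PT.lf (nat_lit 40812) (nat_lit 6) (nat_lit 537) (nat_lit 0) (nat_lit 282) (nat_lit 257) (nat_lit 241)) (PT.lf (nat_lit 39064) (nat_lit 6) (nat_lit 514) (nat_lit 0) (nat_lit 283) (nat_lit 257) (nat_lit 240))) (PT.nd (nat_lit 77532) (PT.lf (nat_lit 37240) (nat_lit 6) (nat_lit 490) (nat_lit 0) (nat_lit 284) (nat_lit 257) (nat_lit 239)) (PT.lf (nat_lit 35416) (nat_lit 6) (nat_lit 466) (nat_lit 5) (nat_lit 237) (nat_lit 258) (nat_lit 285)))))) (PT.nd (nat_lit 624) (PT.nd (nat_lit 312) (PT.nd (nat_lit 156) (PT.nd (nat_lit 78) (PT.lf (nat_lit 37316)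 (nat_lit 6) (nat_lit 491) (nat_lit 5) (nat_lit 238) (nat_lit 258) (nat_lit 284)) (PT.lf (nat_lit 39140) (nat_lit 6) (nat_lit 515) (nat_lit 5) (nat_lit 239) (nat_lit 258) (nat_lit 283))) (PT.nd (nat_lit 78) (PT.lf (nat_lit 40888) (nat_lit 6) (nat_lit 538) (nat_lit 5) (nat_lit 240) (nat_lit 258) (nat_lit 282)) (PT.lf (nat_lit 42560) (nat_lit 6) (nat_lit 560) (nat_lit 5) (nat_lit 241) (nat_lit 258) (nat_lit 281)))) (PT.nd (nat_lit 156) (PT.nd (nat_lit 78) (PT.lf (nat_lit 44156) (nat_lit 6) (nat_lit 581) (nat_lit 5) (nat_lit 242) (nat_lit 258) (nat_lit 280)) (PT.lf (nat_lit 45676) (nat_lit 6) (nat_lit 601) (nat_lit 5) (nat_lit 243) (nat_lit 258) (nat_lit 279))) (PT.nd (nat_lit 78) (PT.lf (nat_lit 47120) (nat_lit 6) (nat_lit 620) (nat_lit 5) (nat_lit 244) (nat_lit 258) (nat_lit 278)) (PT.lf (nat_lit 48488) (nat_lit 6) (nat_lit 638) (nat_lit 5) (nat_lit 245) (nat_lit 258) (nat_lit 277))))) (PT.nd (nat_lit 312) (PT.nd (nat_lit 156) (PT.nd (nat_lit 78) (PT.lf (nat_lit 49780) (nat_lit 6) (nat_lit 655) (nat_lit 5)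 (nat_lit 246) (nat_lit 258) (nat_lit 276)) (PT.lf (nat_lit 50996) (nat_lit 6) (nat_lit 671) (nat_lit 5) (nat_lit 247) (nat_lit 258) (nat_lit 275))) (PT.nd (nat_lit 78) (PT.lf (nat_lit 52136) (nat_lit 6) (nat_lit 686) (nat_lit 5) (nat_lit 248) (nat_lit 258) (nat_lit 274)) (PT.lf (nat_lit 53200) (nat_lit 6) (nat_lit 700) (nat_lit 5) (nat_lit 249) (nat_lit 258) (nat_lit 273)))) (PT.nd (nat_lit 156) (PT.nd (nat_lit 78) (PT.lf (nat_lit 54188) (nat_lit 6) (nat_lit 713) (nat_lit 5) (nat_lit 250) (nat_lit 258) (nat_lit 272)) (PT.lf (nat_lit 55100) (nat_lit 6) (nat_lit 725) (nat_lit 5) (nat_lit 251) (nat_lit 258) (nat_lit 271))) (PT.nd (nat_lit 78) (PT.lf (nat_lit 55936) (nat_lit 6) (nat_lit 736) (nat_lit 5) (nat_lit 252) (nat_lit 258) (nat_lit 270)) (PT.lf (nat_lit 56696) (nat_lit 6) (nat_lit 746) (nat_lit 5) (nat_lit 253) (nat_lit 258) (nat_lit 269))))))) (PT.nd (nat_lit 1170) (PT.nd (nat_lit 546) (PT.nd (nat_lit 234) (PT.nd (nat_lit 78) (PT.lf (nat_lit 57380) (nat_lit 6) (nat_lit 755) (nat_lit 5) (nat_lit 254)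 (nat_lit 258) (nat_lit 268)) (PT.nd (nat_lit 78) (PT.lf (nat_lit 57988) (nat_lit 6) (nat_lit 763) (nat_lit 5) (nat_lit 255) (nat_lit 258) (nat_lit 267)) (PT.lf (nat_lit 58520) (nat_lit 6) (nat_lit 770) (nat_lit 5) (nat_lit 256) (nat_lit 258) (nat_lit 266)))) (PT.nd (nat_lit 156) (PT.nd (nat_lit 78) (PT.lf (nat_lit 58976) (nat_lit 6) (nat_lit 776) (nat_lit 5) (nat_lit 257) (nat_lit 258) (nat_lit 265)) (PT.lf (nat_lit 59356) (nat_lit 3) (nat_lit 781) (nat_lit 3) (nat_lit 258) (nat_lit 258) (nat_lit 264))) (PT.nd (nat_lit 78) (PT.lf (nat_lit 59736) (nat_lit 6) (nat_lit 786) (nat_lit 3) (nat_lit 259) (nat_lit 258) (nat_lit 263)) (PT.lf (nat_lit 60040) (nat_lit 6) (nat_lit 790) (nat_lit 3) (nat_lit 260) (nat_lit 258) (nat_lit 262))))) (PT.nd (nat_lit 312) (PT.nd (nat_lit 156) (PT.nd (nat_lit 78) (PT.lf (nat_lit 60116) (nat_lit 3) (nat_lit 791) (nat_lit 1) (nat_lit 261) (nat_lit 258) (nat_lit 261)) (PT.lf (nat_lit 60040) (nat_lit 6) (nat_lit 790) (nat_lit 1) (nat_lit 262) (nat_lit 258) (nat_lit 260))) (PT.nd (nat_lit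 78) (PT.lf (nat_lit 59736) (nat_lit 6) (nat_lit 786) (nat_lit 1) (nat_lit 263) (nat_lit 258) (nat_lit 259)) (PT.lf (nat_lit 59356) (nat_lit 3) (nat_lit 781) (nat_lit 0) (nat_lit 264) (nat_lit 258) (nat_lit 258)))) (PT.nd (nat_lit 156) (PT.nd (nat_lit 78) (PT.lf (nat_lit 58976) (nat_lit 6) (nat_lit 776) (nat_lit 0) (nat_lit 265) (nat_lit 258) (nat_lit 257)) (PT.lf (nat_lit 58520) (nat_lit 6) (nat_lit 770) (nat_lit 0) (nat_lit 266) (nat_lit 258) (nat_lit 256))) (PT.nd (nat_lit 78) (PT.lf (nat_lit 57988) (nat_lit 6) (nat_lit 763) (nat_lit 0) (nat_lit 267) (nat_lit 258) (nat_lit 255)) (PT.lf (nat_lit 57380) (nat_lit 6) (nat_lit 755) (nat_lit 0) (nat_lit 268) (nat_lit 258) (nat_lit 254)))))) (PT.nd (nat_lit 624) (PT.nd (nat_lit 312) (PT.nd (nat_lit 156) (PT.nd (nat_lit 78) (PT.lf (nat_lit 56696) (nat_lit 6) (nat_lit 746) (nat_lit 0) (nat_lit 269) (nat_lit 258) (nat_lit 253)) (PT.lf (nat_lit 55936) (nat_lit 6) (nat_lit 736) (nat_lit 0) (nat_lit 270) (nat_lit 258) (nat_lit 252))) (PT.nd (nat_lit 78) (PT.lf (nat_lit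 55100) (nat_lit 6) (nat_lit 725) (nat_lit 0) (nat_lit 271) (nat_lit 258) (nat_lit 251)) (PT.lf (nat_lit 54188) (nat_lit 6) (nat_lit 713) (nat_lit 0) (nat_lit 272) (nat_lit 258) (nat_lit 250)))) (PT.nd (nat_lit 156) (PT.nd (nat_lit 78) (PT.lf (nat_lit 53200) (nat_lit 6) (nat_lit 700) (nat_lit 0) (nat_lit 273) (nat_lit 258) (nat_lit 249)) (PT.lf (nat_lit 52136) (nat_lit 6) (nat_lit 686) (nat_lit 0) (nat_lit 274) (nat_lit 258) (nat_lit 248))) (PT.nd (nat_lit 78) (PT.lf (nat_lit 50996) (nat_lit 6) (nat_lit 671) (nat_lit 0) (nat_lit 275) (nat_lit 258) (nat_lit 247)) (PT.lf (nat_lit 49780) (nat_lit 6) (nat_lit 655) (nat_lit 0) (nat_lit 276) (nat_lit 258) (nat_lit 246))))) (PT.nd (nat_lit 312) (PT.nd (nat_lit 156) (PT.nd (nat_lit 78) (PT.lf (nat_lit 48488) (nat_lit 6) (nat_lit 638) (nat_lit 0) (nat_lit 277) (nat_lit 258) (nat_lit 245)) (PT.lf (nat_lit 47120) (nat_lit 6) (nat_lit 620) (nat_lit 0) (nat_lit 278) (nat_lit 258) (nat_lit 244))) (PT.nd (nat_lit 78) (PT.lf (nat_lit 45676) (nat_lit 6) (nat_lit 601) (nat_lit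 0) (nat_lit 279) (nat_lit 258) (nat_lit 243)) (PT.lf (nat_lit 44156) (nat_lit 6) (nat_lit 581) (nat_lit 0) (nat_lit 280) (nat_lit 258) (nat_lit 242)))) (PT.nd (nat_lit 156) (PT.nd (nat_lit 78) (PT.lf (nat_lit 42560) (nat_lit 6) (nat_lit 560) (nat_lit 0) (nat_lit 281) (nat_lit 258) (nat_lit 241)) (PT.lf (nat_lit 40888) (nat_lit 6) (nat_lit 538) (nat_lit 0) (nat_lit 282) (nat_lit 258) (nat_lit 240))) (PT.nd (nat_lit 78) (PT.lf (nat_lit 39140) (nat_lit 6) (nat_lit 515) (nat_lit 0) (nat_lit 283) (nat_lit 258) (nat_lit 239)) (PT.lf (nat_lit 37316) (nat_lit 6) (nat_lit 491) (nat_lit 0) (nat_lit 284) (nat_lit 258) (nat_lit 238))))))))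
noncomputable def pc25 : PT := (PT.nd (nat_lit 79716) (PT.nd (nat_lit 78468) (PT.nd (nat_lit 77844) (PT.nd (nat_lit 77532) (PT.nd (nat_lit 77376) (PT.lf (nat_lit 35416) (nat_lit 6) (nat_lit 466) (nat_lit 0) (nat_lit 285) (nat_lit 258) (nat_lit 237)) (PT.nd (nat_lit 78) (PT.lf (nat_lit 35492) (nat_lit 6) (nat_lit 467) (nat_lit 5) (nat_lit 236) (nat_lit 259) (nat_lit 285)) (PT.lf (nat_lit 37392) (nat_lit 6) (nat_lit 492) (nat_lit 5) (nat_lit 237) (nat_lit 259) (nat_lit 284)))) (PT.nd (nat_lit 156) (PT.nd (nat_lit 78) (PT.lf (nat_lit 39216) (nat_lit 6) (nat_lit 516) (nat_lit 5) (nat_lit 238) (nat_lit 259) (nat_lit 283)) (PT.lf (nat_lit 40964) (nat_lit 6) (nat_lit 539) (nat_lit 5) (nat_lit 239) (nat_lit 259) (nat_lit 282))) (PT.nd (nat_lit 78) (PT.lf (nat_lit 42636) (nat_lit 6) (nat_lit 561) (nat_lit 5) (nat_lit 240) (nat_lit 259) (nat_lit 281)) (PT.lf (nat_lit 44232) (nat_lit 6) (nat_lit 582) (nat_lit 5) (nat_lit 241) (nat_lit 259) (nat_lit 280))))) (PT.nd (nat_lit 312) (PT.nd (nat_lit 156) (PT.nd (nat_lit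 78) (PT.lf (nat_lit 45752) (nat_lit 6) (nat_lit 602) (nat_lit 5) (nat_lit 242) (nat_lit 259) (nat_lit 279)) (PT.lf (nat_lit 47196) (nat_lit 6) (nat_lit 621) (nat_lit 5) (nat_lit 243) (nat_lit 259) (nat_lit 278))) (PT.nd (nat_lit 78) (PT.lf (nat_lit 48564) (nat_lit 6) (nat_lit 639) (nat_lit 5) (nat_lit 244) (nat_lit 259) (nat_lit 277)) (PT.lf (nat_lit 49856) (nat_lit 6) (nat_lit 656) (nat_lit 5) (nat_lit 245) (nat_lit 259) (nat_lit 276)))) (PT.nd (nat_lit 156) (PT.nd (nat_lit 78) (PT.lf (nat_lit 51072) (nat_lit 6) (nat_lit 672) (nat_lit 5) (nat_lit 246) (nat_lit 259) (nat_lit 275)) (PT.lf (nat_lit 52212) (nat_lit 6) (nat_lit 687) (nat_lit 5) (nat_lit 247) (nat_lit 259) (nat_lit 274))) (PT.nd (nat_lit 78) (PT.lf (nat_lit 53276) (nat_lit 6) (nat_lit 701) (nat_lit 5) (nat_lit 248) (nat_lit 259) (nat_lit 273)) (PT.lf (nat_lit 54264) (nat_lit 6) (nat_lit 714) (nat_lit 5) (nat_lit 249) (nat_lit 259) (nat_lit 272)))))) (PT.nd (nat_lit 624) (PT.nd (nat_lit 312) (PT.nd (nat_lit 156) (PT.nd (nat_lit 78) (PT.lf (nat_lit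 55176) (nat_lit 6) (nat_lit 726) (nat_lit 5) (nat_lit 250) (nat_lit 259) (nat_lit 271)) (PT.lf (nat_lit 56012) (nat_lit 6) (nat_lit 737) (nat_lit 5) (nat_lit 251) (nat_lit 259) (nat_lit 270))) (PT.nd (nat_lit 78) (PT.lf (nat_lit 56772) (nat_lit 6) (nat_lit 747) (nat_lit 5) (nat_lit 252) (nat_lit 259) (nat_lit 269)) (PT.lf (nat_lit 57456) (nat_lit 6) (nat_lit 756) (nat_lit 5) (nat_lit 253) (nat_lit 259) (nat_lit 268)))) (PT.nd (nat_lit 156) (PT.nd (nat_lit 78) (PT.lf (nat_lit 58064) (nat_lit 6) (nat_lit 764) (nat_lit 5) (nat_lit 254) (nat_lit 259) (nat_lit 267)) (PT.lf (nat_lit 58596) (nat_lit 6) (nat_lit 771) (nat_lit 5) (nat_lit 255) (nat_lit 259) (nat_lit 266))) (PT.nd (nat_lit 78) (PT.lf (nat_lit 59052) (nat_lit 6) (nat_lit 777) (nat_lit 5) (nat_lit 256) (nat_lit 259) (nat_lit 265)) (PT.lf (nat_lit 59432) (nat_lit 6) (nat_lit 782) (nat_lit 5) (nat_lit 257) (nat_lit 259) (nat_lit 264))))) (PT.nd (nat_lit 312) (PT.nd (nat_lit 156) (PT.nd (nat_lit 78) (PT.lf (nat_lit 59736) (nat_lit 6) (nat_lit 786) (nat_lit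 5) (nat_lit 258) (nat_lit 259) (nat_lit 263)) (PT.lf (nat_lit 59964) (nat_lit 3) (nat_lit 789) (nat_lit 3) (nat_lit 259) (nat_lit 259) (nat_lit 262))) (PT.nd (nat_lit 78) (PT.lf (nat_lit 60192) (nat_lit 6) (nat_lit 792) (nat_lit 3) (nat_lit 260) (nat_lit 259) (nat_lit 261)) (PT.lf (nat_lit 60192) (nat_lit 6) (nat_lit 792) (nat_lit 1) (nat_lit 261) (nat_lit 259) (nat_lit 260)))) (PT.nd (nat_lit 156) (PT.nd (nat_lit 78) (PT.lf (nat_lit 59964) (nat_lit 3) (nat_lit 789) (nat_lit 0) (nat_lit 262) (nat_lit 259) (nat_lit 259)) (PT.lf (nat_lit 59736) (nat_lit 6) (nat_lit 786) (nat_lit 0) (nat_lit 263) (nat_lit 259) (nat_lit 258))) (PT.nd (nat_lit 78) (PT.lf (nat_lit 59432) (nat_lit 6) (nat_lit 782) (nat_lit 0) (nat_lit 264) (nat_lit 259) (nat_lit 257)) (PT.lf (nat_lit 59052) (nat_lit 6) (nat_lit 777) (nat_lit 0) (nat_lit 265) (nat_lit 259) (nat_lit 256))))))) (PT.nd (nat_lit 1248) (PT.nd (nat_lit 624) (PT.nd (nat_lit 312) (PT.nd (nat_lit 156) (PT.nd (nat_lit 78) (PT.lf (nat_lit 58596) (nat_lit 6) (nat_lit 771) (nat_lit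 0) (nat_lit 266) (nat_lit 259) (nat_lit 255)) (PT.lf (nat_lit 58064) (nat_lit 6) (nat_lit 764) (nat_lit 0) (nat_lit 267) (nat_lit 259) (nat_lit 254))) (PT.nd (nat_lit 78) (PT.lf (nat_lit 57456) (nat_lit 6) (nat_lit 756) (nat_lit 0) (nat_lit 268) (nat_lit 259) (nat_lit 253)) (PT.lf (nat_lit 56772) (nat_lit 6) (nat_lit 747) (nat_lit 0) (nat_lit 269) (nat_lit 259) (nat_lit 252)))) (PT.nd (nat_lit 156) (PT.nd (nat_lit 78) (PT.lf (nat_lit 56012) (nat_lit 6) (nat_lit 737) (nat_lit 0) (nat_lit 270) (nat_lit 259) (nat_lit 251)) (PT.lf (nat_lit 55176) (nat_lit 6) (nat_lit 726) (nat_lit 0) (nat_lit 271) (nat_lit 259) (nat_lit 250))) (PT.nd (nat_lit 78) (PT.lf (nat_lit 54264) (nat_lit 6) (nat_lit 714) (nat_lit 0) (nat_lit 272) (nat_lit 259) (nat_lit 249)) (PT.lf (nat_lit 53276) (nat_lit 6) (nat_lit 701) (nat_lit 0) (nat_lit 273) (nat_lit 259) (nat_lit 248))))) (PT.nd (nat_lit 312) (PT.nd (nat_lit 156) (PT.nd (nat_lit 78) (PT.lf (nat_lit 52212) (nat_lit 6) (nat_lit 687) (nat_lit 0) (nat_lit 274) (nat_lit 259) (nat_lit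 247)) (PT.lf (nat_lit 51072) (nat_lit 6) (nat_lit 672) (nat_lit 0) (nat_lit 275) (nat_lit 259) (nat_lit 246))) (PT.nd (nat_lit 78) (PT.lf (nat_lit 49856) (nat_lit 6) (nat_lit 656) (nat_lit 0) (nat_lit 276) (nat_lit 259) (nat_lit 245)) (PT.lf (nat_lit 48564) (nat_lit 6) (nat_lit 639) (nat_lit 0) (nat_lit 277) (nat_lit 259) (nat_lit 244)))) (PT.nd (nat_lit 156) (PT.nd (nat_lit 78) (PT.lf (nat_lit 47196) (nat_lit 6) (nat_lit 621) (nat_lit 0) (nat_lit 278) (nat_lit 259) (nat_lit 243)) (PT.lf (nat_lit 45752) (nat_lit 6) (nat_lit 602) (nat_lit 0) (nat_lit 279) (nat_lit 259) (nat_lit 242))) (PT.nd (nat_lit 78) (PT.lf (nat_lit 44232) (nat_lit 6) (nat_lit 582) (nat_lit 0) (nat_lit 280) (nat_lit 259) (nat_lit 241)) (PT.lf (nat_lit 42636) (nat_lit 6) (nat_lit 561) (nat_lit 0) (nat_lit 281) (nat_lit 259) (nat_lit 240)))))) (PT.nd (nat_lit 77844) (PT.nd (nat_lit 77532) (PT.nd (nat_lit 156) (PT.nd (nat_lit 78) (PT.lf (nat_lit 40964) (nat_lit 6) (nat_lit 539) (nat_lit 0) (nat_lit 282) (nat_lit 259) (nat_lit 239)) (PT.lf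 (nat_lit 39216) (nat_lit 6) (nat_lit 516) (nat_lit 0) (nat_lit 283) (nat_lit 259) (nat_lit 238))) (PT.nd (nat_lit 78) (PT.lf (nat_lit 37392) (nat_lit 6) (nat_lit 492) (nat_lit 0) (nat_lit 284) (nat_lit 259) (nat_lit 237)) (PT.lf (nat_lit 35492) (nat_lit 6) (nat_lit 467) (nat_lit 0) (nat_lit 285) (nat_lit 259) (nat_lit 236)))) (PT.nd (nat_lit 156) (PT.nd (nat_lit 78) (PT.lf (nat_lit 35568) (nat_lit 6) (nat_lit 468) (nat_lit 5) (nat_lit 235) (nat_lit 260) (nat_lit 285)) (PT.lf (nat_lit 37468) (nat_lit 6) (nat_lit 493) (nat_lit 5) (nat_lit 236) (nat_lit 260) (nat_lit 284))) (PT.nd (nat_lit 78) (PT.lf (nat_lit 39292) (nat_lit 6) (nat_lit 517) (nat_lit 5) (nat_lit 237) (nat_lit 260) (nat_lit 283)) (PT.lf (nat_lit 41040) (nat_lit 6) (nat_lit 540) (nat_lit 5) (nat_lit 238) (nat_lit 260) (nat_lit 282))))) (PT.nd (nat_lit 312) (PT.nd (nat_lit 156) (PT.nd (nat_lit 78) (PT.lf (nat_lit 42712) (nat_lit 6) (nat_lit 562) (nat_lit 5) (nat_lit 239) (nat_lit 260) (nat_lit 281)) (PT.lf (nat_lit 44308) (nat_lit 6) (nat_lit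 583) (nat_lit 5) (nat_lit 240) (nat_lit 260) (nat_lit 280))) (PT.nd (nat_lit 78) (PT.lf (nat_lit 45828) (nat_lit 6) (nat_lit 603) (nat_lit 5) (nat_lit 241) (nat_lit 260) (nat_lit 279)) (PT.lf (nat_lit 47272) (nat_lit 6) (nat_lit 622) (nat_lit 5) (nat_lit 242) (nat_lit 260) (nat_lit 278)))) (PT.nd (nat_lit 156) (PT.nd (nat_lit 78) (PT.lf (nat_lit 48640) (nat_lit 6) (nat_lit 640) (nat_lit 5) (nat_lit 243) (nat_lit 260) (nat_lit 277)) (PT.lf (nat_lit 49932) (nat_lit 6) (nat_lit 657) (nat_lit 5) (nat_lit 244) (nat_lit 260) (nat_lit 276))) (PT.nd (nat_lit 78) (PT.lf (nat_lit 51148) (nat_lit 6) (nat_lit 673) (nat_lit 5) (nat_lit 245) (nat_lit 260) (nat_lit 275)) (PT.lf (nat_lit 52288) (nat_lit 6) (nat_lit 688) (nat_lit 5) (nat_lit 246) (nat_lit 260) (nat_lit 274))))))))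
noncomputable def pc26 : PT := (PT.nd (nat_lit 2418) (PT.nd (nat_lit 1170) (PT.nd (nat_lit 546) (PT.nd (nat_lit 234) (PT.nd (nat_lit 78) (PT.lf (nat_lit 53352) (nat_lit 6) (nat_lit 702) (nat_lit 5) (nat_lit 247) (nat_lit 260) (nat_lit 273)) (PT.nd (nat_lit 78) (PT.lf (nat_lit 54340) (nat_lit 6) (nat_lit 715) (nat_lit 5) (nat_lit 248) (nat_lit 260) (nat_lit 272)) (PT.lf (nat_lit 55252) (nat_lit 6) (nat_lit 727) (nat_lit 5) (nat_lit 249) (nat_lit 260) (nat_lit 271)))) (PT.nd (nat_lit 156) (PT.nd (nat_lit 78) (PT.lf (nat_lit 56088) (nat_lit 6) (nat_lit 738) (nat_lit 5) (nat_lit 250) (nat_lit 260) (nat_lit 270)) (PT.lf (nat_lit 56848) (nat_lit 6) (nat_lit 748) (nat_lit 5) (nat_lit 251) (nat_lit 260) (nat_lit 269))) (PT.nd (nat_lit 78) (PT.lf (nat_lit 57532) (nat_lit 6) (nat_lit 757) (nat_lit 5) (nat_lit 252) (nat_lit 260) (nat_lit 268)) (PT.lf (nat_lit 58140) (nat_lit 6) (nat_lit 765) (nat_lit 5) (nat_lit 253) (nat_lit 260) (nat_lit 267))))) (PT.nd (nat_lit 312) (PT.nd (nat_lit 156) (PT.nd (nat_lit 78) (PT.lf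 (nat_lit 58672) (nat_lit 6) (nat_lit 772) (nat_lit 5) (nat_lit 254) (nat_lit 260) (nat_lit 266)) (PT.lf (nat_lit 59128) (nat_lit 6) (nat_lit 778) (nat_lit 5) (nat_lit 255) (nat_lit 260) (nat_lit 265))) (PT.nd (nat_lit 78) (PT.lf (nat_lit 59508) (nat_lit 6) (nat_lit 783) (nat_lit 5) (nat_lit 256) (nat_lit 260) (nat_lit 264)) (PT.lf (nat_lit 59812) (nat_lit 6) (nat_lit 787) (nat_lit 5) (nat_lit 257) (nat_lit 260) (nat_lit 263)))) (PT.nd (nat_lit 156) (PT.nd (nat_lit 78) (PT.lf (nat_lit 60040) (nat_lit 6) (nat_lit 790) (nat_lit 5) (nat_lit 258) (nat_lit 260) (nat_lit 262)) (PT.lf (nat_lit 60192) (nat_lit 6) (nat_lit 792) (nat_lit 5) (nat_lit 259) (nat_lit 260) (nat_lit 261))) (PT.nd (nat_lit 78) (PT.lf (nat_lit 60268) (nat_lit 1) (nat_lit 793) (nat_lit 0) (nat_lit 260) (nat_lit 260) (nat_lit 260)) (PT.lf (nat_lit 60192) (nat_lit 6) (nat_lit 792) (nat_lit 0) (nat_lit 261) (nat_lit 260) (nat_lit 259)))))) (PT.nd (nat_lit 624) (PT.nd (nat_lit 312) (PT.nd (nat_lit 156) (PT.nd (nat_lit 78) (PT.lf (nat_lit 60040)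 (nat_lit 6) (nat_lit 790) (nat_lit 0) (nat_lit 262) (nat_lit 260) (nat_lit 258)) (PT.lf (nat_lit 59812) (nat_lit 6) (nat_lit 787) (nat_lit 0) (nat_lit 263) (nat_lit 260) (nat_lit 257))) (PT.nd (nat_lit 78) (PT.lf (nat_lit 59508) (nat_lit 6) (nat_lit 783) (nat_lit 0) (nat_lit 264) (nat_lit 260) (nat_lit 256)) (PT.lf (nat_lit 59128) (nat_lit 6) (nat_lit 778) (nat_lit 0) (nat_lit 265) (nat_lit 260) (nat_lit 255)))) (PT.nd (nat_lit 156) (PT.nd (nat_lit 78) (PT.lf (nat_lit 58672) (nat_lit 6) (nat_lit 772) (nat_lit 0) (nat_lit 266) (nat_lit 260) (nat_lit 254)) (PT.lf (nat_lit 58140) (nat_lit 6) (nat_lit 765) (nat_lit 0) (nat_lit 267) (nat_lit 260) (nat_lit 253))) (PT.nd (nat_lit 78) (PT.lf (nat_lit 57532) (nat_lit 6) (nat_lit 757) (nat_lit 0) (nat_lit 268) (nat_lit 260) (nat_lit 252)) (PT.lf (nat_lit 56848) (nat_lit 6) (nat_lit 748) (nat_lit 0) (nat_lit 269) (nat_lit 260) (nat_lit 251))))) (PT.nd (nat_lit 312) (PT.nd (nat_lit 156) (PT.nd (nat_lit 78) (PT.lf (nat_lit 56088) (nat_lit 6) (nat_lit 738) (nat_lit 0)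 (nat_lit 270) (nat_lit 260) (nat_lit 250)) (PT.lf (nat_lit 55252) (nat_lit 6) (nat_lit 727) (nat_lit 0) (nat_lit 271) (nat_lit 260) (nat_lit 249))) (PT.nd (nat_lit 78) (PT.lf (nat_lit 54340) (nat_lit 6) (nat_lit 715) (nat_lit 0) (nat_lit 272) (nat_lit 260) (nat_lit 248)) (PT.lf (nat_lit 53352) (nat_lit 6) (nat_lit 702) (nat_lit 0) (nat_lit 273) (nat_lit 260) (nat_lit 247)))) (PT.nd (nat_lit 156) (PT.nd (nat_lit 78) (PT.lf (nat_lit 52288) (nat_lit 6) (nat_lit 688) (nat_lit 0) (nat_lit 274) (nat_lit 260) (nat_lit 246)) (PT.lf (nat_lit 51148) (nat_lit 6) (nat_lit 673) (nat_lit 0) (nat_lit 275) (nat_lit 260) (nat_lit 245))) (PT.nd (nat_lit 78) (PT.lf (nat_lit 49932) (nat_lit 6) (nat_lit 657) (nat_lit 0) (nat_lit 276) (nat_lit 260) (nat_lit 244)) (PT.lf (nat_lit 48640) (nat_lit 6) (nat_lit 640) (nat_lit 0) (nat_lit 277) (nat_lit 260) (nat_lit 243))))))) (PT.nd (nat_lit 78390) (PT.nd (nat_lit 77766) (PT.nd (nat_lit 312) (PT.nd (nat_lit 156) (PT.nd (nat_lit 78) (PT.lf (nat_lit 47272) (nat_lit 6) (nat_lit 622) (nat_lit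 0) (nat_lit 278) (nat_lit 260) (nat_lit 242)) (PT.lf (nat_lit 45828) (nat_lit 6) (nat_lit 603) (nat_lit 0) (nat_lit 279) (nat_lit 260) (nat_lit 241))) (PT.nd (nat_lit 78) (PT.lf (nat_lit 44308) (nat_lit 6) (nat_lit 583) (nat_lit 0) (nat_lit 280) (nat_lit 260) (nat_lit 240)) (PT.lf (nat_lit 42712) (nat_lit 6) (nat_lit 562) (nat_lit 0) (nat_lit 281) (nat_lit 260) (nat_lit 239)))) (PT.nd (nat_lit 156) (PT.nd (nat_lit 78) (PT.lf (nat_lit 41040) (nat_lit 6) (nat_lit 540) (nat_lit 0) (nat_lit 282) (nat_lit 260) (nat_lit 238)) (PT.lf (nat_lit 39292) (nat_lit 6) (nat_lit 517) (nat_lit 0) (nat_lit 283) (nat_lit 260) (nat_lit 237))) (PT.nd (nat_lit 78) (PT.lf (nat_lit 37468) (nat_lit 6) (nat_lit 493) (nat_lit 0) (nat_lit 284) (nat_lit 260) (nat_lit 236)) (PT.lf (nat_lit 35568) (nat_lit 6) (nat_lit 468) (nat_lit 0) (nat_lit 285) (nat_lit 260) (nat_lit 235))))) (PT.nd (nat_lit 312) (PT.nd (nat_lit 156) (PT.nd (nat_lit 78) (PT.lf (nat_lit 34428) (nat_lit 6) (nat_lit 453) (nat_lit 5) (nat_lit 234) (nat_lit 261) (nat_lit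 285)) (PT.lf (nat_lit 35644) (nat_lit 6) (nat_lit 469) (nat_lit 5) (nat_lit 235) (nat_lit 261) (nat_lit 284))) (PT.nd (nat_lit 78) (PT.lf (nat_lit 37544) (nat_lit 6) (nat_lit 494) (nat_lit 5) (nat_lit 236) (nat_lit 261) (nat_lit 283)) (PT.lf (nat_lit 39368) (nat_lit 6) (nat_lit 518) (nat_lit 5) (nat_lit 237) (nat_lit 261) (nat_lit 282)))) (PT.nd (nat_lit 156) (PT.nd (nat_lit 78) (PT.lf (nat_lit 41116) (nat_lit 6) (nat_lit 541) (nat_lit 5) (nat_lit 238) (nat_lit 261) (nat_lit 281)) (PT.lf (nat_lit 42788) (nat_lit 6) (nat_lit 563) (nat_lit 5) (nat_lit 239) (nat_lit 261) (nat_lit 280))) (PT.nd (nat_lit 78) (PT.lf (nat_lit 44384) (nat_lit 6) (nat_lit 584) (nat_lit 5) (nat_lit 240) (nat_lit 261) (nat_lit 279)) (PT.lf (nat_lit 45904) (nat_lit 6) (nat_lit 604) (nat_lit 5) (nat_lit 241) (nat_lit 261) (nat_lit 278)))))) (PT.nd (nat_lit 624) (PT.nd (nat_lit 312) (PT.nd (nat_lit 156) (PT.nd (nat_lit 78) (PT.lf (nat_lit 47348) (nat_lit 6) (nat_lit 623) (nat_lit 5) (nat_lit 242) (nat_lit 261) (nat_lit 277)) (PT.lf (nat_lit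 48716) (nat_lit 6) (nat_lit 641) (nat_lit 5) (nat_lit 243) (nat_lit 261) (nat_lit 276))) (PT.nd (nat_lit 78) (PT.lf (nat_lit 50008) (nat_lit 6) (nat_lit 658) (nat_lit 5) (nat_lit 244) (nat_lit 261) (nat_lit 275)) (PT.lf (nat_lit 51224) (nat_lit 6) (nat_lit 674) (nat_lit 5) (nat_lit 245) (nat_lit 261) (nat_lit 274)))) (PT.nd (nat_lit 156) (PT.nd (nat_lit 78) (PT.lf (nat_lit 52364) (nat_lit 6) (nat_lit 689) (nat_lit 5) (nat_lit 246) (nat_lit 261) (nat_lit 273)) (PT.lf (nat_lit 53428) (nat_lit 6) (nat_lit 703) (nat_lit 5) (nat_lit 247) (nat_lit 261) (nat_lit 272))) (PT.nd (nat_lit 78) (PT.lf (nat_lit 54416) (nat_lit 6) (nat_lit 716) (nat_lit 5) (nat_lit 248) (nat_lit 261) (nat_lit 271)) (PT.lf (nat_lit 55328) (nat_lit 6) (nat_lit 728) (nat_lit 5) (nat_lit 249) (nat_lit 261) (nat_lit 270))))) (PT.nd (nat_lit 312) (PT.nd (nat_lit 156) (PT.nd (nat_lit 78) (PT.lf (nat_lit 56164) (nat_lit 6) (nat_lit 739) (nat_lit 5) (nat_lit 250) (nat_lit 261) (nat_lit 269)) (PT.lf (nat_lit 56924) (nat_lit 6) (nat_lit 749) (nat_lit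 5) (nat_lit 251) (nat_lit 261) (nat_lit 268))) (PT.nd (nat_lit 78) (PT.lf (nat_lit 57608) (nat_lit 6) (nat_lit 758) (nat_lit 5) (nat_lit 252) (nat_lit 261) (nat_lit 267)) (PT.lf (nat_lit 58216) (nat_lit 6) (nat_lit 766) (nat_lit 5) (nat_lit 253) (nat_lit 261) (nat_lit 266)))) (PT.nd (nat_lit 156) (PT.nd (nat_lit 78) (PT.lf (nat_lit 58748) (nat_lit 6) (nat_lit 773) (nat_lit 5) (nat_lit 254) (nat_lit 261) (nat_lit 265)) (PT.lf (nat_lit 59204) (nat_lit 6) (nat_lit 779) (nat_lit 5) (nat_lit 255) (nat_lit 261) (nat_lit 264))) (PT.nd (nat_lit 78) (PT.lf (nat_lit 59584) (nat_lit 6) (nat_lit 784) (nat_lit 5) (nat_lit 256) (nat_lit 261) (nat_lit 263)) (PT.lf (nat_lit 59888) (nat_lit 6) (nat_lit 788) (nat_lit 5) (nat_lit 257) (nat_lit 261) (nat_lit 262))))))))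
noncomputable def pc27 : PT := (PT.nd (nat_lit 79482) (PT.nd (nat_lit 1170) (PT.nd (nat_lit 546) (PT.nd (nat_lit 234) (PT.nd (nat_lit 78) (PT.lf (nat_lit 60116) (nat_lit 3) (nat_lit 791) (nat_lit 4) (nat_lit 258) (nat_lit 261) (nat_lit 261)) (PT.nd (nat_lit 78) (PT.lf (nat_lit 60192) (nat_lit 6) (nat_lit 792) (nat_lit 4) (nat_lit 259) (nat_lit 261) (nat_lit 260)) (PT.lf (nat_lit 60192) (nat_lit 6) (nat_lit 792) (nat_lit 2) (nat_lit 260) (nat_lit 261) (nat_lit 259)))) (PT.nd (nat_lit 156) (PT.nd (nat_lit 78) (PT.lf (nat_lit 60116) (nat_lit 3) (nat_lit 791) (nat_lit 0) (nat_lit 261) (nat_lit 261) (nat_lit 258)) (PT.lf (nat_lit 59888) (nat_lit 6) (nat_lit 788) (nat_lit 0) (nat_lit 262) (nat_lit 261) (nat_lit 257))) (PT.nd (nat_lit 78) (PT.lf (nat_lit 59584) (nat_lit 6) (nat_lit 784) (nat_lit 0) (nat_lit 263) (nat_lit 261) (nat_lit 256)) (PT.lf (nat_lit 59204) (nat_lit 6) (nat_lit 779) (nat_lit 0) (nat_lit 264) (nat_lit 261) (nat_lit 255))))) (PT.nd (nat_lit 312) (PT.nd (nat_lit 156) (PT.nd (nat_lit 78) (PT.lf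 (nat_lit 58748) (nat_lit 6) (nat_lit 773) (nat_lit 0) (nat_lit 265) (nat_lit 261) (nat_lit 254)) (PT.lf (nat_lit 58216) (nat_lit 6) (nat_lit 766) (nat_lit 0) (nat_lit 266) (nat_lit 261) (nat_lit 253))) (PT.nd (nat_lit 78) (PT.lf (nat_lit 57608) (nat_lit 6) (nat_lit 758) (nat_lit 0) (nat_lit 267) (nat_lit 261) (nat_lit 252)) (PT.lf (nat_lit 56924) (nat_lit 6) (nat_lit 749) (nat_lit 0) (nat_lit 268) (nat_lit 261) (nat_lit 251)))) (PT.nd (nat_lit 156) (PT.nd (nat_lit 78) (PT.lf (nat_lit 56164) (nat_lit 6) (nat_lit 739) (nat_lit 0) (nat_lit 269) (nat_lit 261) (nat_lit 250)) (PT.lf (nat_lit 55328) (nat_lit 6) (nat_lit 728) (nat_lit 0) (nat_lit 270) (nat_lit 261) (nat_lit 249))) (PT.nd (nat_lit 78) (PT.lf (nat_lit 54416) (nat_lit 6) (nat_lit 716) (nat_lit 0) (nat_lit 271) (nat_lit 261) (nat_lit 248)) (PT.lf (nat_lit 53428) (nat_lit 6) (nat_lit 703) (nat_lit 0) (nat_lit 272) (nat_lit 261) (nat_lit 247)))))) (PT.nd (nat_lit 624) (PT.nd (nat_lit 312) (PT.nd (nat_lit 156) (PT.nd (nat_lit 78) (PT.lf (nat_lit 52364)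 (nat_lit 6) (nat_lit 689) (nat_lit 0) (nat_lit 273) (nat_lit 261) (nat_lit 246)) (PT.lf (nat_lit 51224) (nat_lit 6) (nat_lit 674) (nat_lit 0) (nat_lit 274) (nat_lit 261) (nat_lit 245))) (PT.nd (nat_lit 78) (PT.lf (nat_lit 50008) (nat_lit 6) (nat_lit 658) (nat_lit 0) (nat_lit 275) (nat_lit 261) (nat_lit 244)) (PT.lf (nat_lit 48716) (nat_lit 6) (nat_lit 641) (nat_lit 0) (nat_lit 276) (nat_lit 261) (nat_lit 243)))) (PT.nd (nat_lit 156) (PT.nd (nat_lit 78) (PT.lf (nat_lit 47348) (nat_lit 6) (nat_lit 623) (nat_lit 0) (nat_lit 277) (nat_lit 261) (nat_lit 242)) (PT.lf (nat_lit 45904) (nat_lit 6) (nat_lit 604) (nat_lit 0) (nat_lit 278) (nat_lit 261) (nat_lit 241))) (PT.nd (nat_lit 78) (PT.lf (nat_lit 44384) (nat_lit 6) (nat_lit 584) (nat_lit 0) (nat_lit 279) (nat_lit 261) (nat_lit 240)) (PT.lf (nat_lit 42788) (nat_lit 6) (nat_lit 563) (nat_lit 0) (nat_lit 280) (nat_lit 261) (nat_lit 239))))) (PT.nd (nat_lit 312) (PT.nd (nat_lit 156) (PT.nd (nat_lit 78) (PT.lf (nat_lit 41116) (nat_lit 6) (nat_lit 541) (nat_lit 0)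 (nat_lit 281) (nat_lit 261) (nat_lit 238)) (PT.lf (nat_lit 39368) (nat_lit 6) (nat_lit 518) (nat_lit 0) (nat_lit 282) (nat_lit 261) (nat_lit 237))) (PT.nd (nat_lit 78) (PT.lf (nat_lit 37544) (nat_lit 6) (nat_lit 494) (nat_lit 0) (nat_lit 283) (nat_lit 261) (nat_lit 236)) (PT.lf (nat_lit 35644) (nat_lit 6) (nat_lit 469) (nat_lit 0) (nat_lit 284) (nat_lit 261) (nat_lit 235)))) (PT.nd (nat_lit 77220) (PT.nd (nat_lit 77142) (PT.lf (nat_lit 34428) (nat_lit 6) (nat_lit 453) (nat_lit 0) (nat_lit 285) (nat_lit 261) (nat_lit 234)) (PT.lf (nat_lit 33516) (nat_lit 6) (nat_lit 441) (nat_lit 5) (nat_lit 233) (nat_lit 262) (nat_lit 285))) (PT.nd (nat_lit 78) (PT.lf (nat_lit 34504) (nat_lit 6) (nat_lit 454) (nat_lit 5) (nat_lit 234) (nat_lit 262) (nat_lit 284)) (PT.lf (nat_lit 35720) (nat_lit 6) (nat_lit 470) (nat_lit 5) (nat_lit 235) (nat_lit 262) (nat_lit 283))))))) (PT.nd (nat_lit 1248) (PT.nd (nat_lit 624) (PT.nd (nat_lit 312) (PT.nd (nat_lit 156) (PT.nd (nat_lit 78) (PT.lf (nat_lit 37620) (nat_lit 6) (nat_lit 495)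 (nat_lit 5) (nat_lit 236) (nat_lit 262) (nat_lit 282)) (PT.lf (nat_lit 39444) (nat_lit 6) (nat_lit 519) (nat_lit 5) (nat_lit 237) (nat_lit 262) (nat_lit 281))) (PT.nd (nat_lit 78) (PT.lf (nat_lit 41192) (nat_lit 6) (nat_lit 542) (nat_lit 5) (nat_lit 238) (nat_lit 262) (nat_lit 280)) (PT.lf (nat_lit 42864) (nat_lit 6) (nat_lit 564) (nat_lit 5) (nat_lit 239) (nat_lit 262) (nat_lit 279)))) (PT.nd (nat_lit 156) (PT.nd (nat_lit 78) (PT.lf (nat_lit 44460) (nat_lit 6) (nat_lit 585) (nat_lit 5) (nat_lit 240) (nat_lit 262) (nat_lit 278)) (PT.lf (nat_lit 45980) (nat_lit 6) (nat_lit 605) (nat_lit 5) (nat_lit 241) (nat_lit 262) (nat_lit 277))) (PT.nd (nat_lit 78) (PT.lf (nat_lit 47424) (nat_lit 6) (nat_lit 624) (nat_lit 5) (nat_lit 242) (nat_lit 262) (nat_lit 276)) (PT.lf (nat_lit 48792) (nat_lit 6) (nat_lit 642) (nat_lit 5) (nat_lit 243) (nat_lit 262) (nat_lit 275))))) (PT.nd (nat_lit 312) (PT.nd (nat_lit 156) (PT.nd (nat_lit 78) (PT.lf (nat_lit 50084) (nat_lit 6) (nat_lit 659) (nat_lit 5) (nat_lit 244) (nat_lit 262)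 (nat_lit 274)) (PT.lf (nat_lit 51300) (nat_lit 6) (nat_lit 675) (nat_lit 5) (nat_lit 245) (nat_lit 262) (nat_lit 273))) (PT.nd (nat_lit 78) (PT.lf (nat_lit 52440) (nat_lit 6) (nat_lit 690) (nat_lit 5) (nat_lit 246) (nat_lit 262) (nat_lit 272)) (PT.lf (nat_lit 53504) (nat_lit 6) (nat_lit 704) (nat_lit 5) (nat_lit 247) (nat_lit 262) (nat_lit 271)))) (PT.nd (nat_lit 156) (PT.nd (nat_lit 78) (PT.lf (nat_lit 54492) (nat_lit 6) (nat_lit 717) (nat_lit 5) (nat_lit 248) (nat_lit 262) (nat_lit 270)) (PT.lf (nat_lit 55404) (nat_lit 6) (nat_lit 729) (nat_lit 5) (nat_lit 249) (nat_lit 262) (nat_lit 269))) (PT.nd (nat_lit 78) (PT.lf (nat_lit 56240) (nat_lit 6) (nat_lit 740) (nat_lit 5) (nat_lit 250) (nat_lit 262) (nat_lit 268)) (PT.lf (nat_lit 57000) (nat_lit 6) (nat_lit 750) (nat_lit 5) (nat_lit 251) (nat_lit 262) (nat_lit 267)))))) (PT.nd (nat_lit 624) (PT.nd (nat_lit 312) (PT.nd (nat_lit 156) (PT.nd (nat_lit 78) (PT.lf (nat_lit 57684) (nat_lit 6) (nat_lit 759) (nat_lit 5) (nat_lit 252) (nat_lit 262) (nat_lit 266))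 (PT.lf (nat_lit 58292) (nat_lit 6) (nat_lit 767) (nat_lit 5) (nat_lit 253) (nat_lit 262) (nat_lit 265))) (PT.nd (nat_lit 78) (PT.lf (nat_lit 58824) (nat_lit 6) (nat_lit 774) (nat_lit 5) (nat_lit 254) (nat_lit 262) (nat_lit 264)) (PT.lf (nat_lit 59280) (nat_lit 6) (nat_lit 780) (nat_lit 5) (nat_lit 255) (nat_lit 262) (nat_lit 263)))) (PT.nd (nat_lit 156) (PT.nd (nat_lit 78) (PT.lf (nat_lit 59660) (nat_lit 3) (nat_lit 785) (nat_lit 4) (nat_lit 256) (nat_lit 262) (nat_lit 262)) (PT.lf (nat_lit 59888) (nat_lit 6) (nat_lit 788) (nat_lit 4) (nat_lit 257) (nat_lit 262) (nat_lit 261))) (PT.nd (nat_lit 78) (PT.lf (nat_lit 60040) (nat_lit 6) (nat_lit 790) (nat_lit 4) (nat_lit 258) (nat_lit 262) (nat_lit 260)) (PT.lf (nat_lit 59964) (nat_lit 3) (nat_lit 789) (nat_lit 2) (nat_lit 259) (nat_lit 262) (nat_lit 259))))) (PT.nd (nat_lit 312) (PT.nd (nat_lit 156) (PT.nd (nat_lit 78) (PT.lf (nat_lit 60040) (nat_lit 6) (nat_lit 790) (nat_lit 2) (nat_lit 260) (nat_lit 262) (nat_lit 258)) (PT.lf (nat_lit 59888) (nat_lit 6) (nat_lit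 788) (nat_lit 2) (nat_lit 261) (nat_lit 262) (nat_lit 257))) (PT.nd (nat_lit 78) (PT.lf (nat_lit 59660) (nat_lit 3) (nat_lit 785) (nat_lit 0) (nat_lit 262) (nat_lit 262) (nat_lit 256)) (PT.lf (nat_lit 59280) (nat_lit 6) (nat_lit 780) (nat_lit 0) (nat_lit 263) (nat_lit 262) (nat_lit 255)))) (PT.nd (nat_lit 156) (PT.nd (nat_lit 78) (PT.lf (nat_lit 58824) (nat_lit 6) (nat_lit 774) (nat_lit 0) (nat_lit 264) (nat_lit 262) (nat_lit 254)) (PT.lf (nat_lit 58292) (nat_lit 6) (nat_lit 767) (nat_lit 0) (nat_lit 265) (nat_lit 262) (nat_lit 253))) (PT.nd (nat_lit 78) (PT.lf (nat_lit 57684) (nat_lit 6) (nat_lit 759) (nat_lit 0) (nat_lit 266) (nat_lit 262) (nat_lit 252)) (PT.lf (nat_lit 57000) (nat_lit 6) (nat_lit 750) (nat_lit 0) (nat_lit 267) (nat_lit 262) (nat_lit 251))))))))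
noncomputable def pc28 : PT := (PT.nd (nat_lit 79404) (PT.nd (nat_lit 1170) (PT.nd (nat_lit 546) (PT.nd (nat_lit 234) (PT.nd (nat_lit 78) (PT.lf (nat_lit 56240) (nat_lit 6) (nat_lit 740) (nat_lit 0) (nat_lit 268) (nat_lit 262) (nat_lit 250)) (PT.nd (nat_lit 78) (PT.lf (nat_lit 55404) (nat_lit 6) (nat_lit 729) (nat_lit 0) (nat_lit 269) (nat_lit 262) (nat_lit 249)) (PT.lf (nat_lit 54492) (nat_lit 6) (nat_lit 717) (nat_lit 0) (nat_lit 270) (nat_lit 262) (nat_lit 248)))) (PT.nd (nat_lit 156) (PT.nd (nat_lit 78) (PT.lf (nat_lit 53504) (nat_lit 6) (nat_lit 704) (nat_lit 0) (nat_lit 271) (nat_lit 262) (nat_lit 247)) (PT.lf (nat_lit 52440) (nat_lit 6) (nat_lit 690) (nat_lit 0) (nat_lit 272) (nat_lit 262) (nat_lit 246))) (PT.nd (nat_lit 78) (PT.lf (nat_lit 51300) (nat_lit 6) (nat_lit 675) (nat_lit 0) (nat_lit 273) (nat_lit 262) (nat_lit 245)) (PT.lf (nat_lit 50084) (nat_lit 6) (nat_lit 659) (nat_lit 0) (nat_lit 274) (nat_lit 262) (nat_lit 244))))) (PT.nd (nat_lit 312) (PT.nd (nat_lit 156) (PT.nd (nat_lit 78) (PT.lf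 (nat_lit 48792) (nat_lit 6) (nat_lit 642) (nat_lit 0) (nat_lit 275) (nat_lit 262) (nat_lit 243)) (PT.lf (nat_lit 47424) (nat_lit 6) (nat_lit 624) (nat_lit 0) (nat_lit 276) (nat_lit 262) (nat_lit 242))) (PT.nd (nat_lit 78) (PT.lf (nat_lit 45980) (nat_lit 6) (nat_lit 605) (nat_lit 0) (nat_lit 277) (nat_lit 262) (nat_lit 241)) (PT.lf (nat_lit 44460) (nat_lit 6) (nat_lit 585) (nat_lit 0) (nat_lit 278) (nat_lit 262) (nat_lit 240)))) (PT.nd (nat_lit 156) (PT.nd (nat_lit 78) (PT.lf (nat_lit 42864) (nat_lit 6) (nat_lit 564) (nat_lit 0) (nat_lit 279) (nat_lit 262) (nat_lit 239)) (PT.lf (nat_lit 41192) (nat_lit 6) (nat_lit 542) (nat_lit 0) (nat_lit 280) (nat_lit 262) (nat_lit 238))) (PT.nd (nat_lit 78) (PT.lf (nat_lit 39444) (nat_lit 6) (nat_lit 519) (nat_lit 0) (nat_lit 281) (nat_lit 262) (nat_lit 237)) (PT.lf (nat_lit 37620) (nat_lit 6) (nat_lit 495) (nat_lit 0) (nat_lit 282) (nat_lit 262) (nat_lit 236)))))) (PT.nd (nat_lit 77610) (PT.nd (nat_lit 77298) (PT.nd (nat_lit 156) (PT.nd (nat_lit 78) (PT.lf (nat_lit 35720)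 (nat_lit 6) (nat_lit 470) (nat_lit 0) (nat_lit 283) (nat_lit 262) (nat_lit 235)) (PT.lf (nat_lit 34504) (nat_lit 6) (nat_lit 454) (nat_lit 0) (nat_lit 284) (nat_lit 262) (nat_lit 234))) (PT.nd (nat_lit 77064) (PT.lf (nat_lit 33516) (nat_lit 6) (nat_lit 441) (nat_lit 0) (nat_lit 285) (nat_lit 262) (nat_lit 233)) (PT.lf (nat_lit 32604) (nat_lit 6) (nat_lit 429) (nat_lit 5) (nat_lit 232) (nat_lit 263) (nat_lit 285)))) (PT.nd (nat_lit 156) (PT.nd (nat_lit 78) (PT.lf (nat_lit 33592) (nat_lit 6) (nat_lit 442) (nat_lit 5) (nat_lit 233) (nat_lit 263) (nat_lit 284)) (PT.lf (nat_lit 34580) (nat_lit 6) (nat_lit 455) (nat_lit 5) (nat_lit 234) (nat_lit 263) (nat_lit 283))) (PT.nd (nat_lit 78) (PT.lf (nat_lit 35796) (nat_lit 6) (nat_lit 471) (nat_lit 5) (nat_lit 235) (nat_lit 263) (nat_lit 282)) (PT.lf (nat_lit 37696) (nat_lit 6) (nat_lit 496) (nat_lit 5) (nat_lit 236) (nat_lit 263) (nat_lit 281))))) (PT.nd (nat_lit 312) (PT.nd (nat_lit 156) (PT.nd (nat_lit 78) (PT.lf (nat_lit 39520) (nat_lit 6) (nat_lit 520) (nat_lit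 5) (nat_lit 237) (nat_lit 263) (nat_lit 280)) (PT.lf (nat_lit 41268) (nat_lit 6) (nat_lit 543) (nat_lit 5) (nat_lit 238) (nat_lit 263) (nat_lit 279))) (PT.nd (nat_lit 78) (PT.lf (nat_lit 42940) (nat_lit 6) (nat_lit 565) (nat_lit 5) (nat_lit 239) (nat_lit 263) (nat_lit 278)) (PT.lf (nat_lit 44536) (nat_lit 6) (nat_lit 586) (nat_lit 5) (nat_lit 240) (nat_lit 263) (nat_lit 277)))) (PT.nd (nat_lit 156) (PT.nd (nat_lit 78) (PT.lf (nat_lit 46056) (nat_lit 6) (nat_lit 606) (nat_lit 5) (nat_lit 241) (nat_lit 263) (nat_lit 276)) (PT.lf (nat_lit 47500) (nat_lit 6) (nat_lit 625) (nat_lit 5) (nat_lit 242) (nat_lit 263) (nat_lit 275))) (PT.nd (nat_lit 78) (PT.lf (nat_lit 48868) (nat_lit 6) (nat_lit 643) (nat_lit 5) (nat_lit 243) (nat_lit 263) (nat_lit 274)) (PT.lf (nat_lit 50160) (nat_lit 6) (nat_lit 660) (nat_lit 5) (nat_lit 244) (nat_lit 263) (nat_lit 273))))))) (PT.nd (nat_lit 1170) (PT.nd (nat_lit 546) (PT.nd (nat_lit 234) (PT.nd (nat_lit 78) (PT.lf (nat_lit 51376) (nat_lit 6) (nat_lit 676) (nat_lit 5) (nat_lit 245)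 (nat_lit 263) (nat_lit 272)) (PT.nd (nat_lit 78) (PT.lf (nat_lit 52516) (nat_lit 6) (nat_lit 691) (nat_lit 5) (nat_lit 246) (nat_lit 263) (nat_lit 271)) (PT.lf (nat_lit 53580) (nat_lit 6) (nat_lit 705) (nat_lit 5) (nat_lit 247) (nat_lit 263) (nat_lit 270)))) (PT.nd (nat_lit 156) (PT.nd (nat_lit 78) (PT.lf (nat_lit 54568) (nat_lit 6) (nat_lit 718) (nat_lit 5) (nat_lit 248) (nat_lit 263) (nat_lit 269)) (PT.lf (nat_lit 55480) (nat_lit 6) (nat_lit 730) (nat_lit 5) (nat_lit 249) (nat_lit 263) (nat_lit 268))) (PT.nd (nat_lit 78) (PT.lf (nat_lit 56316) (nat_lit 6) (nat_lit 741) (nat_lit 5) (nat_lit 250) (nat_lit 263) (nat_lit 267)) (PT.lf (nat_lit 57076) (nat_lit 6) (nat_lit 751) (nat_lit 5) (nat_lit 251) (nat_lit 263) (nat_lit 266))))) (PT.nd (nat_lit 312) (PT.nd (nat_lit 156) (PT.nd (nat_lit 78) (PT.lf (nat_lit 57760) (nat_lit 6) (nat_lit 760) (nat_lit 5) (nat_lit 252) (nat_lit 263) (nat_lit 265)) (PT.lf (nat_lit 58368) (nat_lit 6) (nat_lit 768) (nat_lit 5) (nat_lit 253) (nat_lit 263) (nat_lit 264))) (PT.nd (nat_lit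 78) (PT.lf (nat_lit 58900) (nat_lit 3) (nat_lit 775) (nat_lit 4) (nat_lit 254) (nat_lit 263) (nat_lit 263)) (PT.lf (nat_lit 59280) (nat_lit 6) (nat_lit 780) (nat_lit 4) (nat_lit 255) (nat_lit 263) (nat_lit 262)))) (PT.nd (nat_lit 156) (PT.nd (nat_lit 78) (PT.lf (nat_lit 59584) (nat_lit 6) (nat_lit 784) (nat_lit 4) (nat_lit 256) (nat_lit 263) (nat_lit 261)) (PT.lf (nat_lit 59812) (nat_lit 6) (nat_lit 787) (nat_lit 4) (nat_lit 257) (nat_lit 263) (nat_lit 260))) (PT.nd (nat_lit 78) (PT.lf (nat_lit 59736) (nat_lit 6) (nat_lit 786) (nat_lit 4) (nat_lit 258) (nat_lit 263) (nat_lit 259)) (PT.lf (nat_lit 59736) (nat_lit 6) (nat_lit 786) (nat_lit 2) (nat_lit 259) (nat_lit 263) (nat_lit 258)))))) (PT.nd (nat_lit 624) (PT.nd (nat_lit 312) (PT.nd (nat_lit 156) (PT.nd (nat_lit 78) (PT.lf (nat_lit 59812) (nat_lit 6) (nat_lit 787) (nat_lit 2) (nat_lit 260) (nat_lit 263) (nat_lit 257)) (PT.lf (nat_lit 59584) (nat_lit 6) (nat_lit 784) (nat_lit 2) (nat_lit 261) (nat_lit 263) (nat_lit 256))) (PT.nd (nat_lit 78) (PT.lf (nat_lit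 59280) (nat_lit 6) (nat_lit 780) (nat_lit 2) (nat_lit 262) (nat_lit 263) (nat_lit 255)) (PT.lf (nat_lit 58900) (nat_lit 3) (nat_lit 775) (nat_lit 0) (nat_lit 263) (nat_lit 263) (nat_lit 254)))) (PT.nd (nat_lit 156) (PT.nd (nat_lit 78) (PT.lf (nat_lit 58368) (nat_lit 6) (nat_lit 768) (nat_lit 0) (nat_lit 264) (nat_lit 263) (nat_lit 253)) (PT.lf (nat_lit 57760) (nat_lit 6) (nat_lit 760) (nat_lit 0) (nat_lit 265) (nat_lit 263) (nat_lit 252))) (PT.nd (nat_lit 78) (PT.lf (nat_lit 57076) (nat_lit 6) (nat_lit 751) (nat_lit 0) (nat_lit 266) (nat_lit 263) (nat_lit 251)) (PT.lf (nat_lit 56316) (nat_lit 6) (nat_lit 741) (nat_lit 0) (nat_lit 267) (nat_lit 263) (nat_lit 250))))) (PT.nd (nat_lit 312) (PT.nd (nat_lit 156) (PT.nd (nat_lit 78) (PT.lf (nat_lit 55480) (nat_lit 6) (nat_lit 730) (nat_lit 0) (nat_lit 268) (nat_lit 263) (nat_lit 249)) (PT.lf (nat_lit 54568) (nat_lit 6) (nat_lit 718) (nat_lit 0) (nat_lit 269) (nat_lit 263) (nat_lit 248))) (PT.nd (nat_lit 78) (PT.lf (nat_lit 53580) (nat_lit 6) (nat_lit 705) (nat_lit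 0) (nat_lit 270) (nat_lit 263) (nat_lit 247)) (PT.lf (nat_lit 52516) (nat_lit 6) (nat_lit 691) (nat_lit 0) (nat_lit 271) (nat_lit 263) (nat_lit 246)))) (PT.nd (nat_lit 156) (PT.nd (nat_lit 78) (PT.lf (nat_lit 51376) (nat_lit 6) (nat_lit 676) (nat_lit 0) (nat_lit 272) (nat_lit 263) (nat_lit 245)) (PT.lf (nat_lit 50160) (nat_lit 6) (nat_lit 660) (nat_lit 0) (nat_lit 273) (nat_lit 263) (nat_lit 244))) (PT.nd (nat_lit 78) (PT.lf (nat_lit 48868) (nat_lit 6) (nat_lit 643) (nat_lit 0) (nat_lit 274) (nat_lit 263) (nat_lit 243)) (PT.lf (nat_lit 47500) (nat_lit 6) (nat_lit 625) (nat_lit 0) (nat_lit 275) (nat_lit 263) (nat_lit 242))))))))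
noncomputable def pc29 : PT := (PT.nd (nat_lit 79248) (PT.nd (nat_lit 78000) (PT.nd (nat_lit 546) (PT.nd (nat_lit 234) (PT.nd (nat_lit 78) (PT.lf (nat_lit 46056) (nat_lit 6) (nat_lit 606) (nat_lit 0) (nat_lit 276) (nat_lit 263) (nat_lit 241)) (PT.nd (nat_lit 78) (PT.lf (nat_lit 44536) (nat_lit 6) (nat_lit 586) (nat_lit 0) (nat_lit 277) (nat_lit 263) (nat_lit 240)) (PT.lf (nat_lit 42940) (nat_lit 6) (nat_lit 565) (nat_lit 0) (nat_lit 278) (nat_lit 263) (nat_lit 239)))) (PT.nd (nat_lit 156) (PT.nd (nat_lit 78) (PT.lf (nat_lit 41268) (nat_lit 6) (nat_lit 543) (nat_lit 0) (nat_lit 279) (nat_lit 263) (nat_lit 238)) (PT.lf (nat_lit 39520) (nat_lit 6) (nat_lit 520) (nat_lit 0) (nat_lit 280) (nat_lit 263) (nat_lit 237))) (PT.nd (nat_lit 78) (PT.lf (nat_lit 37696) (nat_lit 6) (nat_lit 496) (nat_lit 0) (nat_lit 281) (nat_lit 263) (nat_lit 236)) (PT.lf (nat_lit 35796) (nat_lit 6) (nat_lit 471) (nat_lit 0) (nat_lit 282) (nat_lit 263) (nat_lit 235))))) (PT.nd (nat_lit 77142) (PT.nd (nat_lit 156) (PT.nd (nat_lit 78) (PT.lf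 (nat_lit 34580) (nat_lit 6) (nat_lit 455) (nat_lit 0) (nat_lit 283) (nat_lit 263) (nat_lit 234)) (PT.lf (nat_lit 33592) (nat_lit 6) (nat_lit 442) (nat_lit 0) (nat_lit 284) (nat_lit 263) (nat_lit 233))) (PT.nd (nat_lit 76908) (PT.lf (nat_lit 32604) (nat_lit 6) (nat_lit 429) (nat_lit 0) (nat_lit 285) (nat_lit 263) (nat_lit 232)) (PT.lf (nat_lit 30780) (nat_lit 6) (nat_lit 405) (nat_lit 5) (nat_lit 230) (nat_lit 264) (nat_lit 286)))) (PT.nd (nat_lit 156) (PT.nd (nat_lit 78) (PT.lf (nat_lit 31768) (nat_lit 6) (nat_lit 418) (nat_lit 5) (nat_lit 231) (nat_lit 264) (nat_lit 285)) (PT.lf (nat_lit 32680) (nat_lit 6) (nat_lit 430) (nat_lit 5) (nat_lit 232) (nat_lit 264) (nat_lit 284))) (PT.nd (nat_lit 78) (PT.lf (nat_lit 33668) (nat_lit 6) (nat_lit 443) (nat_lit 5) (nat_lit 233) (nat_lit 264) (nat_lit 283)) (PT.lf (nat_lit 34656) (nat_lit 6) (nat_lit 456) (nat_lit 5) (nat_lit 234) (nat_lit 264) (nat_lit 282)))))) (PT.nd (nat_lit 624) (PT.nd (nat_lit 312) (PT.nd (nat_lit 156) (PT.nd (nat_lit 78) (PT.lf (nat_lit 35872)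 (nat_lit 6) (nat_lit 472) (nat_lit 5) (nat_lit 235) (nat_lit 264) (nat_lit 281)) (PT.lf (nat_lit 37772) (nat_lit 6) (nat_lit 497) (nat_lit 5) (nat_lit 236) (nat_lit 264) (nat_lit 280))) (PT.nd (nat_lit 78) (PT.lf (nat_lit 39596) (nat_lit 6) (nat_lit 521) (nat_lit 5) (nat_lit 237) (nat_lit 264) (nat_lit 279)) (PT.lf (nat_lit 41344) (nat_lit 6) (nat_lit 544) (nat_lit 5) (nat_lit 238) (nat_lit 264) (nat_lit 278)))) (PT.nd (nat_lit 156) (PT.nd (nat_lit 78) (PT.lf (nat_lit 43016) (nat_lit 6) (nat_lit 566) (nat_lit 5) (nat_lit 239) (nat_lit 264) (nat_lit 277)) (PT.lf (nat_lit 44612) (nat_lit 6) (nat_lit 587) (nat_lit 5) (nat_lit 240) (nat_lit 264) (nat_lit 276))) (PT.nd (nat_lit 78) (PT.lf (nat_lit 46132) (nat_lit 6) (nat_lit 607) (nat_lit 5) (nat_lit 241) (nat_lit 264) (nat_lit 275)) (PT.lf (nat_lit 47576) (nat_lit 6) (nat_lit 626) (nat_lit 5) (nat_lit 242) (nat_lit 264) (nat_lit 274))))) (PT.nd (nat_lit 312) (PT.nd (nat_lit 156) (PT.nd (nat_lit 78) (PT.lf (nat_lit 48944) (nat_lit 6) (nat_lit 644) (nat_lit 5)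 (nat_lit 243) (nat_lit 264) (nat_lit 273)) (PT.lf (nat_lit 50236) (nat_lit 6) (nat_lit 661) (nat_lit 5) (nat_lit 244) (nat_lit 264) (nat_lit 272))) (PT.nd (nat_lit 78) (PT.lf (nat_lit 51452) (nat_lit 6) (nat_lit 677) (nat_lit 5) (nat_lit 245) (nat_lit 264) (nat_lit 271)) (PT.lf (nat_lit 52592) (nat_lit 6) (nat_lit 692) (nat_lit 5) (nat_lit 246) (nat_lit 264) (nat_lit 270)))) (PT.nd (nat_lit 156) (PT.nd (nat_lit 78) (PT.lf (nat_lit 53656) (nat_lit 6) (nat_lit 706) (nat_lit 5) (nat_lit 247) (nat_lit 264) (nat_lit 269)) (PT.lf (nat_lit 54644) (nat_lit 6) (nat_lit 719) (nat_lit 5) (nat_lit 248) (nat_lit 264) (nat_lit 268))) (PT.nd (nat_lit 78) (PT.lf (nat_lit 55556) (nat_lit 6) (nat_lit 731) (nat_lit 5) (nat_lit 249) (nat_lit 264) (nat_lit 267)) (PT.lf (nat_lit 56392) (nat_lit 6) (nat_lit 742) (nat_lit 5) (nat_lit 250) (nat_lit 264) (nat_lit 266))))))) (PT.nd (nat_lit 1248) (PT.nd (nat_lit 624) (PT.nd (nat_lit 312) (PT.nd (nat_lit 156) (PT.nd (nat_lit 78) (PT.lf (nat_lit 57152) (nat_lit 6) (nat_lit 752) (nat_lit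 5) (nat_lit 251) (nat_lit 264) (nat_lit 265)) (PT.lf (nat_lit 57836) (nat_lit 3) (nat_lit 761) (nat_lit 4) (nat_lit 252) (nat_lit 264) (nat_lit 264))) (PT.nd (nat_lit 78) (PT.lf (nat_lit 58368) (nat_lit 6) (nat_lit 768) (nat_lit 4) (nat_lit 253) (nat_lit 264) (nat_lit 263)) (PT.lf (nat_lit 58824) (nat_lit 6) (nat_lit 774) (nat_lit 4) (nat_lit 254) (nat_lit 264) (nat_lit 262)))) (PT.nd (nat_lit 156) (PT.nd (nat_lit 78) (PT.lf (nat_lit 59204) (nat_lit 6) (nat_lit 779) (nat_lit 4) (nat_lit 255) (nat_lit 264) (nat_lit 261)) (PT.lf (nat_lit 59508) (nat_lit 6) (nat_lit 783) (nat_lit 4) (nat_lit 256) (nat_lit 264) (nat_lit 260))) (PT.nd (nat_lit 78) (PT.lf (nat_lit 59432) (nat_lit 6) (nat_lit 782) (nat_lit 4) (nat_lit 257) (nat_lit 264) (nat_lit 259)) (PT.lf (nat_lit 59356) (nat_lit 3) (nat_lit 781) (nat_lit 2) (nat_lit 258) (nat_lit 264) (nat_lit 258))))) (PT.nd (nat_lit 312) (PT.nd (nat_lit 156) (PT.nd (nat_lit 78) (PT.lf (nat_lit 59432) (nat_lit 6) (nat_lit 782) (nat_lit 2) (nat_lit 259) (nat_lit 264) (nat_lit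 257)) (PT.lf (nat_lit 59508) (nat_lit 6) (nat_lit 783) (nat_lit 2) (nat_lit 260) (nat_lit 264) (nat_lit 256))) (PT.nd (nat_lit 78) (PT.lf (nat_lit 59204) (nat_lit 6) (nat_lit 779) (nat_lit 2) (nat_lit 261) (nat_lit 264) (nat_lit 255)) (PT.lf (nat_lit 58824) (nat_lit 6) (nat_lit 774) (nat_lit 2) (nat_lit 262) (nat_lit 264) (nat_lit 254)))) (PT.nd (nat_lit 156) (PT.nd (nat_lit 78) (PT.lf (nat_lit 58368) (nat_lit 6) (nat_lit 768) (nat_lit 2) (nat_lit 263) (nat_lit 264) (nat_lit 253)) (PT.lf (nat_lit 57836) (nat_lit 3) (nat_lit 761) (nat_lit 0) (nat_lit 264) (nat_lit 264) (nat_lit 252))) (PT.nd (nat_lit 78) (PT.lf (nat_lit 57152) (nat_lit 6) (nat_lit 752) (nat_lit 0) (nat_lit 265) (nat_lit 264) (nat_lit 251)) (PT.lf (nat_lit 56392) (nat_lit 6) (nat_lit 742) (nat_lit 0) (nat_lit 266) (nat_lit 264) (nat_lit 250)))))) (PT.nd (nat_lit 624) (PT.nd (nat_lit 312) (PT.nd (nat_lit 156) (PT.nd (nat_lit 78) (PT.lf (nat_lit 55556) (nat_lit 6) (nat_lit 731) (nat_lit 0) (nat_lit 267) (nat_lit 264) (nat_lit 249)) (PT.lf (nat_lit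 54644) (nat_lit 6) (nat_lit 719) (nat_lit 0) (nat_lit 268) (nat_lit 264) (nat_lit 248))) (PT.nd (nat_lit 78) (PT.lf (nat_lit 53656) (nat_lit 6) (nat_lit 706) (nat_lit 0) (nat_lit 269) (nat_lit 264) (nat_lit 247)) (PT.lf (nat_lit 52592) (nat_lit 6) (nat_lit 692) (nat_lit 0) (nat_lit 270) (nat_lit 264) (nat_lit 246)))) (PT.nd (nat_lit 156) (PT.nd (nat_lit 78) (PT.lf (nat_lit 51452) (nat_lit 6) (nat_lit 677) (nat_lit 0) (nat_lit 271) (nat_lit 264) (nat_lit 245)) (PT.lf (nat_lit 50236) (nat_lit 6) (nat_lit 661) (nat_lit 0) (nat_lit 272) (nat_lit 264) (nat_lit 244))) (PT.nd (nat_lit 78) (PT.lf (nat_lit 48944) (nat_lit 6) (nat_lit 644) (nat_lit 0) (nat_lit 273) (nat_lit 264) (nat_lit 243)) (PT.lf (nat_lit 47576) (nat_lit 6) (nat_lit 626) (nat_lit 0) (nat_lit 274) (nat_lit 264) (nat_lit 242))))) (PT.nd (nat_lit 312) (PT.nd (nat_lit 156) (PT.nd (nat_lit 78) (PT.lf (nat_lit 46132) (nat_lit 6) (nat_lit 607) (nat_lit 0) (nat_lit 275) (nat_lit 264) (nat_lit 241)) (PT.lf (nat_lit 44612) (nat_lit 6) (nat_lit 587) (nat_lit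 0) (nat_lit 276) (nat_lit 264) (nat_lit 240))) (PT.nd (nat_lit 78) (PT.lf (nat_lit 43016) (nat_lit 6) (nat_lit 566) (nat_lit 0) (nat_lit 277) (nat_lit 264) (nat_lit 239)) (PT.lf (nat_lit 41344) (nat_lit 6) (nat_lit 544) (nat_lit 0) (nat_lit 278) (nat_lit 264) (nat_lit 238)))) (PT.nd (nat_lit 156) (PT.nd (nat_lit 78) (PT.lf (nat_lit 39596) (nat_lit 6) (nat_lit 521) (nat_lit 0) (nat_lit 279) (nat_lit 264) (nat_lit 237)) (PT.lf (nat_lit 37772) (nat_lit 6) (nat_lit 497) (nat_lit 0) (nat_lit 280) (nat_lit 264) (nat_lit 236))) (PT.nd (nat_lit 78) (PT.lf (nat_lit 35872) (nat_lit 6) (nat_lit 472) (nat_lit 0) (nat_lit 281) (nat_lit 264) (nat_lit 235)) (PT.lf (nat_lit 34656) (nat_lit 6) (nat_lit 456) (nat_lit 0) (nat_lit 282) (nat_lit 264) (nat_lit 234))))))))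
noncomputable def pc30 : PT := (PT.nd (nat_lit 79092) (PT.nd (nat_lit 77844) (PT.nd (nat_lit 77220) (PT.nd (nat_lit 234) (PT.nd (nat_lit 78) (PT.lf (nat_lit 33668) (nat_lit 6) (nat_lit 443) (nat_lit 0) (nat_lit 283) (nat_lit 264) (nat_lit 233)) (PT.nd (nat_lit 78) (PT.lf (nat_lit 32680) (nat_lit 6) (nat_lit 430) (nat_lit 0) (nat_lit 284) (nat_lit 264) (nat_lit 232)) (PT.lf (nat_lit 31768) (nat_lit 6) (nat_lit 418) (nat_lit 0) (nat_lit 285) (nat_lit 264) (nat_lit 231)))) (PT.nd (nat_lit 76830) (PT.nd (nat_lit 76752) (PT.lf (nat_lit 30780) (nat_lit 6) (nat_lit 405) (nat_lit 0) (nat_lit 286) (nat_lit 264) (nat_lit 230)) (PT.lf (nat_lit 29944) (nat_lit 6) (nat_lit 394) (nat_lit 5) (nat_lit 229) (nat_lit 265) (nat_lit 286))) (PT.nd (nat_lit 78) (PT.lf (nat_lit 30856) (nat_lit 6) (nat_lit 406) (nat_lit 5) (nat_lit 230) (nat_lit 265) (nat_lit 285)) (PT.lf (nat_lit 31844) (nat_lit 6) (nat_lit 419) (nat_lit 5) (nat_lit 231) (nat_lit 265) (nat_lit 284))))) (PT.nd (nat_lit 312) (PT.nd (nat_lit 156) (PT.nd (nat_lit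 78) (PT.lf (nat_lit 32756) (nat_lit 6) (nat_lit 431) (nat_lit 5) (nat_lit 232) (nat_lit 265) (nat_lit 283)) (PT.lf (nat_lit 33744) (nat_lit 6) (nat_lit 444) (nat_lit 5) (nat_lit 233) (nat_lit 265) (nat_lit 282))) (PT.nd (nat_lit 78) (PT.lf (nat_lit 34732) (nat_lit 6) (nat_lit 457) (nat_lit 5) (nat_lit 234) (nat_lit 265) (nat_lit 281)) (PT.lf (nat_lit 35948) (nat_lit 6) (nat_lit 473) (nat_lit 5) (nat_lit 235) (nat_lit 265) (nat_lit 280)))) (PT.nd (nat_lit 156) (PT.nd (nat_lit 78) (PT.lf (nat_lit 37848) (nat_lit 6) (nat_lit 498) (nat_lit 5) (nat_lit 236) (nat_lit 265) (nat_lit 279)) (PT.lf (nat_lit 39672) (nat_lit 6) (nat_lit 522) (nat_lit 5) (nat_lit 237) (nat_lit 265) (nat_lit 278))) (PT.nd (nat_lit 78) (PT.lf (nat_lit 41420) (nat_lit 6) (nat_lit 545) (nat_lit 5) (nat_lit 238) (nat_lit 265) (nat_lit 277)) (PT.lf (nat_lit 43092) (nat_lit 6) (nat_lit 567) (nat_lit 5) (nat_lit 239) (nat_lit 265) (nat_lit 276)))))) (PT.nd (nat_lit 624) (PT.nd (nat_lit 312) (PT.nd (nat_lit 156) (PT.nd (nat_lit 78) (PT.lf (nat_lit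 44688) (nat_lit 6) (nat_lit 588) (nat_lit 5) (nat_lit 240) (nat_lit 265) (nat_lit 275)) (PT.lf (nat_lit 46208) (nat_lit 6) (nat_lit 608) (nat_lit 5) (nat_lit 241) (nat_lit 265) (nat_lit 274))) (PT.nd (nat_lit 78) (PT.lf (nat_lit 47652) (nat_lit 6) (nat_lit 627) (nat_lit 5) (nat_lit 242) (nat_lit 265) (nat_lit 273)) (PT.lf (nat_lit 49020) (nat_lit 6) (nat_lit 645) (nat_lit 5) (nat_lit 243) (nat_lit 265) (nat_lit 272)))) (PT.nd (nat_lit 156) (PT.nd (nat_lit 78) (PT.lf (nat_lit 50312) (nat_lit 6) (nat_lit 662) (nat_lit 5) (nat_lit 244) (nat_lit 265) (nat_lit 271)) (PT.lf (nat_lit 51528) (nat_lit 6) (nat_lit 678) (nat_lit 5) (nat_lit 245) (nat_lit 265) (nat_lit 270))) (PT.nd (nat_lit 78) (PT.lf (nat_lit 52668) (nat_lit 6) (nat_lit 693) (nat_lit 5) (nat_lit 246) (nat_lit 265) (nat_lit 269)) (PT.lf (nat_lit 53732) (nat_lit 6) (nat_lit 707) (nat_lit 5) (nat_lit 247) (nat_lit 265) (nat_lit 268))))) (PT.nd (nat_lit 312) (PT.nd (nat_lit 156) (PT.nd (nat_lit 78) (PT.lf (nat_lit 54720) (nat_lit 6) (nat_lit 720) (nat_lit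 5) (nat_lit 248) (nat_lit 265) (nat_lit 267)) (PT.lf (nat_lit 55632) (nat_lit 6) (nat_lit 732) (nat_lit 5) (nat_lit 249) (nat_lit 265) (nat_lit 266))) (PT.nd (nat_lit 78) (PT.lf (nat_lit 56468) (nat_lit 3) (nat_lit 743) (nat_lit 4) (nat_lit 250) (nat_lit 265) (nat_lit 265)) (PT.lf (nat_lit 57152) (nat_lit 6) (nat_lit 752) (nat_lit 4) (nat_lit 251) (nat_lit 265) (nat_lit 264)))) (PT.nd (nat_lit 156) (PT.nd (nat_lit 78) (PT.lf (nat_lit 57760) (nat_lit 6) (nat_lit 760) (nat_lit 4) (nat_lit 252) (nat_lit 265) (nat_lit 263)) (PT.lf (nat_lit 58292) (nat_lit 6) (nat_lit 767) (nat_lit 4) (nat_lit 253) (nat_lit 265) (nat_lit 262))) (PT.nd (nat_lit 78) (PT.lf (nat_lit 58748) (nat_lit 6) (nat_lit 773) (nat_lit 4) (nat_lit 254) (nat_lit 265) (nat_lit 261)) (PT.lf (nat_lit 59128) (nat_lit 6) (nat_lit 778) (nat_lit 4) (nat_lit 255) (nat_lit 265) (nat_lit 260))))))) (PT.nd (nat_lit 1248) (PT.nd (nat_lit 624) (PT.nd (nat_lit 312) (PT.nd (nat_lit 156) (PT.nd (nat_lit 78) (PT.lf (nat_lit 59052) (nat_lit 6) (nat_lit 777) (nat_lit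 4) (nat_lit 256) (nat_lit 265) (nat_lit 259)) (PT.lf (nat_lit 58976) (nat_lit 6) (nat_lit 776) (nat_lit 4) (nat_lit 257) (nat_lit 265) (nat_lit 258))) (PT.nd (nat_lit 78) (PT.lf (nat_lit 58976) (nat_lit 6) (nat_lit 776) (nat_lit 2) (nat_lit 258) (nat_lit 265) (nat_lit 257)) (PT.lf (nat_lit 59052) (nat_lit 6) (nat_lit 777) (nat_lit 2) (nat_lit 259) (nat_lit 265) (nat_lit 256)))) (PT.nd (nat_lit 156) (PT.nd (nat_lit 78) (PT.lf (nat_lit 59128) (nat_lit 6) (nat_lit 778) (nat_lit 2) (nat_lit 260) (nat_lit 265) (nat_lit 255)) (PT.lf (nat_lit 58748) (nat_lit 6) (nat_lit 773) (nat_lit 2) (nat_lit 261) (nat_lit 265) (nat_lit 254))) (PT.nd (nat_lit 78) (PT.lf (nat_lit 58292) (nat_lit 6) (nat_lit 767) (nat_lit 2) (nat_lit 262) (nat_lit 265) (nat_lit 253)) (PT.lf (nat_lit 57760) (nat_lit 6) (nat_lit 760) (nat_lit 2) (nat_lit 263) (nat_lit 265) (nat_lit 252))))) (PT.nd (nat_lit 312) (PT.nd (nat_lit 156) (PT.nd (nat_lit 78) (PT.lf (nat_lit 57152) (nat_lit 6) (nat_lit 752) (nat_lit 2) (nat_lit 264) (nat_lit 265) (nat_lit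 251)) (PT.lf (nat_lit 56468) (nat_lit 3) (nat_lit 743) (nat_lit 0) (nat_lit 265) (nat_lit 265) (nat_lit 250))) (PT.nd (nat_lit 78) (PT.lf (nat_lit 55632) (nat_lit 6) (nat_lit 732) (nat_lit 0) (nat_lit 266) (nat_lit 265) (nat_lit 249)) (PT.lf (nat_lit 54720) (nat_lit 6) (nat_lit 720) (nat_lit 0) (nat_lit 267) (nat_lit 265) (nat_lit 248)))) (PT.nd (nat_lit 156) (PT.nd (nat_lit 78) (PT.lf (nat_lit 53732) (nat_lit 6) (nat_lit 707) (nat_lit 0) (nat_lit 268) (nat_lit 265) (nat_lit 247)) (PT.lf (nat_lit 52668) (nat_lit 6) (nat_lit 693) (nat_lit 0) (nat_lit 269) (nat_lit 265) (nat_lit 246))) (PT.nd (nat_lit 78) (PT.lf (nat_lit 51528) (nat_lit 6) (nat_lit 678) (nat_lit 0) (nat_lit 270) (nat_lit 265) (nat_lit 245)) (PT.lf (nat_lit 50312) (nat_lit 6) (nat_lit 662) (nat_lit 0) (nat_lit 271) (nat_lit 265) (nat_lit 244)))))) (PT.nd (nat_lit 624) (PT.nd (nat_lit 312) (PT.nd (nat_lit 156) (PT.nd (nat_lit 78) (PT.lf (nat_lit 49020) (nat_lit 6) (nat_lit 645) (nat_lit 0) (nat_lit 272) (nat_lit 265) (nat_lit 243)) (PT.lf (nat_lit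 47652) (nat_lit 6) (nat_lit 627) (nat_lit 0) (nat_lit 273) (nat_lit 265) (nat_lit 242))) (PT.nd (nat_lit 78) (PT.lf (nat_lit 46208) (nat_lit 6) (nat_lit 608) (nat_lit 0) (nat_lit 274) (nat_lit 265) (nat_lit 241)) (PT.lf (nat_lit 44688) (nat_lit 6) (nat_lit 588) (nat_lit 0) (nat_lit 275) (nat_lit 265) (nat_lit 240)))) (PT.nd (nat_lit 156) (PT.nd (nat_lit 78) (PT.lf (nat_lit 43092) (nat_lit 6) (nat_lit 567) (nat_lit 0) (nat_lit 276) (nat_lit 265) (nat_lit 239)) (PT.lf (nat_lit 41420) (nat_lit 6) (nat_lit 545) (nat_lit 0) (nat_lit 277) (nat_lit 265) (nat_lit 238))) (PT.nd (nat_lit 78) (PT.lf (nat_lit 39672) (nat_lit 6) (nat_lit 522) (nat_lit 0) (nat_lit 278) (nat_lit 265) (nat_lit 237)) (PT.lf (nat_lit 37848) (nat_lit 6) (nat_lit 498) (nat_lit 0) (nat_lit 279) (nat_lit 265) (nat_lit 236))))) (PT.nd (nat_lit 312) (PT.nd (nat_lit 156) (PT.nd (nat_lit 78) (PT.lf (nat_lit 35948) (nat_lit 6) (nat_lit 473) (nat_lit 0) (nat_lit 280) (nat_lit 265) (nat_lit 235)) (PT.lf (nat_lit 34732) (nat_lit 6) (nat_lit 457) (nat_lit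 0) (nat_lit 281) (nat_lit 265) (nat_lit 234))) (PT.nd (nat_lit 78) (PT.lf (nat_lit 33744) (nat_lit 6) (nat_lit 444) (nat_lit 0) (nat_lit 282) (nat_lit 265) (nat_lit 233)) (PT.lf (nat_lit 32756) (nat_lit 6) (nat_lit 431) (nat_lit 0) (nat_lit 283) (nat_lit 265) (nat_lit 232)))) (PT.nd (nat_lit 156) (PT.nd (nat_lit 78) (PT.lf (nat_lit 31844) (nat_lit 6) (nat_lit 419) (nat_lit 0) (nat_lit 284) (nat_lit 265) (nat_lit 231)) (PT.lf (nat_lit 30856) (nat_lit 6) (nat_lit 406) (nat_lit 0) (nat_lit 285) (nat_lit 265) (nat_lit 230))) (PT.nd (nat_lit 76674) (PT.lf (nat_lit 29944) (nat_lit 6) (nat_lit 394) (nat_lit 0) (nat_lit 286) (nat_lit 265) (nat_lit 229)) (PT.lf (nat_lit 29108) (nat_lit 6) (nat_lit 383) (nat_lit 5) (nat_lit 228) (nat_lit 266) (nat_lit 286))))))))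
noncomputable def pc31 : PT := (PT.nd (nat_lit 2418) (PT.nd (nat_lit 1170) (PT.nd (nat_lit 546) (PT.nd (nat_lit 234) (PT.nd (nat_lit 78) (PT.lf (nat_lit 30020) (nat_lit 6) (nat_lit 395) (nat_lit 5) (nat_lit 229) (nat_lit 266) (nat_lit 285)) (PT.nd (nat_lit 78) (PT.lf (nat_lit 30932) (nat_lit 6) (nat_lit 407) (nat_lit 5) (nat_lit 230) (nat_lit 266) (nat_lit 284)) (PT.lf (nat_lit 31920) (nat_lit 6) (nat_lit 420) (nat_lit 5) (nat_lit 231) (nat_lit 266) (nat_lit 283)))) (PT.nd (nat_lit 156) (PT.nd (nat_lit 78) (PT.lf (nat_lit 32832) (nat_lit 6) (nat_lit 432) (nat_lit 5) (nat_lit 232) (nat_lit 266) (nat_lit 282)) (PT.lf (nat_lit 33820) (nat_lit 6) (nat_lit 445) (nat_lit 5) (nat_lit 233) (nat_lit 266) (nat_lit 281))) (PT.nd (nat_lit 78) (PT.lf (nat_lit 34808) (nat_lit 6) (nat_lit 458) (nat_lit 5) (nat_lit 234) (nat_lit 266) (nat_lit 280)) (PT.lf (nat_lit 36024) (nat_lit 6) (nat_lit 474) (nat_lit 5) (nat_lit 235) (nat_lit 266) (nat_lit 279))))) (PT.nd (nat_lit 312) (PT.nd (nat_lit 156) (PT.nd (nat_lit 78) (PT.lf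 (nat_lit 37924) (nat_lit 6) (nat_lit 499) (nat_lit 5) (nat_lit 236) (nat_lit 266) (nat_lit 278)) (PT.lf (nat_lit 39748) (nat_lit 6) (nat_lit 523) (nat_lit 5) (nat_lit 237) (nat_lit 266) (nat_lit 277))) (PT.nd (nat_lit 78) (PT.lf (nat_lit 41496) (nat_lit 6) (nat_lit 546) (nat_lit 5) (nat_lit 238) (nat_lit 266) (nat_lit 276)) (PT.lf (nat_lit 43168) (nat_lit 6) (nat_lit 568) (nat_lit 5) (nat_lit 239) (nat_lit 266) (nat_lit 275)))) (PT.nd (nat_lit 156) (PT.nd (nat_lit 78) (PT.lf (nat_lit 44764) (nat_lit 6) (nat_lit 589) (nat_lit 5) (nat_lit 240) (nat_lit 266) (nat_lit 274)) (PT.lf (nat_lit 46284) (nat_lit 6) (nat_lit 609) (nat_lit 5) (nat_lit 241) (nat_lit 266) (nat_lit 273))) (PT.nd (nat_lit 78) (PT.lf (nat_lit 47728) (nat_lit 6) (nat_lit 628) (nat_lit 5) (nat_lit 242) (nat_lit 266) (nat_lit 272)) (PT.lf (nat_lit 49096) (nat_lit 6) (nat_lit 646) (nat_lit 5) (nat_lit 243) (nat_lit 266) (nat_lit 271)))))) (PT.nd (nat_lit 624) (PT.nd (nat_lit 312) (PT.nd (nat_lit 156) (PT.nd (nat_lit 78) (PT.lf (nat_lit 50388)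 (nat_lit 6) (nat_lit 663) (nat_lit 5) (nat_lit 244) (nat_lit 266) (nat_lit 270)) (PT.lf (nat_lit 51604) (nat_lit 6) (nat_lit 679) (nat_lit 5) (nat_lit 245) (nat_lit 266) (nat_lit 269))) (PT.nd (nat_lit 78) (PT.lf (nat_lit 52744) (nat_lit 6) (nat_lit 694) (nat_lit 5) (nat_lit 246) (nat_lit 266) (nat_lit 268)) (PT.lf (nat_lit 53808) (nat_lit 6) (nat_lit 708) (nat_lit 5) (nat_lit 247) (nat_lit 266) (nat_lit 267)))) (PT.nd (nat_lit 156) (PT.nd (nat_lit 78) (PT.lf (nat_lit 54796) (nat_lit 3) (nat_lit 721) (nat_lit 4) (nat_lit 248) (nat_lit 266) (nat_lit 266)) (PT.lf (nat_lit 55632) (nat_lit 6) (nat_lit 732) (nat_lit 4) (nat_lit 249) (nat_lit 266) (nat_lit 265))) (PT.nd (nat_lit 78) (PT.lf (nat_lit 56392) (nat_lit 6) (nat_lit 742) (nat_lit 4) (nat_lit 250) (nat_lit 266) (nat_lit 264)) (PT.lf (nat_lit 57076) (nat_lit 6) (nat_lit 751) (nat_lit 4) (nat_lit 251) (nat_lit 266) (nat_lit 263))))) (PT.nd (nat_lit 312) (PT.nd (nat_lit 156) (PT.nd (nat_lit 78) (PT.lf (nat_lit 57684) (nat_lit 6) (nat_lit 759) (nat_lit 4)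 (nat_lit 252) (nat_lit 266) (nat_lit 262)) (PT.lf (nat_lit 58216) (nat_lit 6) (nat_lit 766) (nat_lit 4) (nat_lit 253) (nat_lit 266) (nat_lit 261))) (PT.nd (nat_lit 78) (PT.lf (nat_lit 58672) (nat_lit 6) (nat_lit 772) (nat_lit 4) (nat_lit 254) (nat_lit 266) (nat_lit 260)) (PT.lf (nat_lit 58596) (nat_lit 6) (nat_lit 771) (nat_lit 4) (nat_lit 255) (nat_lit 266) (nat_lit 259)))) (PT.nd (nat_lit 156) (PT.nd (nat_lit 78) (PT.lf (nat_lit 58520) (nat_lit 6) (nat_lit 770) (nat_lit 4) (nat_lit 256) (nat_lit 266) (nat_lit 258)) (PT.lf (nat_lit 58444) (nat_lit 3) (nat_lit 769) (nat_lit 2) (nat_lit 257) (nat_lit 266) (nat_lit 257))) (PT.nd (nat_lit 78) (PT.lf (nat_lit 58520) (nat_lit 6) (nat_lit 770) (nat_lit 2) (nat_lit 258) (nat_lit 266) (nat_lit 256)) (PT.lf (nat_lit 58596) (nat_lit 6) (nat_lit 771) (nat_lit 2) (nat_lit 259) (nat_lit 266) (nat_lit 255))))))) (PT.nd (nat_lit 1248) (PT.nd (nat_lit 624) (PT.nd (nat_lit 312) (PT.nd (nat_lit 156) (PT.nd (nat_lit 78) (PT.lf (nat_lit 58672) (nat_lit 6) (nat_lit 772) (nat_lit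 2) (nat_lit 260) (nat_lit 266) (nat_lit 254)) (PT.lf (nat_lit 58216) (nat_lit 6) (nat_lit 766) (nat_lit 2) (nat_lit 261) (nat_lit 266) (nat_lit 253))) (PT.nd (nat_lit 78) (PT.lf (nat_lit 57684) (nat_lit 6) (nat_lit 759) (nat_lit 2) (nat_lit 262) (nat_lit 266) (nat_lit 252)) (PT.lf (nat_lit 57076) (nat_lit 6) (nat_lit 751) (nat_lit 2) (nat_lit 263) (nat_lit 266) (nat_lit 251)))) (PT.nd (nat_lit 156) (PT.nd (nat_lit 78) (PT.lf (nat_lit 56392) (nat_lit 6) (nat_lit 742) (nat_lit 2) (nat_lit 264) (nat_lit 266) (nat_lit 250)) (PT.lf (nat_lit 55632) (nat_lit 6) (nat_lit 732) (nat_lit 2) (nat_lit 265) (nat_lit 266) (nat_lit 249))) (PT.nd (nat_lit 78) (PT.lf (nat_lit 54796) (nat_lit 3) (nat_lit 721) (nat_lit 0) (nat_lit 266) (nat_lit 266) (nat_lit 248)) (PT.lf (nat_lit 53808) (nat_lit 6) (nat_lit 708) (nat_lit 0) (nat_lit 267) (nat_lit 266) (nat_lit 247))))) (PT.nd (nat_lit 312) (PT.nd (nat_lit 156) (PT.nd (nat_lit 78) (PT.lf (nat_lit 52744) (nat_lit 6) (nat_lit 694) (nat_lit 0) (nat_lit 268) (nat_lit 266) (nat_lit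 246)) (PT.lf (nat_lit 51604) (nat_lit 6) (nat_lit 679) (nat_lit 0) (nat_lit 269) (nat_lit 266) (nat_lit 245))) (PT.nd (nat_lit 78) (PT.lf (nat_lit 50388) (nat_lit 6) (nat_lit 663) (nat_lit 0) (nat_lit 270) (nat_lit 266) (nat_lit 244)) (PT.lf (nat_lit 49096) (nat_lit 6) (nat_lit 646) (nat_lit 0) (nat_lit 271) (nat_lit 266) (nat_lit 243)))) (PT.nd (nat_lit 156) (PT.nd (nat_lit 78) (PT.lf (nat_lit 47728) (nat_lit 6) (nat_lit 628) (nat_lit 0) (nat_lit 272) (nat_lit 266) (nat_lit 242)) (PT.lf (nat_lit 46284) (nat_lit 6) (nat_lit 609) (nat_lit 0) (nat_lit 273) (nat_lit 266) (nat_lit 241))) (PT.nd (nat_lit 78) (PT.lf (nat_lit 44764) (nat_lit 6) (nat_lit 589) (nat_lit 0) (nat_lit 274) (nat_lit 266) (nat_lit 240)) (PT.lf (nat_lit 43168) (nat_lit 6) (nat_lit 568) (nat_lit 0) (nat_lit 275) (nat_lit 266) (nat_lit 239)))))) (PT.nd (nat_lit 624) (PT.nd (nat_lit 312) (PT.nd (nat_lit 156) (PT.nd (nat_lit 78) (PT.lf (nat_lit 41496) (nat_lit 6) (nat_lit 546) (nat_lit 0) (nat_lit 276) (nat_lit 266) (nat_lit 238)) (PT.lf (nat_lit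 39748) (nat_lit 6) (nat_lit 523) (nat_lit 0) (nat_lit 277) (nat_lit 266) (nat_lit 237))) (PT.nd (nat_lit 78) (PT.lf (nat_lit 37924) (nat_lit 6) (nat_lit 499) (nat_lit 0) (nat_lit 278) (nat_lit 266) (nat_lit 236)) (PT.lf (nat_lit 36024) (nat_lit 6) (nat_lit 474) (nat_lit 0) (nat_lit 279) (nat_lit 266) (nat_lit 235)))) (PT.nd (nat_lit 156) (PT.nd (nat_lit 78) (PT.lf (nat_lit 34808) (nat_lit 6) (nat_lit 458) (nat_lit 0) (nat_lit 280) (nat_lit 266) (nat_lit 234)) (PT.lf (nat_lit 33820) (nat_lit 6) (nat_lit 445) (nat_lit 0) (nat_lit 281) (nat_lit 266) (nat_lit 233))) (PT.nd (nat_lit 78) (PT.lf (nat_lit 32832) (nat_lit 6) (nat_lit 432) (nat_lit 0) (nat_lit 282) (nat_lit 266) (nat_lit 232)) (PT.lf (nat_lit 31920) (nat_lit 6) (nat_lit 420) (nat_lit 0) (nat_lit 283) (nat_lit 266) (nat_lit 231))))) (PT.nd (nat_lit 76752) (PT.nd (nat_lit 156) (PT.nd (nat_lit 78) (PT.lf (nat_lit 30932) (nat_lit 6) (nat_lit 407) (nat_lit 0) (nat_lit 284) (nat_lit 266) (nat_lit 230)) (PT.lf (nat_lit 30020) (nat_lit 6) (nat_lit 395) (nat_lit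 0) (nat_lit 285) (nat_lit 266) (nat_lit 229))) (PT.nd (nat_lit 76518) (PT.lf (nat_lit 29108) (nat_lit 6) (nat_lit 383) (nat_lit 0) (nat_lit 286) (nat_lit 266) (nat_lit 228)) (PT.lf (nat_lit 27512) (nat_lit 6) (nat_lit 362) (nat_lit 5) (nat_lit 226) (nat_lit 267) (nat_lit 287)))) (PT.nd (nat_lit 156) (PT.nd (nat_lit 78) (PT.lf (nat_lit 28348) (nat_lit 6) (nat_lit 373) (nat_lit 5) (nat_lit 227) (nat_lit 267) (nat_lit 286)) (PT.lf (nat_lit 29184) (nat_lit 6) (nat_lit 384) (nat_lit 5) (nat_lit 228) (nat_lit 267) (nat_lit 285))) (PT.nd (nat_lit 78) (PT.lf (nat_lit 30096) (nat_lit 6) (nat_lit 396) (nat_lit 5) (nat_lit 229) (nat_lit 267) (nat_lit 284)) (PT.lf (nat_lit 31008) (nat_lit 6) (nat_lit 408) (nat_lit 5) (nat_lit 230) (nat_lit 267) (nat_lit 283))))))))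
noncomputable def pc32 : PT := (PT.nd (nat_lit 2418) (PT.nd (nat_lit 1170) (PT.nd (nat_lit 546) (PT.nd (nat_lit 234) (PT.nd (nat_lit 78) (PT.lf (nat_lit 31996) (nat_lit 6) (nat_lit 421) (nat_lit 5) (nat_lit 231) (nat_lit 267) (nat_lit 282)) (PT.nd (nat_lit 78) (PT.lf (nat_lit 32908) (nat_lit 6) (nat_lit 433) (nat_lit 5) (nat_lit 232) (nat_lit 267) (nat_lit 281)) (PT.lf (nat_lit 33896) (nat_lit 6) (nat_lit 446) (nat_lit 5) (nat_lit 233) (nat_lit 267) (nat_lit 280)))) (PT.nd (nat_lit 156) (PT.nd (nat_lit 78) (PT.lf (nat_lit 34884) (nat_lit 6) (nat_lit 459) (nat_lit 5) (nat_lit 234) (nat_lit 267) (nat_lit 279)) (PT.lf (nat_lit 36100) (nat_lit 6) (nat_lit 475) (nat_lit 5) (nat_lit 235) (nat_lit 267) (nat_lit 278))) (PT.nd (nat_lit 78) (PT.lf (nat_lit 38000) (nat_lit 6) (nat_lit 500) (nat_lit 5) (nat_lit 236) (nat_lit 267) (nat_lit 277)) (PT.lf (nat_lit 39824) (nat_lit 6) (nat_lit 524) (nat_lit 5) (nat_lit 237) (nat_lit 267) (nat_lit 276))))) (PT.nd (nat_lit 312) (PT.nd (nat_lit 156) (PT.nd (nat_lit 78) (PT.lf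 (nat_lit 41572) (nat_lit 6) (nat_lit 547) (nat_lit 5) (nat_lit 238) (nat_lit 267) (nat_lit 275)) (PT.lf (nat_lit 43244) (nat_lit 6) (nat_lit 569) (nat_lit 5) (nat_lit 239) (nat_lit 267) (nat_lit 274))) (PT.nd (nat_lit 78) (PT.lf (nat_lit 44840) (nat_lit 6) (nat_lit 590) (nat_lit 5) (nat_lit 240) (nat_lit 267) (nat_lit 273)) (PT.lf (nat_lit 46360) (nat_lit 6) (nat_lit 610) (nat_lit 5) (nat_lit 241) (nat_lit 267) (nat_lit 272)))) (PT.nd (nat_lit 156) (PT.nd (nat_lit 78) (PT.lf (nat_lit 47804) (nat_lit 6) (nat_lit 629) (nat_lit 5) (nat_lit 242) (nat_lit 267) (nat_lit 271)) (PT.lf (nat_lit 49172) (nat_lit 6) (nat_lit 647) (nat_lit 5) (nat_lit 243) (nat_lit 267) (nat_lit 270))) (PT.nd (nat_lit 78) (PT.lf (nat_lit 50464) (nat_lit 6) (nat_lit 664) (nat_lit 5) (nat_lit 244) (nat_lit 267) (nat_lit 269)) (PT.lf (nat_lit 51680) (nat_lit 6) (nat_lit 680) (nat_lit 5) (nat_lit 245) (nat_lit 267) (nat_lit 268)))))) (PT.nd (nat_lit 624) (PT.nd (nat_lit 312) (PT.nd (nat_lit 156) (PT.nd (nat_lit 78) (PT.lf (nat_lit 52820)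 (nat_lit 3) (nat_lit 695) (nat_lit 4) (nat_lit 246) (nat_lit 267) (nat_lit 267)) (PT.lf (nat_lit 53808) (nat_lit 6) (nat_lit 708) (nat_lit 4) (nat_lit 247) (nat_lit 267) (nat_lit 266))) (PT.nd (nat_lit 78) (PT.lf (nat_lit 54720) (nat_lit 6) (nat_lit 720) (nat_lit 4) (nat_lit 248) (nat_lit 267) (nat_lit 265)) (PT.lf (nat_lit 55556) (nat_lit 6) (nat_lit 731) (nat_lit 4) (nat_lit 249) (nat_lit 267) (nat_lit 264)))) (PT.nd (nat_lit 156) (PT.nd (nat_lit 78) (PT.lf (nat_lit 56316) (nat_lit 6) (nat_lit 741) (nat_lit 4) (nat_lit 250) (nat_lit 267) (nat_lit 263)) (PT.lf (nat_lit 57000) (nat_lit 6) (nat_lit 750) (nat_lit 4) (nat_lit 251) (nat_lit 267) (nat_lit 262))) (PT.nd (nat_lit 78) (PT.lf (nat_lit 57608) (nat_lit 6) (nat_lit 758) (nat_lit 4) (nat_lit 252) (nat_lit 267) (nat_lit 261)) (PT.lf (nat_lit 58140) (nat_lit 6) (nat_lit 765) (nat_lit 4) (nat_lit 253) (nat_lit 267) (nat_lit 260))))) (PT.nd (nat_lit 312) (PT.nd (nat_lit 156) (PT.nd (nat_lit 78) (PT.lf (nat_lit 58064) (nat_lit 6) (nat_lit 764) (nat_lit 4)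 (nat_lit 254) (nat_lit 267) (nat_lit 259)) (PT.lf (nat_lit 57988) (nat_lit 6) (nat_lit 763) (nat_lit 4) (nat_lit 255) (nat_lit 267) (nat_lit 258))) (PT.nd (nat_lit 78) (PT.lf (nat_lit 57912) (nat_lit 6) (nat_lit 762) (nat_lit 4) (nat_lit 256) (nat_lit 267) (nat_lit 257)) (PT.lf (nat_lit 57912) (nat_lit 6) (nat_lit 762) (nat_lit 2) (nat_lit 257) (nat_lit 267) (nat_lit 256)))) (PT.nd (nat_lit 156) (PT.nd (nat_lit 78) (PT.lf (nat_lit 57988) (nat_lit 6) (nat_lit 763) (nat_lit 2) (nat_lit 258) (nat_lit 267) (nat_lit 255)) (PT.lf (nat_lit 58064) (nat_lit 6) (nat_lit 764) (nat_lit 2) (nat_lit 259) (nat_lit 267) (nat_lit 254))) (PT.nd (nat_lit 78) (PT.lf (nat_lit 58140) (nat_lit 6) (nat_lit 765) (nat_lit 2) (nat_lit 260) (nat_lit 267) (nat_lit 253)) (PT.lf (nat_lit 57608) (nat_lit 6) (nat_lit 758) (nat_lit 2) (nat_lit 261) (nat_lit 267) (nat_lit 252))))))) (PT.nd (nat_lit 1170) (PT.nd (nat_lit 546) (PT.nd (nat_lit 234) (PT.nd (nat_lit 78) (PT.lf (nat_lit 57000) (nat_lit 6) (nat_lit 750) (nat_lit 2) (nat_lit 262)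 (nat_lit 267) (nat_lit 251)) (PT.nd (nat_lit 78) (PT.lf (nat_lit 56316) (nat_lit 6) (nat_lit 741) (nat_lit 2) (nat_lit 263) (nat_lit 267) (nat_lit 250)) (PT.lf (nat_lit 55556) (nat_lit 6) (nat_lit 731) (nat_lit 2) (nat_lit 264) (nat_lit 267) (nat_lit 249)))) (PT.nd (nat_lit 156) (PT.nd (nat_lit 78) (PT.lf (nat_lit 54720) (nat_lit 6) (nat_lit 720) (nat_lit 2) (nat_lit 265) (nat_lit 267) (nat_lit 248)) (PT.lf (nat_lit 53808) (nat_lit 6) (nat_lit 708) (nat_lit 2) (nat_lit 266) (nat_lit 267) (nat_lit 247))) (PT.nd (nat_lit 78) (PT.lf (nat_lit 52820) (nat_lit 3) (nat_lit 695) (nat_lit 0) (nat_lit 267) (nat_lit 267) (nat_lit 246)) (PT.lf (nat_lit 51680) (nat_lit 6) (nat_lit 680) (nat_lit 0) (nat_lit 268) (nat_lit 267) (nat_lit 245))))) (PT.nd (nat_lit 312) (PT.nd (nat_lit 156) (PT.nd (nat_lit 78) (PT.lf (nat_lit 50464) (nat_lit 6) (nat_lit 664) (nat_lit 0) (nat_lit 269) (nat_lit 267) (nat_lit 244)) (PT.lf (nat_lit 49172) (nat_lit 6) (nat_lit 647) (nat_lit 0) (nat_lit 270) (nat_lit 267) (nat_lit 243))) (PT.nd (nat_lit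 78) (PT.lf (nat_lit 47804) (nat_lit 6) (nat_lit 629) (nat_lit 0) (nat_lit 271) (nat_lit 267) (nat_lit 242)) (PT.lf (nat_lit 46360) (nat_lit 6) (nat_lit 610) (nat_lit 0) (nat_lit 272) (nat_lit 267) (nat_lit 241)))) (PT.nd (nat_lit 156) (PT.nd (nat_lit 78) (PT.lf (nat_lit 44840) (nat_lit 6) (nat_lit 590) (nat_lit 0) (nat_lit 273) (nat_lit 267) (nat_lit 240)) (PT.lf (nat_lit 43244) (nat_lit 6) (nat_lit 569) (nat_lit 0) (nat_lit 274) (nat_lit 267) (nat_lit 239))) (PT.nd (nat_lit 78) (PT.lf (nat_lit 41572) (nat_lit 6) (nat_lit 547) (nat_lit 0) (nat_lit 275) (nat_lit 267) (nat_lit 238)) (PT.lf (nat_lit 39824) (nat_lit 6) (nat_lit 524) (nat_lit 0) (nat_lit 276) (nat_lit 267) (nat_lit 237)))))) (PT.nd (nat_lit 624) (PT.nd (nat_lit 312) (PT.nd (nat_lit 156) (PT.nd (nat_lit 78) (PT.lf (nat_lit 38000) (nat_lit 6) (nat_lit 500) (nat_lit 0) (nat_lit 277) (nat_lit 267) (nat_lit 236)) (PT.lf (nat_lit 36100) (nat_lit 6) (nat_lit 475) (nat_lit 0) (nat_lit 278) (nat_lit 267) (nat_lit 235))) (PT.nd (nat_lit 78) (PT.lf (nat_lit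 34884) (nat_lit 6) (nat_lit 459) (nat_lit 0) (nat_lit 279) (nat_lit 267) (nat_lit 234)) (PT.lf (nat_lit 33896) (nat_lit 6) (nat_lit 446) (nat_lit 0) (nat_lit 280) (nat_lit 267) (nat_lit 233)))) (PT.nd (nat_lit 156) (PT.nd (nat_lit 78) (PT.lf (nat_lit 32908) (nat_lit 6) (nat_lit 433) (nat_lit 0) (nat_lit 281) (nat_lit 267) (nat_lit 232)) (PT.lf (nat_lit 31996) (nat_lit 6) (nat_lit 421) (nat_lit 0) (nat_lit 282) (nat_lit 267) (nat_lit 231))) (PT.nd (nat_lit 78) (PT.lf (nat_lit 31008) (nat_lit 6) (nat_lit 408) (nat_lit 0) (nat_lit 283) (nat_lit 267) (nat_lit 230)) (PT.lf (nat_lit 30096) (nat_lit 6) (nat_lit 396) (nat_lit 0) (nat_lit 284) (nat_lit 267) (nat_lit 229))))) (PT.nd (nat_lit 76596) (PT.nd (nat_lit 156) (PT.nd (nat_lit 78) (PT.lf (nat_lit 29184) (nat_lit 6) (nat_lit 384) (nat_lit 0) (nat_lit 285) (nat_lit 267) (nat_lit 228)) (PT.lf (nat_lit 28348) (nat_lit 6) (nat_lit 373) (nat_lit 0) (nat_lit 286) (nat_lit 267) (nat_lit 227))) (PT.nd (nat_lit 76362) (PT.lf (nat_lit 27512) (nat_lit 6) (nat_lit 362)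 (nat_lit 0) (nat_lit 287) (nat_lit 267) (nat_lit 226)) (PT.lf (nat_lit 26752) (nat_lit 6) (nat_lit 352) (nat_lit 5) (nat_lit 225) (nat_lit 268) (nat_lit 287)))) (PT.nd (nat_lit 156) (PT.nd (nat_lit 78) (PT.lf (nat_lit 27588) (nat_lit 6) (nat_lit 363) (nat_lit 5) (nat_lit 226) (nat_lit 268) (nat_lit 286)) (PT.lf (nat_lit 28424) (nat_lit 6) (nat_lit 374) (nat_lit 5) (nat_lit 227) (nat_lit 268) (nat_lit 285))) (PT.nd (nat_lit 78) (PT.lf (nat_lit 29260) (nat_lit 6) (nat_lit 385) (nat_lit 5) (nat_lit 228) (nat_lit 268) (nat_lit 284)) (PT.lf (nat_lit 30172) (nat_lit 6) (nat_lit 397) (nat_lit 5) (nat_lit 229) (nat_lit 268) (nat_lit 283))))))))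
noncomputable def pc33 : PT := (PT.nd (nat_lit 2418) (PT.nd (nat_lit 1170) (PT.nd (nat_lit 546) (PT.nd (nat_lit 234) (PT.nd (nat_lit 78) (PT.lf (nat_lit 31084) (nat_lit 6) (nat_lit 409) (nat_lit 5) (nat_lit 230) (nat_lit 268) (nat_lit 282)) (PT.nd (nat_lit 78) (PT.lf (nat_lit 32072) (nat_lit 6) (nat_lit 422) (nat_lit 5) (nat_lit 231) (nat_lit 268) (nat_lit 281)) (PT.lf (nat_lit 32984) (nat_lit 6) (nat_lit 434) (nat_lit 5) (nat_lit 232) (nat_lit 268) (nat_lit 280)))) (PT.nd (nat_lit 156) (PT.nd (nat_lit 78) (PT.lf (nat_lit 33972) (nat_lit 6) (nat_lit 447) (nat_lit 5) (nat_lit 233) (nat_lit 268) (nat_lit 279)) (PT.lf (nat_lit 34960) (nat_lit 6) (nat_lit 460) (nat_lit 5) (nat_lit 234) (nat_lit 268) (nat_lit 278))) (PT.nd (nat_lit 78) (PT.lf (nat_lit 36176) (nat_lit 6) (nat_lit 476) (nat_lit 5) (nat_lit 235) (nat_lit 268) (nat_lit 277)) (PT.lf (nat_lit 38076) (nat_lit 6) (nat_lit 501) (nat_lit 5) (nat_lit 236) (nat_lit 268) (nat_lit 276))))) (PT.nd (nat_lit 312) (PT.nd (nat_lit 156) (PT.nd (nat_lit 78) (PT.lf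 (nat_lit 39900) (nat_lit 6) (nat_lit 525) (nat_lit 5) (nat_lit 237) (nat_lit 268) (nat_lit 275)) (PT.lf (nat_lit 41648) (nat_lit 6) (nat_lit 548) (nat_lit 5) (nat_lit 238) (nat_lit 268) (nat_lit 274))) (PT.nd (nat_lit 78) (PT.lf (nat_lit 43320) (nat_lit 6) (nat_lit 570) (nat_lit 5) (nat_lit 239) (nat_lit 268) (nat_lit 273)) (PT.lf (nat_lit 44916) (nat_lit 6) (nat_lit 591) (nat_lit 5) (nat_lit 240) (nat_lit 268) (nat_lit 272)))) (PT.nd (nat_lit 156) (PT.nd (nat_lit 78) (PT.lf (nat_lit 46436) (nat_lit 6) (nat_lit 611) (nat_lit 5) (nat_lit 241) (nat_lit 268) (nat_lit 271)) (PT.lf (nat_lit 47880) (nat_lit 6) (nat_lit 630) (nat_lit 5) (nat_lit 242) (nat_lit 268) (nat_lit 270))) (PT.nd (nat_lit 78) (PT.lf (nat_lit 49248) (nat_lit 6) (nat_lit 648) (nat_lit 5) (nat_lit 243) (nat_lit 268) (nat_lit 269)) (PT.lf (nat_lit 50540) (nat_lit 3) (nat_lit 665) (nat_lit 4) (nat_lit 244) (nat_lit 268) (nat_lit 268)))))) (PT.nd (nat_lit 624) (PT.nd (nat_lit 312) (PT.nd (nat_lit 156) (PT.nd (nat_lit 78) (PT.lf (nat_lit 51680)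 (nat_lit 6) (nat_lit 680) (nat_lit 4) (nat_lit 245) (nat_lit 268) (nat_lit 267)) (PT.lf (nat_lit 52744) (nat_lit 6) (nat_lit 694) (nat_lit 4) (nat_lit 246) (nat_lit 268) (nat_lit 266))) (PT.nd (nat_lit 78) (PT.lf (nat_lit 53732) (nat_lit 6) (nat_lit 707) (nat_lit 4) (nat_lit 247) (nat_lit 268) (nat_lit 265)) (PT.lf (nat_lit 54644) (nat_lit 6) (nat_lit 719) (nat_lit 4) (nat_lit 248) (nat_lit 268) (nat_lit 264)))) (PT.nd (nat_lit 156) (PT.nd (nat_lit 78) (PT.lf (nat_lit 55480) (nat_lit 6) (nat_lit 730) (nat_lit 4) (nat_lit 249) (nat_lit 268) (nat_lit 263)) (PT.lf (nat_lit 56240) (nat_lit 6) (nat_lit 740) (nat_lit 4) (nat_lit 250) (nat_lit 268) (nat_lit 262))) (PT.nd (nat_lit 78) (PT.lf (nat_lit 56924) (nat_lit 6) (nat_lit 749) (nat_lit 4) (nat_lit 251) (nat_lit 268) (nat_lit 261)) (PT.lf (nat_lit 57532) (nat_lit 6) (nat_lit 757) (nat_lit 4) (nat_lit 252) (nat_lit 268) (nat_lit 260))))) (PT.nd (nat_lit 312) (PT.nd (nat_lit 156) (PT.nd (nat_lit 78) (PT.lf (nat_lit 57456) (nat_lit 6) (nat_lit 756) (nat_lit 4)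 (nat_lit 253) (nat_lit 268) (nat_lit 259)) (PT.lf (nat_lit 57380) (nat_lit 6) (nat_lit 755) (nat_lit 4) (nat_lit 254) (nat_lit 268) (nat_lit 258))) (PT.nd (nat_lit 78) (PT.lf (nat_lit 57304) (nat_lit 6) (nat_lit 754) (nat_lit 4) (nat_lit 255) (nat_lit 268) (nat_lit 257)) (PT.lf (nat_lit 57228) (nat_lit 3) (nat_lit 753) (nat_lit 2) (nat_lit 256) (nat_lit 268) (nat_lit 256)))) (PT.nd (nat_lit 156) (PT.nd (nat_lit 78) (PT.lf (nat_lit 57304) (nat_lit 6) (nat_lit 754) (nat_lit 2) (nat_lit 257) (nat_lit 268) (nat_lit 255)) (PT.lf (nat_lit 57380) (nat_lit 6) (nat_lit 755) (nat_lit 2) (nat_lit 258) (nat_lit 268) (nat_lit 254))) (PT.nd (nat_lit 78) (PT.lf (nat_lit 57456) (nat_lit 6) (nat_lit 756) (nat_lit 2) (nat_lit 259) (nat_lit 268) (nat_lit 253)) (PT.lf (nat_lit 57532) (nat_lit 6) (nat_lit 757) (nat_lit 2) (nat_lit 260) (nat_lit 268) (nat_lit 252))))))) (PT.nd (nat_lit 1248) (PT.nd (nat_lit 624) (PT.nd (nat_lit 312) (PT.nd (nat_lit 156) (PT.nd (nat_lit 78) (PT.lf (nat_lit 56924) (nat_lit 6) (nat_lit 749) (nat_lit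 2) (nat_lit 261) (nat_lit 268) (nat_lit 251)) (PT.lf (nat_lit 56240) (nat_lit 6) (nat_lit 740) (nat_lit 2) (nat_lit 262) (nat_lit 268) (nat_lit 250))) (PT.nd (nat_lit 78) (PT.lf (nat_lit 55480) (nat_lit 6) (nat_lit 730) (nat_lit 2) (nat_lit 263) (nat_lit 268) (nat_lit 249)) (PT.lf (nat_lit 54644) (nat_lit 6) (nat_lit 719) (nat_lit 2) (nat_lit 264) (nat_lit 268) (nat_lit 248)))) (PT.nd (nat_lit 156) (PT.nd (nat_lit 78) (PT.lf (nat_lit 53732) (nat_lit 6) (nat_lit 707) (nat_lit 2) (nat_lit 265) (nat_lit 268) (nat_lit 247)) (PT.lf (nat_lit 52744) (nat_lit 6) (nat_lit 694) (nat_lit 2) (nat_lit 266) (nat_lit 268) (nat_lit 246))) (PT.nd (nat_lit 78) (PT.lf (nat_lit 51680) (nat_lit 6) (nat_lit 680) (nat_lit 2) (nat_lit 267) (nat_lit 268) (nat_lit 245)) (PT.lf (nat_lit 50540) (nat_lit 3) (nat_lit 665) (nat_lit 0) (nat_lit 268) (nat_lit 268) (nat_lit 244))))) (PT.nd (nat_lit 312) (PT.nd (nat_lit 156) (PT.nd (nat_lit 78) (PT.lf (nat_lit 49248) (nat_lit 6) (nat_lit 648) (nat_lit 0) (nat_lit 269) (nat_lit 268) (nat_lit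 243)) (PT.lf (nat_lit 47880) (nat_lit 6) (nat_lit 630) (nat_lit 0) (nat_lit 270) (nat_lit 268) (nat_lit 242))) (PT.nd (nat_lit 78) (PT.lf (nat_lit 46436) (nat_lit 6) (nat_lit 611) (nat_lit 0) (nat_lit 271) (nat_lit 268) (nat_lit 241)) (PT.lf (nat_lit 44916) (nat_lit 6) (nat_lit 591) (nat_lit 0) (nat_lit 272) (nat_lit 268) (nat_lit 240)))) (PT.nd (nat_lit 156) (PT.nd (nat_lit 78) (PT.lf (nat_lit 43320) (nat_lit 6) (nat_lit 570) (nat_lit 0) (nat_lit 273) (nat_lit 268) (nat_lit 239)) (PT.lf (nat_lit 41648) (nat_lit 6) (nat_lit 548) (nat_lit 0) (nat_lit 274) (nat_lit 268) (nat_lit 238))) (PT.nd (nat_lit 78) (PT.lf (nat_lit 39900) (nat_lit 6) (nat_lit 525) (nat_lit 0) (nat_lit 275) (nat_lit 268) (nat_lit 237)) (PT.lf (nat_lit 38076) (nat_lit 6) (nat_lit 501) (nat_lit 0) (nat_lit 276) (nat_lit 268) (nat_lit 236)))))) (PT.nd (nat_lit 624) (PT.nd (nat_lit 312) (PT.nd (nat_lit 156) (PT.nd (nat_lit 78) (PT.lf (nat_lit 36176) (nat_lit 6) (nat_lit 476) (nat_lit 0) (nat_lit 277) (nat_lit 268) (nat_lit 235)) (PT.lf (nat_lit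 34960) (nat_lit 6) (nat_lit 460) (nat_lit 0) (nat_lit 278) (nat_lit 268) (nat_lit 234))) (PT.nd (nat_lit 78) (PT.lf (nat_lit 33972) (nat_lit 6) (nat_lit 447) (nat_lit 0) (nat_lit 279) (nat_lit 268) (nat_lit 233)) (PT.lf (nat_lit 32984) (nat_lit 6) (nat_lit 434) (nat_lit 0) (nat_lit 280) (nat_lit 268) (nat_lit 232)))) (PT.nd (nat_lit 156) (PT.nd (nat_lit 78) (PT.lf (nat_lit 32072) (nat_lit 6) (nat_lit 422) (nat_lit 0) (nat_lit 281) (nat_lit 268) (nat_lit 231)) (PT.lf (nat_lit 31084) (nat_lit 6) (nat_lit 409) (nat_lit 0) (nat_lit 282) (nat_lit 268) (nat_lit 230))) (PT.nd (nat_lit 78) (PT.lf (nat_lit 30172) (nat_lit 6) (nat_lit 397) (nat_lit 0) (nat_lit 283) (nat_lit 268) (nat_lit 229)) (PT.lf (nat_lit 29260) (nat_lit 6) (nat_lit 385) (nat_lit 0) (nat_lit 284) (nat_lit 268) (nat_lit 228))))) (PT.nd (nat_lit 76518) (PT.nd (nat_lit 156) (PT.nd (nat_lit 78) (PT.lf (nat_lit 28424) (nat_lit 6) (nat_lit 374) (nat_lit 0) (nat_lit 285) (nat_lit 268) (nat_lit 227)) (PT.lf (nat_lit 27588) (nat_lit 6) (nat_lit 363) (nat_lit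 0) (nat_lit 286) (nat_lit 268) (nat_lit 226))) (PT.nd (nat_lit 76284) (PT.lf (nat_lit 26752) (nat_lit 6) (nat_lit 352) (nat_lit 0) (nat_lit 287) (nat_lit 268) (nat_lit 225)) (PT.lf (nat_lit 25992) (nat_lit 6) (nat_lit 342) (nat_lit 5) (nat_lit 224) (nat_lit 269) (nat_lit 287)))) (PT.nd (nat_lit 156) (PT.nd (nat_lit 78) (PT.lf (nat_lit 26828) (nat_lit 6) (nat_lit 353) (nat_lit 5) (nat_lit 225) (nat_lit 269) (nat_lit 286)) (PT.lf (nat_lit 27664) (nat_lit 6) (nat_lit 364) (nat_lit 5) (nat_lit 226) (nat_lit 269) (nat_lit 285))) (PT.nd (nat_lit 78) (PT.lf (nat_lit 28500) (nat_lit 6) (nat_lit 375) (nat_lit 5) (nat_lit 227) (nat_lit 269) (nat_lit 284)) (PT.lf (nat_lit 29336) (nat_lit 6) (nat_lit 386) (nat_lit 5) (nat_lit 228) (nat_lit 269) (nat_lit 283))))))))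
noncomputable def pc34 : PT := (PT.nd (nat_lit 2418) (PT.nd (nat_lit 1170) (PT.nd (nat_lit 546) (PT.nd (nat_lit 234) (PT.nd (nat_lit 78) (PT.lf (nat_lit 30248) (nat_lit 6) (nat_lit 398) (nat_lit 5) (nat_lit 229) (nat_lit 269) (nat_lit 282)) (PT.nd (nat_lit 78) (PT.lf (nat_lit 31160) (nat_lit 6) (nat_lit 410) (nat_lit 5) (nat_lit 230) (nat_lit 269) (nat_lit 281)) (PT.lf (nat_lit 32148) (nat_lit 6) (nat_lit 423) (nat_lit 5) (nat_lit 231) (nat_lit 269) (nat_lit 280)))) (PT.nd (nat_lit 156) (PT.nd (nat_lit 78) (PT.lf (nat_lit 33060) (nat_lit 6) (nat_lit 435) (nat_lit 5) (nat_lit 232) (nat_lit 269) (nat_lit 279)) (PT.lf (nat_lit 34048) (nat_lit 6) (nat_lit 448) (nat_lit 5) (nat_lit 233) (nat_lit 269) (nat_lit 278))) (PT.nd (nat_lit 78) (PT.lf (nat_lit 35036) (nat_lit 6) (nat_lit 461) (nat_lit 5) (nat_lit 234) (nat_lit 269) (nat_lit 277)) (PT.lf (nat_lit 36252) (nat_lit 6) (nat_lit 477) (nat_lit 5) (nat_lit 235) (nat_lit 269) (nat_lit 276))))) (PT.nd (nat_lit 312) (PT.nd (nat_lit 156) (PT.nd (nat_lit 78) (PT.lf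 (nat_lit 38152) (nat_lit 6) (nat_lit 502) (nat_lit 5) (nat_lit 236) (nat_lit 269) (nat_lit 275)) (PT.lf (nat_lit 39976) (nat_lit 6) (nat_lit 526) (nat_lit 5) (nat_lit 237) (nat_lit 269) (nat_lit 274))) (PT.nd (nat_lit 78) (PT.lf (nat_lit 41724) (nat_lit 6) (nat_lit 549) (nat_lit 5) (nat_lit 238) (nat_lit 269) (nat_lit 273)) (PT.lf (nat_lit 43396) (nat_lit 6) (nat_lit 571) (nat_lit 5) (nat_lit 239) (nat_lit 269) (nat_lit 272)))) (PT.nd (nat_lit 156) (PT.nd (nat_lit 78) (PT.lf (nat_lit 44992) (nat_lit 6) (nat_lit 592) (nat_lit 5) (nat_lit 240) (nat_lit 269) (nat_lit 271)) (PT.lf (nat_lit 46512) (nat_lit 6) (nat_lit 612) (nat_lit 5) (nat_lit 241) (nat_lit 269) (nat_lit 270))) (PT.nd (nat_lit 78) (PT.lf (nat_lit 47956) (nat_lit 3) (nat_lit 631) (nat_lit 4) (nat_lit 242) (nat_lit 269) (nat_lit 269)) (PT.lf (nat_lit 49248) (nat_lit 6) (nat_lit 648) (nat_lit 4) (nat_lit 243) (nat_lit 269) (nat_lit 268)))))) (PT.nd (nat_lit 624) (PT.nd (nat_lit 312) (PT.nd (nat_lit 156) (PT.nd (nat_lit 78) (PT.lf (nat_lit 50464)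 (nat_lit 6) (nat_lit 664) (nat_lit 4) (nat_lit 244) (nat_lit 269) (nat_lit 267)) (PT.lf (nat_lit 51604) (nat_lit 6) (nat_lit 679) (nat_lit 4) (nat_lit 245) (nat_lit 269) (nat_lit 266))) (PT.nd (nat_lit 78) (PT.lf (nat_lit 52668) (nat_lit 6) (nat_lit 693) (nat_lit 4) (nat_lit 246) (nat_lit 269) (nat_lit 265)) (PT.lf (nat_lit 53656) (nat_lit 6) (nat_lit 706) (nat_lit 4) (nat_lit 247) (nat_lit 269) (nat_lit 264)))) (PT.nd (nat_lit 156) (PT.nd (nat_lit 78) (PT.lf (nat_lit 54568) (nat_lit 6) (nat_lit 718) (nat_lit 4) (nat_lit 248) (nat_lit 269) (nat_lit 263)) (PT.lf (nat_lit 55404) (nat_lit 6) (nat_lit 729) (nat_lit 4) (nat_lit 249) (nat_lit 269) (nat_lit 262))) (PT.nd (nat_lit 78) (PT.lf (nat_lit 56164) (nat_lit 6) (nat_lit 739) (nat_lit 4) (nat_lit 250) (nat_lit 269) (nat_lit 261)) (PT.lf (nat_lit 56848) (nat_lit 6) (nat_lit 748) (nat_lit 4) (nat_lit 251) (nat_lit 269) (nat_lit 260))))) (PT.nd (nat_lit 312) (PT.nd (nat_lit 156) (PT.nd (nat_lit 78) (PT.lf (nat_lit 56772) (nat_lit 6) (nat_lit 747) (nat_lit 4)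 (nat_lit 252) (nat_lit 269) (nat_lit 259)) (PT.lf (nat_lit 56696) (nat_lit 6) (nat_lit 746) (nat_lit 4) (nat_lit 253) (nat_lit 269) (nat_lit 258))) (PT.nd (nat_lit 78) (PT.lf (nat_lit 56620) (nat_lit 6) (nat_lit 745) (nat_lit 4) (nat_lit 254) (nat_lit 269) (nat_lit 257)) (PT.lf (nat_lit 56544) (nat_lit 6) (nat_lit 744) (nat_lit 4) (nat_lit 255) (nat_lit 269) (nat_lit 256)))) (PT.nd (nat_lit 156) (PT.nd (nat_lit 78) (PT.lf (nat_lit 56544) (nat_lit 6) (nat_lit 744) (nat_lit 2) (nat_lit 256) (nat_lit 269) (nat_lit 255)) (PT.lf (nat_lit 56620) (nat_lit 6) (nat_lit 745) (nat_lit 2) (nat_lit 257) (nat_lit 269) (nat_lit 254))) (PT.nd (nat_lit 78) (PT.lf (nat_lit 56696) (nat_lit 6) (nat_lit 746) (nat_lit 2) (nat_lit 258) (nat_lit 269) (nat_lit 253)) (PT.lf (nat_lit 56772) (nat_lit 6) (nat_lit 747) (nat_lit 2) (nat_lit 259) (nat_lit 269) (nat_lit 252))))))) (PT.nd (nat_lit 1248) (PT.nd (nat_lit 624) (PT.nd (nat_lit 312) (PT.nd (nat_lit 156) (PT.nd (nat_lit 78) (PT.lf (nat_lit 56848) (nat_lit 6) (nat_lit 748) (nat_lit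 2) (nat_lit 260) (nat_lit 269) (nat_lit 251)) (PT.lf (nat_lit 56164) (nat_lit 6) (nat_lit 739) (nat_lit 2) (nat_lit 261) (nat_lit 269) (nat_lit 250))) (PT.nd (nat_lit 78) (PT.lf (nat_lit 55404) (nat_lit 6) (nat_lit 729) (nat_lit 2) (nat_lit 262) (nat_lit 269) (nat_lit 249)) (PT.lf (nat_lit 54568) (nat_lit 6) (nat_lit 718) (nat_lit 2) (nat_lit 263) (nat_lit 269) (nat_lit 248)))) (PT.nd (nat_lit 156) (PT.nd (nat_lit 78) (PT.lf (nat_lit 53656) (nat_lit 6) (nat_lit 706) (nat_lit 2) (nat_lit 264) (nat_lit 269) (nat_lit 247)) (PT.lf (nat_lit 52668) (nat_lit 6) (nat_lit 693) (nat_lit 2) (nat_lit 265) (nat_lit 269) (nat_lit 246))) (PT.nd (nat_lit 78) (PT.lf (nat_lit 51604) (nat_lit 6) (nat_lit 679) (nat_lit 2) (nat_lit 266) (nat_lit 269) (nat_lit 245)) (PT.lf (nat_lit 50464) (nat_lit 6) (nat_lit 664) (nat_lit 2) (nat_lit 267) (nat_lit 269) (nat_lit 244))))) (PT.nd (nat_lit 312) (PT.nd (nat_lit 156) (PT.nd (nat_lit 78) (PT.lf (nat_lit 49248) (nat_lit 6) (nat_lit 648) (nat_lit 2) (nat_lit 268) (nat_lit 269) (nat_lit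 243)) (PT.lf (nat_lit 47956) (nat_lit 3) (nat_lit 631) (nat_lit 0) (nat_lit 269) (nat_lit 269) (nat_lit 242))) (PT.nd (nat_lit 78) (PT.lf (nat_lit 46512) (nat_lit 6) (nat_lit 612) (nat_lit 0) (nat_lit 270) (nat_lit 269) (nat_lit 241)) (PT.lf (nat_lit 44992) (nat_lit 6) (nat_lit 592) (nat_lit 0) (nat_lit 271) (nat_lit 269) (nat_lit 240)))) (PT.nd (nat_lit 156) (PT.nd (nat_lit 78) (PT.lf (nat_lit 43396) (nat_lit 6) (nat_lit 571) (nat_lit 0) (nat_lit 272) (nat_lit 269) (nat_lit 239)) (PT.lf (nat_lit 41724) (nat_lit 6) (nat_lit 549) (nat_lit 0) (nat_lit 273) (nat_lit 269) (nat_lit 238))) (PT.nd (nat_lit 78) (PT.lf (nat_lit 39976) (nat_lit 6) (nat_lit 526) (nat_lit 0) (nat_lit 274) (nat_lit 269) (nat_lit 237)) (PT.lf (nat_lit 38152) (nat_lit 6) (nat_lit 502) (nat_lit 0) (nat_lit 275) (nat_lit 269) (nat_lit 236)))))) (PT.nd (nat_lit 624) (PT.nd (nat_lit 312) (PT.nd (nat_lit 156) (PT.nd (nat_lit 78) (PT.lf (nat_lit 36252) (nat_lit 6) (nat_lit 477) (nat_lit 0) (nat_lit 276) (nat_lit 269) (nat_lit 235)) (PT.lf (nat_lit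 35036) (nat_lit 6) (nat_lit 461) (nat_lit 0) (nat_lit 277) (nat_lit 269) (nat_lit 234))) (PT.nd (nat_lit 78) (PT.lf (nat_lit 34048) (nat_lit 6) (nat_lit 448) (nat_lit 0) (nat_lit 278) (nat_lit 269) (nat_lit 233)) (PT.lf (nat_lit 33060) (nat_lit 6) (nat_lit 435) (nat_lit 0) (nat_lit 279) (nat_lit 269) (nat_lit 232)))) (PT.nd (nat_lit 156) (PT.nd (nat_lit 78) (PT.lf (nat_lit 32148) (nat_lit 6) (nat_lit 423) (nat_lit 0) (nat_lit 280) (nat_lit 269) (nat_lit 231)) (PT.lf (nat_lit 31160) (nat_lit 6) (nat_lit 410) (nat_lit 0) (nat_lit 281) (nat_lit 269) (nat_lit 230))) (PT.nd (nat_lit 78) (PT.lf (nat_lit 30248) (nat_lit 6) (nat_lit 398) (nat_lit 0) (nat_lit 282) (nat_lit 269) (nat_lit 229)) (PT.lf (nat_lit 29336) (nat_lit 6) (nat_lit 386) (nat_lit 0) (nat_lit 283) (nat_lit 269) (nat_lit 228))))) (PT.nd (nat_lit 76362) (PT.nd (nat_lit 156) (PT.nd (nat_lit 78) (PT.lf (nat_lit 28500) (nat_lit 6) (nat_lit 375) (nat_lit 0) (nat_lit 284) (nat_lit 269) (nat_lit 227)) (PT.lf (nat_lit 27664) (nat_lit 6) (nat_lit 364) (nat_lit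 0) (nat_lit 285) (nat_lit 269) (nat_lit 226))) (PT.nd (nat_lit 78) (PT.lf (nat_lit 26828) (nat_lit 6) (nat_lit 353) (nat_lit 0) (nat_lit 286) (nat_lit 269) (nat_lit 225)) (PT.lf (nat_lit 25992) (nat_lit 6) (nat_lit 342) (nat_lit 0) (nat_lit 287) (nat_lit 269) (nat_lit 224)))) (PT.nd (nat_lit 156) (PT.nd (nat_lit 78) (PT.lf (nat_lit 24548) (nat_lit 6) (nat_lit 323) (nat_lit 5) (nat_lit 222) (nat_lit 270) (nat_lit 288)) (PT.lf (nat_lit 25308) (nat_lit 6) (nat_lit 333) (nat_lit 5) (nat_lit 223) (nat_lit 270) (nat_lit 287))) (PT.nd (nat_lit 78) (PT.lf (nat_lit 26068) (nat_lit 6) (nat_lit 343) (nat_lit 5) (nat_lit 224) (nat_lit 270) (nat_lit 286)) (PT.lf (nat_lit 26904) (nat_lit 6) (nat_lit 354) (nat_lit 5) (nat_lit 225) (nat_lit 270) (nat_lit 285))))))))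
noncomputable def pc35 : PT := (PT.nd (nat_lit 2418) (PT.nd (nat_lit 1170) (PT.nd (nat_lit 546) (PT.nd (nat_lit 234) (PT.nd (nat_lit 78) (PT.lf (nat_lit 27740) (nat_lit 6) (nat_lit 365) (nat_lit 5) (nat_lit 226) (nat_lit 270) (nat_lit 284)) (PT.nd (nat_lit 78) (PT.lf (nat_lit 28576) (nat_lit 6) (nat_lit 376) (nat_lit 5) (nat_lit 227) (nat_lit 270) (nat_lit 283)) (PT.lf (nat_lit 29412) (nat_lit 6) (nat_lit 387) (nat_lit 5) (nat_lit 228) (nat_lit 270) (nat_lit 282)))) (PT.nd (nat_lit 156) (PT.nd (nat_lit 78) (PT.lf (nat_lit 30324) (nat_lit 6) (nat_lit 399) (nat_lit 5) (nat_lit 229) (nat_lit 270) (nat_lit 281)) (PT.lf (nat_lit 31236) (nat_lit 6) (nat_lit 411) (nat_lit 5) (nat_lit 230) (nat_lit 270) (nat_lit 280))) (PT.nd (nat_lit 78) (PT.lf (nat_lit 32224) (nat_lit 6) (nat_lit 424) (nat_lit 5) (nat_lit 231) (nat_lit 270) (nat_lit 279)) (PT.lf (nat_lit 33136) (nat_lit 6) (nat_lit 436) (nat_lit 5) (nat_lit 232) (nat_lit 270) (nat_lit 278))))) (PT.nd (nat_lit 312) (PT.nd (nat_lit 156) (PT.nd (nat_lit 78) (PT.lf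 (nat_lit 34124) (nat_lit 6) (nat_lit 449) (nat_lit 5) (nat_lit 233) (nat_lit 270) (nat_lit 277)) (PT.lf (nat_lit 35112) (nat_lit 6) (nat_lit 462) (nat_lit 5) (nat_lit 234) (nat_lit 270) (nat_lit 276))) (PT.nd (nat_lit 78) (PT.lf (nat_lit 36328) (nat_lit 6) (nat_lit 478) (nat_lit 5) (nat_lit 235) (nat_lit 270) (nat_lit 275)) (PT.lf (nat_lit 38228) (nat_lit 6) (nat_lit 503) (nat_lit 5) (nat_lit 236) (nat_lit 270) (nat_lit 274)))) (PT.nd (nat_lit 156) (PT.nd (nat_lit 78) (PT.lf (nat_lit 40052) (nat_lit 6) (nat_lit 527) (nat_lit 5) (nat_lit 237) (nat_lit 270) (nat_lit 273)) (PT.lf (nat_lit 41800) (nat_lit 6) (nat_lit 550) (nat_lit 5) (nat_lit 238) (nat_lit 270) (nat_lit 272))) (PT.nd (nat_lit 78) (PT.lf (nat_lit 43472) (nat_lit 6) (nat_lit 572) (nat_lit 5) (nat_lit 239) (nat_lit 270) (nat_lit 271)) (PT.lf (nat_lit 45068) (nat_lit 3) (nat_lit 593) (nat_lit 4) (nat_lit 240) (nat_lit 270) (nat_lit 270)))))) (PT.nd (nat_lit 624) (PT.nd (nat_lit 312) (PT.nd (nat_lit 156) (PT.nd (nat_lit 78) (PT.lf (nat_lit 46512)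 (nat_lit 6) (nat_lit 612) (nat_lit 4) (nat_lit 241) (nat_lit 270) (nat_lit 269)) (PT.lf (nat_lit 47880) (nat_lit 6) (nat_lit 630) (nat_lit 4) (nat_lit 242) (nat_lit 270) (nat_lit 268))) (PT.nd (nat_lit 78) (PT.lf (nat_lit 49172) (nat_lit 6) (nat_lit 647) (nat_lit 4) (nat_lit 243) (nat_lit 270) (nat_lit 267)) (PT.lf (nat_lit 50388) (nat_lit 6) (nat_lit 663) (nat_lit 4) (nat_lit 244) (nat_lit 270) (nat_lit 266)))) (PT.nd (nat_lit 156) (PT.nd (nat_lit 78) (PT.lf (nat_lit 51528) (nat_lit 6) (nat_lit 678) (nat_lit 4) (nat_lit 245) (nat_lit 270) (nat_lit 265)) (PT.lf (nat_lit 52592) (nat_lit 6) (nat_lit 692) (nat_lit 4) (nat_lit 246) (nat_lit 270) (nat_lit 264))) (PT.nd (nat_lit 78) (PT.lf (nat_lit 53580) (nat_lit 6) (nat_lit 705) (nat_lit 4) (nat_lit 247) (nat_lit 270) (nat_lit 263)) (PT.lf (nat_lit 54492) (nat_lit 6) (nat_lit 717) (nat_lit 4) (nat_lit 248) (nat_lit 270) (nat_lit 262))))) (PT.nd (nat_lit 312) (PT.nd (nat_lit 156) (PT.nd (nat_lit 78) (PT.lf (nat_lit 55328) (nat_lit 6) (nat_lit 728) (nat_lit 4)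 (nat_lit 249) (nat_lit 270) (nat_lit 261)) (PT.lf (nat_lit 56088) (nat_lit 6) (nat_lit 738) (nat_lit 4) (nat_lit 250) (nat_lit 270) (nat_lit 260))) (PT.nd (nat_lit 78) (PT.lf (nat_lit 56012) (nat_lit 6) (nat_lit 737) (nat_lit 4) (nat_lit 251) (nat_lit 270) (nat_lit 259)) (PT.lf (nat_lit 55936) (nat_lit 6) (nat_lit 736) (nat_lit 4) (nat_lit 252) (nat_lit 270) (nat_lit 258)))) (PT.nd (nat_lit 156) (PT.nd (nat_lit 78) (PT.lf (nat_lit 55860) (nat_lit 6) (nat_lit 735) (nat_lit 4) (nat_lit 253) (nat_lit 270) (nat_lit 257)) (PT.lf (nat_lit 55784) (nat_lit 6) (nat_lit 734) (nat_lit 4) (nat_lit 254) (nat_lit 270) (nat_lit 256))) (PT.nd (nat_lit 78) (PT.lf (nat_lit 55708) (nat_lit 3) (nat_lit 733) (nat_lit 2) (nat_lit 255) (nat_lit 270) (nat_lit 255)) (PT.lf (nat_lit 55784) (nat_lit 6) (nat_lit 734) (nat_lit 2) (nat_lit 256) (nat_lit 270) (nat_lit 254))))))) (PT.nd (nat_lit 1248) (PT.nd (nat_lit 624) (PT.nd (nat_lit 312) (PT.nd (nat_lit 156) (PT.nd (nat_lit 78) (PT.lf (nat_lit 55860) (nat_lit 6) (nat_lit 735) (nat_lit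 2) (nat_lit 257) (nat_lit 270) (nat_lit 253)) (PT.lf (nat_lit 55936) (nat_lit 6) (nat_lit 736) (nat_lit 2) (nat_lit 258) (nat_lit 270) (nat_lit 252))) (PT.nd (nat_lit 78) (PT.lf (nat_lit 56012) (nat_lit 6) (nat_lit 737) (nat_lit 2) (nat_lit 259) (nat_lit 270) (nat_lit 251)) (PT.lf (nat_lit 56088) (nat_lit 6) (nat_lit 738) (nat_lit 2) (nat_lit 260) (nat_lit 270) (nat_lit 250)))) (PT.nd (nat_lit 156) (PT.nd (nat_lit 78) (PT.lf (nat_lit 55328) (nat_lit 6) (nat_lit 728) (nat_lit 2) (nat_lit 261) (nat_lit 270) (nat_lit 249)) (PT.lf (nat_lit 54492) (nat_lit 6) (nat_lit 717) (nat_lit 2) (nat_lit 262) (nat_lit 270) (nat_lit 248))) (PT.nd (nat_lit 78) (PT.lf (nat_lit 53580) (nat_lit 6) (nat_lit 705) (nat_lit 2) (nat_lit 263) (nat_lit 270) (nat_lit 247)) (PT.lf (nat_lit 52592) (nat_lit 6) (nat_lit 692) (nat_lit 2) (nat_lit 264) (nat_lit 270) (nat_lit 246))))) (PT.nd (nat_lit 312) (PT.nd (nat_lit 156) (PT.nd (nat_lit 78) (PT.lf (nat_lit 51528) (nat_lit 6) (nat_lit 678) (nat_lit 2) (nat_lit 265) (nat_lit 270) (nat_lit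 245)) (PT.lf (nat_lit 50388) (nat_lit 6) (nat_lit 663) (nat_lit 2) (nat_lit 266) (nat_lit 270) (nat_lit 244))) (PT.nd (nat_lit 78) (PT.lf (nat_lit 49172) (nat_lit 6) (nat_lit 647) (nat_lit 2) (nat_lit 267) (nat_lit 270) (nat_lit 243)) (PT.lf (nat_lit 47880) (nat_lit 6) (nat_lit 630) (nat_lit 2) (nat_lit 268) (nat_lit 270) (nat_lit 242)))) (PT.nd (nat_lit 156) (PT.nd (nat_lit 78) (PT.lf (nat_lit 46512) (nat_lit 6) (nat_lit 612) (nat_lit 2) (nat_lit 269) (nat_lit 270) (nat_lit 241)) (PT.lf (nat_lit 45068) (nat_lit 3) (nat_lit 593) (nat_lit 0) (nat_lit 270) (nat_lit 270) (nat_lit 240))) (PT.nd (nat_lit 78) (PT.lf (nat_lit 43472) (nat_lit 6) (nat_lit 572) (nat_lit 0) (nat_lit 271) (nat_lit 270) (nat_lit 239)) (PT.lf (nat_lit 41800) (nat_lit 6) (nat_lit 550) (nat_lit 0) (nat_lit 272) (nat_lit 270) (nat_lit 238)))))) (PT.nd (nat_lit 624) (PT.nd (nat_lit 312) (PT.nd (nat_lit 156) (PT.nd (nat_lit 78) (PT.lf (nat_lit 40052) (nat_lit 6) (nat_lit 527) (nat_lit 0) (nat_lit 273) (nat_lit 270) (nat_lit 237)) (PT.lf (nat_lit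 38228) (nat_lit 6) (nat_lit 503) (nat_lit 0) (nat_lit 274) (nat_lit 270) (nat_lit 236))) (PT.nd (nat_lit 78) (PT.lf (nat_lit 36328) (nat_lit 6) (nat_lit 478) (nat_lit 0) (nat_lit 275) (nat_lit 270) (nat_lit 235)) (PT.lf (nat_lit 35112) (nat_lit 6) (nat_lit 462) (nat_lit 0) (nat_lit 276) (nat_lit 270) (nat_lit 234)))) (PT.nd (nat_lit 156) (PT.nd (nat_lit 78) (PT.lf (nat_lit 34124) (nat_lit 6) (nat_lit 449) (nat_lit 0) (nat_lit 277) (nat_lit 270) (nat_lit 233)) (PT.lf (nat_lit 33136) (nat_lit 6) (nat_lit 436) (nat_lit 0) (nat_lit 278) (nat_lit 270) (nat_lit 232))) (PT.nd (nat_lit 78) (PT.lf (nat_lit 32224) (nat_lit 6) (nat_lit 424) (nat_lit 0) (nat_lit 279) (nat_lit 270) (nat_lit 231)) (PT.lf (nat_lit 31236) (nat_lit 6) (nat_lit 411) (nat_lit 0) (nat_lit 280) (nat_lit 270) (nat_lit 230))))) (PT.nd (nat_lit 312) (PT.nd (nat_lit 156) (PT.nd (nat_lit 78) (PT.lf (nat_lit 30324) (nat_lit 6) (nat_lit 399) (nat_lit 0) (nat_lit 281) (nat_lit 270) (nat_lit 229)) (PT.lf (nat_lit 29412) (nat_lit 6) (nat_lit 387) (nat_lit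 0) (nat_lit 282) (nat_lit 270) (nat_lit 228))) (PT.nd (nat_lit 78) (PT.lf (nat_lit 28576) (nat_lit 6) (nat_lit 376) (nat_lit 0) (nat_lit 283) (nat_lit 270) (nat_lit 227)) (PT.lf (nat_lit 27740) (nat_lit 6) (nat_lit 365) (nat_lit 0) (nat_lit 284) (nat_lit 270) (nat_lit 226)))) (PT.nd (nat_lit 156) (PT.nd (nat_lit 78) (PT.lf (nat_lit 26904) (nat_lit 6) (nat_lit 354) (nat_lit 0) (nat_lit 285) (nat_lit 270) (nat_lit 225)) (PT.lf (nat_lit 26068) (nat_lit 6) (nat_lit 343) (nat_lit 0) (nat_lit 286) (nat_lit 270) (nat_lit 224))) (PT.nd (nat_lit 78) (PT.lf (nat_lit 25308) (nat_lit 6) (nat_lit 333) (nat_lit 0) (nat_lit 287) (nat_lit 270) (nat_lit 223)) (PT.lf (nat_lit 24548) (nat_lit 6) (nat_lit 323) (nat_lit 0) (nat_lit 288) (nat_lit 270) (nat_lit 222))))))))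
noncomputable def pc36 : PT := (PT.nd (nat_lit 2418) (PT.nd (nat_lit 1170) (PT.nd (nat_lit 546) (PT.nd (nat_lit 234) (PT.nd (nat_lit 78) (PT.lf (nat_lit 23864) (nat_lit 6) (nat_lit 314) (nat_lit 5) (nat_lit 221) (nat_lit 271) (nat_lit 288)) (PT.nd (nat_lit 78) (PT.lf (nat_lit 24624) (nat_lit 6) (nat_lit 324) (nat_lit 5) (nat_lit 222) (nat_lit 271) (nat_lit 287)) (PT.lf (nat_lit 25384) (nat_lit 6) (nat_lit 334) (nat_lit 5) (nat_lit 223) (nat_lit 271) (nat_lit 286)))) (PT.nd (nat_lit 156) (PT.nd (nat_lit 78) (PT.lf (nat_lit 26144) (nat_lit 6) (nat_lit 344) (nat_lit 5) (nat_lit 224) (nat_lit 271) (nat_lit 285)) (PT.lf (nat_lit 26980) (nat_lit 6) (nat_lit 355) (nat_lit 5) (nat_lit 225) (nat_lit 271) (nat_lit 284))) (PT.nd (nat_lit 78) (PT.lf (nat_lit 27816) (nat_lit 6) (nat_lit 366) (nat_lit 5) (nat_lit 226) (nat_lit 271) (nat_lit 283)) (PT.lf (nat_lit 28652) (nat_lit 6) (nat_lit 377) (nat_lit 5) (nat_lit 227) (nat_lit 271) (nat_lit 282))))) (PT.nd (nat_lit 312) (PT.nd (nat_lit 156) (PT.nd (nat_lit 78) (PT.lf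 (nat_lit 29488) (nat_lit 6) (nat_lit 388) (nat_lit 5) (nat_lit 228) (nat_lit 271) (nat_lit 281)) (PT.lf (nat_lit 30400) (nat_lit 6) (nat_lit 400) (nat_lit 5) (nat_lit 229) (nat_lit 271) (nat_lit 280))) (PT.nd (nat_lit 78) (PT.lf (nat_lit 31312) (nat_lit 6) (nat_lit 412) (nat_lit 5) (nat_lit 230) (nat_lit 271) (nat_lit 279)) (PT.lf (nat_lit 32300) (nat_lit 6) (nat_lit 425) (nat_lit 5) (nat_lit 231) (nat_lit 271) (nat_lit 278)))) (PT.nd (nat_lit 156) (PT.nd (nat_lit 78) (PT.lf (nat_lit 33212) (nat_lit 6) (nat_lit 437) (nat_lit 5) (nat_lit 232) (nat_lit 271) (nat_lit 277)) (PT.lf (nat_lit 34200) (nat_lit 6) (nat_lit 450) (nat_lit 5) (nat_lit 233) (nat_lit 271) (nat_lit 276))) (PT.nd (nat_lit 78) (PT.lf (nat_lit 35188) (nat_lit 6) (nat_lit 463) (nat_lit 5) (nat_lit 234) (nat_lit 271) (nat_lit 275)) (PT.lf (nat_lit 36404) (nat_lit 6) (nat_lit 479) (nat_lit 5) (nat_lit 235) (nat_lit 271) (nat_lit 274)))))) (PT.nd (nat_lit 624) (PT.nd (nat_lit 312) (PT.nd (nat_lit 156) (PT.nd (nat_lit 78) (PT.lf (nat_lit 38304)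 (nat_lit 6) (nat_lit 504) (nat_lit 5) (nat_lit 236) (nat_lit 271) (nat_lit 273)) (PT.lf (nat_lit 40128) (nat_lit 6) (nat_lit 528) (nat_lit 5) (nat_lit 237) (nat_lit 271) (nat_lit 272))) (PT.nd (nat_lit 78) (PT.lf (nat_lit 41876) (nat_lit 3) (nat_lit 551) (nat_lit 4) (nat_lit 238) (nat_lit 271) (nat_lit 271)) (PT.lf (nat_lit 43472) (nat_lit 6) (nat_lit 572) (nat_lit 4) (nat_lit 239) (nat_lit 271) (nat_lit 270)))) (PT.nd (nat_lit 156) (PT.nd (nat_lit 78) (PT.lf (nat_lit 44992) (nat_lit 6) (nat_lit 592) (nat_lit 4) (nat_lit 240) (nat_lit 271) (nat_lit 269)) (PT.lf (nat_lit 46436) (nat_lit 6) (nat_lit 611) (nat_lit 4) (nat_lit 241) (nat_lit 271) (nat_lit 268))) (PT.nd (nat_lit 78) (PT.lf (nat_lit 47804) (nat_lit 6) (nat_lit 629) (nat_lit 4) (nat_lit 242) (nat_lit 271) (nat_lit 267)) (PT.lf (nat_lit 49096) (nat_lit 6) (nat_lit 646) (nat_lit 4) (nat_lit 243) (nat_lit 271) (nat_lit 266))))) (PT.nd (nat_lit 312) (PT.nd (nat_lit 156) (PT.nd (nat_lit 78) (PT.lf (nat_lit 50312) (nat_lit 6) (nat_lit 662) (nat_lit 4)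 (nat_lit 244) (nat_lit 271) (nat_lit 265)) (PT.lf (nat_lit 51452) (nat_lit 6) (nat_lit 677) (nat_lit 4) (nat_lit 245) (nat_lit 271) (nat_lit 264))) (PT.nd (nat_lit 78) (PT.lf (nat_lit 52516) (nat_lit 6) (nat_lit 691) (nat_lit 4) (nat_lit 246) (nat_lit 271) (nat_lit 263)) (PT.lf (nat_lit 53504) (nat_lit 6) (nat_lit 704) (nat_lit 4) (nat_lit 247) (nat_lit 271) (nat_lit 262)))) (PT.nd (nat_lit 156) (PT.nd (nat_lit 78) (PT.lf (nat_lit 54416) (nat_lit 6) (nat_lit 716) (nat_lit 4) (nat_lit 248) (nat_lit 271) (nat_lit 261)) (PT.lf (nat_lit 55252) (nat_lit 6) (nat_lit 727) (nat_lit 4) (nat_lit 249) (nat_lit 271) (nat_lit 260))) (PT.nd (nat_lit 78) (PT.lf (nat_lit 55176) (nat_lit 6) (nat_lit 726) (nat_lit 4) (nat_lit 250) (nat_lit 271) (nat_lit 259)) (PT.lf (nat_lit 55100) (nat_lit 6) (nat_lit 725) (nat_lit 4) (nat_lit 251) (nat_lit 271) (nat_lit 258))))))) (PT.nd (nat_lit 1170) (PT.nd (nat_lit 546) (PT.nd (nat_lit 234) (PT.nd (nat_lit 78) (PT.lf (nat_lit 55024) (nat_lit 6) (nat_lit 724) (nat_lit 4) (nat_lit 252)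 (nat_lit 271) (nat_lit 257)) (PT.nd (nat_lit 78) (PT.lf (nat_lit 54948) (nat_lit 6) (nat_lit 723) (nat_lit 4) (nat_lit 253) (nat_lit 271) (nat_lit 256)) (PT.lf (nat_lit 54872) (nat_lit 6) (nat_lit 722) (nat_lit 4) (nat_lit 254) (nat_lit 271) (nat_lit 255)))) (PT.nd (nat_lit 156) (PT.nd (nat_lit 78) (PT.lf (nat_lit 54872) (nat_lit 6) (nat_lit 722) (nat_lit 2) (nat_lit 255) (nat_lit 271) (nat_lit 254)) (PT.lf (nat_lit 54948) (nat_lit 6) (nat_lit 723) (nat_lit 2) (nat_lit 256) (nat_lit 271) (nat_lit 253))) (PT.nd (nat_lit 78) (PT.lf (nat_lit 55024) (nat_lit 6) (nat_lit 724) (nat_lit 2) (nat_lit 257) (nat_lit 271) (nat_lit 252)) (PT.lf (nat_lit 55100) (nat_lit 6) (nat_lit 725) (nat_lit 2) (nat_lit 258) (nat_lit 271) (nat_lit 251))))) (PT.nd (nat_lit 312) (PT.nd (nat_lit 156) (PT.nd (nat_lit 78) (PT.lf (nat_lit 55176) (nat_lit 6) (nat_lit 726) (nat_lit 2) (nat_lit 259) (nat_lit 271) (nat_lit 250)) (PT.lf (nat_lit 55252) (nat_lit 6) (nat_lit 727) (nat_lit 2) (nat_lit 260) (nat_lit 271) (nat_lit 249))) (PT.nd (nat_lit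 78) (PT.lf (nat_lit 54416) (nat_lit 6) (nat_lit 716) (nat_lit 2) (nat_lit 261) (nat_lit 271) (nat_lit 248)) (PT.lf (nat_lit 53504) (nat_lit 6) (nat_lit 704) (nat_lit 2) (nat_lit 262) (nat_lit 271) (nat_lit 247)))) (PT.nd (nat_lit 156) (PT.nd (nat_lit 78) (PT.lf (nat_lit 52516) (nat_lit 6) (nat_lit 691) (nat_lit 2) (nat_lit 263) (nat_lit 271) (nat_lit 246)) (PT.lf (nat_lit 51452) (nat_lit 6) (nat_lit 677) (nat_lit 2) (nat_lit 264) (nat_lit 271) (nat_lit 245))) (PT.nd (nat_lit 78) (PT.lf (nat_lit 50312) (nat_lit 6) (nat_lit 662) (nat_lit 2) (nat_lit 265) (nat_lit 271) (nat_lit 244)) (PT.lf (nat_lit 49096) (nat_lit 6) (nat_lit 646) (nat_lit 2) (nat_lit 266) (nat_lit 271) (nat_lit 243)))))) (PT.nd (nat_lit 624) (PT.nd (nat_lit 312) (PT.nd (nat_lit 156) (PT.nd (nat_lit 78) (PT.lf (nat_lit 47804) (nat_lit 6) (nat_lit 629) (nat_lit 2) (nat_lit 267) (nat_lit 271) (nat_lit 242)) (PT.lf (nat_lit 46436) (nat_lit 6) (nat_lit 611) (nat_lit 2) (nat_lit 268) (nat_lit 271) (nat_lit 241))) (PT.nd (nat_lit 78) (PT.lf (nat_lit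 44992) (nat_lit 6) (nat_lit 592) (nat_lit 2) (nat_lit 269) (nat_lit 271) (nat_lit 240)) (PT.lf (nat_lit 43472) (nat_lit 6) (nat_lit 572) (nat_lit 2) (nat_lit 270) (nat_lit 271) (nat_lit 239)))) (PT.nd (nat_lit 156) (PT.nd (nat_lit 78) (PT.lf (nat_lit 41876) (nat_lit 3) (nat_lit 551) (nat_lit 0) (nat_lit 271) (nat_lit 271) (nat_lit 238)) (PT.lf (nat_lit 40128) (nat_lit 6) (nat_lit 528) (nat_lit 0) (nat_lit 272) (nat_lit 271) (nat_lit 237))) (PT.nd (nat_lit 78) (PT.lf (nat_lit 38304) (nat_lit 6) (nat_lit 504) (nat_lit 0) (nat_lit 273) (nat_lit 271) (nat_lit 236)) (PT.lf (nat_lit 36404) (nat_lit 6) (nat_lit 479) (nat_lit 0) (nat_lit 274) (nat_lit 271) (nat_lit 235))))) (PT.nd (nat_lit 312) (PT.nd (nat_lit 156) (PT.nd (nat_lit 78) (PT.lf (nat_lit 35188) (nat_lit 6) (nat_lit 463) (nat_lit 0) (nat_lit 275) (nat_lit 271) (nat_lit 234)) (PT.lf (nat_lit 34200) (nat_lit 6) (nat_lit 450) (nat_lit 0) (nat_lit 276) (nat_lit 271) (nat_lit 233))) (PT.nd (nat_lit 78) (PT.lf (nat_lit 33212) (nat_lit 6) (nat_lit 437) (nat_lit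 0) (nat_lit 277) (nat_lit 271) (nat_lit 232)) (PT.lf (nat_lit 32300) (nat_lit 6) (nat_lit 425) (nat_lit 0) (nat_lit 278) (nat_lit 271) (nat_lit 231)))) (PT.nd (nat_lit 156) (PT.nd (nat_lit 78) (PT.lf (nat_lit 31312) (nat_lit 6) (nat_lit 412) (nat_lit 0) (nat_lit 279) (nat_lit 271) (nat_lit 230)) (PT.lf (nat_lit 30400) (nat_lit 6) (nat_lit 400) (nat_lit 0) (nat_lit 280) (nat_lit 271) (nat_lit 229))) (PT.nd (nat_lit 78) (PT.lf (nat_lit 29488) (nat_lit 6) (nat_lit 388) (nat_lit 0) (nat_lit 281) (nat_lit 271) (nat_lit 228)) (PT.lf (nat_lit 28652) (nat_lit 6) (nat_lit 377) (nat_lit 0) (nat_lit 282) (nat_lit 271) (nat_lit 227))))))))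
noncomputable def pc37 : PT := (PT.nd (nat_lit 78234) (PT.nd (nat_lit 76986) (PT.nd (nat_lit 76362) (PT.nd (nat_lit 234) (PT.nd (nat_lit 78) (PT.lf (nat_lit 27816) (nat_lit 6) (nat_lit 366) (nat_lit 0) (nat_lit 283) (nat_lit 271) (nat_lit 226)) (PT.nd (nat_lit 78) (PT.lf (nat_lit 26980) (nat_lit 6) (nat_lit 355) (nat_lit 0) (nat_lit 284) (nat_lit 271) (nat_lit 225)) (PT.lf (nat_lit 26144) (nat_lit 6) (nat_lit 344) (nat_lit 0) (nat_lit 285) (nat_lit 271) (nat_lit 224)))) (PT.nd (nat_lit 156) (PT.nd (nat_lit 78) (PT.lf (nat_lit 25384) (nat_lit 6) (nat_lit 334) (nat_lit 0) (nat_lit 286) (nat_lit 271) (nat_lit 223)) (PT.lf (nat_lit 24624) (nat_lit 6) (nat_lit 324) (nat_lit 0) (nat_lit 287) (nat_lit 271) (nat_lit 222))) (PT.nd (nat_lit 75894) (PT.lf (nat_lit 23864) (nat_lit 6) (nat_lit 314) (nat_lit 0) (nat_lit 288) (nat_lit 271) (nat_lit 221)) (PT.lf (nat_lit 23180) (nat_lit 6) (nat_lit 305) (nat_lit 5) (nat_lit 220) (nat_lit 272) (nat_lit 288))))) (PT.nd (nat_lit 312) (PT.nd (nat_lit 156) (PT.nd (nat_lit 78)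 (PT.lf (nat_lit 23940) (nat_lit 6) (nat_lit 315) (nat_lit 5) (nat_lit 221) (nat_lit 272) (nat_lit 287)) (PT.lf (nat_lit 24700) (nat_lit 6) (nat_lit 325) (nat_lit 5) (nat_lit 222) (nat_lit 272) (nat_lit 286))) (PT.nd (nat_lit 78) (PT.lf (nat_lit 25460) (nat_lit 6) (nat_lit 335) (nat_lit 5) (nat_lit 223) (nat_lit 272) (nat_lit 285)) (PT.lf (nat_lit 26220) (nat_lit 6) (nat_lit 345) (nat_lit 5) (nat_lit 224) (nat_lit 272) (nat_lit 284)))) (PT.nd (nat_lit 156) (PT.nd (nat_lit 78) (PT.lf (nat_lit 27056) (nat_lit 6) (nat_lit 356) (nat_lit 5) (nat_lit 225) (nat_lit 272) (nat_lit 283)) (PT.lf (nat_lit 27892) (nat_lit 6) (nat_lit 367) (nat_lit 5) (nat_lit 226) (nat_lit 272) (nat_lit 282))) (PT.nd (nat_lit 78) (PT.lf (nat_lit 28728) (nat_lit 6) (nat_lit 378) (nat_lit 5) (nat_lit 227) (nat_lit 272) (nat_lit 281)) (PT.lf (nat_lit 29564) (nat_lit 6) (nat_lit 389) (nat_lit 5) (nat_lit 228) (nat_lit 272) (nat_lit 280)))))) (PT.nd (nat_lit 624) (PT.nd (nat_lit 312) (PT.nd (nat_lit 156) (PT.nd (nat_lit 78) (PT.lf (nat_lit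 30476) (nat_lit 6) (nat_lit 401) (nat_lit 5) (nat_lit 229) (nat_lit 272) (nat_lit 279)) (PT.lf (nat_lit 31388) (nat_lit 6) (nat_lit 413) (nat_lit 5) (nat_lit 230) (nat_lit 272) (nat_lit 278))) (PT.nd (nat_lit 78) (PT.lf (nat_lit 32376) (nat_lit 6) (nat_lit 426) (nat_lit 5) (nat_lit 231) (nat_lit 272) (nat_lit 277)) (PT.lf (nat_lit 33288) (nat_lit 6) (nat_lit 438) (nat_lit 5) (nat_lit 232) (nat_lit 272) (nat_lit 276)))) (PT.nd (nat_lit 156) (PT.nd (nat_lit 78) (PT.lf (nat_lit 34276) (nat_lit 6) (nat_lit 451) (nat_lit 5) (nat_lit 233) (nat_lit 272) (nat_lit 275)) (PT.lf (nat_lit 35264) (nat_lit 6) (nat_lit 464) (nat_lit 5) (nat_lit 234) (nat_lit 272) (nat_lit 274))) (PT.nd (nat_lit 78) (PT.lf (nat_lit 36480) (nat_lit 6) (nat_lit 480) (nat_lit 5) (nat_lit 235) (nat_lit 272) (nat_lit 273)) (PT.lf (nat_lit 38380) (nat_lit 3) (nat_lit 505) (nat_lit 4) (nat_lit 236) (nat_lit 272) (nat_lit 272))))) (PT.nd (nat_lit 312) (PT.nd (nat_lit 156) (PT.nd (nat_lit 78) (PT.lf (nat_lit 40128) (nat_lit 6) (nat_lit 528) (nat_lit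 4) (nat_lit 237) (nat_lit 272) (nat_lit 271)) (PT.lf (nat_lit 41800) (nat_lit 6) (nat_lit 550) (nat_lit 4) (nat_lit 238) (nat_lit 272) (nat_lit 270))) (PT.nd (nat_lit 78) (PT.lf (nat_lit 43396) (nat_lit 6) (nat_lit 571) (nat_lit 4) (nat_lit 239) (nat_lit 272) (nat_lit 269)) (PT.lf (nat_lit 44916) (nat_lit 6) (nat_lit 591) (nat_lit 4) (nat_lit 240) (nat_lit 272) (nat_lit 268)))) (PT.nd (nat_lit 156) (PT.nd (nat_lit 78) (PT.lf (nat_lit 46360) (nat_lit 6) (nat_lit 610) (nat_lit 4) (nat_lit 241) (nat_lit 272) (nat_lit 267)) (PT.lf (nat_lit 47728) (nat_lit 6) (nat_lit 628) (nat_lit 4) (nat_lit 242) (nat_lit 272) (nat_lit 266))) (PT.nd (nat_lit 78) (PT.lf (nat_lit 49020) (nat_lit 6) (nat_lit 645) (nat_lit 4) (nat_lit 243) (nat_lit 272) (nat_lit 265)) (PT.lf (nat_lit 50236) (nat_lit 6) (nat_lit 661) (nat_lit 4) (nat_lit 244) (nat_lit 272) (nat_lit 264))))))) (PT.nd (nat_lit 1248) (PT.nd (nat_lit 624) (PT.nd (nat_lit 312) (PT.nd (nat_lit 156) (PT.nd (nat_lit 78) (PT.lf (nat_lit 51376) (nat_lit 6) (nat_lit 676) (nat_lit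 4) (nat_lit 245) (nat_lit 272) (nat_lit 263)) (PT.lf (nat_lit 52440) (nat_lit 6) (nat_lit 690) (nat_lit 4) (nat_lit 246) (nat_lit 272) (nat_lit 262))) (PT.nd (nat_lit 78) (PT.lf (nat_lit 53428) (nat_lit 6) (nat_lit 703) (nat_lit 4) (nat_lit 247) (nat_lit 272) (nat_lit 261)) (PT.lf (nat_lit 54340) (nat_lit 6) (nat_lit 715) (nat_lit 4) (nat_lit 248) (nat_lit 272) (nat_lit 260)))) (PT.nd (nat_lit 156) (PT.nd (nat_lit 78) (PT.lf (nat_lit 54264) (nat_lit 6) (nat_lit 714) (nat_lit 4) (nat_lit 249) (nat_lit 272) (nat_lit 259)) (PT.lf (nat_lit 54188) (nat_lit 6) (nat_lit 713) (nat_lit 4) (nat_lit 250) (nat_lit 272) (nat_lit 258))) (PT.nd (nat_lit 78) (PT.lf (nat_lit 54112) (nat_lit 6) (nat_lit 712) (nat_lit 4) (nat_lit 251) (nat_lit 272) (nat_lit 257)) (PT.lf (nat_lit 54036) (nat_lit 6) (nat_lit 711) (nat_lit 4) (nat_lit 252) (nat_lit 272) (nat_lit 256))))) (PT.nd (nat_lit 312) (PT.nd (nat_lit 156) (PT.nd (nat_lit 78) (PT.lf (nat_lit 53960) (nat_lit 6) (nat_lit 710) (nat_lit 4) (nat_lit 253) (nat_lit 272) (nat_lit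 255)) (PT.lf (nat_lit 53884) (nat_lit 3) (nat_lit 709) (nat_lit 2) (nat_lit 254) (nat_lit 272) (nat_lit 254))) (PT.nd (nat_lit 78) (PT.lf (nat_lit 53960) (nat_lit 6) (nat_lit 710) (nat_lit 2) (nat_lit 255) (nat_lit 272) (nat_lit 253)) (PT.lf (nat_lit 54036) (nat_lit 6) (nat_lit 711) (nat_lit 2) (nat_lit 256) (nat_lit 272) (nat_lit 252)))) (PT.nd (nat_lit 156) (PT.nd (nat_lit 78) (PT.lf (nat_lit 54112) (nat_lit 6) (nat_lit 712) (nat_lit 2) (nat_lit 257) (nat_lit 272) (nat_lit 251)) (PT.lf (nat_lit 54188) (nat_lit 6) (nat_lit 713) (nat_lit 2) (nat_lit 258) (nat_lit 272) (nat_lit 250))) (PT.nd (nat_lit 78) (PT.lf (nat_lit 54264) (nat_lit 6) (nat_lit 714) (nat_lit 2) (nat_lit 259) (nat_lit 272) (nat_lit 249)) (PT.lf (nat_lit 54340) (nat_lit 6) (nat_lit 715) (nat_lit 2) (nat_lit 260) (nat_lit 272) (nat_lit 248)))))) (PT.nd (nat_lit 624) (PT.nd (nat_lit 312) (PT.nd (nat_lit 156) (PT.nd (nat_lit 78) (PT.lf (nat_lit 53428) (nat_lit 6) (nat_lit 703) (nat_lit 2) (nat_lit 261) (nat_lit 272) (nat_lit 247)) (PT.lf (nat_lit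 52440) (nat_lit 6) (nat_lit 690) (nat_lit 2) (nat_lit 262) (nat_lit 272) (nat_lit 246))) (PT.nd (nat_lit 78) (PT.lf (nat_lit 51376) (nat_lit 6) (nat_lit 676) (nat_lit 2) (nat_lit 263) (nat_lit 272) (nat_lit 245)) (PT.lf (nat_lit 50236) (nat_lit 6) (nat_lit 661) (nat_lit 2) (nat_lit 264) (nat_lit 272) (nat_lit 244)))) (PT.nd (nat_lit 156) (PT.nd (nat_lit 78) (PT.lf (nat_lit 49020) (nat_lit 6) (nat_lit 645) (nat_lit 2) (nat_lit 265) (nat_lit 272) (nat_lit 243)) (PT.lf (nat_lit 47728) (nat_lit 6) (nat_lit 628) (nat_lit 2) (nat_lit 266) (nat_lit 272) (nat_lit 242))) (PT.nd (nat_lit 78) (PT.lf (nat_lit 46360) (nat_lit 6) (nat_lit 610) (nat_lit 2) (nat_lit 267) (nat_lit 272) (nat_lit 241)) (PT.lf (nat_lit 44916) (nat_lit 6) (nat_lit 591) (nat_lit 2) (nat_lit 268) (nat_lit 272) (nat_lit 240))))) (PT.nd (nat_lit 312) (PT.nd (nat_lit 156) (PT.nd (nat_lit 78) (PT.lf (nat_lit 43396) (nat_lit 6) (nat_lit 571) (nat_lit 2) (nat_lit 269) (nat_lit 272) (nat_lit 239)) (PT.lf (nat_lit 41800) (nat_lit 6) (nat_lit 550) (nat_lit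 2) (nat_lit 270) (nat_lit 272) (nat_lit 238))) (PT.nd (nat_lit 78) (PT.lf (nat_lit 40128) (nat_lit 6) (nat_lit 528) (nat_lit 2) (nat_lit 271) (nat_lit 272) (nat_lit 237)) (PT.lf (nat_lit 38380) (nat_lit 3) (nat_lit 505) (nat_lit 0) (nat_lit 272) (nat_lit 272) (nat_lit 236)))) (PT.nd (nat_lit 156) (PT.nd (nat_lit 78) (PT.lf (nat_lit 36480) (nat_lit 6) (nat_lit 480) (nat_lit 0) (nat_lit 273) (nat_lit 272) (nat_lit 235)) (PT.lf (nat_lit 35264) (nat_lit 6) (nat_lit 464) (nat_lit 0) (nat_lit 274) (nat_lit 272) (nat_lit 234))) (PT.nd (nat_lit 78) (PT.lf (nat_lit 34276) (nat_lit 6) (nat_lit 451) (nat_lit 0) (nat_lit 275) (nat_lit 272) (nat_lit 233)) (PT.lf (nat_lit 33288) (nat_lit 6) (nat_lit 438) (nat_lit 0) (nat_lit 276) (nat_lit 272) (nat_lit 232))))))))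
noncomputable def pc38 : PT := (PT.nd (nat_lit 78078) (PT.nd (nat_lit 76830) (PT.nd (nat_lit 546) (PT.nd (nat_lit 234) (PT.nd (nat_lit 78) (PT.lf (nat_lit 32376) (nat_lit 6) (nat_lit 426) (nat_lit 0) (nat_lit 277) (nat_lit 272) (nat_lit 231)) (PT.nd (nat_lit 78) (PT.lf (nat_lit 31388) (nat_lit 6) (nat_lit 413) (nat_lit 0) (nat_lit 278) (nat_lit 272) (nat_lit 230)) (PT.lf (nat_lit 30476) (nat_lit 6) (nat_lit 401) (nat_lit 0) (nat_lit 279) (nat_lit 272) (nat_lit 229)))) (PT.nd (nat_lit 156) (PT.nd (nat_lit 78) (PT.lf (nat_lit 29564) (nat_lit 6) (nat_lit 389) (nat_lit 0) (nat_lit 280) (nat_lit 272) (nat_lit 228)) (PT.lf (nat_lit 28728) (nat_lit 6) (nat_lit 378) (nat_lit 0) (nat_lit 281) (nat_lit 272) (nat_lit 227))) (PT.nd (nat_lit 78) (PT.lf (nat_lit 27892) (nat_lit 6) (nat_lit 367) (nat_lit 0) (nat_lit 282) (nat_lit 272) (nat_lit 226)) (PT.lf (nat_lit 27056) (nat_lit 6) (nat_lit 356) (nat_lit 0) (nat_lit 283) (nat_lit 272) (nat_lit 225))))) (PT.nd (nat_lit 312) (PT.nd (nat_lit 156) (PT.nd (nat_lit 78) (PT.lf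 (nat_lit 26220) (nat_lit 6) (nat_lit 345) (nat_lit 0) (nat_lit 284) (nat_lit 272) (nat_lit 224)) (PT.lf (nat_lit 25460) (nat_lit 6) (nat_lit 335) (nat_lit 0) (nat_lit 285) (nat_lit 272) (nat_lit 223))) (PT.nd (nat_lit 78) (PT.lf (nat_lit 24700) (nat_lit 6) (nat_lit 325) (nat_lit 0) (nat_lit 286) (nat_lit 272) (nat_lit 222)) (PT.lf (nat_lit 23940) (nat_lit 6) (nat_lit 315) (nat_lit 0) (nat_lit 287) (nat_lit 272) (nat_lit 221)))) (PT.nd (nat_lit 75816) (PT.nd (nat_lit 75738) (PT.lf (nat_lit 23180) (nat_lit 6) (nat_lit 305) (nat_lit 0) (nat_lit 288) (nat_lit 272) (nat_lit 220)) (PT.lf (nat_lit 21888) (nat_lit 6) (nat_lit 288) (nat_lit 5) (nat_lit 218) (nat_lit 273) (nat_lit 289))) (PT.nd (nat_lit 78) (PT.lf (nat_lit 22572) (nat_lit 6) (nat_lit 297) (nat_lit 5) (nat_lit 219) (nat_lit 273) (nat_lit 288)) (PT.lf (nat_lit 23256) (nat_lit 6) (nat_lit 306) (nat_lit 5) (nat_lit 220) (nat_lit 273) (nat_lit 287)))))) (PT.nd (nat_lit 624) (PT.nd (nat_lit 312) (PT.nd (nat_lit 156) (PT.nd (nat_lit 78) (PT.lf (nat_lit 24016)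 (nat_lit 6) (nat_lit 316) (nat_lit 5) (nat_lit 221) (nat_lit 273) (nat_lit 286)) (PT.lf (nat_lit 24776) (nat_lit 6) (nat_lit 326) (nat_lit 5) (nat_lit 222) (nat_lit 273) (nat_lit 285))) (PT.nd (nat_lit 78) (PT.lf (nat_lit 25536) (nat_lit 6) (nat_lit 336) (nat_lit 5) (nat_lit 223) (nat_lit 273) (nat_lit 284)) (PT.lf (nat_lit 26296) (nat_lit 6) (nat_lit 346) (nat_lit 5) (nat_lit 224) (nat_lit 273) (nat_lit 283)))) (PT.nd (nat_lit 156) (PT.nd (nat_lit 78) (PT.lf (nat_lit 27132) (nat_lit 6) (nat_lit 357) (nat_lit 5) (nat_lit 225) (nat_lit 273) (nat_lit 282)) (PT.lf (nat_lit 27968) (nat_lit 6) (nat_lit 368) (nat_lit 5) (nat_lit 226) (nat_lit 273) (nat_lit 281))) (PT.nd (nat_lit 78) (PT.lf (nat_lit 28804) (nat_lit 6) (nat_lit 379) (nat_lit 5) (nat_lit 227) (nat_lit 273) (nat_lit 280)) (PT.lf (nat_lit 29640) (nat_lit 6) (nat_lit 390) (nat_lit 5) (nat_lit 228) (nat_lit 273) (nat_lit 279))))) (PT.nd (nat_lit 312) (PT.nd (nat_lit 156) (PT.nd (nat_lit 78) (PT.lf (nat_lit 30552) (nat_lit 6) (nat_lit 402) (nat_lit 5)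 (nat_lit 229) (nat_lit 273) (nat_lit 278)) (PT.lf (nat_lit 31464) (nat_lit 6) (nat_lit 414) (nat_lit 5) (nat_lit 230) (nat_lit 273) (nat_lit 277))) (PT.nd (nat_lit 78) (PT.lf (nat_lit 32452) (nat_lit 6) (nat_lit 427) (nat_lit 5) (nat_lit 231) (nat_lit 273) (nat_lit 276)) (PT.lf (nat_lit 33364) (nat_lit 6) (nat_lit 439) (nat_lit 5) (nat_lit 232) (nat_lit 273) (nat_lit 275)))) (PT.nd (nat_lit 156) (PT.nd (nat_lit 78) (PT.lf (nat_lit 34352) (nat_lit 6) (nat_lit 452) (nat_lit 5) (nat_lit 233) (nat_lit 273) (nat_lit 274)) (PT.lf (nat_lit 35340) (nat_lit 3) (nat_lit 465) (nat_lit 4) (nat_lit 234) (nat_lit 273) (nat_lit 273))) (PT.nd (nat_lit 78) (PT.lf (nat_lit 36480) (nat_lit 6) (nat_lit 480) (nat_lit 4) (nat_lit 235) (nat_lit 273) (nat_lit 272)) (PT.lf (nat_lit 38304) (nat_lit 6) (nat_lit 504) (nat_lit 4) (nat_lit 236) (nat_lit 273) (nat_lit 271))))))) (PT.nd (nat_lit 1248) (PT.nd (nat_lit 624) (PT.nd (nat_lit 312) (PT.nd (nat_lit 156) (PT.nd (nat_lit 78) (PT.lf (nat_lit 40052) (nat_lit 6) (nat_lit 527) (nat_lit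 4) (nat_lit 237) (nat_lit 273) (nat_lit 270)) (PT.lf (nat_lit 41724) (nat_lit 6) (nat_lit 549) (nat_lit 4) (nat_lit 238) (nat_lit 273) (nat_lit 269))) (PT.nd (nat_lit 78) (PT.lf (nat_lit 43320) (nat_lit 6) (nat_lit 570) (nat_lit 4) (nat_lit 239) (nat_lit 273) (nat_lit 268)) (PT.lf (nat_lit 44840) (nat_lit 6) (nat_lit 590) (nat_lit 4) (nat_lit 240) (nat_lit 273) (nat_lit 267)))) (PT.nd (nat_lit 156) (PT.nd (nat_lit 78) (PT.lf (nat_lit 46284) (nat_lit 6) (nat_lit 609) (nat_lit 4) (nat_lit 241) (nat_lit 273) (nat_lit 266)) (PT.lf (nat_lit 47652) (nat_lit 6) (nat_lit 627) (nat_lit 4) (nat_lit 242) (nat_lit 273) (nat_lit 265))) (PT.nd (nat_lit 78) (PT.lf (nat_lit 48944) (nat_lit 6) (nat_lit 644) (nat_lit 4) (nat_lit 243) (nat_lit 273) (nat_lit 264)) (PT.lf (nat_lit 50160) (nat_lit 6) (nat_lit 660) (nat_lit 4) (nat_lit 244) (nat_lit 273) (nat_lit 263))))) (PT.nd (nat_lit 312) (PT.nd (nat_lit 156) (PT.nd (nat_lit 78) (PT.lf (nat_lit 51300) (nat_lit 6) (nat_lit 675) (nat_lit 4) (nat_lit 245) (nat_lit 273) (nat_lit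 262)) (PT.lf (nat_lit 52364) (nat_lit 6) (nat_lit 689) (nat_lit 4) (nat_lit 246) (nat_lit 273) (nat_lit 261))) (PT.nd (nat_lit 78) (PT.lf (nat_lit 53352) (nat_lit 6) (nat_lit 702) (nat_lit 4) (nat_lit 247) (nat_lit 273) (nat_lit 260)) (PT.lf (nat_lit 53276) (nat_lit 6) (nat_lit 701) (nat_lit 4) (nat_lit 248) (nat_lit 273) (nat_lit 259)))) (PT.nd (nat_lit 156) (PT.nd (nat_lit 78) (PT.lf (nat_lit 53200) (nat_lit 6) (nat_lit 700) (nat_lit 4) (nat_lit 249) (nat_lit 273) (nat_lit 258)) (PT.lf (nat_lit 53124) (nat_lit 6) (nat_lit 699) (nat_lit 4) (nat_lit 250) (nat_lit 273) (nat_lit 257))) (PT.nd (nat_lit 78) (PT.lf (nat_lit 53048) (nat_lit 6) (nat_lit 698) (nat_lit 4) (nat_lit 251) (nat_lit 273) (nat_lit 256)) (PT.lf (nat_lit 52972) (nat_lit 6) (nat_lit 697) (nat_lit 4) (nat_lit 252) (nat_lit 273) (nat_lit 255)))))) (PT.nd (nat_lit 624) (PT.nd (nat_lit 312) (PT.nd (nat_lit 156) (PT.nd (nat_lit 78) (PT.lf (nat_lit 52896) (nat_lit 6) (nat_lit 696) (nat_lit 4) (nat_lit 253) (nat_lit 273) (nat_lit 254)) (PT.lf (nat_lit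 52896) (nat_lit 6) (nat_lit 696) (nat_lit 2) (nat_lit 254) (nat_lit 273) (nat_lit 253))) (PT.nd (nat_lit 78) (PT.lf (nat_lit 52972) (nat_lit 6) (nat_lit 697) (nat_lit 2) (nat_lit 255) (nat_lit 273) (nat_lit 252)) (PT.lf (nat_lit 53048) (nat_lit 6) (nat_lit 698) (nat_lit 2) (nat_lit 256) (nat_lit 273) (nat_lit 251)))) (PT.nd (nat_lit 156) (PT.nd (nat_lit 78) (PT.lf (nat_lit 53124) (nat_lit 6) (nat_lit 699) (nat_lit 2) (nat_lit 257) (nat_lit 273) (nat_lit 250)) (PT.lf (nat_lit 53200) (nat_lit 6) (nat_lit 700) (nat_lit 2) (nat_lit 258) (nat_lit 273) (nat_lit 249))) (PT.nd (nat_lit 78) (PT.lf (nat_lit 53276) (nat_lit 6) (nat_lit 701) (nat_lit 2) (nat_lit 259) (nat_lit 273) (nat_lit 248)) (PT.lf (nat_lit 53352) (nat_lit 6) (nat_lit 702) (nat_lit 2) (nat_lit 260) (nat_lit 273) (nat_lit 247))))) (PT.nd (nat_lit 312) (PT.nd (nat_lit 156) (PT.nd (nat_lit 78) (PT.lf (nat_lit 52364) (nat_lit 6) (nat_lit 689) (nat_lit 2) (nat_lit 261) (nat_lit 273) (nat_lit 246)) (PT.lf (nat_lit 51300) (nat_lit 6) (nat_lit 675) (nat_lit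 2) (nat_lit 262) (nat_lit 273) (nat_lit 245))) (PT.nd (nat_lit 78) (PT.lf (nat_lit 50160) (nat_lit 6) (nat_lit 660) (nat_lit 2) (nat_lit 263) (nat_lit 273) (nat_lit 244)) (PT.lf (nat_lit 48944) (nat_lit 6) (nat_lit 644) (nat_lit 2) (nat_lit 264) (nat_lit 273) (nat_lit 243)))) (PT.nd (nat_lit 156) (PT.nd (nat_lit 78) (PT.lf (nat_lit 47652) (nat_lit 6) (nat_lit 627) (nat_lit 2) (nat_lit 265) (nat_lit 273) (nat_lit 242)) (PT.lf (nat_lit 46284) (nat_lit 6) (nat_lit 609) (nat_lit 2) (nat_lit 266) (nat_lit 273) (nat_lit 241))) (PT.nd (nat_lit 78) (PT.lf (nat_lit 44840) (nat_lit 6) (nat_lit 590) (nat_lit 2) (nat_lit 267) (nat_lit 273) (nat_lit 240)) (PT.lf (nat_lit 43320) (nat_lit 6) (nat_lit 570) (nat_lit 2) (nat_lit 268) (nat_lit 273) (nat_lit 239))))))))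
noncomputable def pc39 : PT := (PT.nd (nat_lit 77922) (PT.nd (nat_lit 1170) (PT.nd (nat_lit 546) (PT.nd (nat_lit 234) (PT.nd (nat_lit 78) (PT.lf (nat_lit 41724) (nat_lit 6) (nat_lit 549) (nat_lit 2) (nat_lit 269) (nat_lit 273) (nat_lit 238)) (PT.nd (nat_lit 78) (PT.lf (nat_lit 40052) (nat_lit 6) (nat_lit 527) (nat_lit 2) (nat_lit 270) (nat_lit 273) (nat_lit 237)) (PT.lf (nat_lit 38304) (nat_lit 6) (nat_lit 504) (nat_lit 2) (nat_lit 271) (nat_lit 273) (nat_lit 236)))) (PT.nd (nat_lit 156) (PT.nd (nat_lit 78) (PT.lf (nat_lit 36480) (nat_lit 6) (nat_lit 480) (nat_lit 2) (nat_lit 272) (nat_lit 273) (nat_lit 235)) (PT.lf (nat_lit 35340) (nat_lit 3) (nat_lit 465) (nat_lit 0) (nat_lit 273) (nat_lit 273) (nat_lit 234))) (PT.nd (nat_lit 78) (PT.lf (nat_lit 34352) (nat_lit 6) (nat_lit 452) (nat_lit 0) (nat_lit 274) (nat_lit 273) (nat_lit 233)) (PT.lf (nat_lit 33364) (nat_lit 6) (nat_lit 439) (nat_lit 0) (nat_lit 275) (nat_lit 273) (nat_lit 232))))) (PT.nd (nat_lit 312) (PT.nd (nat_lit 156) (PT.nd (nat_lit 78) (PT.lf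 (nat_lit 32452) (nat_lit 6) (nat_lit 427) (nat_lit 0) (nat_lit 276) (nat_lit 273) (nat_lit 231)) (PT.lf (nat_lit 31464) (nat_lit 6) (nat_lit 414) (nat_lit 0) (nat_lit 277) (nat_lit 273) (nat_lit 230))) (PT.nd (nat_lit 78) (PT.lf (nat_lit 30552) (nat_lit 6) (nat_lit 402) (nat_lit 0) (nat_lit 278) (nat_lit 273) (nat_lit 229)) (PT.lf (nat_lit 29640) (nat_lit 6) (nat_lit 390) (nat_lit 0) (nat_lit 279) (nat_lit 273) (nat_lit 228)))) (PT.nd (nat_lit 156) (PT.nd (nat_lit 78) (PT.lf (nat_lit 28804) (nat_lit 6) (nat_lit 379) (nat_lit 0) (nat_lit 280) (nat_lit 273) (nat_lit 227)) (PT.lf (nat_lit 27968) (nat_lit 6) (nat_lit 368) (nat_lit 0) (nat_lit 281) (nat_lit 273) (nat_lit 226))) (PT.nd (nat_lit 78) (PT.lf (nat_lit 27132) (nat_lit 6) (nat_lit 357) (nat_lit 0) (nat_lit 282) (nat_lit 273) (nat_lit 225)) (PT.lf (nat_lit 26296) (nat_lit 6) (nat_lit 346) (nat_lit 0) (nat_lit 283) (nat_lit 273) (nat_lit 224)))))) (PT.nd (nat_lit 76128) (PT.nd (nat_lit 312) (PT.nd (nat_lit 156) (PT.nd (nat_lit 78) (PT.lf (nat_lit 25536)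 (nat_lit 6) (nat_lit 336) (nat_lit 0) (nat_lit 284) (nat_lit 273) (nat_lit 223)) (PT.lf (nat_lit 24776) (nat_lit 6) (nat_lit 326) (nat_lit 0) (nat_lit 285) (nat_lit 273) (nat_lit 222))) (PT.nd (nat_lit 78) (PT.lf (nat_lit 24016) (nat_lit 6) (nat_lit 316) (nat_lit 0) (nat_lit 286) (nat_lit 273) (nat_lit 221)) (PT.lf (nat_lit 23256) (nat_lit 6) (nat_lit 306) (nat_lit 0) (nat_lit 287) (nat_lit 273) (nat_lit 220)))) (PT.nd (nat_lit 75660) (PT.nd (nat_lit 78) (PT.lf (nat_lit 22572) (nat_lit 6) (nat_lit 297) (nat_lit 0) (nat_lit 288) (nat_lit 273) (nat_lit 219)) (PT.lf (nat_lit 21888) (nat_lit 6) (nat_lit 288) (nat_lit 0) (nat_lit 289) (nat_lit 273) (nat_lit 218))) (PT.nd (nat_lit 78) (PT.lf (nat_lit 21280) (nat_lit 6) (nat_lit 280) (nat_lit 5) (nat_lit 217) (nat_lit 274) (nat_lit 289)) (PT.lf (nat_lit 21964) (nat_lit 6) (nat_lit 289) (nat_lit 5) (nat_lit 218) (nat_lit 274) (nat_lit 288))))) (PT.nd (nat_lit 312) (PT.nd (nat_lit 156) (PT.nd (nat_lit 78) (PT.lf (nat_lit 22648) (nat_lit 6) (nat_lit 298) (nat_lit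 5) (nat_lit 219) (nat_lit 274) (nat_lit 287)) (PT.lf (nat_lit 23332) (nat_lit 6) (nat_lit 307) (nat_lit 5) (nat_lit 220) (nat_lit 274) (nat_lit 286))) (PT.nd (nat_lit 78) (PT.lf (nat_lit 24092) (nat_lit 6) (nat_lit 317) (nat_lit 5) (nat_lit 221) (nat_lit 274) (nat_lit 285)) (PT.lf (nat_lit 24852) (nat_lit 6) (nat_lit 327) (nat_lit 5) (nat_lit 222) (nat_lit 274) (nat_lit 284)))) (PT.nd (nat_lit 156) (PT.nd (nat_lit 78) (PT.lf (nat_lit 25612) (nat_lit 6) (nat_lit 337) (nat_lit 5) (nat_lit 223) (nat_lit 274) (nat_lit 283)) (PT.lf (nat_lit 26372) (nat_lit 6) (nat_lit 347) (nat_lit 5) (nat_lit 224) (nat_lit 274) (nat_lit 282))) (PT.nd (nat_lit 78) (PT.lf (nat_lit 27208) (nat_lit 6) (nat_lit 358) (nat_lit 5) (nat_lit 225) (nat_lit 274) (nat_lit 281)) (PT.lf (nat_lit 28044) (nat_lit 6) (nat_lit 369) (nat_lit 5) (nat_lit 226) (nat_lit 274) (nat_lit 280))))))) (PT.nd (nat_lit 1248) (PT.nd (nat_lit 624) (PT.nd (nat_lit 312) (PT.nd (nat_lit 156) (PT.nd (nat_lit 78) (PT.lf (nat_lit 28880) (nat_lit 6) (nat_lit 380) (nat_lit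 5) (nat_lit 227) (nat_lit 274) (nat_lit 279)) (PT.lf (nat_lit 29716) (nat_lit 6) (nat_lit 391) (nat_lit 5) (nat_lit 228) (nat_lit 274) (nat_lit 278))) (PT.nd (nat_lit 78) (PT.lf (nat_lit 30628) (nat_lit 6) (nat_lit 403) (nat_lit 5) (nat_lit 229) (nat_lit 274) (nat_lit 277)) (PT.lf (nat_lit 31540) (nat_lit 6) (nat_lit 415) (nat_lit 5) (nat_lit 230) (nat_lit 274) (nat_lit 276)))) (PT.nd (nat_lit 156) (PT.nd (nat_lit 78) (PT.lf (nat_lit 32528) (nat_lit 6) (nat_lit 428) (nat_lit 5) (nat_lit 231) (nat_lit 274) (nat_lit 275)) (PT.lf (nat_lit 33440) (nat_lit 3) (nat_lit 440) (nat_lit 4) (nat_lit 232) (nat_lit 274) (nat_lit 274))) (PT.nd (nat_lit 78) (PT.lf (nat_lit 34352) (nat_lit 6) (nat_lit 452) (nat_lit 4) (nat_lit 233) (nat_lit 274) (nat_lit 273)) (PT.lf (nat_lit 35264) (nat_lit 6) (nat_lit 464) (nat_lit 4) (nat_lit 234) (nat_lit 274) (nat_lit 272))))) (PT.nd (nat_lit 312) (PT.nd (nat_lit 156) (PT.nd (nat_lit 78) (PT.lf (nat_lit 36404) (nat_lit 6) (nat_lit 479) (nat_lit 4) (nat_lit 235) (nat_lit 274) (nat_lit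 271)) (PT.lf (nat_lit 38228) (nat_lit 6) (nat_lit 503) (nat_lit 4) (nat_lit 236) (nat_lit 274) (nat_lit 270))) (PT.nd (nat_lit 78) (PT.lf (nat_lit 39976) (nat_lit 6) (nat_lit 526) (nat_lit 4) (nat_lit 237) (nat_lit 274) (nat_lit 269)) (PT.lf (nat_lit 41648) (nat_lit 6) (nat_lit 548) (nat_lit 4) (nat_lit 238) (nat_lit 274) (nat_lit 268)))) (PT.nd (nat_lit 156) (PT.nd (nat_lit 78) (PT.lf (nat_lit 43244) (nat_lit 6) (nat_lit 569) (nat_lit 4) (nat_lit 239) (nat_lit 274) (nat_lit 267)) (PT.lf (nat_lit 44764) (nat_lit 6) (nat_lit 589) (nat_lit 4) (nat_lit 240) (nat_lit 274) (nat_lit 266))) (PT.nd (nat_lit 78) (PT.lf (nat_lit 46208) (nat_lit 6) (nat_lit 608) (nat_lit 4) (nat_lit 241) (nat_lit 274) (nat_lit 265)) (PT.lf (nat_lit 47576) (nat_lit 6) (nat_lit 626) (nat_lit 4) (nat_lit 242) (nat_lit 274) (nat_lit 264)))))) (PT.nd (nat_lit 624) (PT.nd (nat_lit 312) (PT.nd (nat_lit 156) (PT.nd (nat_lit 78) (PT.lf (nat_lit 48868) (nat_lit 6) (nat_lit 643) (nat_lit 4) (nat_lit 243) (nat_lit 274) (nat_lit 263)) (PT.lf (nat_lit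 50084) (nat_lit 6) (nat_lit 659) (nat_lit 4) (nat_lit 244) (nat_lit 274) (nat_lit 262))) (PT.nd (nat_lit 78) (PT.lf (nat_lit 51224) (nat_lit 6) (nat_lit 674) (nat_lit 4) (nat_lit 245) (nat_lit 274) (nat_lit 261)) (PT.lf (nat_lit 52288) (nat_lit 6) (nat_lit 688) (nat_lit 4) (nat_lit 246) (nat_lit 274) (nat_lit 260)))) (PT.nd (nat_lit 156) (PT.nd (nat_lit 78) (PT.lf (nat_lit 52212) (nat_lit 6) (nat_lit 687) (nat_lit 4) (nat_lit 247) (nat_lit 274) (nat_lit 259)) (PT.lf (nat_lit 52136) (nat_lit 6) (nat_lit 686) (nat_lit 4) (nat_lit 248) (nat_lit 274) (nat_lit 258))) (PT.nd (nat_lit 78) (PT.lf (nat_lit 52060) (nat_lit 6) (nat_lit 685) (nat_lit 4) (nat_lit 249) (nat_lit 274) (nat_lit 257)) (PT.lf (nat_lit 51984) (nat_lit 6) (nat_lit 684) (nat_lit 4) (nat_lit 250) (nat_lit 274) (nat_lit 256))))) (PT.nd (nat_lit 312) (PT.nd (nat_lit 156) (PT.nd (nat_lit 78) (PT.lf (nat_lit 51908) (nat_lit 6) (nat_lit 683) (nat_lit 4) (nat_lit 251) (nat_lit 274) (nat_lit 255)) (PT.lf (nat_lit 51832) (nat_lit 6) (nat_lit 682) (nat_lit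 4) (nat_lit 252) (nat_lit 274) (nat_lit 254))) (PT.nd (nat_lit 78) (PT.lf (nat_lit 51756) (nat_lit 3) (nat_lit 681) (nat_lit 2) (nat_lit 253) (nat_lit 274) (nat_lit 253)) (PT.lf (nat_lit 51832) (nat_lit 6) (nat_lit 682) (nat_lit 2) (nat_lit 254) (nat_lit 274) (nat_lit 252)))) (PT.nd (nat_lit 156) (PT.nd (nat_lit 78) (PT.lf (nat_lit 51908) (nat_lit 6) (nat_lit 683) (nat_lit 2) (nat_lit 255) (nat_lit 274) (nat_lit 251)) (PT.lf (nat_lit 51984) (nat_lit 6) (nat_lit 684) (nat_lit 2) (nat_lit 256) (nat_lit 274) (nat_lit 250))) (PT.nd (nat_lit 78) (PT.lf (nat_lit 52060) (nat_lit 6) (nat_lit 685) (nat_lit 2) (nat_lit 257) (nat_lit 274) (nat_lit 249)) (PT.lf (nat_lit 52136) (nat_lit 6) (nat_lit 686) (nat_lit 2) (nat_lit 258) (nat_lit 274) (nat_lit 248))))))))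
noncomputable def pc40 : PT := (PT.nd (nat_lit 77844) (PT.nd (nat_lit 1170) (PT.nd (nat_lit 546) (PT.nd (nat_lit 234) (PT.nd (nat_lit 78) (PT.lf (nat_lit 52212) (nat_lit 6) (nat_lit 687) (nat_lit 2) (nat_lit 259) (nat_lit 274) (nat_lit 247)) (PT.nd (nat_lit 78) (PT.lf (nat_lit 52288) (nat_lit 6) (nat_lit 688) (nat_lit 2) (nat_lit 260) (nat_lit 274) (nat_lit 246)) (PT.lf (nat_lit 51224) (nat_lit 6) (nat_lit 674) (nat_lit 2) (nat_lit 261) (nat_lit 274) (nat_lit 245)))) (PT.nd (nat_lit 156) (PT.nd (nat_lit 78) (PT.lf (nat_lit 50084) (nat_lit 6) (nat_lit 659) (nat_lit 2) (nat_lit 262) (nat_lit 274) (nat_lit 244)) (PT.lf (nat_lit 48868) (nat_lit 6) (nat_lit 643) (nat_lit 2) (nat_lit 263) (nat_lit 274) (nat_lit 243))) (PT.nd (nat_lit 78) (PT.lf (nat_lit 47576) (nat_lit 6) (nat_lit 626) (nat_lit 2) (nat_lit 264) (nat_lit 274) (nat_lit 242)) (PT.lf (nat_lit 46208) (nat_lit 6) (nat_lit 608) (nat_lit 2) (nat_lit 265) (nat_lit 274) (nat_lit 241))))) (PT.nd (nat_lit 312) (PT.nd (nat_lit 156) (PT.nd (nat_lit 78) (PT.lf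 (nat_lit 44764) (nat_lit 6) (nat_lit 589) (nat_lit 2) (nat_lit 266) (nat_lit 274) (nat_lit 240)) (PT.lf (nat_lit 43244) (nat_lit 6) (nat_lit 569) (nat_lit 2) (nat_lit 267) (nat_lit 274) (nat_lit 239))) (PT.nd (nat_lit 78) (PT.lf (nat_lit 41648) (nat_lit 6) (nat_lit 548) (nat_lit 2) (nat_lit 268) (nat_lit 274) (nat_lit 238)) (PT.lf (nat_lit 39976) (nat_lit 6) (nat_lit 526) (nat_lit 2) (nat_lit 269) (nat_lit 274) (nat_lit 237)))) (PT.nd (nat_lit 156) (PT.nd (nat_lit 78) (PT.lf (nat_lit 38228) (nat_lit 6) (nat_lit 503) (nat_lit 2) (nat_lit 270) (nat_lit 274) (nat_lit 236)) (PT.lf (nat_lit 36404) (nat_lit 6) (nat_lit 479) (nat_lit 2) (nat_lit 271) (nat_lit 274) (nat_lit 235))) (PT.nd (nat_lit 78) (PT.lf (nat_lit 35264) (nat_lit 6) (nat_lit 464) (nat_lit 2) (nat_lit 272) (nat_lit 274) (nat_lit 234)) (PT.lf (nat_lit 34352) (nat_lit 6) (nat_lit 452) (nat_lit 2) (nat_lit 273) (nat_lit 274) (nat_lit 233)))))) (PT.nd (nat_lit 624) (PT.nd (nat_lit 312) (PT.nd (nat_lit 156) (PT.nd (nat_lit 78) (PT.lf (nat_lit 33440)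 (nat_lit 3) (nat_lit 440) (nat_lit 0) (nat_lit 274) (nat_lit 274) (nat_lit 232)) (PT.lf (nat_lit 32528) (nat_lit 6) (nat_lit 428) (nat_lit 0) (nat_lit 275) (nat_lit 274) (nat_lit 231))) (PT.nd (nat_lit 78) (PT.lf (nat_lit 31540) (nat_lit 6) (nat_lit 415) (nat_lit 0) (nat_lit 276) (nat_lit 274) (nat_lit 230)) (PT.lf (nat_lit 30628) (nat_lit 6) (nat_lit 403) (nat_lit 0) (nat_lit 277) (nat_lit 274) (nat_lit 229)))) (PT.nd (nat_lit 156) (PT.nd (nat_lit 78) (PT.lf (nat_lit 29716) (nat_lit 6) (nat_lit 391) (nat_lit 0) (nat_lit 278) (nat_lit 274) (nat_lit 228)) (PT.lf (nat_lit 28880) (nat_lit 6) (nat_lit 380) (nat_lit 0) (nat_lit 279) (nat_lit 274) (nat_lit 227))) (PT.nd (nat_lit 78) (PT.lf (nat_lit 28044) (nat_lit 6) (nat_lit 369) (nat_lit 0) (nat_lit 280) (nat_lit 274) (nat_lit 226)) (PT.lf (nat_lit 27208) (nat_lit 6) (nat_lit 358) (nat_lit 0) (nat_lit 281) (nat_lit 274) (nat_lit 225))))) (PT.nd (nat_lit 312) (PT.nd (nat_lit 156) (PT.nd (nat_lit 78) (PT.lf (nat_lit 26372) (nat_lit 6) (nat_lit 347) (nat_lit 0)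 (nat_lit 282) (nat_lit 274) (nat_lit 224)) (PT.lf (nat_lit 25612) (nat_lit 6) (nat_lit 337) (nat_lit 0) (nat_lit 283) (nat_lit 274) (nat_lit 223))) (PT.nd (nat_lit 78) (PT.lf (nat_lit 24852) (nat_lit 6) (nat_lit 327) (nat_lit 0) (nat_lit 284) (nat_lit 274) (nat_lit 222)) (PT.lf (nat_lit 24092) (nat_lit 6) (nat_lit 317) (nat_lit 0) (nat_lit 285) (nat_lit 274) (nat_lit 221)))) (PT.nd (nat_lit 156) (PT.nd (nat_lit 78) (PT.lf (nat_lit 23332) (nat_lit 6) (nat_lit 307) (nat_lit 0) (nat_lit 286) (nat_lit 274) (nat_lit 220)) (PT.lf (nat_lit 22648) (nat_lit 6) (nat_lit 298) (nat_lit 0) (nat_lit 287) (nat_lit 274) (nat_lit 219))) (PT.nd (nat_lit 78) (PT.lf (nat_lit 21964) (nat_lit 6) (nat_lit 289) (nat_lit 0) (nat_lit 288) (nat_lit 274) (nat_lit 218)) (PT.lf (nat_lit 21280) (nat_lit 6) (nat_lit 280) (nat_lit 0) (nat_lit 289) (nat_lit 274) (nat_lit 217))))))) (PT.nd (nat_lit 1170) (PT.nd (nat_lit 546) (PT.nd (nat_lit 234) (PT.nd (nat_lit 78) (PT.lf (nat_lit 20672) (nat_lit 6) (nat_lit 272) (nat_lit 5) (nat_lit 216)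 (nat_lit 275) (nat_lit 289)) (PT.nd (nat_lit 78) (PT.lf (nat_lit 21356) (nat_lit 6) (nat_lit 281) (nat_lit 5) (nat_lit 217) (nat_lit 275) (nat_lit 288)) (PT.lf (nat_lit 22040) (nat_lit 6) (nat_lit 290) (nat_lit 5) (nat_lit 218) (nat_lit 275) (nat_lit 287)))) (PT.nd (nat_lit 156) (PT.nd (nat_lit 78) (PT.lf (nat_lit 22724) (nat_lit 6) (nat_lit 299) (nat_lit 5) (nat_lit 219) (nat_lit 275) (nat_lit 286)) (PT.lf (nat_lit 23408) (nat_lit 6) (nat_lit 308) (nat_lit 5) (nat_lit 220) (nat_lit 275) (nat_lit 285))) (PT.nd (nat_lit 78) (PT.lf (nat_lit 24168) (nat_lit 6) (nat_lit 318) (nat_lit 5) (nat_lit 221) (nat_lit 275) (nat_lit 284)) (PT.lf (nat_lit 24928) (nat_lit 6) (nat_lit 328) (nat_lit 5) (nat_lit 222) (nat_lit 275) (nat_lit 283))))) (PT.nd (nat_lit 312) (PT.nd (nat_lit 156) (PT.nd (nat_lit 78) (PT.lf (nat_lit 25688) (nat_lit 6) (nat_lit 338) (nat_lit 5) (nat_lit 223) (nat_lit 275) (nat_lit 282)) (PT.lf (nat_lit 26448) (nat_lit 6) (nat_lit 348) (nat_lit 5) (nat_lit 224) (nat_lit 275) (nat_lit 281))) (PT.nd (nat_lit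 78) (PT.lf (nat_lit 27284) (nat_lit 6) (nat_lit 359) (nat_lit 5) (nat_lit 225) (nat_lit 275) (nat_lit 280)) (PT.lf (nat_lit 28120) (nat_lit 6) (nat_lit 370) (nat_lit 5) (nat_lit 226) (nat_lit 275) (nat_lit 279)))) (PT.nd (nat_lit 156) (PT.nd (nat_lit 78) (PT.lf (nat_lit 28956) (nat_lit 6) (nat_lit 381) (nat_lit 5) (nat_lit 227) (nat_lit 275) (nat_lit 278)) (PT.lf (nat_lit 29792) (nat_lit 6) (nat_lit 392) (nat_lit 5) (nat_lit 228) (nat_lit 275) (nat_lit 277))) (PT.nd (nat_lit 78) (PT.lf (nat_lit 30704) (nat_lit 6) (nat_lit 404) (nat_lit 5) (nat_lit 229) (nat_lit 275) (nat_lit 276)) (PT.lf (nat_lit 31616) (nat_lit 3) (nat_lit 416) (nat_lit 4) (nat_lit 230) (nat_lit 275) (nat_lit 275)))))) (PT.nd (nat_lit 624) (PT.nd (nat_lit 312) (PT.nd (nat_lit 156) (PT.nd (nat_lit 78) (PT.lf (nat_lit 32528) (nat_lit 6) (nat_lit 428) (nat_lit 4) (nat_lit 231) (nat_lit 275) (nat_lit 274)) (PT.lf (nat_lit 33364) (nat_lit 6) (nat_lit 439) (nat_lit 4) (nat_lit 232) (nat_lit 275) (nat_lit 273))) (PT.nd (nat_lit 78) (PT.lf (nat_lit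 34276) (nat_lit 6) (nat_lit 451) (nat_lit 4) (nat_lit 233) (nat_lit 275) (nat_lit 272)) (PT.lf (nat_lit 35188) (nat_lit 6) (nat_lit 463) (nat_lit 4) (nat_lit 234) (nat_lit 275) (nat_lit 271)))) (PT.nd (nat_lit 156) (PT.nd (nat_lit 78) (PT.lf (nat_lit 36328) (nat_lit 6) (nat_lit 478) (nat_lit 4) (nat_lit 235) (nat_lit 275) (nat_lit 270)) (PT.lf (nat_lit 38152) (nat_lit 6) (nat_lit 502) (nat_lit 4) (nat_lit 236) (nat_lit 275) (nat_lit 269))) (PT.nd (nat_lit 78) (PT.lf (nat_lit 39900) (nat_lit 6) (nat_lit 525) (nat_lit 4) (nat_lit 237) (nat_lit 275) (nat_lit 268)) (PT.lf (nat_lit 41572) (nat_lit 6) (nat_lit 547) (nat_lit 4) (nat_lit 238) (nat_lit 275) (nat_lit 267))))) (PT.nd (nat_lit 312) (PT.nd (nat_lit 156) (PT.nd (nat_lit 78) (PT.lf (nat_lit 43168) (nat_lit 6) (nat_lit 568) (nat_lit 4) (nat_lit 239) (nat_lit 275) (nat_lit 266)) (PT.lf (nat_lit 44688) (nat_lit 6) (nat_lit 588) (nat_lit 4) (nat_lit 240) (nat_lit 275) (nat_lit 265))) (PT.nd (nat_lit 78) (PT.lf (nat_lit 46132) (nat_lit 6) (nat_lit 607) (nat_lit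 4) (nat_lit 241) (nat_lit 275) (nat_lit 264)) (PT.lf (nat_lit 47500) (nat_lit 6) (nat_lit 625) (nat_lit 4) (nat_lit 242) (nat_lit 275) (nat_lit 263)))) (PT.nd (nat_lit 156) (PT.nd (nat_lit 78) (PT.lf (nat_lit 48792) (nat_lit 6) (nat_lit 642) (nat_lit 4) (nat_lit 243) (nat_lit 275) (nat_lit 262)) (PT.lf (nat_lit 50008) (nat_lit 6) (nat_lit 658) (nat_lit 4) (nat_lit 244) (nat_lit 275) (nat_lit 261))) (PT.nd (nat_lit 78) (PT.lf (nat_lit 51148) (nat_lit 6) (nat_lit 673) (nat_lit 4) (nat_lit 245) (nat_lit 275) (nat_lit 260)) (PT.lf (nat_lit 51072) (nat_lit 6) (nat_lit 672) (nat_lit 4) (nat_lit 246) (nat_lit 275) (nat_lit 259))))))))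
noncomputable def pc41 : PT := (PT.nd (nat_lit 2418) (PT.nd (nat_lit 1170) (PT.nd (nat_lit 546) (PT.nd (nat_lit 234) (PT.nd (nat_lit 78) (PT.lf (nat_lit 50996) (nat_lit 6) (nat_lit 671) (nat_lit 4) (nat_lit 247) (nat_lit 275) (nat_lit 258)) (PT.nd (nat_lit 78) (PT.lf (nat_lit 50920) (nat_lit 6) (nat_lit 670) (nat_lit 4) (nat_lit 248) (nat_lit 275) (nat_lit 257)) (PT.lf (nat_lit 50844) (nat_lit 6) (nat_lit 669) (nat_lit 4) (nat_lit 249) (nat_lit 275) (nat_lit 256)))) (PT.nd (nat_lit 156) (PT.nd (nat_lit 78) (PT.lf (nat_lit 50768) (nat_lit 6) (nat_lit 668) (nat_lit 4) (nat_lit 250) (nat_lit 275) (nat_lit 255)) (PT.lf (nat_lit 50692) (nat_lit 6) (nat_lit 667) (nat_lit 4) (nat_lit 251) (nat_lit 275) (nat_lit 254))) (PT.nd (nat_lit 78) (PT.lf (nat_lit 50616) (nat_lit 6) (nat_lit 666) (nat_lit 4) (nat_lit 252) (nat_lit 275) (nat_lit 253)) (PT.lf (nat_lit 50616) (nat_lit 6) (nat_lit 666) (nat_lit 2) (nat_lit 253) (nat_lit 275) (nat_lit 252))))) (PT.nd (nat_lit 312) (PT.nd (nat_lit 156) (PT.nd (nat_lit 78) (PT.lf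 (nat_lit 50692) (nat_lit 6) (nat_lit 667) (nat_lit 2) (nat_lit 254) (nat_lit 275) (nat_lit 251)) (PT.lf (nat_lit 50768) (nat_lit 6) (nat_lit 668) (nat_lit 2) (nat_lit 255) (nat_lit 275) (nat_lit 250))) (PT.nd (nat_lit 78) (PT.lf (nat_lit 50844) (nat_lit 6) (nat_lit 669) (nat_lit 2) (nat_lit 256) (nat_lit 275) (nat_lit 249)) (PT.lf (nat_lit 50920) (nat_lit 6) (nat_lit 670) (nat_lit 2) (nat_lit 257) (nat_lit 275) (nat_lit 248)))) (PT.nd (nat_lit 156) (PT.nd (nat_lit 78) (PT.lf (nat_lit 50996) (nat_lit 6) (nat_lit 671) (nat_lit 2) (nat_lit 258) (nat_lit 275) (nat_lit 247)) (PT.lf (nat_lit 51072) (nat_lit 6) (nat_lit 672) (nat_lit 2) (nat_lit 259) (nat_lit 275) (nat_lit 246))) (PT.nd (nat_lit 78) (PT.lf (nat_lit 51148) (nat_lit 6) (nat_lit 673) (nat_lit 2) (nat_lit 260) (nat_lit 275) (nat_lit 245)) (PT.lf (nat_lit 50008) (nat_lit 6) (nat_lit 658) (nat_lit 2) (nat_lit 261) (nat_lit 275) (nat_lit 244)))))) (PT.nd (nat_lit 624) (PT.nd (nat_lit 312) (PT.nd (nat_lit 156) (PT.nd (nat_lit 78) (PT.lf (nat_lit 48792)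 (nat_lit 6) (nat_lit 642) (nat_lit 2) (nat_lit 262) (nat_lit 275) (nat_lit 243)) (PT.lf (nat_lit 47500) (nat_lit 6) (nat_lit 625) (nat_lit 2) (nat_lit 263) (nat_lit 275) (nat_lit 242))) (PT.nd (nat_lit 78) (PT.lf (nat_lit 46132) (nat_lit 6) (nat_lit 607) (nat_lit 2) (nat_lit 264) (nat_lit 275) (nat_lit 241)) (PT.lf (nat_lit 44688) (nat_lit 6) (nat_lit 588) (nat_lit 2) (nat_lit 265) (nat_lit 275) (nat_lit 240)))) (PT.nd (nat_lit 156) (PT.nd (nat_lit 78) (PT.lf (nat_lit 43168) (nat_lit 6) (nat_lit 568) (nat_lit 2) (nat_lit 266) (nat_lit 275) (nat_lit 239)) (PT.lf (nat_lit 41572) (nat_lit 6) (nat_lit 547) (nat_lit 2) (nat_lit 267) (nat_lit 275) (nat_lit 238))) (PT.nd (nat_lit 78) (PT.lf (nat_lit 39900) (nat_lit 6) (nat_lit 525) (nat_lit 2) (nat_lit 268) (nat_lit 275) (nat_lit 237)) (PT.lf (nat_lit 38152) (nat_lit 6) (nat_lit 502) (nat_lit 2) (nat_lit 269) (nat_lit 275) (nat_lit 236))))) (PT.nd (nat_lit 312) (PT.nd (nat_lit 156) (PT.nd (nat_lit 78) (PT.lf (nat_lit 36328) (nat_lit 6) (nat_lit 478) (nat_lit 2)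 (nat_lit 270) (nat_lit 275) (nat_lit 235)) (PT.lf (nat_lit 35188) (nat_lit 6) (nat_lit 463) (nat_lit 2) (nat_lit 271) (nat_lit 275) (nat_lit 234))) (PT.nd (nat_lit 78) (PT.lf (nat_lit 34276) (nat_lit 6) (nat_lit 451) (nat_lit 2) (nat_lit 272) (nat_lit 275) (nat_lit 233)) (PT.lf (nat_lit 33364) (nat_lit 6) (nat_lit 439) (nat_lit 2) (nat_lit 273) (nat_lit 275) (nat_lit 232)))) (PT.nd (nat_lit 156) (PT.nd (nat_lit 78) (PT.lf (nat_lit 32528) (nat_lit 6) (nat_lit 428) (nat_lit 2) (nat_lit 274) (nat_lit 275) (nat_lit 231)) (PT.lf (nat_lit 31616) (nat_lit 3) (nat_lit 416) (nat_lit 0) (nat_lit 275) (nat_lit 275) (nat_lit 230))) (PT.nd (nat_lit 78) (PT.lf (nat_lit 30704) (nat_lit 6) (nat_lit 404) (nat_lit 0) (nat_lit 276) (nat_lit 275) (nat_lit 229)) (PT.lf (nat_lit 29792) (nat_lit 6) (nat_lit 392) (nat_lit 0) (nat_lit 277) (nat_lit 275) (nat_lit 228))))))) (PT.nd (nat_lit 76518) (PT.nd (nat_lit 624) (PT.nd (nat_lit 312) (PT.nd (nat_lit 156) (PT.nd (nat_lit 78) (PT.lf (nat_lit 28956) (nat_lit 6) (nat_lit 381) (nat_lit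 0) (nat_lit 278) (nat_lit 275) (nat_lit 227)) (PT.lf (nat_lit 28120) (nat_lit 6) (nat_lit 370) (nat_lit 0) (nat_lit 279) (nat_lit 275) (nat_lit 226))) (PT.nd (nat_lit 78) (PT.lf (nat_lit 27284) (nat_lit 6) (nat_lit 359) (nat_lit 0) (nat_lit 280) (nat_lit 275) (nat_lit 225)) (PT.lf (nat_lit 26448) (nat_lit 6) (nat_lit 348) (nat_lit 0) (nat_lit 281) (nat_lit 275) (nat_lit 224)))) (PT.nd (nat_lit 156) (PT.nd (nat_lit 78) (PT.lf (nat_lit 25688) (nat_lit 6) (nat_lit 338) (nat_lit 0) (nat_lit 282) (nat_lit 275) (nat_lit 223)) (PT.lf (nat_lit 24928) (nat_lit 6) (nat_lit 328) (nat_lit 0) (nat_lit 283) (nat_lit 275) (nat_lit 222))) (PT.nd (nat_lit 78) (PT.lf (nat_lit 24168) (nat_lit 6) (nat_lit 318) (nat_lit 0) (nat_lit 284) (nat_lit 275) (nat_lit 221)) (PT.lf (nat_lit 23408) (nat_lit 6) (nat_lit 308) (nat_lit 0) (nat_lit 285) (nat_lit 275) (nat_lit 220))))) (PT.nd (nat_lit 75582) (PT.nd (nat_lit 156) (PT.nd (nat_lit 78) (PT.lf (nat_lit 22724) (nat_lit 6) (nat_lit 299) (nat_lit 0) (nat_lit 286) (nat_lit 275) (nat_lit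 219)) (PT.lf (nat_lit 22040) (nat_lit 6) (nat_lit 290) (nat_lit 0) (nat_lit 287) (nat_lit 275) (nat_lit 218))) (PT.nd (nat_lit 78) (PT.lf (nat_lit 21356) (nat_lit 6) (nat_lit 281) (nat_lit 0) (nat_lit 288) (nat_lit 275) (nat_lit 217)) (PT.lf (nat_lit 20672) (nat_lit 6) (nat_lit 272) (nat_lit 0) (nat_lit 289) (nat_lit 275) (nat_lit 216)))) (PT.nd (nat_lit 156) (PT.nd (nat_lit 78) (PT.lf (nat_lit 19456) (nat_lit 6) (nat_lit 256) (nat_lit 5) (nat_lit 214) (nat_lit 276) (nat_lit 290)) (PT.lf (nat_lit 20140) (nat_lit 6) (nat_lit 265) (nat_lit 5) (nat_lit 215) (nat_lit 276) (nat_lit 289))) (PT.nd (nat_lit 78) (PT.lf (nat_lit 20748) (nat_lit 6) (nat_lit 273) (nat_lit 5) (nat_lit 216) (nat_lit 276) (nat_lit 288)) (PT.lf (nat_lit 21432) (nat_lit 6) (nat_lit 282) (nat_lit 5) (nat_lit 217) (nat_lit 276) (nat_lit 287)))))) (PT.nd (nat_lit 624) (PT.nd (nat_lit 312) (PT.nd (nat_lit 156) (PT.nd (nat_lit 78) (PT.lf (nat_lit 22116) (nat_lit 6) (nat_lit 291) (nat_lit 5) (nat_lit 218) (nat_lit 276) (nat_lit 286)) (PT.lf (nat_lit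 22800) (nat_lit 6) (nat_lit 300) (nat_lit 5) (nat_lit 219) (nat_lit 276) (nat_lit 285))) (PT.nd (nat_lit 78) (PT.lf (nat_lit 23484) (nat_lit 6) (nat_lit 309) (nat_lit 5) (nat_lit 220) (nat_lit 276) (nat_lit 284)) (PT.lf (nat_lit 24244) (nat_lit 6) (nat_lit 319) (nat_lit 5) (nat_lit 221) (nat_lit 276) (nat_lit 283)))) (PT.nd (nat_lit 156) (PT.nd (nat_lit 78) (PT.lf (nat_lit 25004) (nat_lit 6) (nat_lit 329) (nat_lit 5) (nat_lit 222) (nat_lit 276) (nat_lit 282)) (PT.lf (nat_lit 25764) (nat_lit 6) (nat_lit 339) (nat_lit 5) (nat_lit 223) (nat_lit 276) (nat_lit 281))) (PT.nd (nat_lit 78) (PT.lf (nat_lit 26524) (nat_lit 6) (nat_lit 349) (nat_lit 5) (nat_lit 224) (nat_lit 276) (nat_lit 280)) (PT.lf (nat_lit 27360) (nat_lit 6) (nat_lit 360) (nat_lit 5) (nat_lit 225) (nat_lit 276) (nat_lit 279))))) (PT.nd (nat_lit 312) (PT.nd (nat_lit 156) (PT.nd (nat_lit 78) (PT.lf (nat_lit 28196) (nat_lit 6) (nat_lit 371) (nat_lit 5) (nat_lit 226) (nat_lit 276) (nat_lit 278)) (PT.lf (nat_lit 29032) (nat_lit 6) (nat_lit 382) (nat_lit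 5) (nat_lit 227) (nat_lit 276) (nat_lit 277))) (PT.nd (nat_lit 78) (PT.lf (nat_lit 29868) (nat_lit 3) (nat_lit 393) (nat_lit 4) (nat_lit 228) (nat_lit 276) (nat_lit 276)) (PT.lf (nat_lit 30704) (nat_lit 6) (nat_lit 404) (nat_lit 4) (nat_lit 229) (nat_lit 276) (nat_lit 275)))) (PT.nd (nat_lit 156) (PT.nd (nat_lit 78) (PT.lf (nat_lit 31540) (nat_lit 6) (nat_lit 415) (nat_lit 4) (nat_lit 230) (nat_lit 276) (nat_lit 274)) (PT.lf (nat_lit 32452) (nat_lit 6) (nat_lit 427) (nat_lit 4) (nat_lit 231) (nat_lit 276) (nat_lit 273))) (PT.nd (nat_lit 78) (PT.lf (nat_lit 33288) (nat_lit 6) (nat_lit 438) (nat_lit 4) (nat_lit 232) (nat_lit 276) (nat_lit 272)) (PT.lf (nat_lit 34200) (nat_lit 6) (nat_lit 450) (nat_lit 4) (nat_lit 233) (nat_lit 276) (nat_lit 271))))))))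
noncomputable def pc42 : PT := (PT.nd (nat_lit 2418) (PT.nd (nat_lit 1170) (PT.nd (nat_lit 546) (PT.nd (nat_lit 234) (PT.nd (nat_lit 78) (PT.lf (nat_lit 35112) (nat_lit 6) (nat_lit 462) (nat_lit 4) (nat_lit 234) (nat_lit 276) (nat_lit 270)) (PT.nd (nat_lit 78) (PT.lf (nat_lit 36252) (nat_lit 6) (nat_lit 477) (nat_lit 4) (nat_lit 235) (nat_lit 276) (nat_lit 269)) (PT.lf (nat_lit 38076) (nat_lit 6) (nat_lit 501) (nat_lit 4) (nat_lit 236) (nat_lit 276) (nat_lit 268)))) (PT.nd (nat_lit 156) (PT.nd (nat_lit 78) (PT.lf (nat_lit 39824) (nat_lit 6) (nat_lit 524) (nat_lit 4) (nat_lit 237) (nat_lit 276) (nat_lit 267)) (PT.lf (nat_lit 41496) (nat_lit 6) (nat_lit 546) (nat_lit 4) (nat_lit 238) (nat_lit 276) (nat_lit 266))) (PT.nd (nat_lit 78) (PT.lf (nat_lit 43092) (nat_lit 6) (nat_lit 567) (nat_lit 4) (nat_lit 239) (nat_lit 276) (nat_lit 265)) (PT.lf (nat_lit 44612) (nat_lit 6) (nat_lit 587) (nat_lit 4) (nat_lit 240) (nat_lit 276) (nat_lit 264))))) (PT.nd (nat_lit 312) (PT.nd (nat_lit 156) (PT.nd (nat_lit 78) (PT.lf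 (nat_lit 46056) (nat_lit 6) (nat_lit 606) (nat_lit 4) (nat_lit 241) (nat_lit 276) (nat_lit 263)) (PT.lf (nat_lit 47424) (nat_lit 6) (nat_lit 624) (nat_lit 4) (nat_lit 242) (nat_lit 276) (nat_lit 262))) (PT.nd (nat_lit 78) (PT.lf (nat_lit 48716) (nat_lit 6) (nat_lit 641) (nat_lit 4) (nat_lit 243) (nat_lit 276) (nat_lit 261)) (PT.lf (nat_lit 49932) (nat_lit 6) (nat_lit 657) (nat_lit 4) (nat_lit 244) (nat_lit 276) (nat_lit 260)))) (PT.nd (nat_lit 156) (PT.nd (nat_lit 78) (PT.lf (nat_lit 49856) (nat_lit 6) (nat_lit 656) (nat_lit 4) (nat_lit 245) (nat_lit 276) (nat_lit 259)) (PT.lf (nat_lit 49780) (nat_lit 6) (nat_lit 655) (nat_lit 4) (nat_lit 246) (nat_lit 276) (nat_lit 258))) (PT.nd (nat_lit 78) (PT.lf (nat_lit 49704) (nat_lit 6) (nat_lit 654) (nat_lit 4) (nat_lit 247) (nat_lit 276) (nat_lit 257)) (PT.lf (nat_lit 49628) (nat_lit 6) (nat_lit 653) (nat_lit 4) (nat_lit 248) (nat_lit 276) (nat_lit 256)))))) (PT.nd (nat_lit 624) (PT.nd (nat_lit 312) (PT.nd (nat_lit 156) (PT.nd (nat_lit 78) (PT.lf (nat_lit 49552)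 (nat_lit 6) (nat_lit 652) (nat_lit 4) (nat_lit 249) (nat_lit 276) (nat_lit 255)) (PT.lf (nat_lit 49476) (nat_lit 6) (nat_lit 651) (nat_lit 4) (nat_lit 250) (nat_lit 276) (nat_lit 254))) (PT.nd (nat_lit 78) (PT.lf (nat_lit 49400) (nat_lit 6) (nat_lit 650) (nat_lit 4) (nat_lit 251) (nat_lit 276) (nat_lit 253)) (PT.lf (nat_lit 49324) (nat_lit 3) (nat_lit 649) (nat_lit 2) (nat_lit 252) (nat_lit 276) (nat_lit 252)))) (PT.nd (nat_lit 156) (PT.nd (nat_lit 78) (PT.lf (nat_lit 49400) (nat_lit 6) (nat_lit 650) (nat_lit 2) (nat_lit 253) (nat_lit 276) (nat_lit 251)) (PT.lf (nat_lit 49476) (nat_lit 6) (nat_lit 651) (nat_lit 2) (nat_lit 254) (nat_lit 276) (nat_lit 250))) (PT.nd (nat_lit 78) (PT.lf (nat_lit 49552) (nat_lit 6) (nat_lit 652) (nat_lit 2) (nat_lit 255) (nat_lit 276) (nat_lit 249)) (PT.lf (nat_lit 49628) (nat_lit 6) (nat_lit 653) (nat_lit 2) (nat_lit 256) (nat_lit 276) (nat_lit 248))))) (PT.nd (nat_lit 312) (PT.nd (nat_lit 156) (PT.nd (nat_lit 78) (PT.lf (nat_lit 49704) (nat_lit 6) (nat_lit 654) (nat_lit 2)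 (nat_lit 257) (nat_lit 276) (nat_lit 247)) (PT.lf (nat_lit 49780) (nat_lit 6) (nat_lit 655) (nat_lit 2) (nat_lit 258) (nat_lit 276) (nat_lit 246))) (PT.nd (nat_lit 78) (PT.lf (nat_lit 49856) (nat_lit 6) (nat_lit 656) (nat_lit 2) (nat_lit 259) (nat_lit 276) (nat_lit 245)) (PT.lf (nat_lit 49932) (nat_lit 6) (nat_lit 657) (nat_lit 2) (nat_lit 260) (nat_lit 276) (nat_lit 244)))) (PT.nd (nat_lit 156) (PT.nd (nat_lit 78) (PT.lf (nat_lit 48716) (nat_lit 6) (nat_lit 641) (nat_lit 2) (nat_lit 261) (nat_lit 276) (nat_lit 243)) (PT.lf (nat_lit 47424) (nat_lit 6) (nat_lit 624) (nat_lit 2) (nat_lit 262) (nat_lit 276) (nat_lit 242))) (PT.nd (nat_lit 78) (PT.lf (nat_lit 46056) (nat_lit 6) (nat_lit 606) (nat_lit 2) (nat_lit 263) (nat_lit 276) (nat_lit 241)) (PT.lf (nat_lit 44612) (nat_lit 6) (nat_lit 587) (nat_lit 2) (nat_lit 264) (nat_lit 276) (nat_lit 240))))))) (PT.nd (nat_lit 1248) (PT.nd (nat_lit 624) (PT.nd (nat_lit 312) (PT.nd (nat_lit 156) (PT.nd (nat_lit 78) (PT.lf (nat_lit 43092) (nat_lit 6) (nat_lit 567) (nat_lit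 2) (nat_lit 265) (nat_lit 276) (nat_lit 239)) (PT.lf (nat_lit 41496) (nat_lit 6) (nat_lit 546) (nat_lit 2) (nat_lit 266) (nat_lit 276) (nat_lit 238))) (PT.nd (nat_lit 78) (PT.lf (nat_lit 39824) (nat_lit 6) (nat_lit 524) (nat_lit 2) (nat_lit 267) (nat_lit 276) (nat_lit 237)) (PT.lf (nat_lit 38076) (nat_lit 6) (nat_lit 501) (nat_lit 2) (nat_lit 268) (nat_lit 276) (nat_lit 236)))) (PT.nd (nat_lit 156) (PT.nd (nat_lit 78) (PT.lf (nat_lit 36252) (nat_lit 6) (nat_lit 477) (nat_lit 2) (nat_lit 269) (nat_lit 276) (nat_lit 235)) (PT.lf (nat_lit 35112) (nat_lit 6) (nat_lit 462) (nat_lit 2) (nat_lit 270) (nat_lit 276) (nat_lit 234))) (PT.nd (nat_lit 78) (PT.lf (nat_lit 34200) (nat_lit 6) (nat_lit 450) (nat_lit 2) (nat_lit 271) (nat_lit 276) (nat_lit 233)) (PT.lf (nat_lit 33288) (nat_lit 6) (nat_lit 438) (nat_lit 2) (nat_lit 272) (nat_lit 276) (nat_lit 232))))) (PT.nd (nat_lit 312) (PT.nd (nat_lit 156) (PT.nd (nat_lit 78) (PT.lf (nat_lit 32452) (nat_lit 6) (nat_lit 427) (nat_lit 2) (nat_lit 273) (nat_lit 276) (nat_lit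 231)) (PT.lf (nat_lit 31540) (nat_lit 6) (nat_lit 415) (nat_lit 2) (nat_lit 274) (nat_lit 276) (nat_lit 230))) (PT.nd (nat_lit 78) (PT.lf (nat_lit 30704) (nat_lit 6) (nat_lit 404) (nat_lit 2) (nat_lit 275) (nat_lit 276) (nat_lit 229)) (PT.lf (nat_lit 29868) (nat_lit 3) (nat_lit 393) (nat_lit 0) (nat_lit 276) (nat_lit 276) (nat_lit 228)))) (PT.nd (nat_lit 156) (PT.nd (nat_lit 78) (PT.lf (nat_lit 29032) (nat_lit 6) (nat_lit 382) (nat_lit 0) (nat_lit 277) (nat_lit 276) (nat_lit 227)) (PT.lf (nat_lit 28196) (nat_lit 6) (nat_lit 371) (nat_lit 0) (nat_lit 278) (nat_lit 276) (nat_lit 226))) (PT.nd (nat_lit 78) (PT.lf (nat_lit 27360) (nat_lit 6) (nat_lit 360) (nat_lit 0) (nat_lit 279) (nat_lit 276) (nat_lit 225)) (PT.lf (nat_lit 26524) (nat_lit 6) (nat_lit 349) (nat_lit 0) (nat_lit 280) (nat_lit 276) (nat_lit 224)))))) (PT.nd (nat_lit 624) (PT.nd (nat_lit 312) (PT.nd (nat_lit 156) (PT.nd (nat_lit 78) (PT.lf (nat_lit 25764) (nat_lit 6) (nat_lit 339) (nat_lit 0) (nat_lit 281) (nat_lit 276) (nat_lit 223)) (PT.lf (nat_lit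 25004) (nat_lit 6) (nat_lit 329) (nat_lit 0) (nat_lit 282) (nat_lit 276) (nat_lit 222))) (PT.nd (nat_lit 78) (PT.lf (nat_lit 24244) (nat_lit 6) (nat_lit 319) (nat_lit 0) (nat_lit 283) (nat_lit 276) (nat_lit 221)) (PT.lf (nat_lit 23484) (nat_lit 6) (nat_lit 309) (nat_lit 0) (nat_lit 284) (nat_lit 276) (nat_lit 220)))) (PT.nd (nat_lit 156) (PT.nd (nat_lit 78) (PT.lf (nat_lit 22800) (nat_lit 6) (nat_lit 300) (nat_lit 0) (nat_lit 285) (nat_lit 276) (nat_lit 219)) (PT.lf (nat_lit 22116) (nat_lit 6) (nat_lit 291) (nat_lit 0) (nat_lit 286) (nat_lit 276) (nat_lit 218))) (PT.nd (nat_lit 78) (PT.lf (nat_lit 21432) (nat_lit 6) (nat_lit 282) (nat_lit 0) (nat_lit 287) (nat_lit 276) (nat_lit 217)) (PT.lf (nat_lit 20748) (nat_lit 6) (nat_lit 273) (nat_lit 0) (nat_lit 288) (nat_lit 276) (nat_lit 216))))) (PT.nd (nat_lit 75426) (PT.nd (nat_lit 75270) (PT.nd (nat_lit 78) (PT.lf (nat_lit 20140) (nat_lit 6) (nat_lit 265) (nat_lit 0) (nat_lit 289) (nat_lit 276) (nat_lit 215)) (PT.lf (nat_lit 19456) (nat_lit 6) (nat_lit 256)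 (nat_lit 0) (nat_lit 290) (nat_lit 276) (nat_lit 214))) (PT.nd (nat_lit 78) (PT.lf (nat_lit 18924) (nat_lit 6) (nat_lit 249) (nat_lit 5) (nat_lit 213) (nat_lit 277) (nat_lit 290)) (PT.lf (nat_lit 19532) (nat_lit 6) (nat_lit 257) (nat_lit 5) (nat_lit 214) (nat_lit 277) (nat_lit 289)))) (PT.nd (nat_lit 156) (PT.nd (nat_lit 78) (PT.lf (nat_lit 20216) (nat_lit 6) (nat_lit 266) (nat_lit 5) (nat_lit 215) (nat_lit 277) (nat_lit 288)) (PT.lf (nat_lit 20824) (nat_lit 6) (nat_lit 274) (nat_lit 5) (nat_lit 216) (nat_lit 277) (nat_lit 287))) (PT.nd (nat_lit 78) (PT.lf (nat_lit 21508) (nat_lit 6) (nat_lit 283) (nat_lit 5) (nat_lit 217) (nat_lit 277) (nat_lit 286)) (PT.lf (nat_lit 22192) (nat_lit 6) (nat_lit 292) (nat_lit 5) (nat_lit 218) (nat_lit 277) (nat_lit 285))))))))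
noncomputable def pc43 : PT := (PT.nd (nat_lit 2418) (PT.nd (nat_lit 1170) (PT.nd (nat_lit 546) (PT.nd (nat_lit 234) (PT.nd (nat_lit 78) (PT.lf (nat_lit 22876) (nat_lit 6) (nat_lit 301) (nat_lit 5) (nat_lit 219) (nat_lit 277) (nat_lit 284)) (PT.nd (nat_lit 78) (PT.lf (nat_lit 23560) (nat_lit 6) (nat_lit 310) (nat_lit 5) (nat_lit 220) (nat_lit 277) (nat_lit 283)) (PT.lf (nat_lit 24320) (nat_lit 6) (nat_lit 320) (nat_lit 5) (nat_lit 221) (nat_lit 277) (nat_lit 282)))) (PT.nd (nat_lit 156) (PT.nd (nat_lit 78) (PT.lf (nat_lit 25080) (nat_lit 6) (nat_lit 330) (nat_lit 5) (nat_lit 222) (nat_lit 277) (nat_lit 281)) (PT.lf (nat_lit 25840) (nat_lit 6) (nat_lit 340) (nat_lit 5) (nat_lit 223) (nat_lit 277) (nat_lit 280))) (PT.nd (nat_lit 78) (PT.lf (nat_lit 26600) (nat_lit 6) (nat_lit 350) (nat_lit 5) (nat_lit 224) (nat_lit 277) (nat_lit 279)) (PT.lf (nat_lit 27436) (nat_lit 6) (nat_lit 361) (nat_lit 5) (nat_lit 225) (nat_lit 277) (nat_lit 278))))) (PT.nd (nat_lit 312) (PT.nd (nat_lit 156) (PT.nd (nat_lit 78) (PT.lf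 (nat_lit 28272) (nat_lit 3) (nat_lit 372) (nat_lit 4) (nat_lit 226) (nat_lit 277) (nat_lit 277)) (PT.lf (nat_lit 29032) (nat_lit 6) (nat_lit 382) (nat_lit 4) (nat_lit 227) (nat_lit 277) (nat_lit 276))) (PT.nd (nat_lit 78) (PT.lf (nat_lit 29792) (nat_lit 6) (nat_lit 392) (nat_lit 4) (nat_lit 228) (nat_lit 277) (nat_lit 275)) (PT.lf (nat_lit 30628) (nat_lit 6) (nat_lit 403) (nat_lit 4) (nat_lit 229) (nat_lit 277) (nat_lit 274)))) (PT.nd (nat_lit 156) (PT.nd (nat_lit 78) (PT.lf (nat_lit 31464) (nat_lit 6) (nat_lit 414) (nat_lit 4) (nat_lit 230) (nat_lit 277) (nat_lit 273)) (PT.lf (nat_lit 32376) (nat_lit 6) (nat_lit 426) (nat_lit 4) (nat_lit 231) (nat_lit 277) (nat_lit 272))) (PT.nd (nat_lit 78) (PT.lf (nat_lit 33212) (nat_lit 6) (nat_lit 437) (nat_lit 4) (nat_lit 232) (nat_lit 277) (nat_lit 271)) (PT.lf (nat_lit 34124) (nat_lit 6) (nat_lit 449) (nat_lit 4) (nat_lit 233) (nat_lit 277) (nat_lit 270)))))) (PT.nd (nat_lit 624) (PT.nd (nat_lit 312) (PT.nd (nat_lit 156) (PT.nd (nat_lit 78) (PT.lf (nat_lit 35036)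 (nat_lit 6) (nat_lit 461) (nat_lit 4) (nat_lit 234) (nat_lit 277) (nat_lit 269)) (PT.lf (nat_lit 36176) (nat_lit 6) (nat_lit 476) (nat_lit 4) (nat_lit 235) (nat_lit 277) (nat_lit 268))) (PT.nd (nat_lit 78) (PT.lf (nat_lit 38000) (nat_lit 6) (nat_lit 500) (nat_lit 4) (nat_lit 236) (nat_lit 277) (nat_lit 267)) (PT.lf (nat_lit 39748) (nat_lit 6) (nat_lit 523) (nat_lit 4) (nat_lit 237) (nat_lit 277) (nat_lit 266)))) (PT.nd (nat_lit 156) (PT.nd (nat_lit 78) (PT.lf (nat_lit 41420) (nat_lit 6) (nat_lit 545) (nat_lit 4) (nat_lit 238) (nat_lit 277) (nat_lit 265)) (PT.lf (nat_lit 43016) (nat_lit 6) (nat_lit 566) (nat_lit 4) (nat_lit 239) (nat_lit 277) (nat_lit 264))) (PT.nd (nat_lit 78) (PT.lf (nat_lit 44536) (nat_lit 6) (nat_lit 586) (nat_lit 4) (nat_lit 240) (nat_lit 277) (nat_lit 263)) (PT.lf (nat_lit 45980) (nat_lit 6) (nat_lit 605) (nat_lit 4) (nat_lit 241) (nat_lit 277) (nat_lit 262))))) (PT.nd (nat_lit 312) (PT.nd (nat_lit 156) (PT.nd (nat_lit 78) (PT.lf (nat_lit 47348) (nat_lit 6) (nat_lit 623) (nat_lit 4)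 (nat_lit 242) (nat_lit 277) (nat_lit 261)) (PT.lf (nat_lit 48640) (nat_lit 6) (nat_lit 640) (nat_lit 4) (nat_lit 243) (nat_lit 277) (nat_lit 260))) (PT.nd (nat_lit 78) (PT.lf (nat_lit 48564) (nat_lit 6) (nat_lit 639) (nat_lit 4) (nat_lit 244) (nat_lit 277) (nat_lit 259)) (PT.lf (nat_lit 48488) (nat_lit 6) (nat_lit 638) (nat_lit 4) (nat_lit 245) (nat_lit 277) (nat_lit 258)))) (PT.nd (nat_lit 156) (PT.nd (nat_lit 78) (PT.lf (nat_lit 48412) (nat_lit 6) (nat_lit 637) (nat_lit 4) (nat_lit 246) (nat_lit 277) (nat_lit 257)) (PT.lf (nat_lit 48336) (nat_lit 6) (nat_lit 636) (nat_lit 4) (nat_lit 247) (nat_lit 277) (nat_lit 256))) (PT.nd (nat_lit 78) (PT.lf (nat_lit 48260) (nat_lit 6) (nat_lit 635) (nat_lit 4) (nat_lit 248) (nat_lit 277) (nat_lit 255)) (PT.lf (nat_lit 48184) (nat_lit 6) (nat_lit 634) (nat_lit 4) (nat_lit 249) (nat_lit 277) (nat_lit 254))))))) (PT.nd (nat_lit 1248) (PT.nd (nat_lit 624) (PT.nd (nat_lit 312) (PT.nd (nat_lit 156) (PT.nd (nat_lit 78) (PT.lf (nat_lit 48108) (nat_lit 6) (nat_lit 633) (nat_lit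 4) (nat_lit 250) (nat_lit 277) (nat_lit 253)) (PT.lf (nat_lit 48032) (nat_lit 6) (nat_lit 632) (nat_lit 4) (nat_lit 251) (nat_lit 277) (nat_lit 252))) (PT.nd (nat_lit 78) (PT.lf (nat_lit 48032) (nat_lit 6) (nat_lit 632) (nat_lit 2) (nat_lit 252) (nat_lit 277) (nat_lit 251)) (PT.lf (nat_lit 48108) (nat_lit 6) (nat_lit 633) (nat_lit 2) (nat_lit 253) (nat_lit 277) (nat_lit 250)))) (PT.nd (nat_lit 156) (PT.nd (nat_lit 78) (PT.lf (nat_lit 48184) (nat_lit 6) (nat_lit 634) (nat_lit 2) (nat_lit 254) (nat_lit 277) (nat_lit 249)) (PT.lf (nat_lit 48260) (nat_lit 6) (nat_lit 635) (nat_lit 2) (nat_lit 255) (nat_lit 277) (nat_lit 248))) (PT.nd (nat_lit 78) (PT.lf (nat_lit 48336) (nat_lit 6) (nat_lit 636) (nat_lit 2) (nat_lit 256) (nat_lit 277) (nat_lit 247)) (PT.lf (nat_lit 48412) (nat_lit 6) (nat_lit 637) (nat_lit 2) (nat_lit 257) (nat_lit 277) (nat_lit 246))))) (PT.nd (nat_lit 312) (PT.nd (nat_lit 156) (PT.nd (nat_lit 78) (PT.lf (nat_lit 48488) (nat_lit 6) (nat_lit 638) (nat_lit 2) (nat_lit 258) (nat_lit 277) (nat_lit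 245)) (PT.lf (nat_lit 48564) (nat_lit 6) (nat_lit 639) (nat_lit 2) (nat_lit 259) (nat_lit 277) (nat_lit 244))) (PT.nd (nat_lit 78) (PT.lf (nat_lit 48640) (nat_lit 6) (nat_lit 640) (nat_lit 2) (nat_lit 260) (nat_lit 277) (nat_lit 243)) (PT.lf (nat_lit 47348) (nat_lit 6) (nat_lit 623) (nat_lit 2) (nat_lit 261) (nat_lit 277) (nat_lit 242)))) (PT.nd (nat_lit 156) (PT.nd (nat_lit 78) (PT.lf (nat_lit 45980) (nat_lit 6) (nat_lit 605) (nat_lit 2) (nat_lit 262) (nat_lit 277) (nat_lit 241)) (PT.lf (nat_lit 44536) (nat_lit 6) (nat_lit 586) (nat_lit 2) (nat_lit 263) (nat_lit 277) (nat_lit 240))) (PT.nd (nat_lit 78) (PT.lf (nat_lit 43016) (nat_lit 6) (nat_lit 566) (nat_lit 2) (nat_lit 264) (nat_lit 277) (nat_lit 239)) (PT.lf (nat_lit 41420) (nat_lit 6) (nat_lit 545) (nat_lit 2) (nat_lit 265) (nat_lit 277) (nat_lit 238)))))) (PT.nd (nat_lit 624) (PT.nd (nat_lit 312) (PT.nd (nat_lit 156) (PT.nd (nat_lit 78) (PT.lf (nat_lit 39748) (nat_lit 6) (nat_lit 523) (nat_lit 2) (nat_lit 266) (nat_lit 277) (nat_lit 237)) (PT.lf (nat_lit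 38000) (nat_lit 6) (nat_lit 500) (nat_lit 2) (nat_lit 267) (nat_lit 277) (nat_lit 236))) (PT.nd (nat_lit 78) (PT.lf (nat_lit 36176) (nat_lit 6) (nat_lit 476) (nat_lit 2) (nat_lit 268) (nat_lit 277) (nat_lit 235)) (PT.lf (nat_lit 35036) (nat_lit 6) (nat_lit 461) (nat_lit 2) (nat_lit 269) (nat_lit 277) (nat_lit 234)))) (PT.nd (nat_lit 156) (PT.nd (nat_lit 78) (PT.lf (nat_lit 34124) (nat_lit 6) (nat_lit 449) (nat_lit 2) (nat_lit 270) (nat_lit 277) (nat_lit 233)) (PT.lf (nat_lit 33212) (nat_lit 6) (nat_lit 437) (nat_lit 2) (nat_lit 271) (nat_lit 277) (nat_lit 232))) (PT.nd (nat_lit 78) (PT.lf (nat_lit 32376) (nat_lit 6) (nat_lit 426) (nat_lit 2) (nat_lit 272) (nat_lit 277) (nat_lit 231)) (PT.lf (nat_lit 31464) (nat_lit 6) (nat_lit 414) (nat_lit 2) (nat_lit 273) (nat_lit 277) (nat_lit 230))))) (PT.nd (nat_lit 312) (PT.nd (nat_lit 156) (PT.nd (nat_lit 78) (PT.lf (nat_lit 30628) (nat_lit 6) (nat_lit 403) (nat_lit 2) (nat_lit 274) (nat_lit 277) (nat_lit 229)) (PT.lf (nat_lit 29792) (nat_lit 6) (nat_lit 392) (nat_lit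 2) (nat_lit 275) (nat_lit 277) (nat_lit 228))) (PT.nd (nat_lit 78) (PT.lf (nat_lit 29032) (nat_lit 6) (nat_lit 382) (nat_lit 2) (nat_lit 276) (nat_lit 277) (nat_lit 227)) (PT.lf (nat_lit 28272) (nat_lit 3) (nat_lit 372) (nat_lit 0) (nat_lit 277) (nat_lit 277) (nat_lit 226)))) (PT.nd (nat_lit 156) (PT.nd (nat_lit 78) (PT.lf (nat_lit 27436) (nat_lit 6) (nat_lit 361) (nat_lit 0) (nat_lit 278) (nat_lit 277) (nat_lit 225)) (PT.lf (nat_lit 26600) (nat_lit 6) (nat_lit 350) (nat_lit 0) (nat_lit 279) (nat_lit 277) (nat_lit 224))) (PT.nd (nat_lit 78) (PT.lf (nat_lit 25840) (nat_lit 6) (nat_lit 340) (nat_lit 0) (nat_lit 280) (nat_lit 277) (nat_lit 223)) (PT.lf (nat_lit 25080) (nat_lit 6) (nat_lit 330) (nat_lit 0) (nat_lit 281) (nat_lit 277) (nat_lit 222))))))))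
noncomputable def pc44 : PT := (PT.nd (nat_lit 77376) (PT.nd (nat_lit 76128) (PT.nd (nat_lit 546) (PT.nd (nat_lit 234) (PT.nd (nat_lit 78) (PT.lf (nat_lit 24320) (nat_lit 6) (nat_lit 320) (nat_lit 0) (nat_lit 282) (nat_lit 277) (nat_lit 221)) (PT.nd (nat_lit 78) (PT.lf (nat_lit 23560) (nat_lit 6) (nat_lit 310) (nat_lit 0) (nat_lit 283) (nat_lit 277) (nat_lit 220)) (PT.lf (nat_lit 22876) (nat_lit 6) (nat_lit 301) (nat_lit 0) (nat_lit 284) (nat_lit 277) (nat_lit 219)))) (PT.nd (nat_lit 156) (PT.nd (nat_lit 78) (PT.lf (nat_lit 22192) (nat_lit 6) (nat_lit 292) (nat_lit 0) (nat_lit 285) (nat_lit 277) (nat_lit 218)) (PT.lf (nat_lit 21508) (nat_lit 6) (nat_lit 283) (nat_lit 0) (nat_lit 286) (nat_lit 277) (nat_lit 217))) (PT.nd (nat_lit 78) (PT.lf (nat_lit 20824) (nat_lit 6) (nat_lit 274) (nat_lit 0) (nat_lit 287) (nat_lit 277) (nat_lit 216)) (PT.lf (nat_lit 20216) (nat_lit 6) (nat_lit 266) (nat_lit 0) (nat_lit 288) (nat_lit 277) (nat_lit 215))))) (PT.nd (nat_lit 75270) (PT.nd (nat_lit 75114) (PT.nd (nat_lit 78)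 (PT.lf (nat_lit 19532) (nat_lit 6) (nat_lit 257) (nat_lit 0) (nat_lit 289) (nat_lit 277) (nat_lit 214)) (PT.lf (nat_lit 18924) (nat_lit 6) (nat_lit 249) (nat_lit 0) (nat_lit 290) (nat_lit 277) (nat_lit 213))) (PT.nd (nat_lit 78) (PT.lf (nat_lit 17860) (nat_lit 6) (nat_lit 235) (nat_lit 5) (nat_lit 211) (nat_lit 278) (nat_lit 291)) (PT.lf (nat_lit 18392) (nat_lit 6) (nat_lit 242) (nat_lit 5) (nat_lit 212) (nat_lit 278) (nat_lit 290)))) (PT.nd (nat_lit 156) (PT.nd (nat_lit 78) (PT.lf (nat_lit 19000) (nat_lit 6) (nat_lit 250) (nat_lit 5) (nat_lit 213) (nat_lit 278) (nat_lit 289)) (PT.lf (nat_lit 19608) (nat_lit 6) (nat_lit 258) (nat_lit 5) (nat_lit 214) (nat_lit 278) (nat_lit 288))) (PT.nd (nat_lit 78) (PT.lf (nat_lit 20292) (nat_lit 6) (nat_lit 267) (nat_lit 5) (nat_lit 215) (nat_lit 278) (nat_lit 287)) (PT.lf (nat_lit 20900) (nat_lit 6) (nat_lit 275) (nat_lit 5) (nat_lit 216) (nat_lit 278) (nat_lit 286)))))) (PT.nd (nat_lit 624) (PT.nd (nat_lit 312) (PT.nd (nat_lit 156) (PT.nd (nat_lit 78) (PT.lf (nat_lit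 21584) (nat_lit 6) (nat_lit 284) (nat_lit 5) (nat_lit 217) (nat_lit 278) (nat_lit 285)) (PT.lf (nat_lit 22268) (nat_lit 6) (nat_lit 293) (nat_lit 5) (nat_lit 218) (nat_lit 278) (nat_lit 284))) (PT.nd (nat_lit 78) (PT.lf (nat_lit 22952) (nat_lit 6) (nat_lit 302) (nat_lit 5) (nat_lit 219) (nat_lit 278) (nat_lit 283)) (PT.lf (nat_lit 23636) (nat_lit 6) (nat_lit 311) (nat_lit 5) (nat_lit 220) (nat_lit 278) (nat_lit 282)))) (PT.nd (nat_lit 156) (PT.nd (nat_lit 78) (PT.lf (nat_lit 24396) (nat_lit 6) (nat_lit 321) (nat_lit 5) (nat_lit 221) (nat_lit 278) (nat_lit 281)) (PT.lf (nat_lit 25156) (nat_lit 6) (nat_lit 331) (nat_lit 5) (nat_lit 222) (nat_lit 278) (nat_lit 280))) (PT.nd (nat_lit 78) (PT.lf (nat_lit 25916) (nat_lit 6) (nat_lit 341) (nat_lit 5) (nat_lit 223) (nat_lit 278) (nat_lit 279)) (PT.lf (nat_lit 26676) (nat_lit 3) (nat_lit 351) (nat_lit 4) (nat_lit 224) (nat_lit 278) (nat_lit 278))))) (PT.nd (nat_lit 312) (PT.nd (nat_lit 156) (PT.nd (nat_lit 78) (PT.lf (nat_lit 27436) (nat_lit 6) (nat_lit 361) (nat_lit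 4) (nat_lit 225) (nat_lit 278) (nat_lit 277)) (PT.lf (nat_lit 28196) (nat_lit 6) (nat_lit 371) (nat_lit 4) (nat_lit 226) (nat_lit 278) (nat_lit 276))) (PT.nd (nat_lit 78) (PT.lf (nat_lit 28956) (nat_lit 6) (nat_lit 381) (nat_lit 4) (nat_lit 227) (nat_lit 278) (nat_lit 275)) (PT.lf (nat_lit 29716) (nat_lit 6) (nat_lit 391) (nat_lit 4) (nat_lit 228) (nat_lit 278) (nat_lit 274)))) (PT.nd (nat_lit 156) (PT.nd (nat_lit 78) (PT.lf (nat_lit 30552) (nat_lit 6) (nat_lit 402) (nat_lit 4) (nat_lit 229) (nat_lit 278) (nat_lit 273)) (PT.lf (nat_lit 31388) (nat_lit 6) (nat_lit 413) (nat_lit 4) (nat_lit 230) (nat_lit 278) (nat_lit 272))) (PT.nd (nat_lit 78) (PT.lf (nat_lit 32300) (nat_lit 6) (nat_lit 425) (nat_lit 4) (nat_lit 231) (nat_lit 278) (nat_lit 271)) (PT.lf (nat_lit 33136) (nat_lit 6) (nat_lit 436) (nat_lit 4) (nat_lit 232) (nat_lit 278) (nat_lit 270))))))) (PT.nd (nat_lit 1170) (PT.nd (nat_lit 546) (PT.nd (nat_lit 234) (PT.nd (nat_lit 78) (PT.lf (nat_lit 34048) (nat_lit 6) (nat_lit 448) (nat_lit 4) (nat_lit 233)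 (nat_lit 278) (nat_lit 269)) (PT.nd (nat_lit 78) (PT.lf (nat_lit 34960) (nat_lit 6) (nat_lit 460) (nat_lit 4) (nat_lit 234) (nat_lit 278) (nat_lit 268)) (PT.lf (nat_lit 36100) (nat_lit 6) (nat_lit 475) (nat_lit 4) (nat_lit 235) (nat_lit 278) (nat_lit 267)))) (PT.nd (nat_lit 156) (PT.nd (nat_lit 78) (PT.lf (nat_lit 37924) (nat_lit 6) (nat_lit 499) (nat_lit 4) (nat_lit 236) (nat_lit 278) (nat_lit 266)) (PT.lf (nat_lit 39672) (nat_lit 6) (nat_lit 522) (nat_lit 4) (nat_lit 237) (nat_lit 278) (nat_lit 265))) (PT.nd (nat_lit 78) (PT.lf (nat_lit 41344) (nat_lit 6) (nat_lit 544) (nat_lit 4) (nat_lit 238) (nat_lit 278) (nat_lit 264)) (PT.lf (nat_lit 42940) (nat_lit 6) (nat_lit 565) (nat_lit 4) (nat_lit 239) (nat_lit 278) (nat_lit 263))))) (PT.nd (nat_lit 312) (PT.nd (nat_lit 156) (PT.nd (nat_lit 78) (PT.lf (nat_lit 44460) (nat_lit 6) (nat_lit 585) (nat_lit 4) (nat_lit 240) (nat_lit 278) (nat_lit 262)) (PT.lf (nat_lit 45904) (nat_lit 6) (nat_lit 604) (nat_lit 4) (nat_lit 241) (nat_lit 278) (nat_lit 261))) (PT.nd (nat_lit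 78) (PT.lf (nat_lit 47272) (nat_lit 6) (nat_lit 622) (nat_lit 4) (nat_lit 242) (nat_lit 278) (nat_lit 260)) (PT.lf (nat_lit 47196) (nat_lit 6) (nat_lit 621) (nat_lit 4) (nat_lit 243) (nat_lit 278) (nat_lit 259)))) (PT.nd (nat_lit 156) (PT.nd (nat_lit 78) (PT.lf (nat_lit 47120) (nat_lit 6) (nat_lit 620) (nat_lit 4) (nat_lit 244) (nat_lit 278) (nat_lit 258)) (PT.lf (nat_lit 47044) (nat_lit 6) (nat_lit 619) (nat_lit 4) (nat_lit 245) (nat_lit 278) (nat_lit 257))) (PT.nd (nat_lit 78) (PT.lf (nat_lit 46968) (nat_lit 6) (nat_lit 618) (nat_lit 4) (nat_lit 246) (nat_lit 278) (nat_lit 256)) (PT.lf (nat_lit 46892) (nat_lit 6) (nat_lit 617) (nat_lit 4) (nat_lit 247) (nat_lit 278) (nat_lit 255)))))) (PT.nd (nat_lit 624) (PT.nd (nat_lit 312) (PT.nd (nat_lit 156) (PT.nd (nat_lit 78) (PT.lf (nat_lit 46816) (nat_lit 6) (nat_lit 616) (nat_lit 4) (nat_lit 248) (nat_lit 278) (nat_lit 254)) (PT.lf (nat_lit 46740) (nat_lit 6) (nat_lit 615) (nat_lit 4) (nat_lit 249) (nat_lit 278) (nat_lit 253))) (PT.nd (nat_lit 78) (PT.lf (nat_lit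 46664) (nat_lit 6) (nat_lit 614) (nat_lit 4) (nat_lit 250) (nat_lit 278) (nat_lit 252)) (PT.lf (nat_lit 46588) (nat_lit 3) (nat_lit 613) (nat_lit 2) (nat_lit 251) (nat_lit 278) (nat_lit 251)))) (PT.nd (nat_lit 156) (PT.nd (nat_lit 78) (PT.lf (nat_lit 46664) (nat_lit 6) (nat_lit 614) (nat_lit 2) (nat_lit 252) (nat_lit 278) (nat_lit 250)) (PT.lf (nat_lit 46740) (nat_lit 6) (nat_lit 615) (nat_lit 2) (nat_lit 253) (nat_lit 278) (nat_lit 249))) (PT.nd (nat_lit 78) (PT.lf (nat_lit 46816) (nat_lit 6) (nat_lit 616) (nat_lit 2) (nat_lit 254) (nat_lit 278) (nat_lit 248)) (PT.lf (nat_lit 46892) (nat_lit 6) (nat_lit 617) (nat_lit 2) (nat_lit 255) (nat_lit 278) (nat_lit 247))))) (PT.nd (nat_lit 312) (PT.nd (nat_lit 156) (PT.nd (nat_lit 78) (PT.lf (nat_lit 46968) (nat_lit 6) (nat_lit 618) (nat_lit 2) (nat_lit 256) (nat_lit 278) (nat_lit 246)) (PT.lf (nat_lit 47044) (nat_lit 6) (nat_lit 619) (nat_lit 2) (nat_lit 257) (nat_lit 278) (nat_lit 245))) (PT.nd (nat_lit 78) (PT.lf (nat_lit 47120) (nat_lit 6) (nat_lit 620) (nat_lit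 2) (nat_lit 258) (nat_lit 278) (nat_lit 244)) (PT.lf (nat_lit 47196) (nat_lit 6) (nat_lit 621) (nat_lit 2) (nat_lit 259) (nat_lit 278) (nat_lit 243)))) (PT.nd (nat_lit 156) (PT.nd (nat_lit 78) (PT.lf (nat_lit 47272) (nat_lit 6) (nat_lit 622) (nat_lit 2) (nat_lit 260) (nat_lit 278) (nat_lit 242)) (PT.lf (nat_lit 45904) (nat_lit 6) (nat_lit 604) (nat_lit 2) (nat_lit 261) (nat_lit 278) (nat_lit 241))) (PT.nd (nat_lit 78) (PT.lf (nat_lit 44460) (nat_lit 6) (nat_lit 585) (nat_lit 2) (nat_lit 262) (nat_lit 278) (nat_lit 240)) (PT.lf (nat_lit 42940) (nat_lit 6) (nat_lit 565) (nat_lit 2) (nat_lit 263) (nat_lit 278) (nat_lit 239))))))))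
noncomputable def pc45 : PT := (PT.nd (nat_lit 77220) (PT.nd (nat_lit 1170) (PT.nd (nat_lit 546) (PT.nd (nat_lit 234) (PT.nd (nat_lit 78) (PT.lf (nat_lit 41344) (nat_lit 6) (nat_lit 544) (nat_lit 2) (nat_lit 264) (nat_lit 278) (nat_lit 238)) (PT.nd (nat_lit 78) (PT.lf (nat_lit 39672) (nat_lit 6) (nat_lit 522) (nat_lit 2) (nat_lit 265) (nat_lit 278) (nat_lit 237)) (PT.lf (nat_lit 37924) (nat_lit 6) (nat_lit 499) (nat_lit 2) (nat_lit 266) (nat_lit 278) (nat_lit 236)))) (PT.nd (nat_lit 156) (PT.nd (nat_lit 78) (PT.lf (nat_lit 36100) (nat_lit 6) (nat_lit 475) (nat_lit 2) (nat_lit 267) (nat_lit 278) (nat_lit 235)) (PT.lf (nat_lit 34960) (nat_lit 6) (nat_lit 460) (nat_lit 2) (nat_lit 268) (nat_lit 278) (nat_lit 234))) (PT.nd (nat_lit 78) (PT.lf (nat_lit 34048) (nat_lit 6) (nat_lit 448) (nat_lit 2) (nat_lit 269) (nat_lit 278) (nat_lit 233)) (PT.lf (nat_lit 33136) (nat_lit 6) (nat_lit 436) (nat_lit 2) (nat_lit 270) (nat_lit 278) (nat_lit 232))))) (PT.nd (nat_lit 312) (PT.nd (nat_lit 156) (PT.nd (nat_lit 78) (PT.lf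 (nat_lit 32300) (nat_lit 6) (nat_lit 425) (nat_lit 2) (nat_lit 271) (nat_lit 278) (nat_lit 231)) (PT.lf (nat_lit 31388) (nat_lit 6) (nat_lit 413) (nat_lit 2) (nat_lit 272) (nat_lit 278) (nat_lit 230))) (PT.nd (nat_lit 78) (PT.lf (nat_lit 30552) (nat_lit 6) (nat_lit 402) (nat_lit 2) (nat_lit 273) (nat_lit 278) (nat_lit 229)) (PT.lf (nat_lit 29716) (nat_lit 6) (nat_lit 391) (nat_lit 2) (nat_lit 274) (nat_lit 278) (nat_lit 228)))) (PT.nd (nat_lit 156) (PT.nd (nat_lit 78) (PT.lf (nat_lit 28956) (nat_lit 6) (nat_lit 381) (nat_lit 2) (nat_lit 275) (nat_lit 278) (nat_lit 227)) (PT.lf (nat_lit 28196) (nat_lit 6) (nat_lit 371) (nat_lit 2) (nat_lit 276) (nat_lit 278) (nat_lit 226))) (PT.nd (nat_lit 78) (PT.lf (nat_lit 27436) (nat_lit 6) (nat_lit 361) (nat_lit 2) (nat_lit 277) (nat_lit 278) (nat_lit 225)) (PT.lf (nat_lit 26676) (nat_lit 3) (nat_lit 351) (nat_lit 0) (nat_lit 278) (nat_lit 278) (nat_lit 224)))))) (PT.nd (nat_lit 624) (PT.nd (nat_lit 312) (PT.nd (nat_lit 156) (PT.nd (nat_lit 78) (PT.lf (nat_lit 25916)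 (nat_lit 6) (nat_lit 341) (nat_lit 0) (nat_lit 279) (nat_lit 278) (nat_lit 223)) (PT.lf (nat_lit 25156) (nat_lit 6) (nat_lit 331) (nat_lit 0) (nat_lit 280) (nat_lit 278) (nat_lit 222))) (PT.nd (nat_lit 78) (PT.lf (nat_lit 24396) (nat_lit 6) (nat_lit 321) (nat_lit 0) (nat_lit 281) (nat_lit 278) (nat_lit 221)) (PT.lf (nat_lit 23636) (nat_lit 6) (nat_lit 311) (nat_lit 0) (nat_lit 282) (nat_lit 278) (nat_lit 220)))) (PT.nd (nat_lit 156) (PT.nd (nat_lit 78) (PT.lf (nat_lit 22952) (nat_lit 6) (nat_lit 302) (nat_lit 0) (nat_lit 283) (nat_lit 278) (nat_lit 219)) (PT.lf (nat_lit 22268) (nat_lit 6) (nat_lit 293) (nat_lit 0) (nat_lit 284) (nat_lit 278) (nat_lit 218))) (PT.nd (nat_lit 78) (PT.lf (nat_lit 21584) (nat_lit 6) (nat_lit 284) (nat_lit 0) (nat_lit 285) (nat_lit 278) (nat_lit 217)) (PT.lf (nat_lit 20900) (nat_lit 6) (nat_lit 275) (nat_lit 0) (nat_lit 286) (nat_lit 278) (nat_lit 216))))) (PT.nd (nat_lit 312) (PT.nd (nat_lit 156) (PT.nd (nat_lit 78) (PT.lf (nat_lit 20292) (nat_lit 6) (nat_lit 267) (nat_lit 0)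 (nat_lit 287) (nat_lit 278) (nat_lit 215)) (PT.lf (nat_lit 19608) (nat_lit 6) (nat_lit 258) (nat_lit 0) (nat_lit 288) (nat_lit 278) (nat_lit 214))) (PT.nd (nat_lit 78) (PT.lf (nat_lit 19000) (nat_lit 6) (nat_lit 250) (nat_lit 0) (nat_lit 289) (nat_lit 278) (nat_lit 213)) (PT.lf (nat_lit 18392) (nat_lit 6) (nat_lit 242) (nat_lit 0) (nat_lit 290) (nat_lit 278) (nat_lit 212)))) (PT.nd (nat_lit 74958) (PT.nd (nat_lit 74880) (PT.lf (nat_lit 17860) (nat_lit 6) (nat_lit 235) (nat_lit 0) (nat_lit 291) (nat_lit 278) (nat_lit 211)) (PT.lf (nat_lit 17328) (nat_lit 6) (nat_lit 228) (nat_lit 5) (nat_lit 210) (nat_lit 279) (nat_lit 291))) (PT.nd (nat_lit 78) (PT.lf (nat_lit 17936) (nat_lit 6) (nat_lit 236) (nat_lit 5) (nat_lit 211) (nat_lit 279) (nat_lit 290)) (PT.lf (nat_lit 18468) (nat_lit 6) (nat_lit 243) (nat_lit 5) (nat_lit 212) (nat_lit 279) (nat_lit 289))))))) (PT.nd (nat_lit 1248) (PT.nd (nat_lit 624) (PT.nd (nat_lit 312) (PT.nd (nat_lit 156) (PT.nd (nat_lit 78) (PT.lf (nat_lit 19076) (nat_lit 6) (nat_lit 251)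 (nat_lit 5) (nat_lit 213) (nat_lit 279) (nat_lit 288)) (PT.lf (nat_lit 19684) (nat_lit 6) (nat_lit 259) (nat_lit 5) (nat_lit 214) (nat_lit 279) (nat_lit 287))) (PT.nd (nat_lit 78) (PT.lf (nat_lit 20368) (nat_lit 6) (nat_lit 268) (nat_lit 5) (nat_lit 215) (nat_lit 279) (nat_lit 286)) (PT.lf (nat_lit 20976) (nat_lit 6) (nat_lit 276) (nat_lit 5) (nat_lit 216) (nat_lit 279) (nat_lit 285)))) (PT.nd (nat_lit 156) (PT.nd (nat_lit 78) (PT.lf (nat_lit 21660) (nat_lit 6) (nat_lit 285) (nat_lit 5) (nat_lit 217) (nat_lit 279) (nat_lit 284)) (PT.lf (nat_lit 22344) (nat_lit 6) (nat_lit 294) (nat_lit 5) (nat_lit 218) (nat_lit 279) (nat_lit 283))) (PT.nd (nat_lit 78) (PT.lf (nat_lit 23028) (nat_lit 6) (nat_lit 303) (nat_lit 5) (nat_lit 219) (nat_lit 279) (nat_lit 282)) (PT.lf (nat_lit 23712) (nat_lit 6) (nat_lit 312) (nat_lit 5) (nat_lit 220) (nat_lit 279) (nat_lit 281))))) (PT.nd (nat_lit 312) (PT.nd (nat_lit 156) (PT.nd (nat_lit 78) (PT.lf (nat_lit 24472) (nat_lit 6) (nat_lit 322) (nat_lit 5) (nat_lit 221) (nat_lit 279)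 (nat_lit 280)) (PT.lf (nat_lit 25232) (nat_lit 3) (nat_lit 332) (nat_lit 4) (nat_lit 222) (nat_lit 279) (nat_lit 279))) (PT.nd (nat_lit 78) (PT.lf (nat_lit 25916) (nat_lit 6) (nat_lit 341) (nat_lit 4) (nat_lit 223) (nat_lit 279) (nat_lit 278)) (PT.lf (nat_lit 26600) (nat_lit 6) (nat_lit 350) (nat_lit 4) (nat_lit 224) (nat_lit 279) (nat_lit 277)))) (PT.nd (nat_lit 156) (PT.nd (nat_lit 78) (PT.lf (nat_lit 27360) (nat_lit 6) (nat_lit 360) (nat_lit 4) (nat_lit 225) (nat_lit 279) (nat_lit 276)) (PT.lf (nat_lit 28120) (nat_lit 6) (nat_lit 370) (nat_lit 4) (nat_lit 226) (nat_lit 279) (nat_lit 275))) (PT.nd (nat_lit 78) (PT.lf (nat_lit 28880) (nat_lit 6) (nat_lit 380) (nat_lit 4) (nat_lit 227) (nat_lit 279) (nat_lit 274)) (PT.lf (nat_lit 29640) (nat_lit 6) (nat_lit 390) (nat_lit 4) (nat_lit 228) (nat_lit 279) (nat_lit 273)))))) (PT.nd (nat_lit 624) (PT.nd (nat_lit 312) (PT.nd (nat_lit 156) (PT.nd (nat_lit 78) (PT.lf (nat_lit 30476) (nat_lit 6) (nat_lit 401) (nat_lit 4) (nat_lit 229) (nat_lit 279) (nat_lit 272))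 (PT.lf (nat_lit 31312) (nat_lit 6) (nat_lit 412) (nat_lit 4) (nat_lit 230) (nat_lit 279) (nat_lit 271))) (PT.nd (nat_lit 78) (PT.lf (nat_lit 32224) (nat_lit 6) (nat_lit 424) (nat_lit 4) (nat_lit 231) (nat_lit 279) (nat_lit 270)) (PT.lf (nat_lit 33060) (nat_lit 6) (nat_lit 435) (nat_lit 4) (nat_lit 232) (nat_lit 279) (nat_lit 269)))) (PT.nd (nat_lit 156) (PT.nd (nat_lit 78) (PT.lf (nat_lit 33972) (nat_lit 6) (nat_lit 447) (nat_lit 4) (nat_lit 233) (nat_lit 279) (nat_lit 268)) (PT.lf (nat_lit 34884) (nat_lit 6) (nat_lit 459) (nat_lit 4) (nat_lit 234) (nat_lit 279) (nat_lit 267))) (PT.nd (nat_lit 78) (PT.lf (nat_lit 36024) (nat_lit 6) (nat_lit 474) (nat_lit 4) (nat_lit 235) (nat_lit 279) (nat_lit 266)) (PT.lf (nat_lit 37848) (nat_lit 6) (nat_lit 498) (nat_lit 4) (nat_lit 236) (nat_lit 279) (nat_lit 265))))) (PT.nd (nat_lit 312) (PT.nd (nat_lit 156) (PT.nd (nat_lit 78) (PT.lf (nat_lit 39596) (nat_lit 6) (nat_lit 521) (nat_lit 4) (nat_lit 237) (nat_lit 279) (nat_lit 264)) (PT.lf (nat_lit 41268) (nat_lit 6) (nat_lit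 543) (nat_lit 4) (nat_lit 238) (nat_lit 279) (nat_lit 263))) (PT.nd (nat_lit 78) (PT.lf (nat_lit 42864) (nat_lit 6) (nat_lit 564) (nat_lit 4) (nat_lit 239) (nat_lit 279) (nat_lit 262)) (PT.lf (nat_lit 44384) (nat_lit 6) (nat_lit 584) (nat_lit 4) (nat_lit 240) (nat_lit 279) (nat_lit 261)))) (PT.nd (nat_lit 156) (PT.nd (nat_lit 78) (PT.lf (nat_lit 45828) (nat_lit 6) (nat_lit 603) (nat_lit 4) (nat_lit 241) (nat_lit 279) (nat_lit 260)) (PT.lf (nat_lit 45752) (nat_lit 6) (nat_lit 602) (nat_lit 4) (nat_lit 242) (nat_lit 279) (nat_lit 259))) (PT.nd (nat_lit 78) (PT.lf (nat_lit 45676) (nat_lit 6) (nat_lit 601) (nat_lit 4) (nat_lit 243) (nat_lit 279) (nat_lit 258)) (PT.lf (nat_lit 45600) (nat_lit 6) (nat_lit 600) (nat_lit 4) (nat_lit 244) (nat_lit 279) (nat_lit 257))))))))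
noncomputable def pc46 : PT := (PT.nd (nat_lit 2418) (PT.nd (nat_lit 1170) (PT.nd (nat_lit 546) (PT.nd (nat_lit 234) (PT.nd (nat_lit 78) (PT.lf (nat_lit 45524) (nat_lit 6) (nat_lit 599) (nat_lit 4) (nat_lit 245) (nat_lit 279) (nat_lit 256)) (PT.nd (nat_lit 78) (PT.lf (nat_lit 45448) (nat_lit 6) (nat_lit 598) (nat_lit 4) (nat_lit 246) (nat_lit 279) (nat_lit 255)) (PT.lf (nat_lit 45372) (nat_lit 6) (nat_lit 597) (nat_lit 4) (nat_lit 247) (nat_lit 279) (nat_lit 254)))) (PT.nd (nat_lit 156) (PT.nd (nat_lit 78) (PT.lf (nat_lit 45296) (nat_lit 6) (nat_lit 596) (nat_lit 4) (nat_lit 248) (nat_lit 279) (nat_lit 253)) (PT.lf (nat_lit 45220) (nat_lit 6) (nat_lit 595) (nat_lit 4) (nat_lit 249) (nat_lit 279) (nat_lit 252))) (PT.nd (nat_lit 78) (PT.lf (nat_lit 45144) (nat_lit 6) (nat_lit 594) (nat_lit 4) (nat_lit 250) (nat_lit 279) (nat_lit 251)) (PT.lf (nat_lit 45144) (nat_lit 6) (nat_lit 594) (nat_lit 2) (nat_lit 251) (nat_lit 279) (nat_lit 250))))) (PT.nd (nat_lit 312) (PT.nd (nat_lit 156) (PT.nd (nat_lit 78) (PT.lf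 (nat_lit 45220) (nat_lit 6) (nat_lit 595) (nat_lit 2) (nat_lit 252) (nat_lit 279) (nat_lit 249)) (PT.lf (nat_lit 45296) (nat_lit 6) (nat_lit 596) (nat_lit 2) (nat_lit 253) (nat_lit 279) (nat_lit 248))) (PT.nd (nat_lit 78) (PT.lf (nat_lit 45372) (nat_lit 6) (nat_lit 597) (nat_lit 2) (nat_lit 254) (nat_lit 279) (nat_lit 247)) (PT.lf (nat_lit 45448) (nat_lit 6) (nat_lit 598) (nat_lit 2) (nat_lit 255) (nat_lit 279) (nat_lit 246)))) (PT.nd (nat_lit 156) (PT.nd (nat_lit 78) (PT.lf (nat_lit 45524) (nat_lit 6) (nat_lit 599) (nat_lit 2) (nat_lit 256) (nat_lit 279) (nat_lit 245)) (PT.lf (nat_lit 45600) (nat_lit 6) (nat_lit 600) (nat_lit 2) (nat_lit 257) (nat_lit 279) (nat_lit 244))) (PT.nd (nat_lit 78) (PT.lf (nat_lit 45676) (nat_lit 6) (nat_lit 601) (nat_lit 2) (nat_lit 258) (nat_lit 279) (nat_lit 243)) (PT.lf (nat_lit 45752) (nat_lit 6) (nat_lit 602) (nat_lit 2) (nat_lit 259) (nat_lit 279) (nat_lit 242)))))) (PT.nd (nat_lit 624) (PT.nd (nat_lit 312) (PT.nd (nat_lit 156) (PT.nd (nat_lit 78) (PT.lf (nat_lit 45828)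 (nat_lit 6) (nat_lit 603) (nat_lit 2) (nat_lit 260) (nat_lit 279) (nat_lit 241)) (PT.lf (nat_lit 44384) (nat_lit 6) (nat_lit 584) (nat_lit 2) (nat_lit 261) (nat_lit 279) (nat_lit 240))) (PT.nd (nat_lit 78) (PT.lf (nat_lit 42864) (nat_lit 6) (nat_lit 564) (nat_lit 2) (nat_lit 262) (nat_lit 279) (nat_lit 239)) (PT.lf (nat_lit 41268) (nat_lit 6) (nat_lit 543) (nat_lit 2) (nat_lit 263) (nat_lit 279) (nat_lit 238)))) (PT.nd (nat_lit 156) (PT.nd (nat_lit 78) (PT.lf (nat_lit 39596) (nat_lit 6) (nat_lit 521) (nat_lit 2) (nat_lit 264) (nat_lit 279) (nat_lit 237)) (PT.lf (nat_lit 37848) (nat_lit 6) (nat_lit 498) (nat_lit 2) (nat_lit 265) (nat_lit 279) (nat_lit 236))) (PT.nd (nat_lit 78) (PT.lf (nat_lit 36024) (nat_lit 6) (nat_lit 474) (nat_lit 2) (nat_lit 266) (nat_lit 279) (nat_lit 235)) (PT.lf (nat_lit 34884) (nat_lit 6) (nat_lit 459) (nat_lit 2) (nat_lit 267) (nat_lit 279) (nat_lit 234))))) (PT.nd (nat_lit 312) (PT.nd (nat_lit 156) (PT.nd (nat_lit 78) (PT.lf (nat_lit 33972) (nat_lit 6) (nat_lit 447) (nat_lit 2)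 (nat_lit 268) (nat_lit 279) (nat_lit 233)) (PT.lf (nat_lit 33060) (nat_lit 6) (nat_lit 435) (nat_lit 2) (nat_lit 269) (nat_lit 279) (nat_lit 232))) (PT.nd (nat_lit 78) (PT.lf (nat_lit 32224) (nat_lit 6) (nat_lit 424) (nat_lit 2) (nat_lit 270) (nat_lit 279) (nat_lit 231)) (PT.lf (nat_lit 31312) (nat_lit 6) (nat_lit 412) (nat_lit 2) (nat_lit 271) (nat_lit 279) (nat_lit 230)))) (PT.nd (nat_lit 156) (PT.nd (nat_lit 78) (PT.lf (nat_lit 30476) (nat_lit 6) (nat_lit 401) (nat_lit 2) (nat_lit 272) (nat_lit 279) (nat_lit 229)) (PT.lf (nat_lit 29640) (nat_lit 6) (nat_lit 390) (nat_lit 2) (nat_lit 273) (nat_lit 279) (nat_lit 228))) (PT.nd (nat_lit 78) (PT.lf (nat_lit 28880) (nat_lit 6) (nat_lit 380) (nat_lit 2) (nat_lit 274) (nat_lit 279) (nat_lit 227)) (PT.lf (nat_lit 28120) (nat_lit 6) (nat_lit 370) (nat_lit 2) (nat_lit 275) (nat_lit 279) (nat_lit 226))))))) (PT.nd (nat_lit 75894) (PT.nd (nat_lit 624) (PT.nd (nat_lit 312) (PT.nd (nat_lit 156) (PT.nd (nat_lit 78) (PT.lf (nat_lit 27360) (nat_lit 6) (nat_lit 360) (nat_lit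 2) (nat_lit 276) (nat_lit 279) (nat_lit 225)) (PT.lf (nat_lit 26600) (nat_lit 6) (nat_lit 350) (nat_lit 2) (nat_lit 277) (nat_lit 279) (nat_lit 224))) (PT.nd (nat_lit 78) (PT.lf (nat_lit 25916) (nat_lit 6) (nat_lit 341) (nat_lit 2) (nat_lit 278) (nat_lit 279) (nat_lit 223)) (PT.lf (nat_lit 25232) (nat_lit 3) (nat_lit 332) (nat_lit 0) (nat_lit 279) (nat_lit 279) (nat_lit 222)))) (PT.nd (nat_lit 156) (PT.nd (nat_lit 78) (PT.lf (nat_lit 24472) (nat_lit 6) (nat_lit 322) (nat_lit 0) (nat_lit 280) (nat_lit 279) (nat_lit 221)) (PT.lf (nat_lit 23712) (nat_lit 6) (nat_lit 312) (nat_lit 0) (nat_lit 281) (nat_lit 279) (nat_lit 220))) (PT.nd (nat_lit 78) (PT.lf (nat_lit 23028) (nat_lit 6) (nat_lit 303) (nat_lit 0) (nat_lit 282) (nat_lit 279) (nat_lit 219)) (PT.lf (nat_lit 22344) (nat_lit 6) (nat_lit 294) (nat_lit 0) (nat_lit 283) (nat_lit 279) (nat_lit 218))))) (PT.nd (nat_lit 312) (PT.nd (nat_lit 156) (PT.nd (nat_lit 78) (PT.lf (nat_lit 21660) (nat_lit 6) (nat_lit 285) (nat_lit 0) (nat_lit 284) (nat_lit 279) (nat_lit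 217)) (PT.lf (nat_lit 20976) (nat_lit 6) (nat_lit 276) (nat_lit 0) (nat_lit 285) (nat_lit 279) (nat_lit 216))) (PT.nd (nat_lit 78) (PT.lf (nat_lit 20368) (nat_lit 6) (nat_lit 268) (nat_lit 0) (nat_lit 286) (nat_lit 279) (nat_lit 215)) (PT.lf (nat_lit 19684) (nat_lit 6) (nat_lit 259) (nat_lit 0) (nat_lit 287) (nat_lit 279) (nat_lit 214)))) (PT.nd (nat_lit 156) (PT.nd (nat_lit 78) (PT.lf (nat_lit 19076) (nat_lit 6) (nat_lit 251) (nat_lit 0) (nat_lit 288) (nat_lit 279) (nat_lit 213)) (PT.lf (nat_lit 18468) (nat_lit 6) (nat_lit 243) (nat_lit 0) (nat_lit 289) (nat_lit 279) (nat_lit 212))) (PT.nd (nat_lit 78) (PT.lf (nat_lit 17936) (nat_lit 6) (nat_lit 236) (nat_lit 0) (nat_lit 290) (nat_lit 279) (nat_lit 211)) (PT.lf (nat_lit 17328) (nat_lit 6) (nat_lit 228) (nat_lit 0) (nat_lit 291) (nat_lit 279) (nat_lit 210)))))) (PT.nd (nat_lit 624) (PT.nd (nat_lit 312) (PT.nd (nat_lit 156) (PT.nd (nat_lit 78) (PT.lf (nat_lit 16340) (nat_lit 6) (nat_lit 215) (nat_lit 5) (nat_lit 208) (nat_lit 280) (nat_lit 292)) (PT.lf (nat_lit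 16872) (nat_lit 6) (nat_lit 222) (nat_lit 5) (nat_lit 209) (nat_lit 280) (nat_lit 291))) (PT.nd (nat_lit 78) (PT.lf (nat_lit 17404) (nat_lit 6) (nat_lit 229) (nat_lit 5) (nat_lit 210) (nat_lit 280) (nat_lit 290)) (PT.lf (nat_lit 18012) (nat_lit 6) (nat_lit 237) (nat_lit 5) (nat_lit 211) (nat_lit 280) (nat_lit 289)))) (PT.nd (nat_lit 156) (PT.nd (nat_lit 78) (PT.lf (nat_lit 18544) (nat_lit 6) (nat_lit 244) (nat_lit 5) (nat_lit 212) (nat_lit 280) (nat_lit 288)) (PT.lf (nat_lit 19152) (nat_lit 6) (nat_lit 252) (nat_lit 5) (nat_lit 213) (nat_lit 280) (nat_lit 287))) (PT.nd (nat_lit 78) (PT.lf (nat_lit 19760) (nat_lit 6) (nat_lit 260) (nat_lit 5) (nat_lit 214) (nat_lit 280) (nat_lit 286)) (PT.lf (nat_lit 20444) (nat_lit 6) (nat_lit 269) (nat_lit 5) (nat_lit 215) (nat_lit 280) (nat_lit 285))))) (PT.nd (nat_lit 312) (PT.nd (nat_lit 156) (PT.nd (nat_lit 78) (PT.lf (nat_lit 21052) (nat_lit 6) (nat_lit 277) (nat_lit 5) (nat_lit 216) (nat_lit 280) (nat_lit 284)) (PT.lf (nat_lit 21736) (nat_lit 6) (nat_lit 286) (nat_lit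 5) (nat_lit 217) (nat_lit 280) (nat_lit 283))) (PT.nd (nat_lit 78) (PT.lf (nat_lit 22420) (nat_lit 6) (nat_lit 295) (nat_lit 5) (nat_lit 218) (nat_lit 280) (nat_lit 282)) (PT.lf (nat_lit 23104) (nat_lit 6) (nat_lit 304) (nat_lit 5) (nat_lit 219) (nat_lit 280) (nat_lit 281)))) (PT.nd (nat_lit 156) (PT.nd (nat_lit 78) (PT.lf (nat_lit 23788) (nat_lit 3) (nat_lit 313) (nat_lit 4) (nat_lit 220) (nat_lit 280) (nat_lit 280)) (PT.lf (nat_lit 24472) (nat_lit 6) (nat_lit 322) (nat_lit 4) (nat_lit 221) (nat_lit 280) (nat_lit 279))) (PT.nd (nat_lit 78) (PT.lf (nat_lit 25156) (nat_lit 6) (nat_lit 331) (nat_lit 4) (nat_lit 222) (nat_lit 280) (nat_lit 278)) (PT.lf (nat_lit 25840) (nat_lit 6) (nat_lit 340) (nat_lit 4) (nat_lit 223) (nat_lit 280) (nat_lit 277))))))))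
noncomputable def pc47 : PT := (PT.nd (nat_lit 2418) (PT.nd (nat_lit 1170) (PT.nd (nat_lit 546) (PT.nd (nat_lit 234) (PT.nd (nat_lit 78) (PT.lf (nat_lit 26524) (nat_lit 6) (nat_lit 349) (nat_lit 4) (nat_lit 224) (nat_lit 280) (nat_lit 276)) (PT.nd (nat_lit 78) (PT.lf (nat_lit 27284) (nat_lit 6) (nat_lit 359) (nat_lit 4) (nat_lit 225) (nat_lit 280) (nat_lit 275)) (PT.lf (nat_lit 28044) (nat_lit 6) (nat_lit 369) (nat_lit 4) (nat_lit 226) (nat_lit 280) (nat_lit 274)))) (PT.nd (nat_lit 156) (PT.nd (nat_lit 78) (PT.lf (nat_lit 28804) (nat_lit 6) (nat_lit 379) (nat_lit 4) (nat_lit 227) (nat_lit 280) (nat_lit 273)) (PT.lf (nat_lit 29564) (nat_lit 6) (nat_lit 389) (nat_lit 4) (nat_lit 228) (nat_lit 280) (nat_lit 272))) (PT.nd (nat_lit 78) (PT.lf (nat_lit 30400) (nat_lit 6) (nat_lit 400) (nat_lit 4) (nat_lit 229) (nat_lit 280) (nat_lit 271)) (PT.lf (nat_lit 31236) (nat_lit 6) (nat_lit 411) (nat_lit 4) (nat_lit 230) (nat_lit 280) (nat_lit 270))))) (PT.nd (nat_lit 312) (PT.nd (nat_lit 156) (PT.nd (nat_lit 78) (PT.lf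 (nat_lit 32148) (nat_lit 6) (nat_lit 423) (nat_lit 4) (nat_lit 231) (nat_lit 280) (nat_lit 269)) (PT.lf (nat_lit 32984) (nat_lit 6) (nat_lit 434) (nat_lit 4) (nat_lit 232) (nat_lit 280) (nat_lit 268))) (PT.nd (nat_lit 78) (PT.lf (nat_lit 33896) (nat_lit 6) (nat_lit 446) (nat_lit 4) (nat_lit 233) (nat_lit 280) (nat_lit 267)) (PT.lf (nat_lit 34808) (nat_lit 6) (nat_lit 458) (nat_lit 4) (nat_lit 234) (nat_lit 280) (nat_lit 266)))) (PT.nd (nat_lit 156) (PT.nd (nat_lit 78) (PT.lf (nat_lit 35948) (nat_lit 6) (nat_lit 473) (nat_lit 4) (nat_lit 235) (nat_lit 280) (nat_lit 265)) (PT.lf (nat_lit 37772) (nat_lit 6) (nat_lit 497) (nat_lit 4) (nat_lit 236) (nat_lit 280) (nat_lit 264))) (PT.nd (nat_lit 78) (PT.lf (nat_lit 39520) (nat_lit 6) (nat_lit 520) (nat_lit 4) (nat_lit 237) (nat_lit 280) (nat_lit 263)) (PT.lf (nat_lit 41192) (nat_lit 6) (nat_lit 542) (nat_lit 4) (nat_lit 238) (nat_lit 280) (nat_lit 262)))))) (PT.nd (nat_lit 624) (PT.nd (nat_lit 312) (PT.nd (nat_lit 156) (PT.nd (nat_lit 78) (PT.lf (nat_lit 42788)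 (nat_lit 6) (nat_lit 563) (nat_lit 4) (nat_lit 239) (nat_lit 280) (nat_lit 261)) (PT.lf (nat_lit 44308) (nat_lit 6) (nat_lit 583) (nat_lit 4) (nat_lit 240) (nat_lit 280) (nat_lit 260))) (PT.nd (nat_lit 78) (PT.lf (nat_lit 44232) (nat_lit 6) (nat_lit 582) (nat_lit 4) (nat_lit 241) (nat_lit 280) (nat_lit 259)) (PT.lf (nat_lit 44156) (nat_lit 6) (nat_lit 581) (nat_lit 4) (nat_lit 242) (nat_lit 280) (nat_lit 258)))) (PT.nd (nat_lit 156) (PT.nd (nat_lit 78) (PT.lf (nat_lit 44080) (nat_lit 6) (nat_lit 580) (nat_lit 4) (nat_lit 243) (nat_lit 280) (nat_lit 257)) (PT.lf (nat_lit 44004) (nat_lit 6) (nat_lit 579) (nat_lit 4) (nat_lit 244) (nat_lit 280) (nat_lit 256))) (PT.nd (nat_lit 78) (PT.lf (nat_lit 43928) (nat_lit 6) (nat_lit 578) (nat_lit 4) (nat_lit 245) (nat_lit 280) (nat_lit 255)) (PT.lf (nat_lit 43852) (nat_lit 6) (nat_lit 577) (nat_lit 4) (nat_lit 246) (nat_lit 280) (nat_lit 254))))) (PT.nd (nat_lit 312) (PT.nd (nat_lit 156) (PT.nd (nat_lit 78) (PT.lf (nat_lit 43776) (nat_lit 6) (nat_lit 576) (nat_lit 4)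 (nat_lit 247) (nat_lit 280) (nat_lit 253)) (PT.lf (nat_lit 43700) (nat_lit 6) (nat_lit 575) (nat_lit 4) (nat_lit 248) (nat_lit 280) (nat_lit 252))) (PT.nd (nat_lit 78) (PT.lf (nat_lit 43624) (nat_lit 6) (nat_lit 574) (nat_lit 4) (nat_lit 249) (nat_lit 280) (nat_lit 251)) (PT.lf (nat_lit 43548) (nat_lit 3) (nat_lit 573) (nat_lit 2) (nat_lit 250) (nat_lit 280) (nat_lit 250)))) (PT.nd (nat_lit 156) (PT.nd (nat_lit 78) (PT.lf (nat_lit 43624) (nat_lit 6) (nat_lit 574) (nat_lit 2) (nat_lit 251) (nat_lit 280) (nat_lit 249)) (PT.lf (nat_lit 43700) (nat_lit 6) (nat_lit 575) (nat_lit 2) (nat_lit 252) (nat_lit 280) (nat_lit 248))) (PT.nd (nat_lit 78) (PT.lf (nat_lit 43776) (nat_lit 6) (nat_lit 576) (nat_lit 2) (nat_lit 253) (nat_lit 280) (nat_lit 247)) (PT.lf (nat_lit 43852) (nat_lit 6) (nat_lit 577) (nat_lit 2) (nat_lit 254) (nat_lit 280) (nat_lit 246))))))) (PT.nd (nat_lit 1248) (PT.nd (nat_lit 624) (PT.nd (nat_lit 312) (PT.nd (nat_lit 156) (PT.nd (nat_lit 78) (PT.lf (nat_lit 43928) (nat_lit 6) (nat_lit 578) (nat_lit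 2) (nat_lit 255) (nat_lit 280) (nat_lit 245)) (PT.lf (nat_lit 44004) (nat_lit 6) (nat_lit 579) (nat_lit 2) (nat_lit 256) (nat_lit 280) (nat_lit 244))) (PT.nd (nat_lit 78) (PT.lf (nat_lit 44080) (nat_lit 6) (nat_lit 580) (nat_lit 2) (nat_lit 257) (nat_lit 280) (nat_lit 243)) (PT.lf (nat_lit 44156) (nat_lit 6) (nat_lit 581) (nat_lit 2) (nat_lit 258) (nat_lit 280) (nat_lit 242)))) (PT.nd (nat_lit 156) (PT.nd (nat_lit 78) (PT.lf (nat_lit 44232) (nat_lit 6) (nat_lit 582) (nat_lit 2) (nat_lit 259) (nat_lit 280) (nat_lit 241)) (PT.lf (nat_lit 44308) (nat_lit 6) (nat_lit 583) (nat_lit 2) (nat_lit 260) (nat_lit 280) (nat_lit 240))) (PT.nd (nat_lit 78) (PT.lf (nat_lit 42788) (nat_lit 6) (nat_lit 563) (nat_lit 2) (nat_lit 261) (nat_lit 280) (nat_lit 239)) (PT.lf (nat_lit 41192) (nat_lit 6) (nat_lit 542) (nat_lit 2) (nat_lit 262) (nat_lit 280) (nat_lit 238))))) (PT.nd (nat_lit 312) (PT.nd (nat_lit 156) (PT.nd (nat_lit 78) (PT.lf (nat_lit 39520) (nat_lit 6) (nat_lit 520) (nat_lit 2) (nat_lit 263) (nat_lit 280) (nat_lit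 237)) (PT.lf (nat_lit 37772) (nat_lit 6) (nat_lit 497) (nat_lit 2) (nat_lit 264) (nat_lit 280) (nat_lit 236))) (PT.nd (nat_lit 78) (PT.lf (nat_lit 35948) (nat_lit 6) (nat_lit 473) (nat_lit 2) (nat_lit 265) (nat_lit 280) (nat_lit 235)) (PT.lf (nat_lit 34808) (nat_lit 6) (nat_lit 458) (nat_lit 2) (nat_lit 266) (nat_lit 280) (nat_lit 234)))) (PT.nd (nat_lit 156) (PT.nd (nat_lit 78) (PT.lf (nat_lit 33896) (nat_lit 6) (nat_lit 446) (nat_lit 2) (nat_lit 267) (nat_lit 280) (nat_lit 233)) (PT.lf (nat_lit 32984) (nat_lit 6) (nat_lit 434) (nat_lit 2) (nat_lit 268) (nat_lit 280) (nat_lit 232))) (PT.nd (nat_lit 78) (PT.lf (nat_lit 32148) (nat_lit 6) (nat_lit 423) (nat_lit 2) (nat_lit 269) (nat_lit 280) (nat_lit 231)) (PT.lf (nat_lit 31236) (nat_lit 6) (nat_lit 411) (nat_lit 2) (nat_lit 270) (nat_lit 280) (nat_lit 230)))))) (PT.nd (nat_lit 624) (PT.nd (nat_lit 312) (PT.nd (nat_lit 156) (PT.nd (nat_lit 78) (PT.lf (nat_lit 30400) (nat_lit 6) (nat_lit 400) (nat_lit 2) (nat_lit 271) (nat_lit 280) (nat_lit 229)) (PT.lf (nat_lit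 29564) (nat_lit 6) (nat_lit 389) (nat_lit 2) (nat_lit 272) (nat_lit 280) (nat_lit 228))) (PT.nd (nat_lit 78) (PT.lf (nat_lit 28804) (nat_lit 6) (nat_lit 379) (nat_lit 2) (nat_lit 273) (nat_lit 280) (nat_lit 227)) (PT.lf (nat_lit 28044) (nat_lit 6) (nat_lit 369) (nat_lit 2) (nat_lit 274) (nat_lit 280) (nat_lit 226)))) (PT.nd (nat_lit 156) (PT.nd (nat_lit 78) (PT.lf (nat_lit 27284) (nat_lit 6) (nat_lit 359) (nat_lit 2) (nat_lit 275) (nat_lit 280) (nat_lit 225)) (PT.lf (nat_lit 26524) (nat_lit 6) (nat_lit 349) (nat_lit 2) (nat_lit 276) (nat_lit 280) (nat_lit 224))) (PT.nd (nat_lit 78) (PT.lf (nat_lit 25840) (nat_lit 6) (nat_lit 340) (nat_lit 2) (nat_lit 277) (nat_lit 280) (nat_lit 223)) (PT.lf (nat_lit 25156) (nat_lit 6) (nat_lit 331) (nat_lit 2) (nat_lit 278) (nat_lit 280) (nat_lit 222))))) (PT.nd (nat_lit 312) (PT.nd (nat_lit 156) (PT.nd (nat_lit 78) (PT.lf (nat_lit 24472) (nat_lit 6) (nat_lit 322) (nat_lit 2) (nat_lit 279) (nat_lit 280) (nat_lit 221)) (PT.lf (nat_lit 23788) (nat_lit 3) (nat_lit 313) (nat_lit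 0) (nat_lit 280) (nat_lit 280) (nat_lit 220))) (PT.nd (nat_lit 78) (PT.lf (nat_lit 23104) (nat_lit 6) (nat_lit 304) (nat_lit 0) (nat_lit 281) (nat_lit 280) (nat_lit 219)) (PT.lf (nat_lit 22420) (nat_lit 6) (nat_lit 295) (nat_lit 0) (nat_lit 282) (nat_lit 280) (nat_lit 218)))) (PT.nd (nat_lit 156) (PT.nd (nat_lit 78) (PT.lf (nat_lit 21736) (nat_lit 6) (nat_lit 286) (nat_lit 0) (nat_lit 283) (nat_lit 280) (nat_lit 217)) (PT.lf (nat_lit 21052) (nat_lit 6) (nat_lit 277) (nat_lit 0) (nat_lit 284) (nat_lit 280) (nat_lit 216))) (PT.nd (nat_lit 78) (PT.lf (nat_lit 20444) (nat_lit 6) (nat_lit 269) (nat_lit 0) (nat_lit 285) (nat_lit 280) (nat_lit 215)) (PT.lf (nat_lit 19760) (nat_lit 6) (nat_lit 260) (nat_lit 0) (nat_lit 286) (nat_lit 280) (nat_lit 214))))))))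
noncomputable def pc48 : PT := (PT.nd (nat_lit 76908) (PT.nd (nat_lit 75660) (PT.nd (nat_lit 75036) (PT.nd (nat_lit 234) (PT.nd (nat_lit 78) (PT.lf (nat_lit 19152) (nat_lit 6) (nat_lit 252) (nat_lit 0) (nat_lit 287) (nat_lit 280) (nat_lit 213)) (PT.nd (nat_lit 78) (PT.lf (nat_lit 18544) (nat_lit 6) (nat_lit 244) (nat_lit 0) (nat_lit 288) (nat_lit 280) (nat_lit 212)) (PT.lf (nat_lit 18012) (nat_lit 6) (nat_lit 237) (nat_lit 0) (nat_lit 289) (nat_lit 280) (nat_lit 211)))) (PT.nd (nat_lit 156) (PT.nd (nat_lit 78) (PT.lf (nat_lit 17404) (nat_lit 6) (nat_lit 229) (nat_lit 0) (nat_lit 290) (nat_lit 280) (nat_lit 210)) (PT.lf (nat_lit 16872) (nat_lit 6) (nat_lit 222) (nat_lit 0) (nat_lit 291) (nat_lit 280) (nat_lit 209))) (PT.nd (nat_lit 74568) (PT.lf (nat_lit 16340) (nat_lit 6) (nat_lit 215) (nat_lit 0) (nat_lit 292) (nat_lit 280) (nat_lit 208)) (PT.lf (nat_lit 15884) (nat_lit 6) (nat_lit 209) (nat_lit 5) (nat_lit 207) (nat_lit 281) (nat_lit 292))))) (PT.nd (nat_lit 312) (PT.nd (nat_lit 156) (PT.nd (nat_lit 78)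 (PT.lf (nat_lit 16416) (nat_lit 6) (nat_lit 216) (nat_lit 5) (nat_lit 208) (nat_lit 281) (nat_lit 291)) (PT.lf (nat_lit 16948) (nat_lit 6) (nat_lit 223) (nat_lit 5) (nat_lit 209) (nat_lit 281) (nat_lit 290))) (PT.nd (nat_lit 78) (PT.lf (nat_lit 17480) (nat_lit 6) (nat_lit 230) (nat_lit 5) (nat_lit 210) (nat_lit 281) (nat_lit 289)) (PT.lf (nat_lit 18088) (nat_lit 6) (nat_lit 238) (nat_lit 5) (nat_lit 211) (nat_lit 281) (nat_lit 288)))) (PT.nd (nat_lit 156) (PT.nd (nat_lit 78) (PT.lf (nat_lit 18620) (nat_lit 6) (nat_lit 245) (nat_lit 5) (nat_lit 212) (nat_lit 281) (nat_lit 287)) (PT.lf (nat_lit 19228) (nat_lit 6) (nat_lit 253) (nat_lit 5) (nat_lit 213) (nat_lit 281) (nat_lit 286))) (PT.nd (nat_lit 78) (PT.lf (nat_lit 19836) (nat_lit 6) (nat_lit 261) (nat_lit 5) (nat_lit 214) (nat_lit 281) (nat_lit 285)) (PT.lf (nat_lit 20520) (nat_lit 6) (nat_lit 270) (nat_lit 5) (nat_lit 215) (nat_lit 281) (nat_lit 284)))))) (PT.nd (nat_lit 624) (PT.nd (nat_lit 312) (PT.nd (nat_lit 156) (PT.nd (nat_lit 78) (PT.lf (nat_lit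 21128) (nat_lit 6) (nat_lit 278) (nat_lit 5) (nat_lit 216) (nat_lit 281) (nat_lit 283)) (PT.lf (nat_lit 21812) (nat_lit 6) (nat_lit 287) (nat_lit 5) (nat_lit 217) (nat_lit 281) (nat_lit 282))) (PT.nd (nat_lit 78) (PT.lf (nat_lit 22496) (nat_lit 3) (nat_lit 296) (nat_lit 4) (nat_lit 218) (nat_lit 281) (nat_lit 281)) (PT.lf (nat_lit 23104) (nat_lit 6) (nat_lit 304) (nat_lit 4) (nat_lit 219) (nat_lit 281) (nat_lit 280)))) (PT.nd (nat_lit 156) (PT.nd (nat_lit 78) (PT.lf (nat_lit 23712) (nat_lit 6) (nat_lit 312) (nat_lit 4) (nat_lit 220) (nat_lit 281) (nat_lit 279)) (PT.lf (nat_lit 24396) (nat_lit 6) (nat_lit 321) (nat_lit 4) (nat_lit 221) (nat_lit 281) (nat_lit 278))) (PT.nd (nat_lit 78) (PT.lf (nat_lit 25080) (nat_lit 6) (nat_lit 330) (nat_lit 4) (nat_lit 222) (nat_lit 281) (nat_lit 277)) (PT.lf (nat_lit 25764) (nat_lit 6) (nat_lit 339) (nat_lit 4) (nat_lit 223) (nat_lit 281) (nat_lit 276))))) (PT.nd (nat_lit 312) (PT.nd (nat_lit 156) (PT.nd (nat_lit 78) (PT.lf (nat_lit 26448) (nat_lit 6) (nat_lit 348) (nat_lit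 4) (nat_lit 224) (nat_lit 281) (nat_lit 275)) (PT.lf (nat_lit 27208) (nat_lit 6) (nat_lit 358) (nat_lit 4) (nat_lit 225) (nat_lit 281) (nat_lit 274))) (PT.nd (nat_lit 78) (PT.lf (nat_lit 27968) (nat_lit 6) (nat_lit 368) (nat_lit 4) (nat_lit 226) (nat_lit 281) (nat_lit 273)) (PT.lf (nat_lit 28728) (nat_lit 6) (nat_lit 378) (nat_lit 4) (nat_lit 227) (nat_lit 281) (nat_lit 272)))) (PT.nd (nat_lit 156) (PT.nd (nat_lit 78) (PT.lf (nat_lit 29488) (nat_lit 6) (nat_lit 388) (nat_lit 4) (nat_lit 228) (nat_lit 281) (nat_lit 271)) (PT.lf (nat_lit 30324) (nat_lit 6) (nat_lit 399) (nat_lit 4) (nat_lit 229) (nat_lit 281) (nat_lit 270))) (PT.nd (nat_lit 78) (PT.lf (nat_lit 31160) (nat_lit 6) (nat_lit 410) (nat_lit 4) (nat_lit 230) (nat_lit 281) (nat_lit 269)) (PT.lf (nat_lit 32072) (nat_lit 6) (nat_lit 422) (nat_lit 4) (nat_lit 231) (nat_lit 281) (nat_lit 268))))))) (PT.nd (nat_lit 1170) (PT.nd (nat_lit 546) (PT.nd (nat_lit 234) (PT.nd (nat_lit 78) (PT.lf (nat_lit 32908) (nat_lit 6) (nat_lit 433) (nat_lit 4) (nat_lit 232)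 (nat_lit 281) (nat_lit 267)) (PT.nd (nat_lit 78) (PT.lf (nat_lit 33820) (nat_lit 6) (nat_lit 445) (nat_lit 4) (nat_lit 233) (nat_lit 281) (nat_lit 266)) (PT.lf (nat_lit 34732) (nat_lit 6) (nat_lit 457) (nat_lit 4) (nat_lit 234) (nat_lit 281) (nat_lit 265)))) (PT.nd (nat_lit 156) (PT.nd (nat_lit 78) (PT.lf (nat_lit 35872) (nat_lit 6) (nat_lit 472) (nat_lit 4) (nat_lit 235) (nat_lit 281) (nat_lit 264)) (PT.lf (nat_lit 37696) (nat_lit 6) (nat_lit 496) (nat_lit 4) (nat_lit 236) (nat_lit 281) (nat_lit 263))) (PT.nd (nat_lit 78) (PT.lf (nat_lit 39444) (nat_lit 6) (nat_lit 519) (nat_lit 4) (nat_lit 237) (nat_lit 281) (nat_lit 262)) (PT.lf (nat_lit 41116) (nat_lit 6) (nat_lit 541) (nat_lit 4) (nat_lit 238) (nat_lit 281) (nat_lit 261))))) (PT.nd (nat_lit 312) (PT.nd (nat_lit 156) (PT.nd (nat_lit 78) (PT.lf (nat_lit 42712) (nat_lit 6) (nat_lit 562) (nat_lit 4) (nat_lit 239) (nat_lit 281) (nat_lit 260)) (PT.lf (nat_lit 42636) (nat_lit 6) (nat_lit 561) (nat_lit 4) (nat_lit 240) (nat_lit 281) (nat_lit 259))) (PT.nd (nat_lit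 78) (PT.lf (nat_lit 42560) (nat_lit 6) (nat_lit 560) (nat_lit 4) (nat_lit 241) (nat_lit 281) (nat_lit 258)) (PT.lf (nat_lit 42484) (nat_lit 6) (nat_lit 559) (nat_lit 4) (nat_lit 242) (nat_lit 281) (nat_lit 257)))) (PT.nd (nat_lit 156) (PT.nd (nat_lit 78) (PT.lf (nat_lit 42408) (nat_lit 6) (nat_lit 558) (nat_lit 4) (nat_lit 243) (nat_lit 281) (nat_lit 256)) (PT.lf (nat_lit 42332) (nat_lit 6) (nat_lit 557) (nat_lit 4) (nat_lit 244) (nat_lit 281) (nat_lit 255))) (PT.nd (nat_lit 78) (PT.lf (nat_lit 42256) (nat_lit 6) (nat_lit 556) (nat_lit 4) (nat_lit 245) (nat_lit 281) (nat_lit 254)) (PT.lf (nat_lit 42180) (nat_lit 6) (nat_lit 555) (nat_lit 4) (nat_lit 246) (nat_lit 281) (nat_lit 253)))))) (PT.nd (nat_lit 624) (PT.nd (nat_lit 312) (PT.nd (nat_lit 156) (PT.nd (nat_lit 78) (PT.lf (nat_lit 42104) (nat_lit 6) (nat_lit 554) (nat_lit 4) (nat_lit 247) (nat_lit 281) (nat_lit 252)) (PT.lf (nat_lit 42028) (nat_lit 6) (nat_lit 553) (nat_lit 4) (nat_lit 248) (nat_lit 281) (nat_lit 251))) (PT.nd (nat_lit 78) (PT.lf (nat_lit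 41952) (nat_lit 6) (nat_lit 552) (nat_lit 4) (nat_lit 249) (nat_lit 281) (nat_lit 250)) (PT.lf (nat_lit 41952) (nat_lit 6) (nat_lit 552) (nat_lit 2) (nat_lit 250) (nat_lit 281) (nat_lit 249)))) (PT.nd (nat_lit 156) (PT.nd (nat_lit 78) (PT.lf (nat_lit 42028) (nat_lit 6) (nat_lit 553) (nat_lit 2) (nat_lit 251) (nat_lit 281) (nat_lit 248)) (PT.lf (nat_lit 42104) (nat_lit 6) (nat_lit 554) (nat_lit 2) (nat_lit 252) (nat_lit 281) (nat_lit 247))) (PT.nd (nat_lit 78) (PT.lf (nat_lit 42180) (nat_lit 6) (nat_lit 555) (nat_lit 2) (nat_lit 253) (nat_lit 281) (nat_lit 246)) (PT.lf (nat_lit 42256) (nat_lit 6) (nat_lit 556) (nat_lit 2) (nat_lit 254) (nat_lit 281) (nat_lit 245))))) (PT.nd (nat_lit 312) (PT.nd (nat_lit 156) (PT.nd (nat_lit 78) (PT.lf (nat_lit 42332) (nat_lit 6) (nat_lit 557) (nat_lit 2) (nat_lit 255) (nat_lit 281) (nat_lit 244)) (PT.lf (nat_lit 42408) (nat_lit 6) (nat_lit 558) (nat_lit 2) (nat_lit 256) (nat_lit 281) (nat_lit 243))) (PT.nd (nat_lit 78) (PT.lf (nat_lit 42484) (nat_lit 6) (nat_lit 559) (nat_lit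 2) (nat_lit 257) (nat_lit 281) (nat_lit 242)) (PT.lf (nat_lit 42560) (nat_lit 6) (nat_lit 560) (nat_lit 2) (nat_lit 258) (nat_lit 281) (nat_lit 241)))) (PT.nd (nat_lit 156) (PT.nd (nat_lit 78) (PT.lf (nat_lit 42636) (nat_lit 6) (nat_lit 561) (nat_lit 2) (nat_lit 259) (nat_lit 281) (nat_lit 240)) (PT.lf (nat_lit 42712) (nat_lit 6) (nat_lit 562) (nat_lit 2) (nat_lit 260) (nat_lit 281) (nat_lit 239))) (PT.nd (nat_lit 78) (PT.lf (nat_lit 41116) (nat_lit 6) (nat_lit 541) (nat_lit 2) (nat_lit 261) (nat_lit 281) (nat_lit 238)) (PT.lf (nat_lit 39444) (nat_lit 6) (nat_lit 519) (nat_lit 2) (nat_lit 262) (nat_lit 281) (nat_lit 237))))))))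
noncomputable def pc49 : PT := (PT.nd (nat_lit 76752) (PT.nd (nat_lit 1170) (PT.nd (nat_lit 546) (PT.nd (nat_lit 234) (PT.nd (nat_lit 78) (PT.lf (nat_lit 37696) (nat_lit 6) (nat_lit 496) (nat_lit 2) (nat_lit 263) (nat_lit 281) (nat_lit 236)) (PT.nd (nat_lit 78) (PT.lf (nat_lit 35872) (nat_lit 6) (nat_lit 472) (nat_lit 2) (nat_lit 264) (nat_lit 281) (nat_lit 235)) (PT.lf (nat_lit 34732) (nat_lit 6) (nat_lit 457) (nat_lit 2) (nat_lit 265) (nat_lit 281) (nat_lit 234)))) (PT.nd (nat_lit 156) (PT.nd (nat_lit 78) (PT.lf (nat_lit 33820) (nat_lit 6) (nat_lit 445) (nat_lit 2) (nat_lit 266) (nat_lit 281) (nat_lit 233)) (PT.lf (nat_lit 32908) (nat_lit 6) (nat_lit 433) (nat_lit 2) (nat_lit 267) (nat_lit 281) (nat_lit 232))) (PT.nd (nat_lit 78) (PT.lf (nat_lit 32072) (nat_lit 6) (nat_lit 422) (nat_lit 2) (nat_lit 268) (nat_lit 281) (nat_lit 231)) (PT.lf (nat_lit 31160) (nat_lit 6) (nat_lit 410) (nat_lit 2) (nat_lit 269) (nat_lit 281) (nat_lit 230))))) (PT.nd (nat_lit 312) (PT.nd (nat_lit 156) (PT.nd (nat_lit 78) (PT.lf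 (nat_lit 30324) (nat_lit 6) (nat_lit 399) (nat_lit 2) (nat_lit 270) (nat_lit 281) (nat_lit 229)) (PT.lf (nat_lit 29488) (nat_lit 6) (nat_lit 388) (nat_lit 2) (nat_lit 271) (nat_lit 281) (nat_lit 228))) (PT.nd (nat_lit 78) (PT.lf (nat_lit 28728) (nat_lit 6) (nat_lit 378) (nat_lit 2) (nat_lit 272) (nat_lit 281) (nat_lit 227)) (PT.lf (nat_lit 27968) (nat_lit 6) (nat_lit 368) (nat_lit 2) (nat_lit 273) (nat_lit 281) (nat_lit 226)))) (PT.nd (nat_lit 156) (PT.nd (nat_lit 78) (PT.lf (nat_lit 27208) (nat_lit 6) (nat_lit 358) (nat_lit 2) (nat_lit 274) (nat_lit 281) (nat_lit 225)) (PT.lf (nat_lit 26448) (nat_lit 6) (nat_lit 348) (nat_lit 2) (nat_lit 275) (nat_lit 281) (nat_lit 224))) (PT.nd (nat_lit 78) (PT.lf (nat_lit 25764) (nat_lit 6) (nat_lit 339) (nat_lit 2) (nat_lit 276) (nat_lit 281) (nat_lit 223)) (PT.lf (nat_lit 25080) (nat_lit 6) (nat_lit 330) (nat_lit 2) (nat_lit 277) (nat_lit 281) (nat_lit 222)))))) (PT.nd (nat_lit 624) (PT.nd (nat_lit 312) (PT.nd (nat_lit 156) (PT.nd (nat_lit 78) (PT.lf (nat_lit 24396)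 (nat_lit 6) (nat_lit 321) (nat_lit 2) (nat_lit 278) (nat_lit 281) (nat_lit 221)) (PT.lf (nat_lit 23712) (nat_lit 6) (nat_lit 312) (nat_lit 2) (nat_lit 279) (nat_lit 281) (nat_lit 220))) (PT.nd (nat_lit 78) (PT.lf (nat_lit 23104) (nat_lit 6) (nat_lit 304) (nat_lit 2) (nat_lit 280) (nat_lit 281) (nat_lit 219)) (PT.lf (nat_lit 22496) (nat_lit 3) (nat_lit 296) (nat_lit 0) (nat_lit 281) (nat_lit 281) (nat_lit 218)))) (PT.nd (nat_lit 156) (PT.nd (nat_lit 78) (PT.lf (nat_lit 21812) (nat_lit 6) (nat_lit 287) (nat_lit 0) (nat_lit 282) (nat_lit 281) (nat_lit 217)) (PT.lf (nat_lit 21128) (nat_lit 6) (nat_lit 278) (nat_lit 0) (nat_lit 283) (nat_lit 281) (nat_lit 216))) (PT.nd (nat_lit 78) (PT.lf (nat_lit 20520) (nat_lit 6) (nat_lit 270) (nat_lit 0) (nat_lit 284) (nat_lit 281) (nat_lit 215)) (PT.lf (nat_lit 19836) (nat_lit 6) (nat_lit 261) (nat_lit 0) (nat_lit 285) (nat_lit 281) (nat_lit 214))))) (PT.nd (nat_lit 312) (PT.nd (nat_lit 156) (PT.nd (nat_lit 78) (PT.lf (nat_lit 19228) (nat_lit 6) (nat_lit 253) (nat_lit 0)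 (nat_lit 286) (nat_lit 281) (nat_lit 213)) (PT.lf (nat_lit 18620) (nat_lit 6) (nat_lit 245) (nat_lit 0) (nat_lit 287) (nat_lit 281) (nat_lit 212))) (PT.nd (nat_lit 78) (PT.lf (nat_lit 18088) (nat_lit 6) (nat_lit 238) (nat_lit 0) (nat_lit 288) (nat_lit 281) (nat_lit 211)) (PT.lf (nat_lit 17480) (nat_lit 6) (nat_lit 230) (nat_lit 0) (nat_lit 289) (nat_lit 281) (nat_lit 210)))) (PT.nd (nat_lit 156) (PT.nd (nat_lit 78) (PT.lf (nat_lit 16948) (nat_lit 6) (nat_lit 223) (nat_lit 0) (nat_lit 290) (nat_lit 281) (nat_lit 209)) (PT.lf (nat_lit 16416) (nat_lit 6) (nat_lit 216) (nat_lit 0) (nat_lit 291) (nat_lit 281) (nat_lit 208))) (PT.nd (nat_lit 74412) (PT.lf (nat_lit 15884) (nat_lit 6) (nat_lit 209) (nat_lit 0) (nat_lit 292) (nat_lit 281) (nat_lit 207)) (PT.lf (nat_lit 14972) (nat_lit 6) (nat_lit 197) (nat_lit 5) (nat_lit 205) (nat_lit 282) (nat_lit 293))))))) (PT.nd (nat_lit 1248) (PT.nd (nat_lit 624) (PT.nd (nat_lit 312) (PT.nd (nat_lit 156) (PT.nd (nat_lit 78) (PT.lf (nat_lit 15428) (nat_lit 6) (nat_lit 203) (nat_lit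 5) (nat_lit 206) (nat_lit 282) (nat_lit 292)) (PT.lf (nat_lit 15960) (nat_lit 6) (nat_lit 210) (nat_lit 5) (nat_lit 207) (nat_lit 282) (nat_lit 291))) (PT.nd (nat_lit 78) (PT.lf (nat_lit 16492) (nat_lit 6) (nat_lit 217) (nat_lit 5) (nat_lit 208) (nat_lit 282) (nat_lit 290)) (PT.lf (nat_lit 17024) (nat_lit 6) (nat_lit 224) (nat_lit 5) (nat_lit 209) (nat_lit 282) (nat_lit 289)))) (PT.nd (nat_lit 156) (PT.nd (nat_lit 78) (PT.lf (nat_lit 17556) (nat_lit 6) (nat_lit 231) (nat_lit 5) (nat_lit 210) (nat_lit 282) (nat_lit 288)) (PT.lf (nat_lit 18164) (nat_lit 6) (nat_lit 239) (nat_lit 5) (nat_lit 211) (nat_lit 282) (nat_lit 287))) (PT.nd (nat_lit 78) (PT.lf (nat_lit 18696) (nat_lit 6) (nat_lit 246) (nat_lit 5) (nat_lit 212) (nat_lit 282) (nat_lit 286)) (PT.lf (nat_lit 19304) (nat_lit 6) (nat_lit 254) (nat_lit 5) (nat_lit 213) (nat_lit 282) (nat_lit 285))))) (PT.nd (nat_lit 312) (PT.nd (nat_lit 156) (PT.nd (nat_lit 78) (PT.lf (nat_lit 19912) (nat_lit 6) (nat_lit 262) (nat_lit 5) (nat_lit 214) (nat_lit 282) (nat_lit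 284)) (PT.lf (nat_lit 20596) (nat_lit 6) (nat_lit 271) (nat_lit 5) (nat_lit 215) (nat_lit 282) (nat_lit 283))) (PT.nd (nat_lit 78) (PT.lf (nat_lit 21204) (nat_lit 3) (nat_lit 279) (nat_lit 4) (nat_lit 216) (nat_lit 282) (nat_lit 282)) (PT.lf (nat_lit 21812) (nat_lit 6) (nat_lit 287) (nat_lit 4) (nat_lit 217) (nat_lit 282) (nat_lit 281)))) (PT.nd (nat_lit 156) (PT.nd (nat_lit 78) (PT.lf (nat_lit 22420) (nat_lit 6) (nat_lit 295) (nat_lit 4) (nat_lit 218) (nat_lit 282) (nat_lit 280)) (PT.lf (nat_lit 23028) (nat_lit 6) (nat_lit 303) (nat_lit 4) (nat_lit 219) (nat_lit 282) (nat_lit 279))) (PT.nd (nat_lit 78) (PT.lf (nat_lit 23636) (nat_lit 6) (nat_lit 311) (nat_lit 4) (nat_lit 220) (nat_lit 282) (nat_lit 278)) (PT.lf (nat_lit 24320) (nat_lit 6) (nat_lit 320) (nat_lit 4) (nat_lit 221) (nat_lit 282) (nat_lit 277)))))) (PT.nd (nat_lit 624) (PT.nd (nat_lit 312) (PT.nd (nat_lit 156) (PT.nd (nat_lit 78) (PT.lf (nat_lit 25004) (nat_lit 6) (nat_lit 329) (nat_lit 4) (nat_lit 222) (nat_lit 282) (nat_lit 276)) (PT.lf (nat_lit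 25688) (nat_lit 6) (nat_lit 338) (nat_lit 4) (nat_lit 223) (nat_lit 282) (nat_lit 275))) (PT.nd (nat_lit 78) (PT.lf (nat_lit 26372) (nat_lit 6) (nat_lit 347) (nat_lit 4) (nat_lit 224) (nat_lit 282) (nat_lit 274)) (PT.lf (nat_lit 27132) (nat_lit 6) (nat_lit 357) (nat_lit 4) (nat_lit 225) (nat_lit 282) (nat_lit 273)))) (PT.nd (nat_lit 156) (PT.nd (nat_lit 78) (PT.lf (nat_lit 27892) (nat_lit 6) (nat_lit 367) (nat_lit 4) (nat_lit 226) (nat_lit 282) (nat_lit 272)) (PT.lf (nat_lit 28652) (nat_lit 6) (nat_lit 377) (nat_lit 4) (nat_lit 227) (nat_lit 282) (nat_lit 271))) (PT.nd (nat_lit 78) (PT.lf (nat_lit 29412) (nat_lit 6) (nat_lit 387) (nat_lit 4) (nat_lit 228) (nat_lit 282) (nat_lit 270)) (PT.lf (nat_lit 30248) (nat_lit 6) (nat_lit 398) (nat_lit 4) (nat_lit 229) (nat_lit 282) (nat_lit 269))))) (PT.nd (nat_lit 312) (PT.nd (nat_lit 156) (PT.nd (nat_lit 78) (PT.lf (nat_lit 31084) (nat_lit 6) (nat_lit 409) (nat_lit 4) (nat_lit 230) (nat_lit 282) (nat_lit 268)) (PT.lf (nat_lit 31996) (nat_lit 6) (nat_lit 421) (nat_lit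 4) (nat_lit 231) (nat_lit 282) (nat_lit 267))) (PT.nd (nat_lit 78) (PT.lf (nat_lit 32832) (nat_lit 6) (nat_lit 432) (nat_lit 4) (nat_lit 232) (nat_lit 282) (nat_lit 266)) (PT.lf (nat_lit 33744) (nat_lit 6) (nat_lit 444) (nat_lit 4) (nat_lit 233) (nat_lit 282) (nat_lit 265)))) (PT.nd (nat_lit 156) (PT.nd (nat_lit 78) (PT.lf (nat_lit 34656) (nat_lit 6) (nat_lit 456) (nat_lit 4) (nat_lit 234) (nat_lit 282) (nat_lit 264)) (PT.lf (nat_lit 35796) (nat_lit 6) (nat_lit 471) (nat_lit 4) (nat_lit 235) (nat_lit 282) (nat_lit 263))) (PT.nd (nat_lit 78) (PT.lf (nat_lit 37620) (nat_lit 6) (nat_lit 495) (nat_lit 4) (nat_lit 236) (nat_lit 282) (nat_lit 262)) (PT.lf (nat_lit 39368) (nat_lit 6) (nat_lit 518) (nat_lit 4) (nat_lit 237) (nat_lit 282) (nat_lit 261))))))))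
noncomputable def pc50 : PT := (PT.nd (nat_lit 2418) (PT.nd (nat_lit 1170) (PT.nd (nat_lit 546) (PT.nd (nat_lit 234) (PT.nd (nat_lit 78) (PT.lf (nat_lit 41040) (nat_lit 6) (nat_lit 540) (nat_lit 4) (nat_lit 238) (nat_lit 282) (nat_lit 260)) (PT.nd (nat_lit 78) (PT.lf (nat_lit 40964) (nat_lit 6) (nat_lit 539) (nat_lit 4) (nat_lit 239) (nat_lit 282) (nat_lit 259)) (PT.lf (nat_lit 40888) (nat_lit 6) (nat_lit 538) (nat_lit 4) (nat_lit 240) (nat_lit 282) (nat_lit 258)))) (PT.nd (nat_lit 156) (PT.nd (nat_lit 78) (PT.lf (nat_lit 40812) (nat_lit 6) (nat_lit 537) (nat_lit 4) (nat_lit 241) (nat_lit 282) (nat_lit 257)) (PT.lf (nat_lit 40736) (nat_lit 6) (nat_lit 536) (nat_lit 4) (nat_lit 242) (nat_lit 282) (nat_lit 256))) (PT.nd (nat_lit 78) (PT.lf (nat_lit 40660) (nat_lit 6) (nat_lit 535) (nat_lit 4) (nat_lit 243) (nat_lit 282) (nat_lit 255)) (PT.lf (nat_lit 40584) (nat_lit 6) (nat_lit 534) (nat_lit 4) (nat_lit 244) (nat_lit 282) (nat_lit 254))))) (PT.nd (nat_lit 312) (PT.nd (nat_lit 156) (PT.nd (nat_lit 78) (PT.lf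 (nat_lit 40508) (nat_lit 6) (nat_lit 533) (nat_lit 4) (nat_lit 245) (nat_lit 282) (nat_lit 253)) (PT.lf (nat_lit 40432) (nat_lit 6) (nat_lit 532) (nat_lit 4) (nat_lit 246) (nat_lit 282) (nat_lit 252))) (PT.nd (nat_lit 78) (PT.lf (nat_lit 40356) (nat_lit 6) (nat_lit 531) (nat_lit 4) (nat_lit 247) (nat_lit 282) (nat_lit 251)) (PT.lf (nat_lit 40280) (nat_lit 6) (nat_lit 530) (nat_lit 4) (nat_lit 248) (nat_lit 282) (nat_lit 250)))) (PT.nd (nat_lit 156) (PT.nd (nat_lit 78) (PT.lf (nat_lit 40204) (nat_lit 3) (nat_lit 529) (nat_lit 2) (nat_lit 249) (nat_lit 282) (nat_lit 249)) (PT.lf (nat_lit 40280) (nat_lit 6) (nat_lit 530) (nat_lit 2) (nat_lit 250) (nat_lit 282) (nat_lit 248))) (PT.nd (nat_lit 78) (PT.lf (nat_lit 40356) (nat_lit 6) (nat_lit 531) (nat_lit 2) (nat_lit 251) (nat_lit 282) (nat_lit 247)) (PT.lf (nat_lit 40432) (nat_lit 6) (nat_lit 532) (nat_lit 2) (nat_lit 252) (nat_lit 282) (nat_lit 246)))))) (PT.nd (nat_lit 624) (PT.nd (nat_lit 312) (PT.nd (nat_lit 156) (PT.nd (nat_lit 78) (PT.lf (nat_lit 40508)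 (nat_lit 6) (nat_lit 533) (nat_lit 2) (nat_lit 253) (nat_lit 282) (nat_lit 245)) (PT.lf (nat_lit 40584) (nat_lit 6) (nat_lit 534) (nat_lit 2) (nat_lit 254) (nat_lit 282) (nat_lit 244))) (PT.nd (nat_lit 78) (PT.lf (nat_lit 40660) (nat_lit 6) (nat_lit 535) (nat_lit 2) (nat_lit 255) (nat_lit 282) (nat_lit 243)) (PT.lf (nat_lit 40736) (nat_lit 6) (nat_lit 536) (nat_lit 2) (nat_lit 256) (nat_lit 282) (nat_lit 242)))) (PT.nd (nat_lit 156) (PT.nd (nat_lit 78) (PT.lf (nat_lit 40812) (nat_lit 6) (nat_lit 537) (nat_lit 2) (nat_lit 257) (nat_lit 282) (nat_lit 241)) (PT.lf (nat_lit 40888) (nat_lit 6) (nat_lit 538) (nat_lit 2) (nat_lit 258) (nat_lit 282) (nat_lit 240))) (PT.nd (nat_lit 78) (PT.lf (nat_lit 40964) (nat_lit 6) (nat_lit 539) (nat_lit 2) (nat_lit 259) (nat_lit 282) (nat_lit 239)) (PT.lf (nat_lit 41040) (nat_lit 6) (nat_lit 540) (nat_lit 2) (nat_lit 260) (nat_lit 282) (nat_lit 238))))) (PT.nd (nat_lit 312) (PT.nd (nat_lit 156) (PT.nd (nat_lit 78) (PT.lf (nat_lit 39368) (nat_lit 6) (nat_lit 518) (nat_lit 2)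 (nat_lit 261) (nat_lit 282) (nat_lit 237)) (PT.lf (nat_lit 37620) (nat_lit 6) (nat_lit 495) (nat_lit 2) (nat_lit 262) (nat_lit 282) (nat_lit 236))) (PT.nd (nat_lit 78) (PT.lf (nat_lit 35796) (nat_lit 6) (nat_lit 471) (nat_lit 2) (nat_lit 263) (nat_lit 282) (nat_lit 235)) (PT.lf (nat_lit 34656) (nat_lit 6) (nat_lit 456) (nat_lit 2) (nat_lit 264) (nat_lit 282) (nat_lit 234)))) (PT.nd (nat_lit 156) (PT.nd (nat_lit 78) (PT.lf (nat_lit 33744) (nat_lit 6) (nat_lit 444) (nat_lit 2) (nat_lit 265) (nat_lit 282) (nat_lit 233)) (PT.lf (nat_lit 32832) (nat_lit 6) (nat_lit 432) (nat_lit 2) (nat_lit 266) (nat_lit 282) (nat_lit 232))) (PT.nd (nat_lit 78) (PT.lf (nat_lit 31996) (nat_lit 6) (nat_lit 421) (nat_lit 2) (nat_lit 267) (nat_lit 282) (nat_lit 231)) (PT.lf (nat_lit 31084) (nat_lit 6) (nat_lit 409) (nat_lit 2) (nat_lit 268) (nat_lit 282) (nat_lit 230))))))) (PT.nd (nat_lit 1248) (PT.nd (nat_lit 624) (PT.nd (nat_lit 312) (PT.nd (nat_lit 156) (PT.nd (nat_lit 78) (PT.lf (nat_lit 30248) (nat_lit 6) (nat_lit 398) (nat_lit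 2) (nat_lit 269) (nat_lit 282) (nat_lit 229)) (PT.lf (nat_lit 29412) (nat_lit 6) (nat_lit 387) (nat_lit 2) (nat_lit 270) (nat_lit 282) (nat_lit 228))) (PT.nd (nat_lit 78) (PT.lf (nat_lit 28652) (nat_lit 6) (nat_lit 377) (nat_lit 2) (nat_lit 271) (nat_lit 282) (nat_lit 227)) (PT.lf (nat_lit 27892) (nat_lit 6) (nat_lit 367) (nat_lit 2) (nat_lit 272) (nat_lit 282) (nat_lit 226)))) (PT.nd (nat_lit 156) (PT.nd (nat_lit 78) (PT.lf (nat_lit 27132) (nat_lit 6) (nat_lit 357) (nat_lit 2) (nat_lit 273) (nat_lit 282) (nat_lit 225)) (PT.lf (nat_lit 26372) (nat_lit 6) (nat_lit 347) (nat_lit 2) (nat_lit 274) (nat_lit 282) (nat_lit 224))) (PT.nd (nat_lit 78) (PT.lf (nat_lit 25688) (nat_lit 6) (nat_lit 338) (nat_lit 2) (nat_lit 275) (nat_lit 282) (nat_lit 223)) (PT.lf (nat_lit 25004) (nat_lit 6) (nat_lit 329) (nat_lit 2) (nat_lit 276) (nat_lit 282) (nat_lit 222))))) (PT.nd (nat_lit 312) (PT.nd (nat_lit 156) (PT.nd (nat_lit 78) (PT.lf (nat_lit 24320) (nat_lit 6) (nat_lit 320) (nat_lit 2) (nat_lit 277) (nat_lit 282) (nat_lit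 221)) (PT.lf (nat_lit 23636) (nat_lit 6) (nat_lit 311) (nat_lit 2) (nat_lit 278) (nat_lit 282) (nat_lit 220))) (PT.nd (nat_lit 78) (PT.lf (nat_lit 23028) (nat_lit 6) (nat_lit 303) (nat_lit 2) (nat_lit 279) (nat_lit 282) (nat_lit 219)) (PT.lf (nat_lit 22420) (nat_lit 6) (nat_lit 295) (nat_lit 2) (nat_lit 280) (nat_lit 282) (nat_lit 218)))) (PT.nd (nat_lit 156) (PT.nd (nat_lit 78) (PT.lf (nat_lit 21812) (nat_lit 6) (nat_lit 287) (nat_lit 2) (nat_lit 281) (nat_lit 282) (nat_lit 217)) (PT.lf (nat_lit 21204) (nat_lit 3) (nat_lit 279) (nat_lit 0) (nat_lit 282) (nat_lit 282) (nat_lit 216))) (PT.nd (nat_lit 78) (PT.lf (nat_lit 20596) (nat_lit 6) (nat_lit 271) (nat_lit 0) (nat_lit 283) (nat_lit 282) (nat_lit 215)) (PT.lf (nat_lit 19912) (nat_lit 6) (nat_lit 262) (nat_lit 0) (nat_lit 284) (nat_lit 282) (nat_lit 214)))))) (PT.nd (nat_lit 624) (PT.nd (nat_lit 312) (PT.nd (nat_lit 156) (PT.nd (nat_lit 78) (PT.lf (nat_lit 19304) (nat_lit 6) (nat_lit 254) (nat_lit 0) (nat_lit 285) (nat_lit 282) (nat_lit 213)) (PT.lf (nat_lit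 18696) (nat_lit 6) (nat_lit 246) (nat_lit 0) (nat_lit 286) (nat_lit 282) (nat_lit 212))) (PT.nd (nat_lit 78) (PT.lf (nat_lit 18164) (nat_lit 6) (nat_lit 239) (nat_lit 0) (nat_lit 287) (nat_lit 282) (nat_lit 211)) (PT.lf (nat_lit 17556) (nat_lit 6) (nat_lit 231) (nat_lit 0) (nat_lit 288) (nat_lit 282) (nat_lit 210)))) (PT.nd (nat_lit 156) (PT.nd (nat_lit 78) (PT.lf (nat_lit 17024) (nat_lit 6) (nat_lit 224) (nat_lit 0) (nat_lit 289) (nat_lit 282) (nat_lit 209)) (PT.lf (nat_lit 16492) (nat_lit 6) (nat_lit 217) (nat_lit 0) (nat_lit 290) (nat_lit 282) (nat_lit 208))) (PT.nd (nat_lit 78) (PT.lf (nat_lit 15960) (nat_lit 6) (nat_lit 210) (nat_lit 0) (nat_lit 291) (nat_lit 282) (nat_lit 207)) (PT.lf (nat_lit 15428) (nat_lit 6) (nat_lit 203) (nat_lit 0) (nat_lit 292) (nat_lit 282) (nat_lit 206))))) (PT.nd (nat_lit 74490) (PT.nd (nat_lit 74334) (PT.nd (nat_lit 74256) (PT.lf (nat_lit 14972) (nat_lit 6) (nat_lit 197) (nat_lit 0) (nat_lit 293) (nat_lit 282) (nat_lit 205)) (PT.lf (nat_lit 14516) (nat_lit 6) (nat_lit 191)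 (nat_lit 5) (nat_lit 204) (nat_lit 283) (nat_lit 293))) (PT.nd (nat_lit 78) (PT.lf (nat_lit 15048) (nat_lit 6) (nat_lit 198) (nat_lit 5) (nat_lit 205) (nat_lit 283) (nat_lit 292)) (PT.lf (nat_lit 15504) (nat_lit 6) (nat_lit 204) (nat_lit 5) (nat_lit 206) (nat_lit 283) (nat_lit 291)))) (PT.nd (nat_lit 156) (PT.nd (nat_lit 78) (PT.lf (nat_lit 16036) (nat_lit 6) (nat_lit 211) (nat_lit 5) (nat_lit 207) (nat_lit 283) (nat_lit 290)) (PT.lf (nat_lit 16568) (nat_lit 6) (nat_lit 218) (nat_lit 5) (nat_lit 208) (nat_lit 283) (nat_lit 289))) (PT.nd (nat_lit 78) (PT.lf (nat_lit 17100) (nat_lit 6) (nat_lit 225) (nat_lit 5) (nat_lit 209) (nat_lit 283) (nat_lit 288)) (PT.lf (nat_lit 17632) (nat_lit 6) (nat_lit 232) (nat_lit 5) (nat_lit 210) (nat_lit 283) (nat_lit 287))))))))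
noncomputable def pc51 : PT := (PT.nd (nat_lit 2418) (PT.nd (nat_lit 1170) (PT.nd (nat_lit 546) (PT.nd (nat_lit 234) (PT.nd (nat_lit 78) (PT.lf (nat_lit 18240) (nat_lit 6) (nat_lit 240) (nat_lit 5) (nat_lit 211) (nat_lit 283) (nat_lit 286)) (PT.nd (nat_lit 78) (PT.lf (nat_lit 18772) (nat_lit 6) (nat_lit 247) (nat_lit 5) (nat_lit 212) (nat_lit 283) (nat_lit 285)) (PT.lf (nat_lit 19380) (nat_lit 6) (nat_lit 255) (nat_lit 5) (nat_lit 213) (nat_lit 283) (nat_lit 284)))) (PT.nd (nat_lit 156) (PT.nd (nat_lit 78) (PT.lf (nat_lit 19988) (nat_lit 3) (nat_lit 263) (nat_lit 4) (nat_lit 214) (nat_lit 283) (nat_lit 283)) (PT.lf (nat_lit 20596) (nat_lit 6) (nat_lit 271) (nat_lit 4) (nat_lit 215) (nat_lit 283) (nat_lit 282))) (PT.nd (nat_lit 78) (PT.lf (nat_lit 21128) (nat_lit 6) (nat_lit 278) (nat_lit 4) (nat_lit 216) (nat_lit 283) (nat_lit 281)) (PT.lf (nat_lit 21736) (nat_lit 6) (nat_lit 286) (nat_lit 4) (nat_lit 217) (nat_lit 283) (nat_lit 280))))) (PT.nd (nat_lit 312) (PT.nd (nat_lit 156) (PT.nd (nat_lit 78) (PT.lf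 (nat_lit 22344) (nat_lit 6) (nat_lit 294) (nat_lit 4) (nat_lit 218) (nat_lit 283) (nat_lit 279)) (PT.lf (nat_lit 22952) (nat_lit 6) (nat_lit 302) (nat_lit 4) (nat_lit 219) (nat_lit 283) (nat_lit 278))) (PT.nd (nat_lit 78) (PT.lf (nat_lit 23560) (nat_lit 6) (nat_lit 310) (nat_lit 4) (nat_lit 220) (nat_lit 283) (nat_lit 277)) (PT.lf (nat_lit 24244) (nat_lit 6) (nat_lit 319) (nat_lit 4) (nat_lit 221) (nat_lit 283) (nat_lit 276)))) (PT.nd (nat_lit 156) (PT.nd (nat_lit 78) (PT.lf (nat_lit 24928) (nat_lit 6) (nat_lit 328) (nat_lit 4) (nat_lit 222) (nat_lit 283) (nat_lit 275)) (PT.lf (nat_lit 25612) (nat_lit 6) (nat_lit 337) (nat_lit 4) (nat_lit 223) (nat_lit 283) (nat_lit 274))) (PT.nd (nat_lit 78) (PT.lf (nat_lit 26296) (nat_lit 6) (nat_lit 346) (nat_lit 4) (nat_lit 224) (nat_lit 283) (nat_lit 273)) (PT.lf (nat_lit 27056) (nat_lit 6) (nat_lit 356) (nat_lit 4) (nat_lit 225) (nat_lit 283) (nat_lit 272)))))) (PT.nd (nat_lit 624) (PT.nd (nat_lit 312) (PT.nd (nat_lit 156) (PT.nd (nat_lit 78) (PT.lf (nat_lit 27816)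 (nat_lit 6) (nat_lit 366) (nat_lit 4) (nat_lit 226) (nat_lit 283) (nat_lit 271)) (PT.lf (nat_lit 28576) (nat_lit 6) (nat_lit 376) (nat_lit 4) (nat_lit 227) (nat_lit 283) (nat_lit 270))) (PT.nd (nat_lit 78) (PT.lf (nat_lit 29336) (nat_lit 6) (nat_lit 386) (nat_lit 4) (nat_lit 228) (nat_lit 283) (nat_lit 269)) (PT.lf (nat_lit 30172) (nat_lit 6) (nat_lit 397) (nat_lit 4) (nat_lit 229) (nat_lit 283) (nat_lit 268)))) (PT.nd (nat_lit 156) (PT.nd (nat_lit 78) (PT.lf (nat_lit 31008) (nat_lit 6) (nat_lit 408) (nat_lit 4) (nat_lit 230) (nat_lit 283) (nat_lit 267)) (PT.lf (nat_lit 31920) (nat_lit 6) (nat_lit 420) (nat_lit 4) (nat_lit 231) (nat_lit 283) (nat_lit 266))) (PT.nd (nat_lit 78) (PT.lf (nat_lit 32756) (nat_lit 6) (nat_lit 431) (nat_lit 4) (nat_lit 232) (nat_lit 283) (nat_lit 265)) (PT.lf (nat_lit 33668) (nat_lit 6) (nat_lit 443) (nat_lit 4) (nat_lit 233) (nat_lit 283) (nat_lit 264))))) (PT.nd (nat_lit 312) (PT.nd (nat_lit 156) (PT.nd (nat_lit 78) (PT.lf (nat_lit 34580) (nat_lit 6) (nat_lit 455) (nat_lit 4)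 (nat_lit 234) (nat_lit 283) (nat_lit 263)) (PT.lf (nat_lit 35720) (nat_lit 6) (nat_lit 470) (nat_lit 4) (nat_lit 235) (nat_lit 283) (nat_lit 262))) (PT.nd (nat_lit 78) (PT.lf (nat_lit 37544) (nat_lit 6) (nat_lit 494) (nat_lit 4) (nat_lit 236) (nat_lit 283) (nat_lit 261)) (PT.lf (nat_lit 39292) (nat_lit 6) (nat_lit 517) (nat_lit 4) (nat_lit 237) (nat_lit 283) (nat_lit 260)))) (PT.nd (nat_lit 156) (PT.nd (nat_lit 78) (PT.lf (nat_lit 39216) (nat_lit 6) (nat_lit 516) (nat_lit 4) (nat_lit 238) (nat_lit 283) (nat_lit 259)) (PT.lf (nat_lit 39140) (nat_lit 6) (nat_lit 515) (nat_lit 4) (nat_lit 239) (nat_lit 283) (nat_lit 258))) (PT.nd (nat_lit 78) (PT.lf (nat_lit 39064) (nat_lit 6) (nat_lit 514) (nat_lit 4) (nat_lit 240) (nat_lit 283) (nat_lit 257)) (PT.lf (nat_lit 38988) (nat_lit 6) (nat_lit 513) (nat_lit 4) (nat_lit 241) (nat_lit 283) (nat_lit 256))))))) (PT.nd (nat_lit 1248) (PT.nd (nat_lit 624) (PT.nd (nat_lit 312) (PT.nd (nat_lit 156) (PT.nd (nat_lit 78) (PT.lf (nat_lit 38912) (nat_lit 6) (nat_lit 512) (nat_lit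 4) (nat_lit 242) (nat_lit 283) (nat_lit 255)) (PT.lf (nat_lit 38836) (nat_lit 6) (nat_lit 511) (nat_lit 4) (nat_lit 243) (nat_lit 283) (nat_lit 254))) (PT.nd (nat_lit 78) (PT.lf (nat_lit 38760) (nat_lit 6) (nat_lit 510) (nat_lit 4) (nat_lit 244) (nat_lit 283) (nat_lit 253)) (PT.lf (nat_lit 38684) (nat_lit 6) (nat_lit 509) (nat_lit 4) (nat_lit 245) (nat_lit 283) (nat_lit 252)))) (PT.nd (nat_lit 156) (PT.nd (nat_lit 78) (PT.lf (nat_lit 38608) (nat_lit 6) (nat_lit 508) (nat_lit 4) (nat_lit 246) (nat_lit 283) (nat_lit 251)) (PT.lf (nat_lit 38532) (nat_lit 6) (nat_lit 507) (nat_lit 4) (nat_lit 247) (nat_lit 283) (nat_lit 250))) (PT.nd (nat_lit 78) (PT.lf (nat_lit 38456) (nat_lit 6) (nat_lit 506) (nat_lit 4) (nat_lit 248) (nat_lit 283) (nat_lit 249)) (PT.lf (nat_lit 38456) (nat_lit 6) (nat_lit 506) (nat_lit 2) (nat_lit 249) (nat_lit 283) (nat_lit 248))))) (PT.nd (nat_lit 312) (PT.nd (nat_lit 156) (PT.nd (nat_lit 78) (PT.lf (nat_lit 38532) (nat_lit 6) (nat_lit 507) (nat_lit 2) (nat_lit 250) (nat_lit 283) (nat_lit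 247)) (PT.lf (nat_lit 38608) (nat_lit 6) (nat_lit 508) (nat_lit 2) (nat_lit 251) (nat_lit 283) (nat_lit 246))) (PT.nd (nat_lit 78) (PT.lf (nat_lit 38684) (nat_lit 6) (nat_lit 509) (nat_lit 2) (nat_lit 252) (nat_lit 283) (nat_lit 245)) (PT.lf (nat_lit 38760) (nat_lit 6) (nat_lit 510) (nat_lit 2) (nat_lit 253) (nat_lit 283) (nat_lit 244)))) (PT.nd (nat_lit 156) (PT.nd (nat_lit 78) (PT.lf (nat_lit 38836) (nat_lit 6) (nat_lit 511) (nat_lit 2) (nat_lit 254) (nat_lit 283) (nat_lit 243)) (PT.lf (nat_lit 38912) (nat_lit 6) (nat_lit 512) (nat_lit 2) (nat_lit 255) (nat_lit 283) (nat_lit 242))) (PT.nd (nat_lit 78) (PT.lf (nat_lit 38988) (nat_lit 6) (nat_lit 513) (nat_lit 2) (nat_lit 256) (nat_lit 283) (nat_lit 241)) (PT.lf (nat_lit 39064) (nat_lit 6) (nat_lit 514) (nat_lit 2) (nat_lit 257) (nat_lit 283) (nat_lit 240)))))) (PT.nd (nat_lit 624) (PT.nd (nat_lit 312) (PT.nd (nat_lit 156) (PT.nd (nat_lit 78) (PT.lf (nat_lit 39140) (nat_lit 6) (nat_lit 515) (nat_lit 2) (nat_lit 258) (nat_lit 283) (nat_lit 239)) (PT.lf (nat_lit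 39216) (nat_lit 6) (nat_lit 516) (nat_lit 2) (nat_lit 259) (nat_lit 283) (nat_lit 238))) (PT.nd (nat_lit 78) (PT.lf (nat_lit 39292) (nat_lit 6) (nat_lit 517) (nat_lit 2) (nat_lit 260) (nat_lit 283) (nat_lit 237)) (PT.lf (nat_lit 37544) (nat_lit 6) (nat_lit 494) (nat_lit 2) (nat_lit 261) (nat_lit 283) (nat_lit 236)))) (PT.nd (nat_lit 156) (PT.nd (nat_lit 78) (PT.lf (nat_lit 35720) (nat_lit 6) (nat_lit 470) (nat_lit 2) (nat_lit 262) (nat_lit 283) (nat_lit 235)) (PT.lf (nat_lit 34580) (nat_lit 6) (nat_lit 455) (nat_lit 2) (nat_lit 263) (nat_lit 283) (nat_lit 234))) (PT.nd (nat_lit 78) (PT.lf (nat_lit 33668) (nat_lit 6) (nat_lit 443) (nat_lit 2) (nat_lit 264) (nat_lit 283) (nat_lit 233)) (PT.lf (nat_lit 32756) (nat_lit 6) (nat_lit 431) (nat_lit 2) (nat_lit 265) (nat_lit 283) (nat_lit 232))))) (PT.nd (nat_lit 312) (PT.nd (nat_lit 156) (PT.nd (nat_lit 78) (PT.lf (nat_lit 31920) (nat_lit 6) (nat_lit 420) (nat_lit 2) (nat_lit 266) (nat_lit 283) (nat_lit 231)) (PT.lf (nat_lit 31008) (nat_lit 6) (nat_lit 408) (nat_lit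 2) (nat_lit 267) (nat_lit 283) (nat_lit 230))) (PT.nd (nat_lit 78) (PT.lf (nat_lit 30172) (nat_lit 6) (nat_lit 397) (nat_lit 2) (nat_lit 268) (nat_lit 283) (nat_lit 229)) (PT.lf (nat_lit 29336) (nat_lit 6) (nat_lit 386) (nat_lit 2) (nat_lit 269) (nat_lit 283) (nat_lit 228)))) (PT.nd (nat_lit 156) (PT.nd (nat_lit 78) (PT.lf (nat_lit 28576) (nat_lit 6) (nat_lit 376) (nat_lit 2) (nat_lit 270) (nat_lit 283) (nat_lit 227)) (PT.lf (nat_lit 27816) (nat_lit 6) (nat_lit 366) (nat_lit 2) (nat_lit 271) (nat_lit 283) (nat_lit 226))) (PT.nd (nat_lit 78) (PT.lf (nat_lit 27056) (nat_lit 6) (nat_lit 356) (nat_lit 2) (nat_lit 272) (nat_lit 283) (nat_lit 225)) (PT.lf (nat_lit 26296) (nat_lit 6) (nat_lit 346) (nat_lit 2) (nat_lit 273) (nat_lit 283) (nat_lit 224))))))))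
noncomputable def pc52 : PT := (PT.nd (nat_lit 76440) (PT.nd (nat_lit 1170) (PT.nd (nat_lit 546) (PT.nd (nat_lit 234) (PT.nd (nat_lit 78) (PT.lf (nat_lit 25612) (nat_lit 6) (nat_lit 337) (nat_lit 2) (nat_lit 274) (nat_lit 283) (nat_lit 223)) (PT.nd (nat_lit 78) (PT.lf (nat_lit 24928) (nat_lit 6) (nat_lit 328) (nat_lit 2) (nat_lit 275) (nat_lit 283) (nat_lit 222)) (PT.lf (nat_lit 24244) (nat_lit 6) (nat_lit 319) (nat_lit 2) (nat_lit 276) (nat_lit 283) (nat_lit 221)))) (PT.nd (nat_lit 156) (PT.nd (nat_lit 78) (PT.lf (nat_lit 23560) (nat_lit 6) (nat_lit 310) (nat_lit 2) (nat_lit 277) (nat_lit 283) (nat_lit 220)) (PT.lf (nat_lit 22952) (nat_lit 6) (nat_lit 302) (nat_lit 2) (nat_lit 278) (nat_lit 283) (nat_lit 219))) (PT.nd (nat_lit 78) (PT.lf (nat_lit 22344) (nat_lit 6) (nat_lit 294) (nat_lit 2) (nat_lit 279) (nat_lit 283) (nat_lit 218)) (PT.lf (nat_lit 21736) (nat_lit 6) (nat_lit 286) (nat_lit 2) (nat_lit 280) (nat_lit 283) (nat_lit 217))))) (PT.nd (nat_lit 312) (PT.nd (nat_lit 156) (PT.nd (nat_lit 78) (PT.lf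 (nat_lit 21128) (nat_lit 6) (nat_lit 278) (nat_lit 2) (nat_lit 281) (nat_lit 283) (nat_lit 216)) (PT.lf (nat_lit 20596) (nat_lit 6) (nat_lit 271) (nat_lit 2) (nat_lit 282) (nat_lit 283) (nat_lit 215))) (PT.nd (nat_lit 78) (PT.lf (nat_lit 19988) (nat_lit 3) (nat_lit 263) (nat_lit 0) (nat_lit 283) (nat_lit 283) (nat_lit 214)) (PT.lf (nat_lit 19380) (nat_lit 6) (nat_lit 255) (nat_lit 0) (nat_lit 284) (nat_lit 283) (nat_lit 213)))) (PT.nd (nat_lit 156) (PT.nd (nat_lit 78) (PT.lf (nat_lit 18772) (nat_lit 6) (nat_lit 247) (nat_lit 0) (nat_lit 285) (nat_lit 283) (nat_lit 212)) (PT.lf (nat_lit 18240) (nat_lit 6) (nat_lit 240) (nat_lit 0) (nat_lit 286) (nat_lit 283) (nat_lit 211))) (PT.nd (nat_lit 78) (PT.lf (nat_lit 17632) (nat_lit 6) (nat_lit 232) (nat_lit 0) (nat_lit 287) (nat_lit 283) (nat_lit 210)) (PT.lf (nat_lit 17100) (nat_lit 6) (nat_lit 225) (nat_lit 0) (nat_lit 288) (nat_lit 283) (nat_lit 209)))))) (PT.nd (nat_lit 74646) (PT.nd (nat_lit 312) (PT.nd (nat_lit 156) (PT.nd (nat_lit 78) (PT.lf (nat_lit 16568)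 (nat_lit 6) (nat_lit 218) (nat_lit 0) (nat_lit 289) (nat_lit 283) (nat_lit 208)) (PT.lf (nat_lit 16036) (nat_lit 6) (nat_lit 211) (nat_lit 0) (nat_lit 290) (nat_lit 283) (nat_lit 207))) (PT.nd (nat_lit 78) (PT.lf (nat_lit 15504) (nat_lit 6) (nat_lit 204) (nat_lit 0) (nat_lit 291) (nat_lit 283) (nat_lit 206)) (PT.lf (nat_lit 15048) (nat_lit 6) (nat_lit 198) (nat_lit 0) (nat_lit 292) (nat_lit 283) (nat_lit 205)))) (PT.nd (nat_lit 74178) (PT.nd (nat_lit 74100) (PT.lf (nat_lit 14516) (nat_lit 6) (nat_lit 191) (nat_lit 0) (nat_lit 293) (nat_lit 283) (nat_lit 204)) (PT.lf (nat_lit 13680) (nat_lit 6) (nat_lit 180) (nat_lit 5) (nat_lit 202) (nat_lit 284) (nat_lit 294))) (PT.nd (nat_lit 78) (PT.lf (nat_lit 14136) (nat_lit 6) (nat_lit 186) (nat_lit 5) (nat_lit 203) (nat_lit 284) (nat_lit 293)) (PT.lf (nat_lit 14592) (nat_lit 6) (nat_lit 192) (nat_lit 5) (nat_lit 204) (nat_lit 284) (nat_lit 292))))) (PT.nd (nat_lit 312) (PT.nd (nat_lit 156) (PT.nd (nat_lit 78) (PT.lf (nat_lit 15124) (nat_lit 6) (nat_lit 199) (nat_lit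 5) (nat_lit 205) (nat_lit 284) (nat_lit 291)) (PT.lf (nat_lit 15580) (nat_lit 6) (nat_lit 205) (nat_lit 5) (nat_lit 206) (nat_lit 284) (nat_lit 290))) (PT.nd (nat_lit 78) (PT.lf (nat_lit 16112) (nat_lit 6) (nat_lit 212) (nat_lit 5) (nat_lit 207) (nat_lit 284) (nat_lit 289)) (PT.lf (nat_lit 16644) (nat_lit 6) (nat_lit 219) (nat_lit 5) (nat_lit 208) (nat_lit 284) (nat_lit 288)))) (PT.nd (nat_lit 156) (PT.nd (nat_lit 78) (PT.lf (nat_lit 17176) (nat_lit 6) (nat_lit 226) (nat_lit 5) (nat_lit 209) (nat_lit 284) (nat_lit 287)) (PT.lf (nat_lit 17708) (nat_lit 6) (nat_lit 233) (nat_lit 5) (nat_lit 210) (nat_lit 284) (nat_lit 286))) (PT.nd (nat_lit 78) (PT.lf (nat_lit 18316) (nat_lit 6) (nat_lit 241) (nat_lit 5) (nat_lit 211) (nat_lit 284) (nat_lit 285)) (PT.lf (nat_lit 18848) (nat_lit 3) (nat_lit 248) (nat_lit 4) (nat_lit 212) (nat_lit 284) (nat_lit 284))))))) (PT.nd (nat_lit 1170) (PT.nd (nat_lit 546) (PT.nd (nat_lit 234) (PT.nd (nat_lit 78) (PT.lf (nat_lit 19380) (nat_lit 6) (nat_lit 255) (nat_lit 4) (nat_lit 213)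 (nat_lit 284) (nat_lit 283)) (PT.nd (nat_lit 78) (PT.lf (nat_lit 19912) (nat_lit 6) (nat_lit 262) (nat_lit 4) (nat_lit 214) (nat_lit 284) (nat_lit 282)) (PT.lf (nat_lit 20520) (nat_lit 6) (nat_lit 270) (nat_lit 4) (nat_lit 215) (nat_lit 284) (nat_lit 281)))) (PT.nd (nat_lit 156) (PT.nd (nat_lit 78) (PT.lf (nat_lit 21052) (nat_lit 6) (nat_lit 277) (nat_lit 4) (nat_lit 216) (nat_lit 284) (nat_lit 280)) (PT.lf (nat_lit 21660) (nat_lit 6) (nat_lit 285) (nat_lit 4) (nat_lit 217) (nat_lit 284) (nat_lit 279))) (PT.nd (nat_lit 78) (PT.lf (nat_lit 22268) (nat_lit 6) (nat_lit 293) (nat_lit 4) (nat_lit 218) (nat_lit 284) (nat_lit 278)) (PT.lf (nat_lit 22876) (nat_lit 6) (nat_lit 301) (nat_lit 4) (nat_lit 219) (nat_lit 284) (nat_lit 277))))) (PT.nd (nat_lit 312) (PT.nd (nat_lit 156) (PT.nd (nat_lit 78) (PT.lf (nat_lit 23484) (nat_lit 6) (nat_lit 309) (nat_lit 4) (nat_lit 220) (nat_lit 284) (nat_lit 276)) (PT.lf (nat_lit 24168) (nat_lit 6) (nat_lit 318) (nat_lit 4) (nat_lit 221) (nat_lit 284) (nat_lit 275))) (PT.nd (nat_lit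 78) (PT.lf (nat_lit 24852) (nat_lit 6) (nat_lit 327) (nat_lit 4) (nat_lit 222) (nat_lit 284) (nat_lit 274)) (PT.lf (nat_lit 25536) (nat_lit 6) (nat_lit 336) (nat_lit 4) (nat_lit 223) (nat_lit 284) (nat_lit 273)))) (PT.nd (nat_lit 156) (PT.nd (nat_lit 78) (PT.lf (nat_lit 26220) (nat_lit 6) (nat_lit 345) (nat_lit 4) (nat_lit 224) (nat_lit 284) (nat_lit 272)) (PT.lf (nat_lit 26980) (nat_lit 6) (nat_lit 355) (nat_lit 4) (nat_lit 225) (nat_lit 284) (nat_lit 271))) (PT.nd (nat_lit 78) (PT.lf (nat_lit 27740) (nat_lit 6) (nat_lit 365) (nat_lit 4) (nat_lit 226) (nat_lit 284) (nat_lit 270)) (PT.lf (nat_lit 28500) (nat_lit 6) (nat_lit 375) (nat_lit 4) (nat_lit 227) (nat_lit 284) (nat_lit 269)))))) (PT.nd (nat_lit 624) (PT.nd (nat_lit 312) (PT.nd (nat_lit 156) (PT.nd (nat_lit 78) (PT.lf (nat_lit 29260) (nat_lit 6) (nat_lit 385) (nat_lit 4) (nat_lit 228) (nat_lit 284) (nat_lit 268)) (PT.lf (nat_lit 30096) (nat_lit 6) (nat_lit 396) (nat_lit 4) (nat_lit 229) (nat_lit 284) (nat_lit 267))) (PT.nd (nat_lit 78) (PT.lf (nat_lit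 30932) (nat_lit 6) (nat_lit 407) (nat_lit 4) (nat_lit 230) (nat_lit 284) (nat_lit 266)) (PT.lf (nat_lit 31844) (nat_lit 6) (nat_lit 419) (nat_lit 4) (nat_lit 231) (nat_lit 284) (nat_lit 265)))) (PT.nd (nat_lit 156) (PT.nd (nat_lit 78) (PT.lf (nat_lit 32680) (nat_lit 6) (nat_lit 430) (nat_lit 4) (nat_lit 232) (nat_lit 284) (nat_lit 264)) (PT.lf (nat_lit 33592) (nat_lit 6) (nat_lit 442) (nat_lit 4) (nat_lit 233) (nat_lit 284) (nat_lit 263))) (PT.nd (nat_lit 78) (PT.lf (nat_lit 34504) (nat_lit 6) (nat_lit 454) (nat_lit 4) (nat_lit 234) (nat_lit 284) (nat_lit 262)) (PT.lf (nat_lit 35644) (nat_lit 6) (nat_lit 469) (nat_lit 4) (nat_lit 235) (nat_lit 284) (nat_lit 261))))) (PT.nd (nat_lit 312) (PT.nd (nat_lit 156) (PT.nd (nat_lit 78) (PT.lf (nat_lit 37468) (nat_lit 6) (nat_lit 493) (nat_lit 4) (nat_lit 236) (nat_lit 284) (nat_lit 260)) (PT.lf (nat_lit 37392) (nat_lit 6) (nat_lit 492) (nat_lit 4) (nat_lit 237) (nat_lit 284) (nat_lit 259))) (PT.nd (nat_lit 78) (PT.lf (nat_lit 37316) (nat_lit 6) (nat_lit 491) (nat_lit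 4) (nat_lit 238) (nat_lit 284) (nat_lit 258)) (PT.lf (nat_lit 37240) (nat_lit 6) (nat_lit 490) (nat_lit 4) (nat_lit 239) (nat_lit 284) (nat_lit 257)))) (PT.nd (nat_lit 156) (PT.nd (nat_lit 78) (PT.lf (nat_lit 37164) (nat_lit 6) (nat_lit 489) (nat_lit 4) (nat_lit 240) (nat_lit 284) (nat_lit 256)) (PT.lf (nat_lit 37088) (nat_lit 6) (nat_lit 488) (nat_lit 4) (nat_lit 241) (nat_lit 284) (nat_lit 255))) (PT.nd (nat_lit 78) (PT.lf (nat_lit 37012) (nat_lit 6) (nat_lit 487) (nat_lit 4) (nat_lit 242) (nat_lit 284) (nat_lit 254)) (PT.lf (nat_lit 36936) (nat_lit 6) (nat_lit 486) (nat_lit 4) (nat_lit 243) (nat_lit 284) (nat_lit 253))))))))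
noncomputable def pc53 : PT := (PT.nd (nat_lit 2418) (PT.nd (nat_lit 1170) (PT.nd (nat_lit 546) (PT.nd (nat_lit 234) (PT.nd (nat_lit 78) (PT.lf (nat_lit 36860) (nat_lit 6) (nat_lit 485) (nat_lit 4) (nat_lit 244) (nat_lit 284) (nat_lit 252)) (PT.nd (nat_lit 78) (PT.lf (nat_lit 36784) (nat_lit 6) (nat_lit 484) (nat_lit 4) (nat_lit 245) (nat_lit 284) (nat_lit 251)) (PT.lf (nat_lit 36708) (nat_lit 6) (nat_lit 483) (nat_lit 4) (nat_lit 246) (nat_lit 284) (nat_lit 250)))) (PT.nd (nat_lit 156) (PT.nd (nat_lit 78) (PT.lf (nat_lit 36632) (nat_lit 6) (nat_lit 482) (nat_lit 4) (nat_lit 247) (nat_lit 284) (nat_lit 249)) (PT.lf (nat_lit 36556) (nat_lit 3) (nat_lit 481) (nat_lit 2) (nat_lit 248) (nat_lit 284) (nat_lit 248))) (PT.nd (nat_lit 78) (PT.lf (nat_lit 36632) (nat_lit 6) (nat_lit 482) (nat_lit 2) (nat_lit 249) (nat_lit 284) (nat_lit 247)) (PT.lf (nat_lit 36708) (nat_lit 6) (nat_lit 483) (nat_lit 2) (nat_lit 250) (nat_lit 284) (nat_lit 246))))) (PT.nd (nat_lit 312) (PT.nd (nat_lit 156) (PT.nd (nat_lit 78) (PT.lf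 (nat_lit 36784) (nat_lit 6) (nat_lit 484) (nat_lit 2) (nat_lit 251) (nat_lit 284) (nat_lit 245)) (PT.lf (nat_lit 36860) (nat_lit 6) (nat_lit 485) (nat_lit 2) (nat_lit 252) (nat_lit 284) (nat_lit 244))) (PT.nd (nat_lit 78) (PT.lf (nat_lit 36936) (nat_lit 6) (nat_lit 486) (nat_lit 2) (nat_lit 253) (nat_lit 284) (nat_lit 243)) (PT.lf (nat_lit 37012) (nat_lit 6) (nat_lit 487) (nat_lit 2) (nat_lit 254) (nat_lit 284) (nat_lit 242)))) (PT.nd (nat_lit 156) (PT.nd (nat_lit 78) (PT.lf (nat_lit 37088) (nat_lit 6) (nat_lit 488) (nat_lit 2) (nat_lit 255) (nat_lit 284) (nat_lit 241)) (PT.lf (nat_lit 37164) (nat_lit 6) (nat_lit 489) (nat_lit 2) (nat_lit 256) (nat_lit 284) (nat_lit 240))) (PT.nd (nat_lit 78) (PT.lf (nat_lit 37240) (nat_lit 6) (nat_lit 490) (nat_lit 2) (nat_lit 257) (nat_lit 284) (nat_lit 239)) (PT.lf (nat_lit 37316) (nat_lit 6) (nat_lit 491) (nat_lit 2) (nat_lit 258) (nat_lit 284) (nat_lit 238)))))) (PT.nd (nat_lit 624) (PT.nd (nat_lit 312) (PT.nd (nat_lit 156) (PT.nd (nat_lit 78) (PT.lf (nat_lit 37392)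 (nat_lit 6) (nat_lit 492) (nat_lit 2) (nat_lit 259) (nat_lit 284) (nat_lit 237)) (PT.lf (nat_lit 37468) (nat_lit 6) (nat_lit 493) (nat_lit 2) (nat_lit 260) (nat_lit 284) (nat_lit 236))) (PT.nd (nat_lit 78) (PT.lf (nat_lit 35644) (nat_lit 6) (nat_lit 469) (nat_lit 2) (nat_lit 261) (nat_lit 284) (nat_lit 235)) (PT.lf (nat_lit 34504) (nat_lit 6) (nat_lit 454) (nat_lit 2) (nat_lit 262) (nat_lit 284) (nat_lit 234)))) (PT.nd (nat_lit 156) (PT.nd (nat_lit 78) (PT.lf (nat_lit 33592) (nat_lit 6) (nat_lit 442) (nat_lit 2) (nat_lit 263) (nat_lit 284) (nat_lit 233)) (PT.lf (nat_lit 32680) (nat_lit 6) (nat_lit 430) (nat_lit 2) (nat_lit 264) (nat_lit 284) (nat_lit 232))) (PT.nd (nat_lit 78) (PT.lf (nat_lit 31844) (nat_lit 6) (nat_lit 419) (nat_lit 2) (nat_lit 265) (nat_lit 284) (nat_lit 231)) (PT.lf (nat_lit 30932) (nat_lit 6) (nat_lit 407) (nat_lit 2) (nat_lit 266) (nat_lit 284) (nat_lit 230))))) (PT.nd (nat_lit 312) (PT.nd (nat_lit 156) (PT.nd (nat_lit 78) (PT.lf (nat_lit 30096) (nat_lit 6) (nat_lit 396) (nat_lit 2)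 (nat_lit 267) (nat_lit 284) (nat_lit 229)) (PT.lf (nat_lit 29260) (nat_lit 6) (nat_lit 385) (nat_lit 2) (nat_lit 268) (nat_lit 284) (nat_lit 228))) (PT.nd (nat_lit 78) (PT.lf (nat_lit 28500) (nat_lit 6) (nat_lit 375) (nat_lit 2) (nat_lit 269) (nat_lit 284) (nat_lit 227)) (PT.lf (nat_lit 27740) (nat_lit 6) (nat_lit 365) (nat_lit 2) (nat_lit 270) (nat_lit 284) (nat_lit 226)))) (PT.nd (nat_lit 156) (PT.nd (nat_lit 78) (PT.lf (nat_lit 26980) (nat_lit 6) (nat_lit 355) (nat_lit 2) (nat_lit 271) (nat_lit 284) (nat_lit 225)) (PT.lf (nat_lit 26220) (nat_lit 6) (nat_lit 345) (nat_lit 2) (nat_lit 272) (nat_lit 284) (nat_lit 224))) (PT.nd (nat_lit 78) (PT.lf (nat_lit 25536) (nat_lit 6) (nat_lit 336) (nat_lit 2) (nat_lit 273) (nat_lit 284) (nat_lit 223)) (PT.lf (nat_lit 24852) (nat_lit 6) (nat_lit 327) (nat_lit 2) (nat_lit 274) (nat_lit 284) (nat_lit 222))))))) (PT.nd (nat_lit 1248) (PT.nd (nat_lit 624) (PT.nd (nat_lit 312) (PT.nd (nat_lit 156) (PT.nd (nat_lit 78) (PT.lf (nat_lit 24168) (nat_lit 6) (nat_lit 318) (nat_lit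 2) (nat_lit 275) (nat_lit 284) (nat_lit 221)) (PT.lf (nat_lit 23484) (nat_lit 6) (nat_lit 309) (nat_lit 2) (nat_lit 276) (nat_lit 284) (nat_lit 220))) (PT.nd (nat_lit 78) (PT.lf (nat_lit 22876) (nat_lit 6) (nat_lit 301) (nat_lit 2) (nat_lit 277) (nat_lit 284) (nat_lit 219)) (PT.lf (nat_lit 22268) (nat_lit 6) (nat_lit 293) (nat_lit 2) (nat_lit 278) (nat_lit 284) (nat_lit 218)))) (PT.nd (nat_lit 156) (PT.nd (nat_lit 78) (PT.lf (nat_lit 21660) (nat_lit 6) (nat_lit 285) (nat_lit 2) (nat_lit 279) (nat_lit 284) (nat_lit 217)) (PT.lf (nat_lit 21052) (nat_lit 6) (nat_lit 277) (nat_lit 2) (nat_lit 280) (nat_lit 284) (nat_lit 216))) (PT.nd (nat_lit 78) (PT.lf (nat_lit 20520) (nat_lit 6) (nat_lit 270) (nat_lit 2) (nat_lit 281) (nat_lit 284) (nat_lit 215)) (PT.lf (nat_lit 19912) (nat_lit 6) (nat_lit 262) (nat_lit 2) (nat_lit 282) (nat_lit 284) (nat_lit 214))))) (PT.nd (nat_lit 312) (PT.nd (nat_lit 156) (PT.nd (nat_lit 78) (PT.lf (nat_lit 19380) (nat_lit 6) (nat_lit 255) (nat_lit 2) (nat_lit 283) (nat_lit 284) (nat_lit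 213)) (PT.lf (nat_lit 18848) (nat_lit 3) (nat_lit 248) (nat_lit 0) (nat_lit 284) (nat_lit 284) (nat_lit 212))) (PT.nd (nat_lit 78) (PT.lf (nat_lit 18316) (nat_lit 6) (nat_lit 241) (nat_lit 0) (nat_lit 285) (nat_lit 284) (nat_lit 211)) (PT.lf (nat_lit 17708) (nat_lit 6) (nat_lit 233) (nat_lit 0) (nat_lit 286) (nat_lit 284) (nat_lit 210)))) (PT.nd (nat_lit 156) (PT.nd (nat_lit 78) (PT.lf (nat_lit 17176) (nat_lit 6) (nat_lit 226) (nat_lit 0) (nat_lit 287) (nat_lit 284) (nat_lit 209)) (PT.lf (nat_lit 16644) (nat_lit 6) (nat_lit 219) (nat_lit 0) (nat_lit 288) (nat_lit 284) (nat_lit 208))) (PT.nd (nat_lit 78) (PT.lf (nat_lit 16112) (nat_lit 6) (nat_lit 212) (nat_lit 0) (nat_lit 289) (nat_lit 284) (nat_lit 207)) (PT.lf (nat_lit 15580) (nat_lit 6) (nat_lit 205) (nat_lit 0) (nat_lit 290) (nat_lit 284) (nat_lit 206)))))) (PT.nd (nat_lit 74412) (PT.nd (nat_lit 74100) (PT.nd (nat_lit 156) (PT.nd (nat_lit 78) (PT.lf (nat_lit 15124) (nat_lit 6) (nat_lit 199) (nat_lit 0) (nat_lit 291) (nat_lit 284) (nat_lit 205)) (PT.lf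 (nat_lit 14592) (nat_lit 6) (nat_lit 192) (nat_lit 0) (nat_lit 292) (nat_lit 284) (nat_lit 204))) (PT.nd (nat_lit 78) (PT.lf (nat_lit 14136) (nat_lit 6) (nat_lit 186) (nat_lit 0) (nat_lit 293) (nat_lit 284) (nat_lit 203)) (PT.lf (nat_lit 13680) (nat_lit 6) (nat_lit 180) (nat_lit 0) (nat_lit 294) (nat_lit 284) (nat_lit 202)))) (PT.nd (nat_lit 156) (PT.nd (nat_lit 78) (PT.lf (nat_lit 12844) (nat_lit 6) (nat_lit 169) (nat_lit 5) (nat_lit 200) (nat_lit 285) (nat_lit 295)) (PT.lf (nat_lit 13300) (nat_lit 6) (nat_lit 175) (nat_lit 5) (nat_lit 201) (nat_lit 285) (nat_lit 294))) (PT.nd (nat_lit 78) (PT.lf (nat_lit 13756) (nat_lit 6) (nat_lit 181) (nat_lit 5) (nat_lit 202) (nat_lit 285) (nat_lit 293)) (PT.lf (nat_lit 14212) (nat_lit 6) (nat_lit 187) (nat_lit 5) (nat_lit 203) (nat_lit 285) (nat_lit 292))))) (PT.nd (nat_lit 312) (PT.nd (nat_lit 156) (PT.nd (nat_lit 78) (PT.lf (nat_lit 14668) (nat_lit 6) (nat_lit 193) (nat_lit 5) (nat_lit 204) (nat_lit 285) (nat_lit 291)) (PT.lf (nat_lit 15200) (nat_lit 6) (nat_lit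 200) (nat_lit 5) (nat_lit 205) (nat_lit 285) (nat_lit 290))) (PT.nd (nat_lit 78) (PT.lf (nat_lit 15656) (nat_lit 6) (nat_lit 206) (nat_lit 5) (nat_lit 206) (nat_lit 285) (nat_lit 289)) (PT.lf (nat_lit 16188) (nat_lit 6) (nat_lit 213) (nat_lit 5) (nat_lit 207) (nat_lit 285) (nat_lit 288)))) (PT.nd (nat_lit 156) (PT.nd (nat_lit 78) (PT.lf (nat_lit 16720) (nat_lit 6) (nat_lit 220) (nat_lit 5) (nat_lit 208) (nat_lit 285) (nat_lit 287)) (PT.lf (nat_lit 17252) (nat_lit 6) (nat_lit 227) (nat_lit 5) (nat_lit 209) (nat_lit 285) (nat_lit 286))) (PT.nd (nat_lit 78) (PT.lf (nat_lit 17784) (nat_lit 3) (nat_lit 234) (nat_lit 4) (nat_lit 210) (nat_lit 285) (nat_lit 285)) (PT.lf (nat_lit 18316) (nat_lit 6) (nat_lit 241) (nat_lit 4) (nat_lit 211) (nat_lit 285) (nat_lit 284))))))))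
noncomputable def pc54 : PT := (PT.nd (nat_lit 3978) (PT.nd (nat_lit 1170) (PT.nd (nat_lit 546) (PT.nd (nat_lit 234) (PT.nd (nat_lit 78) (PT.lf (nat_lit 18772) (nat_lit 6) (nat_lit 247) (nat_lit 4) (nat_lit 212) (nat_lit 285) (nat_lit 283)) (PT.nd (nat_lit 78) (PT.lf (nat_lit 19304) (nat_lit 6) (nat_lit 254) (nat_lit 4) (nat_lit 213) (nat_lit 285) (nat_lit 282)) (PT.lf (nat_lit 19836) (nat_lit 6) (nat_lit 261) (nat_lit 4) (nat_lit 214) (nat_lit 285) (nat_lit 281)))) (PT.nd (nat_lit 156) (PT.nd (nat_lit 78) (PT.lf (nat_lit 20444) (nat_lit 6) (nat_lit 269) (nat_lit 4) (nat_lit 215) (nat_lit 285) (nat_lit 280)) (PT.lf (nat_lit 20976) (nat_lit 6) (nat_lit 276) (nat_lit 4) (nat_lit 216) (nat_lit 285) (nat_lit 279))) (PT.nd (nat_lit 78) (PT.lf (nat_lit 21584) (nat_lit 6) (nat_lit 284) (nat_lit 4) (nat_lit 217) (nat_lit 285) (nat_lit 278)) (PT.lf (nat_lit 22192) (nat_lit 6) (nat_lit 292) (nat_lit 4) (nat_lit 218) (nat_lit 285) (nat_lit 277))))) (PT.nd (nat_lit 312) (PT.nd (nat_lit 156) (PT.nd (nat_lit 78) (PT.lf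 (nat_lit 22800) (nat_lit 6) (nat_lit 300) (nat_lit 4) (nat_lit 219) (nat_lit 285) (nat_lit 276)) (PT.lf (nat_lit 23408) (nat_lit 6) (nat_lit 308) (nat_lit 4) (nat_lit 220) (nat_lit 285) (nat_lit 275))) (PT.nd (nat_lit 78) (PT.lf (nat_lit 24092) (nat_lit 6) (nat_lit 317) (nat_lit 4) (nat_lit 221) (nat_lit 285) (nat_lit 274)) (PT.lf (nat_lit 24776) (nat_lit 6) (nat_lit 326) (nat_lit 4) (nat_lit 222) (nat_lit 285) (nat_lit 273)))) (PT.nd (nat_lit 156) (PT.nd (nat_lit 78) (PT.lf (nat_lit 25460) (nat_lit 6) (nat_lit 335) (nat_lit 4) (nat_lit 223) (nat_lit 285) (nat_lit 272)) (PT.lf (nat_lit 26144) (nat_lit 6) (nat_lit 344) (nat_lit 4) (nat_lit 224) (nat_lit 285) (nat_lit 271))) (PT.nd (nat_lit 78) (PT.lf (nat_lit 26904) (nat_lit 6) (nat_lit 354) (nat_lit 4) (nat_lit 225) (nat_lit 285) (nat_lit 270)) (PT.lf (nat_lit 27664) (nat_lit 6) (nat_lit 364) (nat_lit 4) (nat_lit 226) (nat_lit 285) (nat_lit 269)))))) (PT.nd (nat_lit 624) (PT.nd (nat_lit 312) (PT.nd (nat_lit 156) (PT.nd (nat_lit 78) (PT.lf (nat_lit 28424)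 (nat_lit 6) (nat_lit 374) (nat_lit 4) (nat_lit 227) (nat_lit 285) (nat_lit 268)) (PT.lf (nat_lit 29184) (nat_lit 6) (nat_lit 384) (nat_lit 4) (nat_lit 228) (nat_lit 285) (nat_lit 267))) (PT.nd (nat_lit 78) (PT.lf (nat_lit 30020) (nat_lit 6) (nat_lit 395) (nat_lit 4) (nat_lit 229) (nat_lit 285) (nat_lit 266)) (PT.lf (nat_lit 30856) (nat_lit 6) (nat_lit 406) (nat_lit 4) (nat_lit 230) (nat_lit 285) (nat_lit 265)))) (PT.nd (nat_lit 156) (PT.nd (nat_lit 78) (PT.lf (nat_lit 31768) (nat_lit 6) (nat_lit 418) (nat_lit 4) (nat_lit 231) (nat_lit 285) (nat_lit 264)) (PT.lf (nat_lit 32604) (nat_lit 6) (nat_lit 429) (nat_lit 4) (nat_lit 232) (nat_lit 285) (nat_lit 263))) (PT.nd (nat_lit 78) (PT.lf (nat_lit 33516) (nat_lit 6) (nat_lit 441) (nat_lit 4) (nat_lit 233) (nat_lit 285) (nat_lit 262)) (PT.lf (nat_lit 34428) (nat_lit 6) (nat_lit 453) (nat_lit 4) (nat_lit 234) (nat_lit 285) (nat_lit 261))))) (PT.nd (nat_lit 1872) (PT.nd (nat_lit 156) (PT.nd (nat_lit 78) (PT.lf (nat_lit 35568) (nat_lit 6) (nat_lit 468) (nat_lit 4)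 (nat_lit 235) (nat_lit 285) (nat_lit 260)) (PT.lf (nat_lit 35492) (nat_lit 6) (nat_lit 467) (nat_lit 4) (nat_lit 236) (nat_lit 285) (nat_lit 259))) (PT.nd (nat_lit 1638) (PT.lf (nat_lit 35416) (nat_lit 6) (nat_lit 466) (nat_lit 4) (nat_lit 237) (nat_lit 285) (nat_lit 258)) (PT.lf (nat_lit 35416) (nat_lit 6) (nat_lit 466) (nat_lit 2) (nat_lit 258) (nat_lit 285) (nat_lit 237)))) (PT.nd (nat_lit 156) (PT.nd (nat_lit 78) (PT.lf (nat_lit 35492) (nat_lit 6) (nat_lit 467) (nat_lit 2) (nat_lit 259) (nat_lit 285) (nat_lit 236)) (PT.lf (nat_lit 35568) (nat_lit 6) (nat_lit 468) (nat_lit 2) (nat_lit 260) (nat_lit 285) (nat_lit 235))) (PT.nd (nat_lit 78) (PT.lf (nat_lit 34428) (nat_lit 6) (nat_lit 453) (nat_lit 2) (nat_lit 261) (nat_lit 285) (nat_lit 234)) (PT.lf (nat_lit 33516) (nat_lit 6) (nat_lit 441) (nat_lit 2) (nat_lit 262) (nat_lit 285) (nat_lit 233))))))) (PT.nd (nat_lit 1248) (PT.nd (nat_lit 624) (PT.nd (nat_lit 312) (PT.nd (nat_lit 156) (PT.nd (nat_lit 78) (PT.lf (nat_lit 32604) (nat_lit 6) (nat_lit 429) (nat_lit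 2) (nat_lit 263) (nat_lit 285) (nat_lit 232)) (PT.lf (nat_lit 31768) (nat_lit 6) (nat_lit 418) (nat_lit 2) (nat_lit 264) (nat_lit 285) (nat_lit 231))) (PT.nd (nat_lit 78) (PT.lf (nat_lit 30856) (nat_lit 6) (nat_lit 406) (nat_lit 2) (nat_lit 265) (nat_lit 285) (nat_lit 230)) (PT.lf (nat_lit 30020) (nat_lit 6) (nat_lit 395) (nat_lit 2) (nat_lit 266) (nat_lit 285) (nat_lit 229)))) (PT.nd (nat_lit 156) (PT.nd (nat_lit 78) (PT.lf (nat_lit 29184) (nat_lit 6) (nat_lit 384) (nat_lit 2) (nat_lit 267) (nat_lit 285) (nat_lit 228)) (PT.lf (nat_lit 28424) (nat_lit 6) (nat_lit 374) (nat_lit 2) (nat_lit 268) (nat_lit 285) (nat_lit 227))) (PT.nd (nat_lit 78) (PT.lf (nat_lit 27664) (nat_lit 6) (nat_lit 364) (nat_lit 2) (nat_lit 269) (nat_lit 285) (nat_lit 226)) (PT.lf (nat_lit 26904) (nat_lit 6) (nat_lit 354) (nat_lit 2) (nat_lit 270) (nat_lit 285) (nat_lit 225))))) (PT.nd (nat_lit 312) (PT.nd (nat_lit 156) (PT.nd (nat_lit 78) (PT.lf (nat_lit 26144) (nat_lit 6) (nat_lit 344) (nat_lit 2) (nat_lit 271) (nat_lit 285) (nat_lit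 224)) (PT.lf (nat_lit 25460) (nat_lit 6) (nat_lit 335) (nat_lit 2) (nat_lit 272) (nat_lit 285) (nat_lit 223))) (PT.nd (nat_lit 78) (PT.lf (nat_lit 24776) (nat_lit 6) (nat_lit 326) (nat_lit 2) (nat_lit 273) (nat_lit 285) (nat_lit 222)) (PT.lf (nat_lit 24092) (nat_lit 6) (nat_lit 317) (nat_lit 2) (nat_lit 274) (nat_lit 285) (nat_lit 221)))) (PT.nd (nat_lit 156) (PT.nd (nat_lit 78) (PT.lf (nat_lit 23408) (nat_lit 6) (nat_lit 308) (nat_lit 2) (nat_lit 275) (nat_lit 285) (nat_lit 220)) (PT.lf (nat_lit 22800) (nat_lit 6) (nat_lit 300) (nat_lit 2) (nat_lit 276) (nat_lit 285) (nat_lit 219))) (PT.nd (nat_lit 78) (PT.lf (nat_lit 22192) (nat_lit 6) (nat_lit 292) (nat_lit 2) (nat_lit 277) (nat_lit 285) (nat_lit 218)) (PT.lf (nat_lit 21584) (nat_lit 6) (nat_lit 284) (nat_lit 2) (nat_lit 278) (nat_lit 285) (nat_lit 217)))))) (PT.nd (nat_lit 624) (PT.nd (nat_lit 312) (PT.nd (nat_lit 156) (PT.nd (nat_lit 78) (PT.lf (nat_lit 20976) (nat_lit 6) (nat_lit 276) (nat_lit 2) (nat_lit 279) (nat_lit 285) (nat_lit 216)) (PT.lf (nat_lit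 20444) (nat_lit 6) (nat_lit 269) (nat_lit 2) (nat_lit 280) (nat_lit 285) (nat_lit 215))) (PT.nd (nat_lit 78) (PT.lf (nat_lit 19836) (nat_lit 6) (nat_lit 261) (nat_lit 2) (nat_lit 281) (nat_lit 285) (nat_lit 214)) (PT.lf (nat_lit 19304) (nat_lit 6) (nat_lit 254) (nat_lit 2) (nat_lit 282) (nat_lit 285) (nat_lit 213)))) (PT.nd (nat_lit 156) (PT.nd (nat_lit 78) (PT.lf (nat_lit 18772) (nat_lit 6) (nat_lit 247) (nat_lit 2) (nat_lit 283) (nat_lit 285) (nat_lit 212)) (PT.lf (nat_lit 18316) (nat_lit 6) (nat_lit 241) (nat_lit 2) (nat_lit 284) (nat_lit 285) (nat_lit 211))) (PT.nd (nat_lit 78) (PT.lf (nat_lit 17784) (nat_lit 3) (nat_lit 234) (nat_lit 0) (nat_lit 285) (nat_lit 285) (nat_lit 210)) (PT.lf (nat_lit 17252) (nat_lit 6) (nat_lit 227) (nat_lit 0) (nat_lit 286) (nat_lit 285) (nat_lit 209))))) (PT.nd (nat_lit 312) (PT.nd (nat_lit 156) (PT.nd (nat_lit 78) (PT.lf (nat_lit 16720) (nat_lit 6) (nat_lit 220) (nat_lit 0) (nat_lit 287) (nat_lit 285) (nat_lit 208)) (PT.lf (nat_lit 16188) (nat_lit 6) (nat_lit 213) (nat_lit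 0) (nat_lit 288) (nat_lit 285) (nat_lit 207))) (PT.nd (nat_lit 78) (PT.lf (nat_lit 15656) (nat_lit 6) (nat_lit 206) (nat_lit 0) (nat_lit 289) (nat_lit 285) (nat_lit 206)) (PT.lf (nat_lit 15200) (nat_lit 6) (nat_lit 200) (nat_lit 0) (nat_lit 290) (nat_lit 285) (nat_lit 205)))) (PT.nd (nat_lit 156) (PT.nd (nat_lit 78) (PT.lf (nat_lit 14668) (nat_lit 6) (nat_lit 193) (nat_lit 0) (nat_lit 291) (nat_lit 285) (nat_lit 204)) (PT.lf (nat_lit 14212) (nat_lit 6) (nat_lit 187) (nat_lit 0) (nat_lit 292) (nat_lit 285) (nat_lit 203))) (PT.nd (nat_lit 78) (PT.lf (nat_lit 13756) (nat_lit 6) (nat_lit 181) (nat_lit 0) (nat_lit 293) (nat_lit 285) (nat_lit 202)) (PT.lf (nat_lit 13300) (nat_lit 6) (nat_lit 175) (nat_lit 0) (nat_lit 294) (nat_lit 285) (nat_lit 201))))))))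
noncomputable def pc55 : PT := (PT.nd (nat_lit 76050) (PT.nd (nat_lit 74802) (PT.nd (nat_lit 74178) (PT.nd (nat_lit 73866) (PT.nd (nat_lit 73710) (PT.lf (nat_lit 12844) (nat_lit 6) (nat_lit 169) (nat_lit 0) (nat_lit 295) (nat_lit 285) (nat_lit 200)) (PT.nd (nat_lit 78) (PT.lf (nat_lit 12464) (nat_lit 6) (nat_lit 164) (nat_lit 5) (nat_lit 199) (nat_lit 286) (nat_lit 295)) (PT.lf (nat_lit 12920) (nat_lit 6) (nat_lit 170) (nat_lit 5) (nat_lit 200) (nat_lit 286) (nat_lit 294)))) (PT.nd (nat_lit 156) (PT.nd (nat_lit 78) (PT.lf (nat_lit 13376) (nat_lit 6) (nat_lit 176) (nat_lit 5) (nat_lit 201) (nat_lit 286) (nat_lit 293)) (PT.lf (nat_lit 13832) (nat_lit 6) (nat_lit 182) (nat_lit 5) (nat_lit 202) (nat_lit 286) (nat_lit 292))) (PT.nd (nat_lit 78) (PT.lf (nat_lit 14288) (nat_lit 6) (nat_lit 188) (nat_lit 5) (nat_lit 203) (nat_lit 286) (nat_lit 291)) (PT.lf (nat_lit 14744) (nat_lit 6) (nat_lit 194) (nat_lit 5) (nat_lit 204) (nat_lit 286) (nat_lit 290))))) (PT.nd (nat_lit 312) (PT.nd (nat_lit 156) (PT.nd (nat_lit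 78) (PT.lf (nat_lit 15276) (nat_lit 6) (nat_lit 201) (nat_lit 5) (nat_lit 205) (nat_lit 286) (nat_lit 289)) (PT.lf (nat_lit 15732) (nat_lit 6) (nat_lit 207) (nat_lit 5) (nat_lit 206) (nat_lit 286) (nat_lit 288))) (PT.nd (nat_lit 78) (PT.lf (nat_lit 16264) (nat_lit 6) (nat_lit 214) (nat_lit 5) (nat_lit 207) (nat_lit 286) (nat_lit 287)) (PT.lf (nat_lit 16796) (nat_lit 3) (nat_lit 221) (nat_lit 4) (nat_lit 208) (nat_lit 286) (nat_lit 286)))) (PT.nd (nat_lit 156) (PT.nd (nat_lit 78) (PT.lf (nat_lit 17252) (nat_lit 6) (nat_lit 227) (nat_lit 4) (nat_lit 209) (nat_lit 286) (nat_lit 285)) (PT.lf (nat_lit 17708) (nat_lit 6) (nat_lit 233) (nat_lit 4) (nat_lit 210) (nat_lit 286) (nat_lit 284))) (PT.nd (nat_lit 78) (PT.lf (nat_lit 18240) (nat_lit 6) (nat_lit 240) (nat_lit 4) (nat_lit 211) (nat_lit 286) (nat_lit 283)) (PT.lf (nat_lit 18696) (nat_lit 6) (nat_lit 246) (nat_lit 4) (nat_lit 212) (nat_lit 286) (nat_lit 282)))))) (PT.nd (nat_lit 624) (PT.nd (nat_lit 312) (PT.nd (nat_lit 156) (PT.nd (nat_lit 78) (PT.lf (nat_lit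 19228) (nat_lit 6) (nat_lit 253) (nat_lit 4) (nat_lit 213) (nat_lit 286) (nat_lit 281)) (PT.lf (nat_lit 19760) (nat_lit 6) (nat_lit 260) (nat_lit 4) (nat_lit 214) (nat_lit 286) (nat_lit 280))) (PT.nd (nat_lit 78) (PT.lf (nat_lit 20368) (nat_lit 6) (nat_lit 268) (nat_lit 4) (nat_lit 215) (nat_lit 286) (nat_lit 279)) (PT.lf (nat_lit 20900) (nat_lit 6) (nat_lit 275) (nat_lit 4) (nat_lit 216) (nat_lit 286) (nat_lit 278)))) (PT.nd (nat_lit 156) (PT.nd (nat_lit 78) (PT.lf (nat_lit 21508) (nat_lit 6) (nat_lit 283) (nat_lit 4) (nat_lit 217) (nat_lit 286) (nat_lit 277)) (PT.lf (nat_lit 22116) (nat_lit 6) (nat_lit 291) (nat_lit 4) (nat_lit 218) (nat_lit 286) (nat_lit 276))) (PT.nd (nat_lit 78) (PT.lf (nat_lit 22724) (nat_lit 6) (nat_lit 299) (nat_lit 4) (nat_lit 219) (nat_lit 286) (nat_lit 275)) (PT.lf (nat_lit 23332) (nat_lit 6) (nat_lit 307) (nat_lit 4) (nat_lit 220) (nat_lit 286) (nat_lit 274))))) (PT.nd (nat_lit 312) (PT.nd (nat_lit 156) (PT.nd (nat_lit 78) (PT.lf (nat_lit 24016) (nat_lit 6) (nat_lit 316) (nat_lit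 4) (nat_lit 221) (nat_lit 286) (nat_lit 273)) (PT.lf (nat_lit 24700) (nat_lit 6) (nat_lit 325) (nat_lit 4) (nat_lit 222) (nat_lit 286) (nat_lit 272))) (PT.nd (nat_lit 78) (PT.lf (nat_lit 25384) (nat_lit 6) (nat_lit 334) (nat_lit 4) (nat_lit 223) (nat_lit 286) (nat_lit 271)) (PT.lf (nat_lit 26068) (nat_lit 6) (nat_lit 343) (nat_lit 4) (nat_lit 224) (nat_lit 286) (nat_lit 270)))) (PT.nd (nat_lit 156) (PT.nd (nat_lit 78) (PT.lf (nat_lit 26828) (nat_lit 6) (nat_lit 353) (nat_lit 4) (nat_lit 225) (nat_lit 286) (nat_lit 269)) (PT.lf (nat_lit 27588) (nat_lit 6) (nat_lit 363) (nat_lit 4) (nat_lit 226) (nat_lit 286) (nat_lit 268))) (PT.nd (nat_lit 78) (PT.lf (nat_lit 28348) (nat_lit 6) (nat_lit 373) (nat_lit 4) (nat_lit 227) (nat_lit 286) (nat_lit 267)) (PT.lf (nat_lit 29108) (nat_lit 6) (nat_lit 383) (nat_lit 4) (nat_lit 228) (nat_lit 286) (nat_lit 266))))))) (PT.nd (nat_lit 3822) (PT.nd (nat_lit 3198) (PT.nd (nat_lit 2886) (PT.nd (nat_lit 2730) (PT.nd (nat_lit 78) (PT.lf (nat_lit 29944) (nat_lit 6) (nat_lit 394)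 (nat_lit 4) (nat_lit 229) (nat_lit 286) (nat_lit 265)) (PT.lf (nat_lit 30780) (nat_lit 6) (nat_lit 405) (nat_lit 4) (nat_lit 230) (nat_lit 286) (nat_lit 264))) (PT.nd (nat_lit 78) (PT.lf (nat_lit 30780) (nat_lit 6) (nat_lit 405) (nat_lit 2) (nat_lit 264) (nat_lit 286) (nat_lit 230)) (PT.lf (nat_lit 29944) (nat_lit 6) (nat_lit 394) (nat_lit 2) (nat_lit 265) (nat_lit 286) (nat_lit 229)))) (PT.nd (nat_lit 156) (PT.nd (nat_lit 78) (PT.lf (nat_lit 29108) (nat_lit 6) (nat_lit 383) (nat_lit 2) (nat_lit 266) (nat_lit 286) (nat_lit 228)) (PT.lf (nat_lit 28348) (nat_lit 6) (nat_lit 373) (nat_lit 2) (nat_lit 267) (nat_lit 286) (nat_lit 227))) (PT.nd (nat_lit 78) (PT.lf (nat_lit 27588) (nat_lit 6) (nat_lit 363) (nat_lit 2) (nat_lit 268) (nat_lit 286) (nat_lit 226)) (PT.lf (nat_lit 26828) (nat_lit 6) (nat_lit 353) (nat_lit 2) (nat_lit 269) (nat_lit 286) (nat_lit 225))))) (PT.nd (nat_lit 312) (PT.nd (nat_lit 156) (PT.nd (nat_lit 78) (PT.lf (nat_lit 26068) (nat_lit 6) (nat_lit 343) (nat_lit 2) (nat_lit 270) (nat_lit 286)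 (nat_lit 224)) (PT.lf (nat_lit 25384) (nat_lit 6) (nat_lit 334) (nat_lit 2) (nat_lit 271) (nat_lit 286) (nat_lit 223))) (PT.nd (nat_lit 78) (PT.lf (nat_lit 24700) (nat_lit 6) (nat_lit 325) (nat_lit 2) (nat_lit 272) (nat_lit 286) (nat_lit 222)) (PT.lf (nat_lit 24016) (nat_lit 6) (nat_lit 316) (nat_lit 2) (nat_lit 273) (nat_lit 286) (nat_lit 221)))) (PT.nd (nat_lit 156) (PT.nd (nat_lit 78) (PT.lf (nat_lit 23332) (nat_lit 6) (nat_lit 307) (nat_lit 2) (nat_lit 274) (nat_lit 286) (nat_lit 220)) (PT.lf (nat_lit 22724) (nat_lit 6) (nat_lit 299) (nat_lit 2) (nat_lit 275) (nat_lit 286) (nat_lit 219))) (PT.nd (nat_lit 78) (PT.lf (nat_lit 22116) (nat_lit 6) (nat_lit 291) (nat_lit 2) (nat_lit 276) (nat_lit 286) (nat_lit 218)) (PT.lf (nat_lit 21508) (nat_lit 6) (nat_lit 283) (nat_lit 2) (nat_lit 277) (nat_lit 286) (nat_lit 217)))))) (PT.nd (nat_lit 624) (PT.nd (nat_lit 312) (PT.nd (nat_lit 156) (PT.nd (nat_lit 78) (PT.lf (nat_lit 20900) (nat_lit 6) (nat_lit 275) (nat_lit 2) (nat_lit 278) (nat_lit 286) (nat_lit 216))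 (PT.lf (nat_lit 20368) (nat_lit 6) (nat_lit 268) (nat_lit 2) (nat_lit 279) (nat_lit 286) (nat_lit 215))) (PT.nd (nat_lit 78) (PT.lf (nat_lit 19760) (nat_lit 6) (nat_lit 260) (nat_lit 2) (nat_lit 280) (nat_lit 286) (nat_lit 214)) (PT.lf (nat_lit 19228) (nat_lit 6) (nat_lit 253) (nat_lit 2) (nat_lit 281) (nat_lit 286) (nat_lit 213)))) (PT.nd (nat_lit 156) (PT.nd (nat_lit 78) (PT.lf (nat_lit 18696) (nat_lit 6) (nat_lit 246) (nat_lit 2) (nat_lit 282) (nat_lit 286) (nat_lit 212)) (PT.lf (nat_lit 18240) (nat_lit 6) (nat_lit 240) (nat_lit 2) (nat_lit 283) (nat_lit 286) (nat_lit 211))) (PT.nd (nat_lit 78) (PT.lf (nat_lit 17708) (nat_lit 6) (nat_lit 233) (nat_lit 2) (nat_lit 284) (nat_lit 286) (nat_lit 210)) (PT.lf (nat_lit 17252) (nat_lit 6) (nat_lit 227) (nat_lit 2) (nat_lit 285) (nat_lit 286) (nat_lit 209))))) (PT.nd (nat_lit 312) (PT.nd (nat_lit 156) (PT.nd (nat_lit 78) (PT.lf (nat_lit 16796) (nat_lit 3) (nat_lit 221) (nat_lit 0) (nat_lit 286) (nat_lit 286) (nat_lit 208)) (PT.lf (nat_lit 16264) (nat_lit 6) (nat_lit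 214) (nat_lit 0) (nat_lit 287) (nat_lit 286) (nat_lit 207))) (PT.nd (nat_lit 78) (PT.lf (nat_lit 15732) (nat_lit 6) (nat_lit 207) (nat_lit 0) (nat_lit 288) (nat_lit 286) (nat_lit 206)) (PT.lf (nat_lit 15276) (nat_lit 6) (nat_lit 201) (nat_lit 0) (nat_lit 289) (nat_lit 286) (nat_lit 205)))) (PT.nd (nat_lit 156) (PT.nd (nat_lit 78) (PT.lf (nat_lit 14744) (nat_lit 6) (nat_lit 194) (nat_lit 0) (nat_lit 290) (nat_lit 286) (nat_lit 204)) (PT.lf (nat_lit 14288) (nat_lit 6) (nat_lit 188) (nat_lit 0) (nat_lit 291) (nat_lit 286) (nat_lit 203))) (PT.nd (nat_lit 78) (PT.lf (nat_lit 13832) (nat_lit 6) (nat_lit 182) (nat_lit 0) (nat_lit 292) (nat_lit 286) (nat_lit 202)) (PT.lf (nat_lit 13376) (nat_lit 6) (nat_lit 176) (nat_lit 0) (nat_lit 293) (nat_lit 286) (nat_lit 201))))))))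
noncomputable def pc56 : PT := (PT.nd (nat_lit 75894) (PT.nd (nat_lit 74646) (PT.nd (nat_lit 74022) (PT.nd (nat_lit 73710) (PT.nd (nat_lit 78) (PT.lf (nat_lit 12920) (nat_lit 6) (nat_lit 170) (nat_lit 0) (nat_lit 294) (nat_lit 286) (nat_lit 200)) (PT.nd (nat_lit 73554) (PT.lf (nat_lit 12464) (nat_lit 6) (nat_lit 164) (nat_lit 0) (nat_lit 295) (nat_lit 286) (nat_lit 199)) (PT.lf (nat_lit 11704) (nat_lit 6) (nat_lit 154) (nat_lit 5) (nat_lit 197) (nat_lit 287) (nat_lit 296)))) (PT.nd (nat_lit 156) (PT.nd (nat_lit 78) (PT.lf (nat_lit 12084) (nat_lit 6) (nat_lit 159) (nat_lit 5) (nat_lit 198) (nat_lit 287) (nat_lit 295)) (PT.lf (nat_lit 12540) (nat_lit 6) (nat_lit 165) (nat_lit 5) (nat_lit 199) (nat_lit 287) (nat_lit 294))) (PT.nd (nat_lit 78) (PT.lf (nat_lit 12996) (nat_lit 6) (nat_lit 171) (nat_lit 5) (nat_lit 200) (nat_lit 287) (nat_lit 293)) (PT.lf (nat_lit 13452) (nat_lit 6) (nat_lit 177) (nat_lit 5) (nat_lit 201) (nat_lit 287) (nat_lit 292))))) (PT.nd (nat_lit 312) (PT.nd (nat_lit 156) (PT.nd (nat_lit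 78) (PT.lf (nat_lit 13908) (nat_lit 6) (nat_lit 183) (nat_lit 5) (nat_lit 202) (nat_lit 287) (nat_lit 291)) (PT.lf (nat_lit 14364) (nat_lit 6) (nat_lit 189) (nat_lit 5) (nat_lit 203) (nat_lit 287) (nat_lit 290))) (PT.nd (nat_lit 78) (PT.lf (nat_lit 14820) (nat_lit 6) (nat_lit 195) (nat_lit 5) (nat_lit 204) (nat_lit 287) (nat_lit 289)) (PT.lf (nat_lit 15352) (nat_lit 6) (nat_lit 202) (nat_lit 5) (nat_lit 205) (nat_lit 287) (nat_lit 288)))) (PT.nd (nat_lit 156) (PT.nd (nat_lit 78) (PT.lf (nat_lit 15808) (nat_lit 3) (nat_lit 208) (nat_lit 4) (nat_lit 206) (nat_lit 287) (nat_lit 287)) (PT.lf (nat_lit 16264) (nat_lit 6) (nat_lit 214) (nat_lit 4) (nat_lit 207) (nat_lit 287) (nat_lit 286))) (PT.nd (nat_lit 78) (PT.lf (nat_lit 16720) (nat_lit 6) (nat_lit 220) (nat_lit 4) (nat_lit 208) (nat_lit 287) (nat_lit 285)) (PT.lf (nat_lit 17176) (nat_lit 6) (nat_lit 226) (nat_lit 4) (nat_lit 209) (nat_lit 287) (nat_lit 284)))))) (PT.nd (nat_lit 624) (PT.nd (nat_lit 312) (PT.nd (nat_lit 156) (PT.nd (nat_lit 78) (PT.lf (nat_lit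 17632) (nat_lit 6) (nat_lit 232) (nat_lit 4) (nat_lit 210) (nat_lit 287) (nat_lit 283)) (PT.lf (nat_lit 18164) (nat_lit 6) (nat_lit 239) (nat_lit 4) (nat_lit 211) (nat_lit 287) (nat_lit 282))) (PT.nd (nat_lit 78) (PT.lf (nat_lit 18620) (nat_lit 6) (nat_lit 245) (nat_lit 4) (nat_lit 212) (nat_lit 287) (nat_lit 281)) (PT.lf (nat_lit 19152) (nat_lit 6) (nat_lit 252) (nat_lit 4) (nat_lit 213) (nat_lit 287) (nat_lit 280)))) (PT.nd (nat_lit 156) (PT.nd (nat_lit 78) (PT.lf (nat_lit 19684) (nat_lit 6) (nat_lit 259) (nat_lit 4) (nat_lit 214) (nat_lit 287) (nat_lit 279)) (PT.lf (nat_lit 20292) (nat_lit 6) (nat_lit 267) (nat_lit 4) (nat_lit 215) (nat_lit 287) (nat_lit 278))) (PT.nd (nat_lit 78) (PT.lf (nat_lit 20824) (nat_lit 6) (nat_lit 274) (nat_lit 4) (nat_lit 216) (nat_lit 287) (nat_lit 277)) (PT.lf (nat_lit 21432) (nat_lit 6) (nat_lit 282) (nat_lit 4) (nat_lit 217) (nat_lit 287) (nat_lit 276))))) (PT.nd (nat_lit 312) (PT.nd (nat_lit 156) (PT.nd (nat_lit 78) (PT.lf (nat_lit 22040) (nat_lit 6) (nat_lit 290) (nat_lit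 4) (nat_lit 218) (nat_lit 287) (nat_lit 275)) (PT.lf (nat_lit 22648) (nat_lit 6) (nat_lit 298) (nat_lit 4) (nat_lit 219) (nat_lit 287) (nat_lit 274))) (PT.nd (nat_lit 78) (PT.lf (nat_lit 23256) (nat_lit 6) (nat_lit 306) (nat_lit 4) (nat_lit 220) (nat_lit 287) (nat_lit 273)) (PT.lf (nat_lit 23940) (nat_lit 6) (nat_lit 315) (nat_lit 4) (nat_lit 221) (nat_lit 287) (nat_lit 272)))) (PT.nd (nat_lit 156) (PT.nd (nat_lit 78) (PT.lf (nat_lit 24624) (nat_lit 6) (nat_lit 324) (nat_lit 4) (nat_lit 222) (nat_lit 287) (nat_lit 271)) (PT.lf (nat_lit 25308) (nat_lit 6) (nat_lit 333) (nat_lit 4) (nat_lit 223) (nat_lit 287) (nat_lit 270))) (PT.nd (nat_lit 78) (PT.lf (nat_lit 25992) (nat_lit 6) (nat_lit 342) (nat_lit 4) (nat_lit 224) (nat_lit 287) (nat_lit 269)) (PT.lf (nat_lit 26752) (nat_lit 6) (nat_lit 352) (nat_lit 4) (nat_lit 225) (nat_lit 287) (nat_lit 268))))))) (PT.nd (nat_lit 4290) (PT.nd (nat_lit 3666) (PT.nd (nat_lit 3354) (PT.nd (nat_lit 3198) (PT.lf (nat_lit 27512) (nat_lit 6) (nat_lit 362) (nat_lit 4) (nat_lit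 226) (nat_lit 287) (nat_lit 267)) (PT.nd (nat_lit 78) (PT.lf (nat_lit 27512) (nat_lit 6) (nat_lit 362) (nat_lit 2) (nat_lit 267) (nat_lit 287) (nat_lit 226)) (PT.lf (nat_lit 26752) (nat_lit 6) (nat_lit 352) (nat_lit 2) (nat_lit 268) (nat_lit 287) (nat_lit 225)))) (PT.nd (nat_lit 156) (PT.nd (nat_lit 78) (PT.lf (nat_lit 25992) (nat_lit 6) (nat_lit 342) (nat_lit 2) (nat_lit 269) (nat_lit 287) (nat_lit 224)) (PT.lf (nat_lit 25308) (nat_lit 6) (nat_lit 333) (nat_lit 2) (nat_lit 270) (nat_lit 287) (nat_lit 223))) (PT.nd (nat_lit 78) (PT.lf (nat_lit 24624) (nat_lit 6) (nat_lit 324) (nat_lit 2) (nat_lit 271) (nat_lit 287) (nat_lit 222)) (PT.lf (nat_lit 23940) (nat_lit 6) (nat_lit 315) (nat_lit 2) (nat_lit 272) (nat_lit 287) (nat_lit 221))))) (PT.nd (nat_lit 312) (PT.nd (nat_lit 156) (PT.nd (nat_lit 78) (PT.lf (nat_lit 23256) (nat_lit 6) (nat_lit 306) (nat_lit 2) (nat_lit 273) (nat_lit 287) (nat_lit 220)) (PT.lf (nat_lit 22648) (nat_lit 6) (nat_lit 298) (nat_lit 2) (nat_lit 274) (nat_lit 287) (nat_lit 219))) (PT.nd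 (nat_lit 78) (PT.lf (nat_lit 22040) (nat_lit 6) (nat_lit 290) (nat_lit 2) (nat_lit 275) (nat_lit 287) (nat_lit 218)) (PT.lf (nat_lit 21432) (nat_lit 6) (nat_lit 282) (nat_lit 2) (nat_lit 276) (nat_lit 287) (nat_lit 217)))) (PT.nd (nat_lit 156) (PT.nd (nat_lit 78) (PT.lf (nat_lit 20824) (nat_lit 6) (nat_lit 274) (nat_lit 2) (nat_lit 277) (nat_lit 287) (nat_lit 216)) (PT.lf (nat_lit 20292) (nat_lit 6) (nat_lit 267) (nat_lit 2) (nat_lit 278) (nat_lit 287) (nat_lit 215))) (PT.nd (nat_lit 78) (PT.lf (nat_lit 19684) (nat_lit 6) (nat_lit 259) (nat_lit 2) (nat_lit 279) (nat_lit 287) (nat_lit 214)) (PT.lf (nat_lit 19152) (nat_lit 6) (nat_lit 252) (nat_lit 2) (nat_lit 280) (nat_lit 287) (nat_lit 213)))))) (PT.nd (nat_lit 624) (PT.nd (nat_lit 312) (PT.nd (nat_lit 156) (PT.nd (nat_lit 78) (PT.lf (nat_lit 18620) (nat_lit 6) (nat_lit 245) (nat_lit 2) (nat_lit 281) (nat_lit 287) (nat_lit 212)) (PT.lf (nat_lit 18164) (nat_lit 6) (nat_lit 239) (nat_lit 2) (nat_lit 282) (nat_lit 287) (nat_lit 211))) (PT.nd (nat_lit 78) (PT.lf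 (nat_lit 17632) (nat_lit 6) (nat_lit 232) (nat_lit 2) (nat_lit 283) (nat_lit 287) (nat_lit 210)) (PT.lf (nat_lit 17176) (nat_lit 6) (nat_lit 226) (nat_lit 2) (nat_lit 284) (nat_lit 287) (nat_lit 209)))) (PT.nd (nat_lit 156) (PT.nd (nat_lit 78) (PT.lf (nat_lit 16720) (nat_lit 6) (nat_lit 220) (nat_lit 2) (nat_lit 285) (nat_lit 287) (nat_lit 208)) (PT.lf (nat_lit 16264) (nat_lit 6) (nat_lit 214) (nat_lit 2) (nat_lit 286) (nat_lit 287) (nat_lit 207))) (PT.nd (nat_lit 78) (PT.lf (nat_lit 15808) (nat_lit 3) (nat_lit 208) (nat_lit 0) (nat_lit 287) (nat_lit 287) (nat_lit 206)) (PT.lf (nat_lit 15352) (nat_lit 6) (nat_lit 202) (nat_lit 0) (nat_lit 288) (nat_lit 287) (nat_lit 205))))) (PT.nd (nat_lit 312) (PT.nd (nat_lit 156) (PT.nd (nat_lit 78) (PT.lf (nat_lit 14820) (nat_lit 6) (nat_lit 195) (nat_lit 0) (nat_lit 289) (nat_lit 287) (nat_lit 204)) (PT.lf (nat_lit 14364) (nat_lit 6) (nat_lit 189) (nat_lit 0) (nat_lit 290) (nat_lit 287) (nat_lit 203))) (PT.nd (nat_lit 78) (PT.lf (nat_lit 13908) (nat_lit 6) (nat_lit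 183) (nat_lit 0) (nat_lit 291) (nat_lit 287) (nat_lit 202)) (PT.lf (nat_lit 13452) (nat_lit 6) (nat_lit 177) (nat_lit 0) (nat_lit 292) (nat_lit 287) (nat_lit 201)))) (PT.nd (nat_lit 156) (PT.nd (nat_lit 78) (PT.lf (nat_lit 12996) (nat_lit 6) (nat_lit 171) (nat_lit 0) (nat_lit 293) (nat_lit 287) (nat_lit 200)) (PT.lf (nat_lit 12540) (nat_lit 6) (nat_lit 165) (nat_lit 0) (nat_lit 294) (nat_lit 287) (nat_lit 199))) (PT.nd (nat_lit 78) (PT.lf (nat_lit 12084) (nat_lit 6) (nat_lit 159) (nat_lit 0) (nat_lit 295) (nat_lit 287) (nat_lit 198)) (PT.lf (nat_lit 11704) (nat_lit 6) (nat_lit 154) (nat_lit 0) (nat_lit 296) (nat_lit 287) (nat_lit 197))))))))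
noncomputable def pc57 : PT := (PT.nd (nat_lit 6084) (PT.nd (nat_lit 1170) (PT.nd (nat_lit 546) (PT.nd (nat_lit 234) (PT.nd (nat_lit 78) (PT.lf (nat_lit 10944) (nat_lit 6) (nat_lit 144) (nat_lit 5) (nat_lit 195) (nat_lit 288) (nat_lit 297)) (PT.nd (nat_lit 78) (PT.lf (nat_lit 11324) (nat_lit 6) (nat_lit 149) (nat_lit 5) (nat_lit 196) (nat_lit 288) (nat_lit 296)) (PT.lf (nat_lit 11780) (nat_lit 6) (nat_lit 155) (nat_lit 5) (nat_lit 197) (nat_lit 288) (nat_lit 295)))) (PT.nd (nat_lit 156) (PT.nd (nat_lit 78) (PT.lf (nat_lit 12160) (nat_lit 6) (nat_lit 160) (nat_lit 5) (nat_lit 198) (nat_lit 288) (nat_lit 294)) (PT.lf (nat_lit 12616) (nat_lit 6) (nat_lit 166) (nat_lit 5) (nat_lit 199) (nat_lit 288) (nat_lit 293))) (PT.nd (nat_lit 78) (PT.lf (nat_lit 13072) (nat_lit 6) (nat_lit 172) (nat_lit 5) (nat_lit 200) (nat_lit 288) (nat_lit 292)) (PT.lf (nat_lit 13528) (nat_lit 6) (nat_lit 178) (nat_lit 5) (nat_lit 201) (nat_lit 288) (nat_lit 291))))) (PT.nd (nat_lit 312) (PT.nd (nat_lit 156) (PT.nd (nat_lit 78) (PT.lf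 (nat_lit 13984) (nat_lit 6) (nat_lit 184) (nat_lit 5) (nat_lit 202) (nat_lit 288) (nat_lit 290)) (PT.lf (nat_lit 14440) (nat_lit 6) (nat_lit 190) (nat_lit 5) (nat_lit 203) (nat_lit 288) (nat_lit 289))) (PT.nd (nat_lit 78) (PT.lf (nat_lit 14896) (nat_lit 3) (nat_lit 196) (nat_lit 4) (nat_lit 204) (nat_lit 288) (nat_lit 288)) (PT.lf (nat_lit 15352) (nat_lit 6) (nat_lit 202) (nat_lit 4) (nat_lit 205) (nat_lit 288) (nat_lit 287)))) (PT.nd (nat_lit 156) (PT.nd (nat_lit 78) (PT.lf (nat_lit 15732) (nat_lit 6) (nat_lit 207) (nat_lit 4) (nat_lit 206) (nat_lit 288) (nat_lit 286)) (PT.lf (nat_lit 16188) (nat_lit 6) (nat_lit 213) (nat_lit 4) (nat_lit 207) (nat_lit 288) (nat_lit 285))) (PT.nd (nat_lit 78) (PT.lf (nat_lit 16644) (nat_lit 6) (nat_lit 219) (nat_lit 4) (nat_lit 208) (nat_lit 288) (nat_lit 284)) (PT.lf (nat_lit 17100) (nat_lit 6) (nat_lit 225) (nat_lit 4) (nat_lit 209) (nat_lit 288) (nat_lit 283)))))) (PT.nd (nat_lit 624) (PT.nd (nat_lit 312) (PT.nd (nat_lit 156) (PT.nd (nat_lit 78) (PT.lf (nat_lit 17556)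 (nat_lit 6) (nat_lit 231) (nat_lit 4) (nat_lit 210) (nat_lit 288) (nat_lit 282)) (PT.lf (nat_lit 18088) (nat_lit 6) (nat_lit 238) (nat_lit 4) (nat_lit 211) (nat_lit 288) (nat_lit 281))) (PT.nd (nat_lit 78) (PT.lf (nat_lit 18544) (nat_lit 6) (nat_lit 244) (nat_lit 4) (nat_lit 212) (nat_lit 288) (nat_lit 280)) (PT.lf (nat_lit 19076) (nat_lit 6) (nat_lit 251) (nat_lit 4) (nat_lit 213) (nat_lit 288) (nat_lit 279)))) (PT.nd (nat_lit 156) (PT.nd (nat_lit 78) (PT.lf (nat_lit 19608) (nat_lit 6) (nat_lit 258) (nat_lit 4) (nat_lit 214) (nat_lit 288) (nat_lit 278)) (PT.lf (nat_lit 20216) (nat_lit 6) (nat_lit 266) (nat_lit 4) (nat_lit 215) (nat_lit 288) (nat_lit 277))) (PT.nd (nat_lit 78) (PT.lf (nat_lit 20748) (nat_lit 6) (nat_lit 273) (nat_lit 4) (nat_lit 216) (nat_lit 288) (nat_lit 276)) (PT.lf (nat_lit 21356) (nat_lit 6) (nat_lit 281) (nat_lit 4) (nat_lit 217) (nat_lit 288) (nat_lit 275))))) (PT.nd (nat_lit 312) (PT.nd (nat_lit 156) (PT.nd (nat_lit 78) (PT.lf (nat_lit 21964) (nat_lit 6) (nat_lit 289) (nat_lit 4)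 (nat_lit 218) (nat_lit 288) (nat_lit 274)) (PT.lf (nat_lit 22572) (nat_lit 6) (nat_lit 297) (nat_lit 4) (nat_lit 219) (nat_lit 288) (nat_lit 273))) (PT.nd (nat_lit 78) (PT.lf (nat_lit 23180) (nat_lit 6) (nat_lit 305) (nat_lit 4) (nat_lit 220) (nat_lit 288) (nat_lit 272)) (PT.lf (nat_lit 23864) (nat_lit 6) (nat_lit 314) (nat_lit 4) (nat_lit 221) (nat_lit 288) (nat_lit 271)))) (PT.nd (nat_lit 3822) (PT.nd (nat_lit 3744) (PT.lf (nat_lit 24548) (nat_lit 6) (nat_lit 323) (nat_lit 4) (nat_lit 222) (nat_lit 288) (nat_lit 270)) (PT.lf (nat_lit 24548) (nat_lit 6) (nat_lit 323) (nat_lit 2) (nat_lit 270) (nat_lit 288) (nat_lit 222))) (PT.nd (nat_lit 78) (PT.lf (nat_lit 23864) (nat_lit 6) (nat_lit 314) (nat_lit 2) (nat_lit 271) (nat_lit 288) (nat_lit 221)) (PT.lf (nat_lit 23180) (nat_lit 6) (nat_lit 305) (nat_lit 2) (nat_lit 272) (nat_lit 288) (nat_lit 220))))))) (PT.nd (nat_lit 1248) (PT.nd (nat_lit 624) (PT.nd (nat_lit 312) (PT.nd (nat_lit 156) (PT.nd (nat_lit 78) (PT.lf (nat_lit 22572) (nat_lit 6) (nat_lit 297) (nat_lit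 2) (nat_lit 273) (nat_lit 288) (nat_lit 219)) (PT.lf (nat_lit 21964) (nat_lit 6) (nat_lit 289) (nat_lit 2) (nat_lit 274) (nat_lit 288) (nat_lit 218))) (PT.nd (nat_lit 78) (PT.lf (nat_lit 21356) (nat_lit 6) (nat_lit 281) (nat_lit 2) (nat_lit 275) (nat_lit 288) (nat_lit 217)) (PT.lf (nat_lit 20748) (nat_lit 6) (nat_lit 273) (nat_lit 2) (nat_lit 276) (nat_lit 288) (nat_lit 216)))) (PT.nd (nat_lit 156) (PT.nd (nat_lit 78) (PT.lf (nat_lit 20216) (nat_lit 6) (nat_lit 266) (nat_lit 2) (nat_lit 277) (nat_lit 288) (nat_lit 215)) (PT.lf (nat_lit 19608) (nat_lit 6) (nat_lit 258) (nat_lit 2) (nat_lit 278) (nat_lit 288) (nat_lit 214))) (PT.nd (nat_lit 78) (PT.lf (nat_lit 19076) (nat_lit 6) (nat_lit 251) (nat_lit 2) (nat_lit 279) (nat_lit 288) (nat_lit 213)) (PT.lf (nat_lit 18544) (nat_lit 6) (nat_lit 244) (nat_lit 2) (nat_lit 280) (nat_lit 288) (nat_lit 212))))) (PT.nd (nat_lit 312) (PT.nd (nat_lit 156) (PT.nd (nat_lit 78) (PT.lf (nat_lit 18088) (nat_lit 6) (nat_lit 238) (nat_lit 2) (nat_lit 281) (nat_lit 288) (nat_lit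 211)) (PT.lf (nat_lit 17556) (nat_lit 6) (nat_lit 231) (nat_lit 2) (nat_lit 282) (nat_lit 288) (nat_lit 210))) (PT.nd (nat_lit 78) (PT.lf (nat_lit 17100) (nat_lit 6) (nat_lit 225) (nat_lit 2) (nat_lit 283) (nat_lit 288) (nat_lit 209)) (PT.lf (nat_lit 16644) (nat_lit 6) (nat_lit 219) (nat_lit 2) (nat_lit 284) (nat_lit 288) (nat_lit 208)))) (PT.nd (nat_lit 156) (PT.nd (nat_lit 78) (PT.lf (nat_lit 16188) (nat_lit 6) (nat_lit 213) (nat_lit 2) (nat_lit 285) (nat_lit 288) (nat_lit 207)) (PT.lf (nat_lit 15732) (nat_lit 6) (nat_lit 207) (nat_lit 2) (nat_lit 286) (nat_lit 288) (nat_lit 206))) (PT.nd (nat_lit 78) (PT.lf (nat_lit 15352) (nat_lit 6) (nat_lit 202) (nat_lit 2) (nat_lit 287) (nat_lit 288) (nat_lit 205)) (PT.lf (nat_lit 14896) (nat_lit 3) (nat_lit 196) (nat_lit 0) (nat_lit 288) (nat_lit 288) (nat_lit 204)))))) (PT.nd (nat_lit 624) (PT.nd (nat_lit 312) (PT.nd (nat_lit 156) (PT.nd (nat_lit 78) (PT.lf (nat_lit 14440) (nat_lit 6) (nat_lit 190) (nat_lit 0) (nat_lit 289) (nat_lit 288) (nat_lit 203)) (PT.lf (nat_lit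 13984) (nat_lit 6) (nat_lit 184) (nat_lit 0) (nat_lit 290) (nat_lit 288) (nat_lit 202))) (PT.nd (nat_lit 78) (PT.lf (nat_lit 13528) (nat_lit 6) (nat_lit 178) (nat_lit 0) (nat_lit 291) (nat_lit 288) (nat_lit 201)) (PT.lf (nat_lit 13072) (nat_lit 6) (nat_lit 172) (nat_lit 0) (nat_lit 292) (nat_lit 288) (nat_lit 200)))) (PT.nd (nat_lit 156) (PT.nd (nat_lit 78) (PT.lf (nat_lit 12616) (nat_lit 6) (nat_lit 166) (nat_lit 0) (nat_lit 293) (nat_lit 288) (nat_lit 199)) (PT.lf (nat_lit 12160) (nat_lit 6) (nat_lit 160) (nat_lit 0) (nat_lit 294) (nat_lit 288) (nat_lit 198))) (PT.nd (nat_lit 78) (PT.lf (nat_lit 11780) (nat_lit 6) (nat_lit 155) (nat_lit 0) (nat_lit 295) (nat_lit 288) (nat_lit 197)) (PT.lf (nat_lit 11324) (nat_lit 6) (nat_lit 149) (nat_lit 0) (nat_lit 296) (nat_lit 288) (nat_lit 196))))) (PT.nd (nat_lit 73476) (PT.nd (nat_lit 73320) (PT.nd (nat_lit 73242) (PT.lf (nat_lit 10944) (nat_lit 6) (nat_lit 144) (nat_lit 0) (nat_lit 297) (nat_lit 288) (nat_lit 195)) (PT.lf (nat_lit 11020) (nat_lit 6) (nat_lit 145)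 (nat_lit 5) (nat_lit 195) (nat_lit 289) (nat_lit 296))) (PT.nd (nat_lit 78) (PT.lf (nat_lit 11400) (nat_lit 6) (nat_lit 150) (nat_lit 5) (nat_lit 196) (nat_lit 289) (nat_lit 295)) (PT.lf (nat_lit 11856) (nat_lit 6) (nat_lit 156) (nat_lit 5) (nat_lit 197) (nat_lit 289) (nat_lit 294)))) (PT.nd (nat_lit 156) (PT.nd (nat_lit 78) (PT.lf (nat_lit 12236) (nat_lit 6) (nat_lit 161) (nat_lit 5) (nat_lit 198) (nat_lit 289) (nat_lit 293)) (PT.lf (nat_lit 12692) (nat_lit 6) (nat_lit 167) (nat_lit 5) (nat_lit 199) (nat_lit 289) (nat_lit 292))) (PT.nd (nat_lit 78) (PT.lf (nat_lit 13148) (nat_lit 6) (nat_lit 173) (nat_lit 5) (nat_lit 200) (nat_lit 289) (nat_lit 291)) (PT.lf (nat_lit 13604) (nat_lit 6) (nat_lit 179) (nat_lit 5) (nat_lit 201) (nat_lit 289) (nat_lit 290))))))))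
noncomputable def pc58 : PT := (PT.nd (nat_lit 6630) (PT.nd (nat_lit 1170) (PT.nd (nat_lit 546) (PT.nd (nat_lit 234) (PT.nd (nat_lit 78) (PT.lf (nat_lit 14060) (nat_lit 3) (nat_lit 185) (nat_lit 4) (nat_lit 202) (nat_lit 289) (nat_lit 289)) (PT.nd (nat_lit 78) (PT.lf (nat_lit 14440) (nat_lit 6) (nat_lit 190) (nat_lit 4) (nat_lit 203) (nat_lit 289) (nat_lit 288)) (PT.lf (nat_lit 14820) (nat_lit 6) (nat_lit 195) (nat_lit 4) (nat_lit 204) (nat_lit 289) (nat_lit 287)))) (PT.nd (nat_lit 156) (PT.nd (nat_lit 78) (PT.lf (nat_lit 15276) (nat_lit 6) (nat_lit 201) (nat_lit 4) (nat_lit 205) (nat_lit 289) (nat_lit 286)) (PT.lf (nat_lit 15656) (nat_lit 6) (nat_lit 206) (nat_lit 4) (nat_lit 206) (nat_lit 289) (nat_lit 285))) (PT.nd (nat_lit 78) (PT.lf (nat_lit 16112) (nat_lit 6) (nat_lit 212) (nat_lit 4) (nat_lit 207) (nat_lit 289) (nat_lit 284)) (PT.lf (nat_lit 16568) (nat_lit 6) (nat_lit 218) (nat_lit 4) (nat_lit 208) (nat_lit 289) (nat_lit 283))))) (PT.nd (nat_lit 312) (PT.nd (nat_lit 156) (PT.nd (nat_lit 78) (PT.lf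 (nat_lit 17024) (nat_lit 6) (nat_lit 224) (nat_lit 4) (nat_lit 209) (nat_lit 289) (nat_lit 282)) (PT.lf (nat_lit 17480) (nat_lit 6) (nat_lit 230) (nat_lit 4) (nat_lit 210) (nat_lit 289) (nat_lit 281))) (PT.nd (nat_lit 78) (PT.lf (nat_lit 18012) (nat_lit 6) (nat_lit 237) (nat_lit 4) (nat_lit 211) (nat_lit 289) (nat_lit 280)) (PT.lf (nat_lit 18468) (nat_lit 6) (nat_lit 243) (nat_lit 4) (nat_lit 212) (nat_lit 289) (nat_lit 279)))) (PT.nd (nat_lit 156) (PT.nd (nat_lit 78) (PT.lf (nat_lit 19000) (nat_lit 6) (nat_lit 250) (nat_lit 4) (nat_lit 213) (nat_lit 289) (nat_lit 278)) (PT.lf (nat_lit 19532) (nat_lit 6) (nat_lit 257) (nat_lit 4) (nat_lit 214) (nat_lit 289) (nat_lit 277))) (PT.nd (nat_lit 78) (PT.lf (nat_lit 20140) (nat_lit 6) (nat_lit 265) (nat_lit 4) (nat_lit 215) (nat_lit 289) (nat_lit 276)) (PT.lf (nat_lit 20672) (nat_lit 6) (nat_lit 272) (nat_lit 4) (nat_lit 216) (nat_lit 289) (nat_lit 275)))))) (PT.nd (nat_lit 4836) (PT.nd (nat_lit 4524) (PT.nd (nat_lit 4368) (PT.nd (nat_lit 78) (PT.lf (nat_lit 21280)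 (nat_lit 6) (nat_lit 280) (nat_lit 4) (nat_lit 217) (nat_lit 289) (nat_lit 274)) (PT.lf (nat_lit 21888) (nat_lit 6) (nat_lit 288) (nat_lit 4) (nat_lit 218) (nat_lit 289) (nat_lit 273))) (PT.nd (nat_lit 78) (PT.lf (nat_lit 21888) (nat_lit 6) (nat_lit 288) (nat_lit 2) (nat_lit 273) (nat_lit 289) (nat_lit 218)) (PT.lf (nat_lit 21280) (nat_lit 6) (nat_lit 280) (nat_lit 2) (nat_lit 274) (nat_lit 289) (nat_lit 217)))) (PT.nd (nat_lit 156) (PT.nd (nat_lit 78) (PT.lf (nat_lit 20672) (nat_lit 6) (nat_lit 272) (nat_lit 2) (nat_lit 275) (nat_lit 289) (nat_lit 216)) (PT.lf (nat_lit 20140) (nat_lit 6) (nat_lit 265) (nat_lit 2) (nat_lit 276) (nat_lit 289) (nat_lit 215))) (PT.nd (nat_lit 78) (PT.lf (nat_lit 19532) (nat_lit 6) (nat_lit 257) (nat_lit 2) (nat_lit 277) (nat_lit 289) (nat_lit 214)) (PT.lf (nat_lit 19000) (nat_lit 6) (nat_lit 250) (nat_lit 2) (nat_lit 278) (nat_lit 289) (nat_lit 213))))) (PT.nd (nat_lit 312) (PT.nd (nat_lit 156) (PT.nd (nat_lit 78) (PT.lf (nat_lit 18468) (nat_lit 6) (nat_lit 243) (nat_lit 2)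 (nat_lit 279) (nat_lit 289) (nat_lit 212)) (PT.lf (nat_lit 18012) (nat_lit 6) (nat_lit 237) (nat_lit 2) (nat_lit 280) (nat_lit 289) (nat_lit 211))) (PT.nd (nat_lit 78) (PT.lf (nat_lit 17480) (nat_lit 6) (nat_lit 230) (nat_lit 2) (nat_lit 281) (nat_lit 289) (nat_lit 210)) (PT.lf (nat_lit 17024) (nat_lit 6) (nat_lit 224) (nat_lit 2) (nat_lit 282) (nat_lit 289) (nat_lit 209)))) (PT.nd (nat_lit 156) (PT.nd (nat_lit 78) (PT.lf (nat_lit 16568) (nat_lit 6) (nat_lit 218) (nat_lit 2) (nat_lit 283) (nat_lit 289) (nat_lit 208)) (PT.lf (nat_lit 16112) (nat_lit 6) (nat_lit 212) (nat_lit 2) (nat_lit 284) (nat_lit 289) (nat_lit 207))) (PT.nd (nat_lit 78) (PT.lf (nat_lit 15656) (nat_lit 6) (nat_lit 206) (nat_lit 2) (nat_lit 285) (nat_lit 289) (nat_lit 206)) (PT.lf (nat_lit 15276) (nat_lit 6) (nat_lit 201) (nat_lit 2) (nat_lit 286) (nat_lit 289) (nat_lit 205))))))) (PT.nd (nat_lit 74412) (PT.nd (nat_lit 624) (PT.nd (nat_lit 312) (PT.nd (nat_lit 156) (PT.nd (nat_lit 78) (PT.lf (nat_lit 14820) (nat_lit 6) (nat_lit 195) (nat_lit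 2) (nat_lit 287) (nat_lit 289) (nat_lit 204)) (PT.lf (nat_lit 14440) (nat_lit 6) (nat_lit 190) (nat_lit 2) (nat_lit 288) (nat_lit 289) (nat_lit 203))) (PT.nd (nat_lit 78) (PT.lf (nat_lit 14060) (nat_lit 3) (nat_lit 185) (nat_lit 0) (nat_lit 289) (nat_lit 289) (nat_lit 202)) (PT.lf (nat_lit 13604) (nat_lit 6) (nat_lit 179) (nat_lit 0) (nat_lit 290) (nat_lit 289) (nat_lit 201)))) (PT.nd (nat_lit 156) (PT.nd (nat_lit 78) (PT.lf (nat_lit 13148) (nat_lit 6) (nat_lit 173) (nat_lit 0) (nat_lit 291) (nat_lit 289) (nat_lit 200)) (PT.lf (nat_lit 12692) (nat_lit 6) (nat_lit 167) (nat_lit 0) (nat_lit 292) (nat_lit 289) (nat_lit 199))) (PT.nd (nat_lit 78) (PT.lf (nat_lit 12236) (nat_lit 6) (nat_lit 161) (nat_lit 0) (nat_lit 293) (nat_lit 289) (nat_lit 198)) (PT.lf (nat_lit 11856) (nat_lit 6) (nat_lit 156) (nat_lit 0) (nat_lit 294) (nat_lit 289) (nat_lit 197))))) (PT.nd (nat_lit 73476) (PT.nd (nat_lit 73320) (PT.nd (nat_lit 78) (PT.lf (nat_lit 11400) (nat_lit 6) (nat_lit 150) (nat_lit 0) (nat_lit 295) (nat_lit 289) (nat_lit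 196)) (PT.lf (nat_lit 11020) (nat_lit 6) (nat_lit 145) (nat_lit 0) (nat_lit 296) (nat_lit 289) (nat_lit 195))) (PT.nd (nat_lit 78) (PT.lf (nat_lit 10640) (nat_lit 6) (nat_lit 140) (nat_lit 5) (nat_lit 194) (nat_lit 290) (nat_lit 296)) (PT.lf (nat_lit 11096) (nat_lit 6) (nat_lit 146) (nat_lit 5) (nat_lit 195) (nat_lit 290) (nat_lit 295)))) (PT.nd (nat_lit 156) (PT.nd (nat_lit 78) (PT.lf (nat_lit 11476) (nat_lit 6) (nat_lit 151) (nat_lit 5) (nat_lit 196) (nat_lit 290) (nat_lit 294)) (PT.lf (nat_lit 11932) (nat_lit 6) (nat_lit 157) (nat_lit 5) (nat_lit 197) (nat_lit 290) (nat_lit 293))) (PT.nd (nat_lit 78) (PT.lf (nat_lit 12312) (nat_lit 6) (nat_lit 162) (nat_lit 5) (nat_lit 198) (nat_lit 290) (nat_lit 292)) (PT.lf (nat_lit 12768) (nat_lit 6) (nat_lit 168) (nat_lit 5) (nat_lit 199) (nat_lit 290) (nat_lit 291)))))) (PT.nd (nat_lit 624) (PT.nd (nat_lit 312) (PT.nd (nat_lit 156) (PT.nd (nat_lit 78) (PT.lf (nat_lit 13224) (nat_lit 3) (nat_lit 174) (nat_lit 4) (nat_lit 200) (nat_lit 290) (nat_lit 290)) (PT.lf (nat_lit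 13604) (nat_lit 6) (nat_lit 179) (nat_lit 4) (nat_lit 201) (nat_lit 290) (nat_lit 289))) (PT.nd (nat_lit 78) (PT.lf (nat_lit 13984) (nat_lit 6) (nat_lit 184) (nat_lit 4) (nat_lit 202) (nat_lit 290) (nat_lit 288)) (PT.lf (nat_lit 14364) (nat_lit 6) (nat_lit 189) (nat_lit 4) (nat_lit 203) (nat_lit 290) (nat_lit 287)))) (PT.nd (nat_lit 156) (PT.nd (nat_lit 78) (PT.lf (nat_lit 14744) (nat_lit 6) (nat_lit 194) (nat_lit 4) (nat_lit 204) (nat_lit 290) (nat_lit 286)) (PT.lf (nat_lit 15200) (nat_lit 6) (nat_lit 200) (nat_lit 4) (nat_lit 205) (nat_lit 290) (nat_lit 285))) (PT.nd (nat_lit 78) (PT.lf (nat_lit 15580) (nat_lit 6) (nat_lit 205) (nat_lit 4) (nat_lit 206) (nat_lit 290) (nat_lit 284)) (PT.lf (nat_lit 16036) (nat_lit 6) (nat_lit 211) (nat_lit 4) (nat_lit 207) (nat_lit 290) (nat_lit 283))))) (PT.nd (nat_lit 312) (PT.nd (nat_lit 156) (PT.nd (nat_lit 78) (PT.lf (nat_lit 16492) (nat_lit 6) (nat_lit 217) (nat_lit 4) (nat_lit 208) (nat_lit 290) (nat_lit 282)) (PT.lf (nat_lit 16948) (nat_lit 6) (nat_lit 223) (nat_lit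 4) (nat_lit 209) (nat_lit 290) (nat_lit 281))) (PT.nd (nat_lit 78) (PT.lf (nat_lit 17404) (nat_lit 6) (nat_lit 229) (nat_lit 4) (nat_lit 210) (nat_lit 290) (nat_lit 280)) (PT.lf (nat_lit 17936) (nat_lit 6) (nat_lit 236) (nat_lit 4) (nat_lit 211) (nat_lit 290) (nat_lit 279)))) (PT.nd (nat_lit 156) (PT.nd (nat_lit 78) (PT.lf (nat_lit 18392) (nat_lit 6) (nat_lit 242) (nat_lit 4) (nat_lit 212) (nat_lit 290) (nat_lit 278)) (PT.lf (nat_lit 18924) (nat_lit 6) (nat_lit 249) (nat_lit 4) (nat_lit 213) (nat_lit 290) (nat_lit 277))) (PT.nd (nat_lit 4836) (PT.lf (nat_lit 19456) (nat_lit 6) (nat_lit 256) (nat_lit 4) (nat_lit 214) (nat_lit 290) (nat_lit 276)) (PT.lf (nat_lit 19456) (nat_lit 6) (nat_lit 256) (nat_lit 2) (nat_lit 276) (nat_lit 290) (nat_lit 214))))))))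
noncomputable def pc59 : PT := (PT.nd (nat_lit 75426) (PT.nd (nat_lit 1170) (PT.nd (nat_lit 546) (PT.nd (nat_lit 234) (PT.nd (nat_lit 78) (PT.lf (nat_lit 18924) (nat_lit 6) (nat_lit 249) (nat_lit 2) (nat_lit 277) (nat_lit 290) (nat_lit 213)) (PT.nd (nat_lit 78) (PT.lf (nat_lit 18392) (nat_lit 6) (nat_lit 242) (nat_lit 2) (nat_lit 278) (nat_lit 290) (nat_lit 212)) (PT.lf (nat_lit 17936) (nat_lit 6) (nat_lit 236) (nat_lit 2) (nat_lit 279) (nat_lit 290) (nat_lit 211)))) (PT.nd (nat_lit 156) (PT.nd (nat_lit 78) (PT.lf (nat_lit 17404) (nat_lit 6) (nat_lit 229) (nat_lit 2) (nat_lit 280) (nat_lit 290) (nat_lit 210)) (PT.lf (nat_lit 16948) (nat_lit 6) (nat_lit 223) (nat_lit 2) (nat_lit 281) (nat_lit 290) (nat_lit 209))) (PT.nd (nat_lit 78) (PT.lf (nat_lit 16492) (nat_lit 6) (nat_lit 217) (nat_lit 2) (nat_lit 282) (nat_lit 290) (nat_lit 208)) (PT.lf (nat_lit 16036) (nat_lit 6) (nat_lit 211) (nat_lit 2) (nat_lit 283) (nat_lit 290) (nat_lit 207))))) (PT.nd (nat_lit 312) (PT.nd (nat_lit 156) (PT.nd (nat_lit 78) (PT.lf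 (nat_lit 15580) (nat_lit 6) (nat_lit 205) (nat_lit 2) (nat_lit 284) (nat_lit 290) (nat_lit 206)) (PT.lf (nat_lit 15200) (nat_lit 6) (nat_lit 200) (nat_lit 2) (nat_lit 285) (nat_lit 290) (nat_lit 205))) (PT.nd (nat_lit 78) (PT.lf (nat_lit 14744) (nat_lit 6) (nat_lit 194) (nat_lit 2) (nat_lit 286) (nat_lit 290) (nat_lit 204)) (PT.lf (nat_lit 14364) (nat_lit 6) (nat_lit 189) (nat_lit 2) (nat_lit 287) (nat_lit 290) (nat_lit 203)))) (PT.nd (nat_lit 156) (PT.nd (nat_lit 78) (PT.lf (nat_lit 13984) (nat_lit 6) (nat_lit 184) (nat_lit 2) (nat_lit 288) (nat_lit 290) (nat_lit 202)) (PT.lf (nat_lit 13604) (nat_lit 6) (nat_lit 179) (nat_lit 2) (nat_lit 289) (nat_lit 290) (nat_lit 201))) (PT.nd (nat_lit 78) (PT.lf (nat_lit 13224) (nat_lit 3) (nat_lit 174) (nat_lit 0) (nat_lit 290) (nat_lit 290) (nat_lit 200)) (PT.lf (nat_lit 12768) (nat_lit 6) (nat_lit 168) (nat_lit 0) (nat_lit 291) (nat_lit 290) (nat_lit 199)))))) (PT.nd (nat_lit 73632) (PT.nd (nat_lit 312) (PT.nd (nat_lit 156) (PT.nd (nat_lit 78) (PT.lf (nat_lit 12312)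 (nat_lit 6) (nat_lit 162) (nat_lit 0) (nat_lit 292) (nat_lit 290) (nat_lit 198)) (PT.lf (nat_lit 11932) (nat_lit 6) (nat_lit 157) (nat_lit 0) (nat_lit 293) (nat_lit 290) (nat_lit 197))) (PT.nd (nat_lit 78) (PT.lf (nat_lit 11476) (nat_lit 6) (nat_lit 151) (nat_lit 0) (nat_lit 294) (nat_lit 290) (nat_lit 196)) (PT.lf (nat_lit 11096) (nat_lit 6) (nat_lit 146) (nat_lit 0) (nat_lit 295) (nat_lit 290) (nat_lit 195)))) (PT.nd (nat_lit 73164) (PT.nd (nat_lit 73086) (PT.lf (nat_lit 10640) (nat_lit 6) (nat_lit 140) (nat_lit 0) (nat_lit 296) (nat_lit 290) (nat_lit 194)) (PT.lf (nat_lit 9956) (nat_lit 6) (nat_lit 131) (nat_lit 5) (nat_lit 192) (nat_lit 291) (nat_lit 297))) (PT.nd (nat_lit 78) (PT.lf (nat_lit 10336) (nat_lit 6) (nat_lit 136) (nat_lit 5) (nat_lit 193) (nat_lit 291) (nat_lit 296)) (PT.lf (nat_lit 10716) (nat_lit 6) (nat_lit 141) (nat_lit 5) (nat_lit 194) (nat_lit 291) (nat_lit 295))))) (PT.nd (nat_lit 312) (PT.nd (nat_lit 156) (PT.nd (nat_lit 78) (PT.lf (nat_lit 11172) (nat_lit 6) (nat_lit 147) (nat_lit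 5) (nat_lit 195) (nat_lit 291) (nat_lit 294)) (PT.lf (nat_lit 11552) (nat_lit 6) (nat_lit 152) (nat_lit 5) (nat_lit 196) (nat_lit 291) (nat_lit 293))) (PT.nd (nat_lit 78) (PT.lf (nat_lit 12008) (nat_lit 6) (nat_lit 158) (nat_lit 5) (nat_lit 197) (nat_lit 291) (nat_lit 292)) (PT.lf (nat_lit 12388) (nat_lit 3) (nat_lit 163) (nat_lit 4) (nat_lit 198) (nat_lit 291) (nat_lit 291)))) (PT.nd (nat_lit 156) (PT.nd (nat_lit 78) (PT.lf (nat_lit 12768) (nat_lit 6) (nat_lit 168) (nat_lit 4) (nat_lit 199) (nat_lit 291) (nat_lit 290)) (PT.lf (nat_lit 13148) (nat_lit 6) (nat_lit 173) (nat_lit 4) (nat_lit 200) (nat_lit 291) (nat_lit 289))) (PT.nd (nat_lit 78) (PT.lf (nat_lit 13528) (nat_lit 6) (nat_lit 178) (nat_lit 4) (nat_lit 201) (nat_lit 291) (nat_lit 288)) (PT.lf (nat_lit 13908) (nat_lit 6) (nat_lit 183) (nat_lit 4) (nat_lit 202) (nat_lit 291) (nat_lit 287))))))) (PT.nd (nat_lit 6396) (PT.nd (nat_lit 624) (PT.nd (nat_lit 312) (PT.nd (nat_lit 156) (PT.nd (nat_lit 78) (PT.lf (nat_lit 14288) (nat_lit 6) (nat_lit 188) (nat_lit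 4) (nat_lit 203) (nat_lit 291) (nat_lit 286)) (PT.lf (nat_lit 14668) (nat_lit 6) (nat_lit 193) (nat_lit 4) (nat_lit 204) (nat_lit 291) (nat_lit 285))) (PT.nd (nat_lit 78) (PT.lf (nat_lit 15124) (nat_lit 6) (nat_lit 199) (nat_lit 4) (nat_lit 205) (nat_lit 291) (nat_lit 284)) (PT.lf (nat_lit 15504) (nat_lit 6) (nat_lit 204) (nat_lit 4) (nat_lit 206) (nat_lit 291) (nat_lit 283)))) (PT.nd (nat_lit 156) (PT.nd (nat_lit 78) (PT.lf (nat_lit 15960) (nat_lit 6) (nat_lit 210) (nat_lit 4) (nat_lit 207) (nat_lit 291) (nat_lit 282)) (PT.lf (nat_lit 16416) (nat_lit 6) (nat_lit 216) (nat_lit 4) (nat_lit 208) (nat_lit 291) (nat_lit 281))) (PT.nd (nat_lit 78) (PT.lf (nat_lit 16872) (nat_lit 6) (nat_lit 222) (nat_lit 4) (nat_lit 209) (nat_lit 291) (nat_lit 280)) (PT.lf (nat_lit 17328) (nat_lit 6) (nat_lit 228) (nat_lit 4) (nat_lit 210) (nat_lit 291) (nat_lit 279))))) (PT.nd (nat_lit 5460) (PT.nd (nat_lit 5304) (PT.nd (nat_lit 5226) (PT.lf (nat_lit 17860) (nat_lit 6) (nat_lit 235) (nat_lit 4) (nat_lit 211) (nat_lit 291) (nat_lit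 278)) (PT.lf (nat_lit 17860) (nat_lit 6) (nat_lit 235) (nat_lit 2) (nat_lit 278) (nat_lit 291) (nat_lit 211))) (PT.nd (nat_lit 78) (PT.lf (nat_lit 17328) (nat_lit 6) (nat_lit 228) (nat_lit 2) (nat_lit 279) (nat_lit 291) (nat_lit 210)) (PT.lf (nat_lit 16872) (nat_lit 6) (nat_lit 222) (nat_lit 2) (nat_lit 280) (nat_lit 291) (nat_lit 209)))) (PT.nd (nat_lit 156) (PT.nd (nat_lit 78) (PT.lf (nat_lit 16416) (nat_lit 6) (nat_lit 216) (nat_lit 2) (nat_lit 281) (nat_lit 291) (nat_lit 208)) (PT.lf (nat_lit 15960) (nat_lit 6) (nat_lit 210) (nat_lit 2) (nat_lit 282) (nat_lit 291) (nat_lit 207))) (PT.nd (nat_lit 78) (PT.lf (nat_lit 15504) (nat_lit 6) (nat_lit 204) (nat_lit 2) (nat_lit 283) (nat_lit 291) (nat_lit 206)) (PT.lf (nat_lit 15124) (nat_lit 6) (nat_lit 199) (nat_lit 2) (nat_lit 284) (nat_lit 291) (nat_lit 205)))))) (PT.nd (nat_lit 624) (PT.nd (nat_lit 312) (PT.nd (nat_lit 156) (PT.nd (nat_lit 78) (PT.lf (nat_lit 14668) (nat_lit 6) (nat_lit 193) (nat_lit 2) (nat_lit 285) (nat_lit 291) (nat_lit 204)) (PT.lf (nat_lit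 14288) (nat_lit 6) (nat_lit 188) (nat_lit 2) (nat_lit 286) (nat_lit 291) (nat_lit 203))) (PT.nd (nat_lit 78) (PT.lf (nat_lit 13908) (nat_lit 6) (nat_lit 183) (nat_lit 2) (nat_lit 287) (nat_lit 291) (nat_lit 202)) (PT.lf (nat_lit 13528) (nat_lit 6) (nat_lit 178) (nat_lit 2) (nat_lit 288) (nat_lit 291) (nat_lit 201)))) (PT.nd (nat_lit 156) (PT.nd (nat_lit 78) (PT.lf (nat_lit 13148) (nat_lit 6) (nat_lit 173) (nat_lit 2) (nat_lit 289) (nat_lit 291) (nat_lit 200)) (PT.lf (nat_lit 12768) (nat_lit 6) (nat_lit 168) (nat_lit 2) (nat_lit 290) (nat_lit 291) (nat_lit 199))) (PT.nd (nat_lit 78) (PT.lf (nat_lit 12388) (nat_lit 3) (nat_lit 163) (nat_lit 0) (nat_lit 291) (nat_lit 291) (nat_lit 198)) (PT.lf (nat_lit 12008) (nat_lit 6) (nat_lit 158) (nat_lit 0) (nat_lit 292) (nat_lit 291) (nat_lit 197))))) (PT.nd (nat_lit 312) (PT.nd (nat_lit 156) (PT.nd (nat_lit 78) (PT.lf (nat_lit 11552) (nat_lit 6) (nat_lit 152) (nat_lit 0) (nat_lit 293) (nat_lit 291) (nat_lit 196)) (PT.lf (nat_lit 11172) (nat_lit 6) (nat_lit 147) (nat_lit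 0) (nat_lit 294) (nat_lit 291) (nat_lit 195))) (PT.nd (nat_lit 78) (PT.lf (nat_lit 10716) (nat_lit 6) (nat_lit 141) (nat_lit 0) (nat_lit 295) (nat_lit 291) (nat_lit 194)) (PT.lf (nat_lit 10336) (nat_lit 6) (nat_lit 136) (nat_lit 0) (nat_lit 296) (nat_lit 291) (nat_lit 193)))) (PT.nd (nat_lit 73008) (PT.nd (nat_lit 72930) (PT.lf (nat_lit 9956) (nat_lit 6) (nat_lit 131) (nat_lit 0) (nat_lit 297) (nat_lit 291) (nat_lit 192)) (PT.lf (nat_lit 9652) (nat_lit 6) (nat_lit 127) (nat_lit 5) (nat_lit 191) (nat_lit 292) (nat_lit 297))) (PT.nd (nat_lit 78) (PT.lf (nat_lit 10032) (nat_lit 6) (nat_lit 132) (nat_lit 5) (nat_lit 192) (nat_lit 292) (nat_lit 296)) (PT.lf (nat_lit 10412) (nat_lit 6) (nat_lit 137) (nat_lit 5) (nat_lit 193) (nat_lit 292) (nat_lit 295))))))))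
noncomputable def pc60 : PT := (PT.nd (nat_lit 7956) (PT.nd (nat_lit 6708) (PT.nd (nat_lit 546) (PT.nd (nat_lit 234) (PT.nd (nat_lit 78) (PT.lf (nat_lit 10792) (nat_lit 6) (nat_lit 142) (nat_lit 5) (nat_lit 194) (nat_lit 292) (nat_lit 294)) (PT.nd (nat_lit 78) (PT.lf (nat_lit 11248) (nat_lit 6) (nat_lit 148) (nat_lit 5) (nat_lit 195) (nat_lit 292) (nat_lit 293)) (PT.lf (nat_lit 11628) (nat_lit 3) (nat_lit 153) (nat_lit 4) (nat_lit 196) (nat_lit 292) (nat_lit 292)))) (PT.nd (nat_lit 156) (PT.nd (nat_lit 78) (PT.lf (nat_lit 12008) (nat_lit 6) (nat_lit 158) (nat_lit 4) (nat_lit 197) (nat_lit 292) (nat_lit 291)) (PT.lf (nat_lit 12312) (nat_lit 6) (nat_lit 162) (nat_lit 4) (nat_lit 198) (nat_lit 292) (nat_lit 290))) (PT.nd (nat_lit 78) (PT.lf (nat_lit 12692) (nat_lit 6) (nat_lit 167) (nat_lit 4) (nat_lit 199) (nat_lit 292) (nat_lit 289)) (PT.lf (nat_lit 13072) (nat_lit 6) (nat_lit 172) (nat_lit 4) (nat_lit 200) (nat_lit 292) (nat_lit 288))))) (PT.nd (nat_lit 312) (PT.nd (nat_lit 156) (PT.nd (nat_lit 78) (PT.lf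 (nat_lit 13452) (nat_lit 6) (nat_lit 177) (nat_lit 4) (nat_lit 201) (nat_lit 292) (nat_lit 287)) (PT.lf (nat_lit 13832) (nat_lit 6) (nat_lit 182) (nat_lit 4) (nat_lit 202) (nat_lit 292) (nat_lit 286))) (PT.nd (nat_lit 78) (PT.lf (nat_lit 14212) (nat_lit 6) (nat_lit 187) (nat_lit 4) (nat_lit 203) (nat_lit 292) (nat_lit 285)) (PT.lf (nat_lit 14592) (nat_lit 6) (nat_lit 192) (nat_lit 4) (nat_lit 204) (nat_lit 292) (nat_lit 284)))) (PT.nd (nat_lit 156) (PT.nd (nat_lit 78) (PT.lf (nat_lit 15048) (nat_lit 6) (nat_lit 198) (nat_lit 4) (nat_lit 205) (nat_lit 292) (nat_lit 283)) (PT.lf (nat_lit 15428) (nat_lit 6) (nat_lit 203) (nat_lit 4) (nat_lit 206) (nat_lit 292) (nat_lit 282))) (PT.nd (nat_lit 78) (PT.lf (nat_lit 15884) (nat_lit 6) (nat_lit 209) (nat_lit 4) (nat_lit 207) (nat_lit 292) (nat_lit 281)) (PT.lf (nat_lit 16340) (nat_lit 6) (nat_lit 215) (nat_lit 4) (nat_lit 208) (nat_lit 292) (nat_lit 280)))))) (PT.nd (nat_lit 624) (PT.nd (nat_lit 312) (PT.nd (nat_lit 156) (PT.nd (nat_lit 78) (PT.lf (nat_lit 16340)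 (nat_lit 6) (nat_lit 215) (nat_lit 2) (nat_lit 280) (nat_lit 292) (nat_lit 208)) (PT.lf (nat_lit 15884) (nat_lit 6) (nat_lit 209) (nat_lit 2) (nat_lit 281) (nat_lit 292) (nat_lit 207))) (PT.nd (nat_lit 78) (PT.lf (nat_lit 15428) (nat_lit 6) (nat_lit 203) (nat_lit 2) (nat_lit 282) (nat_lit 292) (nat_lit 206)) (PT.lf (nat_lit 15048) (nat_lit 6) (nat_lit 198) (nat_lit 2) (nat_lit 283) (nat_lit 292) (nat_lit 205)))) (PT.nd (nat_lit 156) (PT.nd (nat_lit 78) (PT.lf (nat_lit 14592) (nat_lit 6) (nat_lit 192) (nat_lit 2) (nat_lit 284) (nat_lit 292) (nat_lit 204)) (PT.lf (nat_lit 14212) (nat_lit 6) (nat_lit 187) (nat_lit 2) (nat_lit 285) (nat_lit 292) (nat_lit 203))) (PT.nd (nat_lit 78) (PT.lf (nat_lit 13832) (nat_lit 6) (nat_lit 182) (nat_lit 2) (nat_lit 286) (nat_lit 292) (nat_lit 202)) (PT.lf (nat_lit 13452) (nat_lit 6) (nat_lit 177) (nat_lit 2) (nat_lit 287) (nat_lit 292) (nat_lit 201))))) (PT.nd (nat_lit 312) (PT.nd (nat_lit 156) (PT.nd (nat_lit 78) (PT.lf (nat_lit 13072) (nat_lit 6) (nat_lit 172) (nat_lit 2)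 (nat_lit 288) (nat_lit 292) (nat_lit 200)) (PT.lf (nat_lit 12692) (nat_lit 6) (nat_lit 167) (nat_lit 2) (nat_lit 289) (nat_lit 292) (nat_lit 199))) (PT.nd (nat_lit 78) (PT.lf (nat_lit 12312) (nat_lit 6) (nat_lit 162) (nat_lit 2) (nat_lit 290) (nat_lit 292) (nat_lit 198)) (PT.lf (nat_lit 12008) (nat_lit 6) (nat_lit 158) (nat_lit 2) (nat_lit 291) (nat_lit 292) (nat_lit 197)))) (PT.nd (nat_lit 156) (PT.nd (nat_lit 78) (PT.lf (nat_lit 11628) (nat_lit 3) (nat_lit 153) (nat_lit 0) (nat_lit 292) (nat_lit 292) (nat_lit 196)) (PT.lf (nat_lit 11248) (nat_lit 6) (nat_lit 148) (nat_lit 0) (nat_lit 293) (nat_lit 292) (nat_lit 195))) (PT.nd (nat_lit 78) (PT.lf (nat_lit 10792) (nat_lit 6) (nat_lit 142) (nat_lit 0) (nat_lit 294) (nat_lit 292) (nat_lit 194)) (PT.lf (nat_lit 10412) (nat_lit 6) (nat_lit 137) (nat_lit 0) (nat_lit 295) (nat_lit 292) (nat_lit 193))))))) (PT.nd (nat_lit 73866) (PT.nd (nat_lit 73242) (PT.nd (nat_lit 72930) (PT.nd (nat_lit 78) (PT.lf (nat_lit 10032) (nat_lit 6) (nat_lit 132) (nat_lit 0) (nat_lit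 296) (nat_lit 292) (nat_lit 192)) (PT.nd (nat_lit 72774) (PT.lf (nat_lit 9652) (nat_lit 6) (nat_lit 127) (nat_lit 0) (nat_lit 297) (nat_lit 292) (nat_lit 191)) (PT.lf (nat_lit 8968) (nat_lit 6) (nat_lit 118) (nat_lit 5) (nat_lit 189) (nat_lit 293) (nat_lit 298)))) (PT.nd (nat_lit 156) (PT.nd (nat_lit 78) (PT.lf (nat_lit 9348) (nat_lit 6) (nat_lit 123) (nat_lit 5) (nat_lit 190) (nat_lit 293) (nat_lit 297)) (PT.lf (nat_lit 9728) (nat_lit 6) (nat_lit 128) (nat_lit 5) (nat_lit 191) (nat_lit 293) (nat_lit 296))) (PT.nd (nat_lit 78) (PT.lf (nat_lit 10108) (nat_lit 6) (nat_lit 133) (nat_lit 5) (nat_lit 192) (nat_lit 293) (nat_lit 295)) (PT.lf (nat_lit 10488) (nat_lit 6) (nat_lit 138) (nat_lit 5) (nat_lit 193) (nat_lit 293) (nat_lit 294))))) (PT.nd (nat_lit 312) (PT.nd (nat_lit 156) (PT.nd (nat_lit 78) (PT.lf (nat_lit 10868) (nat_lit 3) (nat_lit 143) (nat_lit 4) (nat_lit 194) (nat_lit 293) (nat_lit 293)) (PT.lf (nat_lit 11248) (nat_lit 6) (nat_lit 148) (nat_lit 4) (nat_lit 195) (nat_lit 293) (nat_lit 292))) (PT.nd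 (nat_lit 78) (PT.lf (nat_lit 11552) (nat_lit 6) (nat_lit 152) (nat_lit 4) (nat_lit 196) (nat_lit 293) (nat_lit 291)) (PT.lf (nat_lit 11932) (nat_lit 6) (nat_lit 157) (nat_lit 4) (nat_lit 197) (nat_lit 293) (nat_lit 290)))) (PT.nd (nat_lit 156) (PT.nd (nat_lit 78) (PT.lf (nat_lit 12236) (nat_lit 6) (nat_lit 161) (nat_lit 4) (nat_lit 198) (nat_lit 293) (nat_lit 289)) (PT.lf (nat_lit 12616) (nat_lit 6) (nat_lit 166) (nat_lit 4) (nat_lit 199) (nat_lit 293) (nat_lit 288))) (PT.nd (nat_lit 78) (PT.lf (nat_lit 12996) (nat_lit 6) (nat_lit 171) (nat_lit 4) (nat_lit 200) (nat_lit 293) (nat_lit 287)) (PT.lf (nat_lit 13376) (nat_lit 6) (nat_lit 176) (nat_lit 4) (nat_lit 201) (nat_lit 293) (nat_lit 286)))))) (PT.nd (nat_lit 6552) (PT.nd (nat_lit 6240) (PT.nd (nat_lit 156) (PT.nd (nat_lit 78) (PT.lf (nat_lit 13756) (nat_lit 6) (nat_lit 181) (nat_lit 4) (nat_lit 202) (nat_lit 293) (nat_lit 285)) (PT.lf (nat_lit 14136) (nat_lit 6) (nat_lit 186) (nat_lit 4) (nat_lit 203) (nat_lit 293) (nat_lit 284))) (PT.nd (nat_lit 78)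 (PT.lf (nat_lit 14516) (nat_lit 6) (nat_lit 191) (nat_lit 4) (nat_lit 204) (nat_lit 293) (nat_lit 283)) (PT.lf (nat_lit 14972) (nat_lit 6) (nat_lit 197) (nat_lit 4) (nat_lit 205) (nat_lit 293) (nat_lit 282)))) (PT.nd (nat_lit 156) (PT.nd (nat_lit 78) (PT.lf (nat_lit 14972) (nat_lit 6) (nat_lit 197) (nat_lit 2) (nat_lit 282) (nat_lit 293) (nat_lit 205)) (PT.lf (nat_lit 14516) (nat_lit 6) (nat_lit 191) (nat_lit 2) (nat_lit 283) (nat_lit 293) (nat_lit 204))) (PT.nd (nat_lit 78) (PT.lf (nat_lit 14136) (nat_lit 6) (nat_lit 186) (nat_lit 2) (nat_lit 284) (nat_lit 293) (nat_lit 203)) (PT.lf (nat_lit 13756) (nat_lit 6) (nat_lit 181) (nat_lit 2) (nat_lit 285) (nat_lit 293) (nat_lit 202))))) (PT.nd (nat_lit 312) (PT.nd (nat_lit 156) (PT.nd (nat_lit 78) (PT.lf (nat_lit 13376) (nat_lit 6) (nat_lit 176) (nat_lit 2) (nat_lit 286) (nat_lit 293) (nat_lit 201)) (PT.lf (nat_lit 12996) (nat_lit 6) (nat_lit 171) (nat_lit 2) (nat_lit 287) (nat_lit 293) (nat_lit 200))) (PT.nd (nat_lit 78) (PT.lf (nat_lit 12616) (nat_lit 6) (nat_lit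 166) (nat_lit 2) (nat_lit 288) (nat_lit 293) (nat_lit 199)) (PT.lf (nat_lit 12236) (nat_lit 6) (nat_lit 161) (nat_lit 2) (nat_lit 289) (nat_lit 293) (nat_lit 198)))) (PT.nd (nat_lit 156) (PT.nd (nat_lit 78) (PT.lf (nat_lit 11932) (nat_lit 6) (nat_lit 157) (nat_lit 2) (nat_lit 290) (nat_lit 293) (nat_lit 197)) (PT.lf (nat_lit 11552) (nat_lit 6) (nat_lit 152) (nat_lit 2) (nat_lit 291) (nat_lit 293) (nat_lit 196))) (PT.nd (nat_lit 78) (PT.lf (nat_lit 11248) (nat_lit 6) (nat_lit 148) (nat_lit 2) (nat_lit 292) (nat_lit 293) (nat_lit 195)) (PT.lf (nat_lit 10868) (nat_lit 3) (nat_lit 143) (nat_lit 0) (nat_lit 293) (nat_lit 293) (nat_lit 194))))))))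
noncomputable def pc61 : PT := (PT.nd (nat_lit 81198) (PT.nd (nat_lit 73632) (PT.nd (nat_lit 73008) (PT.nd (nat_lit 234) (PT.nd (nat_lit 78) (PT.lf (nat_lit 10488) (nat_lit 6) (nat_lit 138) (nat_lit 0) (nat_lit 294) (nat_lit 293) (nat_lit 193)) (PT.nd (nat_lit 78) (PT.lf (nat_lit 10108) (nat_lit 6) (nat_lit 133) (nat_lit 0) (nat_lit 295) (nat_lit 293) (nat_lit 192)) (PT.lf (nat_lit 9728) (nat_lit 6) (nat_lit 128) (nat_lit 0) (nat_lit 296) (nat_lit 293) (nat_lit 191)))) (PT.nd (nat_lit 72618) (PT.nd (nat_lit 78) (PT.lf (nat_lit 9348) (nat_lit 6) (nat_lit 123) (nat_lit 0) (nat_lit 297) (nat_lit 293) (nat_lit 190)) (PT.lf (nat_lit 8968) (nat_lit 6) (nat_lit 118) (nat_lit 0) (nat_lit 298) (nat_lit 293) (nat_lit 189))) (PT.nd (nat_lit 78) (PT.lf (nat_lit 8360) (nat_lit 6) (nat_lit 110) (nat_lit 5) (nat_lit 187) (nat_lit 294) (nat_lit 299)) (PT.lf (nat_lit 8664) (nat_lit 6) (nat_lit 114) (nat_lit 5) (nat_lit 188) (nat_lit 294) (nat_lit 298))))) (PT.nd (nat_lit 312) (PT.nd (nat_lit 156) (PT.nd (nat_lit 78) (PT.lf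 (nat_lit 9044) (nat_lit 6) (nat_lit 119) (nat_lit 5) (nat_lit 189) (nat_lit 294) (nat_lit 297)) (PT.lf (nat_lit 9424) (nat_lit 6) (nat_lit 124) (nat_lit 5) (nat_lit 190) (nat_lit 294) (nat_lit 296))) (PT.nd (nat_lit 78) (PT.lf (nat_lit 9804) (nat_lit 6) (nat_lit 129) (nat_lit 5) (nat_lit 191) (nat_lit 294) (nat_lit 295)) (PT.lf (nat_lit 10184) (nat_lit 3) (nat_lit 134) (nat_lit 4) (nat_lit 192) (nat_lit 294) (nat_lit 294)))) (PT.nd (nat_lit 156) (PT.nd (nat_lit 78) (PT.lf (nat_lit 10488) (nat_lit 6) (nat_lit 138) (nat_lit 4) (nat_lit 193) (nat_lit 294) (nat_lit 293)) (PT.lf (nat_lit 10792) (nat_lit 6) (nat_lit 142) (nat_lit 4) (nat_lit 194) (nat_lit 294) (nat_lit 292))) (PT.nd (nat_lit 78) (PT.lf (nat_lit 11172) (nat_lit 6) (nat_lit 147) (nat_lit 4) (nat_lit 195) (nat_lit 294) (nat_lit 291)) (PT.lf (nat_lit 11476) (nat_lit 6) (nat_lit 151) (nat_lit 4) (nat_lit 196) (nat_lit 294) (nat_lit 290)))))) (PT.nd (nat_lit 6942) (PT.nd (nat_lit 312) (PT.nd (nat_lit 156) (PT.nd (nat_lit 78) (PT.lf (nat_lit 11856) (nat_lit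 6) (nat_lit 156) (nat_lit 4) (nat_lit 197) (nat_lit 294) (nat_lit 289)) (PT.lf (nat_lit 12160) (nat_lit 6) (nat_lit 160) (nat_lit 4) (nat_lit 198) (nat_lit 294) (nat_lit 288))) (PT.nd (nat_lit 78) (PT.lf (nat_lit 12540) (nat_lit 6) (nat_lit 165) (nat_lit 4) (nat_lit 199) (nat_lit 294) (nat_lit 287)) (PT.lf (nat_lit 12920) (nat_lit 6) (nat_lit 170) (nat_lit 4) (nat_lit 200) (nat_lit 294) (nat_lit 286)))) (PT.nd (nat_lit 6474) (PT.nd (nat_lit 78) (PT.lf (nat_lit 13300) (nat_lit 6) (nat_lit 175) (nat_lit 4) (nat_lit 201) (nat_lit 294) (nat_lit 285)) (PT.lf (nat_lit 13680) (nat_lit 6) (nat_lit 180) (nat_lit 4) (nat_lit 202) (nat_lit 294) (nat_lit 284))) (PT.nd (nat_lit 78) (PT.lf (nat_lit 13680) (nat_lit 6) (nat_lit 180) (nat_lit 2) (nat_lit 284) (nat_lit 294) (nat_lit 202)) (PT.lf (nat_lit 13300) (nat_lit 6) (nat_lit 175) (nat_lit 2) (nat_lit 285) (nat_lit 294) (nat_lit 201))))) (PT.nd (nat_lit 312) (PT.nd (nat_lit 156) (PT.nd (nat_lit 78) (PT.lf (nat_lit 12920) (nat_lit 6) (nat_lit 170) (nat_lit 2) (nat_lit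 286) (nat_lit 294) (nat_lit 200)) (PT.lf (nat_lit 12540) (nat_lit 6) (nat_lit 165) (nat_lit 2) (nat_lit 287) (nat_lit 294) (nat_lit 199))) (PT.nd (nat_lit 78) (PT.lf (nat_lit 12160) (nat_lit 6) (nat_lit 160) (nat_lit 2) (nat_lit 288) (nat_lit 294) (nat_lit 198)) (PT.lf (nat_lit 11856) (nat_lit 6) (nat_lit 156) (nat_lit 2) (nat_lit 289) (nat_lit 294) (nat_lit 197)))) (PT.nd (nat_lit 156) (PT.nd (nat_lit 78) (PT.lf (nat_lit 11476) (nat_lit 6) (nat_lit 151) (nat_lit 2) (nat_lit 290) (nat_lit 294) (nat_lit 196)) (PT.lf (nat_lit 11172) (nat_lit 6) (nat_lit 147) (nat_lit 2) (nat_lit 291) (nat_lit 294) (nat_lit 195))) (PT.nd (nat_lit 78) (PT.lf (nat_lit 10792) (nat_lit 6) (nat_lit 142) (nat_lit 2) (nat_lit 292) (nat_lit 294) (nat_lit 194)) (PT.lf (nat_lit 10488) (nat_lit 6) (nat_lit 138) (nat_lit 2) (nat_lit 293) (nat_lit 294) (nat_lit 193))))))) (PT.nd (nat_lit 73554) (PT.nd (nat_lit 72930) (PT.nd (nat_lit 312) (PT.nd (nat_lit 156) (PT.nd (nat_lit 78) (PT.lf (nat_lit 10184) (nat_lit 3) (nat_lit 134) (nat_lit 0)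 (nat_lit 294) (nat_lit 294) (nat_lit 192)) (PT.lf (nat_lit 9804) (nat_lit 6) (nat_lit 129) (nat_lit 0) (nat_lit 295) (nat_lit 294) (nat_lit 191))) (PT.nd (nat_lit 78) (PT.lf (nat_lit 9424) (nat_lit 6) (nat_lit 124) (nat_lit 0) (nat_lit 296) (nat_lit 294) (nat_lit 190)) (PT.lf (nat_lit 9044) (nat_lit 6) (nat_lit 119) (nat_lit 0) (nat_lit 297) (nat_lit 294) (nat_lit 189)))) (PT.nd (nat_lit 72462) (PT.nd (nat_lit 78) (PT.lf (nat_lit 8664) (nat_lit 6) (nat_lit 114) (nat_lit 0) (nat_lit 298) (nat_lit 294) (nat_lit 188)) (PT.lf (nat_lit 8360) (nat_lit 6) (nat_lit 110) (nat_lit 0) (nat_lit 299) (nat_lit 294) (nat_lit 187))) (PT.nd (nat_lit 78) (PT.lf (nat_lit 8056) (nat_lit 6) (nat_lit 106) (nat_lit 5) (nat_lit 186) (nat_lit 295) (nat_lit 299)) (PT.lf (nat_lit 8436) (nat_lit 6) (nat_lit 111) (nat_lit 5) (nat_lit 187) (nat_lit 295) (nat_lit 298))))) (PT.nd (nat_lit 312) (PT.nd (nat_lit 156) (PT.nd (nat_lit 78) (PT.lf (nat_lit 8740) (nat_lit 6) (nat_lit 115) (nat_lit 5) (nat_lit 188) (nat_lit 295) (nat_lit 297))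 (PT.lf (nat_lit 9120) (nat_lit 6) (nat_lit 120) (nat_lit 5) (nat_lit 189) (nat_lit 295) (nat_lit 296))) (PT.nd (nat_lit 78) (PT.lf (nat_lit 9500) (nat_lit 3) (nat_lit 125) (nat_lit 4) (nat_lit 190) (nat_lit 295) (nat_lit 295)) (PT.lf (nat_lit 9804) (nat_lit 6) (nat_lit 129) (nat_lit 4) (nat_lit 191) (nat_lit 295) (nat_lit 294)))) (PT.nd (nat_lit 156) (PT.nd (nat_lit 78) (PT.lf (nat_lit 10108) (nat_lit 6) (nat_lit 133) (nat_lit 4) (nat_lit 192) (nat_lit 295) (nat_lit 293)) (PT.lf (nat_lit 10412) (nat_lit 6) (nat_lit 137) (nat_lit 4) (nat_lit 193) (nat_lit 295) (nat_lit 292))) (PT.nd (nat_lit 78) (PT.lf (nat_lit 10716) (nat_lit 6) (nat_lit 141) (nat_lit 4) (nat_lit 194) (nat_lit 295) (nat_lit 291)) (PT.lf (nat_lit 11096) (nat_lit 6) (nat_lit 146) (nat_lit 4) (nat_lit 195) (nat_lit 295) (nat_lit 290)))))) (PT.nd (nat_lit 7176) (PT.nd (nat_lit 312) (PT.nd (nat_lit 156) (PT.nd (nat_lit 78) (PT.lf (nat_lit 11400) (nat_lit 6) (nat_lit 150) (nat_lit 4) (nat_lit 196) (nat_lit 295) (nat_lit 289)) (PT.lf (nat_lit 11780)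 (nat_lit 6) (nat_lit 155) (nat_lit 4) (nat_lit 197) (nat_lit 295) (nat_lit 288))) (PT.nd (nat_lit 78) (PT.lf (nat_lit 12084) (nat_lit 6) (nat_lit 159) (nat_lit 4) (nat_lit 198) (nat_lit 295) (nat_lit 287)) (PT.lf (nat_lit 12464) (nat_lit 6) (nat_lit 164) (nat_lit 4) (nat_lit 199) (nat_lit 295) (nat_lit 286)))) (PT.nd (nat_lit 6708) (PT.nd (nat_lit 6630) (PT.lf (nat_lit 12844) (nat_lit 6) (nat_lit 169) (nat_lit 4) (nat_lit 200) (nat_lit 295) (nat_lit 285)) (PT.lf (nat_lit 12844) (nat_lit 6) (nat_lit 169) (nat_lit 2) (nat_lit 285) (nat_lit 295) (nat_lit 200))) (PT.nd (nat_lit 78) (PT.lf (nat_lit 12464) (nat_lit 6) (nat_lit 164) (nat_lit 2) (nat_lit 286) (nat_lit 295) (nat_lit 199)) (PT.lf (nat_lit 12084) (nat_lit 6) (nat_lit 159) (nat_lit 2) (nat_lit 287) (nat_lit 295) (nat_lit 198))))) (PT.nd (nat_lit 312) (PT.nd (nat_lit 156) (PT.nd (nat_lit 78) (PT.lf (nat_lit 11780) (nat_lit 6) (nat_lit 155) (nat_lit 2) (nat_lit 288) (nat_lit 295) (nat_lit 197)) (PT.lf (nat_lit 11400) (nat_lit 6) (nat_lit 150) (nat_lit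 2) (nat_lit 289) (nat_lit 295) (nat_lit 196))) (PT.nd (nat_lit 78) (PT.lf (nat_lit 11096) (nat_lit 6) (nat_lit 146) (nat_lit 2) (nat_lit 290) (nat_lit 295) (nat_lit 195)) (PT.lf (nat_lit 10716) (nat_lit 6) (nat_lit 141) (nat_lit 2) (nat_lit 291) (nat_lit 295) (nat_lit 194)))) (PT.nd (nat_lit 156) (PT.nd (nat_lit 78) (PT.lf (nat_lit 10412) (nat_lit 6) (nat_lit 137) (nat_lit 2) (nat_lit 292) (nat_lit 295) (nat_lit 193)) (PT.lf (nat_lit 10108) (nat_lit 6) (nat_lit 133) (nat_lit 2) (nat_lit 293) (nat_lit 295) (nat_lit 192))) (PT.nd (nat_lit 78) (PT.lf (nat_lit 9804) (nat_lit 6) (nat_lit 129) (nat_lit 2) (nat_lit 294) (nat_lit 295) (nat_lit 191)) (PT.lf (nat_lit 9500) (nat_lit 3) (nat_lit 125) (nat_lit 0) (nat_lit 295) (nat_lit 295) (nat_lit 190))))))))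
noncomputable def pc62 : PT := (PT.nd (nat_lit 81510) (PT.nd (nat_lit 73320) (PT.nd (nat_lit 72696) (PT.nd (nat_lit 234) (PT.nd (nat_lit 78) (PT.lf (nat_lit 9120) (nat_lit 6) (nat_lit 120) (nat_lit 0) (nat_lit 296) (nat_lit 295) (nat_lit 189)) (PT.nd (nat_lit 78) (PT.lf (nat_lit 8740) (nat_lit 6) (nat_lit 115) (nat_lit 0) (nat_lit 297) (nat_lit 295) (nat_lit 188)) (PT.lf (nat_lit 8436) (nat_lit 6) (nat_lit 111) (nat_lit 0) (nat_lit 298) (nat_lit 295) (nat_lit 187)))) (PT.nd (nat_lit 72306) (PT.nd (nat_lit 72228) (PT.lf (nat_lit 8056) (nat_lit 6) (nat_lit 106) (nat_lit 0) (nat_lit 299) (nat_lit 295) (nat_lit 186)) (PT.lf (nat_lit 7448) (nat_lit 6) (nat_lit 98) (nat_lit 5) (nat_lit 184) (nat_lit 296) (nat_lit 300))) (PT.nd (nat_lit 78) (PT.lf (nat_lit 7828) (nat_lit 6) (nat_lit 103) (nat_lit 5) (nat_lit 185) (nat_lit 296) (nat_lit 299)) (PT.lf (nat_lit 8132) (nat_lit 6) (nat_lit 107) (nat_lit 5) (nat_lit 186) (nat_lit 296) (nat_lit 298))))) (PT.nd (nat_lit 312) (PT.nd (nat_lit 156) (PT.nd (nat_lit 78) (PT.lf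 (nat_lit 8512) (nat_lit 6) (nat_lit 112) (nat_lit 5) (nat_lit 187) (nat_lit 296) (nat_lit 297)) (PT.lf (nat_lit 8816) (nat_lit 3) (nat_lit 116) (nat_lit 4) (nat_lit 188) (nat_lit 296) (nat_lit 296))) (PT.nd (nat_lit 78) (PT.lf (nat_lit 9120) (nat_lit 6) (nat_lit 120) (nat_lit 4) (nat_lit 189) (nat_lit 296) (nat_lit 295)) (PT.lf (nat_lit 9424) (nat_lit 6) (nat_lit 124) (nat_lit 4) (nat_lit 190) (nat_lit 296) (nat_lit 294)))) (PT.nd (nat_lit 156) (PT.nd (nat_lit 78) (PT.lf (nat_lit 9728) (nat_lit 6) (nat_lit 128) (nat_lit 4) (nat_lit 191) (nat_lit 296) (nat_lit 293)) (PT.lf (nat_lit 10032) (nat_lit 6) (nat_lit 132) (nat_lit 4) (nat_lit 192) (nat_lit 296) (nat_lit 292))) (PT.nd (nat_lit 78) (PT.lf (nat_lit 10336) (nat_lit 6) (nat_lit 136) (nat_lit 4) (nat_lit 193) (nat_lit 296) (nat_lit 291)) (PT.lf (nat_lit 10640) (nat_lit 6) (nat_lit 140) (nat_lit 4) (nat_lit 194) (nat_lit 296) (nat_lit 290)))))) (PT.nd (nat_lit 7566) (PT.nd (nat_lit 7254) (PT.nd (nat_lit 156) (PT.nd (nat_lit 78) (PT.lf (nat_lit 11020) (nat_lit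 6) (nat_lit 145) (nat_lit 4) (nat_lit 195) (nat_lit 296) (nat_lit 289)) (PT.lf (nat_lit 11324) (nat_lit 6) (nat_lit 149) (nat_lit 4) (nat_lit 196) (nat_lit 296) (nat_lit 288))) (PT.nd (nat_lit 7020) (PT.lf (nat_lit 11704) (nat_lit 6) (nat_lit 154) (nat_lit 4) (nat_lit 197) (nat_lit 296) (nat_lit 287)) (PT.lf (nat_lit 11704) (nat_lit 6) (nat_lit 154) (nat_lit 2) (nat_lit 287) (nat_lit 296) (nat_lit 197)))) (PT.nd (nat_lit 156) (PT.nd (nat_lit 78) (PT.lf (nat_lit 11324) (nat_lit 6) (nat_lit 149) (nat_lit 2) (nat_lit 288) (nat_lit 296) (nat_lit 196)) (PT.lf (nat_lit 11020) (nat_lit 6) (nat_lit 145) (nat_lit 2) (nat_lit 289) (nat_lit 296) (nat_lit 195))) (PT.nd (nat_lit 78) (PT.lf (nat_lit 10640) (nat_lit 6) (nat_lit 140) (nat_lit 2) (nat_lit 290) (nat_lit 296) (nat_lit 194)) (PT.lf (nat_lit 10336) (nat_lit 6) (nat_lit 136) (nat_lit 2) (nat_lit 291) (nat_lit 296) (nat_lit 193))))) (PT.nd (nat_lit 312) (PT.nd (nat_lit 156) (PT.nd (nat_lit 78) (PT.lf (nat_lit 10032) (nat_lit 6) (nat_lit 132) (nat_lit 2) (nat_lit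 292) (nat_lit 296) (nat_lit 192)) (PT.lf (nat_lit 9728) (nat_lit 6) (nat_lit 128) (nat_lit 2) (nat_lit 293) (nat_lit 296) (nat_lit 191))) (PT.nd (nat_lit 78) (PT.lf (nat_lit 9424) (nat_lit 6) (nat_lit 124) (nat_lit 2) (nat_lit 294) (nat_lit 296) (nat_lit 190)) (PT.lf (nat_lit 9120) (nat_lit 6) (nat_lit 120) (nat_lit 2) (nat_lit 295) (nat_lit 296) (nat_lit 189)))) (PT.nd (nat_lit 156) (PT.nd (nat_lit 78) (PT.lf (nat_lit 8816) (nat_lit 3) (nat_lit 116) (nat_lit 0) (nat_lit 296) (nat_lit 296) (nat_lit 188)) (PT.lf (nat_lit 8512) (nat_lit 6) (nat_lit 112) (nat_lit 0) (nat_lit 297) (nat_lit 296) (nat_lit 187))) (PT.nd (nat_lit 78) (PT.lf (nat_lit 8132) (nat_lit 6) (nat_lit 107) (nat_lit 0) (nat_lit 298) (nat_lit 296) (nat_lit 186)) (PT.lf (nat_lit 7828) (nat_lit 6) (nat_lit 103) (nat_lit 0) (nat_lit 299) (nat_lit 296) (nat_lit 185))))))) (PT.nd (nat_lit 80730) (PT.nd (nat_lit 72618) (PT.nd (nat_lit 72306) (PT.nd (nat_lit 72150) (PT.nd (nat_lit 72072) (PT.lf (nat_lit 7448) (nat_lit 6) (nat_lit 98) (nat_lit 0)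 (nat_lit 300) (nat_lit 296) (nat_lit 184)) (PT.lf (nat_lit 7220) (nat_lit 6) (nat_lit 95) (nat_lit 5) (nat_lit 183) (nat_lit 297) (nat_lit 300))) (PT.nd (nat_lit 78) (PT.lf (nat_lit 7524) (nat_lit 6) (nat_lit 99) (nat_lit 5) (nat_lit 184) (nat_lit 297) (nat_lit 299)) (PT.lf (nat_lit 7904) (nat_lit 6) (nat_lit 104) (nat_lit 5) (nat_lit 185) (nat_lit 297) (nat_lit 298)))) (PT.nd (nat_lit 156) (PT.nd (nat_lit 78) (PT.lf (nat_lit 8208) (nat_lit 3) (nat_lit 108) (nat_lit 4) (nat_lit 186) (nat_lit 297) (nat_lit 297)) (PT.lf (nat_lit 8512) (nat_lit 6) (nat_lit 112) (nat_lit 4) (nat_lit 187) (nat_lit 297) (nat_lit 296))) (PT.nd (nat_lit 78) (PT.lf (nat_lit 8740) (nat_lit 6) (nat_lit 115) (nat_lit 4) (nat_lit 188) (nat_lit 297) (nat_lit 295)) (PT.lf (nat_lit 9044) (nat_lit 6) (nat_lit 119) (nat_lit 4) (nat_lit 189) (nat_lit 297) (nat_lit 294))))) (PT.nd (nat_lit 7644) (PT.nd (nat_lit 156) (PT.nd (nat_lit 78) (PT.lf (nat_lit 9348) (nat_lit 6) (nat_lit 123) (nat_lit 4) (nat_lit 190) (nat_lit 297) (nat_lit 293)) (PT.lf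 (nat_lit 9652) (nat_lit 6) (nat_lit 127) (nat_lit 4) (nat_lit 191) (nat_lit 297) (nat_lit 292))) (PT.nd (nat_lit 234) (PT.lf (nat_lit 9956) (nat_lit 6) (nat_lit 131) (nat_lit 4) (nat_lit 192) (nat_lit 297) (nat_lit 291)) (PT.lf (nat_lit 10944) (nat_lit 6) (nat_lit 144) (nat_lit 4) (nat_lit 195) (nat_lit 297) (nat_lit 288)))) (PT.nd (nat_lit 312) (PT.nd (nat_lit 234) (PT.lf (nat_lit 10944) (nat_lit 6) (nat_lit 144) (nat_lit 2) (nat_lit 288) (nat_lit 297) (nat_lit 195)) (PT.lf (nat_lit 9956) (nat_lit 6) (nat_lit 131) (nat_lit 2) (nat_lit 291) (nat_lit 297) (nat_lit 192))) (PT.nd (nat_lit 78) (PT.lf (nat_lit 9652) (nat_lit 6) (nat_lit 127) (nat_lit 2) (nat_lit 292) (nat_lit 297) (nat_lit 191)) (PT.lf (nat_lit 9348) (nat_lit 6) (nat_lit 123) (nat_lit 2) (nat_lit 293) (nat_lit 297) (nat_lit 190)))))) (PT.nd (nat_lit 72462) (PT.nd (nat_lit 312) (PT.nd (nat_lit 156) (PT.nd (nat_lit 78) (PT.lf (nat_lit 9044) (nat_lit 6) (nat_lit 119) (nat_lit 2) (nat_lit 294) (nat_lit 297) (nat_lit 189)) (PT.lf (nat_lit 8740) (nat_lit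 6) (nat_lit 115) (nat_lit 2) (nat_lit 295) (nat_lit 297) (nat_lit 188))) (PT.nd (nat_lit 78) (PT.lf (nat_lit 8512) (nat_lit 6) (nat_lit 112) (nat_lit 2) (nat_lit 296) (nat_lit 297) (nat_lit 187)) (PT.lf (nat_lit 8208) (nat_lit 3) (nat_lit 108) (nat_lit 0) (nat_lit 297) (nat_lit 297) (nat_lit 186)))) (PT.nd (nat_lit 156) (PT.nd (nat_lit 78) (PT.lf (nat_lit 7904) (nat_lit 6) (nat_lit 104) (nat_lit 0) (nat_lit 298) (nat_lit 297) (nat_lit 185)) (PT.lf (nat_lit 7524) (nat_lit 6) (nat_lit 99) (nat_lit 0) (nat_lit 299) (nat_lit 297) (nat_lit 184))) (PT.nd (nat_lit 71916) (PT.lf (nat_lit 7220) (nat_lit 6) (nat_lit 95) (nat_lit 0) (nat_lit 300) (nat_lit 297) (nat_lit 183)) (PT.lf (nat_lit 6688) (nat_lit 6) (nat_lit 88) (nat_lit 5) (nat_lit 181) (nat_lit 298) (nat_lit 301))))) (PT.nd (nat_lit 312) (PT.nd (nat_lit 156) (PT.nd (nat_lit 78) (PT.lf (nat_lit 6992) (nat_lit 6) (nat_lit 92) (nat_lit 5) (nat_lit 182) (nat_lit 298) (nat_lit 300)) (PT.lf (nat_lit 7296) (nat_lit 6) (nat_lit 96) (nat_lit 5) (nat_lit 183) (nat_lit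 298) (nat_lit 299))) (PT.nd (nat_lit 78) (PT.lf (nat_lit 7600) (nat_lit 3) (nat_lit 100) (nat_lit 4) (nat_lit 184) (nat_lit 298) (nat_lit 298)) (PT.lf (nat_lit 7904) (nat_lit 6) (nat_lit 104) (nat_lit 4) (nat_lit 185) (nat_lit 298) (nat_lit 297)))) (PT.nd (nat_lit 156) (PT.nd (nat_lit 78) (PT.lf (nat_lit 8132) (nat_lit 6) (nat_lit 107) (nat_lit 4) (nat_lit 186) (nat_lit 298) (nat_lit 296)) (PT.lf (nat_lit 8436) (nat_lit 6) (nat_lit 111) (nat_lit 4) (nat_lit 187) (nat_lit 298) (nat_lit 295))) (PT.nd (nat_lit 78) (PT.lf (nat_lit 8664) (nat_lit 6) (nat_lit 114) (nat_lit 4) (nat_lit 188) (nat_lit 298) (nat_lit 294)) (PT.lf (nat_lit 8968) (nat_lit 6) (nat_lit 118) (nat_lit 4) (nat_lit 189) (nat_lit 298) (nat_lit 293))))))))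
noncomputable def pc63 : PT := (PT.nd (nat_lit 153738) (PT.nd (nat_lit 72774) (PT.nd (nat_lit 546) (PT.nd (nat_lit 234) (PT.nd (nat_lit 78) (PT.lf (nat_lit 8968) (nat_lit 6) (nat_lit 118) (nat_lit 2) (nat_lit 293) (nat_lit 298) (nat_lit 189)) (PT.nd (nat_lit 78) (PT.lf (nat_lit 8664) (nat_lit 6) (nat_lit 114) (nat_lit 2) (nat_lit 294) (nat_lit 298) (nat_lit 188)) (PT.lf (nat_lit 8436) (nat_lit 6) (nat_lit 111) (nat_lit 2) (nat_lit 295) (nat_lit 298) (nat_lit 187)))) (PT.nd (nat_lit 156) (PT.nd (nat_lit 78) (PT.lf (nat_lit 8132) (nat_lit 6) (nat_lit 107) (nat_lit 2) (nat_lit 296) (nat_lit 298) (nat_lit 186)) (PT.lf (nat_lit 7904) (nat_lit 6) (nat_lit 104) (nat_lit 2) (nat_lit 297) (nat_lit 298) (nat_lit 185))) (PT.nd (nat_lit 78) (PT.lf (nat_lit 7600) (nat_lit 3) (nat_lit 100) (nat_lit 0) (nat_lit 298) (nat_lit 298) (nat_lit 184)) (PT.lf (nat_lit 7296) (nat_lit 6) (nat_lit 96) (nat_lit 0) (nat_lit 299) (nat_lit 298) (nat_lit 183))))) (PT.nd (nat_lit 71916) (PT.nd (nat_lit 71760) (PT.nd (nat_lit 78) (PT.lf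 (nat_lit 6992) (nat_lit 6) (nat_lit 92) (nat_lit 0) (nat_lit 300) (nat_lit 298) (nat_lit 182)) (PT.lf (nat_lit 6688) (nat_lit 6) (nat_lit 88) (nat_lit 0) (nat_lit 301) (nat_lit 298) (nat_lit 181))) (PT.nd (nat_lit 78) (PT.lf (nat_lit 6156) (nat_lit 6) (nat_lit 81) (nat_lit 5) (nat_lit 179) (nat_lit 299) (nat_lit 302)) (PT.lf (nat_lit 6460) (nat_lit 6) (nat_lit 85) (nat_lit 5) (nat_lit 180) (nat_lit 299) (nat_lit 301)))) (PT.nd (nat_lit 156) (PT.nd (nat_lit 78) (PT.lf (nat_lit 6764) (nat_lit 6) (nat_lit 89) (nat_lit 5) (nat_lit 181) (nat_lit 299) (nat_lit 300)) (PT.lf (nat_lit 7068) (nat_lit 3) (nat_lit 93) (nat_lit 4) (nat_lit 182) (nat_lit 299) (nat_lit 299))) (PT.nd (nat_lit 78) (PT.lf (nat_lit 7296) (nat_lit 6) (nat_lit 96) (nat_lit 4) (nat_lit 183) (nat_lit 299) (nat_lit 298)) (PT.lf (nat_lit 7524) (nat_lit 6) (nat_lit 99) (nat_lit 4) (nat_lit 184) (nat_lit 299) (nat_lit 297)))))) (PT.nd (nat_lit 8892) (PT.nd (nat_lit 8580) (PT.nd (nat_lit 156) (PT.nd (nat_lit 78) (PT.lf (nat_lit 7828) (nat_lit 6) (nat_lit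 103) (nat_lit 4) (nat_lit 185) (nat_lit 299) (nat_lit 296)) (PT.lf (nat_lit 8056) (nat_lit 6) (nat_lit 106) (nat_lit 4) (nat_lit 186) (nat_lit 299) (nat_lit 295))) (PT.nd (nat_lit 8346) (PT.lf (nat_lit 8360) (nat_lit 6) (nat_lit 110) (nat_lit 4) (nat_lit 187) (nat_lit 299) (nat_lit 294)) (PT.lf (nat_lit 8360) (nat_lit 6) (nat_lit 110) (nat_lit 2) (nat_lit 294) (nat_lit 299) (nat_lit 187)))) (PT.nd (nat_lit 156) (PT.nd (nat_lit 78) (PT.lf (nat_lit 8056) (nat_lit 6) (nat_lit 106) (nat_lit 2) (nat_lit 295) (nat_lit 299) (nat_lit 186)) (PT.lf (nat_lit 7828) (nat_lit 6) (nat_lit 103) (nat_lit 2) (nat_lit 296) (nat_lit 299) (nat_lit 185))) (PT.nd (nat_lit 78) (PT.lf (nat_lit 7524) (nat_lit 6) (nat_lit 99) (nat_lit 2) (nat_lit 297) (nat_lit 299) (nat_lit 184)) (PT.lf (nat_lit 7296) (nat_lit 6) (nat_lit 96) (nat_lit 2) (nat_lit 298) (nat_lit 299) (nat_lit 183))))) (PT.nd (nat_lit 71760) (PT.nd (nat_lit 156) (PT.nd (nat_lit 78) (PT.lf (nat_lit 7068) (nat_lit 3) (nat_lit 93) (nat_lit 0) (nat_lit 299) (nat_lit 299)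 (nat_lit 182)) (PT.lf (nat_lit 6764) (nat_lit 6) (nat_lit 89) (nat_lit 0) (nat_lit 300) (nat_lit 299) (nat_lit 181))) (PT.nd (nat_lit 78) (PT.lf (nat_lit 6460) (nat_lit 6) (nat_lit 85) (nat_lit 0) (nat_lit 301) (nat_lit 299) (nat_lit 180)) (PT.lf (nat_lit 6156) (nat_lit 6) (nat_lit 81) (nat_lit 0) (nat_lit 302) (nat_lit 299) (nat_lit 179)))) (PT.nd (nat_lit 156) (PT.nd (nat_lit 78) (PT.lf (nat_lit 5928) (nat_lit 6) (nat_lit 78) (nat_lit 5) (nat_lit 178) (nat_lit 300) (nat_lit 302)) (PT.lf (nat_lit 6232) (nat_lit 6) (nat_lit 82) (nat_lit 5) (nat_lit 179) (nat_lit 300) (nat_lit 301))) (PT.nd (nat_lit 78) (PT.lf (nat_lit 6536) (nat_lit 3) (nat_lit 86) (nat_lit 4) (nat_lit 180) (nat_lit 300) (nat_lit 300)) (PT.lf (nat_lit 6764) (nat_lit 6) (nat_lit 89) (nat_lit 4) (nat_lit 181) (nat_lit 300) (nat_lit 299))))))) (PT.nd (nat_lit 90324) (PT.nd (nat_lit 9282) (PT.nd (nat_lit 8970) (PT.nd (nat_lit 156) (PT.nd (nat_lit 78) (PT.lf (nat_lit 6992) (nat_lit 6) (nat_lit 92) (nat_lit 4) (nat_lit 182) (nat_lit 300) (nat_lit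 298)) (PT.lf (nat_lit 7220) (nat_lit 6) (nat_lit 95) (nat_lit 4) (nat_lit 183) (nat_lit 300) (nat_lit 297))) (PT.nd (nat_lit 8736) (PT.lf (nat_lit 7448) (nat_lit 6) (nat_lit 98) (nat_lit 4) (nat_lit 184) (nat_lit 300) (nat_lit 296)) (PT.lf (nat_lit 7448) (nat_lit 6) (nat_lit 98) (nat_lit 2) (nat_lit 296) (nat_lit 300) (nat_lit 184)))) (PT.nd (nat_lit 156) (PT.nd (nat_lit 78) (PT.lf (nat_lit 7220) (nat_lit 6) (nat_lit 95) (nat_lit 2) (nat_lit 297) (nat_lit 300) (nat_lit 183)) (PT.lf (nat_lit 6992) (nat_lit 6) (nat_lit 92) (nat_lit 2) (nat_lit 298) (nat_lit 300) (nat_lit 182))) (PT.nd (nat_lit 78) (PT.lf (nat_lit 6764) (nat_lit 6) (nat_lit 89) (nat_lit 2) (nat_lit 299) (nat_lit 300) (nat_lit 181)) (PT.lf (nat_lit 6536) (nat_lit 3) (nat_lit 86) (nat_lit 0) (nat_lit 300) (nat_lit 300) (nat_lit 180))))) (PT.nd (nat_lit 71682) (PT.nd (nat_lit 71526) (PT.nd (nat_lit 78) (PT.lf (nat_lit 6232) (nat_lit 6) (nat_lit 82) (nat_lit 0) (nat_lit 301) (nat_lit 300) (nat_lit 179)) (PT.lf (nat_lit 5928) (nat_lit 6) (nat_lit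 78) (nat_lit 0) (nat_lit 302) (nat_lit 300) (nat_lit 178))) (PT.nd (nat_lit 78) (PT.lf (nat_lit 5700) (nat_lit 6) (nat_lit 75) (nat_lit 5) (nat_lit 177) (nat_lit 301) (nat_lit 302)) (PT.lf (nat_lit 6004) (nat_lit 3) (nat_lit 79) (nat_lit 4) (nat_lit 178) (nat_lit 301) (nat_lit 301)))) (PT.nd (nat_lit 156) (PT.nd (nat_lit 78) (PT.lf (nat_lit 6232) (nat_lit 6) (nat_lit 82) (nat_lit 4) (nat_lit 179) (nat_lit 301) (nat_lit 300)) (PT.lf (nat_lit 6460) (nat_lit 6) (nat_lit 85) (nat_lit 4) (nat_lit 180) (nat_lit 301) (nat_lit 299))) (PT.nd (nat_lit 9126) (PT.lf (nat_lit 6688) (nat_lit 6) (nat_lit 88) (nat_lit 4) (nat_lit 181) (nat_lit 301) (nat_lit 298)) (PT.lf (nat_lit 6688) (nat_lit 6) (nat_lit 88) (nat_lit 2) (nat_lit 298) (nat_lit 301) (nat_lit 181)))))) (PT.nd (nat_lit 81276) (PT.nd (nat_lit 71682) (PT.nd (nat_lit 156) (PT.nd (nat_lit 78) (PT.lf (nat_lit 6460) (nat_lit 6) (nat_lit 85) (nat_lit 2) (nat_lit 299) (nat_lit 301) (nat_lit 180)) (PT.lf (nat_lit 6232) (nat_lit 6) (nat_lit 82) (nat_lit 2) (nat_lit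 300) (nat_lit 301) (nat_lit 179))) (PT.nd (nat_lit 78) (PT.lf (nat_lit 6004) (nat_lit 3) (nat_lit 79) (nat_lit 0) (nat_lit 301) (nat_lit 301) (nat_lit 178)) (PT.lf (nat_lit 5700) (nat_lit 6) (nat_lit 75) (nat_lit 0) (nat_lit 302) (nat_lit 301) (nat_lit 177)))) (PT.nd (nat_lit 156) (PT.nd (nat_lit 78) (PT.lf (nat_lit 5700) (nat_lit 6) (nat_lit 75) (nat_lit 4) (nat_lit 177) (nat_lit 302) (nat_lit 301)) (PT.lf (nat_lit 5928) (nat_lit 6) (nat_lit 78) (nat_lit 4) (nat_lit 178) (nat_lit 302) (nat_lit 300))) (PT.nd (nat_lit 9360) (PT.lf (nat_lit 6156) (nat_lit 6) (nat_lit 81) (nat_lit 4) (nat_lit 179) (nat_lit 302) (nat_lit 299)) (PT.lf (nat_lit 6156) (nat_lit 6) (nat_lit 81) (nat_lit 2) (nat_lit 299) (nat_lit 302) (nat_lit 179))))) (PT.nd (nat_lit 5095974) (PT.nd (nat_lit 5014854) (PT.nd (nat_lit 78) (PT.lf (nat_lit 5928) (nat_lit 6) (nat_lit 78) (nat_lit 2) (nat_lit 300) (nat_lit 302) (nat_lit 178)) (PT.lf (nat_lit 5700) (nat_lit 6) (nat_lit 75) (nat_lit 2) (nat_lit 301) (nat_lit 302) (nat_lit 177))) (PT.nd (nat_lit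 24492) (PT.lf (nat_lit 152) (nat_lit 6) (nat_lit 2) (nat_lit 5) (nat_lit 51) (nat_lit 364) (nat_lit 365)) (PT.lf (nat_lit 152) (nat_lit 6) (nat_lit 2) (nat_lit 0) (nat_lit 365) (nat_lit 364) (nat_lit 51)))) (PT.nd (nat_lit 24492) (PT.nd (nat_lit 78) (PT.lf (nat_lit 76) (nat_lit 3) (nat_lit 1) (nat_lit 4) (nat_lit 50) (nat_lit 365) (nat_lit 365)) (PT.lf (nat_lit 152) (nat_lit 6) (nat_lit 2) (nat_lit 4) (nat_lit 51) (nat_lit 365) (nat_lit 364))) (PT.nd (nat_lit 78) (PT.lf (nat_lit 152) (nat_lit 6) (nat_lit 2) (nat_lit 2) (nat_lit 364) (nat_lit 365) (nat_lit 51)) (PT.lf (nat_lit 76) (nat_lit 3) (nat_lit 1) (nat_lit 0) (nat_lit 365) (nat_lit 365) (nat_lit 50))))))))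
noncomputable def xc0 : XT := (XT.nd (nat_lit 324168) (nat_lit 0) (nat_lit 0) (XT.nd (nat_lit 162396) (nat_lit 0) (nat_lit 0) (XT.nd (nat_lit 162006) (nat_lit 0) (nat_lit 304) (XT.nd (nat_lit 81042) (nat_lit 0) (nat_lit 0) (XT.nd (nat_lit 80964) (nat_lit 0) (nat_lit 836) (XT.lf (nat_lit 0) (nat_lit 2443854112) (nat_lit 304) (nat_lit 7502601336) (nat_lit 0) (nat_lit 1944624731) (nat_lit 75) (nat_lit 5) (nat_lit 79) (nat_lit 4) (nat_lit 75) (nat_lit 4) (nat_lit 625) (nat_lit 468) (nat_lit 467)) (XT.lf (nat_lit 0) (nat_lit 3278996239) (nat_lit 228) (nat_lit 1251986490) (nat_lit 228) (nat_lit 1251986490) (nat_lit 86) (nat_lit 4) (nat_lit 89) (nat_lit 5) (nat_lit 89) (nat_lit 4) (nat_lit 622) (nat_lit 469) (nat_lit 469))) (XT.nd (nat_lit 78) (nat_lit 532) (nat_lit 0) (XT.lf (nat_lit 0) (nat_lit 3173536553) (nat_lit 304) (nat_lit 5845373090) (nat_lit 0) (nat_lit 2654138304) (nat_lit 82) (nat_lit 5) (nat_lit 86) (nat_lit 4) (nat_lit 82) (nat_lit 4) (nat_lit 623) (nat_lit 469) (nat_lit 468)) (XT.nd (nat_lit 78)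 (nat_lit 304) (nat_lit 0) (XT.lf (nat_lit 0) (nat_lit 5054611322) (nat_lit 228) (nat_lit 3877970036) (nat_lit 228) (nat_lit 2849357818) (nat_lit 79) (nat_lit 4) (nat_lit 82) (nat_lit 5) (nat_lit 82) (nat_lit 4) (nat_lit 624) (nat_lit 469) (nat_lit 467)) (XT.lf (nat_lit 0) (nat_lit 2870086015) (nat_lit 304) (nat_lit 7650452504) (nat_lit 0) (nat_lit 1372202094) (nat_lit 75) (nat_lit 5) (nat_lit 79) (nat_lit 4) (nat_lit 75) (nat_lit 4) (nat_lit 625) (nat_lit 469) (nat_lit 466))))) (XT.nd (nat_lit 156) (nat_lit 760) (nat_lit 0) (XT.nd (nat_lit 78) (nat_lit 304) (nat_lit 0) (XT.lf (nat_lit 0) (nat_lit 3983279081) (nat_lit 228) (nat_lit 847403183) (nat_lit 228) (nat_lit 847403183) (nat_lit 93) (nat_lit 4) (nat_lit 96) (nat_lit 5) (nat_lit 96) (nat_lit 4) (nat_lit 620) (nat_lit 470) (nat_lit 470)) (XT.lf (nat_lit 0) (nat_lit 3891233929) (nat_lit 304) (nat_lit 4218397886) (nat_lit 0) (nat_lit 3350851992) (nat_lit 89) (nat_lit 5) (nat_lit 93) (nat_lit 4) (nat_lit 89) (nat_lit 4) (nat_lit 621) (nat_lit 470) (nat_lit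 469))) (XT.nd (nat_lit 78) (nat_lit 532) (nat_lit 0) (XT.lf (nat_lit 0) (nat_lit 6487105972) (nat_lit 228) (nat_lit 3074903898) (nat_lit 228) (nat_lit 2004735747) (nat_lit 86) (nat_lit 4) (nat_lit 89) (nat_lit 5) (nat_lit 89) (nat_lit 4) (nat_lit 622) (nat_lit 470) (nat_lit 468)) (XT.nd (nat_lit 78) (nat_lit 228) (nat_lit 0) (XT.lf (nat_lit 0) (nat_lit 3621575703) (nat_lit 304) (nat_lit 5989930739) (nat_lit 0) (nat_lit 2063177271) (nat_lit 82) (nat_lit 5) (nat_lit 86) (nat_lit 4) (nat_lit 82) (nat_lit 4) (nat_lit 623) (nat_lit 470) (nat_lit 467)) (XT.lf (nat_lit 0) (nat_lit 4837040196) (nat_lit 228) (nat_lit 4502492360) (nat_lit 228) (nat_lit 2444864547) (nat_lit 79) (nat_lit 4) (nat_lit 82) (nat_lit 5) (nat_lit 82) (nat_lit 4) (nat_lit 624) (nat_lit 470) (nat_lit 466)))))) (XT.nd (nat_lit 80964) (nat_lit 0) (nat_lit 0) (XT.nd (nat_lit 80730) (nat_lit 0) (nat_lit 1064) (XT.nd (nat_lit 80652) (nat_lit 0) (nat_lit 1900) (XT.lf (nat_lit 0) (nat_lit 3223487589) (nat_lit 304) (nat_lit 7946212822) (nat_lit 0)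 (nat_lit 726361723) (nat_lit 75) (nat_lit 5) (nat_lit 79) (nat_lit 4) (nat_lit 75) (nat_lit 4) (nat_lit 625) (nat_lit 470) (nat_lit 465)) (XT.lf (nat_lit 0) (nat_lit 4678882841) (nat_lit 304) (nat_lit 448487863) (nat_lit 304) (nat_lit 448487863) (nat_lit 100) (nat_lit 4) (nat_lit 104) (nat_lit 5) (nat_lit 104) (nat_lit 4) (nat_lit 618) (nat_lit 471) (nat_lit 471))) (XT.nd (nat_lit 78) (nat_lit 532) (nat_lit 0) (XT.lf (nat_lit 0) (nat_lit 4599490609) (nat_lit 304) (nat_lit 2616516579) (nat_lit 0) (nat_lit 4037277241) (nat_lit 96) (nat_lit 5) (nat_lit 100) (nat_lit 4) (nat_lit 96) (nat_lit 4) (nat_lit 619) (nat_lit 471) (nat_lit 470)) (XT.nd (nat_lit 78) (nat_lit 304) (nat_lit 0) (XT.lf (nat_lit 0) (nat_lit 7897275779) (nat_lit 228) (nat_lit 2286546805) (nat_lit 228) (nat_lit 1173143860) (nat_lit 93) (nat_lit 4) (nat_lit 96) (nat_lit 5) (nat_lit 96) (nat_lit 4) (nat_lit 620) (nat_lit 471) (nat_lit 469)) (XT.lf (nat_lit 0) (nat_lit 4361871389) (nat_lit 304) (nat_lit 4359710658) (nat_lit 0) (nat_lit 2740513661)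 (nat_lit 89) (nat_lit 5) (nat_lit 93) (nat_lit 4) (nat_lit 89) (nat_lit 4) (nat_lit 621) (nat_lit 471) (nat_lit 468))))) (XT.nd (nat_lit 156) (nat_lit 532) (nat_lit 0) (XT.nd (nat_lit 78) (nat_lit 304) (nat_lit 0) (XT.lf (nat_lit 0) (nat_lit 6274418652) (nat_lit 228) (nat_lit 3717752392) (nat_lit 228) (nat_lit 1576996416) (nat_lit 86) (nat_lit 4) (nat_lit 89) (nat_lit 5) (nat_lit 89) (nat_lit 4) (nat_lit 622) (nat_lit 471) (nat_lit 467)) (XT.lf (nat_lit 0) (nat_lit 3998431456) (nat_lit 304) (nat_lit 6279102727) (nat_lit 0) (nat_lit 1400421705) (nat_lit 82) (nat_lit 5) (nat_lit 86) (nat_lit 4) (nat_lit 82) (nat_lit 4) (nat_lit 623) (nat_lit 471) (nat_lit 466))) (XT.nd (nat_lit 78) (nat_lit 304) (nat_lit 0) (XT.lf (nat_lit 0) (nat_lit 4474326851) (nat_lit 228) (nat_lit 5200809094) (nat_lit 228) (nat_lit 2113358773) (nat_lit 79) (nat_lit 4) (nat_lit 82) (nat_lit 5) (nat_lit 82) (nat_lit 4) (nat_lit 624) (nat_lit 471) (nat_lit 465)) (XT.nd (nat_lit 80496) (nat_lit 0) (nat_lit 2508) (XT.lf (nat_lit 0) (nat_lit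 3504197423) (nat_lit 304) (nat_lit 8389998273) (nat_lit 0) (nat_lit 6850347) (nat_lit 75) (nat_lit 5) (nat_lit 79) (nat_lit 4) (nat_lit 75) (nat_lit 4) (nat_lit 625) (nat_lit 471) (nat_lit 464)) (XT.lf (nat_lit 0) (nat_lit 5368158903) (nat_lit 304) (nat_lit 54041146) (nat_lit 304) (nat_lit 54041146) (nat_lit 108) (nat_lit 4) (nat_lit 112) (nat_lit 5) (nat_lit 112) (nat_lit 4) (nat_lit 616) (nat_lit 472) (nat_lit 472))))))) (XT.nd (nat_lit 81042) (nat_lit 0) (nat_lit 304) (XT.nd (nat_lit 390) (nat_lit 1064) (nat_lit 0) (XT.nd (nat_lit 156) (nat_lit 836) (nat_lit 0) (XT.nd (nat_lit 78) (nat_lit 304) (nat_lit 0) (XT.lf (nat_lit 0) (nat_lit 5300725643) (nat_lit 304) (nat_lit 1034827537) (nat_lit 0) (nat_lit 4715798854) (nat_lit 104) (nat_lit 5) (nat_lit 108) (nat_lit 4) (nat_lit 104) (nat_lit 4) (nat_lit 617) (nat_lit 472) (nat_lit 471)) (XT.lf (nat_lit 0) (nat_lit 9290064624) (nat_lit 304) (nat_lit 1510410627) (nat_lit 304) (nat_lit 352026204) (nat_lit 100) (nat_lit 4) (nat_lit 104) (nat_lit 5) (nat_lit 104)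 (nat_lit 4) (nat_lit 618) (nat_lit 472) (nat_lit 470))) (XT.nd (nat_lit 78) (nat_lit 532) (nat_lit 0) (XT.lf (nat_lit 0) (nat_lit 5093551163) (nat_lit 304) (nat_lit 2754631518) (nat_lit 0) (nat_lit 3406690583) (nat_lit 96) (nat_lit 5) (nat_lit 100) (nat_lit 4) (nat_lit 96) (nat_lit 4) (nat_lit 619) (nat_lit 472) (nat_lit 469)) (XT.nd (nat_lit 78) (nat_lit 304) (nat_lit 0) (XT.lf (nat_lit 0) (nat_lit 7689401460) (nat_lit 228) (nat_lit 2948597230) (nat_lit 228) (nat_lit 721354712) (nat_lit 93) (nat_lit 4) (nat_lit 96) (nat_lit 5) (nat_lit 96) (nat_lit 4) (nat_lit 620) (nat_lit 472) (nat_lit 468)) (XT.lf (nat_lit 0) (nat_lit 4762948934) (nat_lit 304) (nat_lit 4642391619) (nat_lit 0) (nat_lit 2059979590) (nat_lit 89) (nat_lit 5) (nat_lit 93) (nat_lit 4) (nat_lit 89) (nat_lit 4) (nat_lit 621) (nat_lit 472) (nat_lit 467))))) (XT.nd (nat_lit 156) (nat_lit 532) (nat_lit 0) (XT.nd (nat_lit 78) (nat_lit 304) (nat_lit 0) (XT.lf (nat_lit 0) (nat_lit 5919847113) (nat_lit 228) (nat_lit 4432770561) (nat_lit 228) (nat_lit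 1220587248) (nat_lit 86) (nat_lit 4) (nat_lit 89) (nat_lit 5) (nat_lit 89) (nat_lit 4) (nat_lit 622) (nat_lit 472) (nat_lit 466)) (XT.lf (nat_lit 0) (nat_lit 4304251599) (nat_lit 304) (nat_lit 6713002453) (nat_lit 0) (nat_lit 665611702) (nat_lit 82) (nat_lit 5) (nat_lit 86) (nat_lit 4) (nat_lit 82) (nat_lit 4) (nat_lit 623) (nat_lit 472) (nat_lit 465))) (XT.nd (nat_lit 78) (nat_lit 304) (nat_lit 0) (XT.lf (nat_lit 0) (nat_lit 3966329047) (nat_lit 228) (nat_lit 5973194087) (nat_lit 228) (nat_lit 1854710494) (nat_lit 79) (nat_lit 4) (nat_lit 82) (nat_lit 5) (nat_lit 82) (nat_lit 4) (nat_lit 624) (nat_lit 472) (nat_lit 464)) (XT.nd (nat_lit 80340) (nat_lit 0) (nat_lit 2812) (XT.lf (nat_lit 0) (nat_lit 2920432809) (nat_lit 228) (nat_lit 797067883) (nat_lit 304) (nat_lit 8190090101) (nat_lit 75) (nat_lit 5) (nat_lit 78) (nat_lit 5) (nat_lit 79) (nat_lit 4) (nat_lit 625) (nat_lit 472) (nat_lit 463)) (XT.lf (nat_lit 0) (nat_lit 339313214) (nat_lit 304) (nat_lit 4700385291) (nat_lit 0) (nat_lit 339313214) (nat_lit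 112) (nat_lit 5) (nat_lit 116) (nat_lit 4) (nat_lit 112) (nat_lit 4) (nat_lit 614) (nat_lit 473) (nat_lit 473)))))) (XT.nd (nat_lit 390) (nat_lit 1292) (nat_lit 0) (XT.nd (nat_lit 156) (nat_lit 836) (nat_lit 0) (XT.nd (nat_lit 78) (nat_lit 76) (nat_lit 0) (XT.lf (nat_lit 0) (nat_lit 538399240) (nat_lit 304) (nat_lit 5462341431) (nat_lit 304) (nat_lit 4853783600) (nat_lit 108) (nat_lit 4) (nat_lit 112) (nat_lit 5) (nat_lit 112) (nat_lit 4) (nat_lit 615) (nat_lit 473) (nat_lit 472)) (XT.lf (nat_lit 0) (nat_lit 455004895) (nat_lit 380) (nat_lit 286073266) (nat_lit 76) (nat_lit 10212117850) (nat_lit 107) (nat_lit 5) (nat_lit 112) (nat_lit 5) (nat_lit 108) (nat_lit 4) (nat_lit 616) (nat_lit 473) (nat_lit 471))) (XT.nd (nat_lit 78) (nat_lit 608) (nat_lit 0) (XT.lf (nat_lit 0) (nat_lit 5819069126) (nat_lit 304) (nat_lit 1169790096) (nat_lit 0) (nat_lit 4064059379) (nat_lit 104) (nat_lit 5) (nat_lit 108) (nat_lit 4) (nat_lit 104) (nat_lit 4) (nat_lit 617) (nat_lit 473) (nat_lit 470)) (XT.nd (nat_lit 78) (nat_lit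 228) (nat_lit 0) (XT.lf (nat_lit 0) (nat_lit 123016817) (nat_lit 380) (nat_lit 2068729144) (nat_lit 76) (nat_lit 8963092572) (nat_lit 99) (nat_lit 5) (nat_lit 104) (nat_lit 5) (nat_lit 100) (nat_lit 4) (nat_lit 618) (nat_lit 473) (nat_lit 469)) (XT.lf (nat_lit 0) (nat_lit 5519652652) (nat_lit 304) (nat_lit 3030915559) (nat_lit 0) (nat_lit 2707483346) (nat_lit 96) (nat_lit 5) (nat_lit 100) (nat_lit 4) (nat_lit 96) (nat_lit 4) (nat_lit 619) (nat_lit 473) (nat_lit 468))))) (XT.nd (nat_lit 156) (nat_lit 760) (nat_lit 0) (XT.nd (nat_lit 78) (nat_lit 304) (nat_lit 0) (XT.lf (nat_lit 0) (nat_lit 7342853686) (nat_lit 228) (nat_lit 3681217269) (nat_lit 228) (nat_lit 339261749) (nat_lit 93) (nat_lit 4) (nat_lit 96) (nat_lit 5) (nat_lit 96) (nat_lit 4) (nat_lit 620) (nat_lit 473) (nat_lit 467)) (XT.lf (nat_lit 0) (nat_lit 5094623850) (nat_lit 304) (nat_lit 5066551623) (nat_lit 0) (nat_lit 1308982901) (nat_lit 89) (nat_lit 5) (nat_lit 93) (nat_lit 4) (nat_lit 89) (nat_lit 4) (nat_lit 621) (nat_lit 473) (nat_lit 466)))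 (XT.nd (nat_lit 78) (nat_lit 532) (nat_lit 0) (XT.lf (nat_lit 0) (nat_lit 5423252306) (nat_lit 228) (nat_lit 5220238804) (nat_lit 228) (nat_lit 935368473) (nat_lit 86) (nat_lit 4) (nat_lit 89) (nat_lit 5) (nat_lit 89) (nat_lit 4) (nat_lit 622) (nat_lit 473) (nat_lit 465)) (XT.nd (nat_lit 78) (nat_lit 228) (nat_lit 0) (XT.lf (nat_lit 0) (nat_lit 4396665347) (nat_lit 228) (nat_lit 143421904) (nat_lit 304) (nat_lit 7149309362) (nat_lit 82) (nat_lit 5) (nat_lit 85) (nat_lit 5) (nat_lit 86) (nat_lit 4) (nat_lit 623) (nat_lit 473) (nat_lit 464)) (XT.lf (nat_lit 0) (nat_lit 3312847569) (nat_lit 228) (nat_lit 6819950237) (nat_lit 228) (nat_lit 1668818278) (nat_lit 79) (nat_lit 4) (nat_lit 82) (nat_lit 5) (nat_lit 82) (nat_lit 4) (nat_lit 624) (nat_lit 473) (nat_lit 463))))))))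
noncomputable def xc1 : XT := (XT.nd (nat_lit 161616) (nat_lit 0) (nat_lit 0) (XT.nd (nat_lit 80886) (nat_lit 0) (nat_lit 0) (XT.nd (nat_lit 80496) (nat_lit 0) (nat_lit 1368) (XT.nd (nat_lit 80262) (nat_lit 0) (nat_lit 2508) (XT.nd (nat_lit 80184) (nat_lit 0) (nat_lit 3420) (XT.lf (nat_lit 0) (nat_lit 2182509157) (nat_lit 228) (nat_lit 1676328415) (nat_lit 304) (nat_lit 8056954248) (nat_lit 75) (nat_lit 5) (nat_lit 78) (nat_lit 5) (nat_lit 79) (nat_lit 4) (nat_lit 625) (nat_lit 473) (nat_lit 462)) (XT.lf (nat_lit 0) (nat_lit 730780057) (nat_lit 380) (nat_lit 3822717411) (nat_lit 0) (nat_lit 730780057) (nat_lit 120) (nat_lit 5) (nat_lit 125) (nat_lit 4) (nat_lit 120) (nat_lit 4) (nat_lit 612) (nat_lit 474) (nat_lit 474))) (XT.nd (nat_lit 78) (nat_lit 608) (nat_lit 0) (XT.lf (nat_lit 0) (nat_lit 2114166818) (nat_lit 304) (nat_lit 4590812892) (nat_lit 304) (nat_lit 3957669325) (nat_lit 116) (nat_lit 4) (nat_lit 120) (nat_lit 5) (nat_lit 120) (nat_lit 4) (nat_lit 613) (nat_lit 474) (nat_lit 473)) (XT.nd (nat_lit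 78) (nat_lit 304) (nat_lit 0) (XT.lf (nat_lit 0) (nat_lit 1260370054) (nat_lit 304) (nat_lit 9467350345) (nat_lit 0) (nat_lit 31083236) (nat_lit 112) (nat_lit 5) (nat_lit 116) (nat_lit 4) (nat_lit 112) (nat_lit 4) (nat_lit 614) (nat_lit 474) (nat_lit 472)) (XT.lf (nat_lit 0) (nat_lit 404792928) (nat_lit 304) (nat_lit 6138602963) (nat_lit 304) (nat_lit 4312690822) (nat_lit 108) (nat_lit 4) (nat_lit 112) (nat_lit 5) (nat_lit 112) (nat_lit 4) (nat_lit 615) (nat_lit 474) (nat_lit 471))))) (XT.nd (nat_lit 156) (nat_lit 836) (nat_lit 0) (XT.nd (nat_lit 78) (nat_lit 228) (nat_lit 0) (XT.lf (nat_lit 0) (nat_lit 950857208) (nat_lit 380) (nat_lit 490107368) (nat_lit 76) (nat_lit 9514486953) (nat_lit 107) (nat_lit 5) (nat_lit 112) (nat_lit 5) (nat_lit 108) (nat_lit 4) (nat_lit 616) (nat_lit 474) (nat_lit 470)) (XT.lf (nat_lit 0) (nat_lit 6271032578) (nat_lit 304) (nat_lit 1439768138) (nat_lit 0) (nat_lit 3345251632) (nat_lit 104) (nat_lit 5) (nat_lit 108) (nat_lit 4) (nat_lit 104) (nat_lit 4) (nat_lit 617) (nat_lit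 474) (nat_lit 469))) (XT.nd (nat_lit 78) (nat_lit 456) (nat_lit 0) (XT.lf (nat_lit 0) (nat_lit 526251155) (nat_lit 380) (nat_lit 2413943188) (nat_lit 76) (nat_lit 8218514266) (nat_lit 99) (nat_lit 5) (nat_lit 104) (nat_lit 5) (nat_lit 100) (nat_lit 4) (nat_lit 618) (nat_lit 474) (nat_lit 468)) (XT.nd (nat_lit 78) (nat_lit 228) (nat_lit 0) (XT.lf (nat_lit 0) (nat_lit 5877962175) (nat_lit 304) (nat_lit 3445477048) (nat_lit 0) (nat_lit 1939381331) (nat_lit 96) (nat_lit 5) (nat_lit 100) (nat_lit 4) (nat_lit 96) (nat_lit 4) (nat_lit 619) (nat_lit 474) (nat_lit 467)) (XT.lf (nat_lit 0) (nat_lit 6857496556) (nat_lit 228) (nat_lit 4484694224) (nat_lit 228) (nat_lit 26715132) (nat_lit 93) (nat_lit 4) (nat_lit 96) (nat_lit 5) (nat_lit 96) (nat_lit 4) (nat_lit 620) (nat_lit 474) (nat_lit 466)))))) (XT.nd (nat_lit 80340) (nat_lit 0) (nat_lit 2812) (XT.nd (nat_lit 156) (nat_lit 836) (nat_lit 0) (XT.nd (nat_lit 78) (nat_lit 228) (nat_lit 0) (XT.lf (nat_lit 0) (nat_lit 5357026206) (nat_lit 304) (nat_lit 5632357009) (nat_lit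 0) (nat_lit 487229087) (nat_lit 89) (nat_lit 5) (nat_lit 93) (nat_lit 4) (nat_lit 89) (nat_lit 4) (nat_lit 621) (nat_lit 474) (nat_lit 465)) (XT.lf (nat_lit 0) (nat_lit 4784439490) (nat_lit 228) (nat_lit 6080465932) (nat_lit 228) (nat_lit 721228243) (nat_lit 86) (nat_lit 4) (nat_lit 89) (nat_lit 5) (nat_lit 89) (nat_lit 4) (nat_lit 622) (nat_lit 474) (nat_lit 464))) (XT.nd (nat_lit 78) (nat_lit 532) (nat_lit 0) (XT.lf (nat_lit 0) (nat_lit 3675030517) (nat_lit 228) (nat_lit 1034925869) (nat_lit 304) (nat_lit 6987516130) (nat_lit 82) (nat_lit 5) (nat_lit 85) (nat_lit 5) (nat_lit 86) (nat_lit 4) (nat_lit 623) (nat_lit 474) (nat_lit 463)) (XT.nd (nat_lit 78) (nat_lit 304) (nat_lit 0) (XT.lf (nat_lit 0) (nat_lit 2513626149) (nat_lit 228) (nat_lit 7741409603) (nat_lit 228) (nat_lit 1555609228) (nat_lit 79) (nat_lit 4) (nat_lit 82) (nat_lit 5) (nat_lit 82) (nat_lit 4) (nat_lit 624) (nat_lit 474) (nat_lit 462)) (XT.lf (nat_lit 0) (nat_lit 1297033402) (nat_lit 228) (nat_lit 2631185017) (nat_lit 304) (nat_lit 7997434821)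 (nat_lit 75) (nat_lit 5) (nat_lit 78) (nat_lit 5) (nat_lit 79) (nat_lit 4) (nat_lit 625) (nat_lit 474) (nat_lit 461))))) (XT.nd (nat_lit 156) (nat_lit 988) (nat_lit 0) (XT.nd (nat_lit 78) (nat_lit 304) (nat_lit 0) (XT.lf (nat_lit 0) (nat_lit 1121057816) (nat_lit 380) (nat_lit 2949910939) (nat_lit 0) (nat_lit 1121057816) (nat_lit 129) (nat_lit 5) (nat_lit 134) (nat_lit 4) (nat_lit 129) (nat_lit 4) (nat_lit 610) (nat_lit 475) (nat_lit 475)) (XT.lf (nat_lit 0) (nat_lit 3683050308) (nat_lit 304) (nat_lit 3725725908) (nat_lit 304) (nat_lit 3067003342) (nat_lit 125) (nat_lit 4) (nat_lit 129) (nat_lit 5) (nat_lit 129) (nat_lit 4) (nat_lit 611) (nat_lit 475) (nat_lit 474))) (XT.nd (nat_lit 78) (nat_lit 608) (nat_lit 0) (XT.lf (nat_lit 0) (nat_lit 2068904262) (nat_lit 380) (nat_lit 7710466287) (nat_lit 0) (nat_lit 789954257) (nat_lit 120) (nat_lit 5) (nat_lit 125) (nat_lit 4) (nat_lit 120) (nat_lit 4) (nat_lit 612) (nat_lit 475) (nat_lit 473)) (XT.nd (nat_lit 78) (nat_lit 304) (nat_lit 0) (XT.lf (nat_lit 0) (nat_lit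 1983667493) (nat_lit 304) (nat_lit 5290100947) (nat_lit 304) (nat_lit 3390421955) (nat_lit 116) (nat_lit 4) (nat_lit 120) (nat_lit 5) (nat_lit 120) (nat_lit 4) (nat_lit 613) (nat_lit 475) (nat_lit 472)) (XT.lf (nat_lit 0) (nat_lit 1089448758) (nat_lit 228) (nat_lit 691583707) (nat_lit 304) (nat_lit 8980022258) (nat_lit 112) (nat_lit 5) (nat_lit 115) (nat_lit 5) (nat_lit 116) (nat_lit 4) (nat_lit 614) (nat_lit 475) (nat_lit 471))))))) (XT.nd (nat_lit 780) (nat_lit 304) (nat_lit 0) (XT.nd (nat_lit 390) (nat_lit 1292) (nat_lit 0) (XT.nd (nat_lit 156) (nat_lit 836) (nat_lit 0) (XT.nd (nat_lit 78) (nat_lit 76) (nat_lit 0) (XT.lf (nat_lit 0) (nat_lit 137527910) (nat_lit 304) (nat_lit 6882833399) (nat_lit 304) (nat_lit 3838850902) (nat_lit 108) (nat_lit 4) (nat_lit 112) (nat_lit 5) (nat_lit 112) (nat_lit 4) (nat_lit 615) (nat_lit 475) (nat_lit 470)) (XT.lf (nat_lit 0) (nat_lit 1381086616) (nat_lit 380) (nat_lit 827645166) (nat_lit 76) (nat_lit 8750532086) (nat_lit 107) (nat_lit 5) (nat_lit 112) (nat_lit 5) (nat_lit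 108) (nat_lit 4) (nat_lit 616) (nat_lit 475) (nat_lit 469))) (XT.nd (nat_lit 78) (nat_lit 608) (nat_lit 0) (XT.lf (nat_lit 0) (nat_lit 6656793237) (nat_lit 304) (nat_lit 1844867540) (nat_lit 0) (nat_lit 2559093727) (nat_lit 104) (nat_lit 5) (nat_lit 108) (nat_lit 4) (nat_lit 104) (nat_lit 4) (nat_lit 617) (nat_lit 475) (nat_lit 468)) (XT.nd (nat_lit 78) (nat_lit 228) (nat_lit 0) (XT.lf (nat_lit 0) (nat_lit 862451828) (nat_lit 380) (nat_lit 2895928754) (nat_lit 76) (nat_lit 7405778331) (nat_lit 99) (nat_lit 5) (nat_lit 104) (nat_lit 5) (nat_lit 100) (nat_lit 4) (nat_lit 618) (nat_lit 475) (nat_lit 467)) (XT.lf (nat_lit 0) (nat_lit 6168620245) (nat_lit 304) (nat_lit 3998478558) (nat_lit 0) (nat_lit 1102083323) (nat_lit 96) (nat_lit 5) (nat_lit 100) (nat_lit 4) (nat_lit 96) (nat_lit 4) (nat_lit 619) (nat_lit 475) (nat_lit 466))))) (XT.nd (nat_lit 156) (nat_lit 760) (nat_lit 0) (XT.nd (nat_lit 78) (nat_lit 228) (nat_lit 0) (XT.lf (nat_lit 0) (nat_lit 213569480) (nat_lit 304) (nat_lit 5144340541) (nat_lit 76)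 (nat_lit 6018137090) (nat_lit 92) (nat_lit 5) (nat_lit 96) (nat_lit 5) (nat_lit 93) (nat_lit 4) (nat_lit 620) (nat_lit 475) (nat_lit 465)) (XT.lf (nat_lit 0) (nat_lit 5141932977) (nat_lit 228) (nat_lit 410994374) (nat_lit 304) (nat_lit 5931703734) (nat_lit 89) (nat_lit 5) (nat_lit 92) (nat_lit 5) (nat_lit 93) (nat_lit 4) (nat_lit 621) (nat_lit 475) (nat_lit 464))) (XT.nd (nat_lit 78) (nat_lit 532) (nat_lit 0) (XT.lf (nat_lit 0) (nat_lit 4003158148) (nat_lit 228) (nat_lit 7013789289) (nat_lit 228) (nat_lit 578082579) (nat_lit 86) (nat_lit 4) (nat_lit 89) (nat_lit 5) (nat_lit 89) (nat_lit 4) (nat_lit 622) (nat_lit 475) (nat_lit 463)) (XT.nd (nat_lit 78) (nat_lit 228) (nat_lit 0) (XT.lf (nat_lit 0) (nat_lit 2809142422) (nat_lit 228) (nat_lit 2000404175) (nat_lit 304) (nat_lit 6897637614) (nat_lit 82) (nat_lit 5) (nat_lit 85) (nat_lit 5) (nat_lit 86) (nat_lit 4) (nat_lit 623) (nat_lit 475) (nat_lit 462)) (XT.lf (nat_lit 0) (nat_lit 1568351369) (nat_lit 228) (nat_lit 8737933543) (nat_lit 228) (nat_lit 1515038948)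 (nat_lit 79) (nat_lit 4) (nat_lit 82) (nat_lit 5) (nat_lit 82) (nat_lit 4) (nat_lit 624) (nat_lit 475) (nat_lit 461)))))) (XT.nd (nat_lit 80184) (nat_lit 0) (nat_lit 2204) (XT.nd (nat_lit 79950) (nat_lit 0) (nat_lit 3800) (XT.nd (nat_lit 79872) (nat_lit 0) (nat_lit 4788) (XT.lf (nat_lit 0) (nat_lit 263658300) (nat_lit 228) (nat_lit 3662012144) (nat_lit 304) (nat_lit 8011508480) (nat_lit 75) (nat_lit 5) (nat_lit 78) (nat_lit 5) (nat_lit 79) (nat_lit 4) (nat_lit 625) (nat_lit 475) (nat_lit 460)) (XT.lf (nat_lit 0) (nat_lit 1511162749) (nat_lit 380) (nat_lit 2079895327) (nat_lit 0) (nat_lit 1511162749) (nat_lit 138) (nat_lit 5) (nat_lit 143) (nat_lit 4) (nat_lit 138) (nat_lit 4) (nat_lit 608) (nat_lit 476) (nat_lit 476))) (XT.nd (nat_lit 78) (nat_lit 684) (nat_lit 0) (XT.lf (nat_lit 0) (nat_lit 5249206664) (nat_lit 304) (nat_lit 2864983003) (nat_lit 304) (nat_lit 2179648044) (nat_lit 134) (nat_lit 4) (nat_lit 138) (nat_lit 5) (nat_lit 138) (nat_lit 4) (nat_lit 609) (nat_lit 476) (nat_lit 475)) (XT.nd (nat_lit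 78) (nat_lit 304) (nat_lit 0) (XT.lf (nat_lit 0) (nat_lit 2876053424) (nat_lit 380) (nat_lit 5963325593) (nat_lit 0) (nat_lit 1545433839) (nat_lit 129) (nat_lit 5) (nat_lit 134) (nat_lit 4) (nat_lit 129) (nat_lit 4) (nat_lit 610) (nat_lit 476) (nat_lit 474)) (XT.lf (nat_lit 0) (nat_lit 3555616734) (nat_lit 304) (nat_lit 4449054963) (nat_lit 304) (nat_lit 2472628939) (nat_lit 125) (nat_lit 4) (nat_lit 129) (nat_lit 5) (nat_lit 129) (nat_lit 4) (nat_lit 611) (nat_lit 476) (nat_lit 473))))) (XT.nd (nat_lit 234) (nat_lit 608) (nat_lit 0) (XT.nd (nat_lit 78) (nat_lit 608) (nat_lit 0) (XT.lf (nat_lit 0) (nat_lit 2612224872) (nat_lit 380) (nat_lit 7905586184) (nat_lit 0) (nat_lit 53823313) (nat_lit 120) (nat_lit 5) (nat_lit 125) (nat_lit 4) (nat_lit 120) (nat_lit 4) (nat_lit 612) (nat_lit 476) (nat_lit 472)) (XT.nd (nat_lit 78) (nat_lit 304) (nat_lit 0) (XT.lf (nat_lit 0) (nat_lit 1722617667) (nat_lit 304) (nat_lit 6055807721) (nat_lit 304) (nat_lit 2888848332) (nat_lit 116) (nat_lit 4) (nat_lit 120) (nat_lit 5)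 (nat_lit 120) (nat_lit 4) (nat_lit 613) (nat_lit 476) (nat_lit 471)) (XT.lf (nat_lit 0) (nat_lit 755088149) (nat_lit 228) (nat_lit 1481878614) (nat_lit 304) (nat_lit 8527887846) (nat_lit 112) (nat_lit 5) (nat_lit 115) (nat_lit 5) (nat_lit 116) (nat_lit 4) (nat_lit 614) (nat_lit 476) (nat_lit 470)))) (XT.nd (nat_lit 78) (nat_lit 608) (nat_lit 0) (XT.lf (nat_lit 0) (nat_lit 7433534788) (nat_lit 304) (nat_lit 260044766) (nat_lit 0) (nat_lit 3170288218) (nat_lit 112) (nat_lit 5) (nat_lit 116) (nat_lit 4) (nat_lit 112) (nat_lit 4) (nat_lit 615) (nat_lit 476) (nat_lit 469)) (XT.nd (nat_lit 78) (nat_lit 228) (nat_lit 0) (XT.lf (nat_lit 0) (nat_lit 1745861836) (nat_lit 380) (nat_lit 1298819027) (nat_lit 76) (nat_lit 7919953659) (nat_lit 107) (nat_lit 5) (nat_lit 112) (nat_lit 5) (nat_lit 108) (nat_lit 4) (nat_lit 616) (nat_lit 476) (nat_lit 468)) (XT.lf (nat_lit 0) (nat_lit 6976502383) (nat_lit 304) (nat_lit 2385247162) (nat_lit 0) (nat_lit 1705277369) (nat_lit 104) (nat_lit 5) (nat_lit 108) (nat_lit 4) (nat_lit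 104) (nat_lit 4) (nat_lit 617) (nat_lit 476) (nat_lit 467))))))))
noncomputable def xc2 : XT := (XT.nd (nat_lit 81198) (nat_lit 0) (nat_lit 0) (XT.nd (nat_lit 80418) (nat_lit 0) (nat_lit 1976) (XT.nd (nat_lit 390) (nat_lit 608) (nat_lit 0) (XT.nd (nat_lit 156) (nat_lit 760) (nat_lit 0) (XT.nd (nat_lit 78) (nat_lit 228) (nat_lit 0) (XT.lf (nat_lit 0) (nat_lit 1131750678) (nat_lit 380) (nat_lit 3514874856) (nat_lit 76) (nat_lit 6524566047) (nat_lit 99) (nat_lit 5) (nat_lit 104) (nat_lit 5) (nat_lit 100) (nat_lit 4) (nat_lit 618) (nat_lit 476) (nat_lit 466)) (XT.lf (nat_lit 0) (nat_lit 6391740847) (nat_lit 304) (nat_lit 4690136954) (nat_lit 0) (nat_lit 195260968) (nat_lit 96) (nat_lit 5) (nat_lit 100) (nat_lit 4) (nat_lit 96) (nat_lit 4) (nat_lit 619) (nat_lit 476) (nat_lit 465))) (XT.nd (nat_lit 78) (nat_lit 456) (nat_lit 0) (XT.lf (nat_lit 0) (nat_lit 385084538) (nat_lit 304) (nat_lit 5917838492) (nat_lit 76) (nat_lit 5081869715) (nat_lit 92) (nat_lit 5) (nat_lit 96) (nat_lit 5) (nat_lit 93) (nat_lit 4) (nat_lit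 620) (nat_lit 476) (nat_lit 464)) (XT.nd (nat_lit 78) (nat_lit 228) (nat_lit 0) (XT.lf (nat_lit 0) (nat_lit 4295338375) (nat_lit 228) (nat_lit 1388071627) (nat_lit 304) (nat_lit 5810787751) (nat_lit 89) (nat_lit 5) (nat_lit 92) (nat_lit 5) (nat_lit 93) (nat_lit 4) (nat_lit 621) (nat_lit 476) (nat_lit 463)) (XT.lf (nat_lit 0) (nat_lit 3079101896) (nat_lit 228) (nat_lit 8020574884) (nat_lit 228) (nat_lit 505875348) (nat_lit 86) (nat_lit 4) (nat_lit 89) (nat_lit 5) (nat_lit 89) (nat_lit 4) (nat_lit 622) (nat_lit 476) (nat_lit 462))))) (XT.nd (nat_lit 156) (nat_lit 76) (nat_lit 0) (XT.nd (nat_lit 78) (nat_lit 228) (nat_lit 0) (XT.lf (nat_lit 0) (nat_lit 1798661498) (nat_lit 228) (nat_lit 3040235439) (nat_lit 304) (nat_lit 6879638570) (nat_lit 82) (nat_lit 5) (nat_lit 85) (nat_lit 5) (nat_lit 86) (nat_lit 4) (nat_lit 623) (nat_lit 476) (nat_lit 461)) (XT.lf (nat_lit 0) (nat_lit 476652531) (nat_lit 228) (nat_lit 9809912850) (nat_lit 228) (nat_lit 1547091527) (nat_lit 79) (nat_lit 4) (nat_lit 82) (nat_lit 5) (nat_lit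 82) (nat_lit 4) (nat_lit 624) (nat_lit 476) (nat_lit 460))) (XT.nd (nat_lit 79716) (nat_lit 0) (nat_lit 4940) (XT.lf (nat_lit 0) (nat_lit 3857153050) (nat_lit 304) (nat_lit 905981379) (nat_lit 76) (nat_lit 7187119751) (nat_lit 78) (nat_lit 5) (nat_lit 82) (nat_lit 5) (nat_lit 79) (nat_lit 4) (nat_lit 625) (nat_lit 476) (nat_lit 459)) (XT.nd (nat_lit 78) (nat_lit 380) (nat_lit 0) (XT.lf (nat_lit 0) (nat_lit 1902075644) (nat_lit 380) (nat_lit 1210673260) (nat_lit 0) (nat_lit 1902075644) (nat_lit 148) (nat_lit 5) (nat_lit 153) (nat_lit 4) (nat_lit 148) (nat_lit 4) (nat_lit 606) (nat_lit 477) (nat_lit 477)) (XT.lf (nat_lit 0) (nat_lit 6816641406) (nat_lit 380) (nat_lit 2006565545) (nat_lit 380) (nat_lit 1293543054) (nat_lit 143) (nat_lit 4) (nat_lit 148) (nat_lit 5) (nat_lit 148) (nat_lit 4) (nat_lit 607) (nat_lit 477) (nat_lit 476)))))) (XT.nd (nat_lit 390) (nat_lit 1216) (nat_lit 0) (XT.nd (nat_lit 156) (nat_lit 1064) (nat_lit 0) (XT.nd (nat_lit 78) (nat_lit 304) (nat_lit 0) (XT.lf (nat_lit 0) (nat_lit 3683890986)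 (nat_lit 380) (nat_lit 4221786370) (nat_lit 0) (nat_lit 2299514369) (nat_lit 138) (nat_lit 5) (nat_lit 143) (nat_lit 4) (nat_lit 138) (nat_lit 4) (nat_lit 608) (nat_lit 477) (nat_lit 475)) (XT.lf (nat_lit 0) (nat_lit 5124799208) (nat_lit 304) (nat_lit 3613406866) (nat_lit 304) (nat_lit 1557133231) (nat_lit 134) (nat_lit 4) (nat_lit 138) (nat_lit 5) (nat_lit 138) (nat_lit 4) (nat_lit 609) (nat_lit 477) (nat_lit 474))) (XT.nd (nat_lit 78) (nat_lit 684) (nat_lit 0) (XT.lf (nat_lit 0) (nat_lit 3447495816) (nat_lit 380) (nat_lit 6153861643) (nat_lit 0) (nat_lit 785734834) (nat_lit 129) (nat_lit 5) (nat_lit 134) (nat_lit 4) (nat_lit 129) (nat_lit 4) (nat_lit 610) (nat_lit 477) (nat_lit 473)) (XT.nd (nat_lit 78) (nat_lit 380) (nat_lit 0) (XT.lf (nat_lit 0) (nat_lit 3300699611) (nat_lit 304) (nat_lit 5237274162) (nat_lit 304) (nat_lit 1942369614) (nat_lit 125) (nat_lit 4) (nat_lit 129) (nat_lit 5) (nat_lit 129) (nat_lit 4) (nat_lit 611) (nat_lit 477) (nat_lit 472)) (XT.lf (nat_lit 0) (nat_lit 2339600040) (nat_lit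 304) (nat_lit 757050244) (nat_lit 380) (nat_lit 7478736058) (nat_lit 120) (nat_lit 5) (nat_lit 124) (nat_lit 5) (nat_lit 125) (nat_lit 4) (nat_lit 612) (nat_lit 477) (nat_lit 471))))) (XT.nd (nat_lit 156) (nat_lit 608) (nat_lit 0) (XT.nd (nat_lit 78) (nat_lit 304) (nat_lit 0) (XT.lf (nat_lit 0) (nat_lit 1330914966) (nat_lit 304) (nat_lit 6888233492) (nat_lit 304) (nat_lit 2452751760) (nat_lit 116) (nat_lit 4) (nat_lit 120) (nat_lit 5) (nat_lit 120) (nat_lit 4) (nat_lit 613) (nat_lit 477) (nat_lit 470)) (XT.lf (nat_lit 0) (nat_lit 288448926) (nat_lit 228) (nat_lit 2339698324) (nat_lit 304) (nat_lit 8142061621) (nat_lit 112) (nat_lit 5) (nat_lit 115) (nat_lit 5) (nat_lit 116) (nat_lit 4) (nat_lit 614) (nat_lit 477) (nat_lit 469))) (XT.nd (nat_lit 78) (nat_lit 608) (nat_lit 0) (XT.lf (nat_lit 0) (nat_lit 7783129292) (nat_lit 304) (nat_lit 787978127) (nat_lit 0) (nat_lit 2298946787) (nat_lit 112) (nat_lit 5) (nat_lit 116) (nat_lit 4) (nat_lit 112) (nat_lit 4) (nat_lit 615) (nat_lit 477) (nat_lit 468)) (XT.nd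 (nat_lit 78) (nat_lit 228) (nat_lit 0) (XT.lf (nat_lit 0) (nat_lit 2045325918) (nat_lit 380) (nat_lit 1903813726) (nat_lit 76) (nat_lit 7022425956) (nat_lit 107) (nat_lit 5) (nat_lit 112) (nat_lit 5) (nat_lit 108) (nat_lit 4) (nat_lit 616) (nat_lit 477) (nat_lit 467)) (XT.lf (nat_lit 0) (nat_lit 7230285393) (nat_lit 304) (nat_lit 3061118918) (nat_lit 0) (nat_lit 783467727) (nat_lit 104) (nat_lit 5) (nat_lit 108) (nat_lit 4) (nat_lit 104) (nat_lit 4) (nat_lit 617) (nat_lit 477) (nat_lit 466))))))) (XT.nd (nat_lit 80262) (nat_lit 0) (nat_lit 2204) (XT.nd (nat_lit 390) (nat_lit 608) (nat_lit 0) (XT.nd (nat_lit 156) (nat_lit 760) (nat_lit 0) (XT.nd (nat_lit 78) (nat_lit 228) (nat_lit 0) (XT.lf (nat_lit 0) (nat_lit 1334253314) (nat_lit 380) (nat_lit 4271024218) (nat_lit 76) (nat_lit 5574531840) (nat_lit 99) (nat_lit 5) (nat_lit 104) (nat_lit 5) (nat_lit 100) (nat_lit 4) (nat_lit 618) (nat_lit 477) (nat_lit 465)) (XT.lf (nat_lit 0) (nat_lit 5760726244) (nat_lit 228) (nat_lit 791826294) (nat_lit 304) (nat_lit 4734038240)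 (nat_lit 96) (nat_lit 5) (nat_lit 99) (nat_lit 5) (nat_lit 100) (nat_lit 4) (nat_lit 619) (nat_lit 477) (nat_lit 464))) (XT.nd (nat_lit 78) (nat_lit 456) (nat_lit 0) (XT.lf (nat_lit 0) (nat_lit 488247676) (nat_lit 304) (nat_lit 6832033091) (nat_lit 76) (nat_lit 4074868948) (nat_lit 92) (nat_lit 5) (nat_lit 96) (nat_lit 5) (nat_lit 93) (nat_lit 4) (nat_lit 620) (nat_lit 477) (nat_lit 463)) (XT.nd (nat_lit 78) (nat_lit 228) (nat_lit 0) (XT.lf (nat_lit 0) (nat_lit 3307409053) (nat_lit 228) (nat_lit 2437910821) (nat_lit 304) (nat_lit 5760060291) (nat_lit 89) (nat_lit 5) (nat_lit 92) (nat_lit 5) (nat_lit 93) (nat_lit 4) (nat_lit 621) (nat_lit 477) (nat_lit 462)) (XT.lf (nat_lit 0) (nat_lit 2011908359) (nat_lit 228) (nat_lit 9101217535) (nat_lit 228) (nat_lit 504578231) (nat_lit 86) (nat_lit 4) (nat_lit 89) (nat_lit 5) (nat_lit 89) (nat_lit 4) (nat_lit 622) (nat_lit 477) (nat_lit 461))))) (XT.nd (nat_lit 156) (nat_lit 304) (nat_lit 0) (XT.nd (nat_lit 78) (nat_lit 0) (nat_lit 0) (XT.lf (nat_lit 0) (nat_lit 643191477)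 (nat_lit 228) (nat_lit 4154827439) (nat_lit 304) (nat_lit 6933511937) (nat_lit 82) (nat_lit 5) (nat_lit 85) (nat_lit 5) (nat_lit 86) (nat_lit 4) (nat_lit 623) (nat_lit 477) (nat_lit 460)) (XT.lf (nat_lit 0) (nat_lit 10200816178) (nat_lit 304) (nat_lit 751906045) (nat_lit 0) (nat_lit 894827805) (nat_lit 82) (nat_lit 5) (nat_lit 86) (nat_lit 4) (nat_lit 82) (nat_lit 4) (nat_lit 624) (nat_lit 477) (nat_lit 459))) (XT.nd (nat_lit 79560) (nat_lit 0) (nat_lit 5700) (XT.lf (nat_lit 0) (nat_lit 3719354371) (nat_lit 304) (nat_lit 2218980011) (nat_lit 76) (nat_lit 6026615455) (nat_lit 78) (nat_lit 5) (nat_lit 82) (nat_lit 5) (nat_lit 79) (nat_lit 4) (nat_lit 625) (nat_lit 477) (nat_lit 458)) (XT.nd (nat_lit 78) (nat_lit 380) (nat_lit 0) (XT.lf (nat_lit 0) (nat_lit 2294746123) (nat_lit 380) (nat_lit 340311977) (nat_lit 0) (nat_lit 2294746123) (nat_lit 158) (nat_lit 5) (nat_lit 163) (nat_lit 4) (nat_lit 158) (nat_lit 4) (nat_lit 604) (nat_lit 478) (nat_lit 478)) (XT.lf (nat_lit 0) (nat_lit 8389226466) (nat_lit 380)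 (nat_lit 1148524792) (nat_lit 380) (nat_lit 406696192) (nat_lit 153) (nat_lit 4) (nat_lit 158) (nat_lit 5) (nat_lit 158) (nat_lit 4) (nat_lit 605) (nat_lit 478) (nat_lit 477)))))) (XT.nd (nat_lit 390) (nat_lit 1672) (nat_lit 0) (XT.nd (nat_lit 156) (nat_lit 1064) (nat_lit 0) (XT.nd (nat_lit 78) (nat_lit 380) (nat_lit 0) (XT.lf (nat_lit 0) (nat_lit 4494421088) (nat_lit 380) (nat_lit 2481853188) (nat_lit 0) (nat_lit 3054115657) (nat_lit 148) (nat_lit 5) (nat_lit 153) (nat_lit 4) (nat_lit 148) (nat_lit 4) (nat_lit 606) (nat_lit 478) (nat_lit 476)) (XT.lf (nat_lit 0) (nat_lit 6695222040) (nat_lit 380) (nat_lit 2781178982) (nat_lit 380) (nat_lit 641831892) (nat_lit 143) (nat_lit 4) (nat_lit 148) (nat_lit 5) (nat_lit 148) (nat_lit 4) (nat_lit 607) (nat_lit 478) (nat_lit 475))) (XT.nd (nat_lit 78) (nat_lit 684) (nat_lit 0) (XT.lf (nat_lit 0) (nat_lit 4284470267) (nat_lit 380) (nat_lit 4407797831) (nat_lit 0) (nat_lit 1515174142) (nat_lit 138) (nat_lit 5) (nat_lit 143) (nat_lit 4) (nat_lit 138) (nat_lit 4) (nat_lit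 608) (nat_lit 478) (nat_lit 474)) (XT.nd (nat_lit 78) (nat_lit 380) (nat_lit 0) (XT.lf (nat_lit 0) (nat_lit 4875935509) (nat_lit 304) (nat_lit 4425213133) (nat_lit 304) (nat_lit 997194441) (nat_lit 134) (nat_lit 4) (nat_lit 138) (nat_lit 5) (nat_lit 138) (nat_lit 4) (nat_lit 609) (nat_lit 478) (nat_lit 473)) (XT.lf (nat_lit 0) (nat_lit 3919137438) (nat_lit 304) (nat_lit 37774724) (nat_lit 380) (nat_lit 6433975282) (nat_lit 129) (nat_lit 5) (nat_lit 133) (nat_lit 5) (nat_lit 134) (nat_lit 4) (nat_lit 610) (nat_lit 478) (nat_lit 472))))) (XT.nd (nat_lit 234) (nat_lit 684) (nat_lit 0) (XT.nd (nat_lit 78) (nat_lit 684) (nat_lit 0) (XT.lf (nat_lit 0) (nat_lit 2918198973) (nat_lit 304) (nat_lit 6090692613) (nat_lit 304) (nat_lit 1476017420) (nat_lit 125) (nat_lit 4) (nat_lit 129) (nat_lit 5) (nat_lit 129) (nat_lit 4) (nat_lit 611) (nat_lit 478) (nat_lit 471)) (XT.nd (nat_lit 78) (nat_lit 304) (nat_lit 0) (XT.lf (nat_lit 0) (nat_lit 1883603382) (nat_lit 304) (nat_lit 1634632462) (nat_lit 380) (nat_lit 7062429046)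 (nat_lit 120) (nat_lit 5) (nat_lit 124) (nat_lit 5) (nat_lit 125) (nat_lit 4) (nat_lit 612) (nat_lit 478) (nat_lit 470)) (XT.lf (nat_lit 0) (nat_lit 808405784) (nat_lit 304) (nat_lit 7787704700) (nat_lit 304) (nat_lit 2081961222) (nat_lit 116) (nat_lit 4) (nat_lit 120) (nat_lit 5) (nat_lit 120) (nat_lit 4) (nat_lit 613) (nat_lit 478) (nat_lit 469)))) (XT.nd (nat_lit 78) (nat_lit 608) (nat_lit 0) (XT.lf (nat_lit 0) (nat_lit 2956744288) (nat_lit 380) (nat_lit 306577651) (nat_lit 76) (nat_lit 7513757333) (nat_lit 115) (nat_lit 5) (nat_lit 120) (nat_lit 5) (nat_lit 116) (nat_lit 4) (nat_lit 614) (nat_lit 478) (nat_lit 468)) (XT.nd (nat_lit 78) (nat_lit 380) (nat_lit 0) (XT.lf (nat_lit 0) (nat_lit 8068388993) (nat_lit 304) (nat_lit 1448282908) (nat_lit 0) (nat_lit 1361119893) (nat_lit 112) (nat_lit 5) (nat_lit 116) (nat_lit 4) (nat_lit 112) (nat_lit 4) (nat_lit 615) (nat_lit 478) (nat_lit 467)) (XT.lf (nat_lit 0) (nat_lit 2279596298) (nat_lit 380) (nat_lit 2642866515) (nat_lit 76) (nat_lit 6057597004) (nat_lit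 107) (nat_lit 5) (nat_lit 112) (nat_lit 5) (nat_lit 108) (nat_lit 4) (nat_lit 616) (nat_lit 478) (nat_lit 466))))))))
noncomputable def xc3 : XT := (XT.nd (nat_lit 80886) (nat_lit 0) (nat_lit 0) (XT.nd (nat_lit 80106) (nat_lit 0) (nat_lit 3192) (XT.nd (nat_lit 390) (nat_lit 836) (nat_lit 0) (XT.nd (nat_lit 156) (nat_lit 760) (nat_lit 0) (XT.nd (nat_lit 78) (nat_lit 380) (nat_lit 0) (XT.lf (nat_lit 0) (nat_lit 7210158051) (nat_lit 228) (nat_lit 209443583) (nat_lit 304) (nat_lit 3664664120) (nat_lit 104) (nat_lit 5) (nat_lit 107) (nat_lit 5) (nat_lit 108) (nat_lit 4) (nat_lit 617) (nat_lit 478) (nat_lit 465)) (XT.lf (nat_lit 0) (nat_lit 1470039149) (nat_lit 380) (nat_lit 5164673368) (nat_lit 76) (nat_lit 4555303147) (nat_lit 99) (nat_lit 5) (nat_lit 104) (nat_lit 5) (nat_lit 100) (nat_lit 4) (nat_lit 618) (nat_lit 478) (nat_lit 464))) (XT.nd (nat_lit 78) (nat_lit 532) (nat_lit 0) (XT.lf (nat_lit 0) (nat_lit 4795016962) (nat_lit 228) (nat_lit 1852705213) (nat_lit 304) (nat_lit 4649887613) (nat_lit 96) (nat_lit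 5) (nat_lit 99) (nat_lit 5) (nat_lit 100) (nat_lit 4) (nat_lit 619) (nat_lit 478) (nat_lit 463)) (XT.nd (nat_lit 78) (nat_lit 228) (nat_lit 0) (XT.lf (nat_lit 0) (nat_lit 523099350) (nat_lit 304) (nat_lit 7887282844) (nat_lit 76) (nat_lit 2996739886) (nat_lit 92) (nat_lit 5) (nat_lit 96) (nat_lit 5) (nat_lit 93) (nat_lit 4) (nat_lit 620) (nat_lit 478) (nat_lit 462)) (XT.lf (nat_lit 0) (nat_lit 2177757587) (nat_lit 228) (nat_lit 3560923657) (nat_lit 304) (nat_lit 5779501462) (nat_lit 89) (nat_lit 5) (nat_lit 92) (nat_lit 5) (nat_lit 93) (nat_lit 4) (nat_lit 621) (nat_lit 478) (nat_lit 461))))) (XT.nd (nat_lit 156) (nat_lit 532) (nat_lit 0) (XT.nd (nat_lit 78) (nat_lit 76) (nat_lit 0) (XT.lf (nat_lit 0) (nat_lit 801159030) (nat_lit 228) (nat_lit 10256141023) (nat_lit 228) (nat_lit 574190720) (nat_lit 86) (nat_lit 4) (nat_lit 89) (nat_lit 5) (nat_lit 89) (nat_lit 4) (nat_lit 622) (nat_lit 478) (nat_lit 460)) (XT.lf (nat_lit 0) (nat_lit 4691166865) (nat_lit 304) (nat_lit 649094638) (nat_lit 76) (nat_lit 6405828439)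 (nat_lit 85) (nat_lit 5) (nat_lit 89) (nat_lit 5) (nat_lit 86) (nat_lit 4) (nat_lit 623) (nat_lit 478) (nat_lit 459))) (XT.nd (nat_lit 78) (nat_lit 304) (nat_lit 0) (XT.lf (nat_lit 0) (nat_lit 9741363171) (nat_lit 228) (nat_lit 308747768) (nat_lit 304) (nat_lit 1812875583) (nat_lit 82) (nat_lit 5) (nat_lit 85) (nat_lit 5) (nat_lit 86) (nat_lit 4) (nat_lit 624) (nat_lit 478) (nat_lit 458)) (XT.nd (nat_lit 79404) (nat_lit 0) (nat_lit 6460) (XT.lf (nat_lit 0) (nat_lit 3510508525) (nat_lit 304) (nat_lit 3679310422) (nat_lit 76) (nat_lit 4791486949) (nat_lit 78) (nat_lit 5) (nat_lit 82) (nat_lit 5) (nat_lit 79) (nat_lit 4) (nat_lit 625) (nat_lit 478) (nat_lit 457)) (XT.lf (nat_lit 0) (nat_lit 540149034) (nat_lit 380) (nat_lit 2153454658) (nat_lit 380) (nat_lit 2153454658) (nat_lit 163) (nat_lit 4) (nat_lit 168) (nat_lit 5) (nat_lit 168) (nat_lit 4) (nat_lit 602) (nat_lit 479) (nat_lit 479)))))) (XT.nd (nat_lit 390) (nat_lit 1748) (nat_lit 0) (XT.nd (nat_lit 156) (nat_lit 1140) (nat_lit 0) (XT.nd (nat_lit 78)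 (nat_lit 0) (nat_lit 0) (XT.lf (nat_lit 0) (nat_lit 193251202) (nat_lit 304) (nat_lit 284496162) (nat_lit 380) (nat_lit 9299030280) (nat_lit 158) (nat_lit 5) (nat_lit 162) (nat_lit 5) (nat_lit 163) (nat_lit 4) (nat_lit 603) (nat_lit 479) (nat_lit 478)) (XT.lf (nat_lit 0) (nat_lit 5309587247) (nat_lit 380) (nat_lit 739659722) (nat_lit 0) (nat_lit 3811093476) (nat_lit 158) (nat_lit 5) (nat_lit 163) (nat_lit 4) (nat_lit 158) (nat_lit 4) (nat_lit 604) (nat_lit 479) (nat_lit 477))) (XT.nd (nat_lit 78) (nat_lit 684) (nat_lit 0) (XT.lf (nat_lit 0) (nat_lit 271700741) (nat_lit 456) (nat_lit 1676941213) (nat_lit 76) (nat_lit 7997234773) (nat_lit 152) (nat_lit 5) (nat_lit 158) (nat_lit 5) (nat_lit 153) (nat_lit 4) (nat_lit 605) (nat_lit 479) (nat_lit 476)) (XT.nd (nat_lit 78) (nat_lit 380) (nat_lit 0) (XT.lf (nat_lit 0) (nat_lit 5125195750) (nat_lit 380) (nat_lit 2663396917) (nat_lit 0) (nat_lit 2244020061) (nat_lit 148) (nat_lit 5) (nat_lit 153) (nat_lit 4) (nat_lit 148) (nat_lit 4) (nat_lit 606) (nat_lit 479) (nat_lit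 475)) (XT.lf (nat_lit 0) (nat_lit 6452335694) (nat_lit 380) (nat_lit 3617687135) (nat_lit 380) (nat_lit 51176488) (nat_lit 143) (nat_lit 4) (nat_lit 148) (nat_lit 5) (nat_lit 148) (nat_lit 4) (nat_lit 607) (nat_lit 479) (nat_lit 474))))) (XT.nd (nat_lit 156) (nat_lit 1064) (nat_lit 0) (XT.nd (nat_lit 78) (nat_lit 304) (nat_lit 0) (XT.lf (nat_lit 0) (nat_lit 4824298865) (nat_lit 380) (nat_lit 4717897981) (nat_lit 0) (nat_lit 668997232) (nat_lit 138) (nat_lit 5) (nat_lit 143) (nat_lit 4) (nat_lit 138) (nat_lit 4) (nat_lit 608) (nat_lit 479) (nat_lit 473)) (XT.lf (nat_lit 0) (nat_lit 4502517972) (nat_lit 304) (nat_lit 5300720159) (nat_lit 304) (nat_lit 499612088) (nat_lit 134) (nat_lit 4) (nat_lit 138) (nat_lit 5) (nat_lit 138) (nat_lit 4) (nat_lit 609) (nat_lit 479) (nat_lit 472))) (XT.nd (nat_lit 78) (nat_lit 684) (nat_lit 0) (XT.lf (nat_lit 0) (nat_lit 3473634975) (nat_lit 304) (nat_lit 936209882) (nat_lit 380) (nat_lit 5986248085) (nat_lit 129) (nat_lit 5) (nat_lit 133) (nat_lit 5) (nat_lit 134) (nat_lit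 4) (nat_lit 610) (nat_lit 479) (nat_lit 471)) (XT.nd (nat_lit 78) (nat_lit 380) (nat_lit 0) (XT.lf (nat_lit 0) (nat_lit 2407964818) (nat_lit 304) (nat_lit 7009644990) (nat_lit 304) (nat_lit 1073389475) (nat_lit 125) (nat_lit 4) (nat_lit 129) (nat_lit 5) (nat_lit 129) (nat_lit 4) (nat_lit 611) (nat_lit 479) (nat_lit 470)) (XT.lf (nat_lit 0) (nat_lit 1298240572) (nat_lit 304) (nat_lit 2578552205) (nat_lit 380) (nat_lit 6710686386) (nat_lit 120) (nat_lit 5) (nat_lit 124) (nat_lit 5) (nat_lit 125) (nat_lit 4) (nat_lit 612) (nat_lit 479) (nat_lit 469))))))) (XT.nd (nat_lit 780) (nat_lit 836) (nat_lit 0) (XT.nd (nat_lit 390) (nat_lit 1140) (nat_lit 0) (XT.nd (nat_lit 156) (nat_lit 836) (nat_lit 0) (XT.nd (nat_lit 78) (nat_lit 76) (nat_lit 0) (XT.lf (nat_lit 0) (nat_lit 154885213) (nat_lit 304) (nat_lit 8754574080) (nat_lit 304) (nat_lit 1776331309) (nat_lit 116) (nat_lit 4) (nat_lit 120) (nat_lit 5) (nat_lit 120) (nat_lit 4) (nat_lit 613) (nat_lit 479) (nat_lit 468)) (XT.lf (nat_lit 0) (nat_lit 3223603345) (nat_lit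 380) (nat_lit 1028777381) (nat_lit 76) (nat_lit 6533073445) (nat_lit 115) (nat_lit 5) (nat_lit 120) (nat_lit 5) (nat_lit 116) (nat_lit 4) (nat_lit 614) (nat_lit 479) (nat_lit 467))) (XT.nd (nat_lit 78) (nat_lit 608) (nat_lit 0) (XT.lf (nat_lit 0) (nat_lit 8289425759) (nat_lit 304) (nat_lit 2241218053) (nat_lit 0) (nat_lit 356439763) (nat_lit 112) (nat_lit 5) (nat_lit 116) (nat_lit 4) (nat_lit 112) (nat_lit 4) (nat_lit 615) (nat_lit 479) (nat_lit 466)) (XT.nd (nat_lit 78) (nat_lit 228) (nat_lit 0) (XT.lf (nat_lit 0) (nat_lit 2448764846) (nat_lit 380) (nat_lit 3516267218) (nat_lit 76) (nat_lit 5025088439) (nat_lit 107) (nat_lit 5) (nat_lit 112) (nat_lit 5) (nat_lit 108) (nat_lit 4) (nat_lit 616) (nat_lit 479) (nat_lit 465)) (XT.lf (nat_lit 0) (nat_lit 6266348215) (nat_lit 228) (nat_lit 1282423405) (nat_lit 304) (nat_lit 3546355202) (nat_lit 104) (nat_lit 5) (nat_lit 107) (nat_lit 5) (nat_lit 108) (nat_lit 4) (nat_lit 617) (nat_lit 479) (nat_lit 464))))) (XT.nd (nat_lit 156) (nat_lit 532) (nat_lit 0) (XT.nd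 (nat_lit 78) (nat_lit 228) (nat_lit 0) (XT.lf (nat_lit 0) (nat_lit 1539161431) (nat_lit 380) (nat_lit 6196172758) (nat_lit 76) (nat_lit 3466480273) (nat_lit 99) (nat_lit 5) (nat_lit 104) (nat_lit 5) (nat_lit 100) (nat_lit 4) (nat_lit 618) (nat_lit 479) (nat_lit 463)) (XT.lf (nat_lit 0) (nat_lit 3690805561) (nat_lit 228) (nat_lit 2985196905) (nat_lit 304) (nat_lit 4634223345) (nat_lit 96) (nat_lit 5) (nat_lit 99) (nat_lit 5) (nat_lit 100) (nat_lit 4) (nat_lit 619) (nat_lit 479) (nat_lit 462))) (XT.nd (nat_lit 78) (nat_lit 228) (nat_lit 0) (XT.lf (nat_lit 0) (nat_lit 489653227) (nat_lit 304) (nat_lit 9084001576) (nat_lit 76) (nat_lit 1847059735) (nat_lit 92) (nat_lit 5) (nat_lit 96) (nat_lit 5) (nat_lit 93) (nat_lit 4) (nat_lit 620) (nat_lit 479) (nat_lit 461)) (XT.nd (nat_lit 78) (nat_lit 0) (nat_lit 0) (XT.lf (nat_lit 0) (nat_lit 905940977) (nat_lit 228) (nat_lit 4757550533) (nat_lit 304) (nat_lit 5869118889) (nat_lit 89) (nat_lit 5) (nat_lit 92) (nat_lit 5) (nat_lit 93) (nat_lit 4) (nat_lit 621) (nat_lit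 479) (nat_lit 460)) (XT.lf (nat_lit 0) (nat_lit 10935771840) (nat_lit 304) (nat_lit 546360057) (nat_lit 0) (nat_lit 164713695) (nat_lit 89) (nat_lit 5) (nat_lit 93) (nat_lit 4) (nat_lit 89) (nat_lit 4) (nat_lit 622) (nat_lit 479) (nat_lit 459)))))) (XT.nd (nat_lit 79560) (nat_lit 0) (nat_lit 4864) (XT.nd (nat_lit 156) (nat_lit 304) (nat_lit 0) (XT.nd (nat_lit 78) (nat_lit 228) (nat_lit 0) (XT.lf (nat_lit 0) (nat_lit 4519150489) (nat_lit 304) (nat_lit 2076983374) (nat_lit 76) (nat_lit 5166067584) (nat_lit 85) (nat_lit 5) (nat_lit 89) (nat_lit 5) (nat_lit 86) (nat_lit 4) (nat_lit 623) (nat_lit 479) (nat_lit 458)) (XT.lf (nat_lit 0) (nat_lit 8236289392) (nat_lit 228) (nat_lit 1599376066) (nat_lit 304) (nat_lit 2044281487) (nat_lit 82) (nat_lit 5) (nat_lit 85) (nat_lit 5) (nat_lit 86) (nat_lit 4) (nat_lit 624) (nat_lit 479) (nat_lit 457))) (XT.nd (nat_lit 79248) (nat_lit 0) (nat_lit 6840) (XT.lf (nat_lit 0) (nat_lit 3230533610) (nat_lit 304) (nat_lit 5287545291) (nat_lit 76) (nat_lit 3481249868) (nat_lit 78)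 (nat_lit 5) (nat_lit 82) (nat_lit 5) (nat_lit 79) (nat_lit 4) (nat_lit 625) (nat_lit 479) (nat_lit 456)) (XT.nd (nat_lit 78) (nat_lit 456) (nat_lit 0) (XT.lf (nat_lit 0) (nat_lit 1430040177) (nat_lit 380) (nat_lit 1668271116) (nat_lit 380) (nat_lit 1668271116) (nat_lit 174) (nat_lit 4) (nat_lit 179) (nat_lit 5) (nat_lit 179) (nat_lit 4) (nat_lit 600) (nat_lit 480) (nat_lit 480)) (XT.lf (nat_lit 0) (nat_lit 1375488497) (nat_lit 456) (nat_lit 7649689350) (nat_lit 0) (nat_lit 588254053) (nat_lit 168) (nat_lit 5) (nat_lit 174) (nat_lit 4) (nat_lit 168) (nat_lit 4) (nat_lit 601) (nat_lit 480) (nat_lit 479))))) (XT.nd (nat_lit 234) (nat_lit 1216) (nat_lit 0) (XT.nd (nat_lit 78) (nat_lit 380) (nat_lit 0) (XT.lf (nat_lit 0) (nat_lit 1021950616) (nat_lit 380) (nat_lit 5115965073) (nat_lit 380) (nat_lit 3556932154) (nat_lit 163) (nat_lit 4) (nat_lit 168) (nat_lit 5) (nat_lit 168) (nat_lit 4) (nat_lit 602) (nat_lit 480) (nat_lit 478)) (XT.nd (nat_lit 78) (nat_lit 0) (nat_lit 0) (XT.lf (nat_lit 0) (nat_lit 70003810)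 (nat_lit 304) (nat_lit 1111036734) (nat_lit 380) (nat_lit 8597108408) (nat_lit 158) (nat_lit 5) (nat_lit 162) (nat_lit 5) (nat_lit 163) (nat_lit 4) (nat_lit 603) (nat_lit 480) (nat_lit 477)) (XT.lf (nat_lit 0) (nat_lit 5971660869) (nat_lit 380) (nat_lit 916790176) (nat_lit 0) (nat_lit 2974085682) (nat_lit 158) (nat_lit 5) (nat_lit 163) (nat_lit 4) (nat_lit 158) (nat_lit 4) (nat_lit 604) (nat_lit 480) (nat_lit 476)))) (XT.nd (nat_lit 78) (nat_lit 760) (nat_lit 0) (XT.lf (nat_lit 0) (nat_lit 885991384) (nat_lit 456) (nat_lit 1920895080) (nat_lit 76) (nat_lit 7141840066) (nat_lit 152) (nat_lit 5) (nat_lit 158) (nat_lit 5) (nat_lit 153) (nat_lit 4) (nat_lit 605) (nat_lit 480) (nat_lit 475)) (XT.nd (nat_lit 78) (nat_lit 456) (nat_lit 0) (XT.lf (nat_lit 0) (nat_lit 5696722637) (nat_lit 380) (nat_lit 2966048902) (nat_lit 0) (nat_lit 1373546817) (nat_lit 148) (nat_lit 5) (nat_lit 153) (nat_lit 4) (nat_lit 148) (nat_lit 4) (nat_lit 606) (nat_lit 480) (nat_lit 474)) (XT.lf (nat_lit 0) (nat_lit 472377145) (nat_lit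 456) (nat_lit 4040871003) (nat_lit 76) (nat_lit 5612340072) (nat_lit 142) (nat_lit 5) (nat_lit 148) (nat_lit 5) (nat_lit 143) (nat_lit 4) (nat_lit 607) (nat_lit 480) (nat_lit 473))))))))
noncomputable def xc4 : XT := (XT.nd (nat_lit 80574) (nat_lit 0) (nat_lit 1292) (XT.nd (nat_lit 780) (nat_lit 1976) (nat_lit 0) (XT.nd (nat_lit 390) (nat_lit 1216) (nat_lit 0) (XT.nd (nat_lit 156) (nat_lit 1064) (nat_lit 0) (XT.nd (nat_lit 78) (nat_lit 304) (nat_lit 0) (XT.lf (nat_lit 0) (nat_lit 5062634129) (nat_lit 304) (nat_lit 242529006) (nat_lit 380) (nat_lit 4911254082) (nat_lit 138) (nat_lit 5) (nat_lit 142) (nat_lit 5) (nat_lit 143) (nat_lit 4) (nat_lit 608) (nat_lit 480) (nat_lit 472)) (XT.lf (nat_lit 0) (nat_lit 4004400161) (nat_lit 304) (nat_lit 6240271281) (nat_lit 304) (nat_lit 64191044) (nat_lit 134) (nat_lit 4) (nat_lit 138) (nat_lit 5) (nat_lit 138) (nat_lit 4) (nat_lit 609) (nat_lit 480) (nat_lit 471))) (XT.nd (nat_lit 78) (nat_lit 684) (nat_lit 0) (XT.lf (nat_lit 0) (nat_lit 2901821249) (nat_lit 304) (nat_lit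 1899480965) (nat_lit 380) (nat_lit 5601512003) (nat_lit 129) (nat_lit 5) (nat_lit 133) (nat_lit 5) (nat_lit 134) (nat_lit 4) (nat_lit 610) (nat_lit 480) (nat_lit 470)) (XT.nd (nat_lit 78) (nat_lit 380) (nat_lit 0) (XT.lf (nat_lit 0) (nat_lit 1769797056) (nat_lit 304) (nat_lit 7994491665) (nat_lit 304) (nat_lit 734327885) (nat_lit 125) (nat_lit 4) (nat_lit 129) (nat_lit 5) (nat_lit 129) (nat_lit 4) (nat_lit 611) (nat_lit 480) (nat_lit 469)) (XT.lf (nat_lit 0) (nat_lit 583282056) (nat_lit 304) (nat_lit 3589179638) (nat_lit 380) (nat_lit 6423370140) (nat_lit 120) (nat_lit 5) (nat_lit 124) (nat_lit 5) (nat_lit 125) (nat_lit 4) (nat_lit 612) (nat_lit 480) (nat_lit 468))))) (XT.nd (nat_lit 156) (nat_lit 836) (nat_lit 0) (XT.nd (nat_lit 78) (nat_lit 380) (nat_lit 0) (XT.lf (nat_lit 0) (nat_lit 9163407515) (nat_lit 380) (nat_lit 621641737) (nat_lit 0) (nat_lit 909928885) (nat_lit 120) (nat_lit 5) (nat_lit 125) (nat_lit 4) (nat_lit 120) (nat_lit 4) (nat_lit 613) (nat_lit 480) (nat_lit 467)) (XT.lf (nat_lit 0) (nat_lit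 3426956270) (nat_lit 380) (nat_lit 1882216540) (nat_lit 76) (nat_lit 5486201501) (nat_lit 115) (nat_lit 5) (nat_lit 120) (nat_lit 5) (nat_lit 116) (nat_lit 4) (nat_lit 614) (nat_lit 480) (nat_lit 466))) (XT.nd (nat_lit 78) (nat_lit 608) (nat_lit 0) (XT.lf (nat_lit 0) (nat_lit 7726037375) (nat_lit 228) (nat_lit 724996050) (nat_lit 304) (nat_lit 2446805620) (nat_lit 112) (nat_lit 5) (nat_lit 115) (nat_lit 5) (nat_lit 116) (nat_lit 4) (nat_lit 615) (nat_lit 480) (nat_lit 465)) (XT.nd (nat_lit 78) (nat_lit 228) (nat_lit 0) (XT.lf (nat_lit 0) (nat_lit 2552897905) (nat_lit 380) (nat_lit 4524358347) (nat_lit 76) (nat_lit 3924495356) (nat_lit 107) (nat_lit 5) (nat_lit 112) (nat_lit 5) (nat_lit 108) (nat_lit 4) (nat_lit 616) (nat_lit 480) (nat_lit 464)) (XT.lf (nat_lit 0) (nat_lit 5187210971) (nat_lit 228) (nat_lit 2425480640) (nat_lit 304) (nat_lit 3494870976) (nat_lit 104) (nat_lit 5) (nat_lit 107) (nat_lit 5) (nat_lit 108) (nat_lit 4) (nat_lit 617) (nat_lit 480) (nat_lit 463)))))) (XT.nd (nat_lit 390) (nat_lit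 836) (nat_lit 0) (XT.nd (nat_lit 156) (nat_lit 532) (nat_lit 0) (XT.nd (nat_lit 78) (nat_lit 228) (nat_lit 0) (XT.lf (nat_lit 0) (nat_lit 1541647268) (nat_lit 380) (nat_lit 7365926897) (nat_lit 76) (nat_lit 2307636226) (nat_lit 99) (nat_lit 5) (nat_lit 104) (nat_lit 5) (nat_lit 100) (nat_lit 4) (nat_lit 618) (nat_lit 480) (nat_lit 462)) (XT.lf (nat_lit 0) (nat_lit 2447659018) (nat_lit 228) (nat_lit 4189745483) (nat_lit 304) (nat_lit 4687039292) (nat_lit 96) (nat_lit 5) (nat_lit 99) (nat_lit 5) (nat_lit 100) (nat_lit 4) (nat_lit 619) (nat_lit 480) (nat_lit 461))) (XT.nd (nat_lit 78) (nat_lit 228) (nat_lit 0) (XT.lf (nat_lit 0) (nat_lit 387896191) (nat_lit 304) (nat_lit 10422658587) (nat_lit 76) (nat_lit 625377639) (nat_lit 92) (nat_lit 5) (nat_lit 96) (nat_lit 5) (nat_lit 93) (nat_lit 4) (nat_lit 620) (nat_lit 480) (nat_lit 460)) (XT.nd (nat_lit 78) (nat_lit 228) (nat_lit 0) (XT.lf (nat_lit 0) (nat_lit 5523022963) (nat_lit 304) (nat_lit 501869940) (nat_lit 76) (nat_lit 5523709962) (nat_lit 92) (nat_lit 5)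 (nat_lit 96) (nat_lit 5) (nat_lit 93) (nat_lit 4) (nat_lit 621) (nat_lit 480) (nat_lit 459)) (XT.lf (nat_lit 0) (nat_lit 9630214808) (nat_lit 228) (nat_lit 1128147834) (nat_lit 304) (nat_lit 905214576) (nat_lit 89) (nat_lit 5) (nat_lit 92) (nat_lit 5) (nat_lit 93) (nat_lit 4) (nat_lit 622) (nat_lit 480) (nat_lit 458))))) (XT.nd (nat_lit 156) (nat_lit 304) (nat_lit 0) (XT.nd (nat_lit 78) (nat_lit 228) (nat_lit 0) (XT.lf (nat_lit 0) (nat_lit 4277726308) (nat_lit 304) (nat_lit 3649470258) (nat_lit 76) (nat_lit 3852758645) (nat_lit 85) (nat_lit 5) (nat_lit 89) (nat_lit 5) (nat_lit 86) (nat_lit 4) (nat_lit 623) (nat_lit 480) (nat_lit 457)) (XT.lf (nat_lit 0) (nat_lit 6585837188) (nat_lit 228) (nat_lit 2965671427) (nat_lit 304) (nat_lit 2347047075) (nat_lit 82) (nat_lit 5) (nat_lit 85) (nat_lit 5) (nat_lit 86) (nat_lit 4) (nat_lit 624) (nat_lit 480) (nat_lit 456))) (XT.nd (nat_lit 79092) (nat_lit 0) (nat_lit 7676) (XT.lf (nat_lit 0) (nat_lit 2879319833) (nat_lit 304) (nat_lit 7044315297) (nat_lit 76) (nat_lit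 2095390394) (nat_lit 78) (nat_lit 5) (nat_lit 82) (nat_lit 5) (nat_lit 79) (nat_lit 4) (nat_lit 625) (nat_lit 480) (nat_lit 455)) (XT.nd (nat_lit 78) (nat_lit 456) (nat_lit 0) (XT.lf (nat_lit 0) (nat_lit 2326648730) (nat_lit 380) (nat_lit 1180872511) (nat_lit 380) (nat_lit 1180872511) (nat_lit 185) (nat_lit 4) (nat_lit 190) (nat_lit 5) (nat_lit 190) (nat_lit 4) (nat_lit 598) (nat_lit 481) (nat_lit 481)) (XT.lf (nat_lit 0) (nat_lit 2281493985) (nat_lit 456) (nat_lit 5710700936) (nat_lit 0) (nat_lit 1462455269) (nat_lit 179) (nat_lit 5) (nat_lit 185) (nat_lit 4) (nat_lit 179) (nat_lit 4) (nat_lit 599) (nat_lit 481) (nat_lit 480))))))) (XT.nd (nat_lit 780) (nat_lit 2888) (nat_lit 0) (XT.nd (nat_lit 390) (nat_lit 1900) (nat_lit 0) (XT.nd (nat_lit 156) (nat_lit 760) (nat_lit 0) (XT.nd (nat_lit 78) (nat_lit 456) (nat_lit 0) (XT.lf (nat_lit 0) (nat_lit 2803189006) (nat_lit 380) (nat_lit 4176358292) (nat_lit 380) (nat_lit 2554340443) (nat_lit 174) (nat_lit 4) (nat_lit 179) (nat_lit 5) (nat_lit 179) (nat_lit 4) (nat_lit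 600) (nat_lit 481) (nat_lit 479)) (XT.lf (nat_lit 0) (nat_lit 1847166411) (nat_lit 380) (nat_lit 259971561) (nat_lit 456) (nat_lit 7507721773) (nat_lit 168) (nat_lit 5) (nat_lit 173) (nat_lit 5) (nat_lit 174) (nat_lit 4) (nat_lit 601) (nat_lit 481) (nat_lit 478))) (XT.nd (nat_lit 78) (nat_lit 380) (nat_lit 0) (XT.lf (nat_lit 0) (nat_lit 846885374) (nat_lit 380) (nat_lit 5984416703) (nat_lit 380) (nat_lit 2865739479) (nat_lit 163) (nat_lit 4) (nat_lit 168) (nat_lit 5) (nat_lit 168) (nat_lit 4) (nat_lit 602) (nat_lit 481) (nat_lit 477)) (XT.nd (nat_lit 78) (nat_lit 304) (nat_lit 0) (XT.lf (nat_lit 0) (nat_lit 1827372717) (nat_lit 456) (nat_lit 169212933) (nat_lit 76) (nat_lit 7784383753) (nat_lit 162) (nat_lit 5) (nat_lit 168) (nat_lit 5) (nat_lit 163) (nat_lit 4) (nat_lit 603) (nat_lit 481) (nat_lit 476)) (XT.lf (nat_lit 0) (nat_lit 6575972749) (nat_lit 380) (nat_lit 1212084780) (nat_lit 0) (nat_lit 2078140627) (nat_lit 158) (nat_lit 5) (nat_lit 163) (nat_lit 4) (nat_lit 158) (nat_lit 4) (nat_lit 604) (nat_lit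 481) (nat_lit 475))))) (XT.nd (nat_lit 156) (nat_lit 1140) (nat_lit 0) (XT.nd (nat_lit 78) (nat_lit 304) (nat_lit 0) (XT.lf (nat_lit 0) (nat_lit 1441750528) (nat_lit 456) (nat_lit 2284537711) (nat_lit 76) (nat_lit 6226762546) (nat_lit 152) (nat_lit 5) (nat_lit 158) (nat_lit 5) (nat_lit 153) (nat_lit 4) (nat_lit 605) (nat_lit 481) (nat_lit 474)) (XT.lf (nat_lit 0) (nat_lit 6209225876) (nat_lit 380) (nat_lit 3389927829) (nat_lit 0) (nat_lit 442354564) (nat_lit 148) (nat_lit 5) (nat_lit 153) (nat_lit 4) (nat_lit 148) (nat_lit 4) (nat_lit 606) (nat_lit 481) (nat_lit 473))) (XT.nd (nat_lit 78) (nat_lit 684) (nat_lit 0) (XT.lf (nat_lit 0) (nat_lit 935438234) (nat_lit 456) (nat_lit 4536008644) (nat_lit 76) (nat_lit 4660017871) (nat_lit 142) (nat_lit 5) (nat_lit 148) (nat_lit 5) (nat_lit 143) (nat_lit 4) (nat_lit 607) (nat_lit 481) (nat_lit 472)) (XT.nd (nat_lit 78) (nat_lit 380) (nat_lit 0) (XT.lf (nat_lit 0) (nat_lit 4504187503) (nat_lit 304) (nat_lit 1226301516) (nat_lit 380) (nat_lit 4492559938) (nat_lit 138)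 (nat_lit 5) (nat_lit 142) (nat_lit 5) (nat_lit 143) (nat_lit 4) (nat_lit 608) (nat_lit 481) (nat_lit 471)) (XT.lf (nat_lit 0) (nat_lit 305183714) (nat_lit 380) (nat_lit 6937003292) (nat_lit 76) (nat_lit 3074155077) (nat_lit 133) (nat_lit 5) (nat_lit 138) (nat_lit 5) (nat_lit 134) (nat_lit 4) (nat_lit 609) (nat_lit 481) (nat_lit 470)))))) (XT.nd (nat_lit 390) (nat_lit 1520) (nat_lit 0) (XT.nd (nat_lit 156) (nat_lit 760) (nat_lit 0) (XT.nd (nat_lit 78) (nat_lit 304) (nat_lit 0) (XT.lf (nat_lit 0) (nat_lit 2203472020) (nat_lit 304) (nat_lit 2927965725) (nat_lit 380) (nat_lit 5279616159) (nat_lit 129) (nat_lit 5) (nat_lit 133) (nat_lit 5) (nat_lit 134) (nat_lit 4) (nat_lit 610) (nat_lit 481) (nat_lit 469)) (XT.lf (nat_lit 0) (nat_lit 1003445423) (nat_lit 304) (nat_lit 9045618852) (nat_lit 304) (nat_lit 458699685) (nat_lit 125) (nat_lit 4) (nat_lit 129) (nat_lit 5) (nat_lit 129) (nat_lit 4) (nat_lit 611) (nat_lit 481) (nat_lit 468))) (XT.nd (nat_lit 78) (nat_lit 684) (nat_lit 0) (XT.lf (nat_lit 0) (nat_lit 4407056717)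 (nat_lit 380) (nat_lit 258122233) (nat_lit 76) (nat_lit 5940513265) (nat_lit 124) (nat_lit 5) (nat_lit 129) (nat_lit 5) (nat_lit 125) (nat_lit 4) (nat_lit 612) (nat_lit 481) (nat_lit 467)) (XT.nd (nat_lit 78) (nat_lit 380) (nat_lit 0) (XT.lf (nat_lit 0) (nat_lit 9178513500) (nat_lit 304) (nat_lit 178468514) (nat_lit 380) (nat_lit 1348677356) (nat_lit 120) (nat_lit 5) (nat_lit 124) (nat_lit 5) (nat_lit 125) (nat_lit 4) (nat_lit 613) (nat_lit 481) (nat_lit 466)) (XT.lf (nat_lit 0) (nat_lit 3566882810) (nat_lit 380) (nat_lit 2867229808) (nat_lit 76) (nat_lit 4372730964) (nat_lit 115) (nat_lit 5) (nat_lit 120) (nat_lit 5) (nat_lit 116) (nat_lit 4) (nat_lit 614) (nat_lit 481) (nat_lit 465))))) (XT.nd (nat_lit 234) (nat_lit 684) (nat_lit 0) (XT.nd (nat_lit 78) (nat_lit 608) (nat_lit 0) (XT.lf (nat_lit 0) (nat_lit 6671620926) (nat_lit 228) (nat_lit 1879735620) (nat_lit 304) (nat_lit 2358744254) (nat_lit 112) (nat_lit 5) (nat_lit 115) (nat_lit 5) (nat_lit 116) (nat_lit 4) (nat_lit 615) (nat_lit 481) (nat_lit 464))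 (XT.nd (nat_lit 78) (nat_lit 228) (nat_lit 0) (XT.lf (nat_lit 0) (nat_lit 2592036309) (nat_lit 380) (nat_lit 5667535231) (nat_lit 76) (nat_lit 2755386150) (nat_lit 107) (nat_lit 5) (nat_lit 112) (nat_lit 5) (nat_lit 108) (nat_lit 4) (nat_lit 616) (nat_lit 481) (nat_lit 463)) (XT.lf (nat_lit 0) (nat_lit 3972323129) (nat_lit 228) (nat_lit 3639063547) (nat_lit 304) (nat_lit 3510191252) (nat_lit 104) (nat_lit 5) (nat_lit 107) (nat_lit 5) (nat_lit 108) (nat_lit 4) (nat_lit 617) (nat_lit 481) (nat_lit 462)))) (XT.nd (nat_lit 78) (nat_lit 304) (nat_lit 0) (XT.lf (nat_lit 0) (nat_lit 1477497633) (nat_lit 380) (nat_lit 8674394513) (nat_lit 76) (nat_lit 1078316559) (nat_lit 99) (nat_lit 5) (nat_lit 104) (nat_lit 5) (nat_lit 100) (nat_lit 4) (nat_lit 618) (nat_lit 481) (nat_lit 461)) (XT.nd (nat_lit 78) (nat_lit 76) (nat_lit 0) (XT.lf (nat_lit 0) (nat_lit 1065089824) (nat_lit 228) (nat_lit 5466823321) (nat_lit 304) (nat_lit 4808356166) (nat_lit 96) (nat_lit 5) (nat_lit 99) (nat_lit 5) (nat_lit 100) (nat_lit 4) (nat_lit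 619) (nat_lit 481) (nat_lit 460)) (XT.lf (nat_lit 0) (nat_lit 225145553) (nat_lit 304) (nat_lit 449511289) (nat_lit 76) (nat_lit 10777977699) (nat_lit 95) (nat_lit 5) (nat_lit 99) (nat_lit 5) (nat_lit 96) (nat_lit 5) (nat_lit 620) (nat_lit 481) (nat_lit 459))))))))
noncomputable def xc5 : XT := (XT.nd (nat_lit 80418) (nat_lit 0) (nat_lit 0) (XT.nd (nat_lit 79638) (nat_lit 0) (nat_lit 3876) (XT.nd (nat_lit 79248) (nat_lit 0) (nat_lit 7296) (XT.nd (nat_lit 156) (nat_lit 836) (nat_lit 0) (XT.nd (nat_lit 78) (nat_lit 228) (nat_lit 0) (XT.lf (nat_lit 0) (nat_lit 5320729283) (nat_lit 304) (nat_lit 2039139536) (nat_lit 76) (nat_lit 4206227380) (nat_lit 92) (nat_lit 5) (nat_lit 96) (nat_lit 5) (nat_lit 93) (nat_lit 4) (nat_lit 621) (nat_lit 481) (nat_lit 458)) (XT.lf (nat_lit 0) (nat_lit 8016735771) (nat_lit 228) (nat_lit 2497302683) (nat_lit 304) (nat_lit 1167873050) (nat_lit 89) (nat_lit 5) (nat_lit 92) (nat_lit 5) (nat_lit 93) (nat_lit 4) (nat_lit 622) (nat_lit 481) (nat_lit 457))) (XT.nd (nat_lit 78) (nat_lit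 532) (nat_lit 0) (XT.lf (nat_lit 0) (nat_lit 3966799644) (nat_lit 304) (nat_lit 5367171952) (nat_lit 76) (nat_lit 2465386597) (nat_lit 85) (nat_lit 5) (nat_lit 89) (nat_lit 5) (nat_lit 86) (nat_lit 4) (nat_lit 623) (nat_lit 481) (nat_lit 456)) (XT.nd (nat_lit 78) (nat_lit 304) (nat_lit 0) (XT.lf (nat_lit 0) (nat_lit 4789359322) (nat_lit 228) (nat_lit 4408169652) (nat_lit 304) (nat_lit 2721291078) (nat_lit 82) (nat_lit 5) (nat_lit 85) (nat_lit 5) (nat_lit 86) (nat_lit 4) (nat_lit 624) (nat_lit 481) (nat_lit 455)) (XT.lf (nat_lit 0) (nat_lit 2456729464) (nat_lit 304) (nat_lit 8950309372) (nat_lit 76) (nat_lit 633365052) (nat_lit 78) (nat_lit 5) (nat_lit 82) (nat_lit 5) (nat_lit 79) (nat_lit 4) (nat_lit 625) (nat_lit 481) (nat_lit 454))))) (XT.nd (nat_lit 156) (nat_lit 1216) (nat_lit 0) (XT.nd (nat_lit 78) (nat_lit 456) (nat_lit 0) (XT.lf (nat_lit 0) (nat_lit 3231749390) (nat_lit 456) (nat_lit 690358795) (nat_lit 456) (nat_lit 690358795) (nat_lit 196) (nat_lit 4) (nat_lit 202) (nat_lit 5) (nat_lit 202) (nat_lit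 4) (nat_lit 596) (nat_lit 482) (nat_lit 482)) (XT.lf (nat_lit 0) (nat_lit 3195727165) (nat_lit 456) (nat_lit 3761089954) (nat_lit 0) (nat_lit 2343599285) (nat_lit 190) (nat_lit 5) (nat_lit 196) (nat_lit 4) (nat_lit 190) (nat_lit 4) (nat_lit 597) (nat_lit 482) (nat_lit 481))) (XT.nd (nat_lit 78) (nat_lit 836) (nat_lit 0) (XT.lf (nat_lit 0) (nat_lit 4597846274) (nat_lit 380) (nat_lit 3233601858) (nat_lit 380) (nat_lit 1546054488) (nat_lit 185) (nat_lit 4) (nat_lit 190) (nat_lit 5) (nat_lit 190) (nat_lit 4) (nat_lit 598) (nat_lit 482) (nat_lit 480)) (XT.nd (nat_lit 78) (nat_lit 380) (nat_lit 0) (XT.lf (nat_lit 0) (nat_lit 3044709330) (nat_lit 456) (nat_lit 5824114254) (nat_lit 0) (nat_lit 587271990) (nat_lit 179) (nat_lit 5) (nat_lit 185) (nat_lit 4) (nat_lit 179) (nat_lit 4) (nat_lit 599) (nat_lit 482) (nat_lit 479)) (XT.lf (nat_lit 0) (nat_lit 2632492653) (nat_lit 380) (nat_lit 5074117965) (nat_lit 380) (nat_lit 1829446181) (nat_lit 174) (nat_lit 4) (nat_lit 179) (nat_lit 5) (nat_lit 179) (nat_lit 4) (nat_lit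 600) (nat_lit 482) (nat_lit 478)))))) (XT.nd (nat_lit 390) (nat_lit 1748) (nat_lit 0) (XT.nd (nat_lit 156) (nat_lit 836) (nat_lit 0) (XT.nd (nat_lit 78) (nat_lit 380) (nat_lit 0) (XT.lf (nat_lit 0) (nat_lit 1611354636) (nat_lit 380) (nat_lit 1174697292) (nat_lit 456) (nat_lit 6831612815) (nat_lit 168) (nat_lit 5) (nat_lit 173) (nat_lit 5) (nat_lit 174) (nat_lit 4) (nat_lit 601) (nat_lit 482) (nat_lit 477)) (XT.lf (nat_lit 0) (nat_lit 555033692) (nat_lit 380) (nat_lit 6912604774) (nat_lit 380) (nat_lit 2233060234) (nat_lit 163) (nat_lit 4) (nat_lit 168) (nat_lit 5) (nat_lit 168) (nat_lit 4) (nat_lit 602) (nat_lit 482) (nat_lit 476))) (XT.nd (nat_lit 78) (nat_lit 760) (nat_lit 0) (XT.lf (nat_lit 0) (nat_lit 2417106343) (nat_lit 456) (nat_lit 524272666) (nat_lit 76) (nat_lit 6843858913) (nat_lit 162) (nat_lit 5) (nat_lit 168) (nat_lit 5) (nat_lit 163) (nat_lit 4) (nat_lit 603) (nat_lit 482) (nat_lit 475)) (XT.nd (nat_lit 78) (nat_lit 456) (nat_lit 0) (XT.lf (nat_lit 0) (nat_lit 7122759872) (nat_lit 380) (nat_lit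 1625659335) (nat_lit 0) (nat_lit 1122906959) (nat_lit 158) (nat_lit 5) (nat_lit 163) (nat_lit 4) (nat_lit 158) (nat_lit 4) (nat_lit 604) (nat_lit 482) (nat_lit 474)) (XT.lf (nat_lit 0) (nat_lit 1939196118) (nat_lit 456) (nat_lit 2768011711) (nat_lit 76) (nat_lit 5251643360) (nat_lit 152) (nat_lit 5) (nat_lit 158) (nat_lit 5) (nat_lit 153) (nat_lit 4) (nat_lit 605) (nat_lit 482) (nat_lit 473))))) (XT.nd (nat_lit 156) (nat_lit 988) (nat_lit 0) (XT.nd (nat_lit 78) (nat_lit 456) (nat_lit 0) (XT.lf (nat_lit 0) (nat_lit 6109294311) (nat_lit 304) (nat_lit 557230045) (nat_lit 380) (nat_lit 3381587788) (nat_lit 148) (nat_lit 5) (nat_lit 152) (nat_lit 5) (nat_lit 153) (nat_lit 4) (nat_lit 606) (nat_lit 482) (nat_lit 472)) (XT.lf (nat_lit 0) (nat_lit 1338859560) (nat_lit 456) (nat_lit 5154138448) (nat_lit 76) (nat_lit 3645839846) (nat_lit 142) (nat_lit 5) (nat_lit 148) (nat_lit 5) (nat_lit 143) (nat_lit 4) (nat_lit 607) (nat_lit 482) (nat_lit 471))) (XT.nd (nat_lit 78) (nat_lit 684) (nat_lit 0) (XT.lf (nat_lit 0) (nat_lit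 3822226544) (nat_lit 304) (nat_lit 2273815471) (nat_lit 380) (nat_lit 4135137912) (nat_lit 138) (nat_lit 5) (nat_lit 142) (nat_lit 5) (nat_lit 143) (nat_lit 4) (nat_lit 608) (nat_lit 482) (nat_lit 470)) (XT.nd (nat_lit 78) (nat_lit 304) (nat_lit 0) (XT.lf (nat_lit 0) (nat_lit 612683581) (nat_lit 380) (nat_lit 7696209866) (nat_lit 76) (nat_lit 2016438363) (nat_lit 133) (nat_lit 5) (nat_lit 138) (nat_lit 5) (nat_lit 134) (nat_lit 4) (nat_lit 609) (nat_lit 482) (nat_lit 469)) (XT.lf (nat_lit 0) (nat_lit 1378313425) (nat_lit 304) (nat_lit 4022067490) (nat_lit 380) (nat_lit 5020434319) (nat_lit 129) (nat_lit 5) (nat_lit 133) (nat_lit 5) (nat_lit 134) (nat_lit 4) (nat_lit 610) (nat_lit 482) (nat_lit 468))))))) (XT.nd (nat_lit 780) (nat_lit 1292) (nat_lit 0) (XT.nd (nat_lit 390) (nat_lit 1292) (nat_lit 0) (XT.nd (nat_lit 156) (nat_lit 912) (nat_lit 0) (XT.nd (nat_lit 78) (nat_lit 76) (nat_lit 0) (XT.lf (nat_lit 0) (nat_lit 108609391) (nat_lit 304) (nat_lit 10163438760) (nat_lit 304) (nat_lit 246396786) (nat_lit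 125) (nat_lit 4) (nat_lit 129) (nat_lit 5) (nat_lit 129) (nat_lit 4) (nat_lit 611) (nat_lit 482) (nat_lit 467)) (XT.lf (nat_lit 0) (nat_lit 4583603452) (nat_lit 380) (nat_lit 1220376369) (nat_lit 76) (nat_lit 4813025680) (nat_lit 124) (nat_lit 5) (nat_lit 129) (nat_lit 5) (nat_lit 125) (nat_lit 4) (nat_lit 612) (nat_lit 482) (nat_lit 466))) (XT.nd (nat_lit 78) (nat_lit 608) (nat_lit 0) (XT.lf (nat_lit 0) (nat_lit 8148476999) (nat_lit 304) (nat_lit 1346038801) (nat_lit 380) (nat_lit 1223237549) (nat_lit 120) (nat_lit 5) (nat_lit 124) (nat_lit 5) (nat_lit 125) (nat_lit 4) (nat_lit 613) (nat_lit 482) (nat_lit 465)) (XT.nd (nat_lit 78) (nat_lit 228) (nat_lit 0) (XT.lf (nat_lit 0) (nat_lit 3643437837) (nat_lit 380) (nat_lit 3984203466) (nat_lit 76) (nat_lit 3192225177) (nat_lit 115) (nat_lit 5) (nat_lit 120) (nat_lit 5) (nat_lit 116) (nat_lit 4) (nat_lit 614) (nat_lit 482) (nat_lit 464)) (XT.lf (nat_lit 0) (nat_lit 5484594578) (nat_lit 228) (nat_lit 3103494889) (nat_lit 304) (nat_lit 2335831083) (nat_lit 112)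 (nat_lit 5) (nat_lit 115) (nat_lit 5) (nat_lit 116) (nat_lit 4) (nat_lit 615) (nat_lit 482) (nat_lit 463))))) (XT.nd (nat_lit 156) (nat_lit 684) (nat_lit 0) (XT.nd (nat_lit 78) (nat_lit 228) (nat_lit 0) (XT.lf (nat_lit 0) (nat_lit 2566195408) (nat_lit 380) (nat_lit 6946246173) (nat_lit 76) (nat_lit 1517302347) (nat_lit 107) (nat_lit 5) (nat_lit 112) (nat_lit 5) (nat_lit 108) (nat_lit 4) (nat_lit 616) (nat_lit 482) (nat_lit 462)) (XT.lf (nat_lit 0) (nat_lit 2621208262) (nat_lit 228) (nat_lit 4923648040) (nat_lit 304) (nat_lit 3592322039) (nat_lit 104) (nat_lit 5) (nat_lit 107) (nat_lit 5) (nat_lit 108) (nat_lit 4) (nat_lit 617) (nat_lit 482) (nat_lit 461))) (XT.nd (nat_lit 78) (nat_lit 304) (nat_lit 0) (XT.lf (nat_lit 0) (nat_lit 1123237083) (nat_lit 304) (nat_lit 224910557) (nat_lit 380) (nat_lit 9898638440) (nat_lit 99) (nat_lit 5) (nat_lit 103) (nat_lit 5) (nat_lit 104) (nat_lit 5) (nat_lit 618) (nat_lit 482) (nat_lit 460)) (XT.nd (nat_lit 78) (nat_lit 304) (nat_lit 0) (XT.lf (nat_lit 0) (nat_lit 6362457059)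 (nat_lit 380) (nat_lit 451444741) (nat_lit 76) (nat_lit 4543747371) (nat_lit 99) (nat_lit 5) (nat_lit 104) (nat_lit 5) (nat_lit 100) (nat_lit 4) (nat_lit 619) (nat_lit 482) (nat_lit 459)) (XT.lf (nat_lit 0) (nat_lit 6099278) (nat_lit 304) (nat_lit 2043183594) (nat_lit 76) (nat_lit 9421449353) (nat_lit 95) (nat_lit 5) (nat_lit 99) (nat_lit 5) (nat_lit 96) (nat_lit 5) (nat_lit 620) (nat_lit 482) (nat_lit 458)))))) (XT.nd (nat_lit 79092) (nat_lit 0) (nat_lit 7676) (XT.nd (nat_lit 156) (nat_lit 836) (nat_lit 0) (XT.nd (nat_lit 78) (nat_lit 228) (nat_lit 0) (XT.lf (nat_lit 0) (nat_lit 5050649171) (nat_lit 304) (nat_lit 3718352239) (nat_lit 76) (nat_lit 2816213491) (nat_lit 92) (nat_lit 5) (nat_lit 96) (nat_lit 5) (nat_lit 93) (nat_lit 4) (nat_lit 621) (nat_lit 482) (nat_lit 457)) (XT.lf (nat_lit 0) (nat_lit 6260521001) (nat_lit 228) (nat_lit 3941098819) (nat_lit 304) (nat_lit 1500257493) (nat_lit 89) (nat_lit 5) (nat_lit 92) (nat_lit 5) (nat_lit 93) (nat_lit 4) (nat_lit 622) (nat_lit 482) (nat_lit 456))) (XT.nd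 (nat_lit 78) (nat_lit 532) (nat_lit 0) (XT.lf (nat_lit 0) (nat_lit 3586248565) (nat_lit 304) (nat_lit 7230762064) (nat_lit 76) (nat_lit 1003407374) (nat_lit 85) (nat_lit 5) (nat_lit 89) (nat_lit 5) (nat_lit 86) (nat_lit 4) (nat_lit 623) (nat_lit 482) (nat_lit 455)) (XT.nd (nat_lit 78) (nat_lit 304) (nat_lit 0) (XT.lf (nat_lit 0) (nat_lit 2846151294) (nat_lit 228) (nat_lit 5927436428) (nat_lit 304) (nat_lit 3167160260) (nat_lit 82) (nat_lit 5) (nat_lit 85) (nat_lit 5) (nat_lit 86) (nat_lit 4) (nat_lit 624) (nat_lit 482) (nat_lit 454)) (XT.lf (nat_lit 0) (nat_lit 1051121571) (nat_lit 228) (nat_lit 917431783) (nat_lit 304) (nat_lit 10094799755) (nat_lit 78) (nat_lit 5) (nat_lit 81) (nat_lit 5) (nat_lit 82) (nat_lit 5) (nat_lit 625) (nat_lit 482) (nat_lit 453))))) (XT.nd (nat_lit 234) (nat_lit 1292) (nat_lit 0) (XT.nd (nat_lit 78) (nat_lit 912) (nat_lit 0) (XT.lf (nat_lit 0) (nat_lit 4147088243) (nat_lit 456) (nat_lit 195845216) (nat_lit 456) (nat_lit 195845216) (nat_lit 208) (nat_lit 4) (nat_lit 214) (nat_lit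 5) (nat_lit 214) (nat_lit 4) (nat_lit 594) (nat_lit 483) (nat_lit 483)) (XT.nd (nat_lit 78) (nat_lit 456) (nat_lit 0) (XT.lf (nat_lit 0) (nat_lit 4119967796) (nat_lit 456) (nat_lit 1797299762) (nat_lit 0) (nat_lit 3233413949) (nat_lit 202) (nat_lit 5) (nat_lit 208) (nat_lit 4) (nat_lit 202) (nat_lit 4) (nat_lit 595) (nat_lit 483) (nat_lit 482)) (XT.lf (nat_lit 0) (nat_lit 6409472632) (nat_lit 456) (nat_lit 2285946664) (nat_lit 456) (nat_lit 530222380) (nat_lit 196) (nat_lit 4) (nat_lit 202) (nat_lit 5) (nat_lit 202) (nat_lit 4) (nat_lit 596) (nat_lit 483) (nat_lit 481)))) (XT.nd (nat_lit 78) (nat_lit 836) (nat_lit 0) (XT.lf (nat_lit 0) (nat_lit 3993465949) (nat_lit 456) (nat_lit 3871632301) (nat_lit 0) (nat_lit 1436748141) (nat_lit 190) (nat_lit 5) (nat_lit 196) (nat_lit 4) (nat_lit 190) (nat_lit 4) (nat_lit 597) (nat_lit 483) (nat_lit 480)) (XT.nd (nat_lit 78) (nat_lit 456) (nat_lit 0) (XT.lf (nat_lit 0) (nat_lit 4431470968) (nat_lit 380) (nat_lit 4161966900) (nat_lit 380) (nat_lit 786210376) (nat_lit 185)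 (nat_lit 4) (nat_lit 190) (nat_lit 5) (nat_lit 190) (nat_lit 4) (nat_lit 598) (nat_lit 483) (nat_lit 479)) (XT.lf (nat_lit 0) (nat_lit 3405690443) (nat_lit 380) (nat_lit 348975943) (nat_lit 456) (nat_lit 5704275208) (nat_lit 179) (nat_lit 5) (nat_lit 184) (nat_lit 5) (nat_lit 185) (nat_lit 4) (nat_lit 599) (nat_lit 483) (nat_lit 478))))))))
noncomputable def xc6 : XT := (XT.nd (nat_lit 1560) (nat_lit 1368) (nat_lit 0) (XT.nd (nat_lit 780) (nat_lit 2584) (nat_lit 0) (XT.nd (nat_lit 390) (nat_lit 1900) (nat_lit 0) (XT.nd (nat_lit 156) (nat_lit 760) (nat_lit 0) (XT.nd (nat_lit 78) (nat_lit 456) (nat_lit 0) (XT.lf (nat_lit 0) (nat_lit 2347924354) (nat_lit 380) (nat_lit 6030173311) (nat_lit 380) (nat_lit 1161575172) (nat_lit 174) (nat_lit 4) (nat_lit 179) (nat_lit 5) (nat_lit 179) (nat_lit 4) (nat_lit 600) (nat_lit 483) (nat_lit 477)) (XT.lf (nat_lit 0) (nat_lit 1260162244) (nat_lit 380) (nat_lit 2148464267) (nat_lit 456) (nat_lit 6213298884) (nat_lit 168) (nat_lit 5) (nat_lit 173) (nat_lit 5) (nat_lit 174) (nat_lit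 4) (nat_lit 601) (nat_lit 483) (nat_lit 476))) (XT.nd (nat_lit 78) (nat_lit 380) (nat_lit 0) (XT.lf (nat_lit 0) (nat_lit 146281117) (nat_lit 380) (nat_lit 7900893282) (nat_lit 380) (nat_lit 1658646311) (nat_lit 163) (nat_lit 4) (nat_lit 168) (nat_lit 5) (nat_lit 168) (nat_lit 4) (nat_lit 602) (nat_lit 483) (nat_lit 475)) (XT.nd (nat_lit 78) (nat_lit 304) (nat_lit 0) (XT.lf (nat_lit 0) (nat_lit 2950018179) (nat_lit 456) (nat_lit 996232740) (nat_lit 76) (nat_lit 5844714356) (nat_lit 162) (nat_lit 5) (nat_lit 168) (nat_lit 5) (nat_lit 163) (nat_lit 4) (nat_lit 603) (nat_lit 483) (nat_lit 474)) (XT.lf (nat_lit 0) (nat_lit 7612236664) (nat_lit 380) (nat_lit 2157676028) (nat_lit 0) (nat_lit 108010077) (nat_lit 158) (nat_lit 5) (nat_lit 163) (nat_lit 4) (nat_lit 158) (nat_lit 4) (nat_lit 604) (nat_lit 483) (nat_lit 473))))) (XT.nd (nat_lit 156) (nat_lit 1140) (nat_lit 0) (XT.nd (nat_lit 78) (nat_lit 304) (nat_lit 0) (XT.lf (nat_lit 0) (nat_lit 2378523231) (nat_lit 456) (nat_lit 3371506679) (nat_lit 76) (nat_lit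 4216100109) (nat_lit 152) (nat_lit 5) (nat_lit 158) (nat_lit 5) (nat_lit 153) (nat_lit 4) (nat_lit 605) (nat_lit 483) (nat_lit 472)) (XT.lf (nat_lit 0) (nat_lit 5443509168) (nat_lit 304) (nat_lit 1624983574) (nat_lit 380) (nat_lit 2987645922) (nat_lit 148) (nat_lit 5) (nat_lit 152) (nat_lit 5) (nat_lit 153) (nat_lit 4) (nat_lit 606) (nat_lit 483) (nat_lit 471))) (XT.nd (nat_lit 78) (nat_lit 684) (nat_lit 0) (XT.lf (nat_lit 0) (nat_lit 1682799328) (nat_lit 456) (nat_lit 5895502818) (nat_lit 76) (nat_lit 2569408283) (nat_lit 142) (nat_lit 5) (nat_lit 148) (nat_lit 5) (nat_lit 143) (nat_lit 4) (nat_lit 607) (nat_lit 483) (nat_lit 470)) (XT.nd (nat_lit 78) (nat_lit 380) (nat_lit 0) (XT.lf (nat_lit 0) (nat_lit 3016483818) (nat_lit 304) (nat_lit 3385481660) (nat_lit 380) (nat_lit 3838847838) (nat_lit 138) (nat_lit 5) (nat_lit 142) (nat_lit 5) (nat_lit 143) (nat_lit 4) (nat_lit 608) (nat_lit 483) (nat_lit 469)) (XT.lf (nat_lit 0) (nat_lit 859271021) (nat_lit 380) (nat_lit 8581963005) (nat_lit 76) (nat_lit 894609501)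 (nat_lit 133) (nat_lit 5) (nat_lit 138) (nat_lit 5) (nat_lit 134) (nat_lit 4) (nat_lit 609) (nat_lit 483) (nat_lit 468)))))) (XT.nd (nat_lit 390) (nat_lit 1216) (nat_lit 0) (XT.nd (nat_lit 156) (nat_lit 1064) (nat_lit 0) (XT.nd (nat_lit 78) (nat_lit 0) (nat_lit 0) (XT.lf (nat_lit 0) (nat_lit 426021873) (nat_lit 304) (nat_lit 5182215320) (nat_lit 380) (nat_lit 4823864843) (nat_lit 129) (nat_lit 5) (nat_lit 133) (nat_lit 5) (nat_lit 134) (nat_lit 4) (nat_lit 610) (nat_lit 483) (nat_lit 467)) (XT.lf (nat_lit 0) (nat_lit 9622036642) (nat_lit 304) (nat_lit 822573028) (nat_lit 380) (nat_lit 85828415) (nat_lit 129) (nat_lit 5) (nat_lit 133) (nat_lit 5) (nat_lit 134) (nat_lit 4) (nat_lit 611) (nat_lit 483) (nat_lit 466))) (XT.nd (nat_lit 78) (nat_lit 684) (nat_lit 0) (XT.lf (nat_lit 0) (nat_lit 4698384078) (nat_lit 380) (nat_lit 2311507555) (nat_lit 76) (nat_lit 3619960236) (nat_lit 124) (nat_lit 5) (nat_lit 129) (nat_lit 5) (nat_lit 125) (nat_lit 4) (nat_lit 612) (nat_lit 483) (nat_lit 465)) (XT.nd (nat_lit 78)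 (nat_lit 380) (nat_lit 0) (XT.lf (nat_lit 0) (nat_lit 6988929062) (nat_lit 304) (nat_lit 2581147370) (nat_lit 380) (nat_lit 1161308111) (nat_lit 120) (nat_lit 5) (nat_lit 124) (nat_lit 5) (nat_lit 125) (nat_lit 4) (nat_lit 613) (nat_lit 483) (nat_lit 464)) (XT.lf (nat_lit 0) (nat_lit 3656651373) (nat_lit 380) (nat_lit 5233575543) (nat_lit 76) (nat_lit 1944221198) (nat_lit 115) (nat_lit 5) (nat_lit 120) (nat_lit 5) (nat_lit 116) (nat_lit 4) (nat_lit 614) (nat_lit 483) (nat_lit 463))))) (XT.nd (nat_lit 156) (nat_lit 608) (nat_lit 0) (XT.nd (nat_lit 78) (nat_lit 380) (nat_lit 0) (XT.lf (nat_lit 0) (nat_lit 4164492829) (nat_lit 228) (nat_lit 4396753763) (nat_lit 304) (nat_lit 2378057121) (nat_lit 112) (nat_lit 5) (nat_lit 115) (nat_lit 5) (nat_lit 116) (nat_lit 4) (nat_lit 615) (nat_lit 483) (nat_lit 462)) (XT.lf (nat_lit 0) (nat_lit 2475365067) (nat_lit 380) (nat_lit 8360992631) (nat_lit 76) (nat_lit 209758422) (nat_lit 107) (nat_lit 5) (nat_lit 112) (nat_lit 5) (nat_lit 108) (nat_lit 4) (nat_lit 616) (nat_lit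 483) (nat_lit 461))) (XT.nd (nat_lit 78) (nat_lit 380) (nat_lit 0) (XT.lf (nat_lit 0) (nat_lit 1133336521) (nat_lit 228) (nat_lit 6279737877) (nat_lit 304) (nat_lit 3741295545) (nat_lit 104) (nat_lit 5) (nat_lit 107) (nat_lit 5) (nat_lit 108) (nat_lit 4) (nat_lit 617) (nat_lit 483) (nat_lit 460)) (XT.nd (nat_lit 78) (nat_lit 304) (nat_lit 0) (XT.lf (nat_lit 0) (nat_lit 1162605780) (nat_lit 304) (nat_lit 449264736) (nat_lit 76) (nat_lit 9652897317) (nat_lit 103) (nat_lit 5) (nat_lit 107) (nat_lit 5) (nat_lit 104) (nat_lit 5) (nat_lit 618) (nat_lit 483) (nat_lit 459)) (XT.lf (nat_lit 0) (nat_lit 6133826485) (nat_lit 380) (nat_lit 2092728874) (nat_lit 76) (nat_lit 3149937695) (nat_lit 99) (nat_lit 5) (nat_lit 104) (nat_lit 5) (nat_lit 100) (nat_lit 4) (nat_lit 619) (nat_lit 483) (nat_lit 458))))))) (XT.nd (nat_lit 79326) (nat_lit 0) (nat_lit 5092) (XT.nd (nat_lit 390) (nat_lit 76) (nat_lit 0) (XT.nd (nat_lit 156) (nat_lit 760) (nat_lit 0) (XT.nd (nat_lit 78) (nat_lit 304) (nat_lit 0) (XT.lf (nat_lit 0) (nat_lit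 7711051951) (nat_lit 228) (nat_lit 3495587518) (nat_lit 304) (nat_lit 283770656) (nat_lit 96) (nat_lit 5) (nat_lit 99) (nat_lit 5) (nat_lit 100) (nat_lit 4) (nat_lit 620) (nat_lit 483) (nat_lit 457)) (XT.lf (nat_lit 0) (nat_lit 4712676713) (nat_lit 304) (nat_lit 5540166565) (nat_lit 76) (nat_lit 1353123191) (nat_lit 92) (nat_lit 5) (nat_lit 96) (nat_lit 5) (nat_lit 93) (nat_lit 4) (nat_lit 621) (nat_lit 483) (nat_lit 456))) (XT.nd (nat_lit 78) (nat_lit 532) (nat_lit 0) (XT.lf (nat_lit 0) (nat_lit 4360881787) (nat_lit 228) (nat_lit 5460102434) (nat_lit 304) (nat_lit 1902498251) (nat_lit 89) (nat_lit 5) (nat_lit 92) (nat_lit 5) (nat_lit 93) (nat_lit 4) (nat_lit 622) (nat_lit 483) (nat_lit 455)) (XT.nd (nat_lit 78) (nat_lit 228) (nat_lit 0) (XT.lf (nat_lit 0) (nat_lit 2598589727) (nat_lit 228) (nat_lit 540845637) (nat_lit 304) (nat_lit 8703637304) (nat_lit 85) (nat_lit 5) (nat_lit 88) (nat_lit 5) (nat_lit 89) (nat_lit 5) (nat_lit 623) (nat_lit 483) (nat_lit 454)) (XT.lf (nat_lit 0) (nat_lit 755451061) (nat_lit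 228) (nat_lit 7524067545) (nat_lit 304) (nat_lit 3684829470) (nat_lit 82) (nat_lit 5) (nat_lit 85) (nat_lit 5) (nat_lit 86) (nat_lit 4) (nat_lit 624) (nat_lit 483) (nat_lit 453))))) (XT.nd (nat_lit 78702) (nat_lit 0) (nat_lit 9196) (XT.nd (nat_lit 78624) (nat_lit 0) (nat_lit 10108) (XT.lf (nat_lit 0) (nat_lit 1420729531) (nat_lit 304) (nat_lit 1126725743) (nat_lit 76) (nat_lit 9540304327) (nat_lit 81) (nat_lit 5) (nat_lit 85) (nat_lit 5) (nat_lit 82) (nat_lit 5) (nat_lit 625) (nat_lit 483) (nat_lit 452)) (XT.lf (nat_lit 0) (nat_lit 305550999) (nat_lit 532) (nat_lit 3856046139) (nat_lit 0) (nat_lit 305550999) (nat_lit 214) (nat_lit 5) (nat_lit 221) (nat_lit 4) (nat_lit 214) (nat_lit 4) (nat_lit 592) (nat_lit 484) (nat_lit 484))) (XT.nd (nat_lit 78) (nat_lit 456) (nat_lit 0) (XT.lf (nat_lit 0) (nat_lit 186619127) (nat_lit 456) (nat_lit 4870563831) (nat_lit 456) (nat_lit 3948193209) (nat_lit 208) (nat_lit 4) (nat_lit 214) (nat_lit 5) (nat_lit 214) (nat_lit 4) (nat_lit 593) (nat_lit 484) (nat_lit 483)) (XT.nd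 (nat_lit 78) (nat_lit 380) (nat_lit 0) (XT.lf (nat_lit 0) (nat_lit 488487528) (nat_lit 532) (nat_lit 839910737) (nat_lit 76) (nat_lit 7749795542) (nat_lit 207) (nat_lit 5) (nat_lit 214) (nat_lit 5) (nat_lit 208) (nat_lit 4) (nat_lit 594) (nat_lit 484) (nat_lit 482)) (XT.lf (nat_lit 0) (nat_lit 4953552422) (nat_lit 456) (nat_lit 1905001286) (nat_lit 0) (nat_lit 2293543214) (nat_lit 202) (nat_lit 5) (nat_lit 208) (nat_lit 4) (nat_lit 202) (nat_lit 4) (nat_lit 595) (nat_lit 484) (nat_lit 481)))))) (XT.nd (nat_lit 390) (nat_lit 1976) (nat_lit 0) (XT.nd (nat_lit 156) (nat_lit 1216) (nat_lit 0) (XT.nd (nat_lit 78) (nat_lit 380) (nat_lit 0) (XT.lf (nat_lit 0) (nat_lit 262385527) (nat_lit 532) (nat_lit 2982118323) (nat_lit 76) (nat_lit 5983226727) (nat_lit 195) (nat_lit 5) (nat_lit 202) (nat_lit 5) (nat_lit 196) (nat_lit 4) (nat_lit 596) (nat_lit 484) (nat_lit 480)) (XT.lf (nat_lit 0) (nat_lit 4737128476) (nat_lit 456) (nat_lit 4092760347) (nat_lit 0) (nat_lit 474818105) (nat_lit 190) (nat_lit 5) (nat_lit 196) (nat_lit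 4) (nat_lit 190) (nat_lit 4) (nat_lit 597) (nat_lit 484) (nat_lit 479))) (XT.nd (nat_lit 78) (nat_lit 836) (nat_lit 0) (XT.lf (nat_lit 0) (nat_lit 4154106298) (nat_lit 380) (nat_lit 5147204214) (nat_lit 380) (nat_lit 81914710) (nat_lit 185) (nat_lit 4) (nat_lit 190) (nat_lit 5) (nat_lit 190) (nat_lit 4) (nat_lit 598) (nat_lit 484) (nat_lit 478)) (XT.nd (nat_lit 78) (nat_lit 380) (nat_lit 0) (XT.lf (nat_lit 0) (nat_lit 3062977469) (nat_lit 380) (nat_lit 1350637093) (nat_lit 456) (nat_lit 5049535383) (nat_lit 179) (nat_lit 5) (nat_lit 184) (nat_lit 5) (nat_lit 185) (nat_lit 4) (nat_lit 599) (nat_lit 484) (nat_lit 477)) (XT.lf (nat_lit 0) (nat_lit 1949372515) (nat_lit 380) (nat_lit 7044899256) (nat_lit 380) (nat_lit 550465507) (nat_lit 174) (nat_lit 4) (nat_lit 179) (nat_lit 5) (nat_lit 179) (nat_lit 4) (nat_lit 600) (nat_lit 484) (nat_lit 476))))) (XT.nd (nat_lit 234) (nat_lit 1064) (nat_lit 0) (XT.nd (nat_lit 78) (nat_lit 456) (nat_lit 0) (XT.lf (nat_lit 0) (nat_lit 793451514) (nat_lit 380) (nat_lit 3181654357)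 (nat_lit 456) (nat_lit 5652537503) (nat_lit 168) (nat_lit 5) (nat_lit 173) (nat_lit 5) (nat_lit 174) (nat_lit 4) (nat_lit 601) (nat_lit 484) (nat_lit 475)) (XT.nd (nat_lit 78) (nat_lit 456) (nat_lit 0) (XT.lf (nat_lit 0) (nat_lit 8572601323) (nat_lit 456) (nat_lit 374555006) (nat_lit 0) (nat_lit 765203981) (nat_lit 168) (nat_lit 5) (nat_lit 174) (nat_lit 4) (nat_lit 168) (nat_lit 4) (nat_lit 602) (nat_lit 484) (nat_lit 474)) (XT.lf (nat_lit 0) (nat_lit 3426317209) (nat_lit 456) (nat_lit 1585278236) (nat_lit 76) (nat_lit 4786558260) (nat_lit 162) (nat_lit 5) (nat_lit 168) (nat_lit 5) (nat_lit 163) (nat_lit 4) (nat_lit 603) (nat_lit 484) (nat_lit 473)))) (XT.nd (nat_lit 78) (nat_lit 760) (nat_lit 0) (XT.lf (nat_lit 0) (nat_lit 7071158329) (nat_lit 304) (nat_lit 979798248) (nat_lit 380) (nat_lit 1834906743) (nat_lit 158) (nat_lit 5) (nat_lit 162) (nat_lit 5) (nat_lit 163) (nat_lit 4) (nat_lit 604) (nat_lit 484) (nat_lit 472)) (XT.nd (nat_lit 78) (nat_lit 304) (nat_lit 0) (XT.lf (nat_lit 0) (nat_lit 2759904150)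 (nat_lit 456) (nat_lit 4095259278) (nat_lit 76) (nat_lit 3119726696) (nat_lit 152) (nat_lit 5) (nat_lit 158) (nat_lit 5) (nat_lit 153) (nat_lit 4) (nat_lit 605) (nat_lit 484) (nat_lit 471)) (XT.lf (nat_lit 0) (nat_lit 4656932352) (nat_lit 304) (nat_lit 2755446090) (nat_lit 380) (nat_lit 2653270742) (nat_lit 148) (nat_lit 5) (nat_lit 152) (nat_lit 5) (nat_lit 153) (nat_lit 4) (nat_lit 606) (nat_lit 484) (nat_lit 470))))))))
noncomputable def xc7 : XT := (XT.nd (nat_lit 79950) (nat_lit 0) (nat_lit 3572) (XT.nd (nat_lit 780) (nat_lit 1976) (nat_lit 0) (XT.nd (nat_lit 390) (nat_lit 1596) (nat_lit 0) (XT.nd (nat_lit 156) (nat_lit 760) (nat_lit 0) (XT.nd (nat_lit 78) (nat_lit 304) (nat_lit 0) (XT.lf (nat_lit 0) (nat_lit 1967392415) (nat_lit 456) (nat_lit 6760392486) (nat_lit 76) (nat_lit 1430301050) (nat_lit 142) (nat_lit 5) (nat_lit 148) (nat_lit 5) (nat_lit 143) (nat_lit 4) (nat_lit 607) (nat_lit 484) (nat_lit 469)) (XT.lf (nat_lit 0) (nat_lit 2086643345) (nat_lit 304) (nat_lit 4561736031) (nat_lit 380) (nat_lit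 3603573524) (nat_lit 138) (nat_lit 5) (nat_lit 142) (nat_lit 5) (nat_lit 143) (nat_lit 4) (nat_lit 608) (nat_lit 484) (nat_lit 468))) (XT.nd (nat_lit 78) (nat_lit 380) (nat_lit 0) (XT.lf (nat_lit 0) (nat_lit 751313358) (nat_lit 304) (nat_lit 295648927) (nat_lit 380) (nat_lit 9300880684) (nat_lit 133) (nat_lit 5) (nat_lit 137) (nat_lit 5) (nat_lit 138) (nat_lit 5) (nat_lit 609) (nat_lit 484) (nat_lit 467)) (XT.nd (nat_lit 78) (nat_lit 380) (nat_lit 0) (XT.lf (nat_lit 0) (nat_lit 5759332838) (nat_lit 380) (nat_lit 645201692) (nat_lit 76) (nat_lit 4040299309) (nat_lit 133) (nat_lit 5) (nat_lit 138) (nat_lit 5) (nat_lit 134) (nat_lit 4) (nat_lit 610) (nat_lit 484) (nat_lit 466)) (XT.lf (nat_lit 0) (nat_lit 15737530) (nat_lit 380) (nat_lit 2054393144) (nat_lit 76) (nat_lit 8473755005) (nat_lit 128) (nat_lit 5) (nat_lit 133) (nat_lit 5) (nat_lit 129) (nat_lit 5) (nat_lit 611) (nat_lit 484) (nat_lit 465))))) (XT.nd (nat_lit 156) (nat_lit 988) (nat_lit 0) (XT.nd (nat_lit 78) (nat_lit 304) (nat_lit 0) (XT.lf (nat_lit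 0) (nat_lit 4751443608) (nat_lit 380) (nat_lit 3531943687) (nat_lit 76) (nat_lit 2360849062) (nat_lit 124) (nat_lit 5) (nat_lit 129) (nat_lit 5) (nat_lit 125) (nat_lit 4) (nat_lit 612) (nat_lit 484) (nat_lit 464)) (XT.lf (nat_lit 0) (nat_lit 5699414966) (nat_lit 304) (nat_lit 3884278576) (nat_lit 380) (nat_lit 1162864755) (nat_lit 120) (nat_lit 5) (nat_lit 124) (nat_lit 5) (nat_lit 125) (nat_lit 4) (nat_lit 613) (nat_lit 484) (nat_lit 463))) (XT.nd (nat_lit 78) (nat_lit 608) (nat_lit 0) (XT.lf (nat_lit 0) (nat_lit 3606528601) (nat_lit 380) (nat_lit 6615835988) (nat_lit 76) (nat_lit 628229613) (nat_lit 115) (nat_lit 5) (nat_lit 120) (nat_lit 5) (nat_lit 116) (nat_lit 4) (nat_lit 614) (nat_lit 484) (nat_lit 462)) (XT.nd (nat_lit 78) (nat_lit 380) (nat_lit 0) (XT.lf (nat_lit 0) (nat_lit 2710797992) (nat_lit 228) (nat_lit 5760019401) (nat_lit 304) (nat_lit 2485438928) (nat_lit 112) (nat_lit 5) (nat_lit 115) (nat_lit 5) (nat_lit 116) (nat_lit 4) (nat_lit 615) (nat_lit 484) (nat_lit 461)) (XT.lf (nat_lit 0) (nat_lit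 1143915010) (nat_lit 304) (nat_lit 1183277278) (nat_lit 380) (nat_lit 8736734749) (nat_lit 107) (nat_lit 5) (nat_lit 111) (nat_lit 5) (nat_lit 112) (nat_lit 5) (nat_lit 616) (nat_lit 484) (nat_lit 460)))))) (XT.nd (nat_lit 390) (nat_lit 836) (nat_lit 0) (XT.nd (nat_lit 156) (nat_lit 836) (nat_lit 0) (XT.nd (nat_lit 78) (nat_lit 304) (nat_lit 0) (XT.lf (nat_lit 0) (nat_lit 7219182868) (nat_lit 380) (nat_lit 485424536) (nat_lit 76) (nat_lit 3468488199) (nat_lit 107) (nat_lit 5) (nat_lit 112) (nat_lit 5) (nat_lit 108) (nat_lit 4) (nat_lit 617) (nat_lit 484) (nat_lit 459)) (XT.lf (nat_lit 0) (nat_lit 918945341) (nat_lit 304) (nat_lit 2144486581) (nat_lit 76) (nat_lit 8220766171) (nat_lit 103) (nat_lit 5) (nat_lit 107) (nat_lit 5) (nat_lit 104) (nat_lit 5) (nat_lit 618) (nat_lit 484) (nat_lit 458))) (XT.nd (nat_lit 78) (nat_lit 532) (nat_lit 0) (XT.lf (nat_lit 0) (nat_lit 5839016493) (nat_lit 380) (nat_lit 3873375060) (nat_lit 76) (nat_lit 1684555101) (nat_lit 99) (nat_lit 5) (nat_lit 104) (nat_lit 5) (nat_lit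 100) (nat_lit 4) (nat_lit 619) (nat_lit 484) (nat_lit 457)) (XT.nd (nat_lit 78) (nat_lit 304) (nat_lit 0) (XT.lf (nat_lit 0) (nat_lit 5854348116) (nat_lit 228) (nat_lit 5015525999) (nat_lit 304) (nat_lit 641829060) (nat_lit 96) (nat_lit 5) (nat_lit 99) (nat_lit 5) (nat_lit 100) (nat_lit 4) (nat_lit 620) (nat_lit 484) (nat_lit 456)) (XT.lf (nat_lit 0) (nat_lit 4121829925) (nat_lit 228) (nat_lit 186057455) (nat_lit 304) (nat_lit 7320447502) (nat_lit 92) (nat_lit 5) (nat_lit 95) (nat_lit 5) (nat_lit 96) (nat_lit 5) (nat_lit 621) (nat_lit 484) (nat_lit 455))))) (XT.nd (nat_lit 156) (nat_lit 304) (nat_lit 0) (XT.nd (nat_lit 78) (nat_lit 304) (nat_lit 0) (XT.lf (nat_lit 0) (nat_lit 2317073173) (nat_lit 228) (nat_lit 7054909217) (nat_lit 304) (nat_lit 2374753067) (nat_lit 89) (nat_lit 5) (nat_lit 92) (nat_lit 5) (nat_lit 93) (nat_lit 4) (nat_lit 622) (nat_lit 484) (nat_lit 454)) (XT.lf (nat_lit 0) (nat_lit 454548021) (nat_lit 228) (nat_lit 2175223834) (nat_lit 304) (nat_lit 9237487480) (nat_lit 85) (nat_lit 5)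 (nat_lit 88) (nat_lit 5) (nat_lit 89) (nat_lit 5) (nat_lit 623) (nat_lit 484) (nat_lit 453))) (XT.nd (nat_lit 78) (nat_lit 304) (nat_lit 0) (XT.lf (nat_lit 0) (nat_lit 7724760137) (nat_lit 304) (nat_lit 1464104086) (nat_lit 76) (nat_lit 2800572721) (nat_lit 85) (nat_lit 5) (nat_lit 89) (nat_lit 5) (nat_lit 86) (nat_lit 4) (nat_lit 624) (nat_lit 484) (nat_lit 452)) (XT.nd (nat_lit 78468) (nat_lit 0) (nat_lit 11096) (XT.lf (nat_lit 0) (nat_lit 809262158) (nat_lit 304) (nat_lit 3439271810) (nat_lit 76) (nat_lit 7865174585) (nat_lit 81) (nat_lit 5) (nat_lit 85) (nat_lit 5) (nat_lit 82) (nat_lit 5) (nat_lit 625) (nat_lit 484) (nat_lit 451)) (XT.lf (nat_lit 0) (nat_lit 814017981) (nat_lit 532) (nat_lit 2769573355) (nat_lit 0) (nat_lit 814017981) (nat_lit 227) (nat_lit 5) (nat_lit 234) (nat_lit 4) (nat_lit 227) (nat_lit 4) (nat_lit 590) (nat_lit 485) (nat_lit 485))))))) (XT.nd (nat_lit 780) (nat_lit 3420) (nat_lit 0) (XT.nd (nat_lit 390) (nat_lit 2204) (nat_lit 0) (XT.nd (nat_lit 156) (nat_lit 912) (nat_lit 0)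 (XT.nd (nat_lit 78) (nat_lit 532) (nat_lit 0) (XT.lf (nat_lit 0) (nat_lit 2215844652) (nat_lit 456) (nat_lit 3804016935) (nat_lit 456) (nat_lit 2844382540) (nat_lit 221) (nat_lit 4) (nat_lit 227) (nat_lit 5) (nat_lit 227) (nat_lit 4) (nat_lit 591) (nat_lit 485) (nat_lit 484)) (XT.lf (nat_lit 0) (nat_lit 1167621915) (nat_lit 456) (nat_lit 351226769) (nat_lit 532) (nat_lit 7416109760) (nat_lit 214) (nat_lit 5) (nat_lit 220) (nat_lit 5) (nat_lit 221) (nat_lit 4) (nat_lit 592) (nat_lit 485) (nat_lit 483))) (XT.nd (nat_lit 78) (nat_lit 456) (nat_lit 0) (XT.lf (nat_lit 0) (nat_lit 80336005) (nat_lit 456) (nat_lit 5846964607) (nat_lit 456) (nat_lit 3079491028) (nat_lit 208) (nat_lit 4) (nat_lit 214) (nat_lit 5) (nat_lit 214) (nat_lit 4) (nat_lit 593) (nat_lit 485) (nat_lit 482)) (XT.nd (nat_lit 78) (nat_lit 380) (nat_lit 0) (XT.lf (nat_lit 0) (nat_lit 1311254668) (nat_lit 532) (nat_lit 1005292996) (nat_lit 76) (nat_lit 6763640348) (nat_lit 207) (nat_lit 5) (nat_lit 214) (nat_lit 5) (nat_lit 208) (nat_lit 4) (nat_lit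 594) (nat_lit 485) (nat_lit 481)) (XT.lf (nat_lit 0) (nat_lit 5734494724) (nat_lit 456) (nat_lit 2120446569) (nat_lit 0) (nat_lit 1299987014) (nat_lit 202) (nat_lit 5) (nat_lit 208) (nat_lit 4) (nat_lit 202) (nat_lit 4) (nat_lit 595) (nat_lit 485) (nat_lit 480))))) (XT.nd (nat_lit 156) (nat_lit 1292) (nat_lit 0) (XT.nd (nat_lit 78) (nat_lit 380) (nat_lit 0) (XT.lf (nat_lit 0) (nat_lit 994660705) (nat_lit 532) (nat_lit 3260712574) (nat_lit 76) (nat_lit 4975800912) (nat_lit 195) (nat_lit 5) (nat_lit 202) (nat_lit 5) (nat_lit 196) (nat_lit 4) (nat_lit 596) (nat_lit 485) (nat_lit 479)) (XT.lf (nat_lit 0) (nat_lit 4880797409) (nat_lit 380) (nat_lit 549778494) (nat_lit 456) (nat_lit 3878351838) (nat_lit 190) (nat_lit 5) (nat_lit 195) (nat_lit 5) (nat_lit 196) (nat_lit 4) (nat_lit 597) (nat_lit 485) (nat_lit 478))) (XT.nd (nat_lit 78) (nat_lit 836) (nat_lit 0) (XT.lf (nat_lit 0) (nat_lit 559670972) (nat_lit 456) (nat_lit 5626273506) (nat_lit 76) (nat_lit 3202216834) (nat_lit 184) (nat_lit 5) (nat_lit 190) (nat_lit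 5) (nat_lit 185) (nat_lit 4) (nat_lit 598) (nat_lit 485) (nat_lit 477)) (XT.nd (nat_lit 78) (nat_lit 456) (nat_lit 0) (XT.lf (nat_lit 0) (nat_lit 2607648904) (nat_lit 380) (nat_lit 2410299734) (nat_lit 456) (nat_lit 4450850914) (nat_lit 179) (nat_lit 5) (nat_lit 184) (nat_lit 5) (nat_lit 185) (nat_lit 4) (nat_lit 599) (nat_lit 485) (nat_lit 476)) (XT.lf (nat_lit 0) (nat_lit 4068397) (nat_lit 456) (nat_lit 8114598032) (nat_lit 76) (nat_lit 1432585142) (nat_lit 173) (nat_lit 5) (nat_lit 179) (nat_lit 5) (nat_lit 174) (nat_lit 4) (nat_lit 600) (nat_lit 485) (nat_lit 475)))))) (XT.nd (nat_lit 390) (nat_lit 1824) (nat_lit 0) (XT.nd (nat_lit 156) (nat_lit 1216) (nat_lit 0) (XT.nd (nat_lit 78) (nat_lit 0) (nat_lit 0) (XT.lf (nat_lit 0) (nat_lit 211039422) (nat_lit 380) (nat_lit 4274672734) (nat_lit 456) (nat_lit 5149108766) (nat_lit 168) (nat_lit 5) (nat_lit 173) (nat_lit 5) (nat_lit 174) (nat_lit 4) (nat_lit 601) (nat_lit 485) (nat_lit 474)) (XT.lf (nat_lit 0) (nat_lit 8708903620) (nat_lit 380) (nat_lit 336653432)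 (nat_lit 456) (nat_lit 674734378) (nat_lit 168) (nat_lit 5) (nat_lit 173) (nat_lit 5) (nat_lit 174) (nat_lit 4) (nat_lit 602) (nat_lit 485) (nat_lit 473))) (XT.nd (nat_lit 78) (nat_lit 760) (nat_lit 0) (XT.lf (nat_lit 0) (nat_lit 3846190218) (nat_lit 456) (nat_lit 2291640154) (nat_lit 76) (nat_lit 3668975661) (nat_lit 162) (nat_lit 5) (nat_lit 168) (nat_lit 5) (nat_lit 163) (nat_lit 4) (nat_lit 603) (nat_lit 485) (nat_lit 472)) (XT.nd (nat_lit 78) (nat_lit 456) (nat_lit 0) (XT.lf (nat_lit 0) (nat_lit 6303507650) (nat_lit 304) (nat_lit 2130328520) (nat_lit 380) (nat_lit 1461419877) (nat_lit 158) (nat_lit 5) (nat_lit 162) (nat_lit 5) (nat_lit 163) (nat_lit 4) (nat_lit 604) (nat_lit 485) (nat_lit 471)) (XT.lf (nat_lit 0) (nat_lit 3083488439) (nat_lit 456) (nat_lit 4939553333) (nat_lit 76) (nat_lit 1962093171) (nat_lit 152) (nat_lit 5) (nat_lit 158) (nat_lit 5) (nat_lit 153) (nat_lit 4) (nat_lit 605) (nat_lit 485) (nat_lit 470))))) (XT.nd (nat_lit 234) (nat_lit 760) (nat_lit 0) (XT.nd (nat_lit 78) (nat_lit 760)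 (nat_lit 0) (XT.lf (nat_lit 0) (nat_lit 3749255400) (nat_lit 304) (nat_lit 3949060910) (nat_lit 380) (nat_lit 2378331119) (nat_lit 148) (nat_lit 5) (nat_lit 152) (nat_lit 5) (nat_lit 153) (nat_lit 4) (nat_lit 606) (nat_lit 485) (nat_lit 469)) (XT.nd (nat_lit 78) (nat_lit 304) (nat_lit 0) (XT.lf (nat_lit 0) (nat_lit 2192750426) (nat_lit 456) (nat_lit 7749146623) (nat_lit 76) (nat_lit 228071438) (nat_lit 142) (nat_lit 5) (nat_lit 148) (nat_lit 5) (nat_lit 143) (nat_lit 4) (nat_lit 607) (nat_lit 485) (nat_lit 468)) (XT.lf (nat_lit 0) (nat_lit 1032340482) (nat_lit 304) (nat_lit 5803039859) (nat_lit 380) (nat_lit 3429222706) (nat_lit 138) (nat_lit 5) (nat_lit 142) (nat_lit 5) (nat_lit 143) (nat_lit 4) (nat_lit 608) (nat_lit 485) (nat_lit 467)))) (XT.nd (nat_lit 78) (nat_lit 684) (nat_lit 0) (XT.lf (nat_lit 0) (nat_lit 1182713645) (nat_lit 380) (nat_lit 378424547) (nat_lit 76) (nat_lit 8800058992) (nat_lit 137) (nat_lit 5) (nat_lit 142) (nat_lit 5) (nat_lit 138) (nat_lit 5) (nat_lit 609) (nat_lit 485) (nat_lit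 466)) (XT.nd (nat_lit 78) (nat_lit 380) (nat_lit 0) (XT.lf (nat_lit 0) (nat_lit 5853077313) (nat_lit 380) (nat_lit 1837089937) (nat_lit 76) (nat_lit 2768861384) (nat_lit 133) (nat_lit 5) (nat_lit 138) (nat_lit 5) (nat_lit 134) (nat_lit 4) (nat_lit 610) (nat_lit 485) (nat_lit 465)) (XT.lf (nat_lit 0) (nat_lit 55138813) (nat_lit 380) (nat_lit 3328960727) (nat_lit 76) (nat_lit 7174753131) (nat_lit 128) (nat_lit 5) (nat_lit 133) (nat_lit 5) (nat_lit 129) (nat_lit 5) (nat_lit 611) (nat_lit 485) (nat_lit 464))))))))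
noncomputable def xc8 : XT := (XT.nd (nat_lit 79794) (nat_lit 0) (nat_lit 2964) (XT.nd (nat_lit 780) (nat_lit 836) (nat_lit 0) (XT.nd (nat_lit 390) (nat_lit 1444) (nat_lit 0) (XT.nd (nat_lit 156) (nat_lit 684) (nat_lit 0) (XT.nd (nat_lit 78) (nat_lit 304) (nat_lit 0) (XT.lf (nat_lit 0) (nat_lit 4742802849) (nat_lit 380) (nat_lit 4882163367) (nat_lit 76) (nat_lit 1035198391) (nat_lit 124) (nat_lit 5) (nat_lit 129) (nat_lit 5) (nat_lit 125) (nat_lit 4) (nat_lit 612) (nat_lit 485) (nat_lit 463)) (XT.lf (nat_lit 0) (nat_lit 4279429019) (nat_lit 304) (nat_lit 5255943451) (nat_lit 380) (nat_lit 1227908091) (nat_lit 120) (nat_lit 5) (nat_lit 124) (nat_lit 5) (nat_lit 125) (nat_lit 4) (nat_lit 613) (nat_lit 485) (nat_lit 462))) (XT.nd (nat_lit 78) (nat_lit 304) (nat_lit 0) (XT.lf (nat_lit 0) (nat_lit 2731709270) (nat_lit 304) (nat_lit 766316025) (nat_lit 380) (nat_lit 7370186271) (nat_lit 115) (nat_lit 5) (nat_lit 119) (nat_lit 5) (nat_lit 120) (nat_lit 5) (nat_lit 614) (nat_lit 485) (nat_lit 461)) (XT.nd (nat_lit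 78) (nat_lit 76) (nat_lit 0) (XT.lf (nat_lit 0) (nat_lit 1122939992) (nat_lit 228) (nat_lit 7193826419) (nat_lit 304) (nat_lit 2658018613) (nat_lit 112) (nat_lit 5) (nat_lit 115) (nat_lit 5) (nat_lit 116) (nat_lit 4) (nat_lit 615) (nat_lit 485) (nat_lit 460)) (XT.lf (nat_lit 0) (nat_lit 2119249327) (nat_lit 304) (nat_lit 527759852) (nat_lit 76) (nat_lit 8436221875) (nat_lit 111) (nat_lit 5) (nat_lit 115) (nat_lit 5) (nat_lit 112) (nat_lit 5) (nat_lit 616) (nat_lit 485) (nat_lit 459))))) (XT.nd (nat_lit 156) (nat_lit 836) (nat_lit 0) (XT.nd (nat_lit 78) (nat_lit 304) (nat_lit 0) (XT.lf (nat_lit 0) (nat_lit 6968165057) (nat_lit 380) (nat_lit 2225489771) (nat_lit 76) (nat_lit 1999606652) (nat_lit 107) (nat_lit 5) (nat_lit 112) (nat_lit 5) (nat_lit 108) (nat_lit 4) (nat_lit 617) (nat_lit 485) (nat_lit 458)) (XT.lf (nat_lit 0) (nat_lit 609777971) (nat_lit 304) (nat_lit 3977824700) (nat_lit 76) (nat_lit 6717627668) (nat_lit 103) (nat_lit 5) (nat_lit 107) (nat_lit 5) (nat_lit 104) (nat_lit 5) (nat_lit 618) (nat_lit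 485) (nat_lit 457))) (XT.nd (nat_lit 78) (nat_lit 532) (nat_lit 0) (XT.lf (nat_lit 0) (nat_lit 5477911473) (nat_lit 380) (nat_lit 5794081591) (nat_lit 76) (nat_lit 147024929) (nat_lit 99) (nat_lit 5) (nat_lit 104) (nat_lit 5) (nat_lit 100) (nat_lit 4) (nat_lit 619) (nat_lit 485) (nat_lit 456)) (XT.nd (nat_lit 78) (nat_lit 304) (nat_lit 0) (XT.lf (nat_lit 0) (nat_lit 3856749936) (nat_lit 228) (nat_lit 6609735298) (nat_lit 304) (nat_lit 1068135293) (nat_lit 96) (nat_lit 5) (nat_lit 99) (nat_lit 5) (nat_lit 100) (nat_lit 4) (nat_lit 620) (nat_lit 485) (nat_lit 455)) (XT.lf (nat_lit 0) (nat_lit 2025844587) (nat_lit 228) (nat_lit 1818459993) (nat_lit 304) (nat_lit 7807860687) (nat_lit 92) (nat_lit 5) (nat_lit 95) (nat_lit 5) (nat_lit 96) (nat_lit 5) (nat_lit 621) (nat_lit 485) (nat_lit 454)))))) (XT.nd (nat_lit 78624) (nat_lit 0) (nat_lit 10108) (XT.nd (nat_lit 156) (nat_lit 532) (nat_lit 0) (XT.nd (nat_lit 78) (nat_lit 76) (nat_lit 0) (XT.lf (nat_lit 0) (nat_lit 128293665) (nat_lit 228) (nat_lit 8726144582)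 (nat_lit 304) (nat_lit 2917207137) (nat_lit 89) (nat_lit 5) (nat_lit 92) (nat_lit 5) (nat_lit 93) (nat_lit 4) (nat_lit 622) (nat_lit 485) (nat_lit 453)) (XT.lf (nat_lit 0) (nat_lit 2062381078) (nat_lit 304) (nat_lit 1812489555) (nat_lit 76) (nat_lit 8018010395) (nat_lit 88) (nat_lit 5) (nat_lit 92) (nat_lit 5) (nat_lit 89) (nat_lit 5) (nat_lit 623) (nat_lit 485) (nat_lit 452))) (XT.nd (nat_lit 78) (nat_lit 304) (nat_lit 0) (XT.lf (nat_lit 0) (nat_lit 7105332252) (nat_lit 304) (nat_lit 3820984834) (nat_lit 76) (nat_lit 1089782591) (nat_lit 85) (nat_lit 5) (nat_lit 89) (nat_lit 5) (nat_lit 86) (nat_lit 4) (nat_lit 624) (nat_lit 485) (nat_lit 451)) (XT.nd (nat_lit 78312) (nat_lit 0) (nat_lit 12160) (XT.lf (nat_lit 0) (nat_lit 127086866) (nat_lit 304) (nat_lit 5901209158) (nat_lit 76) (nat_lit 6113050609) (nat_lit 81) (nat_lit 5) (nat_lit 85) (nat_lit 5) (nat_lit 82) (nat_lit 5) (nat_lit 625) (nat_lit 485) (nat_lit 450)) (XT.lf (nat_lit 0) (nat_lit 1329121383) (nat_lit 532) (nat_lit 1672004107) (nat_lit 0) (nat_lit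 1329121383) (nat_lit 241) (nat_lit 5) (nat_lit 248) (nat_lit 4) (nat_lit 241) (nat_lit 4) (nat_lit 588) (nat_lit 486) (nat_lit 486))))) (XT.nd (nat_lit 156) (nat_lit 988) (nat_lit 0) (XT.nd (nat_lit 78) (nat_lit 532) (nat_lit 0) (XT.lf (nat_lit 0) (nat_lit 4269965524) (nat_lit 532) (nat_lit 2727961069) (nat_lit 532) (nat_lit 1729557444) (nat_lit 234) (nat_lit 4) (nat_lit 241) (nat_lit 5) (nat_lit 241) (nat_lit 4) (nat_lit 589) (nat_lit 486) (nat_lit 485)) (XT.lf (nat_lit 0) (nat_lit 2571838669) (nat_lit 532) (nat_lit 5590704034) (nat_lit 0) (nat_lit 633377191) (nat_lit 227) (nat_lit 5) (nat_lit 234) (nat_lit 4) (nat_lit 227) (nat_lit 4) (nat_lit 590) (nat_lit 486) (nat_lit 484))) (XT.nd (nat_lit 78) (nat_lit 532) (nat_lit 0) (XT.lf (nat_lit 0) (nat_lit 2112384029) (nat_lit 456) (nat_lit 4816270905) (nat_lit 456) (nat_lit 1936991393) (nat_lit 221) (nat_lit 4) (nat_lit 227) (nat_lit 5) (nat_lit 227) (nat_lit 4) (nat_lit 591) (nat_lit 486) (nat_lit 483)) (XT.nd (nat_lit 78) (nat_lit 0) (nat_lit 0) (XT.lf (nat_lit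 0) (nat_lit 1004053181) (nat_lit 456) (nat_lit 1375007866) (nat_lit 532) (nat_lit 6557888060) (nat_lit 214) (nat_lit 5) (nat_lit 220) (nat_lit 5) (nat_lit 221) (nat_lit 4) (nat_lit 592) (nat_lit 486) (nat_lit 482)) (XT.lf (nat_lit 0) (nat_lit 6746365319) (nat_lit 532) (nat_lit 130537148) (nat_lit 0) (nat_lit 2132703498) (nat_lit 214) (nat_lit 5) (nat_lit 221) (nat_lit 4) (nat_lit 214) (nat_lit 4) (nat_lit 593) (nat_lit 486) (nat_lit 481))))))) (XT.nd (nat_lit 780) (nat_lit 3192) (nat_lit 0) (XT.nd (nat_lit 390) (nat_lit 1672) (nat_lit 0) (XT.nd (nat_lit 156) (nat_lit 1368) (nat_lit 0) (XT.nd (nat_lit 78) (nat_lit 380) (nat_lit 0) (XT.lf (nat_lit 0) (nat_lit 2082070729) (nat_lit 532) (nat_lit 1277049385) (nat_lit 76) (nat_lit 5724471495) (nat_lit 207) (nat_lit 5) (nat_lit 214) (nat_lit 5) (nat_lit 208) (nat_lit 4) (nat_lit 594) (nat_lit 486) (nat_lit 480)) (XT.lf (nat_lit 0) (nat_lit 6463100953) (nat_lit 456) (nat_lit 2443720100) (nat_lit 0) (nat_lit 252355718) (nat_lit 202) (nat_lit 5) (nat_lit 208) (nat_lit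 4) (nat_lit 202) (nat_lit 4) (nat_lit 595) (nat_lit 486) (nat_lit 479))) (XT.nd (nat_lit 78) (nat_lit 836) (nat_lit 0) (XT.lf (nat_lit 0) (nat_lit 1673844283) (nat_lit 532) (nat_lit 3648618497) (nat_lit 76) (nat_lit 3913579942) (nat_lit 195) (nat_lit 5) (nat_lit 202) (nat_lit 5) (nat_lit 196) (nat_lit 4) (nat_lit 596) (nat_lit 486) (nat_lit 478)) (XT.nd (nat_lit 78) (nat_lit 456) (nat_lit 0) (XT.lf (nat_lit 0) (nat_lit 4436717962) (nat_lit 380) (nat_lit 1637282555) (nat_lit 456) (nat_lit 3240511566) (nat_lit 190) (nat_lit 5) (nat_lit 195) (nat_lit 5) (nat_lit 196) (nat_lit 4) (nat_lit 597) (nat_lit 486) (nat_lit 477)) (XT.lf (nat_lit 0) (nat_lit 1145886165) (nat_lit 456) (nat_lit 6136287913) (nat_lit 76) (nat_lit 2112354551) (nat_lit 184) (nat_lit 5) (nat_lit 190) (nat_lit 5) (nat_lit 185) (nat_lit 4) (nat_lit 598) (nat_lit 486) (nat_lit 476))))) (XT.nd (nat_lit 156) (nat_lit 836) (nat_lit 0) (XT.nd (nat_lit 78) (nat_lit 456) (nat_lit 0) (XT.lf (nat_lit 0) (nat_lit 2039526189) (nat_lit 380) (nat_lit 3528379419)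 (nat_lit 456) (nat_lit 3907987021) (nat_lit 179) (nat_lit 5) (nat_lit 184) (nat_lit 5) (nat_lit 185) (nat_lit 4) (nat_lit 599) (nat_lit 486) (nat_lit 475)) (XT.lf (nat_lit 0) (nat_lit 495817080) (nat_lit 456) (nat_lit 8752833556) (nat_lit 76) (nat_lit 310504000) (nat_lit 173) (nat_lit 5) (nat_lit 179) (nat_lit 5) (nat_lit 174) (nat_lit 4) (nat_lit 600) (nat_lit 486) (nat_lit 474))) (XT.nd (nat_lit 78) (nat_lit 836) (nat_lit 0) (XT.lf (nat_lit 0) (nat_lit 4943809494) (nat_lit 456) (nat_lit 480911370) (nat_lit 76) (nat_lit 4218676712) (nat_lit 173) (nat_lit 5) (nat_lit 179) (nat_lit 5) (nat_lit 174) (nat_lit 4) (nat_lit 601) (nat_lit 486) (nat_lit 473)) (XT.nd (nat_lit 78) (nat_lit 456) (nat_lit 0) (XT.lf (nat_lit 0) (nat_lit 7959949500) (nat_lit 380) (nat_lit 1508564216) (nat_lit 456) (nat_lit 261057731) (nat_lit 168) (nat_lit 5) (nat_lit 173) (nat_lit 5) (nat_lit 174) (nat_lit 4) (nat_lit 602) (nat_lit 486) (nat_lit 472)) (XT.lf (nat_lit 0) (nat_lit 4209801862) (nat_lit 456) (nat_lit 3115595498) (nat_lit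 76) (nat_lit 2491528292) (nat_lit 162) (nat_lit 5) (nat_lit 168) (nat_lit 5) (nat_lit 163) (nat_lit 4) (nat_lit 603) (nat_lit 486) (nat_lit 471)))))) (XT.nd (nat_lit 390) (nat_lit 1672) (nat_lit 0) (XT.nd (nat_lit 156) (nat_lit 760) (nat_lit 0) (XT.nd (nat_lit 78) (nat_lit 456) (nat_lit 0) (XT.lf (nat_lit 0) (nat_lit 5417718467) (nat_lit 304) (nat_lit 3342596529) (nat_lit 380) (nat_lit 1145803843) (nat_lit 158) (nat_lit 5) (nat_lit 162) (nat_lit 5) (nat_lit 163) (nat_lit 4) (nat_lit 604) (nat_lit 486) (nat_lit 470)) (XT.lf (nat_lit 0) (nat_lit 3349402992) (nat_lit 456) (nat_lit 5904719940) (nat_lit 76) (nat_lit 742745561) (nat_lit 152) (nat_lit 5) (nat_lit 158) (nat_lit 5) (nat_lit 153) (nat_lit 4) (nat_lit 605) (nat_lit 486) (nat_lit 469))) (XT.nd (nat_lit 78) (nat_lit 456) (nat_lit 0) (XT.lf (nat_lit 0) (nat_lit 2720122362) (nat_lit 304) (nat_lit 5206296120) (nat_lit 380) (nat_lit 2162719234) (nat_lit 148) (nat_lit 5) (nat_lit 152) (nat_lit 5) (nat_lit 153) (nat_lit 4) (nat_lit 606) (nat_lit 486) (nat_lit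 468)) (XT.nd (nat_lit 78) (nat_lit 0) (nat_lit 0) (XT.lf (nat_lit 0) (nat_lit 1314245862) (nat_lit 380) (nat_lit 1051543191) (nat_lit 456) (nat_lit 7817437101) (nat_lit 142) (nat_lit 5) (nat_lit 147) (nat_lit 5) (nat_lit 148) (nat_lit 5) (nat_lit 607) (nat_lit 486) (nat_lit 467)) (XT.lf (nat_lit 0) (nat_lit 6963995082) (nat_lit 456) (nat_lit 144912411) (nat_lit 76) (nat_lit 3169842160) (nat_lit 142) (nat_lit 5) (nat_lit 148) (nat_lit 5) (nat_lit 143) (nat_lit 4) (nat_lit 608) (nat_lit 486) (nat_lit 466))))) (XT.nd (nat_lit 156) (nat_lit 988) (nat_lit 0) (XT.nd (nat_lit 78) (nat_lit 304) (nat_lit 0) (XT.lf (nat_lit 0) (nat_lit 1263902401) (nat_lit 380) (nat_lit 1623289424) (nat_lit 76) (nat_lit 7488773104) (nat_lit 137) (nat_lit 5) (nat_lit 142) (nat_lit 5) (nat_lit 138) (nat_lit 5) (nat_lit 609) (nat_lit 486) (nat_lit 465)) (XT.lf (nat_lit 0) (nat_lit 5886741364) (nat_lit 380) (nat_lit 3155697622) (nat_lit 76) (nat_lit 1432308322) (nat_lit 133) (nat_lit 5) (nat_lit 138) (nat_lit 5) (nat_lit 134) (nat_lit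 4) (nat_lit 610) (nat_lit 486) (nat_lit 464))) (XT.nd (nat_lit 78) (nat_lit 608) (nat_lit 0) (XT.lf (nat_lit 0) (nat_lit 33516539) (nat_lit 380) (nat_lit 4732046768) (nat_lit 76) (nat_lit 5809792769) (nat_lit 128) (nat_lit 5) (nat_lit 133) (nat_lit 5) (nat_lit 129) (nat_lit 5) (nat_lit 611) (nat_lit 486) (nat_lit 463)) (XT.nd (nat_lit 78) (nat_lit 304) (nat_lit 0) (XT.lf (nat_lit 0) (nat_lit 4312547682) (nat_lit 304) (nat_lit 362262781) (nat_lit 380) (nat_lit 6002785360) (nat_lit 124) (nat_lit 5) (nat_lit 128) (nat_lit 5) (nat_lit 129) (nat_lit 5) (nat_lit 612) (nat_lit 486) (nat_lit 462)) (XT.lf (nat_lit 0) (nat_lit 2728414362) (nat_lit 304) (nat_lit 6696679904) (nat_lit 380) (nat_lit 1356463628) (nat_lit 120) (nat_lit 5) (nat_lit 124) (nat_lit 5) (nat_lit 125) (nat_lit 4) (nat_lit 613) (nat_lit 486) (nat_lit 461))))))))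
noncomputable def xc9 : XT := (XT.nd (nat_lit 79716) (nat_lit 0) (nat_lit 2280) (XT.nd (nat_lit 780) (nat_lit 228) (nat_lit 0) (XT.nd (nat_lit 390) (nat_lit 1140) (nat_lit 0) (XT.nd (nat_lit 156) (nat_lit 912) (nat_lit 0) (XT.nd (nat_lit 78) (nat_lit 0) (nat_lit 0) (XT.lf (nat_lit 0) (nat_lit 1091534148) (nat_lit 304) (nat_lit 2239174718) (nat_lit 380) (nat_lit 7556606050) (nat_lit 115) (nat_lit 5) (nat_lit 119) (nat_lit 5) (nat_lit 120) (nat_lit 5) (nat_lit 614) (nat_lit 486) (nat_lit 460)) (XT.lf (nat_lit 0) (nat_lit 8102926906) (nat_lit 380) (nat_lit 591838636) (nat_lit 76) (nat_lit 2300053670) (nat_lit 115) (nat_lit 5) (nat_lit 120) (nat_lit 5) (nat_lit 116) (nat_lit 4) (nat_lit 615) (nat_lit 486) (nat_lit 459))) (XT.nd (nat_lit 78) (nat_lit 608) (nat_lit 0) (XT.lf (nat_lit 0) (nat_lit 1854915982) (nat_lit 304) (nat_lit 2319369568) (nat_lit 76) (nat_lit 6929680963) (nat_lit 111) (nat_lit 5) (nat_lit 115) (nat_lit 5) (nat_lit 112) (nat_lit 5) (nat_lit 616) (nat_lit 486) (nat_lit 458)) (XT.nd (nat_lit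 78) (nat_lit 304) (nat_lit 0) (XT.lf (nat_lit 0) (nat_lit 6652564153) (nat_lit 380) (nat_lit 4102405474) (nat_lit 76) (nat_lit 460053020) (nat_lit 107) (nat_lit 5) (nat_lit 112) (nat_lit 5) (nat_lit 108) (nat_lit 4) (nat_lit 617) (nat_lit 486) (nat_lit 457)) (XT.lf (nat_lit 0) (nat_lit 234982427) (nat_lit 304) (nat_lit 5949998049) (nat_lit 76) (nat_lit 5142892339) (nat_lit 103) (nat_lit 5) (nat_lit 107) (nat_lit 5) (nat_lit 104) (nat_lit 5) (nat_lit 618) (nat_lit 486) (nat_lit 456))))) (XT.nd (nat_lit 156) (nat_lit 608) (nat_lit 0) (XT.nd (nat_lit 78) (nat_lit 228) (nat_lit 0) (XT.lf (nat_lit 0) (nat_lit 3577294826) (nat_lit 304) (nat_lit 1482701671) (nat_lit 380) (nat_lit 6382526698) (nat_lit 99) (nat_lit 5) (nat_lit 103) (nat_lit 5) (nat_lit 104) (nat_lit 5) (nat_lit 619) (nat_lit 486) (nat_lit 455)) (XT.lf (nat_lit 0) (nat_lit 1717474041) (nat_lit 228) (nat_lit 8278840596) (nat_lit 304) (nat_lit 1562856533) (nat_lit 96) (nat_lit 5) (nat_lit 99) (nat_lit 5) (nat_lit 100) (nat_lit 4) (nat_lit 620) (nat_lit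 486) (nat_lit 454))) (XT.nd (nat_lit 78) (nat_lit 532) (nat_lit 0) (XT.lf (nat_lit 0) (nat_lit 3314233157) (nat_lit 304) (nat_lit 211092585) (nat_lit 76) (nat_lit 8152291495) (nat_lit 95) (nat_lit 5) (nat_lit 99) (nat_lit 5) (nat_lit 96) (nat_lit 5) (nat_lit 621) (nat_lit 486) (nat_lit 453)) (XT.nd (nat_lit 78) (nat_lit 304) (nat_lit 0) (XT.lf (nat_lit 0) (nat_lit 8282473695) (nat_lit 304) (nat_lit 2177378862) (nat_lit 76) (nat_lit 1338082969) (nat_lit 92) (nat_lit 5) (nat_lit 96) (nat_lit 5) (nat_lit 93) (nat_lit 4) (nat_lit 622) (nat_lit 486) (nat_lit 452)) (XT.lf (nat_lit 0) (nat_lit 1429023596) (nat_lit 304) (nat_lit 4219606233) (nat_lit 76) (nat_lit 6271478303) (nat_lit 88) (nat_lit 5) (nat_lit 92) (nat_lit 5) (nat_lit 89) (nat_lit 5) (nat_lit 623) (nat_lit 486) (nat_lit 451)))))) (XT.nd (nat_lit 78546) (nat_lit 0) (nat_lit 9272) (XT.nd (nat_lit 78312) (nat_lit 0) (nat_lit 11324) (XT.nd (nat_lit 78234) (nat_lit 0) (nat_lit 12920) (XT.lf (nat_lit 0) (nat_lit 5713739798) (nat_lit 228) (nat_lit 706937256)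 (nat_lit 304) (nat_lit 5623675973) (nat_lit 85) (nat_lit 5) (nat_lit 88) (nat_lit 5) (nat_lit 89) (nat_lit 5) (nat_lit 624) (nat_lit 486) (nat_lit 450)) (XT.lf (nat_lit 0) (nat_lit 1851720129) (nat_lit 608) (nat_lit 561604347) (nat_lit 0) (nat_lit 1851720129) (nat_lit 255) (nat_lit 5) (nat_lit 263) (nat_lit 4) (nat_lit 255) (nat_lit 4) (nat_lit 586) (nat_lit 487) (nat_lit 487))) (XT.nd (nat_lit 78) (nat_lit 1064) (nat_lit 0) (XT.lf (nat_lit 0) (nat_lit 6352435310) (nat_lit 532) (nat_lit 1640682833) (nat_lit 532) (nat_lit 601943702) (nat_lit 248) (nat_lit 4) (nat_lit 255) (nat_lit 5) (nat_lit 255) (nat_lit 4) (nat_lit 587) (nat_lit 487) (nat_lit 486)) (XT.nd (nat_lit 78) (nat_lit 532) (nat_lit 0) (XT.lf (nat_lit 0) (nat_lit 3641896257) (nat_lit 532) (nat_lit 3394171718) (nat_lit 0) (nat_lit 1625120936) (nat_lit 241) (nat_lit 5) (nat_lit 248) (nat_lit 4) (nat_lit 241) (nat_lit 4) (nat_lit 588) (nat_lit 487) (nat_lit 485)) (XT.lf (nat_lit 0) (nat_lit 4169301893) (nat_lit 532) (nat_lit 3777587160) (nat_lit 532)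 (nat_lit 781984755) (nat_lit 234) (nat_lit 4) (nat_lit 241) (nat_lit 5) (nat_lit 241) (nat_lit 4) (nat_lit 589) (nat_lit 487) (nat_lit 484))))) (XT.nd (nat_lit 156) (nat_lit 1064) (nat_lit 0) (XT.nd (nat_lit 78) (nat_lit 456) (nat_lit 0) (XT.lf (nat_lit 0) (nat_lit 3049859443) (nat_lit 456) (nat_lit 418009983) (nat_lit 532) (nat_lit 5330100236) (nat_lit 227) (nat_lit 5) (nat_lit 233) (nat_lit 5) (nat_lit 234) (nat_lit 4) (nat_lit 590) (nat_lit 487) (nat_lit 483)) (XT.lf (nat_lit 0) (nat_lit 1905422211) (nat_lit 456) (nat_lit 5881541412) (nat_lit 456) (nat_lit 1081487653) (nat_lit 221) (nat_lit 4) (nat_lit 227) (nat_lit 5) (nat_lit 227) (nat_lit 4) (nat_lit 591) (nat_lit 487) (nat_lit 482))) (XT.nd (nat_lit 78) (nat_lit 532) (nat_lit 0) (XT.lf (nat_lit 0) (nat_lit 735534466) (nat_lit 456) (nat_lit 2452521547) (nat_lit 532) (nat_lit 5752293437) (nat_lit 214) (nat_lit 5) (nat_lit 220) (nat_lit 5) (nat_lit 221) (nat_lit 4) (nat_lit 592) (nat_lit 487) (nat_lit 481)) (XT.nd (nat_lit 78) (nat_lit 532) (nat_lit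 0) (XT.lf (nat_lit 0) (nat_lit 7515051613) (nat_lit 532) (nat_lit 445369296) (nat_lit 0) (nat_lit 1053392272) (nat_lit 214) (nat_lit 5) (nat_lit 221) (nat_lit 4) (nat_lit 214) (nat_lit 4) (nat_lit 593) (nat_lit 487) (nat_lit 480)) (XT.lf (nat_lit 0) (nat_lit 2801237992) (nat_lit 532) (nat_lit 1655286476) (nat_lit 76) (nat_lit 4631881467) (nat_lit 207) (nat_lit 5) (nat_lit 214) (nat_lit 5) (nat_lit 208) (nat_lit 4) (nat_lit 594) (nat_lit 487) (nat_lit 479))))))) (XT.nd (nat_lit 780) (nat_lit 3268) (nat_lit 0) (XT.nd (nat_lit 390) (nat_lit 1596) (nat_lit 0) (XT.nd (nat_lit 156) (nat_lit 1216) (nat_lit 0) (XT.nd (nat_lit 78) (nat_lit 532) (nat_lit 0) (XT.lf (nat_lit 0) (nat_lit 6284192983) (nat_lit 380) (nat_lit 861054390) (nat_lit 456) (nat_lit 2019484799) (nat_lit 202) (nat_lit 5) (nat_lit 207) (nat_lit 5) (nat_lit 208) (nat_lit 4) (nat_lit 595) (nat_lit 487) (nat_lit 478)) (XT.lf (nat_lit 0) (nat_lit 2300202607) (nat_lit 532) (nat_lit 4145988211) (nat_lit 76) (nat_lit 2796147260) (nat_lit 195) (nat_lit 5)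 (nat_lit 202) (nat_lit 5) (nat_lit 196) (nat_lit 4) (nat_lit 596) (nat_lit 487) (nat_lit 477))) (XT.nd (nat_lit 78) (nat_lit 836) (nat_lit 0) (XT.lf (nat_lit 0) (nat_lit 3882720369) (nat_lit 380) (nat_lit 2781810468) (nat_lit 456) (nat_lit 2656993782) (nat_lit 190) (nat_lit 5) (nat_lit 195) (nat_lit 5) (nat_lit 196) (nat_lit 4) (nat_lit 597) (nat_lit 487) (nat_lit 476)) (XT.nd (nat_lit 78) (nat_lit 380) (nat_lit 0) (XT.lf (nat_lit 0) (nat_lit 1678035082) (nat_lit 456) (nat_lit 6758830307) (nat_lit 76) (nat_lit 965474918) (nat_lit 184) (nat_lit 5) (nat_lit 190) (nat_lit 5) (nat_lit 185) (nat_lit 4) (nat_lit 598) (nat_lit 487) (nat_lit 475)) (XT.lf (nat_lit 0) (nat_lit 1358386530) (nat_lit 380) (nat_lit 4705314610) (nat_lit 456) (nat_lit 3420730818) (nat_lit 179) (nat_lit 5) (nat_lit 184) (nat_lit 5) (nat_lit 185) (nat_lit 4) (nat_lit 599) (nat_lit 487) (nat_lit 474))))) (XT.nd (nat_lit 156) (nat_lit 1140) (nat_lit 0) (XT.nd (nat_lit 78) (nat_lit 0) (nat_lit 0) (XT.lf (nat_lit 0) (nat_lit 55932445) (nat_lit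 380) (nat_lit 881986837) (nat_lit 456) (nat_lit 8630487243) (nat_lit 173) (nat_lit 5) (nat_lit 178) (nat_lit 5) (nat_lit 179) (nat_lit 5) (nat_lit 600) (nat_lit 487) (nat_lit 473)) (XT.lf (nat_lit 0) (nat_lit 5348537078) (nat_lit 456) (nat_lit 1284773930) (nat_lit 76) (nat_lit 3020086499) (nat_lit 173) (nat_lit 5) (nat_lit 179) (nat_lit 5) (nat_lit 174) (nat_lit 4) (nat_lit 601) (nat_lit 487) (nat_lit 472))) (XT.nd (nat_lit 78) (nat_lit 684) (nat_lit 0) (XT.lf (nat_lit 0) (nat_lit 95035289) (nat_lit 456) (nat_lit 2645145758) (nat_lit 76) (nat_lit 7000111132) (nat_lit 167) (nat_lit 5) (nat_lit 173) (nat_lit 5) (nat_lit 168) (nat_lit 5) (nat_lit 602) (nat_lit 487) (nat_lit 471)) (XT.nd (nat_lit 78) (nat_lit 304) (nat_lit 0) (XT.lf (nat_lit 0) (nat_lit 4517294733) (nat_lit 456) (nat_lit 4057467388) (nat_lit 76) (nat_lit 1253754409) (nat_lit 162) (nat_lit 5) (nat_lit 168) (nat_lit 5) (nat_lit 163) (nat_lit 4) (nat_lit 603) (nat_lit 487) (nat_lit 470)) (XT.lf (nat_lit 0) (nat_lit 4413443414) (nat_lit 304) (nat_lit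 4617077676) (nat_lit 380) (nat_lit 887934872) (nat_lit 158) (nat_lit 5) (nat_lit 162) (nat_lit 5) (nat_lit 163) (nat_lit 4) (nat_lit 604) (nat_lit 487) (nat_lit 469)))))) (XT.nd (nat_lit 390) (nat_lit 1672) (nat_lit 0) (XT.nd (nat_lit 156) (nat_lit 836) (nat_lit 0) (XT.nd (nat_lit 78) (nat_lit 304) (nat_lit 0) (XT.lf (nat_lit 0) (nat_lit 3015342188) (nat_lit 380) (nat_lit 545954601) (nat_lit 456) (nat_lit 6448727693) (nat_lit 152) (nat_lit 5) (nat_lit 157) (nat_lit 5) (nat_lit 158) (nat_lit 5) (nat_lit 605) (nat_lit 487) (nat_lit 468)) (XT.lf (nat_lit 0) (nat_lit 1569129655) (nat_lit 304) (nat_lit 6527644753) (nat_lit 380) (nat_lit 2006350533) (nat_lit 148) (nat_lit 5) (nat_lit 152) (nat_lit 5) (nat_lit 153) (nat_lit 4) (nat_lit 606) (nat_lit 487) (nat_lit 467))) (XT.nd (nat_lit 78) (nat_lit 380) (nat_lit 0) (XT.lf (nat_lit 0) (nat_lit 82537540) (nat_lit 380) (nat_lit 2399130739) (nat_lit 456) (nat_lit 7716294028) (nat_lit 142) (nat_lit 5) (nat_lit 147) (nat_lit 5) (nat_lit 148) (nat_lit 5) (nat_lit 607)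 (nat_lit 487) (nat_lit 466)) (XT.nd (nat_lit 78) (nat_lit 380) (nat_lit 0) (XT.lf (nat_lit 0) (nat_lit 7040836706) (nat_lit 456) (nat_lit 1432320404) (nat_lit 76) (nat_lit 1821109899) (nat_lit 142) (nat_lit 5) (nat_lit 148) (nat_lit 5) (nat_lit 143) (nat_lit 4) (nat_lit 608) (nat_lit 487) (nat_lit 465)) (XT.lf (nat_lit 0) (nat_lit 1285682368) (nat_lit 380) (nat_lit 2993623066) (nat_lit 76) (nat_lit 6112944123) (nat_lit 137) (nat_lit 5) (nat_lit 142) (nat_lit 5) (nat_lit 138) (nat_lit 5) (nat_lit 609) (nat_lit 487) (nat_lit 464))))) (XT.nd (nat_lit 234) (nat_lit 684) (nat_lit 0) (XT.nd (nat_lit 78) (nat_lit 684) (nat_lit 0) (XT.lf (nat_lit 0) (nat_lit 5860338192) (nat_lit 380) (nat_lit 4601541847) (nat_lit 76) (nat_lit 30115985) (nat_lit 133) (nat_lit 5) (nat_lit 138) (nat_lit 5) (nat_lit 134) (nat_lit 4) (nat_lit 610) (nat_lit 487) (nat_lit 463)) (XT.nd (nat_lit 78) (nat_lit 380) (nat_lit 0) (XT.lf (nat_lit 0) (nat_lit 4328871130) (nat_lit 304) (nat_lit 6214733988) (nat_lit 380) (nat_lit 49790784) (nat_lit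 129) (nat_lit 5) (nat_lit 133) (nat_lit 5) (nat_lit 134) (nat_lit 4) (nat_lit 611) (nat_lit 487) (nat_lit 462)) (XT.lf (nat_lit 0) (nat_lit 2710356943) (nat_lit 304) (nat_lit 1841985160) (nat_lit 380) (nat_lit 6144096693) (nat_lit 124) (nat_lit 5) (nat_lit 128) (nat_lit 5) (nat_lit 129) (nat_lit 5) (nat_lit 612) (nat_lit 487) (nat_lit 461)))) (XT.nd (nat_lit 78) (nat_lit 380) (nat_lit 0) (XT.lf (nat_lit 0) (nat_lit 1045762756) (nat_lit 304) (nat_lit 8207052929) (nat_lit 380) (nat_lit 1548581779) (nat_lit 120) (nat_lit 5) (nat_lit 124) (nat_lit 5) (nat_lit 125) (nat_lit 4) (nat_lit 613) (nat_lit 487) (nat_lit 460)) (XT.nd (nat_lit 78) (nat_lit 304) (nat_lit 0) (XT.lf (nat_lit 0) (nat_lit 3104809870) (nat_lit 380) (nat_lit 673247500) (nat_lit 76) (nat_lit 7129848450) (nat_lit 119) (nat_lit 5) (nat_lit 124) (nat_lit 5) (nat_lit 120) (nat_lit 5) (nat_lit 614) (nat_lit 487) (nat_lit 459)) (XT.lf (nat_lit 0) (nat_lit 7833490195) (nat_lit 380) (nat_lit 2425574505) (nat_lit 76) (nat_lit 757216541) (nat_lit 115)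 (nat_lit 5) (nat_lit 120) (nat_lit 5) (nat_lit 116) (nat_lit 4) (nat_lit 615) (nat_lit 487) (nat_lit 458))))))))
noncomputable def xc10 : XT := (XT.nd (nat_lit 79560) (nat_lit 0) (nat_lit 2280) (XT.nd (nat_lit 78780) (nat_lit 0) (nat_lit 9272) (XT.nd (nat_lit 390) (nat_lit 1064) (nat_lit 0) (XT.nd (nat_lit 156) (nat_lit 608) (nat_lit 0) (XT.nd (nat_lit 78) (nat_lit 304) (nat_lit 0) (XT.lf (nat_lit 0) (nat_lit 1526661540) (nat_lit 304) (nat_lit 4246619382) (nat_lit 76) (nat_lit 5353009168) (nat_lit 111) (nat_lit 5) (nat_lit 115) (nat_lit 5) (nat_lit 112) (nat_lit 5) (nat_lit 616) (nat_lit 487) (nat_lit 457)) (XT.lf (nat_lit 0) (nat_lit 5113757634) (nat_lit 304) (nat_lit 1166069655) (nat_lit 380) (nat_lit 4958408932) (nat_lit 107) (nat_lit 5) (nat_lit 111) (nat_lit 5) (nat_lit 112) (nat_lit 5) (nat_lit 617) (nat_lit 487) (nat_lit 456))) (XT.nd (nat_lit 78) (nat_lit 380) (nat_lit 0) (XT.lf (nat_lit 0) (nat_lit 3288974769) (nat_lit 228) (nat_lit 7854812156) (nat_lit 304) (nat_lit 208320428) (nat_lit 104) (nat_lit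 5) (nat_lit 107) (nat_lit 5) (nat_lit 108) (nat_lit 4) (nat_lit 618) (nat_lit 487) (nat_lit 455)) (XT.nd (nat_lit 78) (nat_lit 0) (nat_lit 0) (XT.lf (nat_lit 0) (nat_lit 1388187887) (nat_lit 304) (nat_lit 3188739378) (nat_lit 380) (nat_lit 6890707818) (nat_lit 99) (nat_lit 5) (nat_lit 103) (nat_lit 5) (nat_lit 104) (nat_lit 5) (nat_lit 619) (nat_lit 487) (nat_lit 454)) (XT.lf (nat_lit 0) (nat_lit 9462841872) (nat_lit 380) (nat_lit 556917364) (nat_lit 76) (nat_lit 1565532215) (nat_lit 99) (nat_lit 5) (nat_lit 104) (nat_lit 5) (nat_lit 100) (nat_lit 4) (nat_lit 620) (nat_lit 487) (nat_lit 453))))) (XT.nd (nat_lit 156) (nat_lit 532) (nat_lit 0) (XT.nd (nat_lit 78) (nat_lit 228) (nat_lit 0) (XT.lf (nat_lit 0) (nat_lit 2730168124) (nat_lit 304) (nat_lit 2564198994) (nat_lit 76) (nat_lit 6410079597) (nat_lit 95) (nat_lit 5) (nat_lit 99) (nat_lit 5) (nat_lit 96) (nat_lit 5) (nat_lit 621) (nat_lit 487) (nat_lit 452)) (XT.lf (nat_lit 0) (nat_lit 7196701037) (nat_lit 228) (nat_lit 449537344) (nat_lit 304) (nat_lit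 4179570333) (nat_lit 92) (nat_lit 5) (nat_lit 95) (nat_lit 5) (nat_lit 96) (nat_lit 5) (nat_lit 622) (nat_lit 487) (nat_lit 451))) (XT.nd (nat_lit 78) (nat_lit 228) (nat_lit 0) (XT.lf (nat_lit 0) (nat_lit 726499808) (nat_lit 304) (nat_lit 6773707460) (nat_lit 76) (nat_lit 4448803084) (nat_lit 88) (nat_lit 5) (nat_lit 92) (nat_lit 5) (nat_lit 89) (nat_lit 5) (nat_lit 623) (nat_lit 487) (nat_lit 450)) (XT.nd (nat_lit 78078) (nat_lit 0) (nat_lit 13528) (XT.lf (nat_lit 0) (nat_lit 3077086041) (nat_lit 228) (nat_lit 2596526871) (nat_lit 304) (nat_lit 6400533430) (nat_lit 85) (nat_lit 5) (nat_lit 88) (nat_lit 5) (nat_lit 89) (nat_lit 5) (nat_lit 624) (nat_lit 487) (nat_lit 449)) (XT.lf (nat_lit 0) (nat_lit 570842579) (nat_lit 608) (nat_lit 1815535742) (nat_lit 608) (nat_lit 1815535742) (nat_lit 263) (nat_lit 4) (nat_lit 271) (nat_lit 5) (nat_lit 271) (nat_lit 4) (nat_lit 584) (nat_lit 488) (nat_lit 488)))))) (XT.nd (nat_lit 390) (nat_lit 1976) (nat_lit 0) (XT.nd (nat_lit 156) (nat_lit 1672) (nat_lit 0) (XT.nd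 (nat_lit 78) (nat_lit 532) (nat_lit 0) (XT.lf (nat_lit 0) (nat_lit 533142255) (nat_lit 684) (nat_lit 3756835) (nat_lit 76) (nat_lit 7929978018) (nat_lit 262) (nat_lit 5) (nat_lit 271) (nat_lit 5) (nat_lit 263) (nat_lit 4) (nat_lit 585) (nat_lit 488) (nat_lit 487)) (XT.lf (nat_lit 0) (nat_lit 4728520759) (nat_lit 608) (nat_lit 1171990239) (nat_lit 0) (nat_lit 2630267714) (nat_lit 255) (nat_lit 5) (nat_lit 263) (nat_lit 4) (nat_lit 255) (nat_lit 4) (nat_lit 586) (nat_lit 488) (nat_lit 486))) (XT.nd (nat_lit 78) (nat_lit 1064) (nat_lit 0) (XT.lf (nat_lit 0) (nat_lit 382284426) (nat_lit 608) (nat_lit 2344410199) (nat_lit 76) (nat_lit 5869695114) (nat_lit 247) (nat_lit 5) (nat_lit 255) (nat_lit 5) (nat_lit 248) (nat_lit 4) (nat_lit 587) (nat_lit 488) (nat_lit 485)) (XT.nd (nat_lit 78) (nat_lit 608) (nat_lit 0) (XT.lf (nat_lit 0) (nat_lit 4576467157) (nat_lit 532) (nat_lit 3544681901) (nat_lit 0) (nat_lit 542125622) (nat_lit 241) (nat_lit 5) (nat_lit 248) (nat_lit 4) (nat_lit 241) (nat_lit 4) (nat_lit 588) (nat_lit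 488) (nat_lit 484)) (XT.lf (nat_lit 0) (nat_lit 113618663) (nat_lit 608) (nat_lit 4764466231) (nat_lit 76) (nat_lit 3853554052) (nat_lit 233) (nat_lit 5) (nat_lit 241) (nat_lit 5) (nat_lit 234) (nat_lit 4) (nat_lit 589) (nat_lit 488) (nat_lit 483))))) (XT.nd (nat_lit 156) (nat_lit 1064) (nat_lit 0) (XT.nd (nat_lit 78) (nat_lit 456) (nat_lit 0) (XT.lf (nat_lit 0) (nat_lit 2788114177) (nat_lit 456) (nat_lit 1530157180) (nat_lit 532) (nat_lit 4483061552) (nat_lit 227) (nat_lit 5) (nat_lit 233) (nat_lit 5) (nat_lit 234) (nat_lit 4) (nat_lit 590) (nat_lit 488) (nat_lit 482)) (XT.lf (nat_lit 0) (nat_lit 1594878035) (nat_lit 456) (nat_lit 7000246209) (nat_lit 456) (nat_lit 277535830) (nat_lit 221) (nat_lit 4) (nat_lit 227) (nat_lit 5) (nat_lit 227) (nat_lit 4) (nat_lit 591) (nat_lit 488) (nat_lit 481))) (XT.nd (nat_lit 78) (nat_lit 532) (nat_lit 0) (XT.lf (nat_lit 0) (nat_lit 361960470) (nat_lit 456) (nat_lit 3584190369) (nat_lit 532) (nat_lit 4999009972) (nat_lit 214) (nat_lit 5) (nat_lit 220) (nat_lit 5) (nat_lit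 221) (nat_lit 4) (nat_lit 592) (nat_lit 488) (nat_lit 480)) (XT.nd (nat_lit 78) (nat_lit 532) (nat_lit 0) (XT.lf (nat_lit 0) (nat_lit 8153557369) (nat_lit 456) (nat_lit 80102052) (nat_lit 532) (nat_lit 785755544) (nat_lit 214) (nat_lit 5) (nat_lit 220) (nat_lit 5) (nat_lit 221) (nat_lit 4) (nat_lit 593) (nat_lit 488) (nat_lit 479)) (XT.lf (nat_lit 0) (nat_lit 3469038484) (nat_lit 532) (nat_lit 2140152597) (nat_lit 76) (nat_lit 3485441796) (nat_lit 207) (nat_lit 5) (nat_lit 214) (nat_lit 5) (nat_lit 208) (nat_lit 4) (nat_lit 594) (nat_lit 488) (nat_lit 478))))))) (XT.nd (nat_lit 780) (nat_lit 3268) (nat_lit 0) (XT.nd (nat_lit 390) (nat_lit 1596) (nat_lit 0) (XT.nd (nat_lit 156) (nat_lit 1216) (nat_lit 0) (XT.nd (nat_lit 78) (nat_lit 532) (nat_lit 0) (XT.lf (nat_lit 0) (nat_lit 5744164162) (nat_lit 380) (nat_lit 2033466142) (nat_lit 456) (nat_lit 1394037806) (nat_lit 202) (nat_lit 5) (nat_lit 207) (nat_lit 5) (nat_lit 208) (nat_lit 4) (nat_lit 595) (nat_lit 488) (nat_lit 477)) (XT.lf (nat_lit 0) (nat_lit 2873981308)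 (nat_lit 532) (nat_lit 4753016763) (nat_lit 76) (nat_lit 1623064658) (nat_lit 195) (nat_lit 5) (nat_lit 202) (nat_lit 5) (nat_lit 196) (nat_lit 4) (nat_lit 596) (nat_lit 488) (nat_lit 476))) (XT.nd (nat_lit 78) (nat_lit 836) (nat_lit 0) (XT.lf (nat_lit 0) (nat_lit 3218587378) (nat_lit 380) (nat_lit 3983811067) (nat_lit 456) (nat_lit 2127569653) (nat_lit 190) (nat_lit 5) (nat_lit 195) (nat_lit 5) (nat_lit 196) (nat_lit 4) (nat_lit 597) (nat_lit 488) (nat_lit 475)) (XT.nd (nat_lit 78) (nat_lit 380) (nat_lit 0) (XT.lf (nat_lit 0) (nat_lit 1915851632) (nat_lit 380) (nat_lit 242046302) (nat_lit 456) (nat_lit 7253670044) (nat_lit 184) (nat_lit 5) (nat_lit 189) (nat_lit 5) (nat_lit 190) (nat_lit 5) (nat_lit 598) (nat_lit 488) (nat_lit 474)) (XT.lf (nat_lit 0) (nat_lit 563962814) (nat_lit 380) (nat_lit 5941566851) (nat_lit 456) (nat_lit 2988891223) (nat_lit 179) (nat_lit 5) (nat_lit 184) (nat_lit 5) (nat_lit 185) (nat_lit 4) (nat_lit 599) (nat_lit 488) (nat_lit 473))))) (XT.nd (nat_lit 156) (nat_lit 1140) (nat_lit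 0) (XT.nd (nat_lit 78) (nat_lit 380) (nat_lit 0) (XT.lf (nat_lit 0) (nat_lit 1332521082) (nat_lit 456) (nat_lit 800802743) (nat_lit 76) (nat_lit 7445647586) (nat_lit 178) (nat_lit 5) (nat_lit 184) (nat_lit 5) (nat_lit 179) (nat_lit 5) (nat_lit 600) (nat_lit 488) (nat_lit 472)) (XT.lf (nat_lit 0) (nat_lit 5698683417) (nat_lit 456) (nat_lit 2203631319) (nat_lit 76) (nat_lit 1762537306) (nat_lit 173) (nat_lit 5) (nat_lit 179) (nat_lit 5) (nat_lit 174) (nat_lit 4) (nat_lit 601) (nat_lit 488) (nat_lit 471))) (XT.nd (nat_lit 78) (nat_lit 684) (nat_lit 0) (XT.lf (nat_lit 0) (nat_lit 392260791) (nat_lit 456) (nat_lit 3639007308) (nat_lit 76) (nat_lit 5721175639) (nat_lit 167) (nat_lit 5) (nat_lit 173) (nat_lit 5) (nat_lit 168) (nat_lit 5) (nat_lit 602) (nat_lit 488) (nat_lit 470)) (XT.nd (nat_lit 78) (nat_lit 304) (nat_lit 0) (XT.lf (nat_lit 0) (nat_lit 4723657187) (nat_lit 380) (nat_lit 45427174) (nat_lit 456) (nat_lit 5072492954) (nat_lit 162) (nat_lit 5) (nat_lit 167) (nat_lit 5) (nat_lit 168) (nat_lit 5) (nat_lit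 603) (nat_lit 488) (nat_lit 469)) (XT.lf (nat_lit 0) (nat_lit 3290288657) (nat_lit 304) (nat_lit 5954271756) (nat_lit 380) (nat_lit 687711838) (nat_lit 158) (nat_lit 5) (nat_lit 162) (nat_lit 5) (nat_lit 163) (nat_lit 4) (nat_lit 604) (nat_lit 488) (nat_lit 468)))))) (XT.nd (nat_lit 390) (nat_lit 1672) (nat_lit 0) (XT.nd (nat_lit 156) (nat_lit 836) (nat_lit 0) (XT.nd (nat_lit 78) (nat_lit 304) (nat_lit 0) (XT.lf (nat_lit 0) (nat_lit 1812952317) (nat_lit 380) (nat_lit 1908053470) (nat_lit 456) (nat_lit 6303567225) (nat_lit 152) (nat_lit 5) (nat_lit 157) (nat_lit 5) (nat_lit 158) (nat_lit 5) (nat_lit 605) (nat_lit 488) (nat_lit 467)) (XT.lf (nat_lit 0) (nat_lit 295825909) (nat_lit 304) (nat_lit 7913624984) (nat_lit 380) (nat_lit 1909163695) (nat_lit 148) (nat_lit 5) (nat_lit 152) (nat_lit 5) (nat_lit 153) (nat_lit 4) (nat_lit 606) (nat_lit 488) (nat_lit 466))) (XT.nd (nat_lit 78) (nat_lit 760) (nat_lit 0) (XT.lf (nat_lit 0) (nat_lit 2547199896) (nat_lit 380) (nat_lit 1256556667) (nat_lit 76) (nat_lit 6410290836)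 (nat_lit 147) (nat_lit 5) (nat_lit 152) (nat_lit 5) (nat_lit 148) (nat_lit 5) (nat_lit 607) (nat_lit 488) (nat_lit 465)) (XT.nd (nat_lit 78) (nat_lit 380) (nat_lit 0) (XT.lf (nat_lit 0) (nat_lit 7059232708) (nat_lit 456) (nat_lit 2843927694) (nat_lit 76) (nat_lit 408134853) (nat_lit 142) (nat_lit 5) (nat_lit 148) (nat_lit 5) (nat_lit 143) (nat_lit 4) (nat_lit 608) (nat_lit 488) (nat_lit 464)) (XT.lf (nat_lit 0) (nat_lit 1248062086) (nat_lit 380) (nat_lit 4489962858) (nat_lit 76) (nat_lit 4672032508) (nat_lit 137) (nat_lit 5) (nat_lit 142) (nat_lit 5) (nat_lit 138) (nat_lit 5) (nat_lit 609) (nat_lit 488) (nat_lit 463))))) (XT.nd (nat_lit 234) (nat_lit 684) (nat_lit 0) (XT.nd (nat_lit 78) (nat_lit 684) (nat_lit 0) (XT.lf (nat_lit 0) (nat_lit 4325940417) (nat_lit 304) (nat_lit 1457379299) (nat_lit 380) (nat_lit 4727272583) (nat_lit 133) (nat_lit 5) (nat_lit 137) (nat_lit 5) (nat_lit 138) (nat_lit 5) (nat_lit 610) (nat_lit 488) (nat_lit 462)) (XT.nd (nat_lit 78) (nat_lit 380) (nat_lit 0) (XT.lf (nat_lit 0) (nat_lit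 2685678692) (nat_lit 304) (nat_lit 7731875064) (nat_lit 380) (nat_lit 195419489) (nat_lit 129) (nat_lit 5) (nat_lit 133) (nat_lit 5) (nat_lit 134) (nat_lit 4) (nat_lit 611) (nat_lit 488) (nat_lit 461)) (XT.lf (nat_lit 0) (nat_lit 977747441) (nat_lit 304) (nat_lit 3390791785) (nat_lit 380) (nat_lit 6348297898) (nat_lit 124) (nat_lit 5) (nat_lit 128) (nat_lit 5) (nat_lit 129) (nat_lit 5) (nat_lit 612) (nat_lit 488) (nat_lit 460)))) (XT.nd (nat_lit 78) (nat_lit 684) (nat_lit 0) (XT.lf (nat_lit 0) (nat_lit 9023463230) (nat_lit 380) (nat_lit 759097654) (nat_lit 76) (nat_lit 1040146285) (nat_lit 124) (nat_lit 5) (nat_lit 129) (nat_lit 5) (nat_lit 125) (nat_lit 4) (nat_lit 613) (nat_lit 488) (nat_lit 459)) (XT.nd (nat_lit 78) (nat_lit 304) (nat_lit 0) (XT.lf (nat_lit 0) (nat_lit 2823767321) (nat_lit 380) (nat_lit 2556201992) (nat_lit 76) (nat_lit 5549952488) (nat_lit 119) (nat_lit 5) (nat_lit 124) (nat_lit 5) (nat_lit 120) (nat_lit 5) (nat_lit 614) (nat_lit 488) (nat_lit 458)) (XT.lf (nat_lit 0) (nat_lit 6639870549)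 (nat_lit 304) (nat_lit 866817148) (nat_lit 380) (nat_lit 3532525088) (nat_lit 115) (nat_lit 5) (nat_lit 119) (nat_lit 5) (nat_lit 120) (nat_lit 5) (nat_lit 615) (nat_lit 488) (nat_lit 457))))))))
noncomputable def xc11 : XT := (XT.nd (nat_lit 79404) (nat_lit 0) (nat_lit 2964) (XT.nd (nat_lit 78624) (nat_lit 0) (nat_lit 10260) (XT.nd (nat_lit 390) (nat_lit 1064) (nat_lit 0) (XT.nd (nat_lit 156) (nat_lit 608) (nat_lit 0) (XT.nd (nat_lit 78) (nat_lit 304) (nat_lit 0) (XT.lf (nat_lit 0) (nat_lit 1134357271) (nat_lit 304) (nat_lit 6310265077) (nat_lit 76) (nat_lit 3705588188) (nat_lit 111) (nat_lit 5) (nat_lit 115) (nat_lit 5) (nat_lit 112) (nat_lit 5) (nat_lit 616) (nat_lit 488) (nat_lit 456)) (XT.lf (nat_lit 0) (nat_lit 2974564833) (nat_lit 304) (nat_lit 2871169335) (nat_lit 380) (nat_lit 5417258619) (nat_lit 107) (nat_lit 5) (nat_lit 111) (nat_lit 5) (nat_lit 112) (nat_lit 5) (nat_lit 617) (nat_lit 488) (nat_lit 455))) (XT.nd (nat_lit 78) (nat_lit 380) (nat_lit 0) (XT.lf (nat_lit 0) (nat_lit 1059247215) (nat_lit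 228) (nat_lit 9597113291) (nat_lit 304) (nat_lit 721570415) (nat_lit 104) (nat_lit 5) (nat_lit 107) (nat_lit 5) (nat_lit 108) (nat_lit 4) (nat_lit 618) (nat_lit 488) (nat_lit 454)) (XT.nd (nat_lit 78) (nat_lit 304) (nat_lit 0) (XT.lf (nat_lit 0) (nat_lit 4033664822) (nat_lit 304) (nat_lit 929898410) (nat_lit 76) (nat_lit 6530697264) (nat_lit 103) (nat_lit 5) (nat_lit 107) (nat_lit 5) (nat_lit 104) (nat_lit 5) (nat_lit 619) (nat_lit 488) (nat_lit 453)) (XT.lf (nat_lit 0) (nat_lit 8661087831) (nat_lit 304) (nat_lit 214579833) (nat_lit 380) (nat_lit 2737127751) (nat_lit 99) (nat_lit 5) (nat_lit 103) (nat_lit 5) (nat_lit 104) (nat_lit 5) (nat_lit 620) (nat_lit 488) (nat_lit 452))))) (XT.nd (nat_lit 156) (nat_lit 532) (nat_lit 0) (XT.nd (nat_lit 78) (nat_lit 228) (nat_lit 0) (XT.lf (nat_lit 0) (nat_lit 2078727309) (nat_lit 304) (nat_lit 5060966745) (nat_lit 76) (nat_lit 4593233232) (nat_lit 95) (nat_lit 5) (nat_lit 99) (nat_lit 5) (nat_lit 96) (nat_lit 5) (nat_lit 621) (nat_lit 488) (nat_lit 451)) (XT.lf (nat_lit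 0) (nat_lit 4619245779) (nat_lit 228) (nat_lit 2331786330) (nat_lit 304) (nat_lit 4904132783) (nat_lit 92) (nat_lit 5) (nat_lit 95) (nat_lit 5) (nat_lit 96) (nat_lit 5) (nat_lit 622) (nat_lit 488) (nat_lit 450))) (XT.nd (nat_lit 78) (nat_lit 304) (nat_lit 0) (XT.lf (nat_lit 0) (nat_lit 2503499078) (nat_lit 228) (nat_lit 9430023960) (nat_lit 304) (nat_lit 46070001) (nat_lit 89) (nat_lit 5) (nat_lit 92) (nat_lit 5) (nat_lit 93) (nat_lit 4) (nat_lit 623) (nat_lit 488) (nat_lit 449)) (XT.nd (nat_lit 77922) (nat_lit 0) (nat_lit 14744) (XT.lf (nat_lit 0) (nat_lit 291432603) (nat_lit 228) (nat_lit 4565244630) (nat_lit 304) (nat_lit 7248957459) (nat_lit 85) (nat_lit 5) (nat_lit 88) (nat_lit 5) (nat_lit 89) (nat_lit 5) (nat_lit 624) (nat_lit 488) (nat_lit 448)) (XT.lf (nat_lit 0) (nat_lit 1727260769) (nat_lit 608) (nat_lit 1206790052) (nat_lit 608) (nat_lit 1206790052) (nat_lit 279) (nat_lit 4) (nat_lit 287) (nat_lit 5) (nat_lit 287) (nat_lit 4) (nat_lit 582) (nat_lit 489) (nat_lit 489)))))) (XT.nd (nat_lit 390)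 (nat_lit 2052) (nat_lit 0) (XT.nd (nat_lit 156) (nat_lit 1216) (nat_lit 0) (XT.nd (nat_lit 78) (nat_lit 608) (nat_lit 0) (XT.lf (nat_lit 0) (nat_lit 1695228014) (nat_lit 608) (nat_lit 6054379728) (nat_lit 0) (nat_lit 592909738) (nat_lit 271) (nat_lit 5) (nat_lit 279) (nat_lit 4) (nat_lit 271) (nat_lit 4) (nat_lit 583) (nat_lit 489) (nat_lit 488)) (XT.lf (nat_lit 0) (nat_lit 1093644507) (nat_lit 608) (nat_lit 4746948299) (nat_lit 608) (nat_lit 2563925832) (nat_lit 263) (nat_lit 4) (nat_lit 271) (nat_lit 5) (nat_lit 271) (nat_lit 4) (nat_lit 584) (nat_lit 489) (nat_lit 487))) (XT.nd (nat_lit 78) (nat_lit 1140) (nat_lit 0) (XT.lf (nat_lit 0) (nat_lit 1552261388) (nat_lit 684) (nat_lit 106968376) (nat_lit 76) (nat_lit 6808880729) (nat_lit 262) (nat_lit 5) (nat_lit 271) (nat_lit 5) (nat_lit 263) (nat_lit 4) (nat_lit 585) (nat_lit 489) (nat_lit 486)) (XT.nd (nat_lit 78) (nat_lit 608) (nat_lit 0) (XT.lf (nat_lit 0) (nat_lit 5705911209) (nat_lit 608) (nat_lit 1318354004) (nat_lit 0) (nat_lit 1508582275) (nat_lit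 255) (nat_lit 5) (nat_lit 263) (nat_lit 4) (nat_lit 255) (nat_lit 4) (nat_lit 586) (nat_lit 489) (nat_lit 485)) (XT.lf (nat_lit 0) (nat_lit 1310218480) (nat_lit 608) (nat_lit 2549091228) (nat_lit 76) (nat_lit 4739714866) (nat_lit 247) (nat_lit 5) (nat_lit 255) (nat_lit 5) (nat_lit 248) (nat_lit 4) (nat_lit 587) (nat_lit 489) (nat_lit 484))))) (XT.nd (nat_lit 156) (nat_lit 988) (nat_lit 0) (XT.nd (nat_lit 78) (nat_lit 608) (nat_lit 0) (XT.lf (nat_lit 0) (nat_lit 4867187036) (nat_lit 456) (nat_lit 599024190) (nat_lit 532) (nat_lit 3200462858) (nat_lit 241) (nat_lit 5) (nat_lit 247) (nat_lit 5) (nat_lit 248) (nat_lit 4) (nat_lit 588) (nat_lit 489) (nat_lit 483)) (XT.lf (nat_lit 0) (nat_lit 949515850) (nat_lit 608) (nat_lit 5076285860) (nat_lit 76) (nat_lit 2709898743) (nat_lit 233) (nat_lit 5) (nat_lit 241) (nat_lit 5) (nat_lit 234) (nat_lit 4) (nat_lit 589) (nat_lit 489) (nat_lit 482))) (XT.nd (nat_lit 78) (nat_lit 532) (nat_lit 0) (XT.lf (nat_lit 0) (nat_lit 2424127712) (nat_lit 456) (nat_lit 2695083283)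 (nat_lit 532) (nat_lit 3686883298) (nat_lit 227) (nat_lit 5) (nat_lit 233) (nat_lit 5) (nat_lit 234) (nat_lit 4) (nat_lit 590) (nat_lit 489) (nat_lit 481)) (XT.nd (nat_lit 78) (nat_lit 0) (nat_lit 0) (XT.lf (nat_lit 0) (nat_lit 468947289) (nat_lit 532) (nat_lit 7700729832) (nat_lit 76) (nat_lit 708535549) (nat_lit 220) (nat_lit 5) (nat_lit 227) (nat_lit 5) (nat_lit 221) (nat_lit 4) (nat_lit 591) (nat_lit 489) (nat_lit 480)) (XT.lf (nat_lit 0) (nat_lit 4654401258) (nat_lit 532) (nat_lit 115283253) (nat_lit 76) (nat_lit 4181685396) (nat_lit 220) (nat_lit 5) (nat_lit 227) (nat_lit 5) (nat_lit 221) (nat_lit 4) (nat_lit 592) (nat_lit 489) (nat_lit 479))))))) (XT.nd (nat_lit 780) (nat_lit 3268) (nat_lit 0) (XT.nd (nat_lit 390) (nat_lit 1748) (nat_lit 0) (XT.nd (nat_lit 156) (nat_lit 1292) (nat_lit 0) (XT.nd (nat_lit 78) (nat_lit 532) (nat_lit 0) (XT.lf (nat_lit 0) (nat_lit 7627348908) (nat_lit 456) (nat_lit 1281884053) (nat_lit 532) (nat_lit 117045308) (nat_lit 214) (nat_lit 5) (nat_lit 220) (nat_lit 5) (nat_lit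 221) (nat_lit 4) (nat_lit 593) (nat_lit 489) (nat_lit 478)) (XT.lf (nat_lit 0) (nat_lit 4085734087) (nat_lit 532) (nat_lit 2731837892) (nat_lit 76) (nat_lit 2284702900) (nat_lit 207) (nat_lit 5) (nat_lit 214) (nat_lit 5) (nat_lit 208) (nat_lit 4) (nat_lit 594) (nat_lit 489) (nat_lit 477))) (XT.nd (nat_lit 78) (nat_lit 912) (nat_lit 0) (XT.lf (nat_lit 0) (nat_lit 5096851874) (nat_lit 380) (nat_lit 3261985629) (nat_lit 456) (nat_lit 821183008) (nat_lit 202) (nat_lit 5) (nat_lit 207) (nat_lit 5) (nat_lit 208) (nat_lit 4) (nat_lit 595) (nat_lit 489) (nat_lit 476)) (XT.nd (nat_lit 78) (nat_lit 380) (nat_lit 0) (XT.lf (nat_lit 0) (nat_lit 3395405397) (nat_lit 532) (nat_lit 5469942203) (nat_lit 76) (nat_lit 393872102) (nat_lit 195) (nat_lit 5) (nat_lit 202) (nat_lit 5) (nat_lit 196) (nat_lit 4) (nat_lit 596) (nat_lit 489) (nat_lit 475)) (XT.lf (nat_lit 0) (nat_lit 2444058542) (nat_lit 380) (nat_lit 5243755724) (nat_lit 456) (nat_lit 1652031565) (nat_lit 190) (nat_lit 5) (nat_lit 195) (nat_lit 5) (nat_lit 196) (nat_lit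 4) (nat_lit 597) (nat_lit 489) (nat_lit 474))))) (XT.nd (nat_lit 156) (nat_lit 1292) (nat_lit 0) (XT.nd (nat_lit 78) (nat_lit 0) (nat_lit 0) (XT.lf (nat_lit 0) (nat_lit 1069716191) (nat_lit 380) (nat_lit 1521107560) (nat_lit 456) (nat_lit 6831288293) (nat_lit 184) (nat_lit 5) (nat_lit 189) (nat_lit 5) (nat_lit 190) (nat_lit 5) (nat_lit 598) (nat_lit 489) (nat_lit 473)) (XT.lf (nat_lit 0) (nat_lit 6895798291) (nat_lit 456) (nat_lit 339544135) (nat_lit 76) (nat_lit 2270476232) (nat_lit 184) (nat_lit 5) (nat_lit 190) (nat_lit 5) (nat_lit 185) (nat_lit 4) (nat_lit 599) (nat_lit 489) (nat_lit 472))) (XT.nd (nat_lit 78) (nat_lit 836) (nat_lit 0) (XT.lf (nat_lit 0) (nat_lit 1673575331) (nat_lit 456) (nat_lit 1770538208) (nat_lit 76) (nat_lit 6146863937) (nat_lit 178) (nat_lit 5) (nat_lit 184) (nat_lit 5) (nat_lit 179) (nat_lit 5) (nat_lit 600) (nat_lit 489) (nat_lit 471)) (XT.nd (nat_lit 78) (nat_lit 456) (nat_lit 0) (XT.lf (nat_lit 0) (nat_lit 5994385823) (nat_lit 456) (nat_lit 3237843871) (nat_lit 76) (nat_lit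 445535978) (nat_lit 173) (nat_lit 5) (nat_lit 179) (nat_lit 5) (nat_lit 174) (nat_lit 4) (nat_lit 601) (nat_lit 489) (nat_lit 470)) (XT.lf (nat_lit 0) (nat_lit 634159151) (nat_lit 456) (nat_lit 4749901386) (nat_lit 76) (nat_lit 4382004250) (nat_lit 167) (nat_lit 5) (nat_lit 173) (nat_lit 5) (nat_lit 168) (nat_lit 5) (nat_lit 602) (nat_lit 489) (nat_lit 469)))))) (XT.nd (nat_lit 390) (nat_lit 1748) (nat_lit 0) (XT.nd (nat_lit 156) (nat_lit 836) (nat_lit 0) (XT.nd (nat_lit 78) (nat_lit 304) (nat_lit 0) (XT.lf (nat_lit 0) (nat_lit 3550219655) (nat_lit 380) (nat_lit 1423406585) (nat_lit 456) (nat_lit 4882319751) (nat_lit 162) (nat_lit 5) (nat_lit 167) (nat_lit 5) (nat_lit 168) (nat_lit 5) (nat_lit 603) (nat_lit 489) (nat_lit 468)) (XT.lf (nat_lit 0) (nat_lit 2047813742) (nat_lit 304) (nat_lit 7354703159) (nat_lit 380) (nat_lit 545056222) (nat_lit 158) (nat_lit 5) (nat_lit 162) (nat_lit 5) (nat_lit 163) (nat_lit 4) (nat_lit 604) (nat_lit 489) (nat_lit 467))) (XT.nd (nat_lit 78) (nat_lit 380) (nat_lit 0) (XT.lf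 (nat_lit 0) (nat_lit 489491630) (nat_lit 380) (nat_lit 3334214501) (nat_lit 456) (nat_lit 6216911384) (nat_lit 152) (nat_lit 5) (nat_lit 157) (nat_lit 5) (nat_lit 158) (nat_lit 5) (nat_lit 605) (nat_lit 489) (nat_lit 466)) (XT.nd (nat_lit 78) (nat_lit 380) (nat_lit 0) (XT.lf (nat_lit 0) (nat_lit 8271635928) (nat_lit 456) (nat_lit 1085857730) (nat_lit 76) (nat_lit 777976201) (nat_lit 152) (nat_lit 5) (nat_lit 158) (nat_lit 5) (nat_lit 153) (nat_lit 4) (nat_lit 606) (nat_lit 489) (nat_lit 465)) (XT.lf (nat_lit 0) (nat_lit 2555484521) (nat_lit 380) (nat_lit 2717550559) (nat_lit 76) (nat_lit 4958591159) (nat_lit 147) (nat_lit 5) (nat_lit 152) (nat_lit 5) (nat_lit 148) (nat_lit 5) (nat_lit 607) (nat_lit 489) (nat_lit 464))))) (XT.nd (nat_lit 234) (nat_lit 684) (nat_lit 0) (XT.nd (nat_lit 78) (nat_lit 684) (nat_lit 0) (XT.lf (nat_lit 0) (nat_lit 5942375390) (nat_lit 380) (nat_lit 1083851999) (nat_lit 456) (nat_lit 3303472938) (nat_lit 142) (nat_lit 5) (nat_lit 147) (nat_lit 5) (nat_lit 148) (nat_lit 5) (nat_lit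 608) (nat_lit 489) (nat_lit 463)) (XT.nd (nat_lit 78) (nat_lit 304) (nat_lit 0) (XT.lf (nat_lit 0) (nat_lit 1151026803) (nat_lit 380) (nat_lit 6112895600) (nat_lit 76) (nat_lit 3165473196) (nat_lit 137) (nat_lit 5) (nat_lit 142) (nat_lit 5) (nat_lit 138) (nat_lit 5) (nat_lit 609) (nat_lit 489) (nat_lit 462)) (XT.lf (nat_lit 0) (nat_lit 2633900054) (nat_lit 304) (nat_lit 3012927071) (nat_lit 380) (nat_lit 4883892876) (nat_lit 133) (nat_lit 5) (nat_lit 137) (nat_lit 5) (nat_lit 138) (nat_lit 5) (nat_lit 610) (nat_lit 489) (nat_lit 461)))) (XT.nd (nat_lit 78) (nat_lit 380) (nat_lit 0) (XT.lf (nat_lit 0) (nat_lit 913312519) (nat_lit 304) (nat_lit 9317806406) (nat_lit 380) (nat_lit 402981266) (nat_lit 129) (nat_lit 5) (nat_lit 133) (nat_lit 5) (nat_lit 134) (nat_lit 4) (nat_lit 611) (nat_lit 489) (nat_lit 460)) (XT.nd (nat_lit 78) (nat_lit 304) (nat_lit 0) (XT.lf (nat_lit 0) (nat_lit 4129081995) (nat_lit 380) (nat_lit 874340750) (nat_lit 76) (nat_lit 5735261017) (nat_lit 128) (nat_lit 5) (nat_lit 133) (nat_lit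 5) (nat_lit 129) (nat_lit 5) (nat_lit 612) (nat_lit 489) (nat_lit 459)) (XT.lf (nat_lit 0) (nat_lit 8160072353) (nat_lit 304) (nat_lit 583319242) (nat_lit 380) (nat_lit 2101974877) (nat_lit 124) (nat_lit 5) (nat_lit 128) (nat_lit 5) (nat_lit 129) (nat_lit 5) (nat_lit 613) (nat_lit 489) (nat_lit 458))))))))
noncomputable def xc12 : XT := (XT.nd (nat_lit 79248) (nat_lit 0) (nat_lit 3724) (XT.nd (nat_lit 780) (nat_lit 304) (nat_lit 0) (XT.nd (nat_lit 390) (nat_lit 1140) (nat_lit 0) (XT.nd (nat_lit 156) (nat_lit 608) (nat_lit 0) (XT.nd (nat_lit 78) (nat_lit 304) (nat_lit 0) (XT.lf (nat_lit 0) (nat_lit 2480384043) (nat_lit 380) (nat_lit 4572383406) (nat_lit 76) (nat_lit 3900745783) (nat_lit 119) (nat_lit 5) (nat_lit 124) (nat_lit 5) (nat_lit 120) (nat_lit 5) (nat_lit 614) (nat_lit 489) (nat_lit 457)) (XT.lf (nat_lit 0) (nat_lit 4549895592) (nat_lit 304) (nat_lit 2572310747) (nat_lit 380) (nat_lit 3941420195) (nat_lit 115) (nat_lit 5) (nat_lit 119) (nat_lit 5) (nat_lit 120) (nat_lit 5) (nat_lit 615) (nat_lit 489)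 (nat_lit 456))) (XT.nd (nat_lit 78) (nat_lit 304) (nat_lit 0) (XT.lf (nat_lit 0) (nat_lit 677849333) (nat_lit 304) (nat_lit 8511115926) (nat_lit 76) (nat_lit 1986771976) (nat_lit 111) (nat_lit 5) (nat_lit 115) (nat_lit 5) (nat_lit 112) (nat_lit 5) (nat_lit 616) (nat_lit 489) (nat_lit 455)) (XT.nd (nat_lit 78) (nat_lit 0) (nat_lit 0) (XT.lf (nat_lit 0) (nat_lit 697287069) (nat_lit 304) (nat_lit 4649800823) (nat_lit 380) (nat_lit 5942274695) (nat_lit 107) (nat_lit 5) (nat_lit 111) (nat_lit 5) (nat_lit 112) (nat_lit 5) (nat_lit 617) (nat_lit 489) (nat_lit 454)) (XT.lf (nat_lit 0) (nat_lit 10111796082) (nat_lit 304) (nat_lit 253431) (nat_lit 380) (nat_lit 1293164831) (nat_lit 107) (nat_lit 5) (nat_lit 111) (nat_lit 5) (nat_lit 112) (nat_lit 5) (nat_lit 618) (nat_lit 489) (nat_lit 453))))) (XT.nd (nat_lit 156) (nat_lit 532) (nat_lit 0) (XT.nd (nat_lit 78) (nat_lit 304) (nat_lit 0) (XT.lf (nat_lit 0) (nat_lit 3433812595) (nat_lit 304) (nat_lit 3370163847) (nat_lit 76) (nat_lit 4718357104) (nat_lit 103) (nat_lit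 5) (nat_lit 107) (nat_lit 5) (nat_lit 104) (nat_lit 5) (nat_lit 619) (nat_lit 489) (nat_lit 452)) (XT.lf (nat_lit 0) (nat_lit 6141973295) (nat_lit 304) (nat_lit 2090832414) (nat_lit 380) (nat_lit 3408923260) (nat_lit 99) (nat_lit 5) (nat_lit 103) (nat_lit 5) (nat_lit 104) (nat_lit 5) (nat_lit 620) (nat_lit 489) (nat_lit 451))) (XT.nd (nat_lit 78) (nat_lit 228) (nat_lit 0) (XT.lf (nat_lit 0) (nat_lit 1359655245) (nat_lit 304) (nat_lit 7702374961) (nat_lit 76) (nat_lit 2701039913) (nat_lit 95) (nat_lit 5) (nat_lit 99) (nat_lit 5) (nat_lit 96) (nat_lit 5) (nat_lit 621) (nat_lit 489) (nat_lit 450)) (XT.nd (nat_lit 78) (nat_lit 0) (nat_lit 0) (XT.lf (nat_lit 0) (nat_lit 1896159366) (nat_lit 228) (nat_lit 4291619707) (nat_lit 304) (nat_lit 5698412563) (nat_lit 92) (nat_lit 5) (nat_lit 95) (nat_lit 5) (nat_lit 96) (nat_lit 5) (nat_lit 622) (nat_lit 489) (nat_lit 449)) (XT.lf (nat_lit 0) (nat_lit 11114887499) (nat_lit 304) (nat_lit 316785397) (nat_lit 76) (nat_lit 580054823) (nat_lit 92) (nat_lit 5) (nat_lit 96)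 (nat_lit 5) (nat_lit 93) (nat_lit 4) (nat_lit 623) (nat_lit 489) (nat_lit 448)))))) (XT.nd (nat_lit 78078) (nat_lit 0) (nat_lit 11628) (XT.nd (nat_lit 77844) (nat_lit 0) (nat_lit 13908) (XT.nd (nat_lit 77766) (nat_lit 0) (nat_lit 15808) (XT.lf (nat_lit 0) (nat_lit 3986718287) (nat_lit 304) (nat_lit 2609632287) (nat_lit 76) (nat_lit 5542136483) (nat_lit 88) (nat_lit 5) (nat_lit 92) (nat_lit 5) (nat_lit 89) (nat_lit 5) (nat_lit 624) (nat_lit 489) (nat_lit 447)) (XT.lf (nat_lit 0) (nat_lit 2901946493) (nat_lit 608) (nat_lit 589970796) (nat_lit 608) (nat_lit 589970796) (nat_lit 296) (nat_lit 4) (nat_lit 304) (nat_lit 5) (nat_lit 304) (nat_lit 4) (nat_lit 580) (nat_lit 490) (nat_lit 490))) (XT.nd (nat_lit 78) (nat_lit 1216) (nat_lit 0) (XT.lf (nat_lit 0) (nat_lit 2879020301) (nat_lit 684) (nat_lit 3611148134) (nat_lit 0) (nat_lit 1732168367) (nat_lit 287) (nat_lit 5) (nat_lit 296) (nat_lit 4) (nat_lit 287) (nat_lit 4) (nat_lit 581) (nat_lit 490) (nat_lit 489)) (XT.nd (nat_lit 78) (nat_lit 608) (nat_lit 0) (XT.lf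 (nat_lit 0) (nat_lit 3407859788) (nat_lit 608) (nat_lit 3572862035) (nat_lit 608) (nat_lit 1301645459) (nat_lit 279) (nat_lit 4) (nat_lit 287) (nat_lit 5) (nat_lit 287) (nat_lit 4) (nat_lit 582) (nat_lit 490) (nat_lit 488)) (XT.lf (nat_lit 0) (nat_lit 2190014045) (nat_lit 532) (nat_lit 564218081) (nat_lit 608) (nat_lit 5589594316) (nat_lit 271) (nat_lit 5) (nat_lit 278) (nat_lit 5) (nat_lit 279) (nat_lit 4) (nat_lit 583) (nat_lit 490) (nat_lit 487))))) (XT.nd (nat_lit 156) (nat_lit 1596) (nat_lit 0) (XT.nd (nat_lit 78) (nat_lit 76) (nat_lit 0) (XT.lf (nat_lit 0) (nat_lit 949503712) (nat_lit 608) (nat_lit 5911993874) (nat_lit 608) (nat_lit 1545092851) (nat_lit 263) (nat_lit 4) (nat_lit 271) (nat_lit 5) (nat_lit 271) (nat_lit 4) (nat_lit 584) (nat_lit 490) (nat_lit 486)) (XT.lf (nat_lit 0) (nat_lit 2524368747) (nat_lit 684) (nat_lit 306415284) (nat_lit 76) (nat_lit 5639934049) (nat_lit 262) (nat_lit 5) (nat_lit 271) (nat_lit 5) (nat_lit 263) (nat_lit 4) (nat_lit 585) (nat_lit 490) (nat_lit 485))) (XT.nd (nat_lit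 78) (nat_lit 1064) (nat_lit 0) (XT.lf (nat_lit 0) (nat_lit 6635994898) (nat_lit 608) (nat_lit 1562357387) (nat_lit 0) (nat_lit 337944064) (nat_lit 255) (nat_lit 5) (nat_lit 263) (nat_lit 4) (nat_lit 255) (nat_lit 4) (nat_lit 586) (nat_lit 490) (nat_lit 484)) (XT.nd (nat_lit 78) (nat_lit 456) (nat_lit 0) (XT.lf (nat_lit 0) (nat_lit 2190116953) (nat_lit 608) (nat_lit 2852841670) (nat_lit 76) (nat_lit 3560086922) (nat_lit 247) (nat_lit 5) (nat_lit 255) (nat_lit 5) (nat_lit 248) (nat_lit 4) (nat_lit 587) (nat_lit 490) (nat_lit 483)) (XT.lf (nat_lit 0) (nat_lit 4512691518) (nat_lit 456) (nat_lit 1798795526) (nat_lit 532) (nat_lit 2359901220) (nat_lit 241) (nat_lit 5) (nat_lit 247) (nat_lit 5) (nat_lit 248) (nat_lit 4) (nat_lit 588) (nat_lit 490) (nat_lit 482))))))) (XT.nd (nat_lit 780) (nat_lit 3572) (nat_lit 0) (XT.nd (nat_lit 390) (nat_lit 2204) (nat_lit 0) (XT.nd (nat_lit 156) (nat_lit 1064) (nat_lit 0) (XT.nd (nat_lit 78) (nat_lit 456) (nat_lit 0) (XT.lf (nat_lit 0) (nat_lit 1736290481) (nat_lit 608) (nat_lit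 5490075919) (nat_lit 76) (nat_lit 1514795066) (nat_lit 233) (nat_lit 5) (nat_lit 241) (nat_lit 5) (nat_lit 234) (nat_lit 4) (nat_lit 589) (nat_lit 490) (nat_lit 481)) (XT.lf (nat_lit 0) (nat_lit 1957757308) (nat_lit 456) (nat_lit 3913245129) (nat_lit 532) (nat_lit 2941253245) (nat_lit 227) (nat_lit 5) (nat_lit 233) (nat_lit 5) (nat_lit 234) (nat_lit 4) (nat_lit 590) (nat_lit 490) (nat_lit 480))) (XT.nd (nat_lit 78) (nat_lit 532) (nat_lit 0) (XT.lf (nat_lit 0) (nat_lit 651319553) (nat_lit 456) (nat_lit 513531759) (nat_lit 532) (nat_lit 7720225547) (nat_lit 220) (nat_lit 5) (nat_lit 226) (nat_lit 5) (nat_lit 227) (nat_lit 5) (nat_lit 591) (nat_lit 490) (nat_lit 479)) (XT.nd (nat_lit 78) (nat_lit 532) (nat_lit 0) (XT.lf (nat_lit 0) (nat_lit 5315360621) (nat_lit 532) (nat_lit 691787133) (nat_lit 76) (nat_lit 2951785905) (nat_lit 220) (nat_lit 5) (nat_lit 227) (nat_lit 5) (nat_lit 221) (nat_lit 4) (nat_lit 592) (nat_lit 490) (nat_lit 478)) (XT.lf (nat_lit 0) (nat_lit 493997596) (nat_lit 532) (nat_lit 2041113407)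 (nat_lit 76) (nat_lit 6499368384) (nat_lit 213) (nat_lit 5) (nat_lit 220) (nat_lit 5) (nat_lit 214) (nat_lit 5) (nat_lit 593) (nat_lit 490) (nat_lit 477))))) (XT.nd (nat_lit 156) (nat_lit 1368) (nat_lit 0) (XT.nd (nat_lit 78) (nat_lit 380) (nat_lit 0) (XT.lf (nat_lit 0) (nat_lit 4651566643) (nat_lit 532) (nat_lit 3430574394) (nat_lit 76) (nat_lit 1029193898) (nat_lit 207) (nat_lit 5) (nat_lit 214) (nat_lit 5) (nat_lit 208) (nat_lit 4) (nat_lit 594) (nat_lit 490) (nat_lit 476)) (XT.lf (nat_lit 0) (nat_lit 4342002269) (nat_lit 380) (nat_lit 4547094625) (nat_lit 456) (nat_lit 300695755) (nat_lit 202) (nat_lit 5) (nat_lit 207) (nat_lit 5) (nat_lit 208) (nat_lit 4) (nat_lit 595) (nat_lit 490) (nat_lit 475))) (XT.nd (nat_lit 78) (nat_lit 836) (nat_lit 0) (XT.lf (nat_lit 0) (nat_lit 2966781709) (nat_lit 456) (nat_lit 903765489) (nat_lit 532) (nat_lit 5399148033) (nat_lit 195) (nat_lit 5) (nat_lit 201) (nat_lit 5) (nat_lit 202) (nat_lit 5) (nat_lit 596) (nat_lit 490) (nat_lit 474)) (XT.nd (nat_lit 78) (nat_lit 456)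 (nat_lit 0) (XT.lf (nat_lit 0) (nat_lit 1558830127) (nat_lit 380) (nat_lit 6562138536) (nat_lit 456) (nat_lit 1230193030) (nat_lit 190) (nat_lit 5) (nat_lit 195) (nat_lit 5) (nat_lit 196) (nat_lit 4) (nat_lit 597) (nat_lit 490) (nat_lit 473)) (XT.lf (nat_lit 0) (nat_lit 111250703) (nat_lit 380) (nat_lit 2859379794) (nat_lit 456) (nat_lit 6463473178) (nat_lit 184) (nat_lit 5) (nat_lit 189) (nat_lit 5) (nat_lit 190) (nat_lit 5) (nat_lit 598) (nat_lit 490) (nat_lit 472)))))) (XT.nd (nat_lit 390) (nat_lit 1900) (nat_lit 0) (XT.nd (nat_lit 156) (nat_lit 1216) (nat_lit 0) (XT.nd (nat_lit 78) (nat_lit 456) (nat_lit 0) (XT.lf (nat_lit 0) (nat_lit 7236826816) (nat_lit 456) (nat_lit 1348111796) (nat_lit 76) (nat_lit 933647792) (nat_lit 184) (nat_lit 5) (nat_lit 190) (nat_lit 5) (nat_lit 185) (nat_lit 4) (nat_lit 599) (nat_lit 490) (nat_lit 471)) (XT.lf (nat_lit 0) (nat_lit 1960852625) (nat_lit 456) (nat_lit 2854387801) (nat_lit 76) (nat_lit 4789196265) (nat_lit 178) (nat_lit 5) (nat_lit 184) (nat_lit 5) (nat_lit 179)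 (nat_lit 5) (nat_lit 600) (nat_lit 490) (nat_lit 470))) (XT.nd (nat_lit 78) (nat_lit 836) (nat_lit 0) (XT.lf (nat_lit 0) (nat_lit 5298075890) (nat_lit 380) (nat_lit 943812224) (nat_lit 456) (nat_lit 3450132791) (nat_lit 173) (nat_lit 5) (nat_lit 178) (nat_lit 5) (nat_lit 179) (nat_lit 5) (nat_lit 601) (nat_lit 490) (nat_lit 469)) (XT.nd (nat_lit 78) (nat_lit 380) (nat_lit 0) (XT.lf (nat_lit 0) (nat_lit 820825231) (nat_lit 456) (nat_lit 5978263637) (nat_lit 76) (nat_lit 2982071800) (nat_lit 167) (nat_lit 5) (nat_lit 173) (nat_lit 5) (nat_lit 168) (nat_lit 5) (nat_lit 602) (nat_lit 490) (nat_lit 468)) (XT.lf (nat_lit 0) (nat_lit 2258689728) (nat_lit 380) (nat_lit 2864062471) (nat_lit 456) (nat_lit 4749040964) (nat_lit 162) (nat_lit 5) (nat_lit 167) (nat_lit 5) (nat_lit 168) (nat_lit 5) (nat_lit 603) (nat_lit 490) (nat_lit 467))))) (XT.nd (nat_lit 234) (nat_lit 1140) (nat_lit 0) (XT.nd (nat_lit 78) (nat_lit 456) (nat_lit 0) (XT.lf (nat_lit 0) (nat_lit 685531425) (nat_lit 304) (nat_lit 8818921074) (nat_lit 380)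 (nat_lit 459912082) (nat_lit 158) (nat_lit 5) (nat_lit 162) (nat_lit 5) (nat_lit 163) (nat_lit 4) (nat_lit 604) (nat_lit 490) (nat_lit 466)) (XT.nd (nat_lit 78) (nat_lit 380) (nat_lit 0) (XT.lf (nat_lit 0) (nat_lit 3875642221) (nat_lit 380) (nat_lit 943026550) (nat_lit 76) (nat_lit 5239371435) (nat_lit 157) (nat_lit 5) (nat_lit 162) (nat_lit 5) (nat_lit 158) (nat_lit 5) (nat_lit 605) (nat_lit 490) (nat_lit 465)) (XT.lf (nat_lit 0) (nat_lit 7563616165) (nat_lit 380) (nat_lit 719987384) (nat_lit 456) (nat_lit 1870088820) (nat_lit 152) (nat_lit 5) (nat_lit 157) (nat_lit 5) (nat_lit 158) (nat_lit 5) (nat_lit 606) (nat_lit 490) (nat_lit 464)))) (XT.nd (nat_lit 78) (nat_lit 760) (nat_lit 0) (XT.lf (nat_lit 0) (nat_lit 2505989516) (nat_lit 380) (nat_lit 4302099568) (nat_lit 76) (nat_lit 3442627354) (nat_lit 147) (nat_lit 5) (nat_lit 152) (nat_lit 5) (nat_lit 148) (nat_lit 5) (nat_lit 607) (nat_lit 490) (nat_lit 463)) (XT.nd (nat_lit 78) (nat_lit 380) (nat_lit 0) (XT.lf (nat_lit 0) (nat_lit 4290375186) (nat_lit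 380) (nat_lit 2647507979) (nat_lit 456) (nat_lit 3411684769) (nat_lit 142) (nat_lit 5) (nat_lit 147) (nat_lit 5) (nat_lit 148) (nat_lit 5) (nat_lit 608) (nat_lit 490) (nat_lit 462)) (XT.lf (nat_lit 0) (nat_lit 994538466) (nat_lit 380) (nat_lit 7863057737) (nat_lit 76) (nat_lit 1592675380) (nat_lit 137) (nat_lit 5) (nat_lit 142) (nat_lit 5) (nat_lit 138) (nat_lit 5) (nat_lit 609) (nat_lit 490) (nat_lit 461))))))))
noncomputable def xc13 : XT := (XT.nd (nat_lit 79092) (nat_lit 0) (nat_lit 5624) (XT.nd (nat_lit 780) (nat_lit 1140) (nat_lit 0) (XT.nd (nat_lit 390) (nat_lit 1216) (nat_lit 0) (XT.nd (nat_lit 156) (nat_lit 1064) (nat_lit 0) (XT.nd (nat_lit 78) (nat_lit 0) (nat_lit 0) (XT.lf (nat_lit 0) (nat_lit 813871635) (nat_lit 304) (nat_lit 4636737125) (nat_lit 380) (nat_lit 5101782225) (nat_lit 133) (nat_lit 5) (nat_lit 137) (nat_lit 5) (nat_lit 138) (nat_lit 5) (nat_lit 610) (nat_lit 490) (nat_lit 460)) (XT.lf (nat_lit 0) (nat_lit 9678624189) (nat_lit 304) (nat_lit 314063173) (nat_lit 380) (nat_lit 663928470)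 (nat_lit 133) (nat_lit 5) (nat_lit 137) (nat_lit 5) (nat_lit 138) (nat_lit 5) (nat_lit 611) (nat_lit 490) (nat_lit 459))) (XT.nd (nat_lit 78) (nat_lit 684) (nat_lit 0) (XT.lf (nat_lit 0) (nat_lit 3835326114) (nat_lit 380) (nat_lit 2843705730) (nat_lit 76) (nat_lit 4082926443) (nat_lit 128) (nat_lit 5) (nat_lit 133) (nat_lit 5) (nat_lit 129) (nat_lit 5) (nat_lit 612) (nat_lit 490) (nat_lit 458)) (XT.nd (nat_lit 78) (nat_lit 380) (nat_lit 0) (XT.lf (nat_lit 0) (nat_lit 6118644009) (nat_lit 304) (nat_lit 2290565658) (nat_lit 380) (nat_lit 2460240221) (nat_lit 124) (nat_lit 5) (nat_lit 128) (nat_lit 5) (nat_lit 129) (nat_lit 5) (nat_lit 613) (nat_lit 490) (nat_lit 457)) (XT.lf (nat_lit 0) (nat_lit 2074525376) (nat_lit 380) (nat_lit 6722582403) (nat_lit 76) (nat_lit 2181581588) (nat_lit 119) (nat_lit 5) (nat_lit 124) (nat_lit 5) (nat_lit 120) (nat_lit 5) (nat_lit 614) (nat_lit 490) (nat_lit 456))))) (XT.nd (nat_lit 156) (nat_lit 608) (nat_lit 0) (XT.nd (nat_lit 78) (nat_lit 304) (nat_lit 0) (XT.lf (nat_lit 0)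 (nat_lit 2325043589) (nat_lit 304) (nat_lit 4349870067) (nat_lit 380) (nat_lit 4414718040) (nat_lit 115) (nat_lit 5) (nat_lit 119) (nat_lit 5) (nat_lit 120) (nat_lit 5) (nat_lit 615) (nat_lit 490) (nat_lit 455)) (XT.lf (nat_lit 0) (nat_lit 156958702) (nat_lit 304) (nat_lit 10850035008) (nat_lit 76) (nat_lit 195886486) (nat_lit 111) (nat_lit 5) (nat_lit 115) (nat_lit 5) (nat_lit 112) (nat_lit 5) (nat_lit 616) (nat_lit 490) (nat_lit 454))) (XT.nd (nat_lit 78) (nat_lit 608) (nat_lit 0) (XT.lf (nat_lit 0) (nat_lit 4794853600) (nat_lit 304) (nat_lit 1696424124) (nat_lit 76) (nat_lit 4825855025) (nat_lit 111) (nat_lit 5) (nat_lit 115) (nat_lit 5) (nat_lit 112) (nat_lit 5) (nat_lit 617) (nat_lit 490) (nat_lit 453)) (XT.nd (nat_lit 78) (nat_lit 304) (nat_lit 0) (XT.lf (nat_lit 0) (nat_lit 7650193548) (nat_lit 304) (nat_lit 1871875967) (nat_lit 380) (nat_lit 1911670228) (nat_lit 107) (nat_lit 5) (nat_lit 111) (nat_lit 5) (nat_lit 112) (nat_lit 5) (nat_lit 618) (nat_lit 490) (nat_lit 452)) (XT.lf (nat_lit 0) (nat_lit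 2768122314) (nat_lit 304) (nat_lit 5951771721) (nat_lit 76) (nat_lit 2832151468) (nat_lit 103) (nat_lit 5) (nat_lit 107) (nat_lit 5) (nat_lit 104) (nat_lit 5) (nat_lit 619) (nat_lit 490) (nat_lit 451)))))) (XT.nd (nat_lit 77922) (nat_lit 0) (nat_lit 14516) (XT.nd (nat_lit 156) (nat_lit 532) (nat_lit 0) (XT.nd (nat_lit 78) (nat_lit 304) (nat_lit 0) (XT.lf (nat_lit 0) (nat_lit 3480548135) (nat_lit 304) (nat_lit 4043156216) (nat_lit 380) (nat_lit 4148605099) (nat_lit 99) (nat_lit 5) (nat_lit 103) (nat_lit 5) (nat_lit 104) (nat_lit 5) (nat_lit 620) (nat_lit 490) (nat_lit 450)) (XT.lf (nat_lit 0) (nat_lit 572669943) (nat_lit 304) (nat_lit 10489459488) (nat_lit 76) (nat_lit 732757602) (nat_lit 95) (nat_lit 5) (nat_lit 99) (nat_lit 5) (nat_lit 96) (nat_lit 5) (nat_lit 621) (nat_lit 490) (nat_lit 449))) (XT.nd (nat_lit 78) (nat_lit 532) (nat_lit 0) (XT.lf (nat_lit 0) (nat_lit 5362501383) (nat_lit 304) (nat_lit 960856797) (nat_lit 76) (nat_lit 5595416503) (nat_lit 95) (nat_lit 5) (nat_lit 99) (nat_lit 5) (nat_lit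 96) (nat_lit 5) (nat_lit 622) (nat_lit 490) (nat_lit 448)) (XT.nd (nat_lit 78) (nat_lit 304) (nat_lit 0) (XT.lf (nat_lit 0) (nat_lit 8784282652) (nat_lit 228) (nat_lit 1469427097) (nat_lit 304) (nat_lit 1791319299) (nat_lit 92) (nat_lit 5) (nat_lit 95) (nat_lit 5) (nat_lit 96) (nat_lit 5) (nat_lit 623) (nat_lit 490) (nat_lit 447)) (XT.lf (nat_lit 0) (nat_lit 3049093690) (nat_lit 304) (nat_lit 5656134770) (nat_lit 76) (nat_lit 3467773883) (nat_lit 88) (nat_lit 5) (nat_lit 92) (nat_lit 5) (nat_lit 89) (nat_lit 5) (nat_lit 624) (nat_lit 490) (nat_lit 446))))) (XT.nd (nat_lit 156) (nat_lit 1900) (nat_lit 0) (XT.nd (nat_lit 78) (nat_lit 0) (nat_lit 0) (XT.lf (nat_lit 0) (nat_lit 36048810) (nat_lit 684) (nat_lit 3952930311) (nat_lit 0) (nat_lit 36048810) (nat_lit 304) (nat_lit 5) (nat_lit 313) (nat_lit 4) (nat_lit 304) (nat_lit 4) (nat_lit 578) (nat_lit 491) (nat_lit 491)) (XT.lf (nat_lit 0) (nat_lit 4082801884) (nat_lit 684) (nat_lit 1133966220) (nat_lit 0) (nat_lit 2889617132) (nat_lit 304) (nat_lit 5) (nat_lit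 313) (nat_lit 4) (nat_lit 304) (nat_lit 4) (nat_lit 579) (nat_lit 491) (nat_lit 490))) (XT.nd (nat_lit 78) (nat_lit 1292) (nat_lit 0) (XT.lf (nat_lit 0) (nat_lit 5758600754) (nat_lit 608) (nat_lit 2384415076) (nat_lit 608) (nat_lit 21441352) (nat_lit 296) (nat_lit 4) (nat_lit 304) (nat_lit 5) (nat_lit 304) (nat_lit 4) (nat_lit 580) (nat_lit 491) (nat_lit 489)) (XT.nd (nat_lit 78) (nat_lit 608) (nat_lit 0) (XT.lf (nat_lit 0) (nat_lit 3980273111) (nat_lit 684) (nat_lit 3704168675) (nat_lit 0) (nat_lit 539267563) (nat_lit 287) (nat_lit 5) (nat_lit 296) (nat_lit 4) (nat_lit 287) (nat_lit 4) (nat_lit 581) (nat_lit 491) (nat_lit 488)) (XT.lf (nat_lit 0) (nat_lit 3267856240) (nat_lit 608) (nat_lit 4779945873) (nat_lit 608) (nat_lit 236622049) (nat_lit 279) (nat_lit 4) (nat_lit 287) (nat_lit 5) (nat_lit 287) (nat_lit 4) (nat_lit 582) (nat_lit 491) (nat_lit 487))))))) (XT.nd (nat_lit 780) (nat_lit 4408) (nat_lit 0) (XT.nd (nat_lit 390) (nat_lit 2052) (nat_lit 0) (XT.nd (nat_lit 156) (nat_lit 1216) (nat_lit 0) (XT.nd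 (nat_lit 78) (nat_lit 608) (nat_lit 0) (XT.lf (nat_lit 0) (nat_lit 1993166252) (nat_lit 532) (nat_lit 1777721998) (nat_lit 608) (nat_lit 4575545611) (nat_lit 271) (nat_lit 5) (nat_lit 278) (nat_lit 5) (nat_lit 279) (nat_lit 4) (nat_lit 583) (nat_lit 491) (nat_lit 486)) (XT.lf (nat_lit 0) (nat_lit 709206249) (nat_lit 608) (nat_lit 7126665089) (nat_lit 608) (nat_lit 574173001) (nat_lit 263) (nat_lit 4) (nat_lit 271) (nat_lit 5) (nat_lit 271) (nat_lit 4) (nat_lit 584) (nat_lit 491) (nat_lit 485))) (XT.nd (nat_lit 78) (nat_lit 1140) (nat_lit 0) (XT.lf (nat_lit 0) (nat_lit 3449845549) (nat_lit 684) (nat_lit 602175774) (nat_lit 76) (nat_lit 4422679567) (nat_lit 262) (nat_lit 5) (nat_lit 271) (nat_lit 5) (nat_lit 263) (nat_lit 4) (nat_lit 585) (nat_lit 491) (nat_lit 484)) (XT.nd (nat_lit 78) (nat_lit 608) (nat_lit 0) (XT.lf (nat_lit 0) (nat_lit 6631111177) (nat_lit 532) (nat_lit 893828716) (nat_lit 608) (nat_lit 1016070687) (nat_lit 255) (nat_lit 5) (nat_lit 262) (nat_lit 5) (nat_lit 263) (nat_lit 4) (nat_lit 586)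 (nat_lit 491) (nat_lit 483)) (XT.lf (nat_lit 0) (nat_lit 3022324905) (nat_lit 608) (nat_lit 3255780643) (nat_lit 76) (nat_lit 2330348683) (nat_lit 247) (nat_lit 5) (nat_lit 255) (nat_lit 5) (nat_lit 248) (nat_lit 4) (nat_lit 587) (nat_lit 491) (nat_lit 482))))) (XT.nd (nat_lit 156) (nat_lit 988) (nat_lit 0) (XT.nd (nat_lit 78) (nat_lit 608) (nat_lit 0) (XT.lf (nat_lit 0) (nat_lit 4058605156) (nat_lit 456) (nat_lit 3050454320) (nat_lit 532) (nat_lit 1568430924) (nat_lit 241) (nat_lit 5) (nat_lit 247) (nat_lit 5) (nat_lit 248) (nat_lit 4) (nat_lit 588) (nat_lit 491) (nat_lit 481)) (XT.lf (nat_lit 0) (nat_lit 2474251093) (nat_lit 608) (nat_lit 6005998681) (nat_lit 76) (nat_lit 267774353) (nat_lit 233) (nat_lit 5) (nat_lit 241) (nat_lit 5) (nat_lit 234) (nat_lit 4) (nat_lit 589) (nat_lit 491) (nat_lit 480))) (XT.nd (nat_lit 78) (nat_lit 532) (nat_lit 0) (XT.lf (nat_lit 0) (nat_lit 1388820075) (nat_lit 456) (nat_lit 5185120426) (nat_lit 532) (nat_lit 2245878990) (nat_lit 227) (nat_lit 5) (nat_lit 233) (nat_lit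 5) (nat_lit 234) (nat_lit 4) (nat_lit 590) (nat_lit 491) (nat_lit 479)) (XT.nd (nat_lit 78) (nat_lit 0) (nat_lit 0) (XT.lf (nat_lit 0) (nat_lit 16306815) (nat_lit 456) (nat_lit 1799461685) (nat_lit 532) (nat_lit 7077489284) (nat_lit 220) (nat_lit 5) (nat_lit 226) (nat_lit 5) (nat_lit 227) (nat_lit 5) (nat_lit 591) (nat_lit 491) (nat_lit 478)) (XT.lf (nat_lit 0) (nat_lit 5926938041) (nat_lit 532) (nat_lit 1372524426) (nat_lit 76) (nat_lit 1668439570) (nat_lit 220) (nat_lit 5) (nat_lit 227) (nat_lit 5) (nat_lit 221) (nat_lit 4) (nat_lit 592) (nat_lit 491) (nat_lit 477)))))) (XT.nd (nat_lit 390) (nat_lit 2128) (nat_lit 0) (XT.nd (nat_lit 156) (nat_lit 1292) (nat_lit 0) (XT.nd (nat_lit 78) (nat_lit 456) (nat_lit 0) (XT.lf (nat_lit 0) (nat_lit 1053312306) (nat_lit 532) (nat_lit 2789840031) (nat_lit 76) (nat_lit 5200925629) (nat_lit 213) (nat_lit 5) (nat_lit 220) (nat_lit 5) (nat_lit 214) (nat_lit 5) (nat_lit 593) (nat_lit 491) (nat_lit 476)) (XT.lf (nat_lit 0) (nat_lit 4883290949) (nat_lit 456) (nat_lit 285319581)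 (nat_lit 532) (nat_lit 3953169020) (nat_lit 207) (nat_lit 5) (nat_lit 213) (nat_lit 5) (nat_lit 214) (nat_lit 5) (nat_lit 594) (nat_lit 491) (nat_lit 475))) (XT.nd (nat_lit 78) (nat_lit 836) (nat_lit 0) (XT.lf (nat_lit 0) (nat_lit 165429592) (nat_lit 456) (nat_lit 5722757382) (nat_lit 76) (nat_lit 3312779617) (nat_lit 201) (nat_lit 5) (nat_lit 207) (nat_lit 5) (nat_lit 202) (nat_lit 5) (nat_lit 595) (nat_lit 491) (nat_lit 474)) (XT.nd (nat_lit 78) (nat_lit 380) (nat_lit 0) (XT.lf (nat_lit 0) (nat_lit 2032197363) (nat_lit 456) (nat_lit 2264492432) (nat_lit 532) (nat_lit 4984861698) (nat_lit 195) (nat_lit 5) (nat_lit 201) (nat_lit 5) (nat_lit 202) (nat_lit 5) (nat_lit 596) (nat_lit 491) (nat_lit 473)) (XT.lf (nat_lit 0) (nat_lit 562554983) (nat_lit 380) (nat_lit 7939476515) (nat_lit 456) (nat_lit 861888623) (nat_lit 190) (nat_lit 5) (nat_lit 195) (nat_lit 5) (nat_lit 196) (nat_lit 4) (nat_lit 597) (nat_lit 491) (nat_lit 472))))) (XT.nd (nat_lit 234) (nat_lit 1216) (nat_lit 0) (XT.nd (nat_lit 78) (nat_lit 836)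 (nat_lit 0) (XT.lf (nat_lit 0) (nat_lit 3303699560) (nat_lit 456) (nat_lit 947331165) (nat_lit 76) (nat_lit 5196392201) (nat_lit 189) (nat_lit 5) (nat_lit 195) (nat_lit 5) (nat_lit 190) (nat_lit 5) (nat_lit 598) (nat_lit 491) (nat_lit 471)) (XT.nd (nat_lit 78) (nat_lit 456) (nat_lit 0) (XT.lf (nat_lit 0) (nat_lit 7060171170) (nat_lit 380) (nat_lit 467954457) (nat_lit 456) (nat_lit 2004615973) (nat_lit 184) (nat_lit 5) (nat_lit 189) (nat_lit 5) (nat_lit 190) (nat_lit 5) (nat_lit 599) (nat_lit 491) (nat_lit 470)) (XT.lf (nat_lit 0) (nat_lit 2194465623) (nat_lit 456) (nat_lit 4052776561) (nat_lit 76) (nat_lit 3372112150) (nat_lit 178) (nat_lit 5) (nat_lit 184) (nat_lit 5) (nat_lit 179) (nat_lit 5) (nat_lit 600) (nat_lit 491) (nat_lit 469)))) (XT.nd (nat_lit 78) (nat_lit 836) (nat_lit 0) (XT.lf (nat_lit 0) (nat_lit 4038092243) (nat_lit 380) (nat_lit 2400394087) (nat_lit 456) (nat_lit 3269193021) (nat_lit 173) (nat_lit 5) (nat_lit 178) (nat_lit 5) (nat_lit 179) (nat_lit 5) (nat_lit 601) (nat_lit 491) (nat_lit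 468)) (XT.nd (nat_lit 78) (nat_lit 380) (nat_lit 0) (XT.lf (nat_lit 0) (nat_lit 952332236) (nat_lit 456) (nat_lit 7324575771) (nat_lit 76) (nat_lit 1520829294) (nat_lit 167) (nat_lit 5) (nat_lit 173) (nat_lit 5) (nat_lit 168) (nat_lit 5) (nat_lit 602) (nat_lit 491) (nat_lit 467)) (XT.lf (nat_lit 0) (nat_lit 848560923) (nat_lit 380) (nat_lit 4367959796) (nat_lit 456) (nat_lit 4672604326) (nat_lit 162) (nat_lit 5) (nat_lit 167) (nat_lit 5) (nat_lit 168) (nat_lit 5) (nat_lit 603) (nat_lit 491) (nat_lit 466))))))))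
noncomputable def xc14 : XT := (XT.nd (nat_lit 1560) (nat_lit 304) (nat_lit 0) (XT.nd (nat_lit 780) (nat_lit 2432) (nat_lit 0) (XT.nd (nat_lit 390) (nat_lit 1368) (nat_lit 0) (XT.nd (nat_lit 156) (nat_lit 1140) (nat_lit 0) (XT.nd (nat_lit 78) (nat_lit 380) (nat_lit 0) (XT.lf (nat_lit 0) (nat_lit 9193497612) (nat_lit 380) (nat_lit 364451082) (nat_lit 456) (nat_lit 424553684) (nat_lit 162) (nat_lit 5) (nat_lit 167) (nat_lit 5) (nat_lit 168) (nat_lit 5) (nat_lit 604) (nat_lit 491) (nat_lit 465)) (XT.lf (nat_lit 0) (nat_lit 3874599091) (nat_lit 380) (nat_lit 2489679362) (nat_lit 76) (nat_lit 3712614166) (nat_lit 157) (nat_lit 5) (nat_lit 162) (nat_lit 5) (nat_lit 158) (nat_lit 5) (nat_lit 605) (nat_lit 491) (nat_lit 464))) (XT.nd (nat_lit 78) (nat_lit 760) (nat_lit 0) (XT.lf (nat_lit 0) (nat_lit 5951148281) (nat_lit 380) (nat_lit 2293152398) (nat_lit 456) (nat_lit 1929009740) (nat_lit 152) (nat_lit 5) (nat_lit 157) (nat_lit 5) (nat_lit 158) (nat_lit 5) (nat_lit 606) (nat_lit 491) (nat_lit 463)) (XT.nd (nat_lit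 78) (nat_lit 380) (nat_lit 0) (XT.lf (nat_lit 0) (nat_lit 2398695470) (nat_lit 380) (nat_lit 6010825085) (nat_lit 76) (nat_lit 1861804926) (nat_lit 147) (nat_lit 5) (nat_lit 152) (nat_lit 5) (nat_lit 148) (nat_lit 5) (nat_lit 607) (nat_lit 491) (nat_lit 462)) (XT.lf (nat_lit 0) (nat_lit 2513457907) (nat_lit 380) (nat_lit 4278022388) (nat_lit 456) (nat_lit 3579479277) (nat_lit 142) (nat_lit 5) (nat_lit 147) (nat_lit 5) (nat_lit 148) (nat_lit 5) (nat_lit 608) (nat_lit 491) (nat_lit 461))))) (XT.nd (nat_lit 156) (nat_lit 988) (nat_lit 0) (XT.nd (nat_lit 78) (nat_lit 0) (nat_lit 0) (XT.lf (nat_lit 0) (nat_lit 731242736) (nat_lit 304) (nat_lit 47602033) (nat_lit 380) (nat_lit 9693842636) (nat_lit 137) (nat_lit 5) (nat_lit 141) (nat_lit 5) (nat_lit 142) (nat_lit 5) (nat_lit 609) (nat_lit 491) (nat_lit 460)) (XT.lf (nat_lit 0) (nat_lit 5201955928) (nat_lit 380) (nat_lit 1119974700) (nat_lit 76) (nat_lit 4253535756) (nat_lit 137) (nat_lit 5) (nat_lit 142) (nat_lit 5) (nat_lit 138) (nat_lit 5) (nat_lit 610) (nat_lit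 491) (nat_lit 459))) (XT.nd (nat_lit 78) (nat_lit 684) (nat_lit 0) (XT.lf (nat_lit 0) (nat_lit 7685096258) (nat_lit 304) (nat_lit 2024449868) (nat_lit 380) (nat_lit 970835258) (nat_lit 133) (nat_lit 5) (nat_lit 137) (nat_lit 5) (nat_lit 138) (nat_lit 5) (nat_lit 611) (nat_lit 491) (nat_lit 458)) (XT.nd (nat_lit 78) (nat_lit 304) (nat_lit 0) (XT.lf (nat_lit 0) (nat_lit 3480808199) (nat_lit 380) (nat_lit 4943943132) (nat_lit 76) (nat_lit 2362045456) (nat_lit 128) (nat_lit 5) (nat_lit 133) (nat_lit 5) (nat_lit 129) (nat_lit 5) (nat_lit 612) (nat_lit 491) (nat_lit 457)) (XT.lf (nat_lit 0) (nat_lit 3945503851) (nat_lit 304) (nat_lit 4068439472) (nat_lit 380) (nat_lit 2881160396) (nat_lit 124) (nat_lit 5) (nat_lit 128) (nat_lit 5) (nat_lit 129) (nat_lit 5) (nat_lit 613) (nat_lit 491) (nat_lit 456)))))) (XT.nd (nat_lit 390) (nat_lit 1140) (nat_lit 0) (XT.nd (nat_lit 156) (nat_lit 912) (nat_lit 0) (XT.nd (nat_lit 78) (nat_lit 0) (nat_lit 0) (XT.lf (nat_lit 0) (nat_lit 1606032159) (nat_lit 380) (nat_lit 9007642197)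 (nat_lit 76) (nat_lit 391785719) (nat_lit 119) (nat_lit 5) (nat_lit 124) (nat_lit 5) (nat_lit 120) (nat_lit 5) (nat_lit 614) (nat_lit 491) (nat_lit 455)) (XT.lf (nat_lit 0) (nat_lit 6164865106) (nat_lit 380) (nat_lit 35091600) (nat_lit 76) (nat_lit 4917277146) (nat_lit 119) (nat_lit 5) (nat_lit 124) (nat_lit 5) (nat_lit 120) (nat_lit 5) (nat_lit 615) (nat_lit 491) (nat_lit 454))) (XT.nd (nat_lit 78) (nat_lit 608) (nat_lit 0) (XT.lf (nat_lit 0) (nat_lit 9148605711) (nat_lit 304) (nat_lit 1673267418) (nat_lit 380) (nat_lit 409230686) (nat_lit 115) (nat_lit 5) (nat_lit 119) (nat_lit 5) (nat_lit 120) (nat_lit 5) (nat_lit 616) (nat_lit 491) (nat_lit 453)) (XT.nd (nat_lit 78) (nat_lit 304) (nat_lit 0) (XT.lf (nat_lit 0) (nat_lit 4183085405) (nat_lit 304) (nat_lit 4219080688) (nat_lit 76) (nat_lit 2944262656) (nat_lit 111) (nat_lit 5) (nat_lit 115) (nat_lit 5) (nat_lit 112) (nat_lit 5) (nat_lit 617) (nat_lit 491) (nat_lit 452)) (XT.lf (nat_lit 0) (nat_lit 5049554601) (nat_lit 304) (nat_lit 3818086549) (nat_lit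 380) (nat_lit 2596248112) (nat_lit 107) (nat_lit 5) (nat_lit 111) (nat_lit 5) (nat_lit 112) (nat_lit 5) (nat_lit 618) (nat_lit 491) (nat_lit 451))))) (XT.nd (nat_lit 156) (nat_lit 532) (nat_lit 0) (XT.nd (nat_lit 78) (nat_lit 304) (nat_lit 0) (XT.lf (nat_lit 0) (nat_lit 2036332922) (nat_lit 304) (nat_lit 8675734428) (nat_lit 76) (nat_lit 871340668) (nat_lit 103) (nat_lit 5) (nat_lit 107) (nat_lit 5) (nat_lit 104) (nat_lit 5) (nat_lit 619) (nat_lit 491) (nat_lit 450)) (XT.lf (nat_lit 0) (nat_lit 675768657) (nat_lit 304) (nat_lit 6072316855) (nat_lit 380) (nat_lit 4956463341) (nat_lit 99) (nat_lit 5) (nat_lit 103) (nat_lit 5) (nat_lit 104) (nat_lit 5) (nat_lit 620) (nat_lit 491) (nat_lit 449))) (XT.nd (nat_lit 78) (nat_lit 532) (nat_lit 0) (XT.lf (nat_lit 0) (nat_lit 10243545024) (nat_lit 304) (nat_lit 1317437603) (nat_lit 380) (nat_lit 266992277) (nat_lit 99) (nat_lit 5) (nat_lit 103) (nat_lit 5) (nat_lit 104) (nat_lit 5) (nat_lit 621) (nat_lit 491) (nat_lit 448)) (XT.nd (nat_lit 78) (nat_lit 228) (nat_lit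 0) (XT.lf (nat_lit 0) (nat_lit 4481822394) (nat_lit 304) (nat_lit 3938890185) (nat_lit 76) (nat_lit 3532075295) (nat_lit 95) (nat_lit 5) (nat_lit 99) (nat_lit 5) (nat_lit 96) (nat_lit 5) (nat_lit 622) (nat_lit 491) (nat_lit 447)) (XT.lf (nat_lit 0) (nat_lit 5722783849) (nat_lit 228) (nat_lit 3605397251) (nat_lit 304) (nat_lit 2751758407) (nat_lit 92) (nat_lit 5) (nat_lit 95) (nat_lit 5) (nat_lit 96) (nat_lit 5) (nat_lit 623) (nat_lit 491) (nat_lit 446))))))) (XT.nd (nat_lit 78156) (nat_lit 0) (nat_lit 8588) (XT.nd (nat_lit 77766) (nat_lit 0) (nat_lit 13224) (XT.nd (nat_lit 77532) (nat_lit 0) (nat_lit 16416) (XT.nd (nat_lit 77454) (nat_lit 0) (nat_lit 17784) (XT.lf (nat_lit 0) (nat_lit 2041543575) (nat_lit 304) (nat_lit 8853091741) (nat_lit 76) (nat_lit 1314596613) (nat_lit 88) (nat_lit 5) (nat_lit 92) (nat_lit 5) (nat_lit 89) (nat_lit 5) (nat_lit 624) (nat_lit 491) (nat_lit 445)) (XT.lf (nat_lit 0) (nat_lit 675900267) (nat_lit 760) (nat_lit 2618156845) (nat_lit 0) (nat_lit 675900267) (nat_lit 322) (nat_lit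 5) (nat_lit 332) (nat_lit 4) (nat_lit 322) (nat_lit 4) (nat_lit 576) (nat_lit 492) (nat_lit 492))) (XT.nd (nat_lit 78) (nat_lit 684) (nat_lit 0) (XT.lf (nat_lit 0) (nat_lit 1399074395) (nat_lit 684) (nat_lit 3918389885) (nat_lit 684) (nat_lit 2677000468) (nat_lit 313) (nat_lit 4) (nat_lit 322) (nat_lit 5) (nat_lit 322) (nat_lit 4) (nat_lit 577) (nat_lit 492) (nat_lit 491)) (XT.nd (nat_lit 78) (nat_lit 0) (nat_lit 0) (XT.lf (nat_lit 0) (nat_lit 91537872) (nat_lit 608) (nat_lit 1170826353) (nat_lit 684) (nat_lit 6788228231) (nat_lit 304) (nat_lit 5) (nat_lit 312) (nat_lit 5) (nat_lit 313) (nat_lit 4) (nat_lit 578) (nat_lit 492) (nat_lit 490)) (XT.lf (nat_lit 0) (nat_lit 5231757273) (nat_lit 684) (nat_lit 1224256619) (nat_lit 0) (nat_lit 1651735101) (nat_lit 304) (nat_lit 5) (nat_lit 313) (nat_lit 4) (nat_lit 304) (nat_lit 4) (nat_lit 579) (nat_lit 492) (nat_lit 489))))) (XT.nd (nat_lit 156) (nat_lit 1900) (nat_lit 0) (XT.nd (nat_lit 78) (nat_lit 608) (nat_lit 0) (XT.lf (nat_lit 0) (nat_lit 1077224218) (nat_lit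 684) (nat_lit 2550881184) (nat_lit 76) (nat_lit 4538253333) (nat_lit 295) (nat_lit 5) (nat_lit 304) (nat_lit 5) (nat_lit 296) (nat_lit 4) (nat_lit 580) (nat_lit 492) (nat_lit 488)) (XT.lf (nat_lit 0) (nat_lit 4331510369) (nat_lit 608) (nat_lit 709454539) (nat_lit 684) (nat_lit 3185397944) (nat_lit 287) (nat_lit 5) (nat_lit 295) (nat_lit 5) (nat_lit 296) (nat_lit 4) (nat_lit 581) (nat_lit 492) (nat_lit 487))) (XT.nd (nat_lit 78) (nat_lit 1216) (nat_lit 0) (XT.lf (nat_lit 0) (nat_lit 771652920) (nat_lit 684) (nat_lit 5258473867) (nat_lit 76) (nat_lit 2257624873) (nat_lit 278) (nat_lit 5) (nat_lit 287) (nat_lit 5) (nat_lit 279) (nat_lit 4) (nat_lit 582) (nat_lit 492) (nat_lit 486)) (XT.nd (nat_lit 78) (nat_lit 684) (nat_lit 0) (XT.lf (nat_lit 0) (nat_lit 1701495916) (nat_lit 532) (nat_lit 3040198438) (nat_lit 608) (nat_lit 3608724423) (nat_lit 271) (nat_lit 5) (nat_lit 278) (nat_lit 5) (nat_lit 279) (nat_lit 4) (nat_lit 583) (nat_lit 492) (nat_lit 485)) (XT.lf (nat_lit 0) (nat_lit 344634460) (nat_lit 684) (nat_lit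 8044491147) (nat_lit 76) (nat_lit 25710743) (nat_lit 262) (nat_lit 5) (nat_lit 271) (nat_lit 5) (nat_lit 263) (nat_lit 4) (nat_lit 584) (nat_lit 492) (nat_lit 484)))))) (XT.nd (nat_lit 390) (nat_lit 2432) (nat_lit 0) (XT.nd (nat_lit 156) (nat_lit 1672) (nat_lit 0) (XT.nd (nat_lit 78) (nat_lit 532) (nat_lit 0) (XT.lf (nat_lit 0) (nat_lit 4329054728) (nat_lit 684) (nat_lit 994365830) (nat_lit 76) (nat_lit 3156639928) (nat_lit 262) (nat_lit 5) (nat_lit 271) (nat_lit 5) (nat_lit 263) (nat_lit 4) (nat_lit 585) (nat_lit 492) (nat_lit 483)) (XT.lf (nat_lit 0) (nat_lit 6189194831) (nat_lit 532) (nat_lit 2180645909) (nat_lit 608) (nat_lit 177216374) (nat_lit 255) (nat_lit 5) (nat_lit 262) (nat_lit 5) (nat_lit 263) (nat_lit 4) (nat_lit 586) (nat_lit 492) (nat_lit 482))) (XT.nd (nat_lit 78) (nat_lit 1064) (nat_lit 0) (XT.lf (nat_lit 0) (nat_lit 3807168691) (nat_lit 608) (nat_lit 3758066163) (nat_lit 76) (nat_lit 1050017898) (nat_lit 247) (nat_lit 5) (nat_lit 255) (nat_lit 5) (nat_lit 248) (nat_lit 4) (nat_lit 587)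 (nat_lit 492) (nat_lit 481)) (XT.nd (nat_lit 78) (nat_lit 608) (nat_lit 0) (XT.lf (nat_lit 0) (nat_lit 3504749877) (nat_lit 456) (nat_lit 4354491419) (nat_lit 532) (nat_lit 825741589) (nat_lit 241) (nat_lit 5) (nat_lit 247) (nat_lit 5) (nat_lit 248) (nat_lit 4) (nat_lit 588) (nat_lit 492) (nat_lit 480)) (XT.lf (nat_lit 0) (nat_lit 2125111729) (nat_lit 532) (nat_lit 1045362541) (nat_lit 608) (nat_lit 5585681113) (nat_lit 233) (nat_lit 5) (nat_lit 240) (nat_lit 5) (nat_lit 241) (nat_lit 5) (nat_lit 589) (nat_lit 492) (nat_lit 479))))) (XT.nd (nat_lit 234) (nat_lit 1444) (nat_lit 0) (XT.nd (nat_lit 78) (nat_lit 532) (nat_lit 0) (XT.lf (nat_lit 0) (nat_lit 717092900) (nat_lit 456) (nat_lit 6511207949) (nat_lit 532) (nat_lit 1600487838) (nat_lit 227) (nat_lit 5) (nat_lit 233) (nat_lit 5) (nat_lit 234) (nat_lit 4) (nat_lit 590) (nat_lit 492) (nat_lit 478)) (XT.nd (nat_lit 78) (nat_lit 456) (nat_lit 0) (XT.lf (nat_lit 0) (nat_lit 2421987217) (nat_lit 532) (nat_lit 713566826) (nat_lit 76) (nat_lit 5767203949) (nat_lit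 226) (nat_lit 5) (nat_lit 233) (nat_lit 5) (nat_lit 227) (nat_lit 5) (nat_lit 591) (nat_lit 492) (nat_lit 477)) (XT.lf (nat_lit 0) (nat_lit 6489373352) (nat_lit 532) (nat_lit 2157762089) (nat_lit 76) (nat_lit 331143115) (nat_lit 220) (nat_lit 5) (nat_lit 227) (nat_lit 5) (nat_lit 221) (nat_lit 4) (nat_lit 592) (nat_lit 492) (nat_lit 476)))) (XT.nd (nat_lit 78) (nat_lit 912) (nat_lit 0) (XT.lf (nat_lit 0) (nat_lit 1562653230) (nat_lit 532) (nat_lit 3644642914) (nat_lit 76) (nat_lit 3847796824) (nat_lit 213) (nat_lit 5) (nat_lit 220) (nat_lit 5) (nat_lit 214) (nat_lit 5) (nat_lit 593) (nat_lit 492) (nat_lit 475)) (XT.nd (nat_lit 78) (nat_lit 456) (nat_lit 0) (XT.lf (nat_lit 0) (nat_lit 3972325029) (nat_lit 456) (nat_lit 1670028235) (nat_lit 532) (nat_lit 3491153859) (nat_lit 207) (nat_lit 5) (nat_lit 213) (nat_lit 5) (nat_lit 214) (nat_lit 5) (nat_lit 594) (nat_lit 492) (nat_lit 474)) (XT.lf (nat_lit 0) (nat_lit 576313209) (nat_lit 456) (nat_lit 6708938816) (nat_lit 76) (nat_lit 1928284173) (nat_lit 201) (nat_lit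 5) (nat_lit 207) (nat_lit 5) (nat_lit 202) (nat_lit 5) (nat_lit 595) (nat_lit 492) (nat_lit 473))))))))
noncomputable def xc15 : XT := (XT.nd (nat_lit 1560) (nat_lit 2356) (nat_lit 0) (XT.nd (nat_lit 780) (nat_lit 2888) (nat_lit 0) (XT.nd (nat_lit 390) (nat_lit 1596) (nat_lit 0) (XT.nd (nat_lit 156) (nat_lit 1292) (nat_lit 0) (XT.nd (nat_lit 78) (nat_lit 0) (nat_lit 0) (XT.lf (nat_lit 0) (nat_lit 987801046) (nat_lit 456) (nat_lit 3683607990) (nat_lit 532) (nat_lit 4623435923) (nat_lit 195) (nat_lit 5) (nat_lit 201) (nat_lit 5) (nat_lit 202) (nat_lit 5) (nat_lit 596) (nat_lit 492) (nat_lit 472)) (XT.lf (nat_lit 0) (nat_lit 8834691735) (nat_lit 532) (nat_lit 538007745) (nat_lit 76) (nat_lit 5355849) (nat_lit 195) (nat_lit 5) (nat_lit 202) (nat_lit 5) (nat_lit 196) (nat_lit 4) (nat_lit 597) (nat_lit 492) (nat_lit 471))) (XT.nd (nat_lit 78) (nat_lit 836) (nat_lit 0) (XT.lf (nat_lit 0) (nat_lit 3585383470) (nat_lit 456) (nat_lit 2116096277) (nat_lit 76) (nat_lit 3760690836) (nat_lit 189) (nat_lit 5) (nat_lit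 195) (nat_lit 5) (nat_lit 190) (nat_lit 5) (nat_lit 598) (nat_lit 492) (nat_lit 470)) (XT.nd (nat_lit 78) (nat_lit 456) (nat_lit 0) (XT.lf (nat_lit 0) (nat_lit 5831366625) (nat_lit 380) (nat_lit 1941934659) (nat_lit 456) (nat_lit 1774918666) (nat_lit 184) (nat_lit 5) (nat_lit 189) (nat_lit 5) (nat_lit 190) (nat_lit 5) (nat_lit 599) (nat_lit 492) (nat_lit 469)) (XT.lf (nat_lit 0) (nat_lit 2374505936) (nat_lit 456) (nat_lit 5366174444) (nat_lit 76) (nat_lit 1895055873) (nat_lit 178) (nat_lit 5) (nat_lit 184) (nat_lit 5) (nat_lit 179) (nat_lit 5) (nat_lit 600) (nat_lit 492) (nat_lit 468))))) (XT.nd (nat_lit 156) (nat_lit 760) (nat_lit 0) (XT.nd (nat_lit 78) (nat_lit 456) (nat_lit 0) (XT.lf (nat_lit 0) (nat_lit 2662466531) (nat_lit 380) (nat_lit 3918859882) (nat_lit 456) (nat_lit 3143479361) (nat_lit 173) (nat_lit 5) (nat_lit 178) (nat_lit 5) (nat_lit 179) (nat_lit 5) (nat_lit 601) (nat_lit 492) (nat_lit 467)) (XT.lf (nat_lit 0) (nat_lit 1026420023) (nat_lit 380) (nat_lit 2326818) (nat_lit 456) (nat_lit 8787054044)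 (nat_lit 167) (nat_lit 5) (nat_lit 172) (nat_lit 5) (nat_lit 173) (nat_lit 5) (nat_lit 602) (nat_lit 492) (nat_lit 466))) (XT.nd (nat_lit 78) (nat_lit 760) (nat_lit 0) (XT.lf (nat_lit 0) (nat_lit 5259388256) (nat_lit 456) (nat_lit 671791988) (nat_lit 76) (nat_lit 3976679796) (nat_lit 167) (nat_lit 5) (nat_lit 173) (nat_lit 5) (nat_lit 168) (nat_lit 5) (nat_lit 603) (nat_lit 492) (nat_lit 465)) (XT.nd (nat_lit 78) (nat_lit 380) (nat_lit 0) (XT.lf (nat_lit 0) (nat_lit 7620075366) (nat_lit 380) (nat_lit 1948561503) (nat_lit 456) (nat_lit 433244551) (nat_lit 162) (nat_lit 5) (nat_lit 167) (nat_lit 5) (nat_lit 168) (nat_lit 5) (nat_lit 604) (nat_lit 492) (nat_lit 464)) (XT.lf (nat_lit 0) (nat_lit 3817398229) (nat_lit 380) (nat_lit 4157493107) (nat_lit 76) (nat_lit 2122354375) (nat_lit 157) (nat_lit 5) (nat_lit 162) (nat_lit 5) (nat_lit 158) (nat_lit 5) (nat_lit 605) (nat_lit 492) (nat_lit 463)))))) (XT.nd (nat_lit 390) (nat_lit 1368) (nat_lit 0) (XT.nd (nat_lit 156) (nat_lit 760) (nat_lit 0) (XT.nd (nat_lit 78)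 (nat_lit 380) (nat_lit 0) (XT.lf (nat_lit 0) (nat_lit 4216796767) (nat_lit 380) (nat_lit 3931796872) (nat_lit 456) (nat_lit 2045840429) (nat_lit 152) (nat_lit 5) (nat_lit 157) (nat_lit 5) (nat_lit 158) (nat_lit 5) (nat_lit 606) (nat_lit 492) (nat_lit 462)) (XT.lf (nat_lit 0) (nat_lit 2233560308) (nat_lit 380) (nat_lit 7844397200) (nat_lit 76) (nat_lit 215503945) (nat_lit 147) (nat_lit 5) (nat_lit 152) (nat_lit 5) (nat_lit 148) (nat_lit 5) (nat_lit 607) (nat_lit 492) (nat_lit 461))) (XT.nd (nat_lit 78) (nat_lit 380) (nat_lit 0) (XT.lf (nat_lit 0) (nat_lit 610926723) (nat_lit 380) (nat_lit 5976034643) (nat_lit 456) (nat_lit 3806922262) (nat_lit 142) (nat_lit 5) (nat_lit 147) (nat_lit 5) (nat_lit 148) (nat_lit 5) (nat_lit 608) (nat_lit 492) (nat_lit 460)) (XT.nd (nat_lit 78) (nat_lit 304) (nat_lit 0) (XT.lf (nat_lit 0) (nat_lit 522674156) (nat_lit 456) (nat_lit 1246402398) (nat_lit 76) (nat_lit 8727199045) (nat_lit 141) (nat_lit 5) (nat_lit 147) (nat_lit 5) (nat_lit 142) (nat_lit 5) (nat_lit 609) (nat_lit 492)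 (nat_lit 459)) (XT.lf (nat_lit 0) (nat_lit 4899524747) (nat_lit 380) (nat_lit 3170914993) (nat_lit 76) (nat_lit 2529540435) (nat_lit 137) (nat_lit 5) (nat_lit 142) (nat_lit 5) (nat_lit 138) (nat_lit 5) (nat_lit 610) (nat_lit 492) (nat_lit 458))))) (XT.nd (nat_lit 156) (nat_lit 684) (nat_lit 0) (XT.nd (nat_lit 78) (nat_lit 380) (nat_lit 0) (XT.lf (nat_lit 0) (nat_lit 5562980715) (nat_lit 304) (nat_lit 3804052821) (nat_lit 380) (nat_lit 1338663645) (nat_lit 133) (nat_lit 5) (nat_lit 137) (nat_lit 5) (nat_lit 138) (nat_lit 5) (nat_lit 611) (nat_lit 492) (nat_lit 457)) (XT.lf (nat_lit 0) (nat_lit 3065389223) (nat_lit 380) (nat_lit 7175876578) (nat_lit 76) (nat_lit 571943202) (nat_lit 128) (nat_lit 5) (nat_lit 133) (nat_lit 5) (nat_lit 129) (nat_lit 5) (nat_lit 612) (nat_lit 492) (nat_lit 456))) (XT.nd (nat_lit 78) (nat_lit 380) (nat_lit 0) (XT.lf (nat_lit 0) (nat_lit 1639799668) (nat_lit 304) (nat_lit 5917637890) (nat_lit 380) (nat_lit 3364900470) (nat_lit 124) (nat_lit 5) (nat_lit 128) (nat_lit 5) (nat_lit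 129) (nat_lit 5) (nat_lit 613) (nat_lit 492) (nat_lit 455)) (XT.nd (nat_lit 78) (nat_lit 304) (nat_lit 0) (XT.lf (nat_lit 0) (nat_lit 1087013576) (nat_lit 380) (nat_lit 399178235) (nat_lit 76) (nat_lit 9547398186) (nat_lit 123) (nat_lit 5) (nat_lit 128) (nat_lit 5) (nat_lit 124) (nat_lit 5) (nat_lit 614) (nat_lit 492) (nat_lit 454)) (XT.lf (nat_lit 0) (nat_lit 5607612824) (nat_lit 380) (nat_lit 2499616168) (nat_lit 76) (nat_lit 3038899792) (nat_lit 119) (nat_lit 5) (nat_lit 124) (nat_lit 5) (nat_lit 120) (nat_lit 5) (nat_lit 615) (nat_lit 492) (nat_lit 453))))))) (XT.nd (nat_lit 78000) (nat_lit 0) (nat_lit 13224) (XT.nd (nat_lit 390) (nat_lit 1140) (nat_lit 0) (XT.nd (nat_lit 156) (nat_lit 608) (nat_lit 0) (XT.nd (nat_lit 78) (nat_lit 304) (nat_lit 0) (XT.lf (nat_lit 0) (nat_lit 6607908587) (nat_lit 304) (nat_lit 3614784220) (nat_lit 380) (nat_lit 1038144830) (nat_lit 115) (nat_lit 5) (nat_lit 119) (nat_lit 5) (nat_lit 120) (nat_lit 5) (nat_lit 616) (nat_lit 492) (nat_lit 452)) (XT.lf (nat_lit 0) (nat_lit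 3507016150) (nat_lit 304) (nat_lit 6880816945) (nat_lit 76) (nat_lit 989519527) (nat_lit 111) (nat_lit 5) (nat_lit 115) (nat_lit 5) (nat_lit 112) (nat_lit 5) (nat_lit 617) (nat_lit 492) (nat_lit 451))) (XT.nd (nat_lit 78) (nat_lit 304) (nat_lit 0) (XT.lf (nat_lit 0) (nat_lit 2308859383) (nat_lit 304) (nat_lit 5839648396) (nat_lit 380) (nat_lit 3347166946) (nat_lit 107) (nat_lit 5) (nat_lit 111) (nat_lit 5) (nat_lit 112) (nat_lit 5) (nat_lit 618) (nat_lit 492) (nat_lit 450)) (XT.nd (nat_lit 78) (nat_lit 0) (nat_lit 0) (XT.lf (nat_lit 0) (nat_lit 65496485) (nat_lit 228) (nat_lit 1180324408) (nat_lit 304) (nat_lit 10370459229) (nat_lit 103) (nat_lit 5) (nat_lit 106) (nat_lit 5) (nat_lit 107) (nat_lit 5) (nat_lit 619) (nat_lit 492) (nat_lit 449)) (XT.lf (nat_lit 0) (nat_lit 5920405868) (nat_lit 304) (nat_lit 2243648150) (nat_lit 76) (nat_lit 3574110582) (nat_lit 103) (nat_lit 5) (nat_lit 107) (nat_lit 5) (nat_lit 104) (nat_lit 5) (nat_lit 620) (nat_lit 492) (nat_lit 448))))) (XT.nd (nat_lit 156) (nat_lit 532)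 (nat_lit 0) (XT.nd (nat_lit 78) (nat_lit 304) (nat_lit 0) (XT.lf (nat_lit 0) (nat_lit 7251427095) (nat_lit 304) (nat_lit 3442212468) (nat_lit 380) (nat_lit 1168744643) (nat_lit 99) (nat_lit 5) (nat_lit 103) (nat_lit 5) (nat_lit 104) (nat_lit 5) (nat_lit 621) (nat_lit 492) (nat_lit 447)) (XT.lf (nat_lit 0) (nat_lit 3533085618) (nat_lit 304) (nat_lit 7063977123) (nat_lit 76) (nat_lit 1391428026) (nat_lit 95) (nat_lit 5) (nat_lit 99) (nat_lit 5) (nat_lit 96) (nat_lit 5) (nat_lit 622) (nat_lit 492) (nat_lit 446))) (XT.nd (nat_lit 78) (nat_lit 304) (nat_lit 0) (XT.lf (nat_lit 0) (nat_lit 2513137798) (nat_lit 228) (nat_lit 5820984650) (nat_lit 304) (nat_lit 3782426661) (nat_lit 92) (nat_lit 5) (nat_lit 95) (nat_lit 5) (nat_lit 96) (nat_lit 5) (nat_lit 623) (nat_lit 492) (nat_lit 445)) (XT.nd (nat_lit 77298) (nat_lit 0) (nat_lit 19228) (XT.lf (nat_lit 0) (nat_lit 39271242) (nat_lit 228) (nat_lit 930442632) (nat_lit 304) (nat_lit 11277355328) (nat_lit 88) (nat_lit 5) (nat_lit 91) (nat_lit 5) (nat_lit 92) (nat_lit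 5) (nat_lit 624) (nat_lit 492) (nat_lit 444)) (XT.lf (nat_lit 0) (nat_lit 1326587635) (nat_lit 760) (nat_lit 1263804907) (nat_lit 0) (nat_lit 1326587635) (nat_lit 341) (nat_lit 5) (nat_lit 351) (nat_lit 4) (nat_lit 341) (nat_lit 4) (nat_lit 574) (nat_lit 493) (nat_lit 493)))))) (XT.nd (nat_lit 390) (nat_lit 3192) (nat_lit 0) (XT.nd (nat_lit 156) (nat_lit 1368) (nat_lit 0) (XT.nd (nat_lit 78) (nat_lit 760) (nat_lit 0) (XT.lf (nat_lit 0) (nat_lit 3988830872) (nat_lit 684) (nat_lit 2594650209) (nat_lit 684) (nat_lit 1303108661) (nat_lit 332) (nat_lit 4) (nat_lit 341) (nat_lit 5) (nat_lit 341) (nat_lit 4) (nat_lit 575) (nat_lit 493) (nat_lit 492)) (XT.lf (nat_lit 0) (nat_lit 2583835099) (nat_lit 760) (nat_lit 5280535831) (nat_lit 0) (nat_lit 76228478) (nat_lit 322) (nat_lit 5) (nat_lit 332) (nat_lit 4) (nat_lit 322) (nat_lit 4) (nat_lit 576) (nat_lit 493) (nat_lit 491))) (XT.nd (nat_lit 78) (nat_lit 684) (nat_lit 0) (XT.lf (nat_lit 0) (nat_lit 1310333362) (nat_lit 684) (nat_lit 5205076925) (nat_lit 684) (nat_lit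 1480421857) (nat_lit 313) (nat_lit 4) (nat_lit 322) (nat_lit 5) (nat_lit 322) (nat_lit 4) (nat_lit 577) (nat_lit 493) (nat_lit 490)) (XT.nd (nat_lit 78) (nat_lit 608) (nat_lit 0) (XT.lf (nat_lit 0) (nat_lit 2409299863) (nat_lit 760) (nat_lit 51054096) (nat_lit 76) (nat_lit 5592130446) (nat_lit 312) (nat_lit 5) (nat_lit 322) (nat_lit 5) (nat_lit 313) (nat_lit 4) (nat_lit 578) (nat_lit 493) (nat_lit 489)) (XT.lf (nat_lit 0) (nat_lit 6336933870) (nat_lit 684) (nat_lit 1404872825) (nat_lit 0) (nat_lit 368670348) (nat_lit 304) (nat_lit 5) (nat_lit 313) (nat_lit 4) (nat_lit 304) (nat_lit 4) (nat_lit 579) (nat_lit 493) (nat_lit 488))))) (XT.nd (nat_lit 234) (nat_lit 1216) (nat_lit 0) (XT.nd (nat_lit 78) (nat_lit 1292) (nat_lit 0) (XT.lf (nat_lit 0) (nat_lit 2131117382) (nat_lit 684) (nat_lit 2787771051) (nat_lit 76) (nat_lit 3250738011) (nat_lit 295) (nat_lit 5) (nat_lit 304) (nat_lit 5) (nat_lit 296) (nat_lit 4) (nat_lit 580) (nat_lit 493) (nat_lit 487)) (XT.nd (nat_lit 78) (nat_lit 684) (nat_lit 0) (XT.lf (nat_lit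 0) (nat_lit 4047790053) (nat_lit 608) (nat_lit 2012970586) (nat_lit 684) (nat_lit 2169552739) (nat_lit 287) (nat_lit 5) (nat_lit 295) (nat_lit 5) (nat_lit 296) (nat_lit 4) (nat_lit 581) (nat_lit 493) (nat_lit 486)) (XT.lf (nat_lit 0) (nat_lit 1731334929) (nat_lit 684) (nat_lit 5596478571) (nat_lit 76) (nat_lit 964614412) (nat_lit 278) (nat_lit 5) (nat_lit 287) (nat_lit 5) (nat_lit 279) (nat_lit 4) (nat_lit 582) (nat_lit 493) (nat_lit 485)))) (XT.nd (nat_lit 78) (nat_lit 684) (nat_lit 0) (XT.lf (nat_lit 0) (nat_lit 1314888656) (nat_lit 532) (nat_lit 4352142490) (nat_lit 608) (nat_lit 2688751604) (nat_lit 271) (nat_lit 5) (nat_lit 278) (nat_lit 5) (nat_lit 279) (nat_lit 4) (nat_lit 583) (nat_lit 493) (nat_lit 484)) (XT.nd (nat_lit 78) (nat_lit 608) (nat_lit 0) (XT.lf (nat_lit 0) (nat_lit 1218265859) (nat_lit 608) (nat_lit 75953790) (nat_lit 76) (nat_lit 7126547514) (nat_lit 270) (nat_lit 5) (nat_lit 278) (nat_lit 5) (nat_lit 271) (nat_lit 5) (nat_lit 584) (nat_lit 493) (nat_lit 483)) (XT.lf (nat_lit 0) (nat_lit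 5162341071) (nat_lit 684) (nat_lit 1483139252) (nat_lit 76) (nat_lit 1841318647) (nat_lit 262) (nat_lit 5) (nat_lit 271) (nat_lit 5) (nat_lit 263) (nat_lit 4) (nat_lit 585) (nat_lit 493) (nat_lit 482))))))))
noncomputable def xc16 : XT := (XT.nd (nat_lit 1560) (nat_lit 4940) (nat_lit 0) (XT.nd (nat_lit 780) (nat_lit 3344) (nat_lit 0) (XT.nd (nat_lit 390) (nat_lit 2432) (nat_lit 0) (XT.nd (nat_lit 156) (nat_lit 1064) (nat_lit 0) (XT.nd (nat_lit 78) (nat_lit 532) (nat_lit 0) (XT.lf (nat_lit 0) (nat_lit 606265715) (nat_lit 608) (nat_lit 2908186971) (nat_lit 76) (nat_lit 5039950328) (nat_lit 254) (nat_lit 5) (nat_lit 262) (nat_lit 5) (nat_lit 255) (nat_lit 5) (nat_lit 586) (nat_lit 493) (nat_lit 481)) (XT.lf (nat_lit 0) (nat_lit 4261660178) (nat_lit 532) (nat_lit 285147281) (nat_lit 608) (nat_lit 4076599289) (nat_lit 247) (nat_lit 5) (nat_lit 254) (nat_lit 5) (nat_lit 255) (nat_lit 5) (nat_lit 587) (nat_lit 493) (nat_lit 480))) (XT.nd (nat_lit 78) (nat_lit 608) (nat_lit 0) (XT.lf (nat_lit 0) (nat_lit 2850908483)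 (nat_lit 456) (nat_lit 5711418210) (nat_lit 532) (nat_lit 131541966) (nat_lit 241) (nat_lit 5) (nat_lit 247) (nat_lit 5) (nat_lit 248) (nat_lit 4) (nat_lit 588) (nat_lit 493) (nat_lit 479)) (XT.nd (nat_lit 78) (nat_lit 0) (nat_lit 0) (XT.lf (nat_lit 0) (nat_lit 1404876115) (nat_lit 532) (nat_lit 2415676881) (nat_lit 608) (nat_lit 4945099028) (nat_lit 233) (nat_lit 5) (nat_lit 240) (nat_lit 5) (nat_lit 241) (nat_lit 5) (nat_lit 589) (nat_lit 493) (nat_lit 478)) (XT.lf (nat_lit 0) (nat_lit 7834714641) (nat_lit 608) (nat_lit 56931054) (nat_lit 76) (nat_lit 947513602) (nat_lit 233) (nat_lit 5) (nat_lit 241) (nat_lit 5) (nat_lit 234) (nat_lit 4) (nat_lit 590) (nat_lit 493) (nat_lit 477))))) (XT.nd (nat_lit 156) (nat_lit 1444) (nat_lit 0) (XT.nd (nat_lit 78) (nat_lit 456) (nat_lit 0) (XT.lf (nat_lit 0) (nat_lit 2979834060) (nat_lit 532) (nat_lit 1546488085) (nat_lit 76) (nat_lit 4387337286) (nat_lit 226) (nat_lit 5) (nat_lit 233) (nat_lit 5) (nat_lit 227) (nat_lit 5) (nat_lit 591) (nat_lit 493) (nat_lit 476))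 (XT.lf (nat_lit 0) (nat_lit 5935141860) (nat_lit 456) (nat_lit 1074723072) (nat_lit 532) (nat_lit 1980062800) (nat_lit 220) (nat_lit 5) (nat_lit 226) (nat_lit 5) (nat_lit 227) (nat_lit 5) (nat_lit 592) (nat_lit 493) (nat_lit 475))) (XT.nd (nat_lit 78) (nat_lit 912) (nat_lit 0) (XT.lf (nat_lit 0) (nat_lit 2022220110) (nat_lit 532) (nat_lit 4605857276) (nat_lit 76) (nat_lit 2439451329) (nat_lit 213) (nat_lit 5) (nat_lit 220) (nat_lit 5) (nat_lit 214) (nat_lit 5) (nat_lit 593) (nat_lit 493) (nat_lit 474)) (XT.nd (nat_lit 78) (nat_lit 456) (nat_lit 0) (XT.lf (nat_lit 0) (nat_lit 2954411973) (nat_lit 456) (nat_lit 3111797641) (nat_lit 532) (nat_lit 3080448062) (nat_lit 207) (nat_lit 5) (nat_lit 213) (nat_lit 5) (nat_lit 214) (nat_lit 5) (nat_lit 594) (nat_lit 493) (nat_lit 473)) (XT.lf (nat_lit 0) (nat_lit 936059904) (nat_lit 456) (nat_lit 7804769103) (nat_lit 76) (nat_lit 486716436) (nat_lit 201) (nat_lit 5) (nat_lit 207) (nat_lit 5) (nat_lit 202) (nat_lit 5) (nat_lit 595) (nat_lit 493) (nat_lit 472)))))) (XT.nd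 (nat_lit 390) (nat_lit 1596) (nat_lit 0) (XT.nd (nat_lit 156) (nat_lit 1292) (nat_lit 0) (XT.nd (nat_lit 78) (nat_lit 456) (nat_lit 0) (XT.lf (nat_lit 0) (nat_lit 4995934956) (nat_lit 456) (nat_lit 164628976) (nat_lit 76) (nat_lit 4148995248) (nat_lit 201) (nat_lit 5) (nat_lit 207) (nat_lit 5) (nat_lit 202) (nat_lit 5) (nat_lit 596) (nat_lit 493) (nat_lit 471)) (XT.lf (nat_lit 0) (nat_lit 7642108257) (nat_lit 456) (nat_lit 1487467104) (nat_lit 532) (nat_lit 263787585) (nat_lit 195) (nat_lit 5) (nat_lit 201) (nat_lit 5) (nat_lit 202) (nat_lit 5) (nat_lit 597) (nat_lit 493) (nat_lit 470))) (XT.nd (nat_lit 78) (nat_lit 836) (nat_lit 0) (XT.lf (nat_lit 0) (nat_lit 3815070379) (nat_lit 456) (nat_lit 3396962041) (nat_lit 76) (nat_lit 2266334453) (nat_lit 189) (nat_lit 5) (nat_lit 195) (nat_lit 5) (nat_lit 190) (nat_lit 5) (nat_lit 598) (nat_lit 493) (nat_lit 469)) (XT.nd (nat_lit 78) (nat_lit 456) (nat_lit 0) (XT.lf (nat_lit 0) (nat_lit 4489844357) (nat_lit 380) (nat_lit 3476463156) (nat_lit 456) (nat_lit 1598842859)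 (nat_lit 184) (nat_lit 5) (nat_lit 189) (nat_lit 5) (nat_lit 190) (nat_lit 5) (nat_lit 599) (nat_lit 493) (nat_lit 468)) (XT.lf (nat_lit 0) (nat_lit 2501044169) (nat_lit 456) (nat_lit 6795096509) (nat_lit 76) (nat_lit 357448198) (nat_lit 178) (nat_lit 5) (nat_lit 184) (nat_lit 5) (nat_lit 179) (nat_lit 5) (nat_lit 600) (nat_lit 493) (nat_lit 467))))) (XT.nd (nat_lit 156) (nat_lit 1140) (nat_lit 0) (XT.nd (nat_lit 78) (nat_lit 76) (nat_lit 0) (XT.lf (nat_lit 0) (nat_lit 1170659293) (nat_lit 380) (nat_lit 5499805085) (nat_lit 456) (nat_lit 3072942512) (nat_lit 173) (nat_lit 5) (nat_lit 178) (nat_lit 5) (nat_lit 179) (nat_lit 5) (nat_lit 601) (nat_lit 493) (nat_lit 466)) (XT.lf (nat_lit 0) (nat_lit 1064061667) (nat_lit 456) (nat_lit 541310533) (nat_lit 76) (nat_lit 8229707050) (nat_lit 172) (nat_lit 5) (nat_lit 178) (nat_lit 5) (nat_lit 173) (nat_lit 5) (nat_lit 602) (nat_lit 493) (nat_lit 465))) (XT.nd (nat_lit 78) (nat_lit 760) (nat_lit 0) (XT.lf (nat_lit 0) (nat_lit 5253237129) (nat_lit 456) (nat_lit 2299196895)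 (nat_lit 76) (nat_lit 2375534159) (nat_lit 167) (nat_lit 5) (nat_lit 173) (nat_lit 5) (nat_lit 168) (nat_lit 5) (nat_lit 603) (nat_lit 493) (nat_lit 464)) (XT.nd (nat_lit 78) (nat_lit 380) (nat_lit 0) (XT.lf (nat_lit 0) (nat_lit 5927767054) (nat_lit 380) (nat_lit 3596796708) (nat_lit 456) (nat_lit 498184693) (nat_lit 162) (nat_lit 5) (nat_lit 167) (nat_lit 5) (nat_lit 168) (nat_lit 5) (nat_lit 604) (nat_lit 493) (nat_lit 463)) (XT.lf (nat_lit 0) (nat_lit 3704017203) (nat_lit 380) (nat_lit 5947121829) (nat_lit 76) (nat_lit 467968431) (nat_lit 157) (nat_lit 5) (nat_lit 162) (nat_lit 5) (nat_lit 158) (nat_lit 5) (nat_lit 605) (nat_lit 493) (nat_lit 462))))))) (XT.nd (nat_lit 780) (nat_lit 2052) (nat_lit 0) (XT.nd (nat_lit 390) (nat_lit 1368) (nat_lit 0) (XT.nd (nat_lit 156) (nat_lit 760) (nat_lit 0) (XT.nd (nat_lit 78) (nat_lit 380) (nat_lit 0) (XT.lf (nat_lit 0) (nat_lit 2359881486) (nat_lit 380) (nat_lit 5636563413) (nat_lit 456) (nat_lit 2220626702) (nat_lit 152) (nat_lit 5) (nat_lit 157) (nat_lit 5) (nat_lit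 158) (nat_lit 5) (nat_lit 606) (nat_lit 493) (nat_lit 461)) (XT.lf (nat_lit 0) (nat_lit 503552944) (nat_lit 304) (nat_lit 1516814492) (nat_lit 380) (nat_lit 8296568633) (nat_lit 147) (nat_lit 5) (nat_lit 151) (nat_lit 5) (nat_lit 152) (nat_lit 5) (nat_lit 607) (nat_lit 493) (nat_lit 460))) (XT.nd (nat_lit 78) (nat_lit 760) (nat_lit 0) (XT.lf (nat_lit 0) (nat_lit 6333452539) (nat_lit 380) (nat_lit 1399367598) (nat_lit 76) (nat_lit 2685344827) (nat_lit 147) (nat_lit 5) (nat_lit 152) (nat_lit 5) (nat_lit 148) (nat_lit 5) (nat_lit 608) (nat_lit 493) (nat_lit 459)) (XT.nd (nat_lit 78) (nat_lit 304) (nat_lit 0) (XT.lf (nat_lit 0) (nat_lit 212825738) (nat_lit 456) (nat_lit 3341106461) (nat_lit 76) (nat_lit 6967375224) (nat_lit 141) (nat_lit 5) (nat_lit 147) (nat_lit 5) (nat_lit 142) (nat_lit 5) (nat_lit 609) (nat_lit 493) (nat_lit 458)) (XT.lf (nat_lit 0) (nat_lit 4537912422) (nat_lit 380) (nat_lit 5350427605) (nat_lit 76) (nat_lit 737707627) (nat_lit 137) (nat_lit 5) (nat_lit 142) (nat_lit 5) (nat_lit 138) (nat_lit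 5) (nat_lit 610) (nat_lit 493) (nat_lit 457))))) (XT.nd (nat_lit 156) (nat_lit 684) (nat_lit 0) (XT.nd (nat_lit 78) (nat_lit 380) (nat_lit 0) (XT.lf (nat_lit 0) (nat_lit 3311445356) (nat_lit 304) (nat_lit 5653569915) (nat_lit 380) (nat_lit 1767557877) (nat_lit 133) (nat_lit 5) (nat_lit 137) (nat_lit 5) (nat_lit 138) (nat_lit 5) (nat_lit 611) (nat_lit 493) (nat_lit 456)) (XT.lf (nat_lit 0) (nat_lit 1292180249) (nat_lit 304) (nat_lit 1305200255) (nat_lit 380) (nat_lit 8243655306) (nat_lit 128) (nat_lit 5) (nat_lit 132) (nat_lit 5) (nat_lit 133) (nat_lit 5) (nat_lit 612) (nat_lit 493) (nat_lit 455))) (XT.nd (nat_lit 78) (nat_lit 684) (nat_lit 0) (XT.lf (nat_lit 0) (nat_lit 7044703408) (nat_lit 380) (nat_lit 788888820) (nat_lit 76) (nat_lit 3117467464) (nat_lit 128) (nat_lit 5) (nat_lit 133) (nat_lit 5) (nat_lit 129) (nat_lit 5) (nat_lit 613) (nat_lit 493) (nat_lit 454)) (XT.nd (nat_lit 78) (nat_lit 304) (nat_lit 0) (XT.lf (nat_lit 0) (nat_lit 521888465) (nat_lit 380) (nat_lit 2906362765) (nat_lit 76) (nat_lit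 7634746488) (nat_lit 123) (nat_lit 5) (nat_lit 128) (nat_lit 5) (nat_lit 124) (nat_lit 5) (nat_lit 614) (nat_lit 493) (nat_lit 453)) (XT.lf (nat_lit 0) (nat_lit 4987842555) (nat_lit 380) (nat_lit 5099989957) (nat_lit 76) (nat_lit 1088797225) (nat_lit 119) (nat_lit 5) (nat_lit 124) (nat_lit 5) (nat_lit 120) (nat_lit 5) (nat_lit 615) (nat_lit 493) (nat_lit 452)))))) (XT.nd (nat_lit 390) (nat_lit 836) (nat_lit 0) (XT.nd (nat_lit 156) (nat_lit 608) (nat_lit 0) (XT.nd (nat_lit 78) (nat_lit 304) (nat_lit 0) (XT.lf (nat_lit 0) (nat_lit 3930408255) (nat_lit 304) (nat_lit 5630196695) (nat_lit 380) (nat_lit 1731580314) (nat_lit 115) (nat_lit 5) (nat_lit 119) (nat_lit 5) (nat_lit 120) (nat_lit 5) (nat_lit 616) (nat_lit 493) (nat_lit 451)) (XT.lf (nat_lit 0) (nat_lit 1720266599) (nat_lit 228) (nat_lit 1052950562) (nat_lit 304) (nat_lit 8636562603) (nat_lit 111) (nat_lit 5) (nat_lit 114) (nat_lit 5) (nat_lit 115) (nat_lit 5) (nat_lit 617) (nat_lit 493) (nat_lit 450))) (XT.nd (nat_lit 78) (nat_lit 608) (nat_lit 0) (XT.lf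 (nat_lit 0) (nat_lit 7368107473) (nat_lit 304) (nat_lit 565452322) (nat_lit 76) (nat_lit 3595474403) (nat_lit 111) (nat_lit 5) (nat_lit 115) (nat_lit 5) (nat_lit 112) (nat_lit 5) (nat_lit 618) (nat_lit 493) (nat_lit 449)) (XT.nd (nat_lit 78) (nat_lit 228) (nat_lit 0) (XT.lf (nat_lit 0) (nat_lit 413840360) (nat_lit 380) (nat_lit 2887536799) (nat_lit 76) (nat_lit 8348946263) (nat_lit 106) (nat_lit 5) (nat_lit 111) (nat_lit 5) (nat_lit 107) (nat_lit 5) (nat_lit 619) (nat_lit 493) (nat_lit 448)) (XT.lf (nat_lit 0) (nat_lit 5030907150) (nat_lit 304) (nat_lit 5297903214) (nat_lit 76) (nat_lit 1444548187) (nat_lit 103) (nat_lit 5) (nat_lit 107) (nat_lit 5) (nat_lit 104) (nat_lit 5) (nat_lit 620) (nat_lit 493) (nat_lit 447))))) (XT.nd (nat_lit 156) (nat_lit 228) (nat_lit 0) (XT.nd (nat_lit 78) (nat_lit 304) (nat_lit 0) (XT.lf (nat_lit 0) (nat_lit 4114539238) (nat_lit 304) (nat_lit 5645093532) (nat_lit 380) (nat_lit 2138835829) (nat_lit 99) (nat_lit 5) (nat_lit 103) (nat_lit 5) (nat_lit 104) (nat_lit 5) (nat_lit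 621) (nat_lit 493) (nat_lit 446)) (XT.lf (nat_lit 0) (nat_lit 1683002177) (nat_lit 228) (nat_lit 838360013) (nat_lit 304) (nat_lit 9504426313) (nat_lit 95) (nat_lit 5) (nat_lit 98) (nat_lit 5) (nat_lit 99) (nat_lit 5) (nat_lit 622) (nat_lit 493) (nat_lit 445))) (XT.nd (nat_lit 78) (nat_lit 228) (nat_lit 0) (XT.lf (nat_lit 0) (nat_lit 7276636201) (nat_lit 304) (nat_lit 834819869) (nat_lit 76) (nat_lit 4043306294) (nat_lit 95) (nat_lit 5) (nat_lit 99) (nat_lit 5) (nat_lit 96) (nat_lit 5) (nat_lit 623) (nat_lit 493) (nat_lit 444)) (XT.nd (nat_lit 77142) (nat_lit 0) (nat_lit 19684) (XT.lf (nat_lit 0) (nat_lit 8891926582) (nat_lit 228) (nat_lit 3250838744) (nat_lit 304) (nat_lit 143235905) (nat_lit 92) (nat_lit 5) (nat_lit 95) (nat_lit 5) (nat_lit 96) (nat_lit 5) (nat_lit 624) (nat_lit 493) (nat_lit 443)) (XT.lf (nat_lit 0) (nat_lit 113462057) (nat_lit 760) (nat_lit 1876307815) (nat_lit 760) (nat_lit 1876307815) (nat_lit 351) (nat_lit 4) (nat_lit 361) (nat_lit 5) (nat_lit 361) (nat_lit 4) (nat_lit 572) (nat_lit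 494) (nat_lit 494))))))))
noncomputable def xc17 : XT := (XT.nd (nat_lit 1560) (nat_lit 6992) (nat_lit 0) (XT.nd (nat_lit 780) (nat_lit 4408) (nat_lit 0) (XT.nd (nat_lit 390) (nat_lit 2660) (nat_lit 0) (XT.nd (nat_lit 156) (nat_lit 2128) (nat_lit 0) (XT.nd (nat_lit 78) (nat_lit 684) (nat_lit 0) (XT.lf (nat_lit 0) (nat_lit 91154357) (nat_lit 836) (nat_lit 1159588025) (nat_lit 76) (nat_lit 6532145629) (nat_lit 350) (nat_lit 5) (nat_lit 361) (nat_lit 5) (nat_lit 351) (nat_lit 4) (nat_lit 573) (nat_lit 494) (nat_lit 493)) (XT.lf (nat_lit 0) (nat_lit 3936542935) (nat_lit 760) (nat_lit 2570469542) (nat_lit 0) (nat_lit 1327629007) (nat_lit 341) (nat_lit 5) (nat_lit 351) (nat_lit 4) (nat_lit 341) (nat_lit 4) (nat_lit 574) (nat_lit 494) (nat_lit 492))) (XT.nd (nat_lit 78) (nat_lit 1444) (nat_lit 0) (XT.lf (nat_lit 0) (nat_lit 3902823805) (nat_lit 684) (nat_lit 3930128572) (nat_lit 684) (nat_lit 54997439) (nat_lit 332) (nat_lit 4) (nat_lit 341) (nat_lit 5) (nat_lit 341) (nat_lit 4) (nat_lit 575) (nat_lit 494) (nat_lit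 491)) (XT.nd (nat_lit 78) (nat_lit 684) (nat_lit 0) (XT.lf (nat_lit 0) (nat_lit 2521090288) (nat_lit 684) (nat_lit 1259905175) (nat_lit 760) (nat_lit 4161494557) (nat_lit 322) (nat_lit 5) (nat_lit 331) (nat_lit 5) (nat_lit 332) (nat_lit 4) (nat_lit 576) (nat_lit 494) (nat_lit 490)) (XT.lf (nat_lit 0) (nat_lit 1132816494) (nat_lit 684) (nat_lit 6537566174) (nat_lit 684) (nat_lit 328184805) (nat_lit 313) (nat_lit 4) (nat_lit 322) (nat_lit 5) (nat_lit 322) (nat_lit 4) (nat_lit 577) (nat_lit 494) (nat_lit 489))))) (XT.nd (nat_lit 156) (nat_lit 1976) (nat_lit 0) (XT.nd (nat_lit 78) (nat_lit 608) (nat_lit 0) (XT.lf (nat_lit 0) (nat_lit 3513723839) (nat_lit 760) (nat_lit 281448186) (nat_lit 76) (nat_lit 4260553033) (nat_lit 312) (nat_lit 5) (nat_lit 322) (nat_lit 5) (nat_lit 313) (nat_lit 4) (nat_lit 578) (nat_lit 494) (nat_lit 488)) (XT.lf (nat_lit 0) (nat_lit 6432242142) (nat_lit 608) (nat_lit 972839252) (nat_lit 684) (nat_lit 709362733) (nat_lit 304) (nat_lit 5) (nat_lit 312) (nat_lit 5) (nat_lit 313) (nat_lit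 4) (nat_lit 579) (nat_lit 494) (nat_lit 487))) (XT.nd (nat_lit 78) (nat_lit 1292) (nat_lit 0) (XT.lf (nat_lit 0) (nat_lit 3140932636) (nat_lit 684) (nat_lit 3116479717) (nat_lit 76) (nat_lit 1916852020) (nat_lit 295) (nat_lit 5) (nat_lit 304) (nat_lit 5) (nat_lit 296) (nat_lit 4) (nat_lit 580) (nat_lit 494) (nat_lit 486)) (XT.nd (nat_lit 78) (nat_lit 684) (nat_lit 0) (XT.lf (nat_lit 0) (nat_lit 3671887230) (nat_lit 608) (nat_lit 3364625178) (nat_lit 684) (nat_lit 1199121019) (nat_lit 287) (nat_lit 5) (nat_lit 295) (nat_lit 5) (nat_lit 296) (nat_lit 4) (nat_lit 581) (nat_lit 494) (nat_lit 485)) (XT.lf (nat_lit 0) (nat_lit 2266780040) (nat_lit 608) (nat_lit 381601230) (nat_lit 684) (nat_lit 5650054655) (nat_lit 278) (nat_lit 5) (nat_lit 286) (nat_lit 5) (nat_lit 287) (nat_lit 5) (nat_lit 582) (nat_lit 494) (nat_lit 484)))))) (XT.nd (nat_lit 390) (nat_lit 2052) (nat_lit 0) (XT.nd (nat_lit 156) (nat_lit 1748) (nat_lit 0) (XT.nd (nat_lit 78) (nat_lit 76) (nat_lit 0) (XT.lf (nat_lit 0) (nat_lit 833192861) (nat_lit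 532) (nat_lit 5714068640) (nat_lit 608) (nat_lit 1815266383) (nat_lit 271) (nat_lit 5) (nat_lit 278) (nat_lit 5) (nat_lit 279) (nat_lit 4) (nat_lit 583) (nat_lit 494) (nat_lit 483)) (XT.lf (nat_lit 0) (nat_lit 2049215739) (nat_lit 608) (nat_lit 612877545) (nat_lit 76) (nat_lit 5765927946) (nat_lit 270) (nat_lit 5) (nat_lit 278) (nat_lit 5) (nat_lit 271) (nat_lit 5) (nat_lit 584) (nat_lit 494) (nat_lit 482))) (XT.nd (nat_lit 78) (nat_lit 1140) (nat_lit 0) (XT.lf (nat_lit 0) (nat_lit 5950031357) (nat_lit 684) (nat_lit 2068687717) (nat_lit 76) (nat_lit 476199911) (nat_lit 262) (nat_lit 5) (nat_lit 271) (nat_lit 5) (nat_lit 263) (nat_lit 4) (nat_lit 585) (nat_lit 494) (nat_lit 481)) (XT.nd (nat_lit 78) (nat_lit 532) (nat_lit 0) (XT.lf (nat_lit 0) (nat_lit 1341035193) (nat_lit 608) (nat_lit 3557944545) (nat_lit 76) (nat_lit 3664134317) (nat_lit 254) (nat_lit 5) (nat_lit 262) (nat_lit 5) (nat_lit 255) (nat_lit 5) (nat_lit 586) (nat_lit 494) (nat_lit 480)) (XT.lf (nat_lit 0) (nat_lit 3560357399) (nat_lit 532) (nat_lit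 1686569369) (nat_lit 608) (nat_lit 3385884737) (nat_lit 247) (nat_lit 5) (nat_lit 254) (nat_lit 5) (nat_lit 255) (nat_lit 5) (nat_lit 587) (nat_lit 494) (nat_lit 479))))) (XT.nd (nat_lit 156) (nat_lit 988) (nat_lit 0) (XT.nd (nat_lit 78) (nat_lit 532) (nat_lit 0) (XT.lf (nat_lit 0) (nat_lit 507693205) (nat_lit 532) (nat_lit 6610666728) (nat_lit 76) (nat_lit 1585724472) (nat_lit 240) (nat_lit 5) (nat_lit 247) (nat_lit 5) (nat_lit 241) (nat_lit 5) (nat_lit 588) (nat_lit 494) (nat_lit 478)) (XT.lf (nat_lit 0) (nat_lit 582833066) (nat_lit 532) (nat_lit 3840147463) (nat_lit 608) (nat_lit 4353572477) (nat_lit 233) (nat_lit 5) (nat_lit 240) (nat_lit 5) (nat_lit 241) (nat_lit 5) (nat_lit 589) (nat_lit 494) (nat_lit 477))) (XT.nd (nat_lit 78) (nat_lit 988) (nat_lit 0) (XT.lf (nat_lit 0) (nat_lit 7924123240) (nat_lit 532) (nat_lit 477347917) (nat_lit 608) (nat_lit 449303200) (nat_lit 233) (nat_lit 5) (nat_lit 240) (nat_lit 5) (nat_lit 241) (nat_lit 5) (nat_lit 590) (nat_lit 494) (nat_lit 476)) (XT.nd (nat_lit 78)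 (nat_lit 456) (nat_lit 0) (XT.lf (nat_lit 0) (nat_lit 3489421918) (nat_lit 532) (nat_lit 2482997465) (nat_lit 76) (nat_lit 2953549109) (nat_lit 226) (nat_lit 5) (nat_lit 233) (nat_lit 5) (nat_lit 227) (nat_lit 5) (nat_lit 591) (nat_lit 494) (nat_lit 475)) (XT.lf (nat_lit 0) (nat_lit 4943435383) (nat_lit 456) (nat_lit 2540741511) (nat_lit 532) (nat_lit 1518766037) (nat_lit 220) (nat_lit 5) (nat_lit 226) (nat_lit 5) (nat_lit 227) (nat_lit 5) (nat_lit 592) (nat_lit 494) (nat_lit 474))))))) (XT.nd (nat_lit 780) (nat_lit 3344) (nat_lit 0) (XT.nd (nat_lit 390) (nat_lit 1748) (nat_lit 0) (XT.nd (nat_lit 156) (nat_lit 912) (nat_lit 0) (XT.nd (nat_lit 78) (nat_lit 456) (nat_lit 0) (XT.lf (nat_lit 0) (nat_lit 2432193169) (nat_lit 532) (nat_lit 5673860061) (nat_lit 76) (nat_lit 975336852) (nat_lit 213) (nat_lit 5) (nat_lit 220) (nat_lit 5) (nat_lit 214) (nat_lit 5) (nat_lit 593) (nat_lit 494) (nat_lit 473)) (XT.lf (nat_lit 0) (nat_lit 1829152599) (nat_lit 456) (nat_lit 4611193199) (nat_lit 532) (nat_lit 2720890567)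 (nat_lit 207) (nat_lit 5) (nat_lit 213) (nat_lit 5) (nat_lit 214) (nat_lit 5) (nat_lit 594) (nat_lit 494) (nat_lit 472))) (XT.nd (nat_lit 78) (nat_lit 456) (nat_lit 0) (XT.lf (nat_lit 0) (nat_lit 225527507) (nat_lit 380) (nat_lit 1025944358) (nat_lit 456) (nat_lit 7991394734) (nat_lit 201) (nat_lit 5) (nat_lit 206) (nat_lit 5) (nat_lit 207) (nat_lit 5) (nat_lit 595) (nat_lit 494) (nat_lit 471)) (XT.nd (nat_lit 78) (nat_lit 456) (nat_lit 0) (XT.lf (nat_lit 0) (nat_lit 5276443340) (nat_lit 456) (nat_lit 1413326627) (nat_lit 76) (nat_lit 2635808992) (nat_lit 201) (nat_lit 5) (nat_lit 207) (nat_lit 5) (nat_lit 202) (nat_lit 5) (nat_lit 596) (nat_lit 494) (nat_lit 470)) (XT.lf (nat_lit 0) (nat_lit 6334308805) (nat_lit 456) (nat_lit 3039595146) (nat_lit 532) (nat_lit 36202908) (nat_lit 195) (nat_lit 5) (nat_lit 201) (nat_lit 5) (nat_lit 202) (nat_lit 5) (nat_lit 597) (nat_lit 494) (nat_lit 469))))) (XT.nd (nat_lit 156) (nat_lit 912) (nat_lit 0) (XT.nd (nat_lit 78) (nat_lit 380) (nat_lit 0) (XT.lf (nat_lit 0) (nat_lit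 3992850360) (nat_lit 456) (nat_lit 4790430760) (nat_lit 76) (nat_lit 712737030) (nat_lit 189) (nat_lit 5) (nat_lit 195) (nat_lit 5) (nat_lit 190) (nat_lit 5) (nat_lit 598) (nat_lit 494) (nat_lit 468)) (XT.lf (nat_lit 0) (nat_lit 3035078279) (nat_lit 380) (nat_lit 5072141726) (nat_lit 456) (nat_lit 1476319502) (nat_lit 184) (nat_lit 5) (nat_lit 189) (nat_lit 5) (nat_lit 190) (nat_lit 5) (nat_lit 599) (nat_lit 494) (nat_lit 467))) (XT.nd (nat_lit 78) (nat_lit 456) (nat_lit 0) (XT.lf (nat_lit 0) (nat_lit 1324486216) (nat_lit 380) (nat_lit 1257810268) (nat_lit 456) (nat_lit 7090459388) (nat_lit 178) (nat_lit 5) (nat_lit 183) (nat_lit 5) (nat_lit 184) (nat_lit 5) (nat_lit 600) (nat_lit 494) (nat_lit 466)) (XT.nd (nat_lit 78) (nat_lit 456) (nat_lit 0) (XT.lf (nat_lit 0) (nat_lit 6708778413) (nat_lit 456) (nat_lit 432171165) (nat_lit 76) (nat_lit 2622483553) (nat_lit 178) (nat_lit 5) (nat_lit 184) (nat_lit 5) (nat_lit 179) (nat_lit 5) (nat_lit 601) (nat_lit 494) (nat_lit 465)) (XT.lf (nat_lit 0) (nat_lit 1052156651)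 (nat_lit 456) (nat_lit 2212618848) (nat_lit 76) (nat_lit 6590927135) (nat_lit 172) (nat_lit 5) (nat_lit 178) (nat_lit 5) (nat_lit 173) (nat_lit 5) (nat_lit 602) (nat_lit 494) (nat_lit 464)))))) (XT.nd (nat_lit 390) (nat_lit 1748) (nat_lit 0) (XT.nd (nat_lit 156) (nat_lit 836) (nat_lit 0) (XT.nd (nat_lit 78) (nat_lit 380) (nat_lit 0) (XT.lf (nat_lit 0) (nat_lit 5192555507) (nat_lit 456) (nat_lit 4045421024) (nat_lit 76) (nat_lit 711591021) (nat_lit 167) (nat_lit 5) (nat_lit 173) (nat_lit 5) (nat_lit 168) (nat_lit 5) (nat_lit 603) (nat_lit 494) (nat_lit 463)) (XT.lf (nat_lit 0) (nat_lit 4115909026) (nat_lit 380) (nat_lit 5309803063) (nat_lit 456) (nat_lit 619399577) (nat_lit 162) (nat_lit 5) (nat_lit 167) (nat_lit 5) (nat_lit 168) (nat_lit 5) (nat_lit 604) (nat_lit 494) (nat_lit 462))) (XT.nd (nat_lit 78) (nat_lit 456) (nat_lit 0) (XT.lf (nat_lit 0) (nat_lit 2274822946) (nat_lit 304) (nat_lit 1267820133) (nat_lit 380) (nat_lit 6599678740) (nat_lit 157) (nat_lit 5) (nat_lit 161) (nat_lit 5) (nat_lit 162) (nat_lit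 5) (nat_lit 605) (nat_lit 494) (nat_lit 461)) (XT.nd (nat_lit 78) (nat_lit 76) (nat_lit 0) (XT.lf (nat_lit 0) (nat_lit 379674234) (nat_lit 380) (nat_lit 7408120556) (nat_lit 456) (nat_lit 2453437103) (nat_lit 152) (nat_lit 5) (nat_lit 157) (nat_lit 5) (nat_lit 158) (nat_lit 5) (nat_lit 606) (nat_lit 494) (nat_lit 460)) (XT.lf (nat_lit 0) (nat_lit 1761223120) (nat_lit 456) (nat_lit 1548068768) (nat_lit 76) (nat_lit 7032422852) (nat_lit 151) (nat_lit 5) (nat_lit 157) (nat_lit 5) (nat_lit 152) (nat_lit 5) (nat_lit 607) (nat_lit 494) (nat_lit 459))))) (XT.nd (nat_lit 234) (nat_lit 684) (nat_lit 0) (XT.nd (nat_lit 78) (nat_lit 760) (nat_lit 0) (XT.lf (nat_lit 0) (nat_lit 6026436543) (nat_lit 380) (nat_lit 3527137477) (nat_lit 76) (nat_lit 890327440) (nat_lit 147) (nat_lit 5) (nat_lit 152) (nat_lit 5) (nat_lit 148) (nat_lit 5) (nat_lit 608) (nat_lit 494) (nat_lit 458)) (XT.nd (nat_lit 78) (nat_lit 380) (nat_lit 0) (XT.lf (nat_lit 0) (nat_lit 4983562407) (nat_lit 380) (nat_lit 5406667624) (nat_lit 456) (nat_lit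 157637146) (nat_lit 142) (nat_lit 5) (nat_lit 147) (nat_lit 5) (nat_lit 148) (nat_lit 5) (nat_lit 609) (nat_lit 494) (nat_lit 457)) (XT.lf (nat_lit 0) (nat_lit 2986778120) (nat_lit 304) (nat_lit 1137584979) (nat_lit 380) (nat_lit 6529168226) (nat_lit 137) (nat_lit 5) (nat_lit 141) (nat_lit 5) (nat_lit 142) (nat_lit 5) (nat_lit 610) (nat_lit 494) (nat_lit 456)))) (XT.nd (nat_lit 78) (nat_lit 380) (nat_lit 0) (XT.lf (nat_lit 0) (nat_lit 929607227) (nat_lit 304) (nat_lit 7573726451) (nat_lit 380) (nat_lit 2257686149) (nat_lit 133) (nat_lit 5) (nat_lit 137) (nat_lit 5) (nat_lit 138) (nat_lit 5) (nat_lit 611) (nat_lit 494) (nat_lit 455)) (XT.nd (nat_lit 78) (nat_lit 304) (nat_lit 0) (XT.lf (nat_lit 0) (nat_lit 2080069559) (nat_lit 380) (nat_lit 1173591191) (nat_lit 76) (nat_lit 7616557950) (nat_lit 132) (nat_lit 5) (nat_lit 137) (nat_lit 5) (nat_lit 133) (nat_lit 5) (nat_lit 612) (nat_lit 494) (nat_lit 454)) (XT.lf (nat_lit 0) (nat_lit 6481867150) (nat_lit 380) (nat_lit 3328732797) (nat_lit 76) (nat_lit 1170553482)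 (nat_lit 128) (nat_lit 5) (nat_lit 133) (nat_lit 5) (nat_lit 129) (nat_lit 5) (nat_lit 613) (nat_lit 494) (nat_lit 453))))))))
noncomputable def xc18 : XT := (XT.nd (nat_lit 78468) (nat_lit 0) (nat_lit 6992) (XT.nd (nat_lit 780) (nat_lit 228) (nat_lit 0) (XT.nd (nat_lit 390) (nat_lit 1216) (nat_lit 0) (XT.nd (nat_lit 156) (nat_lit 608) (nat_lit 0) (XT.nd (nat_lit 78) (nat_lit 380) (nat_lit 0) (XT.lf (nat_lit 0) (nat_lit 5544974552) (nat_lit 304) (nat_lit 5442490014) (nat_lit 380) (nat_lit 106527687) (nat_lit 124) (nat_lit 5) (nat_lit 128) (nat_lit 5) (nat_lit 129) (nat_lit 5) (nat_lit 614) (nat_lit 494) (nat_lit 452)) (XT.lf (nat_lit 0) (nat_lit 3365249692) (nat_lit 304) (nat_lit 946204949) (nat_lit 380) (nat_lit 6897171164) (nat_lit 119) (nat_lit 5) (nat_lit 123) (nat_lit 5) (nat_lit 124) (nat_lit 5) (nat_lit 615) (nat_lit 494) (nat_lit 451))) (XT.nd (nat_lit 78) (nat_lit 304) (nat_lit 0) (XT.lf (nat_lit 0) (nat_lit 1115054715) (nat_lit 304) (nat_lit 7720295201) (nat_lit 380) (nat_lit 2489809073) (nat_lit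 115) (nat_lit 5) (nat_lit 119) (nat_lit 5) (nat_lit 120) (nat_lit 5) (nat_lit 616) (nat_lit 494) (nat_lit 450)) (XT.nd (nat_lit 78) (nat_lit 228) (nat_lit 0) (XT.lf (nat_lit 0) (nat_lit 1989371886) (nat_lit 380) (nat_lit 1186939744) (nat_lit 76) (nat_lit 8267251839) (nat_lit 114) (nat_lit 5) (nat_lit 119) (nat_lit 5) (nat_lit 115) (nat_lit 5) (nat_lit 617) (nat_lit 494) (nat_lit 449)) (XT.lf (nat_lit 0) (nat_lit 6538326950) (nat_lit 304) (nat_lit 3549878324) (nat_lit 76) (nat_lit 1475531631) (nat_lit 111) (nat_lit 5) (nat_lit 115) (nat_lit 5) (nat_lit 112) (nat_lit 5) (nat_lit 618) (nat_lit 494) (nat_lit 448))))) (XT.nd (nat_lit 156) (nat_lit 608) (nat_lit 0) (XT.nd (nat_lit 78) (nat_lit 304) (nat_lit 0) (XT.lf (nat_lit 0) (nat_lit 5700404304) (nat_lit 304) (nat_lit 5495819877) (nat_lit 380) (nat_lit 489730959) (nat_lit 107) (nat_lit 5) (nat_lit 111) (nat_lit 5) (nat_lit 112) (nat_lit 5) (nat_lit 619) (nat_lit 494) (nat_lit 447)) (XT.lf (nat_lit 0) (nat_lit 3308063889) (nat_lit 228) (nat_lit 771800143) (nat_lit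 304) (nat_lit 7730268003) (nat_lit 103) (nat_lit 5) (nat_lit 106) (nat_lit 5) (nat_lit 107) (nat_lit 5) (nat_lit 620) (nat_lit 494) (nat_lit 446))) (XT.nd (nat_lit 78) (nat_lit 304) (nat_lit 0) (XT.lf (nat_lit 0) (nat_lit 831651300) (nat_lit 304) (nat_lit 7926944670) (nat_lit 380) (nat_lit 3177646262) (nat_lit 99) (nat_lit 5) (nat_lit 103) (nat_lit 5) (nat_lit 104) (nat_lit 5) (nat_lit 621) (nat_lit 494) (nat_lit 445)) (XT.nd (nat_lit 78) (nat_lit 228) (nat_lit 0) (XT.lf (nat_lit 0) (nat_lit 1461626850) (nat_lit 380) (nat_lit 1693712566) (nat_lit 76) (nat_lit 8909048859) (nat_lit 98) (nat_lit 5) (nat_lit 103) (nat_lit 5) (nat_lit 99) (nat_lit 5) (nat_lit 622) (nat_lit 494) (nat_lit 444)) (XT.lf (nat_lit 0) (nat_lit 6167108823) (nat_lit 304) (nat_lit 4298563727) (nat_lit 76) (nat_lit 1728685685) (nat_lit 95) (nat_lit 5) (nat_lit 99) (nat_lit 5) (nat_lit 96) (nat_lit 5) (nat_lit 623) (nat_lit 494) (nat_lit 443)))))) (XT.nd (nat_lit 77298) (nat_lit 0) (nat_lit 16720) (XT.nd (nat_lit 77064) (nat_lit 0) (nat_lit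 19608) (XT.nd (nat_lit 76986) (nat_lit 0) (nat_lit 21280) (XT.lf (nat_lit 0) (nat_lit 5341604813) (nat_lit 228) (nat_lit 5645511472) (nat_lit 304) (nat_lit 1339403506) (nat_lit 92) (nat_lit 5) (nat_lit 95) (nat_lit 5) (nat_lit 96) (nat_lit 5) (nat_lit 624) (nat_lit 494) (nat_lit 442)) (XT.lf (nat_lit 0) (nat_lit 1531134092) (nat_lit 760) (nat_lit 1142979580) (nat_lit 760) (nat_lit 1142979580) (nat_lit 372) (nat_lit 4) (nat_lit 382) (nat_lit 5) (nat_lit 382) (nat_lit 4) (nat_lit 570) (nat_lit 495) (nat_lit 495))) (XT.nd (nat_lit 78) (nat_lit 836) (nat_lit 0) (XT.lf (nat_lit 0) (nat_lit 1503003897) (nat_lit 836) (nat_lit 6047550117) (nat_lit 0) (nat_lit 132409674) (nat_lit 361) (nat_lit 5) (nat_lit 372) (nat_lit 4) (nat_lit 361) (nat_lit 4) (nat_lit 571) (nat_lit 495) (nat_lit 494)) (XT.nd (nat_lit 78) (nat_lit 76) (nat_lit 0) (XT.lf (nat_lit 0) (nat_lit 184868528) (nat_lit 760) (nat_lit 5131142220) (nat_lit 760) (nat_lit 2416828169) (nat_lit 351) (nat_lit 4) (nat_lit 361) (nat_lit 5) (nat_lit 361) (nat_lit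 4) (nat_lit 572) (nat_lit 495) (nat_lit 493)) (XT.lf (nat_lit 0) (nat_lit 1375745994) (nat_lit 836) (nat_lit 1252679521) (nat_lit 76) (nat_lit 5155647153) (nat_lit 350) (nat_lit 5) (nat_lit 361) (nat_lit 5) (nat_lit 351) (nat_lit 4) (nat_lit 573) (nat_lit 495) (nat_lit 492))))) (XT.nd (nat_lit 156) (nat_lit 1444) (nat_lit 0) (XT.nd (nat_lit 78) (nat_lit 760) (nat_lit 0) (XT.lf (nat_lit 0) (nat_lit 5137347057) (nat_lit 684) (nat_lit 41155435) (nat_lit 760) (nat_lit 2658177306) (nat_lit 341) (nat_lit 5) (nat_lit 350) (nat_lit 5) (nat_lit 351) (nat_lit 4) (nat_lit 574) (nat_lit 495) (nat_lit 491)) (XT.lf (nat_lit 0) (nat_lit 1135088185) (nat_lit 760) (nat_lit 4167362241) (nat_lit 76) (nat_lit 2588070718) (nat_lit 331) (nat_lit 5) (nat_lit 341) (nat_lit 5) (nat_lit 332) (nat_lit 4) (nat_lit 575) (nat_lit 495) (nat_lit 490))) (XT.nd (nat_lit 78) (nat_lit 760) (nat_lit 0) (XT.lf (nat_lit 0) (nat_lit 2294163194) (nat_lit 684) (nat_lit 2642199190) (nat_lit 760) (nat_lit 3009372727) (nat_lit 322) (nat_lit 5) (nat_lit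 331) (nat_lit 5) (nat_lit 332) (nat_lit 4) (nat_lit 576) (nat_lit 495) (nat_lit 489)) (XT.nd (nat_lit 78) (nat_lit 0) (nat_lit 0) (XT.lf (nat_lit 0) (nat_lit 769930572) (nat_lit 760) (nat_lit 7141282963) (nat_lit 76) (nat_lit 91356966) (nat_lit 312) (nat_lit 5) (nat_lit 322) (nat_lit 5) (nat_lit 313) (nat_lit 4) (nat_lit 577) (nat_lit 495) (nat_lit 488)) (XT.lf (nat_lit 0) (nat_lit 4575474937) (nat_lit 760) (nat_lit 600935281) (nat_lit 76) (nat_lit 2883917356) (nat_lit 312) (nat_lit 5) (nat_lit 322) (nat_lit 5) (nat_lit 313) (nat_lit 4) (nat_lit 578) (nat_lit 495) (nat_lit 487))))))) (XT.nd (nat_lit 780) (nat_lit 4256) (nat_lit 0) (XT.nd (nat_lit 390) (nat_lit 2356) (nat_lit 0) (XT.nd (nat_lit 156) (nat_lit 1824) (nat_lit 0) (XT.nd (nat_lit 78) (nat_lit 608) (nat_lit 0) (XT.lf (nat_lit 0) (nat_lit 309196737) (nat_lit 684) (nat_lit 2054797708) (nat_lit 76) (nat_lit 5755688462) (nat_lit 303) (nat_lit 5) (nat_lit 312) (nat_lit 5) (nat_lit 304) (nat_lit 5) (nat_lit 579) (nat_lit 495) (nat_lit 486)) (XT.lf (nat_lit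 0) (nat_lit 4107065989) (nat_lit 684) (nat_lit 3537136086) (nat_lit 76) (nat_lit 536072269) (nat_lit 295) (nat_lit 5) (nat_lit 304) (nat_lit 5) (nat_lit 296) (nat_lit 4) (nat_lit 580) (nat_lit 495) (nat_lit 485))) (XT.nd (nat_lit 78) (nat_lit 1216) (nat_lit 0) (XT.lf (nat_lit 0) (nat_lit 3203654489) (nat_lit 608) (nat_lit 4764948375) (nat_lit 684) (nat_lit 273722225) (nat_lit 287) (nat_lit 5) (nat_lit 295) (nat_lit 5) (nat_lit 296) (nat_lit 4) (nat_lit 581) (nat_lit 495) (nat_lit 484)) (XT.nd (nat_lit 78) (nat_lit 532) (nat_lit 0) (XT.lf (nat_lit 0) (nat_lit 1737329689) (nat_lit 608) (nat_lit 1790010017) (nat_lit 684) (nat_lit 4778354587) (nat_lit 278) (nat_lit 5) (nat_lit 286) (nat_lit 5) (nat_lit 287) (nat_lit 5) (nat_lit 582) (nat_lit 495) (nat_lit 483)) (XT.lf (nat_lit 0) (nat_lit 256219631) (nat_lit 532) (nat_lit 7126510979) (nat_lit 608) (nat_lit 987926215) (nat_lit 271) (nat_lit 5) (nat_lit 278) (nat_lit 5) (nat_lit 279) (nat_lit 4) (nat_lit 583) (nat_lit 495) (nat_lit 482))))) (XT.nd (nat_lit 156)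 (nat_lit 1672) (nat_lit 0) (XT.nd (nat_lit 78) (nat_lit 608) (nat_lit 0) (XT.lf (nat_lit 0) (nat_lit 2835235168) (nat_lit 608) (nat_lit 1245323495) (nat_lit 76) (nat_lit 4356094230) (nat_lit 270) (nat_lit 5) (nat_lit 278) (nat_lit 5) (nat_lit 271) (nat_lit 5) (nat_lit 584) (nat_lit 495) (nat_lit 481)) (XT.lf (nat_lit 0) (nat_lit 5746879991) (nat_lit 608) (nat_lit 951733780) (nat_lit 684) (nat_lit 1805686357) (nat_lit 262) (nat_lit 5) (nat_lit 270) (nat_lit 5) (nat_lit 271) (nat_lit 5) (nat_lit 585) (nat_lit 495) (nat_lit 480))) (XT.nd (nat_lit 78) (nat_lit 1064) (nat_lit 0) (XT.lf (nat_lit 0) (nat_lit 2029704431) (nat_lit 608) (nat_lit 4306239207) (nat_lit 76) (nat_lit 2237273031) (nat_lit 254) (nat_lit 5) (nat_lit 262) (nat_lit 5) (nat_lit 255) (nat_lit 5) (nat_lit 586) (nat_lit 495) (nat_lit 479)) (XT.nd (nat_lit 78) (nat_lit 532) (nat_lit 0) (XT.lf (nat_lit 0) (nat_lit 2760049404) (nat_lit 532) (nat_lit 3140843758) (nat_lit 608) (nat_lit 2742715709) (nat_lit 247) (nat_lit 5) (nat_lit 254) (nat_lit 5)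 (nat_lit 255) (nat_lit 5) (nat_lit 587) (nat_lit 495) (nat_lit 478)) (XT.lf (nat_lit 0) (nat_lit 1097868089) (nat_lit 532) (nat_lit 7480854969) (nat_lit 76) (nat_lit 136967044) (nat_lit 240) (nat_lit 5) (nat_lit 247) (nat_lit 5) (nat_lit 241) (nat_lit 5) (nat_lit 588) (nat_lit 495) (nat_lit 477)))))) (XT.nd (nat_lit 390) (nat_lit 2204) (nat_lit 0) (XT.nd (nat_lit 156) (nat_lit 1444) (nat_lit 0) (XT.nd (nat_lit 78) (nat_lit 608) (nat_lit 0) (XT.lf (nat_lit 0) (nat_lit 4980209321) (nat_lit 532) (nat_lit 336863054) (nat_lit 76) (nat_lit 3471745908) (nat_lit 240) (nat_lit 5) (nat_lit 247) (nat_lit 5) (nat_lit 241) (nat_lit 5) (nat_lit 589) (nat_lit 495) (nat_lit 476)) (XT.lf (nat_lit 0) (nat_lit 63122896) (nat_lit 608) (nat_lit 1905715201) (nat_lit 76) (nat_lit 6894815402) (nat_lit 232) (nat_lit 5) (nat_lit 240) (nat_lit 5) (nat_lit 233) (nat_lit 5) (nat_lit 590) (nat_lit 495) (nat_lit 475))) (XT.nd (nat_lit 78) (nat_lit 988) (nat_lit 0) (XT.lf (nat_lit 0) (nat_lit 3950950631) (nat_lit 532) (nat_lit 3523462223)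 (nat_lit 76) (nat_lit 1465277150) (nat_lit 226) (nat_lit 5) (nat_lit 233) (nat_lit 5) (nat_lit 227) (nat_lit 5) (nat_lit 591) (nat_lit 495) (nat_lit 474)) (XT.nd (nat_lit 78) (nat_lit 532) (nat_lit 0) (XT.lf (nat_lit 0) (nat_lit 3847230277) (nat_lit 456) (nat_lit 4063086391) (nat_lit 532) (nat_lit 1107056160) (nat_lit 220) (nat_lit 5) (nat_lit 226) (nat_lit 5) (nat_lit 227) (nat_lit 5) (nat_lit 592) (nat_lit 495) (nat_lit 473)) (XT.lf (nat_lit 0) (nat_lit 2243954365) (nat_lit 456) (nat_lit 552365136) (nat_lit 532) (nat_lit 6300291279) (nat_lit 213) (nat_lit 5) (nat_lit 219) (nat_lit 5) (nat_lit 220) (nat_lit 5) (nat_lit 593) (nat_lit 495) (nat_lit 472))))) (XT.nd (nat_lit 234) (nat_lit 1292) (nat_lit 0) (XT.nd (nat_lit 78) (nat_lit 456) (nat_lit 0) (XT.lf (nat_lit 0) (nat_lit 596105628) (nat_lit 456) (nat_lit 6168802907) (nat_lit 532) (nat_lit 2412340371) (nat_lit 207) (nat_lit 5) (nat_lit 213) (nat_lit 5) (nat_lit 214) (nat_lit 5) (nat_lit 594) (nat_lit 495) (nat_lit 471)) (XT.nd (nat_lit 78) (nat_lit 380)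 (nat_lit 0) (XT.lf (nat_lit 0) (nat_lit 1526635361) (nat_lit 532) (nat_lit 1070255344) (nat_lit 76) (nat_lit 6662535720) (nat_lit 206) (nat_lit 5) (nat_lit 213) (nat_lit 5) (nat_lit 207) (nat_lit 5) (nat_lit 595) (nat_lit 495) (nat_lit 470)) (XT.lf (nat_lit 0) (nat_lit 5506630733) (nat_lit 456) (nat_lit 2771736778) (nat_lit 76) (nat_lit 1064671334) (nat_lit 201) (nat_lit 5) (nat_lit 207) (nat_lit 5) (nat_lit 202) (nat_lit 5) (nat_lit 596) (nat_lit 495) (nat_lit 469)))) (XT.nd (nat_lit 78) (nat_lit 760) (nat_lit 0) (XT.lf (nat_lit 0) (nat_lit 137614914) (nat_lit 532) (nat_lit 4513027394) (nat_lit 76) (nat_lit 4777633924) (nat_lit 194) (nat_lit 5) (nat_lit 201) (nat_lit 5) (nat_lit 195) (nat_lit 5) (nat_lit 597) (nat_lit 495) (nat_lit 468)) (XT.nd (nat_lit 78) (nat_lit 380) (nat_lit 0) (XT.lf (nat_lit 0) (nat_lit 3212038202) (nat_lit 380) (nat_lit 912680656) (nat_lit 456) (nat_lit 5390293963) (nat_lit 189) (nat_lit 5) (nat_lit 194) (nat_lit 5) (nat_lit 195) (nat_lit 5) (nat_lit 598) (nat_lit 495) (nat_lit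 467)) (XT.lf (nat_lit 0) (nat_lit 1466497894) (nat_lit 380) (nat_lit 6729596123) (nat_lit 456) (nat_lit 1407300548) (nat_lit 184) (nat_lit 5) (nat_lit 189) (nat_lit 5) (nat_lit 190) (nat_lit 5) (nat_lit 599) (nat_lit 495) (nat_lit 466))))))))
noncomputable def xc19 : XT := (XT.nd (nat_lit 1560) (nat_lit 1140) (nat_lit 0) (XT.nd (nat_lit 780) (nat_lit 2660) (nat_lit 0) (XT.nd (nat_lit 390) (nat_lit 1520) (nat_lit 0) (XT.nd (nat_lit 156) (nat_lit 1216) (nat_lit 0) (XT.nd (nat_lit 78) (nat_lit 380) (nat_lit 0) (XT.lf (nat_lit 0) (nat_lit 2615009688) (nat_lit 456) (nat_lit 323242606) (nat_lit 76) (nat_lit 6755058164) (nat_lit 183) (nat_lit 5) (nat_lit 189) (nat_lit 5) (nat_lit 184) (nat_lit 5) (nat_lit 600) (nat_lit 495) (nat_lit 465)) (XT.lf (nat_lit 0) (nat_lit 6701802113) (nat_lit 456) (nat_lit 2135505891) (nat_lit 76) (nat_lit 947473971) (nat_lit 178) (nat_lit 5) (nat_lit 184) (nat_lit 5) (nat_lit 179) (nat_lit 5) (nat_lit 601) (nat_lit 495) (nat_lit 464))) (XT.nd (nat_lit 78) (nat_lit 760) (nat_lit 0) (XT.lf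 (nat_lit 0) (nat_lit 986362926) (nat_lit 456) (nat_lit 4001622019) (nat_lit 76) (nat_lit 4889827465) (nat_lit 172) (nat_lit 5) (nat_lit 178) (nat_lit 5) (nat_lit 173) (nat_lit 5) (nat_lit 602) (nat_lit 495) (nat_lit 463)) (XT.nd (nat_lit 78) (nat_lit 380) (nat_lit 0) (XT.lf (nat_lit 0) (nat_lit 4054700879) (nat_lit 380) (nat_lit 1029301623) (nat_lit 456) (nat_lit 4888530453) (nat_lit 167) (nat_lit 5) (nat_lit 172) (nat_lit 5) (nat_lit 173) (nat_lit 5) (nat_lit 603) (nat_lit 495) (nat_lit 462)) (XT.lf (nat_lit 0) (nat_lit 2183790748) (nat_lit 380) (nat_lit 7088252335) (nat_lit 456) (nat_lit 796936739) (nat_lit 162) (nat_lit 5) (nat_lit 167) (nat_lit 5) (nat_lit 168) (nat_lit 5) (nat_lit 604) (nat_lit 495) (nat_lit 461))))) (XT.nd (nat_lit 156) (nat_lit 1140) (nat_lit 0) (XT.nd (nat_lit 78) (nat_lit 0) (nat_lit 0) (XT.lf (nat_lit 0) (nat_lit 252340495) (nat_lit 304) (nat_lit 3076146648) (nat_lit 380) (nat_lit 6838505248) (nat_lit 157) (nat_lit 5) (nat_lit 161) (nat_lit 5) (nat_lit 162) (nat_lit 5) (nat_lit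 605) (nat_lit 495) (nat_lit 460)) (XT.lf (nat_lit 0) (nat_lit 7533758749) (nat_lit 380) (nat_lit 1701983078) (nat_lit 76) (nat_lit 1030958649) (nat_lit 157) (nat_lit 5) (nat_lit 162) (nat_lit 5) (nat_lit 158) (nat_lit 5) (nat_lit 606) (nat_lit 495) (nat_lit 459))) (XT.nd (nat_lit 78) (nat_lit 684) (nat_lit 0) (XT.lf (nat_lit 0) (nat_lit 1448507086) (nat_lit 456) (nat_lit 3717483028) (nat_lit 76) (nat_lit 5201967437) (nat_lit 151) (nat_lit 5) (nat_lit 157) (nat_lit 5) (nat_lit 152) (nat_lit 5) (nat_lit 607) (nat_lit 495) (nat_lit 458)) (XT.nd (nat_lit 78) (nat_lit 380) (nat_lit 0) (XT.lf (nat_lit 0) (nat_lit 4683431010) (nat_lit 304) (nat_lit 984789333) (nat_lit 380) (nat_lit 4802834318) (nat_lit 147) (nat_lit 5) (nat_lit 151) (nat_lit 5) (nat_lit 152) (nat_lit 5) (nat_lit 608) (nat_lit 495) (nat_lit 457)) (XT.lf (nat_lit 0) (nat_lit 2658318451) (nat_lit 380) (nat_lit 7327231731) (nat_lit 456) (nat_lit 590399846) (nat_lit 142) (nat_lit 5) (nat_lit 147) (nat_lit 5) (nat_lit 148) (nat_lit 5) (nat_lit 609) (nat_lit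 495) (nat_lit 456)))))) (XT.nd (nat_lit 390) (nat_lit 1292) (nat_lit 0) (XT.nd (nat_lit 156) (nat_lit 988) (nat_lit 0) (XT.nd (nat_lit 78) (nat_lit 0) (nat_lit 0) (XT.lf (nat_lit 0) (nat_lit 563763198) (nat_lit 304) (nat_lit 3092871616) (nat_lit 380) (nat_lit 7025848748) (nat_lit 137) (nat_lit 5) (nat_lit 141) (nat_lit 5) (nat_lit 142) (nat_lit 5) (nat_lit 610) (nat_lit 495) (nat_lit 455)) (XT.lf (nat_lit 0) (nat_lit 7992088630) (nat_lit 380) (nat_lit 1562700261) (nat_lit 76) (nat_lit 1236053865) (nat_lit 137) (nat_lit 5) (nat_lit 142) (nat_lit 5) (nat_lit 138) (nat_lit 5) (nat_lit 611) (nat_lit 495) (nat_lit 454))) (XT.nd (nat_lit 78) (nat_lit 608) (nat_lit 0) (XT.lf (nat_lit 0) (nat_lit 1511022206) (nat_lit 380) (nat_lit 3754017253) (nat_lit 76) (nat_lit 5635774281) (nat_lit 132) (nat_lit 5) (nat_lit 137) (nat_lit 5) (nat_lit 133) (nat_lit 5) (nat_lit 612) (nat_lit 495) (nat_lit 453)) (XT.nd (nat_lit 78) (nat_lit 304) (nat_lit 0) (XT.lf (nat_lit 0) (nat_lit 5004922578) (nat_lit 304) (nat_lit 858714159)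 (nat_lit 380) (nat_lit 5149095730) (nat_lit 128) (nat_lit 5) (nat_lit 132) (nat_lit 5) (nat_lit 133) (nat_lit 5) (nat_lit 613) (nat_lit 495) (nat_lit 452)) (XT.lf (nat_lit 0) (nat_lit 2795192996) (nat_lit 304) (nat_lit 7526484682) (nat_lit 380) (nat_lit 804845071) (nat_lit 124) (nat_lit 5) (nat_lit 128) (nat_lit 5) (nat_lit 129) (nat_lit 5) (nat_lit 614) (nat_lit 495) (nat_lit 451))))) (XT.nd (nat_lit 156) (nat_lit 912) (nat_lit 0) (XT.nd (nat_lit 78) (nat_lit 0) (nat_lit 0) (XT.lf (nat_lit 0) (nat_lit 509749606) (nat_lit 304) (nat_lit 3069933694) (nat_lit 380) (nat_lit 7662416246) (nat_lit 119) (nat_lit 5) (nat_lit 123) (nat_lit 5) (nat_lit 124) (nat_lit 5) (nat_lit 615) (nat_lit 495) (nat_lit 450)) (XT.lf (nat_lit 0) (nat_lit 8058584962) (nat_lit 380) (nat_lit 1815133918) (nat_lit 76) (nat_lit 1485814032) (nat_lit 119) (nat_lit 5) (nat_lit 124) (nat_lit 5) (nat_lit 120) (nat_lit 5) (nat_lit 616) (nat_lit 495) (nat_lit 449))) (XT.nd (nat_lit 78) (nat_lit 532) (nat_lit 0) (XT.lf (nat_lit 0) (nat_lit 1152937045)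 (nat_lit 380) (nat_lit 4210949533) (nat_lit 76) (nat_lit 6114875124) (nat_lit 114) (nat_lit 5) (nat_lit 119) (nat_lit 5) (nat_lit 115) (nat_lit 5) (nat_lit 617) (nat_lit 495) (nat_lit 448)) (XT.nd (nat_lit 78) (nat_lit 304) (nat_lit 0) (XT.lf (nat_lit 0) (nat_lit 4919397126) (nat_lit 228) (nat_lit 729187403) (nat_lit 304) (nat_lit 5951417053) (nat_lit 111) (nat_lit 5) (nat_lit 114) (nat_lit 5) (nat_lit 115) (nat_lit 5) (nat_lit 618) (nat_lit 495) (nat_lit 447)) (XT.lf (nat_lit 0) (nat_lit 2492603131) (nat_lit 304) (nat_lit 7764971787) (nat_lit 380) (nat_lit 1465623320) (nat_lit 107) (nat_lit 5) (nat_lit 111) (nat_lit 5) (nat_lit 112) (nat_lit 5) (nat_lit 619) (nat_lit 495) (nat_lit 446))))))) (XT.nd (nat_lit 77532) (nat_lit 0) (nat_lit 14136) (XT.nd (nat_lit 77142) (nat_lit 0) (nat_lit 19684) (XT.nd (nat_lit 156) (nat_lit 836) (nat_lit 0) (XT.nd (nat_lit 78) (nat_lit 228) (nat_lit 0) (XT.lf (nat_lit 0) (nat_lit 3071995122) (nat_lit 380) (nat_lit 13817059) (nat_lit 76) (nat_lit 8762585462) (nat_lit 106) (nat_lit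 5) (nat_lit 111) (nat_lit 5) (nat_lit 107) (nat_lit 5) (nat_lit 620) (nat_lit 495) (nat_lit 445)) (XT.lf (nat_lit 0) (nat_lit 7707007943) (nat_lit 304) (nat_lit 2564444012) (nat_lit 76) (nat_lit 1703930538) (nat_lit 103) (nat_lit 5) (nat_lit 107) (nat_lit 5) (nat_lit 104) (nat_lit 5) (nat_lit 621) (nat_lit 495) (nat_lit 444))) (XT.nd (nat_lit 78) (nat_lit 456) (nat_lit 0) (XT.lf (nat_lit 0) (nat_lit 345061836) (nat_lit 380) (nat_lit 5196098630) (nat_lit 76) (nat_lit 6563312799) (nat_lit 98) (nat_lit 5) (nat_lit 103) (nat_lit 5) (nat_lit 99) (nat_lit 5) (nat_lit 622) (nat_lit 495) (nat_lit 443)) (XT.nd (nat_lit 78) (nat_lit 228) (nat_lit 0) (XT.lf (nat_lit 0) (nat_lit 4318800225) (nat_lit 228) (nat_lit 674366455) (nat_lit 304) (nat_lit 7242424342) (nat_lit 95) (nat_lit 5) (nat_lit 98) (nat_lit 5) (nat_lit 99) (nat_lit 5) (nat_lit 623) (nat_lit 495) (nat_lit 442)) (XT.lf (nat_lit 0) (nat_lit 1639978485) (nat_lit 228) (nat_lit 8122165558) (nat_lit 304) (nat_lit 2606629387) (nat_lit 92) (nat_lit 5) (nat_lit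 95) (nat_lit 5) (nat_lit 96) (nat_lit 5) (nat_lit 624) (nat_lit 495) (nat_lit 441))))) (XT.nd (nat_lit 156) (nat_lit 2356) (nat_lit 0) (XT.nd (nat_lit 78) (nat_lit 836) (nat_lit 0) (XT.lf (nat_lit 0) (nat_lit 2974343247) (nat_lit 836) (nat_lit 397924757) (nat_lit 836) (nat_lit 397924757) (nat_lit 393) (nat_lit 4) (nat_lit 404) (nat_lit 5) (nat_lit 404) (nat_lit 4) (nat_lit 568) (nat_lit 496) (nat_lit 496)) (XT.lf (nat_lit 0) (nat_lit 2956219104) (nat_lit 836) (nat_lit 3100416254) (nat_lit 0) (nat_lit 1530252873) (nat_lit 382) (nat_lit 5) (nat_lit 393) (nat_lit 4) (nat_lit 382) (nat_lit 4) (nat_lit 569) (nat_lit 496) (nat_lit 495))) (XT.nd (nat_lit 78) (nat_lit 1596) (nat_lit 0) (XT.lf (nat_lit 0) (nat_lit 3021580483) (nat_lit 760) (nat_lit 3718629577) (nat_lit 760) (nat_lit 894657239) (nat_lit 372) (nat_lit 4) (nat_lit 382) (nat_lit 5) (nat_lit 382) (nat_lit 4) (nat_lit 570) (nat_lit 496) (nat_lit 494)) (XT.nd (nat_lit 78) (nat_lit 760) (nat_lit 0) (XT.lf (nat_lit 0) (nat_lit 1544357800) (nat_lit 760) (nat_lit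 1296693864) (nat_lit 836) (nat_lit 4843113369) (nat_lit 361) (nat_lit 5) (nat_lit 371) (nat_lit 5) (nat_lit 372) (nat_lit 4) (nat_lit 571) (nat_lit 496) (nat_lit 493)) (XT.lf (nat_lit 0) (nat_lit 58685277) (nat_lit 760) (nat_lit 6552948537) (nat_lit 760) (nat_lit 1123255998) (nat_lit 351) (nat_lit 4) (nat_lit 361) (nat_lit 5) (nat_lit 361) (nat_lit 4) (nat_lit 572) (nat_lit 496) (nat_lit 492)))))) (XT.nd (nat_lit 390) (nat_lit 2584) (nat_lit 0) (XT.nd (nat_lit 156) (nat_lit 2204) (nat_lit 0) (XT.nd (nat_lit 78) (nat_lit 684) (nat_lit 0) (XT.lf (nat_lit 0) (nat_lit 2619336330) (nat_lit 836) (nat_lit 1430174699) (nat_lit 76) (nat_lit 3737105904) (nat_lit 350) (nat_lit 5) (nat_lit 361) (nat_lit 5) (nat_lit 351) (nat_lit 4) (nat_lit 573) (nat_lit 496) (nat_lit 491)) (XT.lf (nat_lit 0) (nat_lit 4916899589) (nat_lit 684) (nat_lit 1471392925) (nat_lit 760) (nat_lit 1451608551) (nat_lit 341) (nat_lit 5) (nat_lit 350) (nat_lit 5) (nat_lit 351) (nat_lit 4) (nat_lit 574) (nat_lit 496) (nat_lit 490))) (XT.nd (nat_lit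 78) (nat_lit 1444) (nat_lit 0) (XT.lf (nat_lit 0) (nat_lit 2282541231) (nat_lit 760) (nat_lit 4437149758) (nat_lit 76) (nat_lit 1174761529) (nat_lit 331) (nat_lit 5) (nat_lit 341) (nat_lit 5) (nat_lit 332) (nat_lit 4) (nat_lit 575) (nat_lit 496) (nat_lit 489)) (XT.nd (nat_lit 78) (nat_lit 760) (nat_lit 0) (XT.lf (nat_lit 0) (nat_lit 1979704838) (nat_lit 684) (nat_lit 4070182606) (nat_lit 760) (nat_lit 1900458542) (nat_lit 322) (nat_lit 5) (nat_lit 331) (nat_lit 5) (nat_lit 332) (nat_lit 4) (nat_lit 576) (nat_lit 496) (nat_lit 488)) (XT.lf (nat_lit 0) (nat_lit 490052183) (nat_lit 684) (nat_lit 1339501362) (nat_lit 760) (nat_lit 6178179689) (nat_lit 312) (nat_lit 5) (nat_lit 321) (nat_lit 5) (nat_lit 322) (nat_lit 5) (nat_lit 577) (nat_lit 496) (nat_lit 487))))) (XT.nd (nat_lit 234) (nat_lit 1292) (nat_lit 0) (XT.nd (nat_lit 78) (nat_lit 1292) (nat_lit 0) (XT.lf (nat_lit 0) (nat_lit 5594969530) (nat_lit 760) (nat_lit 1009640673) (nat_lit 76) (nat_lit 1461683556) (nat_lit 312) (nat_lit 5) (nat_lit 322) (nat_lit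 5) (nat_lit 313) (nat_lit 4) (nat_lit 578) (nat_lit 496) (nat_lit 486)) (XT.nd (nat_lit 78) (nat_lit 608) (nat_lit 0) (XT.lf (nat_lit 0) (nat_lit 1275439577) (nat_lit 684) (nat_lit 2522668329) (nat_lit 76) (nat_lit 4328090283) (nat_lit 303) (nat_lit 5) (nat_lit 312) (nat_lit 5) (nat_lit 304) (nat_lit 5) (nat_lit 579) (nat_lit 496) (nat_lit 485)) (XT.lf (nat_lit 0) (nat_lit 4131766842) (nat_lit 608) (nat_lit 903998832) (nat_lit 684) (nat_lit 3151775650) (nat_lit 295) (nat_lit 5) (nat_lit 303) (nat_lit 5) (nat_lit 304) (nat_lit 5) (nat_lit 580) (nat_lit 496) (nat_lit 484)))) (XT.nd (nat_lit 78) (nat_lit 608) (nat_lit 0) (XT.lf (nat_lit 0) (nat_lit 599045545) (nat_lit 684) (nat_lit 5611423868) (nat_lit 76) (nat_lit 2039842751) (nat_lit 286) (nat_lit 5) (nat_lit 295) (nat_lit 5) (nat_lit 287) (nat_lit 5) (nat_lit 581) (nat_lit 496) (nat_lit 483)) (XT.nd (nat_lit 78) (nat_lit 0) (nat_lit 0) (XT.lf (nat_lit 0) (nat_lit 1113863731) (nat_lit 608) (nat_lit 3248345048) (nat_lit 684) (nat_lit 3952124007) (nat_lit 278)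 (nat_lit 5) (nat_lit 286) (nat_lit 5) (nat_lit 287) (nat_lit 5) (nat_lit 582) (nat_lit 496) (nat_lit 482)) (XT.lf (nat_lit 0) (nat_lit 7967930626) (nat_lit 608) (nat_lit 209900914) (nat_lit 684) (nat_lit 202259910) (nat_lit 278) (nat_lit 5) (nat_lit 286) (nat_lit 5) (nat_lit 287) (nat_lit 5) (nat_lit 583) (nat_lit 496) (nat_lit 481))))))))
noncomputable def xc20 : XT := (XT.nd (nat_lit 1560) (nat_lit 5472) (nat_lit 0) (XT.nd (nat_lit 780) (nat_lit 3496) (nat_lit 0) (XT.nd (nat_lit 390) (nat_lit 2052) (nat_lit 0) (XT.nd (nat_lit 156) (nat_lit 1672) (nat_lit 0) (XT.nd (nat_lit 78) (nat_lit 608) (nat_lit 0) (XT.lf (nat_lit 0) (nat_lit 3576632387) (nat_lit 608) (nat_lit 1973539657) (nat_lit 76) (nat_lit 2896493492) (nat_lit 270) (nat_lit 5) (nat_lit 278) (nat_lit 5) (nat_lit 271) (nat_lit 5) (nat_lit 584) (nat_lit 496) (nat_lit 480)) (XT.lf (nat_lit 0) (nat_lit 4968107782) (nat_lit 608) (nat_lit 2437560065) (nat_lit 684) (nat_lit 1109332512) (nat_lit 262) (nat_lit 5) (nat_lit 270) (nat_lit 5) (nat_lit 271) (nat_lit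 5) (nat_lit 585) (nat_lit 496) (nat_lit 479))) (XT.nd (nat_lit 78) (nat_lit 1064) (nat_lit 0) (XT.lf (nat_lit 0) (nat_lit 2672543493) (nat_lit 608) (nat_lit 5153364404) (nat_lit 76) (nat_lit 758806915) (nat_lit 254) (nat_lit 5) (nat_lit 262) (nat_lit 5) (nat_lit 255) (nat_lit 5) (nat_lit 586) (nat_lit 496) (nat_lit 478)) (XT.nd (nat_lit 78) (nat_lit 532) (nat_lit 0) (XT.lf (nat_lit 0) (nat_lit 1860422347) (nat_lit 532) (nat_lit 4648540752) (nat_lit 608) (nat_lit 2146839983) (nat_lit 247) (nat_lit 5) (nat_lit 254) (nat_lit 5) (nat_lit 255) (nat_lit 5) (nat_lit 587) (nat_lit 496) (nat_lit 477)) (XT.lf (nat_lit 0) (nat_lit 266533785) (nat_lit 456) (nat_lit 1383387406) (nat_lit 532) (nat_lit 7078606555) (nat_lit 240) (nat_lit 5) (nat_lit 246) (nat_lit 5) (nat_lit 247) (nat_lit 5) (nat_lit 588) (nat_lit 496) (nat_lit 476))))) (XT.nd (nat_lit 156) (nat_lit 1444) (nat_lit 0) (XT.nd (nat_lit 78) (nat_lit 608) (nat_lit 0) (XT.lf (nat_lit 0) (nat_lit 5494690403) (nat_lit 532) (nat_lit 1350063237) (nat_lit 76) (nat_lit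 1957654371) (nat_lit 240) (nat_lit 5) (nat_lit 247) (nat_lit 5) (nat_lit 241) (nat_lit 5) (nat_lit 589) (nat_lit 496) (nat_lit 475)) (XT.lf (nat_lit 0) (nat_lit 522252746) (nat_lit 608) (nat_lit 2990463472) (nat_lit 76) (nat_lit 5365166431) (nat_lit 232) (nat_lit 5) (nat_lit 240) (nat_lit 5) (nat_lit 233) (nat_lit 5) (nat_lit 590) (nat_lit 496) (nat_lit 474))) (XT.nd (nat_lit 78) (nat_lit 988) (nat_lit 0) (XT.lf (nat_lit 0) (nat_lit 4286015122) (nat_lit 456) (nat_lit 79099633) (nat_lit 532) (nat_lit 4589704319) (nat_lit 226) (nat_lit 5) (nat_lit 232) (nat_lit 5) (nat_lit 233) (nat_lit 5) (nat_lit 591) (nat_lit 496) (nat_lit 473)) (XT.nd (nat_lit 78) (nat_lit 532) (nat_lit 0) (XT.lf (nat_lit 0) (nat_lit 2646096658) (nat_lit 456) (nat_lit 5642354710) (nat_lit 532) (nat_lit 744771715) (nat_lit 220) (nat_lit 5) (nat_lit 226) (nat_lit 5) (nat_lit 227) (nat_lit 5) (nat_lit 592) (nat_lit 496) (nat_lit 472)) (XT.lf (nat_lit 0) (nat_lit 967220529) (nat_lit 456) (nat_lit 2150724935) (nat_lit 532) (nat_lit 5995187240)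 (nat_lit 213) (nat_lit 5) (nat_lit 219) (nat_lit 5) (nat_lit 220) (nat_lit 5) (nat_lit 593) (nat_lit 496) (nat_lit 471)))))) (XT.nd (nat_lit 390) (nat_lit 1672) (nat_lit 0) (XT.nd (nat_lit 156) (nat_lit 1292) (nat_lit 0) (XT.nd (nat_lit 78) (nat_lit 532) (nat_lit 0) (XT.lf (nat_lit 0) (nat_lit 7044863520) (nat_lit 532) (nat_lit 735438890) (nat_lit 76) (nat_lit 1414302401) (nat_lit 213) (nat_lit 5) (nat_lit 220) (nat_lit 5) (nat_lit 214) (nat_lit 5) (nat_lit 594) (nat_lit 496) (nat_lit 470)) (XT.lf (nat_lit 0) (nat_lit 1753590798) (nat_lit 532) (nat_lit 2471642385) (nat_lit 76) (nat_lit 5052159580) (nat_lit 206) (nat_lit 5) (nat_lit 213) (nat_lit 5) (nat_lit 207) (nat_lit 5) (nat_lit 595) (nat_lit 496) (nat_lit 469))) (XT.nd (nat_lit 78) (nat_lit 912) (nat_lit 0) (XT.lf (nat_lit 0) (nat_lit 5117761872) (nat_lit 380) (nat_lit 572542860) (nat_lit 456) (nat_lit 3671566608) (nat_lit 201) (nat_lit 5) (nat_lit 206) (nat_lit 5) (nat_lit 207) (nat_lit 5) (nat_lit 596) (nat_lit 496) (nat_lit 468)) (XT.nd (nat_lit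 78) (nat_lit 380) (nat_lit 0) (XT.lf (nat_lit 0) (nat_lit 259769060) (nat_lit 532) (nat_lit 6062498896) (nat_lit 76) (nat_lit 3125630383) (nat_lit 194) (nat_lit 5) (nat_lit 201) (nat_lit 5) (nat_lit 195) (nat_lit 5) (nat_lit 597) (nat_lit 496) (nat_lit 467)) (XT.lf (nat_lit 0) (nat_lit 1601029459) (nat_lit 380) (nat_lit 2608857050) (nat_lit 456) (nat_lit 5325488646) (nat_lit 189) (nat_lit 5) (nat_lit 194) (nat_lit 5) (nat_lit 195) (nat_lit 5) (nat_lit 598) (nat_lit 496) (nat_lit 466))))) (XT.nd (nat_lit 156) (nat_lit 1216) (nat_lit 0) (XT.nd (nat_lit 78) (nat_lit 456) (nat_lit 0) (XT.lf (nat_lit 0) (nat_lit 8234370144) (nat_lit 456) (nat_lit 213672333) (nat_lit 76) (nat_lit 1176652741) (nat_lit 189) (nat_lit 5) (nat_lit 195) (nat_lit 5) (nat_lit 190) (nat_lit 5) (nat_lit 599) (nat_lit 496) (nat_lit 465)) (XT.lf (nat_lit 0) (nat_lit 2604071876) (nat_lit 456) (nat_lit 2068343266) (nat_lit 76) (nat_lit 5042748046) (nat_lit 183) (nat_lit 5) (nat_lit 189) (nat_lit 5) (nat_lit 184) (nat_lit 5) (nat_lit 600) (nat_lit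 496) (nat_lit 464))) (XT.nd (nat_lit 78) (nat_lit 836) (nat_lit 0) (XT.lf (nat_lit 0) (nat_lit 5846948347) (nat_lit 380) (nat_lit 800178993) (nat_lit 456) (nat_lit 3160382566) (nat_lit 178) (nat_lit 5) (nat_lit 183) (nat_lit 5) (nat_lit 184) (nat_lit 5) (nat_lit 601) (nat_lit 496) (nat_lit 463)) (XT.nd (nat_lit 78) (nat_lit 380) (nat_lit 0) (XT.lf (nat_lit 0) (nat_lit 866654690) (nat_lit 456) (nat_lit 5909021616) (nat_lit 76) (nat_lit 3125740941) (nat_lit 172) (nat_lit 5) (nat_lit 178) (nat_lit 5) (nat_lit 173) (nat_lit 5) (nat_lit 602) (nat_lit 496) (nat_lit 462)) (XT.lf (nat_lit 0) (nat_lit 2081322829) (nat_lit 380) (nat_lit 2844630595) (nat_lit 456) (nat_lit 5070951618) (nat_lit 167) (nat_lit 5) (nat_lit 172) (nat_lit 5) (nat_lit 173) (nat_lit 5) (nat_lit 603) (nat_lit 496) (nat_lit 461))))))) (XT.nd (nat_lit 780) (nat_lit 2508) (nat_lit 0) (XT.nd (nat_lit 390) (nat_lit 1444) (nat_lit 0) (XT.nd (nat_lit 156) (nat_lit 1064) (nat_lit 0) (XT.nd (nat_lit 78) (nat_lit 76) (nat_lit 0) (XT.lf (nat_lit 0) (nat_lit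 130654528) (nat_lit 380) (nat_lit 8932841957) (nat_lit 456) (nat_lit 1030865801) (nat_lit 162) (nat_lit 5) (nat_lit 167) (nat_lit 5) (nat_lit 168) (nat_lit 5) (nat_lit 604) (nat_lit 496) (nat_lit 460)) (XT.lf (nat_lit 0) (nat_lit 3070678027) (nat_lit 456) (nat_lit 1868285999) (nat_lit 76) (nat_lit 5253980575) (nat_lit 161) (nat_lit 5) (nat_lit 167) (nat_lit 5) (nat_lit 162) (nat_lit 5) (nat_lit 605) (nat_lit 496) (nat_lit 459))) (XT.nd (nat_lit 78) (nat_lit 760) (nat_lit 0) (XT.lf (nat_lit 0) (nat_lit 6386128744) (nat_lit 304) (nat_lit 845673421) (nat_lit 380) (nat_lit 3061733870) (nat_lit 157) (nat_lit 5) (nat_lit 161) (nat_lit 5) (nat_lit 162) (nat_lit 5) (nat_lit 606) (nat_lit 496) (nat_lit 458)) (XT.nd (nat_lit 78) (nat_lit 304) (nat_lit 0) (XT.lf (nat_lit 0) (nat_lit 1078827302) (nat_lit 456) (nat_lit 6012144776) (nat_lit 76) (nat_lit 3304768110) (nat_lit 151) (nat_lit 5) (nat_lit 157) (nat_lit 5) (nat_lit 152) (nat_lit 5) (nat_lit 607) (nat_lit 496) (nat_lit 457)) (XT.lf (nat_lit 0) (nat_lit 2318016666)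 (nat_lit 304) (nat_lit 2940554605) (nat_lit 380) (nat_lit 5241065789) (nat_lit 147) (nat_lit 5) (nat_lit 151) (nat_lit 5) (nat_lit 152) (nat_lit 5) (nat_lit 608) (nat_lit 496) (nat_lit 456))))) (XT.nd (nat_lit 156) (nat_lit 988) (nat_lit 0) (XT.nd (nat_lit 78) (nat_lit 76) (nat_lit 0) (XT.lf (nat_lit 0) (nat_lit 204985406) (nat_lit 380) (nat_lit 9317805856) (nat_lit 456) (nat_lit 1082803732) (nat_lit 142) (nat_lit 5) (nat_lit 147) (nat_lit 5) (nat_lit 148) (nat_lit 5) (nat_lit 609) (nat_lit 496) (nat_lit 455)) (XT.lf (nat_lit 0) (nat_lit 3142607466) (nat_lit 456) (nat_lit 1963332851) (nat_lit 76) (nat_lit 5606814136) (nat_lit 141) (nat_lit 5) (nat_lit 147) (nat_lit 5) (nat_lit 142) (nat_lit 5) (nat_lit 610) (nat_lit 496) (nat_lit 454))) (XT.nd (nat_lit 78) (nat_lit 684) (nat_lit 0) (XT.lf (nat_lit 0) (nat_lit 6643590800) (nat_lit 304) (nat_lit 789222136) (nat_lit 380) (nat_lit 3389206025) (nat_lit 137) (nat_lit 5) (nat_lit 141) (nat_lit 5) (nat_lit 142) (nat_lit 5) (nat_lit 611) (nat_lit 496) (nat_lit 453))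 (XT.nd (nat_lit 78) (nat_lit 304) (nat_lit 0) (XT.lf (nat_lit 0) (nat_lit 881625598) (nat_lit 380) (nat_lit 6467057047) (nat_lit 76) (nat_lit 3584318080) (nat_lit 132) (nat_lit 5) (nat_lit 137) (nat_lit 5) (nat_lit 133) (nat_lit 5) (nat_lit 612) (nat_lit 496) (nat_lit 452)) (XT.lf (nat_lit 0) (nat_lit 2215990151) (nat_lit 304) (nat_lit 2976375971) (nat_lit 380) (nat_lit 5853391139) (nat_lit 128) (nat_lit 5) (nat_lit 132) (nat_lit 5) (nat_lit 133) (nat_lit 5) (nat_lit 613) (nat_lit 496) (nat_lit 451)))))) (XT.nd (nat_lit 390) (nat_lit 1216) (nat_lit 0) (XT.nd (nat_lit 156) (nat_lit 912) (nat_lit 0) (XT.nd (nat_lit 78) (nat_lit 380) (nat_lit 0) (XT.lf (nat_lit 0) (nat_lit 9594854916) (nat_lit 380) (nat_lit 89101797) (nat_lit 76) (nat_lit 1476702195) (nat_lit 128) (nat_lit 5) (nat_lit 133) (nat_lit 5) (nat_lit 129) (nat_lit 5) (nat_lit 614) (nat_lit 496) (nat_lit 450)) (XT.lf (nat_lit 0) (nat_lit 2801204081) (nat_lit 380) (nat_lit 2451100049) (nat_lit 76) (nat_lit 6024580705) (nat_lit 123) (nat_lit 5) (nat_lit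 128) (nat_lit 5) (nat_lit 124) (nat_lit 5) (nat_lit 615) (nat_lit 496) (nat_lit 449))) (XT.nd (nat_lit 78) (nat_lit 608) (nat_lit 0) (XT.lf (nat_lit 0) (nat_lit 6521723914) (nat_lit 304) (nat_lit 709088479) (nat_lit 380) (nat_lit 4164491979) (nat_lit 119) (nat_lit 5) (nat_lit 123) (nat_lit 5) (nat_lit 124) (nat_lit 5) (nat_lit 616) (nat_lit 496) (nat_lit 448)) (XT.nd (nat_lit 78) (nat_lit 228) (nat_lit 0) (XT.lf (nat_lit 0) (nat_lit 252415514) (nat_lit 380) (nat_lit 7375510260) (nat_lit 76) (nat_lit 3887685875) (nat_lit 114) (nat_lit 5) (nat_lit 119) (nat_lit 5) (nat_lit 115) (nat_lit 5) (nat_lit 617) (nat_lit 496) (nat_lit 447)) (XT.lf (nat_lit 0) (nat_lit 1673402854) (nat_lit 228) (nat_lit 3030600142) (nat_lit 304) (nat_lit 6933730019) (nat_lit 111) (nat_lit 5) (nat_lit 114) (nat_lit 5) (nat_lit 115) (nat_lit 5) (nat_lit 618) (nat_lit 496) (nat_lit 446))))) (XT.nd (nat_lit 234) (nat_lit 608) (nat_lit 0) (XT.nd (nat_lit 78) (nat_lit 608) (nat_lit 0) (XT.lf (nat_lit 0) (nat_lit 9258979906) (nat_lit 304)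 (nat_lit 847830545) (nat_lit 76) (nat_lit 1655199771) (nat_lit 111) (nat_lit 5) (nat_lit 115) (nat_lit 5) (nat_lit 112) (nat_lit 5) (nat_lit 619) (nat_lit 496) (nat_lit 445)) (XT.nd (nat_lit 78) (nat_lit 228) (nat_lit 0) (XT.lf (nat_lit 0) (nat_lit 2019738538) (nat_lit 380) (nat_lit 3436675854) (nat_lit 76) (nat_lit 6431499323) (nat_lit 106) (nat_lit 5) (nat_lit 111) (nat_lit 5) (nat_lit 107) (nat_lit 5) (nat_lit 620) (nat_lit 496) (nat_lit 444)) (XT.lf (nat_lit 0) (nat_lit 5915275760) (nat_lit 228) (nat_lit 683102388) (nat_lit 304) (nat_lit 5417648144) (nat_lit 103) (nat_lit 5) (nat_lit 106) (nat_lit 5) (nat_lit 107) (nat_lit 5) (nat_lit 621) (nat_lit 496) (nat_lit 443)))) (XT.nd (nat_lit 78) (nat_lit 304) (nat_lit 0) (XT.lf (nat_lit 0) (nat_lit 3293040546) (nat_lit 304) (nat_lit 8002269673) (nat_lit 380) (nat_lit 850857031) (nat_lit 99) (nat_lit 5) (nat_lit 103) (nat_lit 5) (nat_lit 104) (nat_lit 5) (nat_lit 622) (nat_lit 496) (nat_lit 442)) (XT.nd (nat_lit 78) (nat_lit 0) (nat_lit 0) (XT.lf (nat_lit 0)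 (nat_lit 579883895) (nat_lit 228) (nat_lit 3181988068) (nat_lit 304) (nat_lit 8516454480) (nat_lit 95) (nat_lit 5) (nat_lit 98) (nat_lit 5) (nat_lit 99) (nat_lit 5) (nat_lit 623) (nat_lit 496) (nat_lit 441)) (XT.lf (nat_lit 0) (nat_lit 8481745595) (nat_lit 304) (nat_lit 2185361714) (nat_lit 76) (nat_lit 1745383860) (nat_lit 95) (nat_lit 5) (nat_lit 99) (nat_lit 5) (nat_lit 96) (nat_lit 5) (nat_lit 624) (nat_lit 496) (nat_lit 440))))))))
noncomputable def xc21 : XT := (XT.nd (nat_lit 1560) (nat_lit 7980) (nat_lit 0) (XT.nd (nat_lit 780) (nat_lit 5244) (nat_lit 0) (XT.nd (nat_lit 390) (nat_lit 3040) (nat_lit 0) (XT.nd (nat_lit 156) (nat_lit 2508) (nat_lit 0) (XT.nd (nat_lit 78) (nat_lit 0) (nat_lit 0) (XT.lf (nat_lit 0) (nat_lit 362219351) (nat_lit 912) (nat_lit 3000750223) (nat_lit 0) (nat_lit 362219351) (nat_lit 404) (nat_lit 5) (nat_lit 416) (nat_lit 4) (nat_lit 404) (nat_lit 4) (nat_lit 566) (nat_lit 497) (nat_lit 497)) (XT.lf (nat_lit 0) (nat_lit 4436980595) (nat_lit 912) (nat_lit 104592542) (nat_lit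 0) (nat_lit 2953405328) (nat_lit 404) (nat_lit 5) (nat_lit 416) (nat_lit 4) (nat_lit 404) (nat_lit 4) (nat_lit 567) (nat_lit 497) (nat_lit 496))) (XT.nd (nat_lit 78) (nat_lit 1596) (nat_lit 0) (XT.lf (nat_lit 0) (nat_lit 644612724) (nat_lit 912) (nat_lit 1635943116) (nat_lit 76) (nat_lit 5260423390) (nat_lit 392) (nat_lit 5) (nat_lit 404) (nat_lit 5) (nat_lit 393) (nat_lit 4) (nat_lit 568) (nat_lit 497) (nat_lit 495)) (XT.nd (nat_lit 78) (nat_lit 836) (nat_lit 0) (XT.lf (nat_lit 0) (nat_lit 4342591584) (nat_lit 836) (nat_lit 3181527484) (nat_lit 0) (nat_lit 64133690) (nat_lit 382) (nat_lit 5) (nat_lit 393) (nat_lit 4) (nat_lit 382) (nat_lit 4) (nat_lit 569) (nat_lit 497) (nat_lit 494)) (XT.lf (nat_lit 0) (nat_lit 449843614) (nat_lit 836) (nat_lit 4740368016) (nat_lit 76) (nat_lit 2446639122) (nat_lit 371) (nat_lit 5) (nat_lit 382) (nat_lit 5) (nat_lit 372) (nat_lit 4) (nat_lit 570) (nat_lit 497) (nat_lit 493))))) (XT.nd (nat_lit 156) (nat_lit 2204) (nat_lit 0) (XT.nd (nat_lit 78) (nat_lit 76) (nat_lit 0)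 (XT.lf (nat_lit 0) (nat_lit 1369630533) (nat_lit 760) (nat_lit 2770172673) (nat_lit 836) (nat_lit 3546910478) (nat_lit 361) (nat_lit 5) (nat_lit 371) (nat_lit 5) (nat_lit 372) (nat_lit 4) (nat_lit 571) (nat_lit 497) (nat_lit 492)) (XT.lf (nat_lit 0) (nat_lit 129762401) (nat_lit 836) (nat_lit 152377065) (nat_lit 76) (nat_lit 7456095881) (nat_lit 360) (nat_lit 5) (nat_lit 371) (nat_lit 5) (nat_lit 361) (nat_lit 5) (nat_lit 572) (nat_lit 497) (nat_lit 491))) (XT.nd (nat_lit 78) (nat_lit 1444) (nat_lit 0) (XT.lf (nat_lit 0) (nat_lit 3822413047) (nat_lit 836) (nat_lit 1692143166) (nat_lit 76) (nat_lit 2275965592) (nat_lit 350) (nat_lit 5) (nat_lit 361) (nat_lit 5) (nat_lit 351) (nat_lit 4) (nat_lit 573) (nat_lit 497) (nat_lit 490)) (XT.nd (nat_lit 78) (nat_lit 760) (nat_lit 0) (XT.lf (nat_lit 0) (nat_lit 4611652178) (nat_lit 684) (nat_lit 2946000849) (nat_lit 760) (nat_lit 286828210) (nat_lit 341) (nat_lit 5) (nat_lit 350) (nat_lit 5) (nat_lit 351) (nat_lit 4) (nat_lit 574) (nat_lit 497) (nat_lit 489)) (XT.lf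 (nat_lit 0) (nat_lit 3103616146) (nat_lit 684) (nat_lit 286778794) (nat_lit 760) (nat_lit 4509320446) (nat_lit 331) (nat_lit 5) (nat_lit 340) (nat_lit 5) (nat_lit 341) (nat_lit 5) (nat_lit 575) (nat_lit 497) (nat_lit 488)))))) (XT.nd (nat_lit 390) (nat_lit 2508) (nat_lit 0) (XT.nd (nat_lit 156) (nat_lit 1292) (nat_lit 0) (XT.nd (nat_lit 78) (nat_lit 760) (nat_lit 0) (XT.lf (nat_lit 0) (nat_lit 1577591902) (nat_lit 684) (nat_lit 5544415415) (nat_lit 760) (nat_lit 834317132) (nat_lit 322) (nat_lit 5) (nat_lit 331) (nat_lit 5) (nat_lit 332) (nat_lit 4) (nat_lit 576) (nat_lit 497) (nat_lit 487)) (XT.lf (nat_lit 0) (nat_lit 29088640) (nat_lit 684) (nat_lit 2818520715) (nat_lit 760) (nat_lit 5166646844) (nat_lit 312) (nat_lit 5) (nat_lit 321) (nat_lit 5) (nat_lit 322) (nat_lit 5) (nat_lit 577) (nat_lit 497) (nat_lit 486))) (XT.nd (nat_lit 78) (nat_lit 1292) (nat_lit 0) (XT.lf (nat_lit 0) (nat_lit 6565856312) (nat_lit 684) (nat_lit 6795225) (nat_lit 760) (nat_lit 1500973529) (nat_lit 312) (nat_lit 5) (nat_lit 321)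 (nat_lit 5) (nat_lit 322) (nat_lit 5) (nat_lit 578) (nat_lit 497) (nat_lit 485)) (XT.nd (nat_lit 78) (nat_lit 608) (nat_lit 0) (XT.lf (nat_lit 0) (nat_lit 2199048127) (nat_lit 684) (nat_lit 3081391676) (nat_lit 76) (nat_lit 2853644842) (nat_lit 303) (nat_lit 5) (nat_lit 312) (nat_lit 5) (nat_lit 304) (nat_lit 5) (nat_lit 579) (nat_lit 497) (nat_lit 484)) (XT.lf (nat_lit 0) (nat_lit 3525539564) (nat_lit 608) (nat_lit 2399827212) (nat_lit 684) (nat_lit 2270741969) (nat_lit 295) (nat_lit 5) (nat_lit 303) (nat_lit 5) (nat_lit 304) (nat_lit 5) (nat_lit 580) (nat_lit 497) (nat_lit 483))))) (XT.nd (nat_lit 156) (nat_lit 1216) (nat_lit 0) (XT.nd (nat_lit 78) (nat_lit 608) (nat_lit 0) (XT.lf (nat_lit 0) (nat_lit 1424480086) (nat_lit 684) (nat_lit 6279777375) (nat_lit 76) (nat_lit 555389390) (nat_lit 286) (nat_lit 5) (nat_lit 295) (nat_lit 5) (nat_lit 287) (nat_lit 5) (nat_lit 581) (nat_lit 497) (nat_lit 482)) (XT.lf (nat_lit 0) (nat_lit 396137670) (nat_lit 608) (nat_lit 4757178218) (nat_lit 684) (nat_lit 3171038903)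 (nat_lit 278) (nat_lit 5) (nat_lit 286) (nat_lit 5) (nat_lit 287) (nat_lit 5) (nat_lit 582) (nat_lit 497) (nat_lit 481))) (XT.nd (nat_lit 78) (nat_lit 1140) (nat_lit 0) (XT.lf (nat_lit 0) (nat_lit 541695225) (nat_lit 684) (nat_lit 1183756856) (nat_lit 76) (nat_lit 6665177724) (nat_lit 277) (nat_lit 5) (nat_lit 286) (nat_lit 5) (nat_lit 278) (nat_lit 5) (nat_lit 583) (nat_lit 497) (nat_lit 480)) (XT.nd (nat_lit 78) (nat_lit 608) (nat_lit 0) (XT.lf (nat_lit 0) (nat_lit 4273698140) (nat_lit 608) (nat_lit 2797811607) (nat_lit 76) (nat_lit 1386553339) (nat_lit 270) (nat_lit 5) (nat_lit 278) (nat_lit 5) (nat_lit 271) (nat_lit 5) (nat_lit 584) (nat_lit 497) (nat_lit 479)) (XT.lf (nat_lit 0) (nat_lit 4092804792) (nat_lit 608) (nat_lit 3975533176) (nat_lit 684) (nat_lit 458748565) (nat_lit 262) (nat_lit 5) (nat_lit 270) (nat_lit 5) (nat_lit 271) (nat_lit 5) (nat_lit 585) (nat_lit 497) (nat_lit 478))))))) (XT.nd (nat_lit 780) (nat_lit 3724) (nat_lit 0) (XT.nd (nat_lit 390) (nat_lit 1976) (nat_lit 0) (XT.nd (nat_lit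 156) (nat_lit 1140) (nat_lit 0) (XT.nd (nat_lit 78) (nat_lit 532) (nat_lit 0) (XT.lf (nat_lit 0) (nat_lit 2492781177) (nat_lit 532) (nat_lit 782101217) (nat_lit 608) (nat_lit 5322629047) (nat_lit 254) (nat_lit 5) (nat_lit 261) (nat_lit 5) (nat_lit 262) (nat_lit 5) (nat_lit 586) (nat_lit 497) (nat_lit 477)) (XT.lf (nat_lit 0) (nat_lit 861123434) (nat_lit 532) (nat_lit 6210251603) (nat_lit 608) (nat_lit 1598023882) (nat_lit 247) (nat_lit 5) (nat_lit 254) (nat_lit 5) (nat_lit 255) (nat_lit 5) (nat_lit 587) (nat_lit 497) (nat_lit 476))) (XT.nd (nat_lit 78) (nat_lit 1064) (nat_lit 0) (XT.lf (nat_lit 0) (nat_lit 2161560246) (nat_lit 608) (nat_lit 793438392) (nat_lit 76) (nat_lit 5787653908) (nat_lit 246) (nat_lit 5) (nat_lit 254) (nat_lit 5) (nat_lit 247) (nat_lit 5) (nat_lit 588) (nat_lit 497) (nat_lit 475)) (XT.nd (nat_lit 78) (nat_lit 608) (nat_lit 0) (XT.lf (nat_lit 0) (nat_lit 5962841396) (nat_lit 532) (nat_lit 2464808774) (nat_lit 76) (nat_lit 389753034) (nat_lit 240) (nat_lit 5) (nat_lit 247) (nat_lit 5)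 (nat_lit 241) (nat_lit 5) (nat_lit 589) (nat_lit 497) (nat_lit 474)) (XT.lf (nat_lit 0) (nat_lit 934159093) (nat_lit 608) (nat_lit 4178404148) (nat_lit 76) (nat_lit 3780962490) (nat_lit 232) (nat_lit 5) (nat_lit 240) (nat_lit 5) (nat_lit 233) (nat_lit 5) (nat_lit 590) (nat_lit 497) (nat_lit 473))))) (XT.nd (nat_lit 156) (nat_lit 1064) (nat_lit 0) (XT.nd (nat_lit 78) (nat_lit 456) (nat_lit 0) (XT.lf (nat_lit 0) (nat_lit 3042207502) (nat_lit 456) (nat_lit 1699361689) (nat_lit 532) (nat_lit 4229602598) (nat_lit 226) (nat_lit 5) (nat_lit 232) (nat_lit 5) (nat_lit 233) (nat_lit 5) (nat_lit 591) (nat_lit 497) (nat_lit 472)) (XT.lf (nat_lit 0) (nat_lit 1339563493) (nat_lit 456) (nat_lit 7279165790) (nat_lit 532) (nat_lit 431770629) (nat_lit 220) (nat_lit 5) (nat_lit 226) (nat_lit 5) (nat_lit 227) (nat_lit 5) (nat_lit 592) (nat_lit 497) (nat_lit 471))) (XT.nd (nat_lit 78) (nat_lit 988) (nat_lit 0) (XT.lf (nat_lit 0) (nat_lit 3393485517) (nat_lit 532) (nat_lit 411163001) (nat_lit 76) (nat_lit 5326388051) (nat_lit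 219) (nat_lit 5) (nat_lit 226) (nat_lit 5) (nat_lit 220) (nat_lit 5) (nat_lit 593) (nat_lit 497) (nat_lit 470)) (XT.nd (nat_lit 78) (nat_lit 532) (nat_lit 0) (XT.lf (nat_lit 0) (nat_lit 7045215119) (nat_lit 456) (nat_lit 236376517) (nat_lit 532) (nat_lit 1931693829) (nat_lit 213) (nat_lit 5) (nat_lit 219) (nat_lit 5) (nat_lit 220) (nat_lit 5) (nat_lit 594) (nat_lit 497) (nat_lit 469)) (XT.lf (nat_lit 0) (nat_lit 1930962903) (nat_lit 532) (nat_lit 3982141012) (nat_lit 76) (nat_lit 3383698028) (nat_lit 206) (nat_lit 5) (nat_lit 213) (nat_lit 5) (nat_lit 207) (nat_lit 5) (nat_lit 595) (nat_lit 497) (nat_lit 468)))))) (XT.nd (nat_lit 390) (nat_lit 1976) (nat_lit 0) (XT.nd (nat_lit 156) (nat_lit 836) (nat_lit 0) (XT.nd (nat_lit 78) (nat_lit 532) (nat_lit 0) (XT.lf (nat_lit 0) (nat_lit 3547313078) (nat_lit 380) (nat_lit 2283899435) (nat_lit 456) (nat_lit 3550797811) (nat_lit 201) (nat_lit 5) (nat_lit 206) (nat_lit 5) (nat_lit 207) (nat_lit 5) (nat_lit 596) (nat_lit 497) (nat_lit 467)) (XT.lf (nat_lit 0) (nat_lit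 330782239) (nat_lit 532) (nat_lit 7724585142) (nat_lit 76) (nat_lit 1413618193) (nat_lit 194) (nat_lit 5) (nat_lit 201) (nat_lit 5) (nat_lit 195) (nat_lit 5) (nat_lit 597) (nat_lit 497) (nat_lit 466))) (XT.nd (nat_lit 78) (nat_lit 836) (nat_lit 0) (XT.lf (nat_lit 0) (nat_lit 4244498120) (nat_lit 532) (nat_lit 121670821) (nat_lit 76) (nat_lit 5191021969) (nat_lit 194) (nat_lit 5) (nat_lit 201) (nat_lit 5) (nat_lit 195) (nat_lit 5) (nat_lit 598) (nat_lit 497) (nat_lit 465)) (XT.nd (nat_lit 78) (nat_lit 456) (nat_lit 0) (XT.lf (nat_lit 0) (nat_lit 7655246008) (nat_lit 380) (nat_lit 579441929) (nat_lit 456) (nat_lit 1412509391) (nat_lit 189) (nat_lit 5) (nat_lit 194) (nat_lit 5) (nat_lit 195) (nat_lit 5) (nat_lit 599) (nat_lit 497) (nat_lit 464)) (XT.lf (nat_lit 0) (nat_lit 2540879315) (nat_lit 456) (nat_lit 3928870992) (nat_lit 76) (nat_lit 3268744316) (nat_lit 183) (nat_lit 5) (nat_lit 189) (nat_lit 5) (nat_lit 184) (nat_lit 5) (nat_lit 600) (nat_lit 497) (nat_lit 463))))) (XT.nd (nat_lit 234) (nat_lit 1140)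 (nat_lit 0) (XT.nd (nat_lit 78) (nat_lit 456) (nat_lit 0) (XT.lf (nat_lit 0) (nat_lit 3922093562) (nat_lit 380) (nat_lit 2624088497) (nat_lit 456) (nat_lit 3285414787) (nat_lit 178) (nat_lit 5) (nat_lit 183) (nat_lit 5) (nat_lit 184) (nat_lit 5) (nat_lit 601) (nat_lit 497) (nat_lit 462)) (XT.nd (nat_lit 78) (nat_lit 0) (nat_lit 0) (XT.lf (nat_lit 0) (nat_lit 692984998) (nat_lit 456) (nat_lit 7935565639) (nat_lit 76) (nat_lit 1297975765) (nat_lit 172) (nat_lit 5) (nat_lit 178) (nat_lit 5) (nat_lit 173) (nat_lit 5) (nat_lit 602) (nat_lit 497) (nat_lit 461)) (XT.lf (nat_lit 0) (nat_lit 4713742599) (nat_lit 456) (nat_lit 11829141) (nat_lit 76) (nat_lit 5297213706) (nat_lit 172) (nat_lit 5) (nat_lit 178) (nat_lit 5) (nat_lit 173) (nat_lit 5) (nat_lit 603) (nat_lit 497) (nat_lit 460)))) (XT.nd (nat_lit 78) (nat_lit 760) (nat_lit 0) (XT.lf (nat_lit 0) (nat_lit 8098747371) (nat_lit 380) (nat_lit 719185550) (nat_lit 456) (nat_lit 1302977239) (nat_lit 167) (nat_lit 5) (nat_lit 172) (nat_lit 5) (nat_lit 173) (nat_lit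 5) (nat_lit 604) (nat_lit 497) (nat_lit 459)) (XT.nd (nat_lit 78) (nat_lit 304) (nat_lit 0) (XT.lf (nat_lit 0) (nat_lit 2759260697) (nat_lit 456) (nat_lit 4107793094) (nat_lit 76) (nat_lit 3353331912) (nat_lit 161) (nat_lit 5) (nat_lit 167) (nat_lit 5) (nat_lit 162) (nat_lit 5) (nat_lit 605) (nat_lit 497) (nat_lit 458)) (XT.lf (nat_lit 0) (nat_lit 4077593211) (nat_lit 304) (nat_lit 2803476174) (nat_lit 380) (nat_lit 3440694456) (nat_lit 157) (nat_lit 5) (nat_lit 161) (nat_lit 5) (nat_lit 162) (nat_lit 5) (nat_lit 606) (nat_lit 497) (nat_lit 457))))))))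
noncomputable def xc22 : XT := (XT.nd (nat_lit 78000) (nat_lit 0) (nat_lit 12084) (XT.nd (nat_lit 780) (nat_lit 1824) (nat_lit 0) (XT.nd (nat_lit 390) (nat_lit 1368) (nat_lit 0) (XT.nd (nat_lit 156) (nat_lit 1064) (nat_lit 0) (XT.nd (nat_lit 78) (nat_lit 0) (nat_lit 0) (XT.lf (nat_lit 0) (nat_lit 652038795) (nat_lit 456) (nat_lit 8432953877) (nat_lit 76) (nat_lit 1340080869) (nat_lit 151) (nat_lit 5) (nat_lit 157) (nat_lit 5) (nat_lit 152) (nat_lit 5) (nat_lit 607) (nat_lit 497) (nat_lit 456)) (XT.lf (nat_lit 0) (nat_lit 4792603791) (nat_lit 456) (nat_lit 172144386) (nat_lit 76) (nat_lit 5565006186) (nat_lit 151) (nat_lit 5) (nat_lit 157) (nat_lit 5) (nat_lit 152) (nat_lit 5) (nat_lit 608) (nat_lit 497) (nat_lit 455))) (XT.nd (nat_lit 78) (nat_lit 760) (nat_lit 0) (XT.lf (nat_lit 0) (nat_lit 8285408158) (nat_lit 304) (nat_lit 736581666) (nat_lit 380) (nat_lit 1614419515) (nat_lit 147) (nat_lit 5) (nat_lit 151) (nat_lit 5) (nat_lit 152) (nat_lit 5) (nat_lit 609) (nat_lit 497) (nat_lit 454)) (XT.nd (nat_lit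 78) (nat_lit 304) (nat_lit 0) (XT.lf (nat_lit 0) (nat_lit 2573669740) (nat_lit 456) (nat_lit 4612488713) (nat_lit 76) (nat_lit 3558365609) (nat_lit 141) (nat_lit 5) (nat_lit 147) (nat_lit 5) (nat_lit 142) (nat_lit 5) (nat_lit 610) (nat_lit 497) (nat_lit 453)) (XT.lf (nat_lit 0) (nat_lit 3920348113) (nat_lit 304) (nat_lit 2902373197) (nat_lit 380) (nat_lit 4031890681) (nat_lit 137) (nat_lit 5) (nat_lit 141) (nat_lit 5) (nat_lit 142) (nat_lit 5) (nat_lit 611) (nat_lit 497) (nat_lit 452))))) (XT.nd (nat_lit 156) (nat_lit 988) (nat_lit 0) (XT.nd (nat_lit 78) (nat_lit 0) (nat_lit 0) (XT.lf (nat_lit 0) (nat_lit 191632914) (nat_lit 380) (nat_lit 9313774509) (nat_lit 76) (nat_lit 1461384854) (nat_lit 132) (nat_lit 5) (nat_lit 137) (nat_lit 5) (nat_lit 133) (nat_lit 5) (nat_lit 612) (nat_lit 497) (nat_lit 451)) (XT.lf (nat_lit 0) (nat_lit 4464685360) (nat_lit 380) (nat_lit 698334815) (nat_lit 76) (nat_lit 5917282721) (nat_lit 132) (nat_lit 5) (nat_lit 137) (nat_lit 5) (nat_lit 133) (nat_lit 5) (nat_lit 613) (nat_lit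 497) (nat_lit 450))) (XT.nd (nat_lit 78) (nat_lit 684) (nat_lit 0) (XT.lf (nat_lit 0) (nat_lit 8119570278) (nat_lit 304) (nat_lit 710202281) (nat_lit 380) (nat_lit 2366180331) (nat_lit 128) (nat_lit 5) (nat_lit 132) (nat_lit 5) (nat_lit 133) (nat_lit 5) (nat_lit 614) (nat_lit 497) (nat_lit 449)) (XT.nd (nat_lit 78) (nat_lit 304) (nat_lit 0) (XT.lf (nat_lit 0) (nat_lit 1963792459) (nat_lit 380) (nat_lit 5542537253) (nat_lit 76) (nat_lit 3806903990) (nat_lit 123) (nat_lit 5) (nat_lit 128) (nat_lit 5) (nat_lit 124) (nat_lit 5) (nat_lit 615) (nat_lit 497) (nat_lit 448)) (XT.lf (nat_lit 0) (nat_lit 3350750011) (nat_lit 304) (nat_lit 2999378437) (nat_lit 380) (nat_lit 5082390534) (nat_lit 119) (nat_lit 5) (nat_lit 123) (nat_lit 5) (nat_lit 124) (nat_lit 5) (nat_lit 616) (nat_lit 497) (nat_lit 447)))))) (XT.nd (nat_lit 390) (nat_lit 608) (nat_lit 0) (XT.nd (nat_lit 156) (nat_lit 836) (nat_lit 0) (XT.nd (nat_lit 78) (nat_lit 76) (nat_lit 0) (XT.lf (nat_lit 0) (nat_lit 867483275) (nat_lit 304) (nat_lit 9964535519)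 (nat_lit 380) (nat_lit 722015211) (nat_lit 115) (nat_lit 5) (nat_lit 119) (nat_lit 5) (nat_lit 120) (nat_lit 5) (nat_lit 617) (nat_lit 497) (nat_lit 446)) (XT.lf (nat_lit 0) (nat_lit 3705642618) (nat_lit 380) (nat_lit 1692996544) (nat_lit 76) (nat_lit 6278278226) (nat_lit 114) (nat_lit 5) (nat_lit 119) (nat_lit 5) (nat_lit 115) (nat_lit 5) (nat_lit 618) (nat_lit 497) (nat_lit 445))) (XT.nd (nat_lit 78) (nat_lit 608) (nat_lit 0) (XT.lf (nat_lit 0) (nat_lit 7498539412) (nat_lit 228) (nat_lit 717714442) (nat_lit 304) (nat_lit 3585828329) (nat_lit 111) (nat_lit 5) (nat_lit 114) (nat_lit 5) (nat_lit 115) (nat_lit 5) (nat_lit 619) (nat_lit 497) (nat_lit 444)) (XT.nd (nat_lit 78) (nat_lit 228) (nat_lit 0) (XT.lf (nat_lit 0) (nat_lit 901203486) (nat_lit 380) (nat_lit 7005240643) (nat_lit 76) (nat_lit 4022681179) (nat_lit 106) (nat_lit 5) (nat_lit 111) (nat_lit 5) (nat_lit 107) (nat_lit 5) (nat_lit 620) (nat_lit 497) (nat_lit 443)) (XT.lf (nat_lit 0) (nat_lit 2261296225) (nat_lit 228) (nat_lit 3172869143) (nat_lit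 304) (nat_lit 6623986330) (nat_lit 103) (nat_lit 5) (nat_lit 106) (nat_lit 5) (nat_lit 107) (nat_lit 5) (nat_lit 621) (nat_lit 497) (nat_lit 442))))) (XT.nd (nat_lit 156) (nat_lit 228) (nat_lit 0) (XT.nd (nat_lit 78) (nat_lit 380) (nat_lit 0) (XT.lf (nat_lit 0) (nat_lit 10071686085) (nat_lit 304) (nat_lit 467668529) (nat_lit 76) (nat_lit 1650126524) (nat_lit 103) (nat_lit 5) (nat_lit 107) (nat_lit 5) (nat_lit 104) (nat_lit 5) (nat_lit 622) (nat_lit 497) (nat_lit 441)) (XT.lf (nat_lit 0) (nat_lit 2482864918) (nat_lit 380) (nat_lit 3267398329) (nat_lit 76) (nat_lit 6572115546) (nat_lit 98) (nat_lit 5) (nat_lit 103) (nat_lit 5) (nat_lit 99) (nat_lit 5) (nat_lit 623) (nat_lit 497) (nat_lit 440))) (XT.nd (nat_lit 76518) (nat_lit 0) (nat_lit 24396) (XT.lf (nat_lit 0) (nat_lit 6310761641) (nat_lit 228) (nat_lit 837360302) (nat_lit 304) (nat_lit 5309514147) (nat_lit 95) (nat_lit 5) (nat_lit 98) (nat_lit 5) (nat_lit 99) (nat_lit 5) (nat_lit 624) (nat_lit 497) (nat_lit 439)) (XT.nd (nat_lit 78) (nat_lit 912) (nat_lit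 0) (XT.lf (nat_lit 0) (nat_lit 1138793271) (nat_lit 912) (nat_lit 1404471436) (nat_lit 0) (nat_lit 1138793271) (nat_lit 428) (nat_lit 5) (nat_lit 440) (nat_lit 4) (nat_lit 428) (nat_lit 4) (nat_lit 564) (nat_lit 498) (nat_lit 498)) (XT.lf (nat_lit 0) (nat_lit 2982984111) (nat_lit 912) (nat_lit 2983689633) (nat_lit 912) (nat_lit 1440177926) (nat_lit 416) (nat_lit 4) (nat_lit 428) (nat_lit 5) (nat_lit 428) (nat_lit 4) (nat_lit 565) (nat_lit 498) (nat_lit 497))))))) (XT.nd (nat_lit 780) (nat_lit 5852) (nat_lit 0) (XT.nd (nat_lit 390) (nat_lit 3040) (nat_lit 0) (XT.nd (nat_lit 156) (nat_lit 2508) (nat_lit 0) (XT.nd (nat_lit 78) (nat_lit 0) (nat_lit 0) (XT.lf (nat_lit 0) (nat_lit 1404654899) (nat_lit 836) (nat_lit 803965584) (nat_lit 912) (nat_lit 5242339859) (nat_lit 404) (nat_lit 5) (nat_lit 415) (nat_lit 5) (nat_lit 416) (nat_lit 4) (nat_lit 566) (nat_lit 498) (nat_lit 496)) (XT.lf (nat_lit 0) (nat_lit 5882329883) (nat_lit 912) (nat_lit 182986599) (nat_lit 0) (nat_lit 1431022290) (nat_lit 404) (nat_lit 5)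 (nat_lit 416) (nat_lit 4) (nat_lit 404) (nat_lit 4) (nat_lit 567) (nat_lit 498) (nat_lit 495))) (XT.nd (nat_lit 78) (nat_lit 1596) (nat_lit 0) (XT.lf (nat_lit 0) (nat_lit 2035719482) (nat_lit 912) (nat_lit 1765120468) (nat_lit 76) (nat_lit 3741992084) (nat_lit 392) (nat_lit 5) (nat_lit 404) (nat_lit 5) (nat_lit 393) (nat_lit 4) (nat_lit 568) (nat_lit 498) (nat_lit 494)) (XT.nd (nat_lit 78) (nat_lit 836) (nat_lit 0) (XT.lf (nat_lit 0) (nat_lit 4237519228) (nat_lit 760) (nat_lit 1461886295) (nat_lit 836) (nat_lit 1891386993) (nat_lit 382) (nat_lit 5) (nat_lit 392) (nat_lit 5) (nat_lit 393) (nat_lit 4) (nat_lit 569) (nat_lit 498) (nat_lit 493)) (XT.lf (nat_lit 0) (nat_lit 1742846045) (nat_lit 836) (nat_lit 4955798198) (nat_lit 76) (nat_lit 941441673) (nat_lit 371) (nat_lit 5) (nat_lit 382) (nat_lit 5) (nat_lit 372) (nat_lit 4) (nat_lit 570) (nat_lit 498) (nat_lit 492))))) (XT.nd (nat_lit 156) (nat_lit 2204) (nat_lit 0) (XT.nd (nat_lit 78) (nat_lit 76) (nat_lit 0) (XT.lf (nat_lit 0) (nat_lit 1112051787) (nat_lit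 760) (nat_lit 4286844934) (nat_lit 836) (nat_lit 2291731341) (nat_lit 361) (nat_lit 5) (nat_lit 371) (nat_lit 5) (nat_lit 372) (nat_lit 4) (nat_lit 571) (nat_lit 498) (nat_lit 491)) (XT.lf (nat_lit 0) (nat_lit 1336413155) (nat_lit 836) (nat_lit 460962091) (nat_lit 76) (nat_lit 5945253815) (nat_lit 360) (nat_lit 5) (nat_lit 371) (nat_lit 5) (nat_lit 361) (nat_lit 5) (nat_lit 572) (nat_lit 498) (nat_lit 490))) (XT.nd (nat_lit 78) (nat_lit 1444) (nat_lit 0) (XT.lf (nat_lit 0) (nat_lit 4985447940) (nat_lit 836) (nat_lit 2038687652) (nat_lit 76) (nat_lit 771653220) (nat_lit 350) (nat_lit 5) (nat_lit 361) (nat_lit 5) (nat_lit 351) (nat_lit 4) (nat_lit 573) (nat_lit 498) (nat_lit 489)) (XT.nd (nat_lit 78) (nat_lit 684) (nat_lit 0) (XT.lf (nat_lit 0) (nat_lit 825648064) (nat_lit 760) (nat_lit 3634368886) (nat_lit 76) (nat_lit 3390296522) (nat_lit 340) (nat_lit 5) (nat_lit 350) (nat_lit 5) (nat_lit 341) (nat_lit 5) (nat_lit 574) (nat_lit 498) (nat_lit 488)) (XT.lf (nat_lit 0) (nat_lit 2655674778) (nat_lit 684) (nat_lit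 1809571319) (nat_lit 760) (nat_lit 3440942464) (nat_lit 331) (nat_lit 5) (nat_lit 340) (nat_lit 5) (nat_lit 341) (nat_lit 5) (nat_lit 575) (nat_lit 498) (nat_lit 487)))))) (XT.nd (nat_lit 390) (nat_lit 3116) (nat_lit 0) (XT.nd (nat_lit 156) (nat_lit 1976) (nat_lit 0) (XT.nd (nat_lit 78) (nat_lit 0) (nat_lit 0) (XT.lf (nat_lit 0) (nat_lit 186984669) (nat_lit 760) (nat_lit 6877236315) (nat_lit 76) (nat_lit 899427260) (nat_lit 321) (nat_lit 5) (nat_lit 331) (nat_lit 5) (nat_lit 322) (nat_lit 5) (nat_lit 576) (nat_lit 498) (nat_lit 486)) (XT.lf (nat_lit 0) (nat_lit 3827279994) (nat_lit 760) (nat_lit 514335555) (nat_lit 76) (nat_lit 3680470752) (nat_lit 321) (nat_lit 5) (nat_lit 331) (nat_lit 5) (nat_lit 322) (nat_lit 5) (nat_lit 577) (nat_lit 498) (nat_lit 485))) (XT.nd (nat_lit 78) (nat_lit 1292) (nat_lit 0) (XT.lf (nat_lit 0) (nat_lit 5976732262) (nat_lit 684) (nat_lit 1542051753) (nat_lit 760) (nat_lit 563342768) (nat_lit 312) (nat_lit 5) (nat_lit 321) (nat_lit 5) (nat_lit 322) (nat_lit 5) (nat_lit 578) (nat_lit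 498) (nat_lit 484)) (XT.nd (nat_lit 78) (nat_lit 608) (nat_lit 0) (XT.lf (nat_lit 0) (nat_lit 3080384585) (nat_lit 684) (nat_lit 3731186855) (nat_lit 76) (nat_lit 1331773926) (nat_lit 303) (nat_lit 5) (nat_lit 312) (nat_lit 5) (nat_lit 304) (nat_lit 5) (nat_lit 579) (nat_lit 498) (nat_lit 483)) (XT.lf (nat_lit 0) (nat_lit 2827816017) (nat_lit 608) (nat_lit 3944875351) (nat_lit 684) (nat_lit 1433359136) (nat_lit 295) (nat_lit 5) (nat_lit 303) (nat_lit 5) (nat_lit 304) (nat_lit 5) (nat_lit 580) (nat_lit 498) (nat_lit 482))))) (XT.nd (nat_lit 234) (nat_lit 1748) (nat_lit 0) (XT.nd (nat_lit 78) (nat_lit 684) (nat_lit 0) (XT.lf (nat_lit 0) (nat_lit 1221587122) (nat_lit 608) (nat_lit 991344354) (nat_lit 684) (nat_lit 6057308146) (nat_lit 286) (nat_lit 5) (nat_lit 294) (nat_lit 5) (nat_lit 295) (nat_lit 5) (nat_lit 581) (nat_lit 498) (nat_lit 481)) (XT.nd (nat_lit 78) (nat_lit 684) (nat_lit 0) (XT.lf (nat_lit 0) (nat_lit 5903673064) (nat_lit 684) (nat_lit 410672335) (nat_lit 76) (nat_lit 2021364804) (nat_lit 286)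 (nat_lit 5) (nat_lit 295) (nat_lit 5) (nat_lit 287) (nat_lit 5) (nat_lit 582) (nat_lit 498) (nat_lit 480)) (XT.lf (nat_lit 0) (nat_lit 1239325779) (nat_lit 684) (nat_lit 2051517898) (nat_lit 76) (nat_lit 5111679883) (nat_lit 277) (nat_lit 5) (nat_lit 286) (nat_lit 5) (nat_lit 278) (nat_lit 5) (nat_lit 583) (nat_lit 498) (nat_lit 479)))) (XT.nd (nat_lit 78) (nat_lit 1216) (nat_lit 0) (XT.lf (nat_lit 0) (nat_lit 4751217657) (nat_lit 532) (nat_lit 176634961) (nat_lit 608) (nat_lit 3542974458) (nat_lit 270) (nat_lit 5) (nat_lit 277) (nat_lit 5) (nat_lit 278) (nat_lit 5) (nat_lit 584) (nat_lit 498) (nat_lit 478)) (XT.nd (nat_lit 78) (nat_lit 532) (nat_lit 0) (XT.lf (nat_lit 0) (nat_lit 144401593) (nat_lit 684) (nat_lit 5420885633) (nat_lit 76) (nat_lit 2975257163) (nat_lit 261) (nat_lit 5) (nat_lit 270) (nat_lit 5) (nat_lit 262) (nat_lit 5) (nat_lit 585) (nat_lit 498) (nat_lit 477)) (XT.lf (nat_lit 0) (nat_lit 1450637000) (nat_lit 532) (nat_lit 2386579852) (nat_lit 608) (nat_lit 4774389527) (nat_lit 254) (nat_lit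 5) (nat_lit 261) (nat_lit 5) (nat_lit 262) (nat_lit 5) (nat_lit 586) (nat_lit 498) (nat_lit 476))))))))
noncomputable def xc23 : XT := (XT.nd (nat_lit 1560) (nat_lit 4484) (nat_lit 0) (XT.nd (nat_lit 780) (nat_lit 3344) (nat_lit 0) (XT.nd (nat_lit 390) (nat_lit 1900) (nat_lit 0) (XT.nd (nat_lit 156) (nat_lit 1520) (nat_lit 0) (XT.nd (nat_lit 78) (nat_lit 608) (nat_lit 0) (XT.lf (nat_lit 0) (nat_lit 7589896338) (nat_lit 608) (nat_lit 235114667) (nat_lit 76) (nat_lit 859359773) (nat_lit 254) (nat_lit 5) (nat_lit 262) (nat_lit 5) (nat_lit 255) (nat_lit 5) (nat_lit 587) (nat_lit 498) (nat_lit 475)) (XT.lf (nat_lit 0) (nat_lit 2629253680) (nat_lit 608) (nat_lit 1950296807) (nat_lit 76) (nat_lit 4178594199) (nat_lit 246) (nat_lit 5) (nat_lit 254) (nat_lit 5) (nat_lit 247) (nat_lit 5) (nat_lit 588) (nat_lit 498) (nat_lit 474))) (XT.nd (nat_lit 78) (nat_lit 1064) (nat_lit 0) (XT.lf (nat_lit 0) (nat_lit 5144001709) (nat_lit 456) (nat_lit 1248953211) (nat_lit 532) (nat_lit 2440692643) (nat_lit 240) (nat_lit 5) (nat_lit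 246) (nat_lit 5) (nat_lit 247) (nat_lit 5) (nat_lit 589) (nat_lit 498) (nat_lit 473)) (XT.nd (nat_lit 78) (nat_lit 456) (nat_lit 0) (XT.lf (nat_lit 0) (nat_lit 1299003468) (nat_lit 608) (nat_lit 5470003088) (nat_lit 76) (nat_lit 2141582323) (nat_lit 232) (nat_lit 5) (nat_lit 240) (nat_lit 5) (nat_lit 233) (nat_lit 5) (nat_lit 590) (nat_lit 498) (nat_lit 472)) (XT.lf (nat_lit 0) (nat_lit 1694149934) (nat_lit 456) (nat_lit 3376671652) (nat_lit 532) (nat_lit 3918125774) (nat_lit 226) (nat_lit 5) (nat_lit 232) (nat_lit 5) (nat_lit 233) (nat_lit 5) (nat_lit 591) (nat_lit 498) (nat_lit 471))))) (XT.nd (nat_lit 156) (nat_lit 1368) (nat_lit 0) (XT.nd (nat_lit 78) (nat_lit 532) (nat_lit 0) (XT.lf (nat_lit 0) (nat_lit 8901753130) (nat_lit 532) (nat_lit 71925727) (nat_lit 76) (nat_lit 95521770) (nat_lit 226) (nat_lit 5) (nat_lit 233) (nat_lit 5) (nat_lit 227) (nat_lit 5) (nat_lit 592) (nat_lit 498) (nat_lit 470)) (XT.lf (nat_lit 0) (nat_lit 3627320449) (nat_lit 532) (nat_lit 1883105848) (nat_lit 76) (nat_lit 3639817645)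 (nat_lit 219) (nat_lit 5) (nat_lit 226) (nat_lit 5) (nat_lit 220) (nat_lit 5) (nat_lit 593) (nat_lit 498) (nat_lit 469))) (XT.nd (nat_lit 78) (nat_lit 912) (nat_lit 0) (XT.lf (nat_lit 0) (nat_lit 5514893432) (nat_lit 456) (nat_lit 1964572541) (nat_lit 532) (nat_lit 1753746615) (nat_lit 213) (nat_lit 5) (nat_lit 219) (nat_lit 5) (nat_lit 220) (nat_lit 5) (nat_lit 594) (nat_lit 498) (nat_lit 468)) (XT.nd (nat_lit 78) (nat_lit 380) (nat_lit 0) (XT.lf (nat_lit 0) (nat_lit 2058821236) (nat_lit 532) (nat_lit 5602343576) (nat_lit 76) (nat_lit 1656496766) (nat_lit 206) (nat_lit 5) (nat_lit 213) (nat_lit 5) (nat_lit 207) (nat_lit 5) (nat_lit 595) (nat_lit 498) (nat_lit 467)) (XT.lf (nat_lit 0) (nat_lit 1866484330) (nat_lit 380) (nat_lit 4055920590) (nat_lit 456) (nat_lit 3481198867) (nat_lit 201) (nat_lit 5) (nat_lit 206) (nat_lit 5) (nat_lit 207) (nat_lit 5) (nat_lit 596) (nat_lit 498) (nat_lit 466)))))) (XT.nd (nat_lit 390) (nat_lit 1596) (nat_lit 0) (XT.nd (nat_lit 156) (nat_lit 1216) (nat_lit 0) (XT.nd (nat_lit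 78) (nat_lit 456) (nat_lit 0) (XT.lf (nat_lit 0) (nat_lit 353114759) (nat_lit 456) (nat_lit 10659636) (nat_lit 76) (nat_lit 9127723163) (nat_lit 200) (nat_lit 5) (nat_lit 206) (nat_lit 5) (nat_lit 201) (nat_lit 5) (nat_lit 597) (nat_lit 498) (nat_lit 465)) (XT.lf (nat_lit 0) (nat_lit 4238901491) (nat_lit 532) (nat_lit 1935863068) (nat_lit 76) (nat_lit 3405497398) (nat_lit 194) (nat_lit 5) (nat_lit 201) (nat_lit 5) (nat_lit 195) (nat_lit 5) (nat_lit 598) (nat_lit 498) (nat_lit 464))) (XT.nd (nat_lit 78) (nat_lit 836) (nat_lit 0) (XT.lf (nat_lit 0) (nat_lit 5778360167) (nat_lit 380) (nat_lit 2413548397) (nat_lit 456) (nat_lit 1479103934) (nat_lit 189) (nat_lit 5) (nat_lit 194) (nat_lit 5) (nat_lit 195) (nat_lit 5) (nat_lit 599) (nat_lit 498) (nat_lit 463)) (XT.nd (nat_lit 78) (nat_lit 380) (nat_lit 0) (XT.lf (nat_lit 0) (nat_lit 2425407226) (nat_lit 456) (nat_lit 5905555402) (nat_lit 76) (nat_lit 1432351284) (nat_lit 183) (nat_lit 5) (nat_lit 189) (nat_lit 5) (nat_lit 184) (nat_lit 5) (nat_lit 600) (nat_lit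 498) (nat_lit 462)) (XT.lf (nat_lit 0) (nat_lit 1880314935) (nat_lit 380) (nat_lit 4512378369) (nat_lit 456) (nat_lit 3464483607) (nat_lit 178) (nat_lit 5) (nat_lit 183) (nat_lit 5) (nat_lit 184) (nat_lit 5) (nat_lit 601) (nat_lit 498) (nat_lit 461))))) (XT.nd (nat_lit 156) (nat_lit 1140) (nat_lit 0) (XT.nd (nat_lit 78) (nat_lit 380) (nat_lit 0) (XT.lf (nat_lit 0) (nat_lit 470057642) (nat_lit 456) (nat_lit 131143551) (nat_lit 76) (nat_lit 9351853091) (nat_lit 177) (nat_lit 5) (nat_lit 183) (nat_lit 5) (nat_lit 178) (nat_lit 5) (nat_lit 602) (nat_lit 498) (nat_lit 460)) (XT.lf (nat_lit 0) (nat_lit 4461506282) (nat_lit 456) (nat_lit 2196852533) (nat_lit 76) (nat_lit 3391541110) (nat_lit 172) (nat_lit 5) (nat_lit 178) (nat_lit 5) (nat_lit 173) (nat_lit 5) (nat_lit 603) (nat_lit 498) (nat_lit 459))) (XT.nd (nat_lit 78) (nat_lit 760) (nat_lit 0) (XT.lf (nat_lit 0) (nat_lit 5846399503) (nat_lit 380) (nat_lit 2680617420) (nat_lit 456) (nat_lit 1621781719) (nat_lit 167) (nat_lit 5) (nat_lit 172) (nat_lit 5) (nat_lit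 173) (nat_lit 5) (nat_lit 604) (nat_lit 498) (nat_lit 458)) (XT.nd (nat_lit 78) (nat_lit 304) (nat_lit 0) (XT.lf (nat_lit 0) (nat_lit 2392474668) (nat_lit 456) (nat_lit 6470368521) (nat_lit 76) (nat_lit 1386516041) (nat_lit 161) (nat_lit 5) (nat_lit 167) (nat_lit 5) (nat_lit 162) (nat_lit 5) (nat_lit 605) (nat_lit 498) (nat_lit 457)) (XT.lf (nat_lit 0) (nat_lit 1645123766) (nat_lit 304) (nat_lit 4829516475) (nat_lit 380) (nat_lit 3876890373) (nat_lit 157) (nat_lit 5) (nat_lit 161) (nat_lit 5) (nat_lit 162) (nat_lit 5) (nat_lit 606) (nat_lit 498) (nat_lit 456))))))) (XT.nd (nat_lit 780) (nat_lit 1596) (nat_lit 0) (XT.nd (nat_lit 390) (nat_lit 1368) (nat_lit 0) (XT.nd (nat_lit 156) (nat_lit 1064) (nat_lit 0) (XT.nd (nat_lit 78) (nat_lit 380) (nat_lit 0) (XT.lf (nat_lit 0) (nat_lit 175970643) (nat_lit 380) (nat_lit 522595026) (nat_lit 76) (nat_lit 9757243517) (nat_lit 156) (nat_lit 5) (nat_lit 161) (nat_lit 5) (nat_lit 157) (nat_lit 5) (nat_lit 607) (nat_lit 498) (nat_lit 455)) (XT.lf (nat_lit 0) (nat_lit 4284883437)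 (nat_lit 456) (nat_lit 2758237184) (nat_lit 76) (nat_lit 3518002794) (nat_lit 151) (nat_lit 5) (nat_lit 157) (nat_lit 5) (nat_lit 152) (nat_lit 5) (nat_lit 608) (nat_lit 498) (nat_lit 454))) (XT.nd (nat_lit 78) (nat_lit 760) (nat_lit 0) (XT.lf (nat_lit 0) (nat_lit 5627011771) (nat_lit 304) (nat_lit 2846805708) (nat_lit 380) (nat_lit 2194770308) (nat_lit 147) (nat_lit 5) (nat_lit 151) (nat_lit 5) (nat_lit 152) (nat_lit 5) (nat_lit 609) (nat_lit 498) (nat_lit 453)) (XT.nd (nat_lit 78) (nat_lit 304) (nat_lit 0) (XT.lf (nat_lit 0) (nat_lit 1945938199) (nat_lit 456) (nat_lit 7392137127) (nat_lit 76) (nat_lit 1439802729) (nat_lit 141) (nat_lit 5) (nat_lit 147) (nat_lit 5) (nat_lit 142) (nat_lit 5) (nat_lit 610) (nat_lit 498) (nat_lit 452)) (XT.lf (nat_lit 0) (nat_lit 1065641068) (nat_lit 304) (nat_lit 5087801499) (nat_lit 380) (nat_lit 4735354697) (nat_lit 137) (nat_lit 5) (nat_lit 141) (nat_lit 5) (nat_lit 142) (nat_lit 5) (nat_lit 611) (nat_lit 498) (nat_lit 451))))) (XT.nd (nat_lit 156) (nat_lit 988) (nat_lit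 0) (XT.nd (nat_lit 78) (nat_lit 380) (nat_lit 0) (XT.lf (nat_lit 0) (nat_lit 9717287482) (nat_lit 304) (nat_lit 731350666) (nat_lit 380) (nat_lit 553226550) (nat_lit 137) (nat_lit 5) (nat_lit 141) (nat_lit 5) (nat_lit 142) (nat_lit 5) (nat_lit 612) (nat_lit 498) (nat_lit 450)) (XT.lf (nat_lit 0) (nat_lit 3690982483) (nat_lit 380) (nat_lit 3717634927) (nat_lit 76) (nat_lit 3707552041) (nat_lit 132) (nat_lit 5) (nat_lit 137) (nat_lit 5) (nat_lit 133) (nat_lit 5) (nat_lit 613) (nat_lit 498) (nat_lit 449))) (XT.nd (nat_lit 78) (nat_lit 684) (nat_lit 0) (XT.lf (nat_lit 0) (nat_lit 5022605243) (nat_lit 304) (nat_lit 2990961272) (nat_lit 380) (nat_lit 3219103305) (nat_lit 128) (nat_lit 5) (nat_lit 132) (nat_lit 5) (nat_lit 133) (nat_lit 5) (nat_lit 614) (nat_lit 498) (nat_lit 448)) (XT.nd (nat_lit 78) (nat_lit 304) (nat_lit 0) (XT.lf (nat_lit 0) (nat_lit 1063810405) (nat_lit 380) (nat_lit 8772459789) (nat_lit 76) (nat_lit 1514956394) (nat_lit 123) (nat_lit 5) (nat_lit 128) (nat_lit 5) (nat_lit 124) (nat_lit 5)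 (nat_lit 615) (nat_lit 498) (nat_lit 447)) (XT.lf (nat_lit 0) (nat_lit 40204361) (nat_lit 304) (nat_lit 5366208308) (nat_lit 380) (nat_lit 6064974167) (nat_lit 119) (nat_lit 5) (nat_lit 123) (nat_lit 5) (nat_lit 124) (nat_lit 5) (nat_lit 616) (nat_lit 498) (nat_lit 446)))))) (XT.nd (nat_lit 390) (nat_lit 608) (nat_lit 0) (XT.nd (nat_lit 156) (nat_lit 608) (nat_lit 0) (XT.nd (nat_lit 78) (nat_lit 380) (nat_lit 0) (XT.lf (nat_lit 0) (nat_lit 9073375708) (nat_lit 304) (nat_lit 776831488) (nat_lit 380) (nat_lit 1743456864) (nat_lit 119) (nat_lit 5) (nat_lit 123) (nat_lit 5) (nat_lit 124) (nat_lit 5) (nat_lit 617) (nat_lit 498) (nat_lit 445)) (XT.lf (nat_lit 0) (nat_lit 2653770675) (nat_lit 380) (nat_lit 5179790460) (nat_lit 76) (nat_lit 3883995755) (nat_lit 114) (nat_lit 5) (nat_lit 119) (nat_lit 5) (nat_lit 115) (nat_lit 5) (nat_lit 618) (nat_lit 498) (nat_lit 444))) (XT.nd (nat_lit 78) (nat_lit 380) (nat_lit 0) (XT.lf (nat_lit 0) (nat_lit 3928300884) (nat_lit 228) (nat_lit 3191241529) (nat_lit 304) (nat_lit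 4724076332) (nat_lit 111) (nat_lit 5) (nat_lit 114) (nat_lit 5) (nat_lit 115) (nat_lit 5) (nat_lit 619) (nat_lit 498) (nat_lit 443)) (XT.nd (nat_lit 78) (nat_lit 76) (nat_lit 0) (XT.lf (nat_lit 0) (nat_lit 1249231604) (nat_lit 304) (nat_lit 10434956072) (nat_lit 380) (nat_lit 287823533) (nat_lit 107) (nat_lit 5) (nat_lit 111) (nat_lit 5) (nat_lit 112) (nat_lit 5) (nat_lit 620) (nat_lit 498) (nat_lit 442)) (XT.lf (nat_lit 0) (nat_lit 4212708168) (nat_lit 380) (nat_lit 1520788309) (nat_lit 76) (nat_lit 6368302853) (nat_lit 106) (nat_lit 5) (nat_lit 111) (nat_lit 5) (nat_lit 107) (nat_lit 5) (nat_lit 621) (nat_lit 498) (nat_lit 441))))) (XT.nd (nat_lit 76596) (nat_lit 0) (nat_lit 24092) (XT.nd (nat_lit 78) (nat_lit 380) (nat_lit 0) (XT.lf (nat_lit 0) (nat_lit 7894075631) (nat_lit 228) (nat_lit 913953709) (nat_lit 304) (nat_lit 3425943668) (nat_lit 103) (nat_lit 5) (nat_lit 106) (nat_lit 5) (nat_lit 107) (nat_lit 5) (nat_lit 622) (nat_lit 498) (nat_lit 440)) (XT.nd (nat_lit 76440) (nat_lit 0) (nat_lit 25992)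 (XT.lf (nat_lit 0) (nat_lit 1138899908) (nat_lit 380) (nat_lit 7258378200) (nat_lit 76) (nat_lit 3970822123) (nat_lit 98) (nat_lit 5) (nat_lit 103) (nat_lit 5) (nat_lit 99) (nat_lit 5) (nat_lit 623) (nat_lit 498) (nat_lit 439)) (XT.lf (nat_lit 0) (nat_lit 222273509) (nat_lit 912) (nat_lit 1709355551) (nat_lit 912) (nat_lit 1709355551) (nat_lit 440) (nat_lit 4) (nat_lit 452) (nat_lit 5) (nat_lit 452) (nat_lit 4) (nat_lit 562) (nat_lit 499) (nat_lit 499)))) (XT.nd (nat_lit 78) (nat_lit 1824) (nat_lit 0) (XT.lf (nat_lit 0) (nat_lit 203464689) (nat_lit 988) (nat_lit 1194870907) (nat_lit 76) (nat_lit 5924520085) (nat_lit 439) (nat_lit 5) (nat_lit 452) (nat_lit 5) (nat_lit 440) (nat_lit 4) (nat_lit 563) (nat_lit 499) (nat_lit 498)) (XT.nd (nat_lit 78) (nat_lit 988) (nat_lit 0) (XT.lf (nat_lit 0) (nat_lit 3817767496) (nat_lit 912) (nat_lit 2847159869) (nat_lit 0) (nat_lit 699873849) (nat_lit 428) (nat_lit 5) (nat_lit 440) (nat_lit 4) (nat_lit 428) (nat_lit 4) (nat_lit 564) (nat_lit 499) (nat_lit 497)) (XT.lf (nat_lit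 0) (nat_lit 63760344) (nat_lit 988) (nat_lit 4502344524) (nat_lit 76) (nat_lit 2842105452) (nat_lit 415) (nat_lit 5) (nat_lit 428) (nat_lit 5) (nat_lit 416) (nat_lit 4) (nat_lit 565) (nat_lit 499) (nat_lit 496))))))))
noncomputable def xc24 : XT := (XT.nd (nat_lit 1560) (nat_lit 7600) (nat_lit 0) (XT.nd (nat_lit 780) (nat_lit 5320) (nat_lit 0) (XT.nd (nat_lit 390) (nat_lit 3040) (nat_lit 0) (XT.nd (nat_lit 156) (nat_lit 2508) (nat_lit 0) (XT.nd (nat_lit 78) (nat_lit 0) (nat_lit 0) (XT.lf (nat_lit 0) (nat_lit 1277494292) (nat_lit 836) (nat_lit 2382015597) (nat_lit 912) (nat_lit 3793306470) (nat_lit 404) (nat_lit 5) (nat_lit 415) (nat_lit 5) (nat_lit 416) (nat_lit 4) (nat_lit 566) (nat_lit 499) (nat_lit 495)) (XT.lf (nat_lit 0) (nat_lit 7158376959) (nat_lit 836) (nat_lit 132503337) (nat_lit 912) (nat_lit 208162418) (nat_lit 404) (nat_lit 5) (nat_lit 415) (nat_lit 5) (nat_lit 416) (nat_lit 4) (nat_lit 567) (nat_lit 499) (nat_lit 494))) (XT.nd (nat_lit 78) (nat_lit 1596) (nat_lit 0) (XT.lf (nat_lit 0) (nat_lit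 3388454000) (nat_lit 912) (nat_lit 1974114557) (nat_lit 76) (nat_lit 2183479446) (nat_lit 392) (nat_lit 5) (nat_lit 404) (nat_lit 5) (nat_lit 393) (nat_lit 4) (nat_lit 568) (nat_lit 499) (nat_lit 493)) (XT.nd (nat_lit 78) (nat_lit 836) (nat_lit 0) (XT.lf (nat_lit 0) (nat_lit 3987765006) (nat_lit 760) (nat_lit 3030626512) (nat_lit 836) (nat_lit 576293016) (nat_lit 382) (nat_lit 5) (nat_lit 392) (nat_lit 5) (nat_lit 393) (nat_lit 4) (nat_lit 569) (nat_lit 499) (nat_lit 492)) (XT.lf (nat_lit 0) (nat_lit 2386772171) (nat_lit 760) (nat_lit 613803754) (nat_lit 836) (nat_lit 4644034603) (nat_lit 371) (nat_lit 5) (nat_lit 381) (nat_lit 5) (nat_lit 382) (nat_lit 5) (nat_lit 570) (nat_lit 499) (nat_lit 491))))) (XT.nd (nat_lit 156) (nat_lit 2204) (nat_lit 0) (XT.nd (nat_lit 78) (nat_lit 76) (nat_lit 0) (XT.lf (nat_lit 0) (nat_lit 771520551) (nat_lit 760) (nat_lit 5847305419) (nat_lit 836) (nat_lit 1077083732) (nat_lit 361) (nat_lit 5) (nat_lit 371) (nat_lit 5) (nat_lit 372) (nat_lit 4) (nat_lit 571) (nat_lit 499)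 (nat_lit 490)) (XT.lf (nat_lit 0) (nat_lit 2503692715) (nat_lit 836) (nat_lit 852840135) (nat_lit 76) (nat_lit 4391849857) (nat_lit 360) (nat_lit 5) (nat_lit 371) (nat_lit 5) (nat_lit 361) (nat_lit 5) (nat_lit 572) (nat_lit 499) (nat_lit 489))) (XT.nd (nat_lit 78) (nat_lit 1444) (nat_lit 0) (XT.lf (nat_lit 0) (nat_lit 5327265771) (nat_lit 760) (nat_lit 786739364) (nat_lit 836) (nat_lit 1688312729) (nat_lit 350) (nat_lit 5) (nat_lit 360) (nat_lit 5) (nat_lit 361) (nat_lit 5) (nat_lit 573) (nat_lit 499) (nat_lit 488)) (XT.nd (nat_lit 78) (nat_lit 684) (nat_lit 0) (XT.lf (nat_lit 0) (nat_lit 1894007760) (nat_lit 760) (nat_lit 4123941185) (nat_lit 76) (nat_lit 1839527856) (nat_lit 340) (nat_lit 5) (nat_lit 350) (nat_lit 5) (nat_lit 341) (nat_lit 5) (nat_lit 574) (nat_lit 499) (nat_lit 487)) (XT.lf (nat_lit 0) (nat_lit 2121186262) (nat_lit 684) (nat_lit 3378601255) (nat_lit 760) (nat_lit 2414241641) (nat_lit 331) (nat_lit 5) (nat_lit 340) (nat_lit 5) (nat_lit 341) (nat_lit 5) (nat_lit 575) (nat_lit 499) (nat_lit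 486)))))) (XT.nd (nat_lit 390) (nat_lit 2584) (nat_lit 0) (XT.nd (nat_lit 156) (nat_lit 1976) (nat_lit 0) (XT.nd (nat_lit 78) (nat_lit 0) (nat_lit 0) (XT.lf (nat_lit 0) (nat_lit 497591692) (nat_lit 684) (nat_lit 662651963) (nat_lit 760) (nat_lit 6811912262) (nat_lit 321) (nat_lit 5) (nat_lit 330) (nat_lit 5) (nat_lit 331) (nat_lit 5) (nat_lit 576) (nat_lit 499) (nat_lit 485)) (XT.lf (nat_lit 0) (nat_lit 4766334564) (nat_lit 760) (nat_lit 1145715978) (nat_lit 76) (nat_lit 2119228370) (nat_lit 321) (nat_lit 5) (nat_lit 331) (nat_lit 5) (nat_lit 322) (nat_lit 5) (nat_lit 577) (nat_lit 499) (nat_lit 484))) (XT.nd (nat_lit 78) (nat_lit 1216) (nat_lit 0) (XT.lf (nat_lit 0) (nat_lit 327771180) (nat_lit 760) (nat_lit 2795292384) (nat_lit 76) (nat_lit 4968887874) (nat_lit 311) (nat_lit 5) (nat_lit 321) (nat_lit 5) (nat_lit 312) (nat_lit 5) (nat_lit 578) (nat_lit 499) (nat_lit 483)) (XT.nd (nat_lit 78) (nat_lit 608) (nat_lit 0) (XT.lf (nat_lit 0) (nat_lit 3680077391) (nat_lit 608) (nat_lit 241283756) (nat_lit 684)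 (nat_lit 4232591505) (nat_lit 303) (nat_lit 5) (nat_lit 311) (nat_lit 5) (nat_lit 312) (nat_lit 5) (nat_lit 579) (nat_lit 499) (nat_lit 482)) (XT.lf (nat_lit 0) (nat_lit 2038322582) (nat_lit 608) (nat_lit 5539749151) (nat_lit 684) (nat_lit 639298765) (nat_lit 295) (nat_lit 5) (nat_lit 303) (nat_lit 5) (nat_lit 304) (nat_lit 5) (nat_lit 580) (nat_lit 499) (nat_lit 481))))) (XT.nd (nat_lit 156) (nat_lit 1900) (nat_lit 0) (XT.nd (nat_lit 78) (nat_lit 0) (nat_lit 0) (XT.lf (nat_lit 0) (nat_lit 366249962) (nat_lit 608) (nat_lit 2596002001) (nat_lit 684) (nat_lit 5319891811) (nat_lit 286) (nat_lit 5) (nat_lit 294) (nat_lit 5) (nat_lit 295) (nat_lit 5) (nat_lit 581) (nat_lit 499) (nat_lit 480)) (XT.lf (nat_lit 0) (nat_lit 6614059595) (nat_lit 684) (nat_lit 1305902918) (nat_lit 76) (nat_lit 428431260) (nat_lit 286) (nat_lit 5) (nat_lit 295) (nat_lit 5) (nat_lit 287) (nat_lit 5) (nat_lit 582) (nat_lit 499) (nat_lit 479))) (XT.nd (nat_lit 78) (nat_lit 1216) (nat_lit 0) (XT.lf (nat_lit 0) (nat_lit 1893558008) (nat_lit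 684) (nat_lit 3014471045) (nat_lit 76) (nat_lit 3507774596) (nat_lit 277) (nat_lit 5) (nat_lit 286) (nat_lit 5) (nat_lit 278) (nat_lit 5) (nat_lit 583) (nat_lit 499) (nat_lit 478)) (XT.nd (nat_lit 78) (nat_lit 684) (nat_lit 0) (XT.lf (nat_lit 0) (nat_lit 3737187766) (nat_lit 532) (nat_lit 1810478470) (nat_lit 608) (nat_lit 2937129997) (nat_lit 270) (nat_lit 5) (nat_lit 277) (nat_lit 5) (nat_lit 278) (nat_lit 5) (nat_lit 584) (nat_lit 499) (nat_lit 477)) (XT.lf (nat_lit 0) (nat_lit 696851519) (nat_lit 684) (nat_lit 6508825303) (nat_lit 76) (nat_lit 1349667699) (nat_lit 261) (nat_lit 5) (nat_lit 270) (nat_lit 5) (nat_lit 262) (nat_lit 5) (nat_lit 585) (nat_lit 499) (nat_lit 476))))))) (XT.nd (nat_lit 780) (nat_lit 3420) (nat_lit 0) (XT.nd (nat_lit 390) (nat_lit 1976) (nat_lit 0) (XT.nd (nat_lit 156) (nat_lit 1672) (nat_lit 0) (XT.nd (nat_lit 78) (nat_lit 0) (nat_lit 0) (XT.lf (nat_lit 0) (nat_lit 309601189) (nat_lit 532) (nat_lit 4045174053) (nat_lit 608) (nat_lit 4272329757) (nat_lit 254) (nat_lit 5) (nat_lit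 261) (nat_lit 5) (nat_lit 262) (nat_lit 5) (nat_lit 586) (nat_lit 499) (nat_lit 475)) (XT.lf (nat_lit 0) (nat_lit 7276106669) (nat_lit 532) (nat_lit 798504141) (nat_lit 608) (nat_lit 625916110) (nat_lit 254) (nat_lit 5) (nat_lit 261) (nat_lit 5) (nat_lit 262) (nat_lit 5) (nat_lit 587) (nat_lit 499) (nat_lit 474))) (XT.nd (nat_lit 78) (nat_lit 1064) (nat_lit 0) (XT.lf (nat_lit 0) (nat_lit 3051454390) (nat_lit 608) (nat_lit 3207990766) (nat_lit 76) (nat_lit 2515599696) (nat_lit 246) (nat_lit 5) (nat_lit 254) (nat_lit 5) (nat_lit 247) (nat_lit 5) (nat_lit 588) (nat_lit 499) (nat_lit 473)) (XT.nd (nat_lit 78) (nat_lit 608) (nat_lit 0) (XT.lf (nat_lit 0) (nat_lit 3831382172) (nat_lit 456) (nat_lit 2948631671) (nat_lit 532) (nat_lit 2071237329) (nat_lit 240) (nat_lit 5) (nat_lit 246) (nat_lit 5) (nat_lit 247) (nat_lit 5) (nat_lit 589) (nat_lit 499) (nat_lit 472)) (XT.lf (nat_lit 0) (nat_lit 1616928947) (nat_lit 608) (nat_lit 6865766801) (nat_lit 76) (nat_lit 446383035) (nat_lit 232) (nat_lit 5) (nat_lit 240) (nat_lit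 5) (nat_lit 233) (nat_lit 5) (nat_lit 590) (nat_lit 499) (nat_lit 471))))) (XT.nd (nat_lit 156) (nat_lit 1444) (nat_lit 0) (XT.nd (nat_lit 78) (nat_lit 76) (nat_lit 0) (XT.lf (nat_lit 0) (nat_lit 241313767) (nat_lit 456) (nat_lit 5111687291) (nat_lit 532) (nat_lit 3655151700) (nat_lit 226) (nat_lit 5) (nat_lit 232) (nat_lit 5) (nat_lit 233) (nat_lit 5) (nat_lit 591) (nat_lit 499) (nat_lit 470)) (XT.lf (nat_lit 0) (nat_lit 67425611) (nat_lit 532) (nat_lit 1582071986) (nat_lit 76) (nat_lit 7439433535) (nat_lit 225) (nat_lit 5) (nat_lit 232) (nat_lit 5) (nat_lit 226) (nat_lit 5) (nat_lit 592) (nat_lit 499) (nat_lit 469))) (XT.nd (nat_lit 78) (nat_lit 988) (nat_lit 0) (XT.lf (nat_lit 0) (nat_lit 3813262121) (nat_lit 532) (nat_lit 3461870512) (nat_lit 76) (nat_lit 1895755315) (nat_lit 219) (nat_lit 5) (nat_lit 226) (nat_lit 5) (nat_lit 220) (nat_lit 5) (nat_lit 593) (nat_lit 499) (nat_lit 468)) (XT.nd (nat_lit 78) (nat_lit 532) (nat_lit 0) (XT.lf (nat_lit 0) (nat_lit 3877091448) (nat_lit 456) (nat_lit 3752168058)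 (nat_lit 532) (nat_lit 1625320581) (nat_lit 213) (nat_lit 5) (nat_lit 219) (nat_lit 5) (nat_lit 220) (nat_lit 5) (nat_lit 594) (nat_lit 499) (nat_lit 467)) (XT.lf (nat_lit 0) (nat_lit 2006221212) (nat_lit 456) (nat_lit 131850786) (nat_lit 532) (nat_lit 7201890729) (nat_lit 206) (nat_lit 5) (nat_lit 212) (nat_lit 5) (nat_lit 213) (nat_lit 5) (nat_lit 595) (nat_lit 499) (nat_lit 466)))))) (XT.nd (nat_lit 390) (nat_lit 1672) (nat_lit 0) (XT.nd (nat_lit 156) (nat_lit 1292) (nat_lit 0) (XT.nd (nat_lit 78) (nat_lit 76) (nat_lit 0) (XT.lf (nat_lit 0) (nat_lit 74616478) (nat_lit 380) (nat_lit 5889301234) (nat_lit 456) (nat_lit 3462742480) (nat_lit 201) (nat_lit 5) (nat_lit 206) (nat_lit 5) (nat_lit 207) (nat_lit 5) (nat_lit 596) (nat_lit 499) (nat_lit 465)) (XT.lf (nat_lit 0) (nat_lit 346166236) (nat_lit 456) (nat_lit 1863615060) (nat_lit 76) (nat_lit 7305274008) (nat_lit 200) (nat_lit 5) (nat_lit 206) (nat_lit 5) (nat_lit 201) (nat_lit 5) (nat_lit 597) (nat_lit 499) (nat_lit 464))) (XT.nd (nat_lit 78) (nat_lit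 836) (nat_lit 0) (XT.lf (nat_lit 0) (nat_lit 4182699483) (nat_lit 532) (nat_lit 3863256516) (nat_lit 76) (nat_lit 1558849242) (nat_lit 194) (nat_lit 5) (nat_lit 201) (nat_lit 5) (nat_lit 195) (nat_lit 5) (nat_lit 598) (nat_lit 499) (nat_lit 463)) (XT.nd (nat_lit 78) (nat_lit 456) (nat_lit 0) (XT.lf (nat_lit 0) (nat_lit 3787525287) (nat_lit 380) (nat_lit 4310748826) (nat_lit 456) (nat_lit 1598030779) (nat_lit 189) (nat_lit 5) (nat_lit 194) (nat_lit 5) (nat_lit 195) (nat_lit 5) (nat_lit 599) (nat_lit 499) (nat_lit 462)) (XT.lf (nat_lit 0) (nat_lit 1787324290) (nat_lit 380) (nat_lit 473359395) (nat_lit 456) (nat_lit 7528885633) (nat_lit 183) (nat_lit 5) (nat_lit 188) (nat_lit 5) (nat_lit 189) (nat_lit 5) (nat_lit 600) (nat_lit 499) (nat_lit 461))))) (XT.nd (nat_lit 156) (nat_lit 1216) (nat_lit 0) (XT.nd (nat_lit 78) (nat_lit 456) (nat_lit 0) (XT.lf (nat_lit 0) (nat_lit 6188413557) (nat_lit 456) (nat_lit 275526629) (nat_lit 76) (nat_lit 3420283690) (nat_lit 183) (nat_lit 5) (nat_lit 189) (nat_lit 5) (nat_lit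 184) (nat_lit 5) (nat_lit 601) (nat_lit 499) (nat_lit 460)) (XT.lf (nat_lit 0) (nat_lit 215739601) (nat_lit 456) (nat_lit 2353855532) (nat_lit 76) (nat_lit 7411057077) (nat_lit 177) (nat_lit 5) (nat_lit 183) (nat_lit 5) (nat_lit 178) (nat_lit 5) (nat_lit 602) (nat_lit 499) (nat_lit 459))) (XT.nd (nat_lit 78) (nat_lit 836) (nat_lit 0) (XT.lf (nat_lit 0) (nat_lit 4155632229) (nat_lit 456) (nat_lit 4501901141) (nat_lit 76) (nat_lit 1420996008) (nat_lit 172) (nat_lit 5) (nat_lit 178) (nat_lit 5) (nat_lit 173) (nat_lit 5) (nat_lit 603) (nat_lit 499) (nat_lit 458)) (XT.nd (nat_lit 78) (nat_lit 456) (nat_lit 0) (XT.lf (nat_lit 0) (nat_lit 3473182064) (nat_lit 380) (nat_lit 4708968043) (nat_lit 456) (nat_lit 1996058244) (nat_lit 167) (nat_lit 5) (nat_lit 172) (nat_lit 5) (nat_lit 173) (nat_lit 5) (nat_lit 604) (nat_lit 499) (nat_lit 457)) (XT.lf (nat_lit 0) (nat_lit 1318594453) (nat_lit 380) (nat_lit 655839796) (nat_lit 456) (nat_lit 8305357129) (nat_lit 161) (nat_lit 5) (nat_lit 166) (nat_lit 5) (nat_lit 167) (nat_lit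 5) (nat_lit 605) (nat_lit 499) (nat_lit 456))))))))
noncomputable def xc25 : XT := (XT.nd (nat_lit 77766) (nat_lit 0) (nat_lit 14212) (XT.nd (nat_lit 780) (nat_lit 2128) (nat_lit 0) (XT.nd (nat_lit 390) (nat_lit 1064) (nat_lit 0) (XT.nd (nat_lit 156) (nat_lit 1216) (nat_lit 0) (XT.nd (nat_lit 78) (nat_lit 304) (nat_lit 0) (XT.lf (nat_lit 0) (nat_lit 6018278177) (nat_lit 456) (nat_lit 900269392) (nat_lit 76) (nat_lit 3464182003) (nat_lit 161) (nat_lit 5) (nat_lit 167) (nat_lit 5) (nat_lit 162) (nat_lit 5) (nat_lit 606) (nat_lit 499) (nat_lit 455)) (XT.lf (nat_lit 0) (nat_lit 7340035988) (nat_lit 304) (nat_lit 2808656636) (nat_lit 380) (nat_lit 338920782) (nat_lit 157) (nat_lit 5) (nat_lit 161) (nat_lit 5) (nat_lit 162) (nat_lit 5) (nat_lit 607) (nat_lit 499) (nat_lit 454))) (XT.nd (nat_lit 78) (nat_lit 760) (nat_lit 0) (XT.lf (nat_lit 0) (nat_lit 3720161000) (nat_lit 456) (nat_lit 5471677088) (nat_lit 76) (nat_lit 1402219432) (nat_lit 151) (nat_lit 5) (nat_lit 157) (nat_lit 5) (nat_lit 152) (nat_lit 5) (nat_lit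 608) (nat_lit 499) (nat_lit 453)) (XT.nd (nat_lit 78) (nat_lit 456) (nat_lit 0) (XT.lf (nat_lit 0) (nat_lit 2840319742) (nat_lit 304) (nat_lit 5027945073) (nat_lit 380) (nat_lit 2834074031) (nat_lit 147) (nat_lit 5) (nat_lit 151) (nat_lit 5) (nat_lit 152) (nat_lit 5) (nat_lit 609) (nat_lit 499) (nat_lit 452)) (XT.lf (nat_lit 0) (nat_lit 504430445) (nat_lit 380) (nat_lit 759668501) (nat_lit 456) (nat_lit 9548631921) (nat_lit 141) (nat_lit 5) (nat_lit 146) (nat_lit 5) (nat_lit 147) (nat_lit 5) (nat_lit 610) (nat_lit 499) (nat_lit 451))))) (XT.nd (nat_lit 156) (nat_lit 760) (nat_lit 0) (XT.nd (nat_lit 78) (nat_lit 304) (nat_lit 0) (XT.lf (nat_lit 0) (nat_lit 5437190869) (nat_lit 456) (nat_lit 1896447044) (nat_lit 76) (nat_lit 3590700740) (nat_lit 141) (nat_lit 5) (nat_lit 147) (nat_lit 5) (nat_lit 142) (nat_lit 5) (nat_lit 611) (nat_lit 499) (nat_lit 450)) (XT.lf (nat_lit 0) (nat_lit 6693358209) (nat_lit 304) (nat_lit 3004194788) (nat_lit 380) (nat_lit 1340550081) (nat_lit 137) (nat_lit 5) (nat_lit 141) (nat_lit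 5) (nat_lit 142) (nat_lit 5) (nat_lit 612) (nat_lit 499) (nat_lit 449))) (XT.nd (nat_lit 78) (nat_lit 380) (nat_lit 0) (XT.lf (nat_lit 0) (nat_lit 2856566402) (nat_lit 380) (nat_lit 6872157334) (nat_lit 76) (nat_lit 1424935011) (nat_lit 132) (nat_lit 5) (nat_lit 137) (nat_lit 5) (nat_lit 133) (nat_lit 5) (nat_lit 613) (nat_lit 499) (nat_lit 448)) (XT.nd (nat_lit 78) (nat_lit 76) (nat_lit 0) (XT.lf (nat_lit 0) (nat_lit 1789356959) (nat_lit 304) (nat_lit 5346844595) (nat_lit 380) (nat_lit 4134816843) (nat_lit 128) (nat_lit 5) (nat_lit 132) (nat_lit 5) (nat_lit 133) (nat_lit 5) (nat_lit 614) (nat_lit 499) (nat_lit 447)) (XT.lf (nat_lit 0) (nat_lit 111426087) (nat_lit 380) (nat_lit 747046489) (nat_lit 76) (nat_lit 10532195400) (nat_lit 127) (nat_lit 5) (nat_lit 132) (nat_lit 5) (nat_lit 128) (nat_lit 5) (nat_lit 615) (nat_lit 499) (nat_lit 446)))))) (XT.nd (nat_lit 390) (nat_lit 912) (nat_lit 0) (XT.nd (nat_lit 156) (nat_lit 608) (nat_lit 0) (XT.nd (nat_lit 78) (nat_lit 304) (nat_lit 0) (XT.lf (nat_lit 0) (nat_lit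 4421442817) (nat_lit 380) (nat_lit 3366472640) (nat_lit 76) (nat_lit 3723564763) (nat_lit 123) (nat_lit 5) (nat_lit 128) (nat_lit 5) (nat_lit 124) (nat_lit 5) (nat_lit 616) (nat_lit 499) (nat_lit 445)) (XT.lf (nat_lit 0) (nat_lit 5585724818) (nat_lit 304) (nat_lit 3235753536) (nat_lit 380) (nat_lit 2813154552) (nat_lit 119) (nat_lit 5) (nat_lit 123) (nat_lit 5) (nat_lit 124) (nat_lit 5) (nat_lit 617) (nat_lit 499) (nat_lit 444))) (XT.nd (nat_lit 78) (nat_lit 228) (nat_lit 0) (XT.lf (nat_lit 0) (nat_lit 1537109828) (nat_lit 380) (nat_lit 8810293244) (nat_lit 76) (nat_lit 1412481686) (nat_lit 114) (nat_lit 5) (nat_lit 119) (nat_lit 5) (nat_lit 115) (nat_lit 5) (nat_lit 618) (nat_lit 499) (nat_lit 443)) (XT.nd (nat_lit 78) (nat_lit 0) (nat_lit 0) (XT.lf (nat_lit 0) (nat_lit 213171261) (nat_lit 228) (nat_lit 5744354767) (nat_lit 304) (nat_lit 5929327959) (nat_lit 111) (nat_lit 5) (nat_lit 114) (nat_lit 5) (nat_lit 115) (nat_lit 5) (nat_lit 619) (nat_lit 499) (nat_lit 442)) (XT.lf (nat_lit 0) (nat_lit 9464485484)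 (nat_lit 228) (nat_lit 1018466464) (nat_lit 304) (nat_lit 1533079149) (nat_lit 111) (nat_lit 5) (nat_lit 114) (nat_lit 5) (nat_lit 115) (nat_lit 5) (nat_lit 620) (nat_lit 499) (nat_lit 441))))) (XT.nd (nat_lit 156) (nat_lit 304) (nat_lit 0) (XT.nd (nat_lit 78) (nat_lit 228) (nat_lit 0) (XT.lf (nat_lit 0) (nat_lit 2939172911) (nat_lit 380) (nat_lit 5421057369) (nat_lit 76) (nat_lit 3786643114) (nat_lit 106) (nat_lit 5) (nat_lit 111) (nat_lit 5) (nat_lit 107) (nat_lit 5) (nat_lit 621) (nat_lit 499) (nat_lit 440)) (XT.lf (nat_lit 0) (nat_lit 3906174848) (nat_lit 228) (nat_lit 3581739707) (nat_lit 304) (nat_lit 4792064353) (nat_lit 103) (nat_lit 5) (nat_lit 106) (nat_lit 5) (nat_lit 107) (nat_lit 5) (nat_lit 622) (nat_lit 499) (nat_lit 439))) (XT.nd (nat_lit 76284) (nat_lit 0) (nat_lit 26828) (XT.lf (nat_lit 0) (nat_lit 1011517098) (nat_lit 304) (nat_lit 11126070189) (nat_lit 380) (nat_lit 277960605) (nat_lit 99) (nat_lit 5) (nat_lit 103) (nat_lit 5) (nat_lit 104) (nat_lit 5) (nat_lit 623) (nat_lit 499) (nat_lit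 438)) (XT.nd (nat_lit 78) (nat_lit 988) (nat_lit 0) (XT.lf (nat_lit 0) (nat_lit 1897713766) (nat_lit 1140) (nat_lit 852050992) (nat_lit 1140) (nat_lit 852050992) (nat_lit 465) (nat_lit 4) (nat_lit 480) (nat_lit 5) (nat_lit 480) (nat_lit 4) (nat_lit 560) (nat_lit 500) (nat_lit 500)) (XT.lf (nat_lit 0) (nat_lit 1873014353) (nat_lit 988) (nat_lit 5134505356) (nat_lit 0) (nat_lit 235027381) (nat_lit 452) (nat_lit 5) (nat_lit 465) (nat_lit 4) (nat_lit 452) (nat_lit 4) (nat_lit 561) (nat_lit 500) (nat_lit 499))))))) (XT.nd (nat_lit 780) (nat_lit 5624) (nat_lit 0) (XT.nd (nat_lit 390) (nat_lit 3344) (nat_lit 0) (XT.nd (nat_lit 156) (nat_lit 2660) (nat_lit 0) (XT.nd (nat_lit 78) (nat_lit 76) (nat_lit 0) (XT.lf (nat_lit 0) (nat_lit 407205492) (nat_lit 912) (nat_lit 5059654636) (nat_lit 912) (nat_lit 1815798085) (nat_lit 440) (nat_lit 4) (nat_lit 452) (nat_lit 5) (nat_lit 452) (nat_lit 4) (nat_lit 562) (nat_lit 500) (nat_lit 498)) (XT.lf (nat_lit 0) (nat_lit 1751419967) (nat_lit 988) (nat_lit 1280370158) (nat_lit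 76) (nat_lit 4292226344) (nat_lit 439) (nat_lit 5) (nat_lit 452) (nat_lit 5) (nat_lit 440) (nat_lit 4) (nat_lit 563) (nat_lit 500) (nat_lit 497))) (XT.nd (nat_lit 78) (nat_lit 1824) (nat_lit 0) (XT.lf (nat_lit 0) (nat_lit 4398884642) (nat_lit 836) (nat_lit 928162308) (nat_lit 912) (nat_lit 2039689782) (nat_lit 428) (nat_lit 5) (nat_lit 439) (nat_lit 5) (nat_lit 440) (nat_lit 4) (nat_lit 564) (nat_lit 500) (nat_lit 496)) (XT.nd (nat_lit 78) (nat_lit 836) (nat_lit 0) (XT.lf (nat_lit 0) (nat_lit 1511174600) (nat_lit 988) (nat_lit 4668012572) (nat_lit 76) (nat_lit 1231567312) (nat_lit 415) (nat_lit 5) (nat_lit 428) (nat_lit 5) (nat_lit 416) (nat_lit 4) (nat_lit 565) (nat_lit 500) (nat_lit 495)) (XT.lf (nat_lit 0) (nat_lit 1072207082) (nat_lit 836) (nat_lit 4000702770) (nat_lit 912) (nat_lit 2383132102) (nat_lit 404) (nat_lit 5) (nat_lit 415) (nat_lit 5) (nat_lit 416) (nat_lit 4) (nat_lit 566) (nat_lit 500) (nat_lit 494))))) (XT.nd (nat_lit 156) (nat_lit 2432) (nat_lit 0) (XT.nd (nat_lit 78) (nat_lit 836) (nat_lit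 0) (XT.lf (nat_lit 0) (nat_lit 1153753677) (nat_lit 912) (nat_lit 594099585) (nat_lit 76) (nat_lit 5754909934) (nat_lit 403) (nat_lit 5) (nat_lit 415) (nat_lit 5) (nat_lit 404) (nat_lit 5) (nat_lit 567) (nat_lit 500) (nat_lit 493)) (XT.lf (nat_lit 0) (nat_lit 4703346761) (nat_lit 912) (nat_lit 2263007343) (nat_lit 76) (nat_lit 584274293) (nat_lit 392) (nat_lit 5) (nat_lit 404) (nat_lit 5) (nat_lit 393) (nat_lit 4) (nat_lit 568) (nat_lit 500) (nat_lit 492))) (XT.nd (nat_lit 78) (nat_lit 1596) (nat_lit 0) (XT.lf (nat_lit 0) (nat_lit 690529336) (nat_lit 836) (nat_lit 3946686696) (nat_lit 76) (nat_lit 2962631882) (nat_lit 381) (nat_lit 5) (nat_lit 392) (nat_lit 5) (nat_lit 382) (nat_lit 5) (nat_lit 569) (nat_lit 500) (nat_lit 491)) (XT.nd (nat_lit 78) (nat_lit 836) (nat_lit 0) (XT.lf (nat_lit 0) (nat_lit 2001282474) (nat_lit 760) (nat_lit 2224731214) (nat_lit 836) (nat_lit 3424362931) (nat_lit 371) (nat_lit 5) (nat_lit 381) (nat_lit 5) (nat_lit 382) (nat_lit 5) (nat_lit 570) (nat_lit 500) (nat_lit 490)) (XT.lf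 (nat_lit 0) (nat_lit 96229837) (nat_lit 836) (nat_lit 7355290484) (nat_lit 76) (nat_lit 251027694) (nat_lit 360) (nat_lit 5) (nat_lit 371) (nat_lit 5) (nat_lit 361) (nat_lit 5) (nat_lit 571) (nat_lit 500) (nat_lit 489)))))) (XT.nd (nat_lit 390) (nat_lit 3344) (nat_lit 0) (XT.nd (nat_lit 156) (nat_lit 1520) (nat_lit 0) (XT.nd (nat_lit 78) (nat_lit 760) (nat_lit 0) (XT.lf (nat_lit 0) (nat_lit 3632058836) (nat_lit 836) (nat_lit 1328164874) (nat_lit 76) (nat_lit 2795274831) (nat_lit 360) (nat_lit 5) (nat_lit 371) (nat_lit 5) (nat_lit 361) (nat_lit 5) (nat_lit 572) (nat_lit 500) (nat_lit 488)) (XT.lf (nat_lit 0) (nat_lit 4808440203) (nat_lit 760) (nat_lit 2400345531) (nat_lit 836) (nat_lit 601320612) (nat_lit 350) (nat_lit 5) (nat_lit 360) (nat_lit 5) (nat_lit 361) (nat_lit 5) (nat_lit 573) (nat_lit 500) (nat_lit 487))) (XT.nd (nat_lit 78) (nat_lit 760) (nat_lit 0) (XT.lf (nat_lit 0) (nat_lit 2922431646) (nat_lit 760) (nat_lit 4699875665) (nat_lit 76) (nat_lit 243703968) (nat_lit 340) (nat_lit 5) (nat_lit 350)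 (nat_lit 5) (nat_lit 341) (nat_lit 5) (nat_lit 574) (nat_lit 500) (nat_lit 486)) (XT.nd (nat_lit 78) (nat_lit 76) (nat_lit 0) (XT.lf (nat_lit 0) (nat_lit 1499940994) (nat_lit 684) (nat_lit 4994483910) (nat_lit 760) (nat_lit 1428815347) (nat_lit 331) (nat_lit 5) (nat_lit 340) (nat_lit 5) (nat_lit 341) (nat_lit 5) (nat_lit 575) (nat_lit 500) (nat_lit 485)) (XT.lf (nat_lit 0) (nat_lit 2099910321) (nat_lit 760) (nat_lit 183101547) (nat_lit 76) (nat_lit 5698884742) (nat_lit 330) (nat_lit 5) (nat_lit 340) (nat_lit 5) (nat_lit 331) (nat_lit 5) (nat_lit 576) (nat_lit 500) (nat_lit 484))))) (XT.nd (nat_lit 234) (nat_lit 1292) (nat_lit 0) (XT.nd (nat_lit 78) (nat_lit 1368) (nat_lit 0) (XT.lf (nat_lit 0) (nat_lit 5664952459) (nat_lit 760) (nat_lit 1865681730) (nat_lit 76) (nat_lit 511207226) (nat_lit 321) (nat_lit 5) (nat_lit 331) (nat_lit 5) (nat_lit 322) (nat_lit 5) (nat_lit 577) (nat_lit 500) (nat_lit 483)) (XT.nd (nat_lit 78) (nat_lit 608) (nat_lit 0) (XT.lf (nat_lit 0) (nat_lit 1170235388) (nat_lit 760) (nat_lit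 3578961795) (nat_lit 76) (nat_lit 3353881125) (nat_lit 311) (nat_lit 5) (nat_lit 321) (nat_lit 5) (nat_lit 312) (nat_lit 5) (nat_lit 578) (nat_lit 500) (nat_lit 482)) (XT.lf (nat_lit 0) (nat_lit 2848497759) (nat_lit 608) (nat_lit 1881324318) (nat_lit 684) (nat_lit 3435938296) (nat_lit 303) (nat_lit 5) (nat_lit 311) (nat_lit 5) (nat_lit 312) (nat_lit 5) (nat_lit 579) (nat_lit 500) (nat_lit 481)))) (XT.nd (nat_lit 78) (nat_lit 608) (nat_lit 0) (XT.lf (nat_lit 0) (nat_lit 110284909) (nat_lit 684) (nat_lit 7074049074) (nat_lit 76) (nat_lit 1045724675) (nat_lit 294) (nat_lit 5) (nat_lit 303) (nat_lit 5) (nat_lit 295) (nat_lit 5) (nat_lit 580) (nat_lit 500) (nat_lit 480)) (XT.nd (nat_lit 78) (nat_lit 608) (nat_lit 0) (XT.lf (nat_lit 0) (nat_lit 3672865121) (nat_lit 684) (nat_lit 575107598) (nat_lit 76) (nat_lit 4047388660) (nat_lit 294) (nat_lit 5) (nat_lit 303) (nat_lit 5) (nat_lit 295) (nat_lit 5) (nat_lit 581) (nat_lit 500) (nat_lit 479)) (XT.lf (nat_lit 0) (nat_lit 6059209265) (nat_lit 608) (nat_lit 1230965052)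 (nat_lit 684) (nat_lit 1072127754) (nat_lit 286) (nat_lit 5) (nat_lit 294) (nat_lit 5) (nat_lit 295) (nat_lit 5) (nat_lit 582) (nat_lit 500) (nat_lit 478))))))))
noncomputable def xc26 : XT := (XT.nd (nat_lit 1560) (nat_lit 5700) (nat_lit 0) (XT.nd (nat_lit 780) (nat_lit 3572) (nat_lit 0) (XT.nd (nat_lit 390) (nat_lit 2204) (nat_lit 0) (XT.nd (nat_lit 156) (nat_lit 1216) (nat_lit 0) (XT.nd (nat_lit 78) (nat_lit 532) (nat_lit 0) (XT.lf (nat_lit 0) (nat_lit 2504648472) (nat_lit 684) (nat_lit 4072993924) (nat_lit 76) (nat_lit 1852832878) (nat_lit 277) (nat_lit 5) (nat_lit 286) (nat_lit 5) (nat_lit 278) (nat_lit 5) (nat_lit 583) (nat_lit 500) (nat_lit 477)) (XT.lf (nat_lit 0) (nat_lit 2627068652) (nat_lit 532) (nat_lit 3497191344) (nat_lit 608) (nat_lit 2375898481) (nat_lit 270) (nat_lit 5) (nat_lit 277) (nat_lit 5) (nat_lit 278) (nat_lit 5) (nat_lit 584) (nat_lit 500) (nat_lit 476))) (XT.nd (nat_lit 78) (nat_lit 532) (nat_lit 0) (XT.lf (nat_lit 0) (nat_lit 873796782) (nat_lit 608) (nat_lit 333201010) (nat_lit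 684) (nat_lit 7364511245) (nat_lit 261) (nat_lit 5) (nat_lit 269) (nat_lit 5) (nat_lit 270) (nat_lit 5) (nat_lit 585) (nat_lit 500) (nat_lit 475)) (XT.nd (nat_lit 78) (nat_lit 532) (nat_lit 0) (XT.lf (nat_lit 0) (nat_lit 4833803728) (nat_lit 684) (nat_lit 918566455) (nat_lit 76) (nat_lit 2891522332) (nat_lit 261) (nat_lit 5) (nat_lit 270) (nat_lit 5) (nat_lit 262) (nat_lit 5) (nat_lit 586) (nat_lit 500) (nat_lit 474)) (XT.lf (nat_lit 0) (nat_lit 5998594124) (nat_lit 532) (nat_lit 2522344879) (nat_lit 608) (nat_lit 197030071) (nat_lit 254) (nat_lit 5) (nat_lit 261) (nat_lit 5) (nat_lit 262) (nat_lit 5) (nat_lit 587) (nat_lit 500) (nat_lit 473))))) (XT.nd (nat_lit 156) (nat_lit 1140) (nat_lit 0) (XT.nd (nat_lit 78) (nat_lit 456) (nat_lit 0) (XT.lf (nat_lit 0) (nat_lit 3428327945) (nat_lit 608) (nat_lit 4567013484) (nat_lit 76) (nat_lit 798018243) (nat_lit 246) (nat_lit 5) (nat_lit 254) (nat_lit 5) (nat_lit 247) (nat_lit 5) (nat_lit 588) (nat_lit 500) (nat_lit 472)) (XT.lf (nat_lit 0) (nat_lit 2416836515) (nat_lit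 456) (nat_lit 4704769271) (nat_lit 532) (nat_lit 1748666432) (nat_lit 240) (nat_lit 5) (nat_lit 246) (nat_lit 5) (nat_lit 247) (nat_lit 5) (nat_lit 589) (nat_lit 500) (nat_lit 471))) (XT.nd (nat_lit 78) (nat_lit 532) (nat_lit 0) (XT.lf (nat_lit 0) (nat_lit 574000799) (nat_lit 532) (nat_lit 1322646908) (nat_lit 608) (nat_lit 7052183239) (nat_lit 232) (nat_lit 5) (nat_lit 239) (nat_lit 5) (nat_lit 240) (nat_lit 5) (nat_lit 590) (nat_lit 500) (nat_lit 470)) (XT.nd (nat_lit 78) (nat_lit 532) (nat_lit 0) (XT.lf (nat_lit 0) (nat_lit 5596768263) (nat_lit 608) (nat_lit 1299599742) (nat_lit 76) (nat_lit 2132256508) (nat_lit 232) (nat_lit 5) (nat_lit 240) (nat_lit 5) (nat_lit 233) (nat_lit 5) (nat_lit 591) (nat_lit 500) (nat_lit 469)) (XT.lf (nat_lit 0) (nat_lit 253484387) (nat_lit 532) (nat_lit 3199662079) (nat_lit 76) (nat_lit 5656914126) (nat_lit 225) (nat_lit 5) (nat_lit 232) (nat_lit 5) (nat_lit 226) (nat_lit 5) (nat_lit 592) (nat_lit 500) (nat_lit 468)))))) (XT.nd (nat_lit 390) (nat_lit 1672) (nat_lit 0) (XT.nd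 (nat_lit 156) (nat_lit 988) (nat_lit 0) (XT.nd (nat_lit 78) (nat_lit 456) (nat_lit 0) (XT.lf (nat_lit 0) (nat_lit 3951383453) (nat_lit 532) (nat_lit 5148076119) (nat_lit 76) (nat_lit 93517115) (nat_lit 219) (nat_lit 5) (nat_lit 226) (nat_lit 5) (nat_lit 220) (nat_lit 5) (nat_lit 593) (nat_lit 500) (nat_lit 467)) (XT.lf (nat_lit 0) (nat_lit 2131166892) (nat_lit 456) (nat_lit 5599864086) (nat_lit 532) (nat_lit 1546365362) (nat_lit 213) (nat_lit 5) (nat_lit 219) (nat_lit 5) (nat_lit 220) (nat_lit 5) (nat_lit 594) (nat_lit 500) (nat_lit 466))) (XT.nd (nat_lit 78) (nat_lit 456) (nat_lit 0) (XT.lf (nat_lit 0) (nat_lit 176054466) (nat_lit 456) (nat_lit 2003128921) (nat_lit 532) (nat_lit 7184322006) (nat_lit 206) (nat_lit 5) (nat_lit 212) (nat_lit 5) (nat_lit 213) (nat_lit 5) (nat_lit 595) (nat_lit 500) (nat_lit 465)) (XT.nd (nat_lit 78) (nat_lit 456) (nat_lit 0) (XT.lf (nat_lit 0) (nat_lit 5967642208) (nat_lit 532) (nat_lit 1805005595) (nat_lit 76) (nat_lit 1678303282) (nat_lit 206) (nat_lit 5) (nat_lit 213) (nat_lit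 5) (nat_lit 207) (nat_lit 5) (nat_lit 596) (nat_lit 500) (nat_lit 464)) (XT.lf (nat_lit 0) (nat_lit 289246430) (nat_lit 456) (nat_lit 3828708903) (nat_lit 76) (nat_lit 5422126465) (nat_lit 200) (nat_lit 5) (nat_lit 206) (nat_lit 5) (nat_lit 201) (nat_lit 5) (nat_lit 597) (nat_lit 500) (nat_lit 463))))) (XT.nd (nat_lit 156) (nat_lit 836) (nat_lit 0) (XT.nd (nat_lit 78) (nat_lit 380) (nat_lit 0) (XT.lf (nat_lit 0) (nat_lit 3723877069) (nat_lit 456) (nat_lit 354293293) (nat_lit 532) (nat_lit 5552614020) (nat_lit 194) (nat_lit 5) (nat_lit 200) (nat_lit 5) (nat_lit 201) (nat_lit 5) (nat_lit 598) (nat_lit 500) (nat_lit 462)) (XT.lf (nat_lit 0) (nat_lit 1681960650) (nat_lit 380) (nat_lit 6271787213) (nat_lit 456) (nat_lit 1769336564) (nat_lit 189) (nat_lit 5) (nat_lit 194) (nat_lit 5) (nat_lit 195) (nat_lit 5) (nat_lit 599) (nat_lit 500) (nat_lit 461))) (XT.nd (nat_lit 78) (nat_lit 760) (nat_lit 0) (XT.lf (nat_lit 0) (nat_lit 2056071055) (nat_lit 456) (nat_lit 404025937) (nat_lit 76) (nat_lit 7356985611) (nat_lit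 188) (nat_lit 5) (nat_lit 194) (nat_lit 5) (nat_lit 189) (nat_lit 5) (nat_lit 600) (nat_lit 500) (nat_lit 460)) (XT.nd (nat_lit 78) (nat_lit 380) (nat_lit 0) (XT.lf (nat_lit 0) (nat_lit 5944427418) (nat_lit 456) (nat_lit 2523723843) (nat_lit 76) (nat_lit 1444373793) (nat_lit 183) (nat_lit 5) (nat_lit 189) (nat_lit 5) (nat_lit 184) (nat_lit 5) (nat_lit 601) (nat_lit 500) (nat_lit 459)) (XT.lf (nat_lit 0) (nat_lit 5313584052) (nat_lit 380) (nat_lit 4603356782) (nat_lit 456) (nat_lit 92808564) (nat_lit 178) (nat_lit 5) (nat_lit 183) (nat_lit 5) (nat_lit 184) (nat_lit 5) (nat_lit 602) (nat_lit 500) (nat_lit 458))))))) (XT.nd (nat_lit 780) (nat_lit 2584) (nat_lit 0) (XT.nd (nat_lit 390) (nat_lit 1520) (nat_lit 0) (XT.nd (nat_lit 156) (nat_lit 760) (nat_lit 0) (XT.nd (nat_lit 78) (nat_lit 380) (nat_lit 0) (XT.lf (nat_lit 0) (nat_lit 3176677850) (nat_lit 380) (nat_lit 623369970) (nat_lit 456) (nat_lit 6308556269) (nat_lit 172) (nat_lit 5) (nat_lit 177) (nat_lit 5) (nat_lit 178) (nat_lit 5) (nat_lit 603) (nat_lit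 500) (nat_lit 457)) (XT.lf (nat_lit 0) (nat_lit 978164383) (nat_lit 380) (nat_lit 6805032851) (nat_lit 456) (nat_lit 2425953590) (nat_lit 167) (nat_lit 5) (nat_lit 172) (nat_lit 5) (nat_lit 173) (nat_lit 5) (nat_lit 604) (nat_lit 500) (nat_lit 456))) (XT.nd (nat_lit 78) (nat_lit 684) (nat_lit 0) (XT.lf (nat_lit 0) (nat_lit 1518561116) (nat_lit 456) (nat_lit 1258253280) (nat_lit 76) (nat_lit 7534607973) (nat_lit 166) (nat_lit 5) (nat_lit 172) (nat_lit 5) (nat_lit 167) (nat_lit 5) (nat_lit 605) (nat_lit 500) (nat_lit 455)) (XT.nd (nat_lit 78) (nat_lit 304) (nat_lit 0) (XT.lf (nat_lit 0) (nat_lit 5517377679) (nat_lit 456) (nat_lit 3548326084) (nat_lit 76) (nat_lit 1349557718) (nat_lit 161) (nat_lit 5) (nat_lit 167) (nat_lit 5) (nat_lit 162) (nat_lit 5) (nat_lit 606) (nat_lit 500) (nat_lit 454)) (XT.lf (nat_lit 0) (nat_lit 4620511778) (nat_lit 304) (nat_lit 4987149090) (nat_lit 380) (nat_lit 913287434) (nat_lit 157) (nat_lit 5) (nat_lit 161) (nat_lit 5) (nat_lit 162) (nat_lit 5) (nat_lit 607) (nat_lit 500) (nat_lit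 453))))) (XT.nd (nat_lit 156) (nat_lit 1064) (nat_lit 0) (XT.nd (nat_lit 78) (nat_lit 0) (nat_lit 0) (XT.lf (nat_lit 0) (nat_lit 2309785898) (nat_lit 380) (nat_lit 793581582) (nat_lit 456) (nat_lit 7525099065) (nat_lit 151) (nat_lit 5) (nat_lit 156) (nat_lit 5) (nat_lit 157) (nat_lit 5) (nat_lit 608) (nat_lit 500) (nat_lit 452)) (XT.lf (nat_lit 0) (nat_lit 7205586250) (nat_lit 456) (nat_lit 74767132) (nat_lit 76) (nat_lit 3457312531) (nat_lit 151) (nat_lit 5) (nat_lit 157) (nat_lit 5) (nat_lit 152) (nat_lit 5) (nat_lit 609) (nat_lit 500) (nat_lit 451))) (XT.nd (nat_lit 78) (nat_lit 684) (nat_lit 0) (XT.lf (nat_lit 0) (nat_lit 549244581) (nat_lit 380) (nat_lit 2485110996) (nat_lit 76) (nat_lit 7814313389) (nat_lit 146) (nat_lit 5) (nat_lit 151) (nat_lit 5) (nat_lit 147) (nat_lit 5) (nat_lit 610) (nat_lit 500) (nat_lit 450)) (XT.nd (nat_lit 78) (nat_lit 304) (nat_lit 0) (XT.lf (nat_lit 0) (nat_lit 4668991091) (nat_lit 456) (nat_lit 4976560195) (nat_lit 76) (nat_lit 1315792695) (nat_lit 141) (nat_lit 5) (nat_lit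 147) (nat_lit 5) (nat_lit 142) (nat_lit 5) (nat_lit 611) (nat_lit 500) (nat_lit 449)) (XT.lf (nat_lit 0) (nat_lit 3536391999) (nat_lit 304) (nat_lit 5350778862) (nat_lit 380) (nat_lit 2188781509) (nat_lit 137) (nat_lit 5) (nat_lit 141) (nat_lit 5) (nat_lit 142) (nat_lit 5) (nat_lit 612) (nat_lit 500) (nat_lit 448)))))) (XT.nd (nat_lit 390) (nat_lit 1216) (nat_lit 0) (XT.nd (nat_lit 156) (nat_lit 988) (nat_lit 0) (XT.nd (nat_lit 78) (nat_lit 0) (nat_lit 0) (XT.lf (nat_lit 0) (nat_lit 1023395771) (nat_lit 304) (nat_lit 943842173) (nat_lit 380) (nat_lit 9225424979) (nat_lit 132) (nat_lit 5) (nat_lit 136) (nat_lit 5) (nat_lit 137) (nat_lit 5) (nat_lit 613) (nat_lit 500) (nat_lit 447)) (XT.lf (nat_lit 0) (nat_lit 6207601386) (nat_lit 380) (nat_lit 1560701611) (nat_lit 76) (nat_lit 3542505307) (nat_lit 132) (nat_lit 5) (nat_lit 137) (nat_lit 5) (nat_lit 133) (nat_lit 5) (nat_lit 614) (nat_lit 500) (nat_lit 446))) (XT.nd (nat_lit 78) (nat_lit 684) (nat_lit 0) (XT.lf (nat_lit 0) (nat_lit 7238194949) (nat_lit 304)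 (nat_lit 3305193062) (nat_lit 380) (nat_lit 887716853) (nat_lit 128) (nat_lit 5) (nat_lit 132) (nat_lit 5) (nat_lit 133) (nat_lit 5) (nat_lit 615) (nat_lit 500) (nat_lit 445)) (XT.nd (nat_lit 78) (nat_lit 304) (nat_lit 0) (XT.lf (nat_lit 0) (nat_lit 3373860541) (nat_lit 380) (nat_lit 6912980564) (nat_lit 76) (nat_lit 1266393194) (nat_lit 123) (nat_lit 5) (nat_lit 128) (nat_lit 5) (nat_lit 124) (nat_lit 5) (nat_lit 616) (nat_lit 500) (nat_lit 444)) (XT.lf (nat_lit 0) (nat_lit 1956560925) (nat_lit 304) (nat_lit 5772815466) (nat_lit 380) (nat_lit 3947901263) (nat_lit 119) (nat_lit 5) (nat_lit 123) (nat_lit 5) (nat_lit 124) (nat_lit 5) (nat_lit 617) (nat_lit 500) (nat_lit 443))))) (XT.nd (nat_lit 234) (nat_lit 608) (nat_lit 0) (XT.nd (nat_lit 78) (nat_lit 532) (nat_lit 0) (XT.lf (nat_lit 0) (nat_lit 367830850) (nat_lit 380) (nat_lit 779286163) (nat_lit 76) (nat_lit 10656548401) (nat_lit 118) (nat_lit 5) (nat_lit 123) (nat_lit 5) (nat_lit 119) (nat_lit 5) (nat_lit 618) (nat_lit 500) (nat_lit 442)) (XT.nd (nat_lit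 78) (nat_lit 228) (nat_lit 0) (XT.lf (nat_lit 0) (nat_lit 4753436231) (nat_lit 380) (nat_lit 3600458176) (nat_lit 76) (nat_lit 3577436712) (nat_lit 114) (nat_lit 5) (nat_lit 119) (nat_lit 5) (nat_lit 115) (nat_lit 5) (nat_lit 619) (nat_lit 500) (nat_lit 441)) (XT.lf (nat_lit 0) (nat_lit 5568041139) (nat_lit 228) (nat_lit 3666496866) (nat_lit 304) (nat_lit 2826856960) (nat_lit 111) (nat_lit 5) (nat_lit 114) (nat_lit 5) (nat_lit 115) (nat_lit 5) (nat_lit 620) (nat_lit 500) (nat_lit 440)))) (XT.nd (nat_lit 78) (nat_lit 228) (nat_lit 0) (XT.lf (nat_lit 0) (nat_lit 1598378338) (nat_lit 380) (nat_lit 9470697779) (nat_lit 76) (nat_lit 1124609090) (nat_lit 106) (nat_lit 5) (nat_lit 111) (nat_lit 5) (nat_lit 107) (nat_lit 5) (nat_lit 621) (nat_lit 500) (nat_lit 439)) (XT.nd (nat_lit 78) (nat_lit 228) (nat_lit 0) (XT.lf (nat_lit 0) (nat_lit 6101476709) (nat_lit 380) (nat_lit 229332694) (nat_lit 76) (nat_lit 5996894422) (nat_lit 106) (nat_lit 5) (nat_lit 111) (nat_lit 5) (nat_lit 107) (nat_lit 5) (nat_lit 622) (nat_lit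 500) (nat_lit 438)) (XT.lf (nat_lit 0) (nat_lit 9249574787) (nat_lit 228) (nat_lit 1464950727) (nat_lit 304) (nat_lit 1749480008) (nat_lit 103) (nat_lit 5) (nat_lit 106) (nat_lit 5) (nat_lit 107) (nat_lit 5) (nat_lit 623) (nat_lit 500) (nat_lit 437))))))))
noncomputable def xc27 : XT := (XT.nd (nat_lit 1560) (nat_lit 9652) (nat_lit 0) (XT.nd (nat_lit 780) (nat_lit 6232) (nat_lit 0) (XT.nd (nat_lit 390) (nat_lit 2812) (nat_lit 0) (XT.nd (nat_lit 156) (nat_lit 3040) (nat_lit 0) (XT.nd (nat_lit 78) (nat_lit 0) (nat_lit 0) (XT.lf (nat_lit 0) (nat_lit 20434625) (nat_lit 1900) (nat_lit 3523864745) (nat_lit 0) (nat_lit 20434625) (nat_lit 480) (nat_lit 5) (nat_lit 505) (nat_lit 4) (nat_lit 480) (nat_lit 4) (nat_lit 558) (nat_lit 501) (nat_lit 501)) (XT.lf (nat_lit 0) (nat_lit 3591845293) (nat_lit 1900) (nat_lit 1686552489) (nat_lit 0) (nat_lit 1887683648) (nat_lit 480) (nat_lit 5) (nat_lit 505) (nat_lit 4) (nat_lit 480) (nat_lit 4) (nat_lit 559) (nat_lit 501) (nat_lit 500))) (XT.nd (nat_lit 78) (nat_lit 1900) (nat_lit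 0) (XT.lf (nat_lit 0) (nat_lit 3759467444) (nat_lit 1140) (nat_lit 3409880310) (nat_lit 1140) (nat_lit 34971954) (nat_lit 465) (nat_lit 4) (nat_lit 480) (nat_lit 5) (nat_lit 480) (nat_lit 4) (nat_lit 560) (nat_lit 501) (nat_lit 499)) (XT.nd (nat_lit 78) (nat_lit 912) (nat_lit 0) (XT.lf (nat_lit 0) (nat_lit 2025321203) (nat_lit 912) (nat_lit 1458944405) (nat_lit 988) (nat_lit 3759473994) (nat_lit 452) (nat_lit 5) (nat_lit 464) (nat_lit 5) (nat_lit 465) (nat_lit 4) (nat_lit 561) (nat_lit 501) (nat_lit 498)) (XT.lf (nat_lit 0) (nat_lit 295166266) (nat_lit 912) (nat_lit 6739272192) (nat_lit 912) (nat_lit 250286989) (nat_lit 440) (nat_lit 4) (nat_lit 452) (nat_lit 5) (nat_lit 452) (nat_lit 4) (nat_lit 562) (nat_lit 501) (nat_lit 497))))) (XT.nd (nat_lit 156) (nat_lit 1900) (nat_lit 0) (XT.nd (nat_lit 78) (nat_lit 836) (nat_lit 0) (XT.lf (nat_lit 0) (nat_lit 3263129253) (nat_lit 988) (nat_lit 1440975818) (nat_lit 76) (nat_lit 2622441957) (nat_lit 439) (nat_lit 5) (nat_lit 452) (nat_lit 5) (nat_lit 440) (nat_lit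 4) (nat_lit 563) (nat_lit 501) (nat_lit 496)) (XT.lf (nat_lit 0) (nat_lit 4200048799) (nat_lit 836) (nat_lit 2604798963) (nat_lit 912) (nat_lit 565098889) (nat_lit 428) (nat_lit 5) (nat_lit 439) (nat_lit 5) (nat_lit 440) (nat_lit 4) (nat_lit 564) (nat_lit 501) (nat_lit 495))) (XT.nd (nat_lit 78) (nat_lit 912) (nat_lit 0) (XT.lf (nat_lit 0) (nat_lit 2500278174) (nat_lit 912) (nat_lit 423995332) (nat_lit 988) (nat_lit 4490343609) (nat_lit 415) (nat_lit 5) (nat_lit 427) (nat_lit 5) (nat_lit 428) (nat_lit 5) (nat_lit 565) (nat_lit 501) (nat_lit 494)) (XT.nd (nat_lit 78) (nat_lit 76) (nat_lit 0) (XT.lf (nat_lit 0) (nat_lit 788712764) (nat_lit 836) (nat_lit 5660661881) (nat_lit 912) (nat_lit 1011263743) (nat_lit 404) (nat_lit 5) (nat_lit 415) (nat_lit 5) (nat_lit 416) (nat_lit 4) (nat_lit 566) (nat_lit 501) (nat_lit 493)) (XT.lf (nat_lit 0) (nat_lit 2475773196) (nat_lit 912) (nat_lit 927486405) (nat_lit 76) (nat_lit 4104560098) (nat_lit 403) (nat_lit 5) (nat_lit 415) (nat_lit 5) (nat_lit 404) (nat_lit 5) (nat_lit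 567) (nat_lit 501) (nat_lit 492)))))) (XT.nd (nat_lit 390) (nat_lit 2964) (nat_lit 0) (XT.nd (nat_lit 156) (nat_lit 1596) (nat_lit 0) (XT.nd (nat_lit 78) (nat_lit 836) (nat_lit 0) (XT.lf (nat_lit 0) (nat_lit 4917574901) (nat_lit 836) (nat_lit 1070287526) (nat_lit 912) (nat_lit 1568573606) (nat_lit 392) (nat_lit 5) (nat_lit 403) (nat_lit 5) (nat_lit 404) (nat_lit 5) (nat_lit 568) (nat_lit 501) (nat_lit 491)) (XT.lf (nat_lit 0) (nat_lit 1911705216) (nat_lit 836) (nat_lit 4371654392) (nat_lit 76) (nat_lit 1322946149) (nat_lit 381) (nat_lit 5) (nat_lit 392) (nat_lit 5) (nat_lit 382) (nat_lit 5) (nat_lit 569) (nat_lit 501) (nat_lit 490))) (XT.nd (nat_lit 78) (nat_lit 836) (nat_lit 0) (XT.lf (nat_lit 0) (nat_lit 1533985024) (nat_lit 760) (nat_lit 3879461177) (nat_lit 836) (nat_lit 2244064124) (nat_lit 371) (nat_lit 5) (nat_lit 381) (nat_lit 5) (nat_lit 382) (nat_lit 5) (nat_lit 570) (nat_lit 501) (nat_lit 489)) (XT.nd (nat_lit 78) (nat_lit 760) (nat_lit 0) (XT.lf (nat_lit 0) (nat_lit 1226589143) (nat_lit 836)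 (nat_lit 174098568) (nat_lit 76) (nat_lit 6309530894) (nat_lit 370) (nat_lit 5) (nat_lit 381) (nat_lit 5) (nat_lit 371) (nat_lit 5) (nat_lit 571) (nat_lit 501) (nat_lit 488)) (XT.lf (nat_lit 0) (nat_lit 4721954016) (nat_lit 836) (nat_lit 1887122710) (nat_lit 76) (nat_lit 1154902627) (nat_lit 360) (nat_lit 5) (nat_lit 371) (nat_lit 5) (nat_lit 361) (nat_lit 5) (nat_lit 572) (nat_lit 501) (nat_lit 487))))) (XT.nd (nat_lit 156) (nat_lit 1444) (nat_lit 0) (XT.nd (nat_lit 78) (nat_lit 684) (nat_lit 0) (XT.lf (nat_lit 0) (nat_lit 440035705) (nat_lit 836) (nat_lit 3616554623) (nat_lit 76) (nat_lit 3762610621) (nat_lit 349) (nat_lit 5) (nat_lit 360) (nat_lit 5) (nat_lit 350) (nat_lit 5) (nat_lit 573) (nat_lit 501) (nat_lit 486)) (XT.lf (nat_lit 0) (nat_lit 2504142090) (nat_lit 684) (nat_lit 1416376993) (nat_lit 760) (nat_lit 3955217249) (nat_lit 340) (nat_lit 5) (nat_lit 349) (nat_lit 5) (nat_lit 350) (nat_lit 5) (nat_lit 574) (nat_lit 501) (nat_lit 485))) (XT.nd (nat_lit 78) (nat_lit 760) (nat_lit 0) (XT.lf (nat_lit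 0) (nat_lit 791695349) (nat_lit 684) (nat_lit 6657852961) (nat_lit 760) (nat_lit 484277141) (nat_lit 331) (nat_lit 5) (nat_lit 340) (nat_lit 5) (nat_lit 341) (nat_lit 5) (nat_lit 575) (nat_lit 501) (nat_lit 484)) (XT.nd (nat_lit 78) (nat_lit 684) (nat_lit 0) (XT.lf (nat_lit 0) (nat_lit 3003036336) (nat_lit 760) (nat_lit 944646171) (nat_lit 76) (nat_lit 4045257974) (nat_lit 330) (nat_lit 5) (nat_lit 340) (nat_lit 5) (nat_lit 331) (nat_lit 5) (nat_lit 576) (nat_lit 501) (nat_lit 483)) (XT.lf (nat_lit 0) (nat_lit 5371584460) (nat_lit 684) (nat_lit 1159429403) (nat_lit 760) (nat_lit 1522613532) (nat_lit 321) (nat_lit 5) (nat_lit 330) (nat_lit 5) (nat_lit 331) (nat_lit 5) (nat_lit 577) (nat_lit 501) (nat_lit 482))))))) (XT.nd (nat_lit 780) (nat_lit 4484) (nat_lit 0) (XT.nd (nat_lit 390) (nat_lit 2508) (nat_lit 0) (XT.nd (nat_lit 156) (nat_lit 1292) (nat_lit 0) (XT.nd (nat_lit 78) (nat_lit 608) (nat_lit 0) (XT.lf (nat_lit 0) (nat_lit 1971768574) (nat_lit 760) (nat_lit 4453052482) (nat_lit 76) (nat_lit 1690763852)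 (nat_lit 311) (nat_lit 5) (nat_lit 321) (nat_lit 5) (nat_lit 312) (nat_lit 5) (nat_lit 578) (nat_lit 501) (nat_lit 481)) (XT.lf (nat_lit 0) (nat_lit 1926030410) (nat_lit 608) (nat_lit 3571292337) (nat_lit 684) (nat_lit 2681625646) (nat_lit 303) (nat_lit 5) (nat_lit 311) (nat_lit 5) (nat_lit 312) (nat_lit 5) (nat_lit 579) (nat_lit 501) (nat_lit 480))) (XT.nd (nat_lit 78) (nat_lit 608) (nat_lit 0) (XT.lf (nat_lit 0) (nat_lit 173079404) (nat_lit 608) (nat_lit 640406303) (nat_lit 684) (nat_lit 7430488141) (nat_lit 294) (nat_lit 5) (nat_lit 302) (nat_lit 5) (nat_lit 303) (nat_lit 5) (nat_lit 580) (nat_lit 501) (nat_lit 479)) (XT.nd (nat_lit 78) (nat_lit 608) (nat_lit 0) (XT.lf (nat_lit 0) (nat_lit 4344253014) (nat_lit 684) (nat_lit 1604463867) (nat_lit 76) (nat_lit 2361196670) (nat_lit 294) (nat_lit 5) (nat_lit 303) (nat_lit 5) (nat_lit 295) (nat_lit 5) (nat_lit 581) (nat_lit 501) (nat_lit 478)) (XT.lf (nat_lit 0) (nat_lit 4979745793) (nat_lit 608) (nat_lit 2947695116) (nat_lit 684) (nat_lit 450096473) (nat_lit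 286) (nat_lit 5) (nat_lit 294) (nat_lit 5) (nat_lit 295) (nat_lit 5) (nat_lit 582) (nat_lit 501) (nat_lit 477))))) (XT.nd (nat_lit 156) (nat_lit 1292) (nat_lit 0) (XT.nd (nat_lit 78) (nat_lit 532) (nat_lit 0) (XT.lf (nat_lit 0) (nat_lit 3072836816) (nat_lit 684) (nat_lit 5227501644) (nat_lit 76) (nat_lit 146205734) (nat_lit 277) (nat_lit 5) (nat_lit 286) (nat_lit 5) (nat_lit 278) (nat_lit 5) (nat_lit 583) (nat_lit 501) (nat_lit 476)) (XT.lf (nat_lit 0) (nat_lit 1420424973) (nat_lit 532) (nat_lit 5237435041) (nat_lit 608) (nat_lit 1859059818) (nat_lit 270) (nat_lit 5) (nat_lit 277) (nat_lit 5) (nat_lit 278) (nat_lit 5) (nat_lit 584) (nat_lit 501) (nat_lit 475))) (XT.nd (nat_lit 78) (nat_lit 1216) (nat_lit 0) (XT.lf (nat_lit 0) (nat_lit 1684745242) (nat_lit 608) (nat_lit 400850308) (nat_lit 76) (nat_lit 6503254629) (nat_lit 269) (nat_lit 5) (nat_lit 277) (nat_lit 5) (nat_lit 270) (nat_lit 5) (nat_lit 585) (nat_lit 501) (nat_lit 474)) (XT.nd (nat_lit 78) (nat_lit 608) (nat_lit 0) (XT.lf (nat_lit 0) (nat_lit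 5271102862) (nat_lit 684) (nat_lit 2241189917) (nat_lit 76) (nat_lit 1149750476) (nat_lit 261) (nat_lit 5) (nat_lit 270) (nat_lit 5) (nat_lit 262) (nat_lit 5) (nat_lit 586) (nat_lit 501) (nat_lit 473)) (XT.lf (nat_lit 0) (nat_lit 184138014) (nat_lit 608) (nat_lit 4116044339) (nat_lit 76) (nat_lit 4436610570) (nat_lit 253) (nat_lit 5) (nat_lit 261) (nat_lit 5) (nat_lit 254) (nat_lit 5) (nat_lit 587) (nat_lit 501) (nat_lit 472)))))) (XT.nd (nat_lit 390) (nat_lit 2356) (nat_lit 0) (XT.nd (nat_lit 156) (nat_lit 1140) (nat_lit 0) (XT.nd (nat_lit 78) (nat_lit 456) (nat_lit 0) (XT.lf (nat_lit 0) (nat_lit 2778656837) (nat_lit 532) (nat_lit 987778614) (nat_lit 608) (nat_lit 5046532610) (nat_lit 246) (nat_lit 5) (nat_lit 253) (nat_lit 5) (nat_lit 254) (nat_lit 5) (nat_lit 588) (nat_lit 501) (nat_lit 471)) (XT.lf (nat_lit 0) (nat_lit 899810016) (nat_lit 456) (nat_lit 6518054693) (nat_lit 532) (nat_lit 1472853454) (nat_lit 240) (nat_lit 5) (nat_lit 246) (nat_lit 5) (nat_lit 247) (nat_lit 5) (nat_lit 589) (nat_lit 501)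 (nat_lit 470))) (XT.nd (nat_lit 78) (nat_lit 1064) (nat_lit 0) (XT.lf (nat_lit 0) (nat_lit 2139630492) (nat_lit 532) (nat_lit 1009137322) (nat_lit 76) (nat_lit 5821058078) (nat_lit 239) (nat_lit 5) (nat_lit 246) (nat_lit 5) (nat_lit 240) (nat_lit 5) (nat_lit 590) (nat_lit 501) (nat_lit 469)) (XT.nd (nat_lit 78) (nat_lit 532) (nat_lit 0) (XT.lf (nat_lit 0) (nat_lit 5795920173) (nat_lit 608) (nat_lit 2941918092) (nat_lit 76) (nat_lit 312658362) (nat_lit 232) (nat_lit 5) (nat_lit 240) (nat_lit 5) (nat_lit 233) (nat_lit 5) (nat_lit 591) (nat_lit 501) (nat_lit 468)) (XT.lf (nat_lit 0) (nat_lit 392365305) (nat_lit 532) (nat_lit 4923610583) (nat_lit 76) (nat_lit 3816655804) (nat_lit 225) (nat_lit 5) (nat_lit 232) (nat_lit 5) (nat_lit 226) (nat_lit 5) (nat_lit 592) (nat_lit 501) (nat_lit 467))))) (XT.nd (nat_lit 234) (nat_lit 1368) (nat_lit 0) (XT.nd (nat_lit 78) (nat_lit 532) (nat_lit 0) (XT.lf (nat_lit 0) (nat_lit 2262273344) (nat_lit 456) (nat_lit 1791094237) (nat_lit 532) (nat_lit 5162918659) (nat_lit 219) (nat_lit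 5) (nat_lit 225) (nat_lit 5) (nat_lit 226) (nat_lit 5) (nat_lit 593) (nat_lit 501) (nat_lit 466)) (XT.nd (nat_lit 78) (nat_lit 76) (nat_lit 0) (XT.lf (nat_lit 0) (nat_lit 276435087) (nat_lit 456) (nat_lit 7508385212) (nat_lit 532) (nat_lit 1516849997) (nat_lit 213) (nat_lit 5) (nat_lit 219) (nat_lit 5) (nat_lit 220) (nat_lit 5) (nat_lit 594) (nat_lit 501) (nat_lit 465)) (XT.lf (nat_lit 0) (nat_lit 2182731668) (nat_lit 532) (nat_lit 1741638521) (nat_lit 76) (nat_lit 5463917416) (nat_lit 212) (nat_lit 5) (nat_lit 219) (nat_lit 5) (nat_lit 213) (nat_lit 5) (nat_lit 595) (nat_lit 501) (nat_lit 464)))) (XT.nd (nat_lit 78) (nat_lit 912) (nat_lit 0) (XT.lf (nat_lit 0) (nat_lit 5680420804) (nat_lit 456) (nat_lit 244078899) (nat_lit 532) (nat_lit 3552167889) (nat_lit 206) (nat_lit 5) (nat_lit 212) (nat_lit 5) (nat_lit 213) (nat_lit 5) (nat_lit 596) (nat_lit 501) (nat_lit 463)) (XT.nd (nat_lit 78) (nat_lit 456) (nat_lit 0) (XT.lf (nat_lit 0) (nat_lit 182333021) (nat_lit 456) (nat_lit 5906711791) (nat_lit 76) (nat_lit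 3477542045) (nat_lit 200) (nat_lit 5) (nat_lit 206) (nat_lit 5) (nat_lit 201) (nat_lit 5) (nat_lit 597) (nat_lit 501) (nat_lit 462)) (XT.lf (nat_lit 0) (nat_lit 1582059157) (nat_lit 456) (nat_lit 2351580177) (nat_lit 532) (nat_lit 5724402910) (nat_lit 194) (nat_lit 5) (nat_lit 200) (nat_lit 5) (nat_lit 201) (nat_lit 5) (nat_lit 598) (nat_lit 501) (nat_lit 461))))))))
noncomputable def xc28 : XT := (XT.nd (nat_lit 1560) (nat_lit 1216) (nat_lit 0) (XT.nd (nat_lit 780) (nat_lit 2812) (nat_lit 0) (XT.nd (nat_lit 390) (nat_lit 1216) (nat_lit 0) (XT.nd (nat_lit 156) (nat_lit 1216) (nat_lit 0) (XT.nd (nat_lit 78) (nat_lit 456) (nat_lit 0) (XT.lf (nat_lit 0) (nat_lit 7761773719) (nat_lit 532) (nat_lit 532088283) (nat_lit 76) (nat_lit 1457429591) (nat_lit 194) (nat_lit 5) (nat_lit 201) (nat_lit 5) (nat_lit 195) (nat_lit 5) (nat_lit 599) (nat_lit 501) (nat_lit 460)) (XT.lf (nat_lit 0) (nat_lit 1811774229) (nat_lit 456) (nat_lit 2687928523) (nat_lit 76) (nat_lit 5346156098) (nat_lit 188) (nat_lit 5) (nat_lit 194) (nat_lit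 5) (nat_lit 189) (nat_lit 5) (nat_lit 600) (nat_lit 501) (nat_lit 459))) (XT.nd (nat_lit 78) (nat_lit 836) (nat_lit 0) (XT.lf (nat_lit 0) (nat_lit 5048517791) (nat_lit 380) (nat_lit 603833654) (nat_lit 456) (nat_lit 4289905858) (nat_lit 183) (nat_lit 5) (nat_lit 188) (nat_lit 5) (nat_lit 189) (nat_lit 5) (nat_lit 601) (nat_lit 501) (nat_lit 458)) (XT.nd (nat_lit 78) (nat_lit 456) (nat_lit 0) (XT.lf (nat_lit 0) (nat_lit 2880176301) (nat_lit 380) (nat_lit 6702094283) (nat_lit 456) (nat_lit 458063356) (nat_lit 178) (nat_lit 5) (nat_lit 183) (nat_lit 5) (nat_lit 184) (nat_lit 5) (nat_lit 602) (nat_lit 501) (nat_lit 457)) (XT.lf (nat_lit 0) (nat_lit 646403465) (nat_lit 380) (nat_lit 2753947015) (nat_lit 456) (nat_lit 6739670630) (nat_lit 172) (nat_lit 5) (nat_lit 177) (nat_lit 5) (nat_lit 178) (nat_lit 5) (nat_lit 603) (nat_lit 501) (nat_lit 456))))) (XT.nd (nat_lit 156) (nat_lit 760) (nat_lit 0) (XT.nd (nat_lit 78) (nat_lit 456) (nat_lit 0) (XT.lf (nat_lit 0) (nat_lit 7340647429) (nat_lit 456) (nat_lit 1618127911)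 (nat_lit 76) (nat_lit 1282649940) (nat_lit 172) (nat_lit 5) (nat_lit 178) (nat_lit 5) (nat_lit 173) (nat_lit 5) (nat_lit 604) (nat_lit 501) (nat_lit 455)) (XT.lf (nat_lit 0) (nat_lit 1016645482) (nat_lit 456) (nat_lit 3941055345) (nat_lit 76) (nat_lit 5386724401) (nat_lit 166) (nat_lit 5) (nat_lit 172) (nat_lit 5) (nat_lit 167) (nat_lit 5) (nat_lit 605) (nat_lit 501) (nat_lit 454))) (XT.nd (nat_lit 78) (nat_lit 380) (nat_lit 0) (XT.lf (nat_lit 0) (nat_lit 4122099521) (nat_lit 380) (nat_lit 844444251) (nat_lit 456) (nat_lit 5482699297) (nat_lit 161) (nat_lit 5) (nat_lit 166) (nat_lit 5) (nat_lit 167) (nat_lit 5) (nat_lit 606) (nat_lit 501) (nat_lit 453)) (XT.nd (nat_lit 78) (nat_lit 76) (nat_lit 0) (XT.lf (nat_lit 0) (nat_lit 1774755907) (nat_lit 304) (nat_lit 7236078199) (nat_lit 380) (nat_lit 1545015997) (nat_lit 157) (nat_lit 5) (nat_lit 161) (nat_lit 5) (nat_lit 162) (nat_lit 5) (nat_lit 607) (nat_lit 501) (nat_lit 452)) (XT.lf (nat_lit 0) (nat_lit 2442954608) (nat_lit 380) (nat_lit 632223367) (nat_lit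 76) (nat_lit 7589012136) (nat_lit 156) (nat_lit 5) (nat_lit 161) (nat_lit 5) (nat_lit 157) (nat_lit 5) (nat_lit 608) (nat_lit 501) (nat_lit 451)))))) (XT.nd (nat_lit 390) (nat_lit 1292) (nat_lit 0) (XT.nd (nat_lit 156) (nat_lit 836) (nat_lit 0) (XT.nd (nat_lit 78) (nat_lit 304) (nat_lit 0) (XT.lf (nat_lit 0) (nat_lit 6504318568) (nat_lit 456) (nat_lit 3081422776) (nat_lit 76) (nat_lit 1188465567) (nat_lit 151) (nat_lit 5) (nat_lit 157) (nat_lit 5) (nat_lit 152) (nat_lit 5) (nat_lit 609) (nat_lit 501) (nat_lit 450)) (XT.lf (nat_lit 0) (nat_lit 5285584382) (nat_lit 304) (nat_lit 5376998999) (nat_lit 380) (nat_lit 223527857) (nat_lit 147) (nat_lit 5) (nat_lit 151) (nat_lit 5) (nat_lit 152) (nat_lit 5) (nat_lit 610) (nat_lit 501) (nat_lit 449))) (XT.nd (nat_lit 78) (nat_lit 380) (nat_lit 0) (XT.lf (nat_lit 0) (nat_lit 2803161621) (nat_lit 380) (nat_lit 1045247954) (nat_lit 456) (nat_lit 7151420836) (nat_lit 141) (nat_lit 5) (nat_lit 146) (nat_lit 5) (nat_lit 147) (nat_lit 5) (nat_lit 611) (nat_lit 501) (nat_lit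 448)) (XT.nd (nat_lit 78) (nat_lit 76) (nat_lit 0) (XT.lf (nat_lit 0) (nat_lit 245150824) (nat_lit 304) (nat_lit 7772023116) (nat_lit 380) (nat_lit 3098253476) (nat_lit 137) (nat_lit 5) (nat_lit 141) (nat_lit 5) (nat_lit 142) (nat_lit 5) (nat_lit 612) (nat_lit 501) (nat_lit 447)) (XT.lf (nat_lit 0) (nat_lit 1041842147) (nat_lit 380) (nat_lit 2349644863) (nat_lit 76) (nat_lit 7841326389) (nat_lit 136) (nat_lit 5) (nat_lit 141) (nat_lit 5) (nat_lit 137) (nat_lit 5) (nat_lit 613) (nat_lit 501) (nat_lit 446))))) (XT.nd (nat_lit 156) (nat_lit 684) (nat_lit 0) (XT.nd (nat_lit 78) (nat_lit 304) (nat_lit 0) (XT.lf (nat_lit 0) (nat_lit 5229649403) (nat_lit 380) (nat_lit 5024344170) (nat_lit 76) (nat_lit 1098016623) (nat_lit 132) (nat_lit 5) (nat_lit 137) (nat_lit 5) (nat_lit 133) (nat_lit 5) (nat_lit 614) (nat_lit 501) (nat_lit 445)) (XT.lf (nat_lit 0) (nat_lit 3693841233) (nat_lit 304) (nat_lit 5827892410) (nat_lit 380) (nat_lit 1951447446) (nat_lit 128) (nat_lit 5) (nat_lit 132) (nat_lit 5) (nat_lit 133) (nat_lit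 5) (nat_lit 615) (nat_lit 501) (nat_lit 444))) (XT.nd (nat_lit 78) (nat_lit 304) (nat_lit 0) (XT.lf (nat_lit 0) (nat_lit 986927182) (nat_lit 304) (nat_lit 1284406023) (nat_lit 380) (nat_lit 9325170678) (nat_lit 123) (nat_lit 5) (nat_lit 127) (nat_lit 5) (nat_lit 128) (nat_lit 5) (nat_lit 616) (nat_lit 501) (nat_lit 443)) (XT.nd (nat_lit 78) (nat_lit 304) (nat_lit 0) (XT.lf (nat_lit 0) (nat_lit 6585260719) (nat_lit 380) (nat_lit 1791728048) (nat_lit 76) (nat_lit 3344390508) (nat_lit 123) (nat_lit 5) (nat_lit 128) (nat_lit 5) (nat_lit 124) (nat_lit 5) (nat_lit 617) (nat_lit 501) (nat_lit 442)) (XT.lf (nat_lit 0) (nat_lit 7220602217) (nat_lit 304) (nat_lit 3779562702) (nat_lit 380) (nat_lit 848293825) (nat_lit 119) (nat_lit 5) (nat_lit 123) (nat_lit 5) (nat_lit 124) (nat_lit 5) (nat_lit 618) (nat_lit 501) (nat_lit 441))))))) (XT.nd (nat_lit 76674) (nat_lit 0) (nat_lit 20292) (XT.nd (nat_lit 76284) (nat_lit 0) (nat_lit 27436) (XT.nd (nat_lit 156) (nat_lit 608) (nat_lit 0) (XT.nd (nat_lit 78) (nat_lit 228) (nat_lit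 0) (XT.lf (nat_lit 0) (nat_lit 3485448384) (nat_lit 380) (nat_lit 7557214906) (nat_lit 76) (nat_lit 934831341) (nat_lit 114) (nat_lit 5) (nat_lit 119) (nat_lit 5) (nat_lit 115) (nat_lit 5) (nat_lit 619) (nat_lit 501) (nat_lit 440)) (XT.lf (nat_lit 0) (nat_lit 1524420103) (nat_lit 228) (nat_lit 6395866487) (nat_lit 304) (nat_lit 4188197408) (nat_lit 111) (nat_lit 5) (nat_lit 114) (nat_lit 5) (nat_lit 115) (nat_lit 5) (nat_lit 620) (nat_lit 501) (nat_lit 439))) (XT.nd (nat_lit 78) (nat_lit 532) (nat_lit 0) (XT.lf (nat_lit 0) (nat_lit 209797766) (nat_lit 304) (nat_lit 1421023148) (nat_lit 76) (nat_lit 10611032226) (nat_lit 110) (nat_lit 5) (nat_lit 114) (nat_lit 5) (nat_lit 111) (nat_lit 5) (nat_lit 621) (nat_lit 501) (nat_lit 438)) (XT.nd (nat_lit 78) (nat_lit 228) (nat_lit 0) (XT.lf (nat_lit 0) (nat_lit 4673012904) (nat_lit 380) (nat_lit 4463890340) (nat_lit 76) (nat_lit 3239766414) (nat_lit 106) (nat_lit 5) (nat_lit 111) (nat_lit 5) (nat_lit 107) (nat_lit 5) (nat_lit 622) (nat_lit 501) (nat_lit 437)) (XT.lf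 (nat_lit 0) (nat_lit 4925007713) (nat_lit 228) (nat_lit 4313481809) (nat_lit 304) (nat_lit 3275433507) (nat_lit 103) (nat_lit 5) (nat_lit 106) (nat_lit 5) (nat_lit 107) (nat_lit 5) (nat_lit 623) (nat_lit 501) (nat_lit 436))))) (XT.nd (nat_lit 156) (nat_lit 3116) (nat_lit 0) (XT.nd (nat_lit 78) (nat_lit 1748) (nat_lit 0) (XT.lf (nat_lit 0) (nat_lit 914816972) (nat_lit 1748) (nat_lit 1699671052) (nat_lit 0) (nat_lit 914816972) (nat_lit 528) (nat_lit 5) (nat_lit 551) (nat_lit 4) (nat_lit 528) (nat_lit 4) (nat_lit 556) (nat_lit 502) (nat_lit 502)) (XT.lf (nat_lit 0) (nat_lit 1847798619) (nat_lit 1748) (nat_lit 3509394191) (nat_lit 1748) (nat_lit 1736384415) (nat_lit 505) (nat_lit 4) (nat_lit 528) (nat_lit 5) (nat_lit 528) (nat_lit 4) (nat_lit 557) (nat_lit 502) (nat_lit 501))) (XT.nd (nat_lit 78) (nat_lit 1216) (nat_lit 0) (XT.lf (nat_lit 0) (nat_lit 34842435) (nat_lit 1824) (nat_lit 1720651172) (nat_lit 1900) (nat_lit 5374448161) (nat_lit 480) (nat_lit 5) (nat_lit 504) (nat_lit 5) (nat_lit 505) (nat_lit 4)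 (nat_lit 558) (nat_lit 502) (nat_lit 500)) (XT.nd (nat_lit 78) (nat_lit 1216) (nat_lit 0) (XT.lf (nat_lit 0) (nat_lit 5261188112) (nat_lit 1900) (nat_lit 1758239188) (nat_lit 0) (nat_lit 148034879) (nat_lit 480) (nat_lit 5) (nat_lit 505) (nat_lit 4) (nat_lit 480) (nat_lit 4) (nat_lit 559) (nat_lit 502) (nat_lit 499)) (XT.lf (nat_lit 0) (nat_lit 1577204126) (nat_lit 1216) (nat_lit 3565187870) (nat_lit 76) (nat_lit 2063785083) (nat_lit 464) (nat_lit 5) (nat_lit 480) (nat_lit 5) (nat_lit 465) (nat_lit 4) (nat_lit 560) (nat_lit 502) (nat_lit 498)))))) (XT.nd (nat_lit 390) (nat_lit 3420) (nat_lit 0) (XT.nd (nat_lit 156) (nat_lit 1824) (nat_lit 0) (XT.nd (nat_lit 78) (nat_lit 988) (nat_lit 0) (XT.lf (nat_lit 0) (nat_lit 1867684522) (nat_lit 912) (nat_lit 3194045332) (nat_lit 988) (nat_lit 2184548903) (nat_lit 452) (nat_lit 5) (nat_lit 464) (nat_lit 5) (nat_lit 465) (nat_lit 4) (nat_lit 561) (nat_lit 502) (nat_lit 497)) (XT.lf (nat_lit 0) (nat_lit 92122984) (nat_lit 912) (nat_lit 1177189299) (nat_lit 988) (nat_lit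 6018540582) (nat_lit 439) (nat_lit 5) (nat_lit 451) (nat_lit 5) (nat_lit 452) (nat_lit 5) (nat_lit 562) (nat_lit 502) (nat_lit 496))) (XT.nd (nat_lit 78) (nat_lit 1824) (nat_lit 0) (XT.lf (nat_lit 0) (nat_lit 4739185374) (nat_lit 988) (nat_lit 1676750869) (nat_lit 76) (nat_lit 914512105) (nat_lit 439) (nat_lit 5) (nat_lit 452) (nat_lit 5) (nat_lit 440) (nat_lit 4) (nat_lit 563) (nat_lit 502) (nat_lit 495)) (XT.nd (nat_lit 78) (nat_lit 912) (nat_lit 0) (XT.lf (nat_lit 0) (nat_lit 861176133) (nat_lit 912) (nat_lit 3454437585) (nat_lit 76) (nat_lit 3058797286) (nat_lit 427) (nat_lit 5) (nat_lit 439) (nat_lit 5) (nat_lit 428) (nat_lit 5) (nat_lit 564) (nat_lit 502) (nat_lit 494)) (XT.lf (nat_lit 0) (nat_lit 2172654885) (nat_lit 912) (nat_lit 2136568698) (nat_lit 988) (nat_lit 3110463898) (nat_lit 415) (nat_lit 5) (nat_lit 427) (nat_lit 5) (nat_lit 428) (nat_lit 5) (nat_lit 565) (nat_lit 502) (nat_lit 493))))) (XT.nd (nat_lit 234) (nat_lit 1672) (nat_lit 0) (XT.nd (nat_lit 78) (nat_lit 836) (nat_lit 0) (XT.lf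 (nat_lit 0) (nat_lit 318602532) (nat_lit 912) (nat_lit 7041803374) (nat_lit 76) (nat_lit 106159641) (nat_lit 403) (nat_lit 5) (nat_lit 415) (nat_lit 5) (nat_lit 404) (nat_lit 5) (nat_lit 566) (nat_lit 502) (nat_lit 492)) (XT.nd (nat_lit 78) (nat_lit 836) (nat_lit 0) (XT.lf (nat_lit 0) (nat_lit 3761144665) (nat_lit 912) (nat_lit 1339605426) (nat_lit 76) (nat_lit 2413491144) (nat_lit 403) (nat_lit 5) (nat_lit 415) (nat_lit 5) (nat_lit 404) (nat_lit 5) (nat_lit 567) (nat_lit 502) (nat_lit 491)) (XT.lf (nat_lit 0) (nat_lit 4464538265) (nat_lit 836) (nat_lit 2775134707) (nat_lit 912) (nat_lit 323856854) (nat_lit 392) (nat_lit 5) (nat_lit 403) (nat_lit 5) (nat_lit 404) (nat_lit 5) (nat_lit 568) (nat_lit 502) (nat_lit 490)))) (XT.nd (nat_lit 78) (nat_lit 836) (nat_lit 0) (XT.lf (nat_lit 0) (nat_lit 2733476179) (nat_lit 760) (nat_lit 364159890) (nat_lit 836) (nat_lit 4516452069) (nat_lit 381) (nat_lit 5) (nat_lit 391) (nat_lit 5) (nat_lit 392) (nat_lit 5) (nat_lit 569) (nat_lit 502) (nat_lit 489)) (XT.nd (nat_lit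 78) (nat_lit 76) (nat_lit 0) (XT.lf (nat_lit 0) (nat_lit 984696567) (nat_lit 760) (nat_lit 5578642557) (nat_lit 836) (nat_lit 1102675318) (nat_lit 371) (nat_lit 5) (nat_lit 381) (nat_lit 5) (nat_lit 382) (nat_lit 5) (nat_lit 570) (nat_lit 502) (nat_lit 488)) (XT.lf (nat_lit 0) (nat_lit 2323064696) (nat_lit 836) (nat_lit 774958416) (nat_lit 76) (nat_lit 4621151211) (nat_lit 370) (nat_lit 5) (nat_lit 381) (nat_lit 5) (nat_lit 371) (nat_lit 5) (nat_lit 571) (nat_lit 502) (nat_lit 487))))))))
noncomputable def xc29 : XT := (XT.nd (nat_lit 1560) (nat_lit 6916) (nat_lit 0) (XT.nd (nat_lit 780) (nat_lit 4712) (nat_lit 0) (XT.nd (nat_lit 390) (nat_lit 2736) (nat_lit 0) (XT.nd (nat_lit 156) (nat_lit 1444) (nat_lit 0) (XT.nd (nat_lit 78) (nat_lit 836) (nat_lit 0) (XT.lf (nat_lit 0) (nat_lit 5240339651) (nat_lit 760) (nat_lit 536952262) (nat_lit 836) (nat_lit 1996466829) (nat_lit 360) (nat_lit 5) (nat_lit 370) (nat_lit 5) (nat_lit 371) (nat_lit 5) (nat_lit 572) (nat_lit 502) (nat_lit 486)) (XT.lf (nat_lit 0) (nat_lit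 1434644748) (nat_lit 836) (nat_lit 4320711066) (nat_lit 76) (nat_lit 2074234376) (nat_lit 349) (nat_lit 5) (nat_lit 360) (nat_lit 5) (nat_lit 350) (nat_lit 5) (nat_lit 573) (nat_lit 502) (nat_lit 485))) (XT.nd (nat_lit 78) (nat_lit 760) (nat_lit 0) (XT.lf (nat_lit 0) (nat_lit 1754732849) (nat_lit 684) (nat_lit 3126637048) (nat_lit 760) (nat_lit 3005431708) (nat_lit 340) (nat_lit 5) (nat_lit 349) (nat_lit 5) (nat_lit 350) (nat_lit 5) (nat_lit 574) (nat_lit 502) (nat_lit 484)) (XT.nd (nat_lit 78) (nat_lit 684) (nat_lit 0) (XT.lf (nat_lit 0) (nat_lit 417068341) (nat_lit 760) (nat_lit 9308569) (nat_lit 76) (nat_lit 7519300896) (nat_lit 339) (nat_lit 5) (nat_lit 349) (nat_lit 5) (nat_lit 340) (nat_lit 5) (nat_lit 575) (nat_lit 502) (nat_lit 483)) (XT.lf (nat_lit 0) (nat_lit 3866745173) (nat_lit 760) (nat_lit 1793866828) (nat_lit 76) (nat_lit 2344744473) (nat_lit 330) (nat_lit 5) (nat_lit 340) (nat_lit 5) (nat_lit 331) (nat_lit 5) (nat_lit 576) (nat_lit 502) (nat_lit 482))))) (XT.nd (nat_lit 156) (nat_lit 1292)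 (nat_lit 0) (XT.nd (nat_lit 78) (nat_lit 760) (nat_lit 0) (XT.lf (nat_lit 0) (nat_lit 4475450123) (nat_lit 684) (nat_lit 2885556929) (nat_lit 760) (nat_lit 705711450) (nat_lit 321) (nat_lit 5) (nat_lit 330) (nat_lit 5) (nat_lit 331) (nat_lit 5) (nat_lit 577) (nat_lit 502) (nat_lit 481)) (XT.lf (nat_lit 0) (nat_lit 2711427220) (nat_lit 684) (nat_lit 21396769) (nat_lit 760) (nat_lit 5396649376) (nat_lit 311) (nat_lit 5) (nat_lit 320) (nat_lit 5) (nat_lit 321) (nat_lit 5) (nat_lit 578) (nat_lit 502) (nat_lit 480))) (XT.nd (nat_lit 78) (nat_lit 684) (nat_lit 0) (XT.lf (nat_lit 0) (nat_lit 912313592) (nat_lit 608) (nat_lit 5311850546) (nat_lit 684) (nat_lit 1969357746) (nat_lit 303) (nat_lit 5) (nat_lit 311) (nat_lit 5) (nat_lit 312) (nat_lit 5) (nat_lit 579) (nat_lit 502) (nat_lit 479)) (XT.nd (nat_lit 78) (nat_lit 608) (nat_lit 0) (XT.lf (nat_lit 0) (nat_lit 1487923886) (nat_lit 684) (nat_lit 897802777) (nat_lit 76) (nat_lit 5873298676) (nat_lit 302) (nat_lit 5) (nat_lit 311) (nat_lit 5) (nat_lit 303) (nat_lit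 5) (nat_lit 580) (nat_lit 502) (nat_lit 478)) (XT.lf (nat_lit 0) (nat_lit 4974300993) (nat_lit 684) (nat_lit 2727025949) (nat_lit 76) (nat_lit 624526616) (nat_lit 294) (nat_lit 5) (nat_lit 303) (nat_lit 5) (nat_lit 295) (nat_lit 5) (nat_lit 581) (nat_lit 502) (nat_lit 477)))))) (XT.nd (nat_lit 390) (nat_lit 2204) (nat_lit 0) (XT.nd (nat_lit 156) (nat_lit 1216) (nat_lit 0) (XT.nd (nat_lit 78) (nat_lit 608) (nat_lit 0) (XT.lf (nat_lit 0) (nat_lit 127435053) (nat_lit 684) (nat_lit 4588448320) (nat_lit 76) (nat_lit 3678261909) (nat_lit 285) (nat_lit 5) (nat_lit 294) (nat_lit 5) (nat_lit 286) (nat_lit 5) (nat_lit 582) (nat_lit 502) (nat_lit 476)) (XT.lf (nat_lit 0) (nat_lit 1974747179) (nat_lit 608) (nat_lit 1634209047) (nat_lit 684) (nat_lit 4854848273) (nat_lit 277) (nat_lit 5) (nat_lit 285) (nat_lit 5) (nat_lit 286) (nat_lit 5) (nat_lit 583) (nat_lit 502) (nat_lit 475))) (XT.nd (nat_lit 78) (nat_lit 684) (nat_lit 0) (XT.lf (nat_lit 0) (nat_lit 116783536) (nat_lit 532) (nat_lit 7031892009) (nat_lit 608) (nat_lit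 1386411328) (nat_lit 270) (nat_lit 5) (nat_lit 277) (nat_lit 5) (nat_lit 278) (nat_lit 5) (nat_lit 584) (nat_lit 502) (nat_lit 474)) (XT.nd (nat_lit 78) (nat_lit 608) (nat_lit 0) (XT.lf (nat_lit 0) (nat_lit 2125077694) (nat_lit 608) (nat_lit 1761439684) (nat_lit 76) (nat_lit 4720961442) (nat_lit 269) (nat_lit 5) (nat_lit 277) (nat_lit 5) (nat_lit 270) (nat_lit 5) (nat_lit 585) (nat_lit 502) (nat_lit 473)) (XT.lf (nat_lit 0) (nat_lit 5014420674) (nat_lit 608) (nat_lit 654663837) (nat_lit 684) (nat_lit 3012435020) (nat_lit 261) (nat_lit 5) (nat_lit 269) (nat_lit 5) (nat_lit 270) (nat_lit 5) (nat_lit 586) (nat_lit 502) (nat_lit 472))))) (XT.nd (nat_lit 156) (nat_lit 1064) (nat_lit 0) (XT.nd (nat_lit 78) (nat_lit 532) (nat_lit 0) (XT.lf (nat_lit 0) (nat_lit 518193358) (nat_lit 608) (nat_lit 5614750520) (nat_lit 76) (nat_lit 2624066482) (nat_lit 253) (nat_lit 5) (nat_lit 261) (nat_lit 5) (nat_lit 254) (nat_lit 5) (nat_lit 587) (nat_lit 502) (nat_lit 471)) (XT.lf (nat_lit 0) (nat_lit 1224231841) (nat_lit 532)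 (nat_lit 2840880080) (nat_lit 608) (nat_lit 4768781738) (nat_lit 246) (nat_lit 5) (nat_lit 253) (nat_lit 5) (nat_lit 254) (nat_lit 5) (nat_lit 588) (nat_lit 502) (nat_lit 470))) (XT.nd (nat_lit 78) (nat_lit 1064) (nat_lit 0) (XT.lf (nat_lit 0) (nat_lit 7673583405) (nat_lit 608) (nat_lit 710845476) (nat_lit 76) (nat_lit 528074607) (nat_lit 246) (nat_lit 5) (nat_lit 254) (nat_lit 5) (nat_lit 247) (nat_lit 5) (nat_lit 589) (nat_lit 502) (nat_lit 469)) (XT.nd (nat_lit 78) (nat_lit 532) (nat_lit 0) (XT.lf (nat_lit 0) (nat_lit 2340801861) (nat_lit 532) (nat_lit 2688240428) (nat_lit 76) (nat_lit 3963132982) (nat_lit 239) (nat_lit 5) (nat_lit 246) (nat_lit 5) (nat_lit 240) (nat_lit 5) (nat_lit 590) (nat_lit 502) (nat_lit 468)) (XT.lf (nat_lit 0) (nat_lit 4373859458) (nat_lit 532) (nat_lit 1585402142) (nat_lit 608) (nat_lit 3114341542) (nat_lit 232) (nat_lit 5) (nat_lit 239) (nat_lit 5) (nat_lit 240) (nat_lit 5) (nat_lit 591) (nat_lit 502) (nat_lit 467))))))) (XT.nd (nat_lit 780) (nat_lit 3192) (nat_lit 0) (XT.nd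 (nat_lit 390) (nat_lit 1748) (nat_lit 0) (XT.nd (nat_lit 156) (nat_lit 988) (nat_lit 0) (XT.nd (nat_lit 78) (nat_lit 456) (nat_lit 0) (XT.lf (nat_lit 0) (nat_lit 484122827) (nat_lit 532) (nat_lit 6754593554) (nat_lit 76) (nat_lit 1917936899) (nat_lit 225) (nat_lit 5) (nat_lit 232) (nat_lit 5) (nat_lit 226) (nat_lit 5) (nat_lit 592) (nat_lit 502) (nat_lit 466)) (XT.lf (nat_lit 0) (nat_lit 371275316) (nat_lit 456) (nat_lit 3737353082) (nat_lit 532) (nat_lit 5132409870) (nat_lit 219) (nat_lit 5) (nat_lit 225) (nat_lit 5) (nat_lit 226) (nat_lit 5) (nat_lit 593) (nat_lit 502) (nat_lit 465))) (XT.nd (nat_lit 78) (nat_lit 988) (nat_lit 0) (XT.lf (nat_lit 0) (nat_lit 7660556996) (nat_lit 456) (nat_lit 141971865) (nat_lit 532) (nat_lit 1524645009) (nat_lit 219) (nat_lit 5) (nat_lit 225) (nat_lit 5) (nat_lit 226) (nat_lit 5) (nat_lit 594) (nat_lit 502) (nat_lit 464)) (XT.nd (nat_lit 78) (nat_lit 456) (nat_lit 0) (XT.lf (nat_lit 0) (nat_lit 2139122149) (nat_lit 532) (nat_lit 3766993876) (nat_lit 76) (nat_lit 3508394978)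 (nat_lit 212) (nat_lit 5) (nat_lit 219) (nat_lit 5) (nat_lit 213) (nat_lit 5) (nat_lit 595) (nat_lit 502) (nat_lit 463)) (XT.lf (nat_lit 0) (nat_lit 3592905877) (nat_lit 456) (nat_lit 2250942768) (nat_lit 532) (nat_lit 3659783645) (nat_lit 206) (nat_lit 5) (nat_lit 212) (nat_lit 5) (nat_lit 213) (nat_lit 5) (nat_lit 596) (nat_lit 502) (nat_lit 462))))) (XT.nd (nat_lit 156) (nat_lit 1292) (nat_lit 0) (XT.nd (nat_lit 78) (nat_lit 0) (nat_lit 0) (XT.lf (nat_lit 0) (nat_lit 25384080) (nat_lit 456) (nat_lit 8098438625) (nat_lit 76) (nat_lit 1470758167) (nat_lit 200) (nat_lit 5) (nat_lit 206) (nat_lit 5) (nat_lit 201) (nat_lit 5) (nat_lit 597) (nat_lit 502) (nat_lit 461)) (XT.lf (nat_lit 0) (nat_lit 3743172033) (nat_lit 456) (nat_lit 665440880) (nat_lit 76) (nat_lit 5278094157) (nat_lit 200) (nat_lit 5) (nat_lit 206) (nat_lit 5) (nat_lit 201) (nat_lit 5) (nat_lit 598) (nat_lit 502) (nat_lit 460))) (XT.nd (nat_lit 78) (nat_lit 836) (nat_lit 0) (XT.lf (nat_lit 0) (nat_lit 6937846242) (nat_lit 456) (nat_lit 596477248)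 (nat_lit 532) (nat_lit 2246373022) (nat_lit 194) (nat_lit 5) (nat_lit 200) (nat_lit 5) (nat_lit 201) (nat_lit 5) (nat_lit 599) (nat_lit 502) (nat_lit 459)) (XT.nd (nat_lit 78) (nat_lit 380) (nat_lit 0) (XT.lf (nat_lit 0) (nat_lit 1516092912) (nat_lit 456) (nat_lit 5088720194) (nat_lit 76) (nat_lit 3271328329) (nat_lit 188) (nat_lit 5) (nat_lit 194) (nat_lit 5) (nat_lit 189) (nat_lit 5) (nat_lit 600) (nat_lit 502) (nat_lit 458)) (XT.lf (nat_lit 0) (nat_lit 2580799803) (nat_lit 380) (nat_lit 2737280531) (nat_lit 456) (nat_lit 4655231758) (nat_lit 183) (nat_lit 5) (nat_lit 188) (nat_lit 5) (nat_lit 189) (nat_lit 5) (nat_lit 601) (nat_lit 502) (nat_lit 457)))))) (XT.nd (nat_lit 390) (nat_lit 1520) (nat_lit 0) (XT.nd (nat_lit 156) (nat_lit 1216) (nat_lit 0) (XT.nd (nat_lit 78) (nat_lit 76) (nat_lit 0) (XT.lf (nat_lit 0) (nat_lit 327066874) (nat_lit 380) (nat_lit 8868078396) (nat_lit 456) (nat_lit 877300945) (nat_lit 178) (nat_lit 5) (nat_lit 183) (nat_lit 5) (nat_lit 184) (nat_lit 5) (nat_lit 602) (nat_lit 502)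 (nat_lit 456)) (XT.lf (nat_lit 0) (nat_lit 2960056829) (nat_lit 456) (nat_lit 1979347068) (nat_lit 76) (nat_lit 5233315402) (nat_lit 177) (nat_lit 5) (nat_lit 183) (nat_lit 5) (nat_lit 178) (nat_lit 5) (nat_lit 603) (nat_lit 502) (nat_lit 455))) (XT.nd (nat_lit 78) (nat_lit 836) (nat_lit 0) (XT.lf (nat_lit 0) (nat_lit 5945305279) (nat_lit 380) (nat_lit 911444531) (nat_lit 456) (nat_lit 3418246115) (nat_lit 172) (nat_lit 5) (nat_lit 177) (nat_lit 5) (nat_lit 178) (nat_lit 5) (nat_lit 604) (nat_lit 502) (nat_lit 454)) (XT.nd (nat_lit 78) (nat_lit 380) (nat_lit 0) (XT.lf (nat_lit 0) (nat_lit 459929328) (nat_lit 456) (nat_lit 6748157424) (nat_lit 76) (nat_lit 3170897370) (nat_lit 166) (nat_lit 5) (nat_lit 172) (nat_lit 5) (nat_lit 167) (nat_lit 5) (nat_lit 605) (nat_lit 502) (nat_lit 453)) (XT.lf (nat_lit 0) (nat_lit 1242950349) (nat_lit 380) (nat_lit 3126458914) (nat_lit 456) (nat_lit 6115201422) (nat_lit 161) (nat_lit 5) (nat_lit 166) (nat_lit 5) (nat_lit 167) (nat_lit 5) (nat_lit 606) (nat_lit 502) (nat_lit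 452))))) (XT.nd (nat_lit 234) (nat_lit 760) (nat_lit 0) (XT.nd (nat_lit 78) (nat_lit 760) (nat_lit 0) (XT.lf (nat_lit 0) (nat_lit 8365758754) (nat_lit 456) (nat_lit 1182631063) (nat_lit 76) (nat_lit 1043787067) (nat_lit 161) (nat_lit 5) (nat_lit 167) (nat_lit 5) (nat_lit 162) (nat_lit 5) (nat_lit 607) (nat_lit 502) (nat_lit 451)) (XT.nd (nat_lit 78) (nat_lit 380) (nat_lit 0) (XT.lf (nat_lit 0) (nat_lit 1741115151) (nat_lit 380) (nat_lit 3671804160) (nat_lit 76) (nat_lit 5288273881) (nat_lit 156) (nat_lit 5) (nat_lit 161) (nat_lit 5) (nat_lit 157) (nat_lit 5) (nat_lit 608) (nat_lit 502) (nat_lit 450)) (XT.lf (nat_lit 0) (nat_lit 4586540396) (nat_lit 380) (nat_lit 1166780640) (nat_lit 456) (nat_lit 5058872446) (nat_lit 151) (nat_lit 5) (nat_lit 156) (nat_lit 5) (nat_lit 157) (nat_lit 5) (nat_lit 609) (nat_lit 502) (nat_lit 449)))) (XT.nd (nat_lit 78) (nat_lit 456) (nat_lit 0) (XT.lf (nat_lit 0) (nat_lit 2072885493) (nat_lit 304) (nat_lit 7789260235) (nat_lit 380) (nat_lit 1062941205) (nat_lit 147) (nat_lit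 5) (nat_lit 151) (nat_lit 5) (nat_lit 152) (nat_lit 5) (nat_lit 610) (nat_lit 502) (nat_lit 448)) (XT.nd (nat_lit 78) (nat_lit 380) (nat_lit 0) (XT.lf (nat_lit 0) (nat_lit 2980854686) (nat_lit 380) (nat_lit 513791519) (nat_lit 76) (nat_lit 7545052222) (nat_lit 146) (nat_lit 5) (nat_lit 151) (nat_lit 5) (nat_lit 147) (nat_lit 5) (nat_lit 611) (nat_lit 502) (nat_lit 447)) (XT.lf (nat_lit 0) (nat_lit 7107878482) (nat_lit 456) (nat_lit 3139928006) (nat_lit 76) (nat_lit 908324060) (nat_lit 141) (nat_lit 5) (nat_lit 147) (nat_lit 5) (nat_lit 142) (nat_lit 5) (nat_lit 612) (nat_lit 502) (nat_lit 446))))))))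
noncomputable def xc30 : XT := (XT.nd (nat_lit 77298) (nat_lit 0) (nat_lit 13224) (XT.nd (nat_lit 780) (nat_lit 228) (nat_lit 0) (XT.nd (nat_lit 390) (nat_lit 1292) (nat_lit 0) (XT.nd (nat_lit 156) (nat_lit 684) (nat_lit 0) (XT.nd (nat_lit 78) (nat_lit 304) (nat_lit 0) (XT.lf (nat_lit 0) (nat_lit 62717405) (nat_lit 380) (nat_lit 5845387934) (nat_lit 76) (nat_lit 5366366556) (nat_lit 136) (nat_lit 5) (nat_lit 141) (nat_lit 5) (nat_lit 137) (nat_lit 5) (nat_lit 613) (nat_lit 502) (nat_lit 445)) (XT.lf (nat_lit 0) (nat_lit 2758934350) (nat_lit 304) (nat_lit 1440764448) (nat_lit 380) (nat_lit 7194986696) (nat_lit 132) (nat_lit 5) (nat_lit 136) (nat_lit 5) (nat_lit 137) (nat_lit 5) (nat_lit 614) (nat_lit 502) (nat_lit 444))) (XT.nd (nat_lit 78) (nat_lit 380) (nat_lit 0) (XT.lf (nat_lit 0) (nat_lit 9918127) (nat_lit 304) (nat_lit 8428307641) (nat_lit 380) (nat_lit 3078702046) (nat_lit 128) (nat_lit 5) (nat_lit 132) (nat_lit 5) (nat_lit 133) (nat_lit 5) (nat_lit 615) (nat_lit 502) (nat_lit 443)) (XT.nd (nat_lit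 78) (nat_lit 304) (nat_lit 0) (XT.lf (nat_lit 0) (nat_lit 1132218465) (nat_lit 380) (nat_lit 2779971151) (nat_lit 76) (nat_lit 7728740525) (nat_lit 127) (nat_lit 5) (nat_lit 132) (nat_lit 5) (nat_lit 128) (nat_lit 5) (nat_lit 616) (nat_lit 502) (nat_lit 442)) (XT.lf (nat_lit 0) (nat_lit 5390531288) (nat_lit 380) (nat_lit 5656877797) (nat_lit 76) (nat_lit 719509004) (nat_lit 123) (nat_lit 5) (nat_lit 128) (nat_lit 5) (nat_lit 124) (nat_lit 5) (nat_lit 617) (nat_lit 502) (nat_lit 441))))) (XT.nd (nat_lit 156) (nat_lit 608) (nat_lit 0) (XT.nd (nat_lit 78) (nat_lit 380) (nat_lit 0) (XT.lf (nat_lit 0) (nat_lit 3270610901) (nat_lit 304) (nat_lit 6489430613) (nat_lit 380) (nat_lit 2134864184) (nat_lit 119) (nat_lit 5) (nat_lit 123) (nat_lit 5) (nat_lit 124) (nat_lit 5) (nat_lit 618) (nat_lit 502) (nat_lit 440)) (XT.lf (nat_lit 0) (nat_lit 351947273) (nat_lit 304) (nat_lit 1811495345) (nat_lit 380) (nat_lit 9861712462) (nat_lit 114) (nat_lit 5) (nat_lit 118) (nat_lit 5) (nat_lit 119) (nat_lit 5) (nat_lit 619) (nat_lit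 502) (nat_lit 439))) (XT.nd (nat_lit 78) (nat_lit 608) (nat_lit 0) (XT.lf (nat_lit 0) (nat_lit 6557004498) (nat_lit 380) (nat_lit 2632972538) (nat_lit 76) (nat_lit 2966993182) (nat_lit 114) (nat_lit 5) (nat_lit 119) (nat_lit 5) (nat_lit 115) (nat_lit 5) (nat_lit 620) (nat_lit 502) (nat_lit 438)) (XT.nd (nat_lit 78) (nat_lit 380) (nat_lit 0) (XT.lf (nat_lit 0) (nat_lit 6596904470) (nat_lit 228) (nat_lit 4457511233) (nat_lit 304) (nat_lit 1236686877) (nat_lit 111) (nat_lit 5) (nat_lit 114) (nat_lit 5) (nat_lit 115) (nat_lit 5) (nat_lit 621) (nat_lit 502) (nat_lit 437)) (XT.lf (nat_lit 0) (nat_lit 3176601481) (nat_lit 380) (nat_lit 8850388884) (nat_lit 76) (nat_lit 400412474) (nat_lit 106) (nat_lit 5) (nat_lit 111) (nat_lit 5) (nat_lit 107) (nat_lit 5) (nat_lit 622) (nat_lit 502) (nat_lit 436)))))) (XT.nd (nat_lit 76128) (nat_lit 0) (nat_lit 26448) (XT.nd (nat_lit 75894) (nat_lit 0) (nat_lit 30476) (XT.nd (nat_lit 75816) (nat_lit 0) (nat_lit 34048) (XT.lf (nat_lit 0) (nat_lit 447141984) (nat_lit 228) (nat_lit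 7246750852) (nat_lit 304) (nat_lit 4871727305) (nat_lit 103) (nat_lit 5) (nat_lit 106) (nat_lit 5) (nat_lit 107) (nat_lit 5) (nat_lit 623) (nat_lit 502) (nat_lit 435)) (XT.lf (nat_lit 0) (nat_lit 159276855) (nat_lit 1596) (nat_lit 1668345060) (nat_lit 1596) (nat_lit 1668345060) (nat_lit 551) (nat_lit 4) (nat_lit 572) (nat_lit 5) (nat_lit 572) (nat_lit 4) (nat_lit 554) (nat_lit 503) (nat_lit 503))) (XT.nd (nat_lit 78) (nat_lit 3496) (nat_lit 0) (XT.lf (nat_lit 0) (nat_lit 143900053) (nat_lit 1672) (nat_lit 1553961262) (nat_lit 76) (nat_lit 5327186155) (nat_lit 550) (nat_lit 5) (nat_lit 572) (nat_lit 5) (nat_lit 551) (nat_lit 4) (nat_lit 555) (nat_lit 503) (nat_lit 502)) (XT.nd (nat_lit 78) (nat_lit 1824) (nat_lit 0) (XT.lf (nat_lit 0) (nat_lit 3603318133) (nat_lit 1748) (nat_lit 3434150613) (nat_lit 0) (nat_lit 21838387) (nat_lit 528) (nat_lit 5) (nat_lit 551) (nat_lit 4) (nat_lit 528) (nat_lit 4) (nat_lit 556) (nat_lit 503) (nat_lit 501)) (XT.lf (nat_lit 0) (nat_lit 1335126) (nat_lit 1824) (nat_lit 5317027669)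 (nat_lit 76) (nat_lit 1776603932) (nat_lit 504) (nat_lit 5) (nat_lit 528) (nat_lit 5) (nat_lit 505) (nat_lit 4) (nat_lit 557) (nat_lit 503) (nat_lit 500))))) (XT.nd (nat_lit 156) (nat_lit 2204) (nat_lit 0) (XT.nd (nat_lit 78) (nat_lit 1824) (nat_lit 0) (XT.lf (nat_lit 0) (nat_lit 3436334585) (nat_lit 1824) (nat_lit 82490406) (nat_lit 76) (nat_lit 3612964256) (nat_lit 504) (nat_lit 5) (nat_lit 528) (nat_lit 5) (nat_lit 505) (nat_lit 4) (nat_lit 558) (nat_lit 503) (nat_lit 499)) (XT.lf (nat_lit 0) (nat_lit 5257660239) (nat_lit 1824) (nat_lit 1649415611) (nat_lit 1900) (nat_lit 262934187) (nat_lit 480) (nat_lit 5) (nat_lit 504) (nat_lit 5) (nat_lit 505) (nat_lit 4) (nat_lit 559) (nat_lit 503) (nat_lit 498))) (XT.nd (nat_lit 78) (nat_lit 988) (nat_lit 0) (XT.lf (nat_lit 0) (nat_lit 3154031918) (nat_lit 1216) (nat_lit 3758875085) (nat_lit 76) (nat_lit 296504991) (nat_lit 464) (nat_lit 5) (nat_lit 480) (nat_lit 5) (nat_lit 465) (nat_lit 4) (nat_lit 560) (nat_lit 503) (nat_lit 497)) (XT.nd (nat_lit 78) (nat_lit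 76) (nat_lit 0) (XT.lf (nat_lit 0) (nat_lit 1636647029) (nat_lit 912) (nat_lit 4967832441) (nat_lit 988) (nat_lit 645717005) (nat_lit 452) (nat_lit 5) (nat_lit 464) (nat_lit 5) (nat_lit 465) (nat_lit 4) (nat_lit 561) (nat_lit 503) (nat_lit 496)) (XT.lf (nat_lit 0) (nat_lit 2754989115) (nat_lit 988) (nat_lit 188557375) (nat_lit 76) (nat_lit 4348684922) (nat_lit 451) (nat_lit 5) (nat_lit 464) (nat_lit 5) (nat_lit 452) (nat_lit 5) (nat_lit 562) (nat_lit 503) (nat_lit 495))))))) (XT.nd (nat_lit 780) (nat_lit 6308) (nat_lit 0) (XT.nd (nat_lit 390) (nat_lit 3268) (nat_lit 0) (XT.nd (nat_lit 156) (nat_lit 1824) (nat_lit 0) (XT.nd (nat_lit 78) (nat_lit 912) (nat_lit 0) (XT.lf (nat_lit 0) (nat_lit 5342349468) (nat_lit 912) (nat_lit 843292924) (nat_lit 988) (nat_lit 1149970065) (nat_lit 439) (nat_lit 5) (nat_lit 451) (nat_lit 5) (nat_lit 452) (nat_lit 5) (nat_lit 563) (nat_lit 503) (nat_lit 494)) (XT.lf (nat_lit 0) (nat_lit 2244208479) (nat_lit 912) (nat_lit 3819348284) (nat_lit 76) (nat_lit 1316619470) (nat_lit 427)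 (nat_lit 5) (nat_lit 439) (nat_lit 5) (nat_lit 428) (nat_lit 5) (nat_lit 564) (nat_lit 503) (nat_lit 493))) (XT.nd (nat_lit 78) (nat_lit 912) (nat_lit 0) (XT.lf (nat_lit 0) (nat_lit 1768008032) (nat_lit 912) (nat_lit 3890457501) (nat_lit 988) (nat_lit 1767664085) (nat_lit 415) (nat_lit 5) (nat_lit 427) (nat_lit 5) (nat_lit 428) (nat_lit 5) (nat_lit 565) (nat_lit 503) (nat_lit 492)) (XT.nd (nat_lit 78) (nat_lit 836) (nat_lit 0) (XT.lf (nat_lit 0) (nat_lit 1609351351) (nat_lit 988) (nat_lit 34528334) (nat_lit 76) (nat_lit 5829643488) (nat_lit 414) (nat_lit 5) (nat_lit 427) (nat_lit 5) (nat_lit 415) (nat_lit 5) (nat_lit 566) (nat_lit 503) (nat_lit 491)) (XT.lf (nat_lit 0) (nat_lit 5010372151) (nat_lit 912) (nat_lit 1830618264) (nat_lit 76) (nat_lit 681039909) (nat_lit 403) (nat_lit 5) (nat_lit 415) (nat_lit 5) (nat_lit 404) (nat_lit 5) (nat_lit 567) (nat_lit 503) (nat_lit 490))))) (XT.nd (nat_lit 156) (nat_lit 1596) (nat_lit 0) (XT.nd (nat_lit 78) (nat_lit 760) (nat_lit 0) (XT.lf (nat_lit 0) (nat_lit 871849534)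 (nat_lit 912) (nat_lit 3645471014) (nat_lit 76) (nat_lit 3054554167) (nat_lit 391) (nat_lit 5) (nat_lit 403) (nat_lit 5) (nat_lit 392) (nat_lit 5) (nat_lit 568) (nat_lit 503) (nat_lit 489)) (XT.lf (nat_lit 0) (nat_lit 2142683463) (nat_lit 760) (nat_lit 2112726696) (nat_lit 836) (nat_lit 3367655488) (nat_lit 381) (nat_lit 5) (nat_lit 391) (nat_lit 5) (nat_lit 392) (nat_lit 5) (nat_lit 569) (nat_lit 503) (nat_lit 488))) (XT.nd (nat_lit 78) (nat_lit 760) (nat_lit 0) (XT.lf (nat_lit 0) (nat_lit 247796) (nat_lit 836) (nat_lit 7322692240) (nat_lit 76) (nat_lit 352952235) (nat_lit 370) (nat_lit 5) (nat_lit 381) (nat_lit 5) (nat_lit 371) (nat_lit 5) (nat_lit 570) (nat_lit 503) (nat_lit 487)) (XT.nd (nat_lit 78) (nat_lit 760) (nat_lit 0) (XT.lf (nat_lit 0) (nat_lit 3382169423) (nat_lit 836) (nat_lit 1458449552) (nat_lit 76) (nat_lit 2888878044) (nat_lit 370) (nat_lit 5) (nat_lit 381) (nat_lit 5) (nat_lit 371) (nat_lit 5) (nat_lit 571) (nat_lit 503) (nat_lit 486)) (XT.lf (nat_lit 0) (nat_lit 4513037790) (nat_lit 760)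 (nat_lit 2289855742) (nat_lit 836) (nat_lit 981858871) (nat_lit 360) (nat_lit 5) (nat_lit 370) (nat_lit 5) (nat_lit 371) (nat_lit 5) (nat_lit 572) (nat_lit 503) (nat_lit 485)))))) (XT.nd (nat_lit 390) (nat_lit 3268) (nat_lit 0) (XT.nd (nat_lit 156) (nat_lit 1520) (nat_lit 0) (XT.nd (nat_lit 78) (nat_lit 684) (nat_lit 0) (XT.lf (nat_lit 0) (nat_lit 2390782987) (nat_lit 836) (nat_lit 5110507441) (nat_lit 76) (nat_lit 340065799) (nat_lit 349) (nat_lit 5) (nat_lit 360) (nat_lit 5) (nat_lit 350) (nat_lit 5) (nat_lit 573) (nat_lit 503) (nat_lit 484)) (XT.lf (nat_lit 0) (nat_lit 919249390) (nat_lit 684) (nat_lit 4884508187) (nat_lit 760) (nat_lit 2095485926) (nat_lit 340) (nat_lit 5) (nat_lit 349) (nat_lit 5) (nat_lit 350) (nat_lit 5) (nat_lit 574) (nat_lit 503) (nat_lit 483))) (XT.nd (nat_lit 78) (nat_lit 1444) (nat_lit 0) (XT.lf (nat_lit 0) (nat_lit 1286899165) (nat_lit 760) (nat_lit 898018309) (nat_lit 76) (nat_lit 5773648505) (nat_lit 339) (nat_lit 5) (nat_lit 349) (nat_lit 5) (nat_lit 340) (nat_lit 5) (nat_lit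 575) (nat_lit 503) (nat_lit 482)) (XT.nd (nat_lit 78) (nat_lit 760) (nat_lit 0) (XT.lf (nat_lit 0) (nat_lit 4691375541) (nat_lit 760) (nat_lit 2731096546) (nat_lit 76) (nat_lit 596677370) (nat_lit 330) (nat_lit 5) (nat_lit 340) (nat_lit 5) (nat_lit 331) (nat_lit 5) (nat_lit 576) (nat_lit 503) (nat_lit 481)) (XT.lf (nat_lit 0) (nat_lit 69779836) (nat_lit 760) (nat_lit 4590810493) (nat_lit 76) (nat_lit 3420587623) (nat_lit 320) (nat_lit 5) (nat_lit 330) (nat_lit 5) (nat_lit 321) (nat_lit 5) (nat_lit 577) (nat_lit 503) (nat_lit 480))))) (XT.nd (nat_lit 234) (nat_lit 1900) (nat_lit 0) (XT.nd (nat_lit 78) (nat_lit 684) (nat_lit 0) (XT.lf (nat_lit 0) (nat_lit 1658892021) (nat_lit 684) (nat_lit 1806117757) (nat_lit 760) (nat_lit 4679513152) (nat_lit 311) (nat_lit 5) (nat_lit 320) (nat_lit 5) (nat_lit 321) (nat_lit 5) (nat_lit 578) (nat_lit 503) (nat_lit 479)) (XT.nd (nat_lit 78) (nat_lit 684) (nat_lit 0) (XT.lf (nat_lit 0) (nat_lit 6911884698) (nat_lit 760) (nat_lit 190518341) (nat_lit 76) (nat_lit 1107058456)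 (nat_lit 311) (nat_lit 5) (nat_lit 321) (nat_lit 5) (nat_lit 312) (nat_lit 5) (nat_lit 579) (nat_lit 503) (nat_lit 478)) (XT.lf (nat_lit 0) (nat_lit 2122804701) (nat_lit 684) (nat_lit 2058482064) (nat_lit 76) (nat_lit 4094153454) (nat_lit 302) (nat_lit 5) (nat_lit 311) (nat_lit 5) (nat_lit 303) (nat_lit 5) (nat_lit 580) (nat_lit 503) (nat_lit 477)))) (XT.nd (nat_lit 78) (nat_lit 1292) (nat_lit 0) (XT.lf (nat_lit 0) (nat_lit 4392147213) (nat_lit 608) (nat_lit 1178762228) (nat_lit 684) (nat_lit 2772125141) (nat_lit 294) (nat_lit 5) (nat_lit 302) (nat_lit 5) (nat_lit 303) (nat_lit 5) (nat_lit 581) (nat_lit 503) (nat_lit 476)) (XT.nd (nat_lit 78) (nat_lit 608) (nat_lit 0) (XT.lf (nat_lit 0) (nat_lit 657042854) (nat_lit 684) (nat_lit 5877337081) (nat_lit 76) (nat_lit 1877716209) (nat_lit 285) (nat_lit 5) (nat_lit 294) (nat_lit 5) (nat_lit 286) (nat_lit 5) (nat_lit 582) (nat_lit 503) (nat_lit 475)) (XT.lf (nat_lit 0) (nat_lit 633597025) (nat_lit 608) (nat_lit 3470316248) (nat_lit 684) (nat_lit 4378535759) (nat_lit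 277) (nat_lit 5) (nat_lit 285) (nat_lit 5) (nat_lit 286) (nat_lit 5) (nat_lit 583) (nat_lit 503) (nat_lit 474))))))))
noncomputable def xc31 : XT := (XT.nd (nat_lit 1560) (nat_lit 5396) (nat_lit 0) (XT.nd (nat_lit 780) (nat_lit 3648) (nat_lit 0) (XT.nd (nat_lit 390) (nat_lit 2128) (nat_lit 0) (XT.nd (nat_lit 156) (nat_lit 1216) (nat_lit 0) (XT.nd (nat_lit 78) (nat_lit 608) (nat_lit 0) (XT.lf (nat_lit 0) (nat_lit 7284842061) (nat_lit 608) (nat_lit 322489782) (nat_lit 684) (nat_lit 947126223) (nat_lit 277) (nat_lit 5) (nat_lit 285) (nat_lit 5) (nat_lit 286) (nat_lit 5) (nat_lit 584) (nat_lit 503) (nat_lit 473)) (XT.lf (nat_lit 0) (nat_lit 2522494558) (nat_lit 608) (nat_lit 3219964912) (nat_lit 76) (nat_lit 2885056257) (nat_lit 269) (nat_lit 5) (nat_lit 277) (nat_lit 5) (nat_lit 270) (nat_lit 5) (nat_lit 585) (nat_lit 503) (nat_lit 472))) (XT.nd (nat_lit 78) (nat_lit 608) (nat_lit 0) (XT.lf (nat_lit 0) (nat_lit 3501730841) (nat_lit 608) (nat_lit 2529846141) (nat_lit 684) (nat_lit 2670678552) (nat_lit 261) (nat_lit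 5) (nat_lit 269) (nat_lit 5) (nat_lit 270) (nat_lit 5) (nat_lit 586) (nat_lit 503) (nat_lit 471)) (XT.nd (nat_lit 78) (nat_lit 0) (nat_lit 0) (XT.lf (nat_lit 0) (nat_lit 807851047) (nat_lit 608) (nat_lit 7214801972) (nat_lit 76) (nat_lit 756001882) (nat_lit 253) (nat_lit 5) (nat_lit 261) (nat_lit 5) (nat_lit 254) (nat_lit 5) (nat_lit 587) (nat_lit 503) (nat_lit 470)) (XT.lf (nat_lit 0) (nat_lit 4322030384) (nat_lit 608) (nat_lit 426515092) (nat_lit 76) (nat_lit 4107648080) (nat_lit 253) (nat_lit 5) (nat_lit 261) (nat_lit 5) (nat_lit 254) (nat_lit 5) (nat_lit 588) (nat_lit 503) (nat_lit 469))))) (XT.nd (nat_lit 156) (nat_lit 1064) (nat_lit 0) (XT.nd (nat_lit 78) (nat_lit 532) (nat_lit 0) (XT.lf (nat_lit 0) (nat_lit 6514375005) (nat_lit 532) (nat_lit 1385318635) (nat_lit 608) (nat_lit 1035726471) (nat_lit 246) (nat_lit 5) (nat_lit 253) (nat_lit 5) (nat_lit 254) (nat_lit 5) (nat_lit 589) (nat_lit 503) (nat_lit 468)) (XT.lf (nat_lit 0) (nat_lit 2496513911) (nat_lit 532) (nat_lit 4471495113) (nat_lit 76) (nat_lit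 2047953356) (nat_lit 239) (nat_lit 5) (nat_lit 246) (nat_lit 5) (nat_lit 240) (nat_lit 5) (nat_lit 590) (nat_lit 503) (nat_lit 467))) (XT.nd (nat_lit 78) (nat_lit 532) (nat_lit 0) (XT.lf (nat_lit 0) (nat_lit 2532200691) (nat_lit 532) (nat_lit 3546799602) (nat_lit 608) (nat_lit 3019109955) (nat_lit 232) (nat_lit 5) (nat_lit 239) (nat_lit 5) (nat_lit 240) (nat_lit 5) (nat_lit 591) (nat_lit 503) (nat_lit 466)) (XT.nd (nat_lit 78) (nat_lit 0) (nat_lit 0) (XT.lf (nat_lit 0) (nat_lit 488537416) (nat_lit 456) (nat_lit 40518593) (nat_lit 532) (nat_lit 8653073505) (nat_lit 225) (nat_lit 5) (nat_lit 231) (nat_lit 5) (nat_lit 232) (nat_lit 5) (nat_lit 592) (nat_lit 503) (nat_lit 465)) (XT.lf (nat_lit 0) (nat_lit 4127143737) (nat_lit 532) (nat_lit 1606853298) (nat_lit 76) (nat_lit 3533046324) (nat_lit 225) (nat_lit 5) (nat_lit 232) (nat_lit 5) (nat_lit 226) (nat_lit 5) (nat_lit 593) (nat_lit 503) (nat_lit 464)))))) (XT.nd (nat_lit 390) (nat_lit 1748) (nat_lit 0) (XT.nd (nat_lit 156) (nat_lit 912) (nat_lit 0) (XT.nd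 (nat_lit 78) (nat_lit 532) (nat_lit 0) (XT.lf (nat_lit 0) (nat_lit 5626777474) (nat_lit 456) (nat_lit 2160194010) (nat_lit 532) (nat_lit 1566889418) (nat_lit 219) (nat_lit 5) (nat_lit 225) (nat_lit 5) (nat_lit 226) (nat_lit 5) (nat_lit 594) (nat_lit 503) (nat_lit 463)) (XT.lf (nat_lit 0) (nat_lit 2047194666) (nat_lit 532) (nat_lit 5903114843) (nat_lit 76) (nat_lit 1491899225) (nat_lit 212) (nat_lit 5) (nat_lit 219) (nat_lit 5) (nat_lit 213) (nat_lit 5) (nat_lit 595) (nat_lit 503) (nat_lit 462))) (XT.nd (nat_lit 78) (nat_lit 456) (nat_lit 0) (XT.lf (nat_lit 0) (nat_lit 1393844375) (nat_lit 456) (nat_lit 4320771563) (nat_lit 532) (nat_lit 3817460647) (nat_lit 206) (nat_lit 5) (nat_lit 212) (nat_lit 5) (nat_lit 213) (nat_lit 5) (nat_lit 596) (nat_lit 503) (nat_lit 461)) (XT.nd (nat_lit 78) (nat_lit 456) (nat_lit 0) (XT.lf (nat_lit 0) (nat_lit 8848333331) (nat_lit 456) (nat_lit 600617638) (nat_lit 532) (nat_lit 174920430) (nat_lit 206) (nat_lit 5) (nat_lit 212) (nat_lit 5) (nat_lit 213) (nat_lit 5) (nat_lit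 597) (nat_lit 503) (nat_lit 460)) (XT.lf (nat_lit 0) (nat_lit 3513335244) (nat_lit 456) (nat_lit 3006088627) (nat_lit 76) (nat_lit 3197233399) (nat_lit 200) (nat_lit 5) (nat_lit 206) (nat_lit 5) (nat_lit 201) (nat_lit 5) (nat_lit 598) (nat_lit 503) (nat_lit 459))))) (XT.nd (nat_lit 156) (nat_lit 836) (nat_lit 0) (XT.nd (nat_lit 78) (nat_lit 456) (nat_lit 0) (XT.lf (nat_lit 0) (nat_lit 4531980959) (nat_lit 456) (nat_lit 2734541377) (nat_lit 532) (nat_lit 2544884088) (nat_lit 194) (nat_lit 5) (nat_lit 200) (nat_lit 5) (nat_lit 201) (nat_lit 5) (nat_lit 599) (nat_lit 503) (nat_lit 458)) (XT.lf (nat_lit 0) (nat_lit 1168911150) (nat_lit 456) (nat_lit 7607342437) (nat_lit 76) (nat_lit 1131688647) (nat_lit 188) (nat_lit 5) (nat_lit 194) (nat_lit 5) (nat_lit 189) (nat_lit 5) (nat_lit 600) (nat_lit 503) (nat_lit 457))) (XT.nd (nat_lit 78) (nat_lit 836) (nat_lit 0) (XT.lf (nat_lit 0) (nat_lit 4932017080) (nat_lit 456) (nat_lit 5554163) (nat_lit 76) (nat_lit 5068319678) (nat_lit 188) (nat_lit 5) (nat_lit 194) (nat_lit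 5) (nat_lit 189) (nat_lit 5) (nat_lit 601) (nat_lit 503) (nat_lit 456)) (XT.nd (nat_lit 78) (nat_lit 456) (nat_lit 0) (XT.lf (nat_lit 0) (nat_lit 7783244784) (nat_lit 380) (nat_lit 993857705) (nat_lit 456) (nat_lit 1328562538) (nat_lit 183) (nat_lit 5) (nat_lit 188) (nat_lit 5) (nat_lit 189) (nat_lit 5) (nat_lit 602) (nat_lit 503) (nat_lit 455)) (XT.lf (nat_lit 0) (nat_lit 2470961386) (nat_lit 456) (nat_lit 4717829741) (nat_lit 76) (nat_lit 3018081003) (nat_lit 177) (nat_lit 5) (nat_lit 183) (nat_lit 5) (nat_lit 178) (nat_lit 5) (nat_lit 603) (nat_lit 503) (nat_lit 454))))))) (XT.nd (nat_lit 780) (nat_lit 2356) (nat_lit 0) (XT.nd (nat_lit 390) (nat_lit 1444) (nat_lit 0) (XT.nd (nat_lit 156) (nat_lit 836) (nat_lit 0) (XT.nd (nat_lit 78) (nat_lit 380) (nat_lit 0) (XT.lf (nat_lit 0) (nat_lit 3136562620) (nat_lit 380) (nat_lit 3191366139) (nat_lit 456) (nat_lit 3982014880) (nat_lit 172) (nat_lit 5) (nat_lit 177) (nat_lit 5) (nat_lit 178) (nat_lit 5) (nat_lit 604) (nat_lit 503) (nat_lit 453)) (XT.lf (nat_lit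 0) (nat_lit 733433566) (nat_lit 380) (nat_lit 9527835980) (nat_lit 456) (nat_lit 153823083) (nat_lit 167) (nat_lit 5) (nat_lit 172) (nat_lit 5) (nat_lit 173) (nat_lit 5) (nat_lit 605) (nat_lit 503) (nat_lit 452))) (XT.nd (nat_lit 78) (nat_lit 760) (nat_lit 0) (XT.lf (nat_lit 0) (nat_lit 3728305183) (nat_lit 456) (nat_lit 1739468333) (nat_lit 76) (nat_lit 5053553381) (nat_lit 166) (nat_lit 5) (nat_lit 172) (nat_lit 5) (nat_lit 167) (nat_lit 5) (nat_lit 606) (nat_lit 503) (nat_lit 451)) (XT.nd (nat_lit 78) (nat_lit 380) (nat_lit 0) (XT.lf (nat_lit 0) (nat_lit 6377621779) (nat_lit 380) (nat_lit 1307623792) (nat_lit 456) (nat_lit 2944436048) (nat_lit 161) (nat_lit 5) (nat_lit 166) (nat_lit 5) (nat_lit 167) (nat_lit 5) (nat_lit 607) (nat_lit 503) (nat_lit 450)) (XT.lf (nat_lit 0) (nat_lit 982577216) (nat_lit 380) (nat_lit 6840441730) (nat_lit 76) (nat_lit 2916771284) (nat_lit 156) (nat_lit 5) (nat_lit 161) (nat_lit 5) (nat_lit 157) (nat_lit 5) (nat_lit 608) (nat_lit 503) (nat_lit 449))))) (XT.nd (nat_lit 156)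 (nat_lit 1064) (nat_lit 0) (XT.nd (nat_lit 78) (nat_lit 0) (nat_lit 0) (XT.lf (nat_lit 0) (nat_lit 1342220999) (nat_lit 380) (nat_lit 3610792292) (nat_lit 456) (nat_lit 5898612948) (nat_lit 151) (nat_lit 5) (nat_lit 156) (nat_lit 5) (nat_lit 157) (nat_lit 5) (nat_lit 609) (nat_lit 503) (nat_lit 448)) (XT.lf (nat_lit 0) (nat_lit 9011917532) (nat_lit 456) (nat_lit 1255428869) (nat_lit 76) (nat_lit 698172014) (nat_lit 151) (nat_lit 5) (nat_lit 157) (nat_lit 5) (nat_lit 152) (nat_lit 5) (nat_lit 610) (nat_lit 503) (nat_lit 447))) (XT.nd (nat_lit 78) (nat_lit 684) (nat_lit 0) (XT.lf (nat_lit 0) (nat_lit 2073022253) (nat_lit 380) (nat_lit 3926847734) (nat_lit 76) (nat_lit 5080952960) (nat_lit 146) (nat_lit 5) (nat_lit 151) (nat_lit 5) (nat_lit 147) (nat_lit 5) (nat_lit 611) (nat_lit 503) (nat_lit 446)) (XT.nd (nat_lit 78) (nat_lit 304) (nat_lit 0) (XT.lf (nat_lit 0) (nat_lit 4530804366) (nat_lit 380) (nat_lit 1620459699) (nat_lit 456) (nat_lit 5046966940) (nat_lit 141) (nat_lit 5) (nat_lit 146) (nat_lit 5) (nat_lit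 147) (nat_lit 5) (nat_lit 612) (nat_lit 503) (nat_lit 445)) (XT.lf (nat_lit 0) (nat_lit 1832604007) (nat_lit 304) (nat_lit 8494904235) (nat_lit 380) (nat_lit 990150822) (nat_lit 137) (nat_lit 5) (nat_lit 141) (nat_lit 5) (nat_lit 142) (nat_lit 5) (nat_lit 613) (nat_lit 503) (nat_lit 444)))))) (XT.nd (nat_lit 390) (nat_lit 1292) (nat_lit 0) (XT.nd (nat_lit 156) (nat_lit 684) (nat_lit 0) (XT.nd (nat_lit 78) (nat_lit 304) (nat_lit 0) (XT.lf (nat_lit 0) (nat_lit 3121919770) (nat_lit 380) (nat_lit 943287662) (nat_lit 76) (nat_lit 7373552022) (nat_lit 136) (nat_lit 5) (nat_lit 141) (nat_lit 5) (nat_lit 137) (nat_lit 5) (nat_lit 614) (nat_lit 503) (nat_lit 443)) (XT.lf (nat_lit 0) (nat_lit 7317209114) (nat_lit 380) (nat_lit 3764984383) (nat_lit 76) (nat_lit 479673303) (nat_lit 132) (nat_lit 5) (nat_lit 137) (nat_lit 5) (nat_lit 133) (nat_lit 5) (nat_lit 615) (nat_lit 503) (nat_lit 442))) (XT.nd (nat_lit 78) (nat_lit 380) (nat_lit 0) (XT.lf (nat_lit 0) (nat_lit 5010938759) (nat_lit 304) (nat_lit 6611910205) (nat_lit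 380) (nat_lit 64058981) (nat_lit 128) (nat_lit 5) (nat_lit 132) (nat_lit 5) (nat_lit 133) (nat_lit 5) (nat_lit 616) (nat_lit 503) (nat_lit 441)) (XT.nd (nat_lit 78) (nat_lit 0) (nat_lit 0) (XT.lf (nat_lit 0) (nat_lit 2134788196) (nat_lit 304) (nat_lit 2010280163) (nat_lit 380) (nat_lit 7668836625) (nat_lit 123) (nat_lit 5) (nat_lit 127) (nat_lit 5) (nat_lit 128) (nat_lit 5) (nat_lit 617) (nat_lit 503) (nat_lit 440)) (XT.lf (nat_lit 0) (nat_lit 8460930744) (nat_lit 380) (nat_lit 813859607) (nat_lit 76) (nat_lit 2668175452) (nat_lit 123) (nat_lit 5) (nat_lit 128) (nat_lit 5) (nat_lit 124) (nat_lit 5) (nat_lit 618) (nat_lit 503) (nat_lit 439))))) (XT.nd (nat_lit 234) (nat_lit 380) (nat_lit 0) (XT.nd (nat_lit 78) (nat_lit 532) (nat_lit 0) (XT.lf (nat_lit 0) (nat_lit 806947847) (nat_lit 380) (nat_lit 3819772677) (nat_lit 76) (nat_lit 7447209686) (nat_lit 118) (nat_lit 5) (nat_lit 123) (nat_lit 5) (nat_lit 119) (nat_lit 5) (nat_lit 619) (nat_lit 503) (nat_lit 438)) (XT.nd (nat_lit 78) (nat_lit 228) (nat_lit 0)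 (XT.lf (nat_lit 0) (nat_lit 5137702212) (nat_lit 380) (nat_lit 6918806025) (nat_lit 76) (nat_lit 150493500) (nat_lit 114) (nat_lit 5) (nat_lit 119) (nat_lit 5) (nat_lit 115) (nat_lit 5) (nat_lit 620) (nat_lit 503) (nat_lit 437)) (XT.lf (nat_lit 0) (nat_lit 2221810673) (nat_lit 228) (nat_lit 7366041146) (nat_lit 304) (nat_lit 2754227746) (nat_lit 111) (nat_lit 5) (nat_lit 114) (nat_lit 5) (nat_lit 115) (nat_lit 5) (nat_lit 621) (nat_lit 503) (nat_lit 436)))) (XT.nd (nat_lit 78) (nat_lit 304) (nat_lit 0) (XT.lf (nat_lit 0) (nat_lit 1634271843) (nat_lit 304) (nat_lit 915386089) (nat_lit 76) (nat_lit 9929813008) (nat_lit 110) (nat_lit 5) (nat_lit 114) (nat_lit 5) (nat_lit 111) (nat_lit 5) (nat_lit 622) (nat_lit 503) (nat_lit 435)) (XT.nd (nat_lit 75660) (nat_lit 0) (nat_lit 37012) (XT.lf (nat_lit 0) (nat_lit 6107306581) (nat_lit 380) (nat_lit 4130881187) (nat_lit 76) (nat_lit 2380385826) (nat_lit 106) (nat_lit 5) (nat_lit 111) (nat_lit 5) (nat_lit 107) (nat_lit 5) (nat_lit 623) (nat_lit 503) (nat_lit 434)) (XT.lf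 (nat_lit 0) (nat_lit 2076255102) (nat_lit 1444) (nat_lit 694135624) (nat_lit 1444) (nat_lit 694135624) (nat_lit 593) (nat_lit 4) (nat_lit 612) (nat_lit 5) (nat_lit 612) (nat_lit 4) (nat_lit 552) (nat_lit 504) (nat_lit 504))))))))
noncomputable def xc32 : XT := (XT.nd (nat_lit 1560) (nat_lit 9804) (nat_lit 0) (XT.nd (nat_lit 780) (nat_lit 6916) (nat_lit 0) (XT.nd (nat_lit 390) (nat_lit 4028) (nat_lit 0) (XT.nd (nat_lit 156) (nat_lit 3572) (nat_lit 0) (XT.nd (nat_lit 78) (nat_lit 1596) (nat_lit 0) (XT.lf (nat_lit 0) (nat_lit 2051879372) (nat_lit 1596) (nat_lit 4737991416) (nat_lit 0) (nat_lit 170347215) (nat_lit 572) (nat_lit 5) (nat_lit 593) (nat_lit 4) (nat_lit 572) (nat_lit 4) (nat_lit 553) (nat_lit 504) (nat_lit 503)) (XT.lf (nat_lit 0) (nat_lit 284691033) (nat_lit 1596) (nat_lit 5217058232) (nat_lit 1596) (nat_lit 1490886703) (nat_lit 551) (nat_lit 4) (nat_lit 572) (nat_lit 5) (nat_lit 572) (nat_lit 4) (nat_lit 554) (nat_lit 504) (nat_lit 502))) (XT.nd (nat_lit 78) (nat_lit 3496) (nat_lit 0) (XT.lf (nat_lit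 0) (nat_lit 1930926651) (nat_lit 1672) (nat_lit 1634169663) (nat_lit 76) (nat_lit 3461106286) (nat_lit 550) (nat_lit 5) (nat_lit 572) (nat_lit 5) (nat_lit 551) (nat_lit 4) (nat_lit 555) (nat_lit 504) (nat_lit 501)) (XT.nd (nat_lit 78) (nat_lit 1824) (nat_lit 0) (XT.lf (nat_lit 0) (nat_lit 3510590656) (nat_lit 1672) (nat_lit 1844974655) (nat_lit 1748) (nat_lit 1705593934) (nat_lit 528) (nat_lit 5) (nat_lit 550) (nat_lit 5) (nat_lit 551) (nat_lit 4) (nat_lit 556) (nat_lit 504) (nat_lit 500)) (XT.lf (nat_lit 0) (nat_lit 1626560841) (nat_lit 1748) (nat_lit 55946718) (nat_lit 1824) (nat_lit 5415010643) (nat_lit 504) (nat_lit 5) (nat_lit 527) (nat_lit 5) (nat_lit 528) (nat_lit 5) (nat_lit 557) (nat_lit 504) (nat_lit 499))))) (XT.nd (nat_lit 156) (nat_lit 2128) (nat_lit 0) (XT.nd (nat_lit 78) (nat_lit 1900) (nat_lit 0) (XT.lf (nat_lit 0) (nat_lit 5083928726) (nat_lit 1824) (nat_lit 269736322) (nat_lit 76) (nat_lit 1781348555) (nat_lit 504) (nat_lit 5) (nat_lit 528) (nat_lit 5) (nat_lit 505) (nat_lit 4) (nat_lit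 558) (nat_lit 504) (nat_lit 498)) (XT.lf (nat_lit 0) (nat_lit 1329078412) (nat_lit 1900) (nat_lit 2148191845) (nat_lit 76) (nat_lit 3696470804) (nat_lit 479) (nat_lit 5) (nat_lit 504) (nat_lit 5) (nat_lit 480) (nat_lit 5) (nat_lit 559) (nat_lit 504) (nat_lit 497))) (XT.nd (nat_lit 78) (nat_lit 988) (nat_lit 0) (XT.lf (nat_lit 0) (nat_lit 3178145834) (nat_lit 1140) (nat_lit 1528365778) (nat_lit 1216) (nat_lit 2507320191) (nat_lit 464) (nat_lit 5) (nat_lit 479) (nat_lit 5) (nat_lit 480) (nat_lit 5) (nat_lit 560) (nat_lit 504) (nat_lit 496)) (XT.nd (nat_lit 78) (nat_lit 0) (nat_lit 0) (XT.lf (nat_lit 0) (nat_lit 846377254) (nat_lit 988) (nat_lit 5928944441) (nat_lit 76) (nat_lit 480061232) (nat_lit 451) (nat_lit 5) (nat_lit 464) (nat_lit 5) (nat_lit 452) (nat_lit 5) (nat_lit 561) (nat_lit 504) (nat_lit 495)) (XT.lf (nat_lit 0) (nat_lit 4206874595) (nat_lit 988) (nat_lit 541993640) (nat_lit 76) (nat_lit 2549101750) (nat_lit 451) (nat_lit 5) (nat_lit 464) (nat_lit 5) (nat_lit 452) (nat_lit 5) (nat_lit 562) (nat_lit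 504) (nat_lit 494)))))) (XT.nd (nat_lit 390) (nat_lit 3268) (nat_lit 0) (XT.nd (nat_lit 156) (nat_lit 1824) (nat_lit 0) (XT.nd (nat_lit 78) (nat_lit 836) (nat_lit 0) (XT.lf (nat_lit 0) (nat_lit 258407084) (nat_lit 988) (nat_lit 2393135383) (nat_lit 76) (nat_lit 4690448932) (nat_lit 438) (nat_lit 5) (nat_lit 451) (nat_lit 5) (nat_lit 439) (nat_lit 5) (nat_lit 563) (nat_lit 504) (nat_lit 493)) (XT.lf (nat_lit 0) (nat_lit 3123088579) (nat_lit 836) (nat_lit 471927374) (nat_lit 912) (nat_lit 3792240746) (nat_lit 427) (nat_lit 5) (nat_lit 438) (nat_lit 5) (nat_lit 439) (nat_lit 5) (nat_lit 564) (nat_lit 504) (nat_lit 492))) (XT.nd (nat_lit 78) (nat_lit 912) (nat_lit 0) (XT.lf (nat_lit 0) (nat_lit 1286178929) (nat_lit 912) (nat_lit 5686349541) (nat_lit 988) (nat_lit 461417583) (nat_lit 415) (nat_lit 5) (nat_lit 427) (nat_lit 5) (nat_lit 428) (nat_lit 5) (nat_lit 565) (nat_lit 504) (nat_lit 491)) (XT.nd (nat_lit 78) (nat_lit 836) (nat_lit 0) (XT.lf (nat_lit 0) (nat_lit 2868094577) (nat_lit 988) (nat_lit 566591540)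 (nat_lit 76) (nat_lit 4047092339) (nat_lit 414) (nat_lit 5) (nat_lit 427) (nat_lit 5) (nat_lit 415) (nat_lit 5) (nat_lit 566) (nat_lit 504) (nat_lit 490)) (XT.lf (nat_lit 0) (nat_lit 5123134769) (nat_lit 836) (nat_lit 1108004680) (nat_lit 912) (nat_lit 1299906694) (nat_lit 403) (nat_lit 5) (nat_lit 414) (nat_lit 5) (nat_lit 415) (nat_lit 5) (nat_lit 567) (nat_lit 504) (nat_lit 489))))) (XT.nd (nat_lit 156) (nat_lit 1596) (nat_lit 0) (XT.nd (nat_lit 78) (nat_lit 760) (nat_lit 0) (XT.lf (nat_lit 0) (nat_lit 2026842601) (nat_lit 912) (nat_lit 4274638481) (nat_lit 76) (nat_lit 1280070399) (nat_lit 391) (nat_lit 5) (nat_lit 403) (nat_lit 5) (nat_lit 392) (nat_lit 5) (nat_lit 568) (nat_lit 504) (nat_lit 488)) (XT.lf (nat_lit 0) (nat_lit 1470919200) (nat_lit 760) (nat_lit 3905858723) (nat_lit 836) (nat_lit 2256637954) (nat_lit 381) (nat_lit 5) (nat_lit 391) (nat_lit 5) (nat_lit 392) (nat_lit 5) (nat_lit 569) (nat_lit 504) (nat_lit 487))) (XT.nd (nat_lit 78) (nat_lit 1520) (nat_lit 0) (XT.lf (nat_lit 0) (nat_lit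 1062963239) (nat_lit 836) (nat_lit 372374628) (nat_lit 76) (nat_lit 6251435903) (nat_lit 380) (nat_lit 5) (nat_lit 391) (nat_lit 5) (nat_lit 381) (nat_lit 5) (nat_lit 570) (nat_lit 504) (nat_lit 486)) (XT.nd (nat_lit 78) (nat_lit 760) (nat_lit 0) (XT.lf (nat_lit 0) (nat_lit 4404318661) (nat_lit 836) (nat_lit 2224840012) (nat_lit 76) (nat_lit 1112032072) (nat_lit 370) (nat_lit 5) (nat_lit 381) (nat_lit 5) (nat_lit 371) (nat_lit 5) (nat_lit 571) (nat_lit 504) (nat_lit 485)) (XT.lf (nat_lit 0) (nat_lit 3702415848) (nat_lit 760) (nat_lit 4089147178) (nat_lit 836) (nat_lit 5553582) (nat_lit 360) (nat_lit 5) (nat_lit 370) (nat_lit 5) (nat_lit 371) (nat_lit 5) (nat_lit 572) (nat_lit 504) (nat_lit 484))))))) (XT.nd (nat_lit 780) (nat_lit 4104) (nat_lit 0) (XT.nd (nat_lit 390) (nat_lit 2660) (nat_lit 0) (XT.nd (nat_lit 156) (nat_lit 2204) (nat_lit 0) (XT.nd (nat_lit 78) (nat_lit 0) (nat_lit 0) (XT.lf (nat_lit 0) (nat_lit 1858583186) (nat_lit 760) (nat_lit 1459719659) (nat_lit 836) (nat_lit 4536011280) (nat_lit 349)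 (nat_lit 5) (nat_lit 359) (nat_lit 5) (nat_lit 360) (nat_lit 5) (nat_lit 573) (nat_lit 504) (nat_lit 483)) (XT.lf (nat_lit 0) (nat_lit 6688060958) (nat_lit 836) (nat_lit 2601357) (nat_lit 76) (nat_lit 1222404249) (nat_lit 349) (nat_lit 5) (nat_lit 360) (nat_lit 5) (nat_lit 350) (nat_lit 5) (nat_lit 574) (nat_lit 504) (nat_lit 482))) (XT.nd (nat_lit 78) (nat_lit 1444) (nat_lit 0) (XT.lf (nat_lit 0) (nat_lit 2118317462) (nat_lit 760) (nat_lit 1873571213) (nat_lit 76) (nat_lit 3980941043) (nat_lit 339) (nat_lit 5) (nat_lit 349) (nat_lit 5) (nat_lit 340) (nat_lit 5) (nat_lit 575) (nat_lit 504) (nat_lit 481)) (XT.nd (nat_lit 78) (nat_lit 760) (nat_lit 0) (XT.lf (nat_lit 0) (nat_lit 4269571834) (nat_lit 684) (nat_lit 1215571285) (nat_lit 760) (nat_lit 2549023876) (nat_lit 330) (nat_lit 5) (nat_lit 339) (nat_lit 5) (nat_lit 340) (nat_lit 5) (nat_lit 576) (nat_lit 504) (nat_lit 480)) (XT.lf (nat_lit 0) (nat_lit 796363565) (nat_lit 760) (nat_lit 5684923074) (nat_lit 76) (nat_lit 1615647540) (nat_lit 320) (nat_lit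 5) (nat_lit 330) (nat_lit 5) (nat_lit 321) (nat_lit 5) (nat_lit 577) (nat_lit 504) (nat_lit 479))))) (XT.nd (nat_lit 156) (nat_lit 1976) (nat_lit 0) (XT.nd (nat_lit 78) (nat_lit 0) (nat_lit 0) (XT.lf (nat_lit 0) (nat_lit 515859987) (nat_lit 684) (nat_lit 3641629641) (nat_lit 760) (nat_lit 4003472347) (nat_lit 311) (nat_lit 5) (nat_lit 320) (nat_lit 5) (nat_lit 321) (nat_lit 5) (nat_lit 578) (nat_lit 504) (nat_lit 478)) (XT.lf (nat_lit 0) (nat_lit 6849634896) (nat_lit 684) (nat_lit 721068166) (nat_lit 760) (nat_lit 655871433) (nat_lit 311) (nat_lit 5) (nat_lit 320) (nat_lit 5) (nat_lit 321) (nat_lit 5) (nat_lit 579) (nat_lit 504) (nat_lit 477))) (XT.nd (nat_lit 78) (nat_lit 1292) (nat_lit 0) (XT.lf (nat_lit 0) (nat_lit 2717253378) (nat_lit 684) (nat_lit 3311683593) (nat_lit 76) (nat_lit 2264310429) (nat_lit 302) (nat_lit 5) (nat_lit 311) (nat_lit 5) (nat_lit 303) (nat_lit 5) (nat_lit 580) (nat_lit 504) (nat_lit 476)) (XT.nd (nat_lit 78) (nat_lit 684) (nat_lit 0) (XT.lf (nat_lit 0) (nat_lit 3088205811) (nat_lit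 608) (nat_lit 3042900120) (nat_lit 684) (nat_lit 2230421561) (nat_lit 294) (nat_lit 5) (nat_lit 302) (nat_lit 5) (nat_lit 303) (nat_lit 5) (nat_lit 581) (nat_lit 504) (nat_lit 475)) (XT.lf (nat_lit 0) (nat_lit 1144837714) (nat_lit 684) (nat_lit 7262040992) (nat_lit 76) (nat_lit 24576746) (nat_lit 285) (nat_lit 5) (nat_lit 294) (nat_lit 5) (nat_lit 286) (nat_lit 5) (nat_lit 582) (nat_lit 504) (nat_lit 474)))))) (XT.nd (nat_lit 390) (nat_lit 2204) (nat_lit 0) (XT.nd (nat_lit 156) (nat_lit 1292) (nat_lit 0) (XT.nd (nat_lit 78) (nat_lit 608) (nat_lit 0) (XT.lf (nat_lit 0) (nat_lit 4562159973) (nat_lit 684) (nat_lit 793408750) (nat_lit 76) (nat_lit 3146831225) (nat_lit 285) (nat_lit 5) (nat_lit 294) (nat_lit 5) (nat_lit 286) (nat_lit 5) (nat_lit 583) (nat_lit 504) (nat_lit 473)) (XT.lf (nat_lit 0) (nat_lit 5813523807) (nat_lit 608) (nat_lit 2221679980) (nat_lit 684) (nat_lit 539813322) (nat_lit 277) (nat_lit 5) (nat_lit 285) (nat_lit 5) (nat_lit 286) (nat_lit 5) (nat_lit 584) (nat_lit 504) (nat_lit 472))) (XT.nd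 (nat_lit 78) (nat_lit 684) (nat_lit 0) (XT.lf (nat_lit 0) (nat_lit 2877151685) (nat_lit 608) (nat_lit 4776997963) (nat_lit 76) (nat_lit 994819114) (nat_lit 269) (nat_lit 5) (nat_lit 277) (nat_lit 5) (nat_lit 270) (nat_lit 5) (nat_lit 585) (nat_lit 504) (nat_lit 471)) (XT.nd (nat_lit 78) (nat_lit 76) (nat_lit 0) (XT.lf (nat_lit 0) (nat_lit 1889906060) (nat_lit 608) (nat_lit 4461252222) (nat_lit 684) (nat_lit 2373252399) (nat_lit 261) (nat_lit 5) (nat_lit 269) (nat_lit 5) (nat_lit 270) (nat_lit 5) (nat_lit 586) (nat_lit 504) (nat_lit 470)) (XT.lf (nat_lit 0) (nat_lit 1061709112) (nat_lit 684) (nat_lit 121318882) (nat_lit 76) (nat_lit 7618537350) (nat_lit 260) (nat_lit 5) (nat_lit 269) (nat_lit 5) (nat_lit 261) (nat_lit 5) (nat_lit 587) (nat_lit 504) (nat_lit 469))))) (XT.nd (nat_lit 156) (nat_lit 1140) (nat_lit 0) (XT.nd (nat_lit 78) (nat_lit 532) (nat_lit 0) (XT.lf (nat_lit 0) (nat_lit 4543099401) (nat_lit 608) (nat_lit 2162499543) (nat_lit 76) (nat_lit 2174161397) (nat_lit 253) (nat_lit 5) (nat_lit 261)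 (nat_lit 5) (nat_lit 254) (nat_lit 5) (nat_lit 588) (nat_lit 504) (nat_lit 468)) (XT.lf (nat_lit 0) (nat_lit 4721583401) (nat_lit 532) (nat_lit 3363711214) (nat_lit 608) (nat_lit 874402191) (nat_lit 246) (nat_lit 5) (nat_lit 253) (nat_lit 5) (nat_lit 254) (nat_lit 5) (nat_lit 589) (nat_lit 504) (nat_lit 467))) (XT.nd (nat_lit 78) (nat_lit 608) (nat_lit 0) (XT.lf (nat_lit 0) (nat_lit 2606827705) (nat_lit 532) (nat_lit 6359600692) (nat_lit 76) (nat_lit 74768152) (nat_lit 239) (nat_lit 5) (nat_lit 246) (nat_lit 5) (nat_lit 240) (nat_lit 5) (nat_lit 590) (nat_lit 504) (nat_lit 466)) (XT.nd (nat_lit 78) (nat_lit 76) (nat_lit 0) (XT.lf (nat_lit 0) (nat_lit 584978117) (nat_lit 532) (nat_lit 5568148126) (nat_lit 608) (nat_lit 2970942449) (nat_lit 232) (nat_lit 5) (nat_lit 239) (nat_lit 5) (nat_lit 240) (nat_lit 5) (nat_lit 591) (nat_lit 504) (nat_lit 465)) (XT.lf (nat_lit 0) (nat_lit 549964980) (nat_lit 608) (nat_lit 1525033700) (nat_lit 76) (nat_lit 7133616058) (nat_lit 231) (nat_lit 5) (nat_lit 239) (nat_lit 5)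 (nat_lit 232) (nat_lit 5) (nat_lit 592) (nat_lit 504) (nat_lit 464))))))))
noncomputable def xc33 : XT := (XT.nd (nat_lit 1560) (nat_lit 2660) (nat_lit 0) (XT.nd (nat_lit 780) (nat_lit 3192) (nat_lit 0) (XT.nd (nat_lit 390) (nat_lit 1748) (nat_lit 0) (XT.nd (nat_lit 156) (nat_lit 988) (nat_lit 0) (XT.nd (nat_lit 78) (nat_lit 456) (nat_lit 0) (XT.lf (nat_lit 0) (nat_lit 4101465318) (nat_lit 532) (nat_lit 3687948423) (nat_lit 76) (nat_lit 1505047078) (nat_lit 225) (nat_lit 5) (nat_lit 232) (nat_lit 5) (nat_lit 226) (nat_lit 5) (nat_lit 593) (nat_lit 504) (nat_lit 463)) (XT.lf (nat_lit 0) (nat_lit 3484401503) (nat_lit 456) (nat_lit 4240159647) (nat_lit 532) (nat_lit 1657452329) (nat_lit 219) (nat_lit 5) (nat_lit 225) (nat_lit 5) (nat_lit 226) (nat_lit 5) (nat_lit 594) (nat_lit 504) (nat_lit 462))) (XT.nd (nat_lit 78) (nat_lit 456) (nat_lit 0) (XT.lf (nat_lit 0) (nat_lit 1316617754) (nat_lit 456) (nat_lit 594153049) (nat_lit 532) (nat_lit 7560543702) (nat_lit 212) (nat_lit 5) (nat_lit 218) (nat_lit 5) (nat_lit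 219) (nat_lit 5) (nat_lit 595) (nat_lit 504) (nat_lit 461)) (XT.nd (nat_lit 78) (nat_lit 456) (nat_lit 0) (XT.lf (nat_lit 0) (nat_lit 5542708739) (nat_lit 532) (nat_lit 905591248) (nat_lit 76) (nat_lit 3113592487) (nat_lit 212) (nat_lit 5) (nat_lit 219) (nat_lit 5) (nat_lit 213) (nat_lit 5) (nat_lit 596) (nat_lit 504) (nat_lit 460)) (XT.lf (nat_lit 0) (nat_lit 6503651984) (nat_lit 456) (nat_lit 2745085048) (nat_lit 532) (nat_lit 405516832) (nat_lit 206) (nat_lit 5) (nat_lit 212) (nat_lit 5) (nat_lit 213) (nat_lit 5) (nat_lit 597) (nat_lit 504) (nat_lit 459))))) (XT.nd (nat_lit 156) (nat_lit 836) (nat_lit 0) (XT.nd (nat_lit 78) (nat_lit 456) (nat_lit 0) (XT.lf (nat_lit 0) (nat_lit 3233767059) (nat_lit 456) (nat_lit 5461550973) (nat_lit 76) (nat_lit 1052791995) (nat_lit 200) (nat_lit 5) (nat_lit 206) (nat_lit 5) (nat_lit 201) (nat_lit 5) (nat_lit 598) (nat_lit 504) (nat_lit 458)) (XT.lf (nat_lit 0) (nat_lit 2010444105) (nat_lit 456) (nat_lit 4938232781) (nat_lit 532) (nat_lit 2894948257) (nat_lit 194) (nat_lit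 5) (nat_lit 200) (nat_lit 5) (nat_lit 201) (nat_lit 5) (nat_lit 599) (nat_lit 504) (nat_lit 457))) (XT.nd (nat_lit 78) (nat_lit 760) (nat_lit 0) (XT.lf (nat_lit 0) (nat_lit 779173324) (nat_lit 532) (nat_lit 306638597) (nat_lit 76) (nat_lit 8855280186) (nat_lit 193) (nat_lit 5) (nat_lit 200) (nat_lit 5) (nat_lit 194) (nat_lit 5) (nat_lit 600) (nat_lit 504) (nat_lit 456)) (XT.nd (nat_lit 78) (nat_lit 380) (nat_lit 0) (XT.lf (nat_lit 0) (nat_lit 4511507324) (nat_lit 456) (nat_lit 2676214349) (nat_lit 76) (nat_lit 2851934951) (nat_lit 188) (nat_lit 5) (nat_lit 194) (nat_lit 5) (nat_lit 189) (nat_lit 5) (nat_lit 601) (nat_lit 504) (nat_lit 455)) (XT.lf (nat_lit 0) (nat_lit 5044091803) (nat_lit 380) (nat_lit 3273450453) (nat_lit 456) (nat_lit 1822669869) (nat_lit 183) (nat_lit 5) (nat_lit 188) (nat_lit 5) (nat_lit 189) (nat_lit 5) (nat_lit 602) (nat_lit 504) (nat_lit 454)))))) (XT.nd (nat_lit 390) (nat_lit 1520) (nat_lit 0) (XT.nd (nat_lit 156) (nat_lit 836) (nat_lit 0) (XT.nd (nat_lit 78) (nat_lit 380) (nat_lit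 0) (XT.lf (nat_lit 0) (nat_lit 1928675471) (nat_lit 456) (nat_lit 7578596165) (nat_lit 76) (nat_lit 735305301) (nat_lit 177) (nat_lit 5) (nat_lit 183) (nat_lit 5) (nat_lit 178) (nat_lit 5) (nat_lit 603) (nat_lit 504) (nat_lit 453)) (XT.lf (nat_lit 0) (nat_lit 204575181) (nat_lit 380) (nat_lit 5540963228) (nat_lit 456) (nat_lit 4600912489) (nat_lit 172) (nat_lit 5) (nat_lit 177) (nat_lit 5) (nat_lit 178) (nat_lit 5) (nat_lit 604) (nat_lit 504) (nat_lit 452))) (XT.nd (nat_lit 78) (nat_lit 836) (nat_lit 0) (XT.lf (nat_lit 0) (nat_lit 8180384991) (nat_lit 380) (nat_lit 1467060104) (nat_lit 456) (nat_lit 804783831) (nat_lit 172) (nat_lit 5) (nat_lit 177) (nat_lit 5) (nat_lit 178) (nat_lit 5) (nat_lit 605) (nat_lit 504) (nat_lit 451)) (XT.nd (nat_lit 78) (nat_lit 380) (nat_lit 0) (XT.lf (nat_lit 0) (nat_lit 3040430051) (nat_lit 456) (nat_lit 4831477235) (nat_lit 76) (nat_lit 2687549815) (nat_lit 166) (nat_lit 5) (nat_lit 172) (nat_lit 5) (nat_lit 167) (nat_lit 5) (nat_lit 606) (nat_lit 504) (nat_lit 450)) (XT.lf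 (nat_lit 0) (nat_lit 3211783371) (nat_lit 380) (nat_lit 3744560386) (nat_lit 456) (nat_lit 3712288937) (nat_lit 161) (nat_lit 5) (nat_lit 166) (nat_lit 5) (nat_lit 167) (nat_lit 5) (nat_lit 607) (nat_lit 504) (nat_lit 449))))) (XT.nd (nat_lit 156) (nat_lit 1140) (nat_lit 0) (XT.nd (nat_lit 78) (nat_lit 0) (nat_lit 0) (XT.lf (nat_lit 0) (nat_lit 167043339) (nat_lit 380) (nat_lit 10139378680) (nat_lit 76) (nat_lit 473574347) (nat_lit 156) (nat_lit 5) (nat_lit 161) (nat_lit 5) (nat_lit 157) (nat_lit 5) (nat_lit 608) (nat_lit 504) (nat_lit 448)) (XT.lf (nat_lit 0) (nat_lit 4108465279) (nat_lit 380) (nat_lit 2006801767) (nat_lit 76) (nat_lit 4777145926) (nat_lit 156) (nat_lit 5) (nat_lit 161) (nat_lit 5) (nat_lit 157) (nat_lit 5) (nat_lit 609) (nat_lit 504) (nat_lit 447))) (XT.nd (nat_lit 78) (nat_lit 760) (nat_lit 0) (XT.lf (nat_lit 0) (nat_lit 6306813895) (nat_lit 380) (nat_lit 1822648720) (nat_lit 456) (nat_lit 2877600983) (nat_lit 151) (nat_lit 5) (nat_lit 156) (nat_lit 5) (nat_lit 157) (nat_lit 5) (nat_lit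 610) (nat_lit 504) (nat_lit 446)) (XT.nd (nat_lit 78) (nat_lit 380) (nat_lit 0) (XT.lf (nat_lit 0) (nat_lit 1106356279) (nat_lit 380) (nat_lit 7474109445) (nat_lit 76) (nat_lit 2543118372) (nat_lit 146) (nat_lit 5) (nat_lit 151) (nat_lit 5) (nat_lit 147) (nat_lit 5) (nat_lit 611) (nat_lit 504) (nat_lit 445)) (XT.lf (nat_lit 0) (nat_lit 903970459) (nat_lit 380) (nat_lit 4237337589) (nat_lit 456) (nat_lit 6100550198) (nat_lit 141) (nat_lit 5) (nat_lit 146) (nat_lit 5) (nat_lit 147) (nat_lit 5) (nat_lit 612) (nat_lit 504) (nat_lit 444))))))) (XT.nd (nat_lit 780) (nat_lit 304) (nat_lit 0) (XT.nd (nat_lit 390) (nat_lit 1292) (nat_lit 0) (XT.nd (nat_lit 156) (nat_lit 684) (nat_lit 0) (XT.nd (nat_lit 78) (nat_lit 380) (nat_lit 0) (XT.lf (nat_lit 0) (nat_lit 9269022247) (nat_lit 456) (nat_lit 1877008707) (nat_lit 76) (nat_lit 216226237) (nat_lit 141) (nat_lit 5) (nat_lit 147) (nat_lit 5) (nat_lit 142) (nat_lit 5) (nat_lit 613) (nat_lit 504) (nat_lit 443)) (XT.lf (nat_lit 0) (nat_lit 2001280139) (nat_lit 380) (nat_lit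 4747602759) (nat_lit 76) (nat_lit 4735258651) (nat_lit 136) (nat_lit 5) (nat_lit 141) (nat_lit 5) (nat_lit 137) (nat_lit 5) (nat_lit 614) (nat_lit 504) (nat_lit 442))) (XT.nd (nat_lit 78) (nat_lit 380) (nat_lit 0) (XT.lf (nat_lit 0) (nat_lit 3913283837) (nat_lit 304) (nat_lit 2235686130) (nat_lit 380) (nat_lit 5459231189) (nat_lit 132) (nat_lit 5) (nat_lit 136) (nat_lit 5) (nat_lit 137) (nat_lit 5) (nat_lit 615) (nat_lit 504) (nat_lit 441)) (XT.nd (nat_lit 78) (nat_lit 76) (nat_lit 0) (XT.lf (nat_lit 0) (nat_lit 1011447504) (nat_lit 304) (nat_lit 9383564962) (nat_lit 380) (nat_lit 1339422045) (nat_lit 128) (nat_lit 5) (nat_lit 132) (nat_lit 5) (nat_lit 133) (nat_lit 5) (nat_lit 616) (nat_lit 504) (nat_lit 440)) (XT.lf (nat_lit 0) (nat_lit 2853502144) (nat_lit 380) (nat_lit 1963612731) (nat_lit 76) (nat_lit 7045141135) (nat_lit 127) (nat_lit 5) (nat_lit 132) (nat_lit 5) (nat_lit 128) (nat_lit 5) (nat_lit 617) (nat_lit 504) (nat_lit 439))))) (XT.nd (nat_lit 156) (nat_lit 684) (nat_lit 0) (XT.nd (nat_lit 78)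 (nat_lit 304) (nat_lit 0) (XT.lf (nat_lit 0) (nat_lit 6991057597) (nat_lit 304) (nat_lit 128935000) (nat_lit 380) (nat_lit 4872311919) (nat_lit 123) (nat_lit 5) (nat_lit 127) (nat_lit 5) (nat_lit 128) (nat_lit 5) (nat_lit 618) (nat_lit 504) (nat_lit 438)) (XT.lf (nat_lit 0) (nat_lit 3985840391) (nat_lit 304) (nat_lit 7517735581) (nat_lit 380) (nat_lit 620743251) (nat_lit 119) (nat_lit 5) (nat_lit 123) (nat_lit 5) (nat_lit 124) (nat_lit 5) (nat_lit 619) (nat_lit 504) (nat_lit 437))) (XT.nd (nat_lit 78) (nat_lit 304) (nat_lit 0) (XT.lf (nat_lit 0) (nat_lit 885602261) (nat_lit 304) (nat_lit 2784401516) (nat_lit 380) (nat_lit 8588430785) (nat_lit 114) (nat_lit 5) (nat_lit 118) (nat_lit 5) (nat_lit 119) (nat_lit 5) (nat_lit 620) (nat_lit 504) (nat_lit 436)) (XT.nd (nat_lit 78) (nat_lit 304) (nat_lit 0) (XT.lf (nat_lit 0) (nat_lit 8069163867) (nat_lit 380) (nat_lit 2274531933) (nat_lit 76) (nat_lit 2050836611) (nat_lit 114) (nat_lit 5) (nat_lit 119) (nat_lit 5) (nat_lit 115) (nat_lit 5) (nat_lit 621) (nat_lit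 504) (nat_lit 435)) (XT.lf (nat_lit 0) (nat_lit 50227138) (nat_lit 304) (nat_lit 5515702975) (nat_lit 76) (nat_lit 6966868106) (nat_lit 110) (nat_lit 5) (nat_lit 114) (nat_lit 5) (nat_lit 111) (nat_lit 5) (nat_lit 622) (nat_lit 504) (nat_lit 434)))))) (XT.nd (nat_lit 75816) (nat_lit 0) (nat_lit 28348) (XT.nd (nat_lit 75582) (nat_lit 0) (nat_lit 35416) (XT.nd (nat_lit 75504) (nat_lit 0) (nat_lit 38456) (XT.lf (nat_lit 0) (nat_lit 3811124454) (nat_lit 304) (nat_lit 647925020) (nat_lit 380) (nat_lit 8214135864) (nat_lit 106) (nat_lit 5) (nat_lit 110) (nat_lit 5) (nat_lit 111) (nat_lit 5) (nat_lit 623) (nat_lit 504) (nat_lit 433)) (XT.lf (nat_lit 0) (nat_lit 299901570) (nat_lit 1444) (nat_lit 2835263093) (nat_lit 0) (nat_lit 299901570) (nat_lit 612) (nat_lit 5) (nat_lit 631) (nat_lit 4) (nat_lit 612) (nat_lit 4) (nat_lit 550) (nat_lit 505) (nat_lit 505))) (XT.nd (nat_lit 78) (nat_lit 3040) (nat_lit 0) (XT.lf (nat_lit 0) (nat_lit 4019167784) (nat_lit 1444) (nat_lit 818425538) (nat_lit 0) (nat_lit 2061621727)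 (nat_lit 612) (nat_lit 5) (nat_lit 631) (nat_lit 4) (nat_lit 612) (nat_lit 4) (nat_lit 551) (nat_lit 505) (nat_lit 504)) (XT.nd (nat_lit 78) (nat_lit 1520) (nat_lit 0) (XT.lf (nat_lit 0) (nat_lit 526508267) (nat_lit 1520) (nat_lit 2813162157) (nat_lit 76) (nat_lit 3590015872) (nat_lit 592) (nat_lit 5) (nat_lit 612) (nat_lit 5) (nat_lit 593) (nat_lit 4) (nat_lit 552) (nat_lit 505) (nat_lit 503)) (XT.lf (nat_lit 0) (nat_lit 2144423080) (nat_lit 1520) (nat_lit 1767786868) (nat_lit 1596) (nat_lit 3049187690) (nat_lit 572) (nat_lit 5) (nat_lit 592) (nat_lit 5) (nat_lit 593) (nat_lit 4) (nat_lit 553) (nat_lit 505) (nat_lit 502))))) (XT.nd (nat_lit 234) (nat_lit 3648) (nat_lit 0) (XT.nd (nat_lit 78) (nat_lit 1748) (nat_lit 0) (XT.lf (nat_lit 0) (nat_lit 180051419) (nat_lit 1596) (nat_lit 137707567) (nat_lit 1672) (nat_lit 6676923727) (nat_lit 550) (nat_lit 5) (nat_lit 571) (nat_lit 5) (nat_lit 572) (nat_lit 5) (nat_lit 554) (nat_lit 505) (nat_lit 501)) (XT.nd (nat_lit 78) (nat_lit 1748) (nat_lit 0) (XT.lf (nat_lit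 0) (nat_lit 3685234049) (nat_lit 1672) (nat_lit 1782641295) (nat_lit 76) (nat_lit 1560877499) (nat_lit 550) (nat_lit 5) (nat_lit 572) (nat_lit 5) (nat_lit 551) (nat_lit 4) (nat_lit 555) (nat_lit 505) (nat_lit 500)) (XT.lf (nat_lit 0) (nat_lit 10912450) (nat_lit 1748) (nat_lit 3737107491) (nat_lit 76) (nat_lit 3316377801) (nat_lit 527) (nat_lit 5) (nat_lit 550) (nat_lit 5) (nat_lit 528) (nat_lit 5) (nat_lit 556) (nat_lit 505) (nat_lit 499)))) (XT.nd (nat_lit 78) (nat_lit 1900) (nat_lit 0) (XT.lf (nat_lit 0) (nat_lit 1393309422) (nat_lit 1748) (nat_lit 1948818893) (nat_lit 1824) (nat_lit 3759098551) (nat_lit 504) (nat_lit 5) (nat_lit 527) (nat_lit 5) (nat_lit 528) (nat_lit 5) (nat_lit 557) (nat_lit 505) (nat_lit 498)) (XT.nd (nat_lit 78) (nat_lit 1900) (nat_lit 0) (XT.lf (nat_lit 0) (nat_lit 6611614452) (nat_lit 1748) (nat_lit 87650559) (nat_lit 1824) (nat_lit 440344234) (nat_lit 504) (nat_lit 5) (nat_lit 527) (nat_lit 5) (nat_lit 528) (nat_lit 5) (nat_lit 558) (nat_lit 505) (nat_lit 497)) (XT.lf (nat_lit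 0) (nat_lit 2884062173) (nat_lit 1900) (nat_lit 2457622754) (nat_lit 76) (nat_lit 1837136488) (nat_lit 479) (nat_lit 5) (nat_lit 504) (nat_lit 5) (nat_lit 480) (nat_lit 5) (nat_lit 559) (nat_lit 505) (nat_lit 496))))))))
noncomputable def xc34 : XT := (XT.nd (nat_lit 1560) (nat_lit 8968) (nat_lit 0) (XT.nd (nat_lit 780) (nat_lit 5320) (nat_lit 0) (XT.nd (nat_lit 390) (nat_lit 3496) (nat_lit 0) (XT.nd (nat_lit 156) (nat_lit 1824) (nat_lit 0) (XT.nd (nat_lit 78) (nat_lit 988) (nat_lit 0) (XT.lf (nat_lit 0) (nat_lit 2831588352) (nat_lit 1140) (nat_lit 3395938977) (nat_lit 1216) (nat_lit 992065404) (nat_lit 464) (nat_lit 5) (nat_lit 479) (nat_lit 5) (nat_lit 480) (nat_lit 5) (nat_lit 560) (nat_lit 505) (nat_lit 495)) (XT.lf (nat_lit 0) (nat_lit 929467870) (nat_lit 912) (nat_lit 1375020030) (nat_lit 988) (nat_lit 4957205789) (nat_lit 451) (nat_lit 5) (nat_lit 463) (nat_lit 5) (nat_lit 464) (nat_lit 5) (nat_lit 561) (nat_lit 505) (nat_lit 494))) (XT.nd (nat_lit 78) (nat_lit 1824) (nat_lit 0) (XT.lf (nat_lit 0)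 (nat_lit 5624939968) (nat_lit 988) (nat_lit 969532620) (nat_lit 76) (nat_lit 710610208) (nat_lit 451) (nat_lit 5) (nat_lit 464) (nat_lit 5) (nat_lit 452) (nat_lit 5) (nat_lit 562) (nat_lit 505) (nat_lit 493)) (XT.nd (nat_lit 78) (nat_lit 836) (nat_lit 0) (XT.lf (nat_lit 0) (nat_lit 1617097183) (nat_lit 988) (nat_lit 2876046323) (nat_lit 76) (nat_lit 2856453739) (nat_lit 438) (nat_lit 5) (nat_lit 451) (nat_lit 5) (nat_lit 439) (nat_lit 5) (nat_lit 563) (nat_lit 505) (nat_lit 492)) (XT.lf (nat_lit 0) (nat_lit 2600600692) (nat_lit 836) (nat_lit 2319393235) (nat_lit 912) (nat_lit 2475543939) (nat_lit 427) (nat_lit 5) (nat_lit 438) (nat_lit 5) (nat_lit 439) (nat_lit 5) (nat_lit 564) (nat_lit 505) (nat_lit 491))))) (XT.nd (nat_lit 156) (nat_lit 2508) (nat_lit 0) (XT.nd (nat_lit 78) (nat_lit 0) (nat_lit 0) (XT.lf (nat_lit 0) (nat_lit 721108669) (nat_lit 912) (nat_lit 77575465) (nat_lit 988) (nat_lit 6644340621) (nat_lit 414) (nat_lit 5) (nat_lit 426) (nat_lit 5) (nat_lit 427) (nat_lit 5) (nat_lit 565) (nat_lit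 505) (nat_lit 490)) (XT.lf (nat_lit 0) (nat_lit 4091864953) (nat_lit 988) (nat_lit 1176503884) (nat_lit 76) (nat_lit 2223035015) (nat_lit 414) (nat_lit 5) (nat_lit 427) (nat_lit 5) (nat_lit 415) (nat_lit 5) (nat_lit 566) (nat_lit 505) (nat_lit 489))) (XT.nd (nat_lit 78) (nat_lit 1672) (nat_lit 0) (XT.lf (nat_lit 0) (nat_lit 4472064675) (nat_lit 836) (nat_lit 2949425719) (nat_lit 912) (nat_lit 119850530) (nat_lit 403) (nat_lit 5) (nat_lit 414) (nat_lit 5) (nat_lit 415) (nat_lit 5) (nat_lit 567) (nat_lit 505) (nat_lit 488)) (XT.nd (nat_lit 78) (nat_lit 760) (nat_lit 0) (XT.lf (nat_lit 0) (nat_lit 2604358684) (nat_lit 836) (nat_lit 545002560) (nat_lit 912) (nat_lit 4443173959) (nat_lit 391) (nat_lit 5) (nat_lit 402) (nat_lit 5) (nat_lit 403) (nat_lit 5) (nat_lit 568) (nat_lit 505) (nat_lit 487)) (XT.lf (nat_lit 0) (nat_lit 717919952) (nat_lit 760) (nat_lit 5744259160) (nat_lit 836) (nat_lit 1182963774) (nat_lit 381) (nat_lit 5) (nat_lit 391) (nat_lit 5) (nat_lit 392) (nat_lit 5) (nat_lit 569) (nat_lit 505)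 (nat_lit 486)))))) (XT.nd (nat_lit 390) (nat_lit 2888) (nat_lit 0) (XT.nd (nat_lit 156) (nat_lit 1596) (nat_lit 0) (XT.nd (nat_lit 78) (nat_lit 760) (nat_lit 0) (XT.lf (nat_lit 0) (nat_lit 2094026327) (nat_lit 836) (nat_lit 1177358022) (nat_lit 76) (nat_lit 4427548505) (nat_lit 380) (nat_lit 5) (nat_lit 391) (nat_lit 5) (nat_lit 381) (nat_lit 5) (nat_lit 570) (nat_lit 505) (nat_lit 485)) (XT.lf (nat_lit 0) (nat_lit 4675064709) (nat_lit 760) (nat_lit 719520145) (nat_lit 836) (nat_lit 2359581797) (nat_lit 370) (nat_lit 5) (nat_lit 380) (nat_lit 5) (nat_lit 381) (nat_lit 5) (nat_lit 571) (nat_lit 505) (nat_lit 484))) (XT.nd (nat_lit 78) (nat_lit 760) (nat_lit 0) (XT.lf (nat_lit 0) (nat_lit 920597644) (nat_lit 836) (nat_lit 5008756834) (nat_lit 76) (nat_lit 1881380595) (nat_lit 359) (nat_lit 5) (nat_lit 370) (nat_lit 5) (nat_lit 360) (nat_lit 5) (nat_lit 572) (nat_lit 505) (nat_lit 483)) (XT.nd (nat_lit 78) (nat_lit 0) (nat_lit 0) (XT.lf (nat_lit 0) (nat_lit 898812506) (nat_lit 760) (nat_lit 3311821976) (nat_lit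 836) (nat_lit 3657973157) (nat_lit 349) (nat_lit 5) (nat_lit 359) (nat_lit 5) (nat_lit 360) (nat_lit 5) (nat_lit 573) (nat_lit 505) (nat_lit 482)) (XT.lf (nat_lit 0) (nat_lit 6926024223) (nat_lit 760) (nat_lit 619137031) (nat_lit 836) (nat_lit 382904267) (nat_lit 349) (nat_lit 5) (nat_lit 359) (nat_lit 5) (nat_lit 360) (nat_lit 5) (nat_lit 574) (nat_lit 505) (nat_lit 481))))) (XT.nd (nat_lit 156) (nat_lit 1444) (nat_lit 0) (XT.nd (nat_lit 78) (nat_lit 684) (nat_lit 0) (XT.lf (nat_lit 0) (nat_lit 2911649278) (nat_lit 760) (nat_lit 2936349851) (nat_lit 76) (nat_lit 2140475485) (nat_lit 339) (nat_lit 5) (nat_lit 349) (nat_lit 5) (nat_lit 340) (nat_lit 5) (nat_lit 575) (nat_lit 505) (nat_lit 480)) (XT.lf (nat_lit 0) (nat_lit 3159367851) (nat_lit 684) (nat_lit 3085343454) (nat_lit 760) (nat_lit 1805776629) (nat_lit 330) (nat_lit 5) (nat_lit 339) (nat_lit 5) (nat_lit 340) (nat_lit 5) (nat_lit 576) (nat_lit 505) (nat_lit 479))) (XT.nd (nat_lit 78) (nat_lit 684) (nat_lit 0) (XT.lf (nat_lit 0) (nat_lit 1243028292)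 (nat_lit 684) (nat_lit 242123939) (nat_lit 760) (nat_lit 6628901328) (nat_lit 320) (nat_lit 5) (nat_lit 329) (nat_lit 5) (nat_lit 330) (nat_lit 5) (nat_lit 577) (nat_lit 505) (nat_lit 478)) (XT.nd (nat_lit 78) (nat_lit 684) (nat_lit 0) (XT.lf (nat_lit 0) (nat_lit 4815197591) (nat_lit 760) (nat_lit 708698894) (nat_lit 76) (nat_lit 2654807210) (nat_lit 320) (nat_lit 5) (nat_lit 330) (nat_lit 5) (nat_lit 321) (nat_lit 5) (nat_lit 578) (nat_lit 505) (nat_lit 477)) (XT.lf (nat_lit 0) (nat_lit 5582613495) (nat_lit 684) (nat_lit 2615274051) (nat_lit 760) (nat_lit 47039851) (nat_lit 311) (nat_lit 5) (nat_lit 320) (nat_lit 5) (nat_lit 321) (nat_lit 5) (nat_lit 579) (nat_lit 505) (nat_lit 476))))))) (XT.nd (nat_lit 780) (nat_lit 4028) (nat_lit 0) (XT.nd (nat_lit 390) (nat_lit 2356) (nat_lit 0) (XT.nd (nat_lit 156) (nat_lit 1292) (nat_lit 0) (XT.nd (nat_lit 78) (nat_lit 608) (nat_lit 0) (XT.lf (nat_lit 0) (nat_lit 3271503035) (nat_lit 684) (nat_lit 4657898816) (nat_lit 76) (nat_lit 383052016) (nat_lit 302) (nat_lit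 5) (nat_lit 311) (nat_lit 5) (nat_lit 303) (nat_lit 5) (nat_lit 580) (nat_lit 505) (nat_lit 475)) (XT.lf (nat_lit 0) (nat_lit 1690682956) (nat_lit 608) (nat_lit 4960318462) (nat_lit 684) (nat_lit 1730420295) (nat_lit 294) (nat_lit 5) (nat_lit 302) (nat_lit 5) (nat_lit 303) (nat_lit 5) (nat_lit 581) (nat_lit 505) (nat_lit 474))) (XT.nd (nat_lit 78) (nat_lit 1216) (nat_lit 0) (XT.lf (nat_lit 0) (nat_lit 1605362265) (nat_lit 684) (nat_lit 299520235) (nat_lit 76) (nat_lit 6547061272) (nat_lit 293) (nat_lit 5) (nat_lit 302) (nat_lit 5) (nat_lit 294) (nat_lit 5) (nat_lit 582) (nat_lit 505) (nat_lit 473)) (XT.nd (nat_lit 78) (nat_lit 608) (nat_lit 0) (XT.lf (nat_lit 0) (nat_lit 4983397471) (nat_lit 684) (nat_lit 2307796447) (nat_lit 76) (nat_lit 1232480723) (nat_lit 285) (nat_lit 5) (nat_lit 294) (nat_lit 5) (nat_lit 286) (nat_lit 5) (nat_lit 583) (nat_lit 505) (nat_lit 472)) (XT.lf (nat_lit 0) (nat_lit 4245904328) (nat_lit 608) (nat_lit 4175912151) (nat_lit 684) (nat_lit 175168437) (nat_lit 277) (nat_lit 5) (nat_lit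 285) (nat_lit 5) (nat_lit 286) (nat_lit 5) (nat_lit 584) (nat_lit 505) (nat_lit 471))))) (XT.nd (nat_lit 156) (nat_lit 1140) (nat_lit 0) (XT.nd (nat_lit 78) (nat_lit 608) (nat_lit 0) (XT.lf (nat_lit 0) (nat_lit 2232318601) (nat_lit 532) (nat_lit 963122786) (nat_lit 608) (nat_lit 5476279884) (nat_lit 269) (nat_lit 5) (nat_lit 276) (nat_lit 5) (nat_lit 277) (nat_lit 5) (nat_lit 585) (nat_lit 505) (nat_lit 470)) (XT.lf (nat_lit 0) (nat_lit 178314243) (nat_lit 608) (nat_lit 6449639494) (nat_lit 684) (nat_lit 2120039922) (nat_lit 261) (nat_lit 5) (nat_lit 269) (nat_lit 5) (nat_lit 270) (nat_lit 5) (nat_lit 586) (nat_lit 505) (nat_lit 469))) (XT.nd (nat_lit 78) (nat_lit 1064) (nat_lit 0) (XT.lf (nat_lit 0) (nat_lit 1287574107) (nat_lit 684) (nat_lit 1891233014) (nat_lit 76) (nat_lit 5646789412) (nat_lit 260) (nat_lit 5) (nat_lit 269) (nat_lit 5) (nat_lit 261) (nat_lit 5) (nat_lit 587) (nat_lit 505) (nat_lit 468)) (XT.nd (nat_lit 78) (nat_lit 532) (nat_lit 0) (XT.lf (nat_lit 0) (nat_lit 4720457140) (nat_lit 608)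 (nat_lit 4000458308) (nat_lit 76) (nat_lit 183846778) (nat_lit 253) (nat_lit 5) (nat_lit 261) (nat_lit 5) (nat_lit 254) (nat_lit 5) (nat_lit 588) (nat_lit 505) (nat_lit 467)) (XT.lf (nat_lit 0) (nat_lit 2826123804) (nat_lit 532) (nat_lit 5400861138) (nat_lit 608) (nat_lit 758427636) (nat_lit 246) (nat_lit 5) (nat_lit 253) (nat_lit 5) (nat_lit 254) (nat_lit 5) (nat_lit 589) (nat_lit 505) (nat_lit 466)))))) (XT.nd (nat_lit 390) (nat_lit 1976) (nat_lit 0) (XT.nd (nat_lit 156) (nat_lit 1520) (nat_lit 0) (XT.nd (nat_lit 78) (nat_lit 0) (nat_lit 0) (XT.lf (nat_lit 0) (nat_lit 701456257) (nat_lit 456) (nat_lit 1983206540) (nat_lit 532) (nat_lit 6382967351) (nat_lit 239) (nat_lit 5) (nat_lit 245) (nat_lit 5) (nat_lit 246) (nat_lit 5) (nat_lit 590) (nat_lit 505) (nat_lit 465)) (XT.lf (nat_lit 0) (nat_lit 6191203464) (nat_lit 532) (nat_lit 1449311294) (nat_lit 76) (nat_lit 1510783198) (nat_lit 239) (nat_lit 5) (nat_lit 246) (nat_lit 5) (nat_lit 240) (nat_lit 5) (nat_lit 591) (nat_lit 505) (nat_lit 464))) (XT.nd (nat_lit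 78) (nat_lit 912) (nat_lit 0) (XT.lf (nat_lit 0) (nat_lit 528077574) (nat_lit 608) (nat_lit 3639020857) (nat_lit 76) (nat_lit 5069396513) (nat_lit 231) (nat_lit 5) (nat_lit 239) (nat_lit 5) (nat_lit 232) (nat_lit 5) (nat_lit 592) (nat_lit 505) (nat_lit 463)) (XT.nd (nat_lit 78) (nat_lit 456) (nat_lit 0) (XT.lf (nat_lit 0) (nat_lit 3441738382) (nat_lit 456) (nat_lit 591273062) (nat_lit 532) (nat_lit 5290261389) (nat_lit 225) (nat_lit 5) (nat_lit 231) (nat_lit 5) (nat_lit 232) (nat_lit 5) (nat_lit 593) (nat_lit 505) (nat_lit 462)) (XT.lf (nat_lit 0) (nat_lit 1232588936) (nat_lit 456) (nat_lit 6382684448) (nat_lit 532) (nat_lit 1796369258) (nat_lit 219) (nat_lit 5) (nat_lit 225) (nat_lit 5) (nat_lit 226) (nat_lit 5) (nat_lit 594) (nat_lit 505) (nat_lit 461))))) (XT.nd (nat_lit 234) (nat_lit 988) (nat_lit 0) (XT.nd (nat_lit 78) (nat_lit 912) (nat_lit 0) (XT.lf (nat_lit 0) (nat_lit 1742834515) (nat_lit 532) (nat_lit 1013804943) (nat_lit 76) (nat_lit 6744939523) (nat_lit 218) (nat_lit 5) (nat_lit 225) (nat_lit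 5) (nat_lit 219) (nat_lit 5) (nat_lit 595) (nat_lit 505) (nat_lit 460)) (XT.nd (nat_lit 78) (nat_lit 456) (nat_lit 0) (XT.lf (nat_lit 0) (nat_lit 5331884941) (nat_lit 532) (nat_lit 3298575611) (nat_lit 76) (nat_lit 962554591) (nat_lit 212) (nat_lit 5) (nat_lit 219) (nat_lit 5) (nat_lit 213) (nat_lit 5) (nat_lit 596) (nat_lit 505) (nat_lit 459)) (XT.lf (nat_lit 0) (nat_lit 4046306420) (nat_lit 456) (nat_lit 4953952809) (nat_lit 532) (nat_lit 685870818) (nat_lit 206) (nat_lit 5) (nat_lit 212) (nat_lit 5) (nat_lit 213) (nat_lit 5) (nat_lit 597) (nat_lit 505) (nat_lit 458)))) (XT.nd (nat_lit 78) (nat_lit 532) (nat_lit 0) (XT.lf (nat_lit 0) (nat_lit 1740528984) (nat_lit 380) (nat_lit 1171434590) (nat_lit 456) (nat_lit 6868961986) (nat_lit 200) (nat_lit 5) (nat_lit 205) (nat_lit 5) (nat_lit 206) (nat_lit 5) (nat_lit 598) (nat_lit 505) (nat_lit 457)) (XT.nd (nat_lit 78) (nat_lit 532) (nat_lit 0) (XT.lf (nat_lit 0) (nat_lit 6584738284) (nat_lit 456) (nat_lit 619520062) (nat_lit 76) (nat_lit 2673025440) (nat_lit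 200) (nat_lit 5) (nat_lit 206) (nat_lit 5) (nat_lit 201) (nat_lit 5) (nat_lit 599) (nat_lit 505) (nat_lit 456)) (XT.lf (nat_lit 0) (nat_lit 361282791) (nat_lit 532) (nat_lit 3008396502) (nat_lit 76) (nat_lit 6605633636) (nat_lit 193) (nat_lit 5) (nat_lit 200) (nat_lit 5) (nat_lit 194) (nat_lit 5) (nat_lit 600) (nat_lit 505) (nat_lit 455))))))))
noncomputable def xc35 : XT := (XT.nd (nat_lit 1560) (nat_lit 608) (nat_lit 0) (XT.nd (nat_lit 780) (nat_lit 2508) (nat_lit 0) (XT.nd (nat_lit 390) (nat_lit 1596) (nat_lit 0) (XT.nd (nat_lit 156) (nat_lit 836) (nat_lit 0) (XT.nd (nat_lit 78) (nat_lit 380) (nat_lit 0) (XT.lf (nat_lit 0) (nat_lit 4039629895) (nat_lit 456) (nat_lit 5466075727) (nat_lit 76) (nat_lit 569251948) (nat_lit 188) (nat_lit 5) (nat_lit 194) (nat_lit 5) (nat_lit 189) (nat_lit 5) (nat_lit 601) (nat_lit 505) (nat_lit 454)) (XT.lf (nat_lit 0) (nat_lit 2184800591) (nat_lit 380) (nat_lit 5621450725) (nat_lit 456) (nat_lit 2370050402) (nat_lit 183) (nat_lit 5) (nat_lit 188) (nat_lit 5) (nat_lit 189)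 (nat_lit 5) (nat_lit 602) (nat_lit 505) (nat_lit 453))) (XT.nd (nat_lit 78) (nat_lit 760) (nat_lit 0) (XT.lf (nat_lit 0) (nat_lit 1345524700) (nat_lit 456) (nat_lit 289911303) (nat_lit 76) (nat_lit 8644160953) (nat_lit 182) (nat_lit 5) (nat_lit 188) (nat_lit 5) (nat_lit 183) (nat_lit 5) (nat_lit 603) (nat_lit 505) (nat_lit 452)) (XT.nd (nat_lit 78) (nat_lit 380) (nat_lit 0) (XT.lf (nat_lit 0) (nat_lit 5127866194) (nat_lit 456) (nat_lit 2814404876) (nat_lit 76) (nat_lit 2441890632) (nat_lit 177) (nat_lit 5) (nat_lit 183) (nat_lit 5) (nat_lit 178) (nat_lit 5) (nat_lit 604) (nat_lit 505) (nat_lit 451)) (XT.lf (nat_lit 0) (nat_lit 5092089350) (nat_lit 380) (nat_lit 3898710573) (nat_lit 456) (nat_lit 1499919614) (nat_lit 172) (nat_lit 5) (nat_lit 177) (nat_lit 5) (nat_lit 178) (nat_lit 5) (nat_lit 605) (nat_lit 505) (nat_lit 450))))) (XT.nd (nat_lit 156) (nat_lit 1140) (nat_lit 0) (XT.nd (nat_lit 78) (nat_lit 0) (nat_lit 0) (XT.lf (nat_lit 0) (nat_lit 2297444056) (nat_lit 456) (nat_lit 8050590426) (nat_lit 76)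 (nat_lit 251143172) (nat_lit 166) (nat_lit 5) (nat_lit 172) (nat_lit 5) (nat_lit 167) (nat_lit 5) (nat_lit 606) (nat_lit 505) (nat_lit 449)) (XT.lf (nat_lit 0) (nat_lit 6172434184) (nat_lit 456) (nat_lit 81128393) (nat_lit 76) (nat_lit 4455609471) (nat_lit 166) (nat_lit 5) (nat_lit 172) (nat_lit 5) (nat_lit 167) (nat_lit 5) (nat_lit 607) (nat_lit 505) (nat_lit 448))) (XT.nd (nat_lit 78) (nat_lit 760) (nat_lit 0) (XT.lf (nat_lit 0) (nat_lit 8091109410) (nat_lit 380) (nat_lit 2046599994) (nat_lit 456) (nat_lit 683401869) (nat_lit 161) (nat_lit 5) (nat_lit 166) (nat_lit 5) (nat_lit 167) (nat_lit 5) (nat_lit 608) (nat_lit 505) (nat_lit 447)) (XT.nd (nat_lit 78) (nat_lit 380) (nat_lit 0) (XT.lf (nat_lit 0) (nat_lit 3215714125) (nat_lit 380) (nat_lit 5469177237) (nat_lit 76) (nat_lit 2249750947) (nat_lit 156) (nat_lit 5) (nat_lit 161) (nat_lit 5) (nat_lit 157) (nat_lit 5) (nat_lit 609) (nat_lit 505) (nat_lit 446)) (XT.lf (nat_lit 0) (nat_lit 2766789349) (nat_lit 380) (nat_lit 4427426635) (nat_lit 456) (nat_lit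 3855927164) (nat_lit 151) (nat_lit 5) (nat_lit 156) (nat_lit 5) (nat_lit 157) (nat_lit 5) (nat_lit 610) (nat_lit 505) (nat_lit 445)))))) (XT.nd (nat_lit 390) (nat_lit 1368) (nat_lit 0) (XT.nd (nat_lit 156) (nat_lit 760) (nat_lit 0) (XT.nd (nat_lit 78) (nat_lit 0) (nat_lit 0) (XT.lf (nat_lit 0) (nat_lit 10564885) (nat_lit 304) (nat_lit 70369680) (nat_lit 380) (nat_lit 11087054941) (nat_lit 146) (nat_lit 5) (nat_lit 150) (nat_lit 5) (nat_lit 151) (nat_lit 5) (nat_lit 611) (nat_lit 505) (nat_lit 444)) (XT.lf (nat_lit 0) (nat_lit 4090205145) (nat_lit 380) (nat_lit 2822121620) (nat_lit 76) (nat_lit 4374450802) (nat_lit 146) (nat_lit 5) (nat_lit 151) (nat_lit 5) (nat_lit 147) (nat_lit 5) (nat_lit 612) (nat_lit 505) (nat_lit 443))) (XT.nd (nat_lit 78) (nat_lit 380) (nat_lit 0) (XT.lf (nat_lit 0) (nat_lit 5691931264) (nat_lit 380) (nat_lit 2486820945) (nat_lit 456) (nat_lit 3229207925) (nat_lit 141) (nat_lit 5) (nat_lit 146) (nat_lit 5) (nat_lit 147) (nat_lit 5) (nat_lit 613) (nat_lit 505) (nat_lit 442)) (XT.nd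 (nat_lit 78) (nat_lit 0) (nat_lit 0) (XT.lf (nat_lit 0) (nat_lit 819427608) (nat_lit 380) (nat_lit 8691686748) (nat_lit 76) (nat_lit 2020093475) (nat_lit 136) (nat_lit 5) (nat_lit 141) (nat_lit 5) (nat_lit 137) (nat_lit 5) (nat_lit 614) (nat_lit 505) (nat_lit 441)) (XT.lf (nat_lit 0) (nat_lit 4922878456) (nat_lit 380) (nat_lit 113031450) (nat_lit 76) (nat_lit 6620242577) (nat_lit 136) (nat_lit 5) (nat_lit 141) (nat_lit 5) (nat_lit 137) (nat_lit 5) (nat_lit 615) (nat_lit 505) (nat_lit 440))))) (XT.nd (nat_lit 156) (nat_lit 684) (nat_lit 0) (XT.nd (nat_lit 78) (nat_lit 380) (nat_lit 0) (XT.lf (nat_lit 0) (nat_lit 8689957593) (nat_lit 304) (nat_lit 437568243) (nat_lit 380) (nat_lit 2655688163) (nat_lit 132) (nat_lit 5) (nat_lit 136) (nat_lit 5) (nat_lit 137) (nat_lit 5) (nat_lit 616) (nat_lit 505) (nat_lit 439)) (XT.lf (nat_lit 0) (nat_lit 1512477568) (nat_lit 380) (nat_lit 6178133650) (nat_lit 76) (nat_lit 4221435881) (nat_lit 127) (nat_lit 5) (nat_lit 132) (nat_lit 5) (nat_lit 128) (nat_lit 5) (nat_lit 617)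 (nat_lit 505) (nat_lit 438))) (XT.nd (nat_lit 78) (nat_lit 380) (nat_lit 0) (XT.lf (nat_lit 0) (nat_lit 2689687566) (nat_lit 304) (nat_lit 3043024285) (nat_lit 380) (nat_lit 6310309122) (nat_lit 123) (nat_lit 5) (nat_lit 127) (nat_lit 5) (nat_lit 128) (nat_lit 5) (nat_lit 618) (nat_lit 505) (nat_lit 437)) (XT.nd (nat_lit 78) (nat_lit 380) (nat_lit 0) (XT.lf (nat_lit 0) (nat_lit 10053252198) (nat_lit 380) (nat_lit 430121731) (nat_lit 76) (nat_lit 1692922853) (nat_lit 123) (nat_lit 5) (nat_lit 128) (nat_lit 5) (nat_lit 124) (nat_lit 5) (nat_lit 619) (nat_lit 505) (nat_lit 436)) (XT.lf (nat_lit 0) (nat_lit 2160603763) (nat_lit 380) (nat_lit 3620514430) (nat_lit 76) (nat_lit 6530025267) (nat_lit 118) (nat_lit 5) (nat_lit 123) (nat_lit 5) (nat_lit 119) (nat_lit 5) (nat_lit 620) (nat_lit 505) (nat_lit 435))))))) (XT.nd (nat_lit 76050) (nat_lit 0) (nat_lit 23104) (XT.nd (nat_lit 75660) (nat_lit 0) (nat_lit 35036) (XT.nd (nat_lit 156) (nat_lit 76) (nat_lit 0) (XT.nd (nat_lit 78) (nat_lit 228) (nat_lit 0) (XT.lf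 (nat_lit 0) (nat_lit 5549170146) (nat_lit 304) (nat_lit 955238760) (nat_lit 380) (nat_lit 5943939728) (nat_lit 114) (nat_lit 5) (nat_lit 118) (nat_lit 5) (nat_lit 119) (nat_lit 5) (nat_lit 621) (nat_lit 505) (nat_lit 434)) (XT.lf (nat_lit 0) (nat_lit 2307170458) (nat_lit 228) (nat_lit 8657221814) (nat_lit 304) (nat_lit 1623320045) (nat_lit 111) (nat_lit 5) (nat_lit 114) (nat_lit 5) (nat_lit 115) (nat_lit 5) (nat_lit 622) (nat_lit 505) (nat_lit 433))) (XT.nd (nat_lit 75348) (nat_lit 0) (nat_lit 39596) (XT.lf (nat_lit 0) (nat_lit 2764317805) (nat_lit 304) (nat_lit 1023237933) (nat_lit 76) (nat_lit 8941604195) (nat_lit 110) (nat_lit 5) (nat_lit 114) (nat_lit 5) (nat_lit 111) (nat_lit 5) (nat_lit 623) (nat_lit 505) (nat_lit 432)) (XT.nd (nat_lit 78) (nat_lit 1292) (nat_lit 0) (XT.lf (nat_lit 0) (nat_lit 1317741948) (nat_lit 1292) (nat_lit 771902775) (nat_lit 0) (nat_lit 1317741948) (nat_lit 648) (nat_lit 5) (nat_lit 665) (nat_lit 4) (nat_lit 648) (nat_lit 4) (nat_lit 548) (nat_lit 506) (nat_lit 506)) (XT.lf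 (nat_lit 0) (nat_lit 3216936792) (nat_lit 1292) (nat_lit 2830887328) (nat_lit 1292) (nat_lit 794256410) (nat_lit 631) (nat_lit 4) (nat_lit 648) (nat_lit 5) (nat_lit 648) (nat_lit 4) (nat_lit 549) (nat_lit 506) (nat_lit 505))))) (XT.nd (nat_lit 156) (nat_lit 3116) (nat_lit 0) (XT.nd (nat_lit 78) (nat_lit 0) (nat_lit 0) (XT.lf (nat_lit 0) (nat_lit 1158301326) (nat_lit 1368) (nat_lit 1411812150) (nat_lit 1444) (nat_lit 4300548294) (nat_lit 612) (nat_lit 5) (nat_lit 630) (nat_lit 5) (nat_lit 631) (nat_lit 4) (nat_lit 550) (nat_lit 506) (nat_lit 504)) (XT.lf (nat_lit 0) (nat_lit 5945455756) (nat_lit 1444) (nat_lit 883120665) (nat_lit 0) (nat_lit 72049919) (nat_lit 612) (nat_lit 5) (nat_lit 631) (nat_lit 4) (nat_lit 612) (nat_lit 4) (nat_lit 551) (nat_lit 506) (nat_lit 503))) (XT.nd (nat_lit 78) (nat_lit 1596) (nat_lit 0) (XT.lf (nat_lit 0) (nat_lit 2391103165) (nat_lit 1520) (nat_lit 2924909599) (nat_lit 76) (nat_lit 1615537085) (nat_lit 592) (nat_lit 5) (nat_lit 612) (nat_lit 5) (nat_lit 593) (nat_lit 4) (nat_lit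 552) (nat_lit 506) (nat_lit 502)) (XT.nd (nat_lit 78) (nat_lit 76) (nat_lit 0) (XT.lf (nat_lit 0) (nat_lit 1999124937) (nat_lit 1520) (nat_lit 3742806895) (nat_lit 1596) (nat_lit 1222028270) (nat_lit 572) (nat_lit 5) (nat_lit 592) (nat_lit 5) (nat_lit 593) (nat_lit 4) (nat_lit 553) (nat_lit 506) (nat_lit 501)) (XT.lf (nat_lit 0) (nat_lit 2086094355) (nat_lit 1596) (nat_lit 13919760) (nat_lit 76) (nat_lit 4897692406) (nat_lit 571) (nat_lit 5) (nat_lit 592) (nat_lit 5) (nat_lit 572) (nat_lit 5) (nat_lit 554) (nat_lit 506) (nat_lit 500)))))) (XT.nd (nat_lit 390) (nat_lit 4940) (nat_lit 0) (XT.nd (nat_lit 156) (nat_lit 3648) (nat_lit 0) (XT.nd (nat_lit 78) (nat_lit 1748) (nat_lit 0) (XT.lf (nat_lit 0) (nat_lit 5030753435) (nat_lit 1596) (nat_lit 379218916) (nat_lit 1672) (nat_lit 1622677609) (nat_lit 550) (nat_lit 5) (nat_lit 571) (nat_lit 5) (nat_lit 572) (nat_lit 5) (nat_lit 555) (nat_lit 506) (nat_lit 499)) (XT.lf (nat_lit 0) (nat_lit 1672268298) (nat_lit 1748) (nat_lit 4004483158) (nat_lit 76) (nat_lit 1392059584)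 (nat_lit 527) (nat_lit 5) (nat_lit 550) (nat_lit 5) (nat_lit 528) (nat_lit 5) (nat_lit 556) (nat_lit 506) (nat_lit 498))) (XT.nd (nat_lit 78) (nat_lit 1900) (nat_lit 0) (XT.lf (nat_lit 0) (nat_lit 1090015277) (nat_lit 1748) (nat_lit 3879144764) (nat_lit 1824) (nat_lit 2137167893) (nat_lit 504) (nat_lit 5) (nat_lit 527) (nat_lit 5) (nat_lit 528) (nat_lit 5) (nat_lit 557) (nat_lit 506) (nat_lit 497)) (XT.nd (nat_lit 78) (nat_lit 1824) (nat_lit 0) (XT.lf (nat_lit 0) (nat_lit 1133950482) (nat_lit 1824) (nat_lit 876220586) (nat_lit 76) (nat_lit 5135029835) (nat_lit 503) (nat_lit 5) (nat_lit 527) (nat_lit 5) (nat_lit 504) (nat_lit 5) (nat_lit 558) (nat_lit 506) (nat_lit 496)) (XT.lf (nat_lit 0) (nat_lit 4345828918) (nat_lit 1824) (nat_lit 60640121) (nat_lit 1900) (nat_lit 2778810323) (nat_lit 479) (nat_lit 5) (nat_lit 503) (nat_lit 5) (nat_lit 504) (nat_lit 5) (nat_lit 559) (nat_lit 506) (nat_lit 495))))) (XT.nd (nat_lit 234) (nat_lit 2812) (nat_lit 0) (XT.nd (nat_lit 78) (nat_lit 912) (nat_lit 0) (XT.lf (nat_lit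 0) (nat_lit 482575621) (nat_lit 1216) (nat_lit 4817192632) (nat_lit 76) (nat_lit 1926904305) (nat_lit 463) (nat_lit 5) (nat_lit 479) (nat_lit 5) (nat_lit 464) (nat_lit 5) (nat_lit 560) (nat_lit 506) (nat_lit 494)) (XT.nd (nat_lit 78) (nat_lit 0) (nat_lit 0) (XT.lf (nat_lit 0) (nat_lit 455477853) (nat_lit 912) (nat_lit 3276665743) (nat_lit 988) (nat_lit 3537181725) (nat_lit 451) (nat_lit 5) (nat_lit 463) (nat_lit 5) (nat_lit 464) (nat_lit 5) (nat_lit 561) (nat_lit 506) (nat_lit 493)) (XT.lf (nat_lit 0) (nat_lit 5834396047) (nat_lit 912) (nat_lit 1183026284) (nat_lit 988) (nat_lit 295996686) (nat_lit 451) (nat_lit 5) (nat_lit 463) (nat_lit 5) (nat_lit 464) (nat_lit 5) (nat_lit 562) (nat_lit 506) (nat_lit 492)))) (XT.nd (nat_lit 78) (nat_lit 1824) (nat_lit 0) (XT.lf (nat_lit 0) (nat_lit 2941715112) (nat_lit 988) (nat_lit 3434718820) (nat_lit 76) (nat_lit 982148373) (nat_lit 438) (nat_lit 5) (nat_lit 451) (nat_lit 5) (nat_lit 439) (nat_lit 5) (nat_lit 563) (nat_lit 506) (nat_lit 491)) (XT.nd (nat_lit 78) (nat_lit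 988) (nat_lit 0) (XT.lf (nat_lit 0) (nat_lit 2001994599) (nat_lit 836) (nat_lit 4209005427) (nat_lit 912) (nat_lit 1194196193) (nat_lit 427) (nat_lit 5) (nat_lit 438) (nat_lit 5) (nat_lit 439) (nat_lit 5) (nat_lit 564) (nat_lit 506) (nat_lit 490)) (XT.lf (nat_lit 0) (nat_lit 63636650) (nat_lit 912) (nat_lit 1965776624) (nat_lit 988) (nat_lit 5423780733) (nat_lit 414) (nat_lit 5) (nat_lit 426) (nat_lit 5) (nat_lit 427) (nat_lit 5) (nat_lit 565) (nat_lit 506) (nat_lit 489))))))))
noncomputable def xc36 : XT := (XT.nd (nat_lit 1560) (nat_lit 7448) (nat_lit 0) (XT.nd (nat_lit 780) (nat_lit 5320) (nat_lit 0) (XT.nd (nat_lit 390) (nat_lit 3116) (nat_lit 0) (XT.nd (nat_lit 156) (nat_lit 1672) (nat_lit 0) (XT.nd (nat_lit 78) (nat_lit 912) (nat_lit 0) (XT.lf (nat_lit 0) (nat_lit 5281142388) (nat_lit 988) (nat_lit 1864504549) (nat_lit 76) (nat_lit 356756199) (nat_lit 414) (nat_lit 5) (nat_lit 427) (nat_lit 5) (nat_lit 415) (nat_lit 5) (nat_lit 566) (nat_lit 506) (nat_lit 488)) (XT.lf (nat_lit 0) (nat_lit 1010967720)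 (nat_lit 912) (nat_lit 3817142824) (nat_lit 76) (nat_lit 2724764748) (nat_lit 402) (nat_lit 5) (nat_lit 414) (nat_lit 5) (nat_lit 403) (nat_lit 5) (nat_lit 567) (nat_lit 506) (nat_lit 487))) (XT.nd (nat_lit 78) (nat_lit 836) (nat_lit 0) (XT.lf (nat_lit 0) (nat_lit 1813189698) (nat_lit 836) (nat_lit 2431828067) (nat_lit 912) (nat_lit 3359708980) (nat_lit 391) (nat_lit 5) (nat_lit 402) (nat_lit 5) (nat_lit 403) (nat_lit 5) (nat_lit 568) (nat_lit 506) (nat_lit 486)) (XT.nd (nat_lit 78) (nat_lit 836) (nat_lit 0) (XT.lf (nat_lit 0) (nat_lit 7512796481) (nat_lit 912) (nat_lit 115080218) (nat_lit 76) (nat_lit 30359432) (nat_lit 391) (nat_lit 5) (nat_lit 403) (nat_lit 5) (nat_lit 392) (nat_lit 5) (nat_lit 569) (nat_lit 506) (nat_lit 485)) (XT.lf (nat_lit 0) (nat_lit 3089210758) (nat_lit 836) (nat_lit 2064360680) (nat_lit 76) (nat_lit 2558895468) (nat_lit 380) (nat_lit 5) (nat_lit 391) (nat_lit 5) (nat_lit 381) (nat_lit 5) (nat_lit 570) (nat_lit 506) (nat_lit 484))))) (XT.nd (nat_lit 156) (nat_lit 1520) (nat_lit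 0) (XT.nd (nat_lit 78) (nat_lit 836) (nat_lit 0) (XT.lf (nat_lit 0) (nat_lit 3743855484) (nat_lit 760) (nat_lit 2612445952) (nat_lit 836) (nat_lit 1412069491) (nat_lit 370) (nat_lit 5) (nat_lit 380) (nat_lit 5) (nat_lit 381) (nat_lit 5) (nat_lit 571) (nat_lit 506) (nat_lit 483)) (XT.lf (nat_lit 0) (nat_lit 1809616723) (nat_lit 836) (nat_lit 6007974596) (nat_lit 76) (nat_lit 8147154) (nat_lit 359) (nat_lit 5) (nat_lit 370) (nat_lit 5) (nat_lit 360) (nat_lit 5) (nat_lit 572) (nat_lit 506) (nat_lit 482))) (XT.nd (nat_lit 78) (nat_lit 1520) (nat_lit 0) (XT.lf (nat_lit 0) (nat_lit 5066842103) (nat_lit 836) (nat_lit 144635485) (nat_lit 76) (nat_lit 2672790496) (nat_lit 359) (nat_lit 5) (nat_lit 370) (nat_lit 5) (nat_lit 360) (nat_lit 5) (nat_lit 573) (nat_lit 506) (nat_lit 481)) (XT.nd (nat_lit 78) (nat_lit 684) (nat_lit 0) (XT.lf (nat_lit 0) (nat_lit 423849581) (nat_lit 836) (nat_lit 2098642010) (nat_lit 76) (nat_lit 5421731560) (nat_lit 348) (nat_lit 5) (nat_lit 359) (nat_lit 5) (nat_lit 349) (nat_lit 5) (nat_lit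 574) (nat_lit 506) (nat_lit 480)) (XT.lf (nat_lit 0) (nat_lit 3667205724) (nat_lit 760) (nat_lit 4086770998) (nat_lit 76) (nat_lit 251530082) (nat_lit 339) (nat_lit 5) (nat_lit 349) (nat_lit 5) (nat_lit 340) (nat_lit 5) (nat_lit 575) (nat_lit 506) (nat_lit 479)))))) (XT.nd (nat_lit 390) (nat_lit 2508) (nat_lit 0) (XT.nd (nat_lit 156) (nat_lit 2052) (nat_lit 0) (XT.nd (nat_lit 78) (nat_lit 76) (nat_lit 0) (XT.lf (nat_lit 0) (nat_lit 1961009607) (nat_lit 684) (nat_lit 5005442853) (nat_lit 760) (nat_lit 1101744724) (nat_lit 330) (nat_lit 5) (nat_lit 339) (nat_lit 5) (nat_lit 340) (nat_lit 5) (nat_lit 576) (nat_lit 506) (nat_lit 478)) (XT.lf (nat_lit 0) (nat_lit 2145976838) (nat_lit 760) (nat_lit 26266184) (nat_lit 76) (nat_lit 5960108569) (nat_lit 329) (nat_lit 5) (nat_lit 339) (nat_lit 5) (nat_lit 330) (nat_lit 5) (nat_lit 577) (nat_lit 506) (nat_lit 477))) (XT.nd (nat_lit 78) (nat_lit 1368) (nat_lit 0) (XT.lf (nat_lit 0) (nat_lit 5437670194) (nat_lit 760) (nat_lit 2016722067) (nat_lit 76) (nat_lit 743377217)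 (nat_lit 320) (nat_lit 5) (nat_lit 330) (nat_lit 5) (nat_lit 321) (nat_lit 5) (nat_lit 578) (nat_lit 506) (nat_lit 476)) (XT.nd (nat_lit 78) (nat_lit 608) (nat_lit 0) (XT.lf (nat_lit 0) (nat_lit 514885207) (nat_lit 760) (nat_lit 4043249441) (nat_lit 76) (nat_lit 3706470667) (nat_lit 310) (nat_lit 5) (nat_lit 320) (nat_lit 5) (nat_lit 311) (nat_lit 5) (nat_lit 579) (nat_lit 506) (nat_lit 475)) (XT.lf (nat_lit 0) (nat_lit 2225007764) (nat_lit 608) (nat_lit 1570962995) (nat_lit 684) (nat_lit 4536892397) (nat_lit 302) (nat_lit 5) (nat_lit 310) (nat_lit 5) (nat_lit 311) (nat_lit 5) (nat_lit 580) (nat_lit 506) (nat_lit 474))))) (XT.nd (nat_lit 156) (nat_lit 1824) (nat_lit 0) (XT.nd (nat_lit 78) (nat_lit 76) (nat_lit 0) (XT.lf (nat_lit 0) (nat_lit 199030598) (nat_lit 608) (nat_lit 6931769184) (nat_lit 684) (nat_lit 1271925263) (nat_lit 294) (nat_lit 5) (nat_lit 302) (nat_lit 5) (nat_lit 303) (nat_lit 5) (nat_lit 581) (nat_lit 506) (nat_lit 473)) (XT.lf (nat_lit 0) (nat_lit 2033173723) (nat_lit 684) (nat_lit 1847900780)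 (nat_lit 76) (nat_lit 4592607104) (nat_lit 293) (nat_lit 5) (nat_lit 302) (nat_lit 5) (nat_lit 294) (nat_lit 5) (nat_lit 582) (nat_lit 506) (nat_lit 472))) (XT.nd (nat_lit 78) (nat_lit 1216) (nat_lit 0) (XT.lf (nat_lit 0) (nat_lit 4622956555) (nat_lit 608) (nat_lit 745561348) (nat_lit 684) (nat_lit 3177749012) (nat_lit 285) (nat_lit 5) (nat_lit 293) (nat_lit 5) (nat_lit 294) (nat_lit 5) (nat_lit 583) (nat_lit 506) (nat_lit 471)) (XT.nd (nat_lit 78) (nat_lit 532) (nat_lit 0) (XT.lf (nat_lit 0) (nat_lit 145024135) (nat_lit 684) (nat_lit 6039955339) (nat_lit 76) (nat_lit 2435371549) (nat_lit 276) (nat_lit 5) (nat_lit 285) (nat_lit 5) (nat_lit 277) (nat_lit 5) (nat_lit 584) (nat_lit 506) (nat_lit 470)) (XT.lf (nat_lit 0) (nat_lit 487281569) (nat_lit 532) (nat_lit 2990863437) (nat_lit 608) (nat_lit 5217624041) (nat_lit 269) (nat_lit 5) (nat_lit 276) (nat_lit 5) (nat_lit 277) (nat_lit 5) (nat_lit 585) (nat_lit 506) (nat_lit 469))))))) (XT.nd (nat_lit 780) (nat_lit 3572) (nat_lit 0) (XT.nd (nat_lit 390) (nat_lit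 2052) (nat_lit 0) (XT.nd (nat_lit 156) (nat_lit 1140) (nat_lit 0) (XT.nd (nat_lit 78) (nat_lit 684) (nat_lit 0) (XT.lf (nat_lit 0) (nat_lit 6872679060) (nat_lit 608) (nat_lit 1612289346) (nat_lit 76) (nat_lit 287833166) (nat_lit 269) (nat_lit 5) (nat_lit 277) (nat_lit 5) (nat_lit 270) (nat_lit 5) (nat_lit 586) (nat_lit 506) (nat_lit 468)) (XT.lf (nat_lit 0) (nat_lit 1470374401) (nat_lit 684) (nat_lit 3762087126) (nat_lit 76) (nat_lit 3618599570) (nat_lit 260) (nat_lit 5) (nat_lit 269) (nat_lit 5) (nat_lit 261) (nat_lit 5) (nat_lit 587) (nat_lit 506) (nat_lit 467))) (XT.nd (nat_lit 78) (nat_lit 608) (nat_lit 0) (XT.lf (nat_lit 0) (nat_lit 2977587925) (nat_lit 532) (nat_lit 1888848887) (nat_lit 608) (nat_lit 4064526928) (nat_lit 253) (nat_lit 5) (nat_lit 260) (nat_lit 5) (nat_lit 261) (nat_lit 5) (nat_lit 588) (nat_lit 506) (nat_lit 466)) (XT.nd (nat_lit 78) (nat_lit 76) (nat_lit 0) (XT.lf (nat_lit 0) (nat_lit 827252896) (nat_lit 532) (nat_lit 7497567287) (nat_lit 608) (nat_lit 687757328) (nat_lit 246) (nat_lit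 5) (nat_lit 253) (nat_lit 5) (nat_lit 254) (nat_lit 5) (nat_lit 589) (nat_lit 506) (nat_lit 465)) (XT.lf (nat_lit 0) (nat_lit 2727041244) (nat_lit 608) (nat_lit 1366332769) (nat_lit 76) (nat_lit 5001959699) (nat_lit 245) (nat_lit 5) (nat_lit 253) (nat_lit 5) (nat_lit 246) (nat_lit 5) (nat_lit 590) (nat_lit 506) (nat_lit 464))))) (XT.nd (nat_lit 156) (nat_lit 988) (nat_lit 0) (XT.nd (nat_lit 78) (nat_lit 608) (nat_lit 0) (XT.lf (nat_lit 0) (nat_lit 5594294470) (nat_lit 456) (nat_lit 597788617) (nat_lit 532) (nat_lit 2987748908) (nat_lit 239) (nat_lit 5) (nat_lit 245) (nat_lit 5) (nat_lit 246) (nat_lit 5) (nat_lit 591) (nat_lit 506) (nat_lit 463)) (XT.lf (nat_lit 0) (nat_lit 460213298) (nat_lit 608) (nat_lit 5860660323) (nat_lit 76) (nat_lit 2944970882) (nat_lit 231) (nat_lit 5) (nat_lit 239) (nat_lit 5) (nat_lit 232) (nat_lit 5) (nat_lit 592) (nat_lit 506) (nat_lit 462))) (XT.nd (nat_lit 78) (nat_lit 532) (nat_lit 0) (XT.lf (nat_lit 0) (nat_lit 1158424752) (nat_lit 456) (nat_lit 2769795552) (nat_lit 532)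 (nat_lit 5425141094) (nat_lit 225) (nat_lit 5) (nat_lit 231) (nat_lit 5) (nat_lit 232) (nat_lit 5) (nat_lit 593) (nat_lit 506) (nat_lit 461)) (XT.nd (nat_lit 78) (nat_lit 532) (nat_lit 0) (XT.lf (nat_lit 0) (nat_lit 7466399070) (nat_lit 532) (nat_lit 1114729128) (nat_lit 76) (nat_lit 861485132) (nat_lit 225) (nat_lit 5) (nat_lit 232) (nat_lit 5) (nat_lit 226) (nat_lit 5) (nat_lit 594) (nat_lit 506) (nat_lit 460)) (XT.lf (nat_lit 0) (nat_lit 1536110091) (nat_lit 532) (nat_lit 3437814012) (nat_lit 76) (nat_lit 4559234126) (nat_lit 218) (nat_lit 5) (nat_lit 225) (nat_lit 5) (nat_lit 219) (nat_lit 5) (nat_lit 595) (nat_lit 506) (nat_lit 459)))))) (XT.nd (nat_lit 390) (nat_lit 1748) (nat_lit 0) (XT.nd (nat_lit 156) (nat_lit 912) (nat_lit 0) (XT.nd (nat_lit 78) (nat_lit 456) (nat_lit 0) (XT.lf (nat_lit 0) (nat_lit 3812910555) (nat_lit 456) (nat_lit 1268336432) (nat_lit 532) (nat_lit 4544226108) (nat_lit 212) (nat_lit 5) (nat_lit 218) (nat_lit 5) (nat_lit 219) (nat_lit 5) (nat_lit 596) (nat_lit 506) (nat_lit 458))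 (XT.lf (nat_lit 0) (nat_lit 1475332973) (nat_lit 456) (nat_lit 7228087143) (nat_lit 532) (nat_lit 1016092330) (nat_lit 206) (nat_lit 5) (nat_lit 212) (nat_lit 5) (nat_lit 213) (nat_lit 5) (nat_lit 597) (nat_lit 506) (nat_lit 457))) (XT.nd (nat_lit 78) (nat_lit 836) (nat_lit 0) (XT.lf (nat_lit 0) (nat_lit 2553572559) (nat_lit 532) (nat_lit 916087703) (nat_lit 76) (nat_lit 6345340995) (nat_lit 205) (nat_lit 5) (nat_lit 212) (nat_lit 5) (nat_lit 206) (nat_lit 5) (nat_lit 598) (nat_lit 506) (nat_lit 456)) (XT.nd (nat_lit 78) (nat_lit 456) (nat_lit 0) (XT.lf (nat_lit 0) (nat_lit 6184303710) (nat_lit 456) (nat_lit 3339268299) (nat_lit 76) (nat_lit 388628747) (nat_lit 200) (nat_lit 5) (nat_lit 206) (nat_lit 5) (nat_lit 201) (nat_lit 5) (nat_lit 599) (nat_lit 506) (nat_lit 455)) (XT.lf (nat_lit 0) (nat_lit 4181934757) (nat_lit 456) (nat_lit 5720335195) (nat_lit 532) (nat_lit 108782676) (nat_lit 194) (nat_lit 5) (nat_lit 200) (nat_lit 5) (nat_lit 201) (nat_lit 5) (nat_lit 600) (nat_lit 506) (nat_lit 454))))) (XT.nd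 (nat_lit 234) (nat_lit 836) (nat_lit 0) (XT.nd (nat_lit 78) (nat_lit 456) (nat_lit 0) (XT.lf (nat_lit 0) (nat_lit 1723626314) (nat_lit 380) (nat_lit 1804288064) (nat_lit 456) (nat_lit 6583658929) (nat_lit 188) (nat_lit 5) (nat_lit 193) (nat_lit 5) (nat_lit 194) (nat_lit 5) (nat_lit 601) (nat_lit 506) (nat_lit 453)) (XT.nd (nat_lit 78) (nat_lit 456) (nat_lit 0) (XT.lf (nat_lit 0) (nat_lit 7248195701) (nat_lit 456) (nat_lit 785313736) (nat_lit 76) (nat_lit 2180335191) (nat_lit 188) (nat_lit 5) (nat_lit 194) (nat_lit 5) (nat_lit 189) (nat_lit 5) (nat_lit 602) (nat_lit 506) (nat_lit 452)) (XT.lf (nat_lit 0) (nat_lit 732160989) (nat_lit 456) (nat_lit 3335575879) (nat_lit 76) (nat_lit 6249992226) (nat_lit 182) (nat_lit 5) (nat_lit 188) (nat_lit 5) (nat_lit 183) (nat_lit 5) (nat_lit 603) (nat_lit 506) (nat_lit 451)))) (XT.nd (nat_lit 78) (nat_lit 456) (nat_lit 0) (XT.lf (nat_lit 0) (nat_lit 4458290478) (nat_lit 456) (nat_lit 5954647876) (nat_lit 76) (nat_lit 10480073) (nat_lit 177) (nat_lit 5) (nat_lit 183) (nat_lit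 5) (nat_lit 178) (nat_lit 5) (nat_lit 604) (nat_lit 506) (nat_lit 450)) (XT.nd (nat_lit 78) (nat_lit 76) (nat_lit 0) (XT.lf (nat_lit 0) (nat_lit 1878826307) (nat_lit 380) (nat_lit 6401682392) (nat_lit 456) (nat_lit 2250282216) (nat_lit 172) (nat_lit 5) (nat_lit 177) (nat_lit 5) (nat_lit 178) (nat_lit 5) (nat_lit 605) (nat_lit 506) (nat_lit 449)) (XT.lf (nat_lit 0) (nat_lit 1518918970) (nat_lit 456) (nat_lit 762575069) (nat_lit 76) (nat_lit 8358612833) (nat_lit 171) (nat_lit 5) (nat_lit 177) (nat_lit 5) (nat_lit 172) (nat_lit 5) (nat_lit 606) (nat_lit 506) (nat_lit 448))))))))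
noncomputable def xc37 : XT := (XT.nd (nat_lit 76674) (nat_lit 0) (nat_lit 21280) (XT.nd (nat_lit 780) (nat_lit 1672) (nat_lit 0) (XT.nd (nat_lit 390) (nat_lit 1444) (nat_lit 0) (XT.nd (nat_lit 156) (nat_lit 760) (nat_lit 0) (XT.nd (nat_lit 78) (nat_lit 380) (nat_lit 0) (XT.lf (nat_lit 0) (nat_lit 5354368950) (nat_lit 456) (nat_lit 3459662640) (nat_lit 76) (nat_lit 1936860800) (nat_lit 166) (nat_lit 5) (nat_lit 172) (nat_lit 5) (nat_lit 167) (nat_lit 5) (nat_lit 607) (nat_lit 506) (nat_lit 447)) (XT.lf (nat_lit 0) (nat_lit 4636826156) (nat_lit 380) (nat_lit 4641099329) (nat_lit 456) (nat_lit 1585740818) (nat_lit 161) (nat_lit 5) (nat_lit 166) (nat_lit 5) (nat_lit 167) (nat_lit 5) (nat_lit 608) (nat_lit 506) (nat_lit 446))) (XT.nd (nat_lit 78) (nat_lit 380) (nat_lit 0) (XT.lf (nat_lit 0) (nat_lit 1912282656) (nat_lit 304) (nat_lit 355722071) (nat_lit 380) (nat_lit 8710454184) (nat_lit 156) (nat_lit 5) (nat_lit 160) (nat_lit 5) (nat_lit 161) (nat_lit 5) (nat_lit 609) (nat_lit 506) (nat_lit 445)) (XT.nd (nat_lit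 78) (nat_lit 380) (nat_lit 0) (XT.lf (nat_lit 0) (nat_lit 6207104455) (nat_lit 380) (nat_lit 894795867) (nat_lit 76) (nat_lit 3992847767) (nat_lit 156) (nat_lit 5) (nat_lit 161) (nat_lit 5) (nat_lit 157) (nat_lit 5) (nat_lit 610) (nat_lit 506) (nat_lit 444)) (XT.lf (nat_lit 0) (nat_lit 7475075807) (nat_lit 380) (nat_lit 2762916938) (nat_lit 456) (nat_lit 975110765) (nat_lit 151) (nat_lit 5) (nat_lit 156) (nat_lit 5) (nat_lit 157) (nat_lit 5) (nat_lit 611) (nat_lit 506) (nat_lit 443))))) (XT.nd (nat_lit 156) (nat_lit 684) (nat_lit 0) (XT.nd (nat_lit 78) (nat_lit 380) (nat_lit 0) (XT.lf (nat_lit 0) (nat_lit 2985735998) (nat_lit 380) (nat_lit 6672783547) (nat_lit 76) (nat_lit 1674723179) (nat_lit 146) (nat_lit 5) (nat_lit 151) (nat_lit 5) (nat_lit 147) (nat_lit 5) (nat_lit 612) (nat_lit 506) (nat_lit 442)) (XT.lf (nat_lit 0) (nat_lit 1759535654) (nat_lit 380) (nat_lit 5270612142) (nat_lit 456) (nat_lit 4425160475) (nat_lit 141) (nat_lit 5) (nat_lit 146) (nat_lit 5) (nat_lit 147) (nat_lit 5) (nat_lit 613) (nat_lit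 506) (nat_lit 441))) (XT.nd (nat_lit 78) (nat_lit 684) (nat_lit 0) (XT.lf (nat_lit 0) (nat_lit 10390430976) (nat_lit 380) (nat_lit 772559482) (nat_lit 456) (nat_lit 416674362) (nat_lit 141) (nat_lit 5) (nat_lit 146) (nat_lit 5) (nat_lit 147) (nat_lit 5) (nat_lit 614) (nat_lit 506) (nat_lit 440)) (XT.nd (nat_lit 78) (nat_lit 304) (nat_lit 0) (XT.lf (nat_lit 0) (nat_lit 3660887449) (nat_lit 380) (nat_lit 4228732871) (nat_lit 76) (nat_lit 3815670594) (nat_lit 136) (nat_lit 5) (nat_lit 141) (nat_lit 5) (nat_lit 137) (nat_lit 5) (nat_lit 615) (nat_lit 506) (nat_lit 439)) (XT.lf (nat_lit 0) (nat_lit 4489458180) (nat_lit 304) (nat_lit 3330704118) (nat_lit 380) (nat_lit 4013097837) (nat_lit 132) (nat_lit 5) (nat_lit 136) (nat_lit 5) (nat_lit 137) (nat_lit 5) (nat_lit 616) (nat_lit 506) (nat_lit 438)))))) (XT.nd (nat_lit 390) (nat_lit 304) (nat_lit 0) (XT.nd (nat_lit 156) (nat_lit 988) (nat_lit 0) (XT.nd (nat_lit 78) (nat_lit 0) (nat_lit 0) (XT.lf (nat_lit 0) (nat_lit 107608279) (nat_lit 380) (nat_lit 10538425445)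 (nat_lit 76) (nat_lit 1317541265) (nat_lit 127) (nat_lit 5) (nat_lit 132) (nat_lit 5) (nat_lit 128) (nat_lit 5) (nat_lit 617) (nat_lit 506) (nat_lit 437)) (XT.lf (nat_lit 0) (nat_lit 4292409893) (nat_lit 380) (nat_lit 1735719052) (nat_lit 76) (nat_lit 6067128810) (nat_lit 127) (nat_lit 5) (nat_lit 132) (nat_lit 5) (nat_lit 128) (nat_lit 5) (nat_lit 618) (nat_lit 506) (nat_lit 436))) (XT.nd (nat_lit 78) (nat_lit 684) (nat_lit 0) (XT.lf (nat_lit 0) (nat_lit 7279419264) (nat_lit 304) (nat_lit 1293164567) (nat_lit 380) (nat_lit 3656757295) (nat_lit 123) (nat_lit 5) (nat_lit 127) (nat_lit 5) (nat_lit 128) (nat_lit 5) (nat_lit 619) (nat_lit 506) (nat_lit 435)) (XT.nd (nat_lit 78) (nat_lit 304) (nat_lit 0) (XT.lf (nat_lit 0) (nat_lit 590831136) (nat_lit 380) (nat_lit 8265431406) (nat_lit 76) (nat_lit 3509248143) (nat_lit 118) (nat_lit 5) (nat_lit 123) (nat_lit 5) (nat_lit 119) (nat_lit 5) (nat_lit 620) (nat_lit 506) (nat_lit 434)) (XT.lf (nat_lit 0) (nat_lit 812758882) (nat_lit 304) (nat_lit 4073629100) (nat_lit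 380) (nat_lit 7617293065) (nat_lit 114) (nat_lit 5) (nat_lit 118) (nat_lit 5) (nat_lit 119) (nat_lit 5) (nat_lit 621) (nat_lit 506) (nat_lit 433))))) (XT.nd (nat_lit 75270) (nat_lit 0) (nat_lit 40888) (XT.nd (nat_lit 78) (nat_lit 304) (nat_lit 0) (XT.lf (nat_lit 0) (nat_lit 9293725360) (nat_lit 380) (nat_lit 2524037861) (nat_lit 76) (nat_lit 826334643) (nat_lit 114) (nat_lit 5) (nat_lit 119) (nat_lit 5) (nat_lit 115) (nat_lit 5) (nat_lit 622) (nat_lit 506) (nat_lit 432)) (XT.lf (nat_lit 0) (nat_lit 1025817848) (nat_lit 304) (nat_lit 5962873702) (nat_lit 76) (nat_lit 5797760367) (nat_lit 110) (nat_lit 5) (nat_lit 114) (nat_lit 5) (nat_lit 111) (nat_lit 5) (nat_lit 623) (nat_lit 506) (nat_lit 431))) (XT.nd (nat_lit 78) (nat_lit 1292) (nat_lit 0) (XT.lf (nat_lit 0) (nat_lit 1347917849) (nat_lit 1140) (nat_lit 1016889188) (nat_lit 1140) (nat_lit 1016889188) (nat_lit 665) (nat_lit 4) (nat_lit 680) (nat_lit 5) (nat_lit 680) (nat_lit 4) (nat_lit 546) (nat_lit 507) (nat_lit 507)) (XT.nd (nat_lit 78) (nat_lit 0)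 (nat_lit 0) (XT.lf (nat_lit 0) (nat_lit 552189997) (nat_lit 1216) (nat_lit 770137133) (nat_lit 1292) (nat_lit 5466579475) (nat_lit 648) (nat_lit 5) (nat_lit 664) (nat_lit 5) (nat_lit 665) (nat_lit 4) (nat_lit 547) (nat_lit 507) (nat_lit 506)) (XT.lf (nat_lit 0) (nat_lit 4677215146) (nat_lit 1292) (nat_lit 1575051785) (nat_lit 0) (nat_lit 563220693) (nat_lit 648) (nat_lit 5) (nat_lit 665) (nat_lit 4) (nat_lit 648) (nat_lit 4) (nat_lit 548) (nat_lit 507) (nat_lit 505))))))) (XT.nd (nat_lit 780) (nat_lit 8588) (nat_lit 0) (XT.nd (nat_lit 390) (nat_lit 5168) (nat_lit 0) (XT.nd (nat_lit 156) (nat_lit 3116) (nat_lit 0) (XT.nd (nat_lit 78) (nat_lit 1368) (nat_lit 0) (XT.lf (nat_lit 0) (nat_lit 1194832725) (nat_lit 1368) (nat_lit 3697129326) (nat_lit 76) (nat_lit 1951383961) (nat_lit 630) (nat_lit 5) (nat_lit 648) (nat_lit 5) (nat_lit 631) (nat_lit 4) (nat_lit 549) (nat_lit 507) (nat_lit 504)) (XT.lf (nat_lit 0) (nat_lit 1048828755) (nat_lit 1368) (nat_lit 3464570375) (nat_lit 1444) (nat_lit 2359134257) (nat_lit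 612) (nat_lit 5) (nat_lit 630) (nat_lit 5) (nat_lit 631) (nat_lit 4) (nat_lit 550) (nat_lit 507) (nat_lit 503))) (XT.nd (nat_lit 78) (nat_lit 3040) (nat_lit 0) (XT.lf (nat_lit 0) (nat_lit 938408345) (nat_lit 1444) (nat_lit 1031541134) (nat_lit 76) (nat_lit 4933119900) (nat_lit 611) (nat_lit 5) (nat_lit 630) (nat_lit 5) (nat_lit 612) (nat_lit 5) (nat_lit 551) (nat_lit 507) (nat_lit 502)) (XT.nd (nat_lit 78) (nat_lit 1596) (nat_lit 0) (XT.lf (nat_lit 0) (nat_lit 3829375795) (nat_lit 1444) (nat_lit 397658150) (nat_lit 1520) (nat_lit 2707738780) (nat_lit 592) (nat_lit 5) (nat_lit 611) (nat_lit 5) (nat_lit 612) (nat_lit 5) (nat_lit 552) (nat_lit 507) (nat_lit 501)) (XT.lf (nat_lit 0) (nat_lit 565201806) (nat_lit 1596) (nat_lit 5184228950) (nat_lit 76) (nat_lit 1218423691) (nat_lit 571) (nat_lit 5) (nat_lit 592) (nat_lit 5) (nat_lit 572) (nat_lit 5) (nat_lit 553) (nat_lit 507) (nat_lit 500))))) (XT.nd (nat_lit 156) (nat_lit 3496) (nat_lit 0) (XT.nd (nat_lit 78) (nat_lit 1672) (nat_lit 0) (XT.lf (nat_lit 0) (nat_lit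 3824266416) (nat_lit 1596) (nat_lit 272508580) (nat_lit 76) (nat_lit 2905329169) (nat_lit 571) (nat_lit 5) (nat_lit 592) (nat_lit 5) (nat_lit 572) (nat_lit 5) (nat_lit 554) (nat_lit 507) (nat_lit 499)) (XT.lf (nat_lit 0) (nat_lit 75125264) (nat_lit 1672) (nat_lit 2300555963) (nat_lit 76) (nat_lit 4662043555) (nat_lit 549) (nat_lit 5) (nat_lit 571) (nat_lit 5) (nat_lit 550) (nat_lit 5) (nat_lit 555) (nat_lit 507) (nat_lit 498))) (XT.nd (nat_lit 78) (nat_lit 1824) (nat_lit 0) (XT.lf (nat_lit 0) (nat_lit 2729080155) (nat_lit 1672) (nat_lit 576154917) (nat_lit 1748) (nat_lit 3769312457) (nat_lit 527) (nat_lit 5) (nat_lit 549) (nat_lit 5) (nat_lit 550) (nat_lit 5) (nat_lit 556) (nat_lit 507) (nat_lit 497)) (XT.nd (nat_lit 78) (nat_lit 76) (nat_lit 0) (XT.lf (nat_lit 0) (nat_lit 716559467) (nat_lit 1748) (nat_lit 5847681321) (nat_lit 1824) (nat_lit 548582620) (nat_lit 504) (nat_lit 5) (nat_lit 527) (nat_lit 5) (nat_lit 528) (nat_lit 5) (nat_lit 557) (nat_lit 507) (nat_lit 496)) (XT.lf (nat_lit 0) (nat_lit 2670192133)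 (nat_lit 1824) (nat_lit 1298014388) (nat_lit 76) (nat_lit 3183914968) (nat_lit 503) (nat_lit 5) (nat_lit 527) (nat_lit 5) (nat_lit 504) (nat_lit 5) (nat_lit 558) (nat_lit 507) (nat_lit 495)))))) (XT.nd (nat_lit 390) (nat_lit 3648) (nat_lit 0) (XT.nd (nat_lit 156) (nat_lit 1900) (nat_lit 0) (XT.nd (nat_lit 78) (nat_lit 1216) (nat_lit 0) (XT.lf (nat_lit 0) (nat_lit 3887108752) (nat_lit 1824) (nat_lit 2021732405) (nat_lit 1900) (nat_lit 1284037371) (nat_lit 479) (nat_lit 5) (nat_lit 503) (nat_lit 5) (nat_lit 504) (nat_lit 5) (nat_lit 559) (nat_lit 507) (nat_lit 494)) (XT.lf (nat_lit 0) (nat_lit 1908530673) (nat_lit 1140) (nat_lit 2512319) (nat_lit 1216) (nat_lit 5323969804) (nat_lit 463) (nat_lit 5) (nat_lit 478) (nat_lit 5) (nat_lit 479) (nat_lit 5) (nat_lit 560) (nat_lit 507) (nat_lit 493))) (XT.nd (nat_lit 78) (nat_lit 1900) (nat_lit 0) (XT.lf (nat_lit 0) (nat_lit 5127346453) (nat_lit 1216) (nat_lit 91282878) (nat_lit 76) (nat_lit 2059702639) (nat_lit 463) (nat_lit 5) (nat_lit 479) (nat_lit 5) (nat_lit 464)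 (nat_lit 5) (nat_lit 561) (nat_lit 507) (nat_lit 492)) (XT.nd (nat_lit 78) (nat_lit 912) (nat_lit 0) (XT.lf (nat_lit 0) (nat_lit 1045197475) (nat_lit 988) (nat_lit 2074797418) (nat_lit 76) (nat_lit 4202904364) (nat_lit 450) (nat_lit 5) (nat_lit 463) (nat_lit 5) (nat_lit 451) (nat_lit 5) (nat_lit 562) (nat_lit 507) (nat_lit 491)) (XT.lf (nat_lit 0) (nat_lit 3293315866) (nat_lit 912) (nat_lit 945603953) (nat_lit 988) (nat_lit 3129907495) (nat_lit 438) (nat_lit 5) (nat_lit 450) (nat_lit 5) (nat_lit 451) (nat_lit 5) (nat_lit 563) (nat_lit 507) (nat_lit 490))))) (XT.nd (nat_lit 234) (nat_lit 1824) (nat_lit 0) (XT.nd (nat_lit 78) (nat_lit 912) (nat_lit 0) (XT.lf (nat_lit 0) (nat_lit 51618992) (nat_lit 912) (nat_lit 6089539593) (nat_lit 76) (nat_lit 1275070172) (nat_lit 426) (nat_lit 5) (nat_lit 438) (nat_lit 5) (nat_lit 427) (nat_lit 5) (nat_lit 564) (nat_lit 507) (nat_lit 489)) (XT.nd (nat_lit 78) (nat_lit 912) (nat_lit 0) (XT.lf (nat_lit 0) (nat_lit 3230187746) (nat_lit 912) (nat_lit 662922135) (nat_lit 76)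 (nat_lit 3571550161) (nat_lit 426) (nat_lit 5) (nat_lit 438) (nat_lit 5) (nat_lit 427) (nat_lit 5) (nat_lit 565) (nat_lit 507) (nat_lit 488)) (XT.lf (nat_lit 0) (nat_lit 4873499351) (nat_lit 912) (nat_lit 1573107572) (nat_lit 988) (nat_lit 1067969422) (nat_lit 414) (nat_lit 5) (nat_lit 426) (nat_lit 5) (nat_lit 427) (nat_lit 5) (nat_lit 566) (nat_lit 507) (nat_lit 487)))) (XT.nd (nat_lit 78) (nat_lit 912) (nat_lit 0) (XT.lf (nat_lit 0) (nat_lit 2105323826) (nat_lit 912) (nat_lit 4645699278) (nat_lit 76) (nat_lit 814752771) (nat_lit 402) (nat_lit 5) (nat_lit 414) (nat_lit 5) (nat_lit 403) (nat_lit 5) (nat_lit 567) (nat_lit 507) (nat_lit 486)) (XT.nd (nat_lit 78) (nat_lit 76) (nat_lit 0) (XT.lf (nat_lit 0) (nat_lit 941685727) (nat_lit 836) (nat_lit 4364134590) (nat_lit 912) (nat_lit 2312479002) (nat_lit 391) (nat_lit 5) (nat_lit 402) (nat_lit 5) (nat_lit 403) (nat_lit 5) (nat_lit 568) (nat_lit 507) (nat_lit 485)) (XT.lf (nat_lit 0) (nat_lit 862027284) (nat_lit 912) (nat_lit 1037490427) (nat_lit 76) (nat_lit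 5772733495) (nat_lit 390) (nat_lit 5) (nat_lit 402) (nat_lit 5) (nat_lit 391) (nat_lit 5) (nat_lit 569) (nat_lit 507) (nat_lit 484))))))))
noncomputable def xc38 : XT := (XT.nd (nat_lit 1560) (nat_lit 7372) (nat_lit 0) (XT.nd (nat_lit 780) (nat_lit 4332) (nat_lit 0) (XT.nd (nat_lit 390) (nat_lit 2888) (nat_lit 0) (XT.nd (nat_lit 156) (nat_lit 1672) (nat_lit 0) (XT.nd (nat_lit 78) (nat_lit 760) (nat_lit 0) (XT.lf (nat_lit 0) (nat_lit 4048906799) (nat_lit 836) (nat_lit 3033730445) (nat_lit 76) (nat_lit 644743987) (nat_lit 380) (nat_lit 5) (nat_lit 391) (nat_lit 5) (nat_lit 381) (nat_lit 5) (nat_lit 570) (nat_lit 507) (nat_lit 483)) (XT.lf (nat_lit 0) (nat_lit 2729820198) (nat_lit 760) (nat_lit 4552709352) (nat_lit 836) (nat_lit 501425911) (nat_lit 370) (nat_lit 5) (nat_lit 380) (nat_lit 5) (nat_lit 381) (nat_lit 5) (nat_lit 571) (nat_lit 507) (nat_lit 482))) (XT.nd (nat_lit 78) (nat_lit 836) (nat_lit 0) (XT.lf (nat_lit 0) (nat_lit 736589682) (nat_lit 760) (nat_lit 1937917691) (nat_lit 836) (nat_lit 5167374395)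 (nat_lit 359) (nat_lit 5) (nat_lit 369) (nat_lit 5) (nat_lit 370) (nat_lit 5) (nat_lit 572) (nat_lit 507) (nat_lit 481)) (XT.nd (nat_lit 78) (nat_lit 836) (nat_lit 0) (XT.lf (nat_lit 0) (nat_lit 5892703672) (nat_lit 836) (nat_lit 1261176749) (nat_lit 76) (nat_lit 747312341) (nat_lit 359) (nat_lit 5) (nat_lit 370) (nat_lit 5) (nat_lit 360) (nat_lit 5) (nat_lit 573) (nat_lit 507) (nat_lit 480)) (XT.lf (nat_lit 0) (nat_lit 1188475546) (nat_lit 836) (nat_lit 3284243769) (nat_lit 76) (nat_lit 3488998272) (nat_lit 348) (nat_lit 5) (nat_lit 359) (nat_lit 5) (nat_lit 349) (nat_lit 5) (nat_lit 574) (nat_lit 507) (nat_lit 479))))) (XT.nd (nat_lit 156) (nat_lit 1520) (nat_lit 0) (XT.nd (nat_lit 78) (nat_lit 684) (nat_lit 0) (XT.lf (nat_lit 0) (nat_lit 2687328950) (nat_lit 684) (nat_lit 1709050434) (nat_lit 760) (nat_lit 3627331657) (nat_lit 339) (nat_lit 5) (nat_lit 348) (nat_lit 5) (nat_lit 349) (nat_lit 5) (nat_lit 575) (nat_lit 507) (nat_lit 478)) (XT.lf (nat_lit 0) (nat_lit 674027158) (nat_lit 684) (nat_lit 6976622462)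 (nat_lit 760) (nat_lit 436652071) (nat_lit 330) (nat_lit 5) (nat_lit 339) (nat_lit 5) (nat_lit 340) (nat_lit 5) (nat_lit 576) (nat_lit 507) (nat_lit 477))) (XT.nd (nat_lit 78) (nat_lit 1444) (nat_lit 0) (XT.lf (nat_lit 0) (nat_lit 2776951357) (nat_lit 760) (nat_lit 1368390384) (nat_lit 76) (nat_lit 4006536610) (nat_lit 329) (nat_lit 5) (nat_lit 339) (nat_lit 5) (nat_lit 330) (nat_lit 5) (nat_lit 577) (nat_lit 507) (nat_lit 476)) (XT.nd (nat_lit 78) (nat_lit 760) (nat_lit 0) (XT.lf (nat_lit 0) (nat_lit 4794565196) (nat_lit 684) (nat_lit 1235257151) (nat_lit 760) (nat_lit 2188251036) (nat_lit 320) (nat_lit 5) (nat_lit 329) (nat_lit 5) (nat_lit 330) (nat_lit 5) (nat_lit 578) (nat_lit 507) (nat_lit 475)) (XT.lf (nat_lit 0) (nat_lit 1036874928) (nat_lit 760) (nat_lit 5516945768) (nat_lit 76) (nat_lit 1731862111) (nat_lit 310) (nat_lit 5) (nat_lit 320) (nat_lit 5) (nat_lit 311) (nat_lit 5) (nat_lit 579) (nat_lit 507) (nat_lit 474)))))) (XT.nd (nat_lit 390) (nat_lit 1748) (nat_lit 0) (XT.nd (nat_lit 156) (nat_lit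 1976) (nat_lit 0) (XT.nd (nat_lit 78) (nat_lit 0) (nat_lit 0) (XT.lf (nat_lit 0) (nat_lit 699843600) (nat_lit 608) (nat_lit 3583683068) (nat_lit 684) (nat_lit 4071103312) (nat_lit 302) (nat_lit 5) (nat_lit 310) (nat_lit 5) (nat_lit 311) (nat_lit 5) (nat_lit 580) (nat_lit 507) (nat_lit 473)) (XT.lf (nat_lit 0) (nat_lit 7052611195) (nat_lit 608) (nat_lit 530530047) (nat_lit 684) (nat_lit 842055562) (nat_lit 302) (nat_lit 5) (nat_lit 310) (nat_lit 5) (nat_lit 311) (nat_lit 5) (nat_lit 581) (nat_lit 507) (nat_lit 472))) (XT.nd (nat_lit 78) (nat_lit 1292) (nat_lit 0) (XT.lf (nat_lit 0) (nat_lit 2420684484) (nat_lit 684) (nat_lit 3491508701) (nat_lit 76) (nat_lit 2584639403) (nat_lit 293) (nat_lit 5) (nat_lit 302) (nat_lit 5) (nat_lit 294) (nat_lit 5) (nat_lit 582) (nat_lit 507) (nat_lit 471)) (XT.nd (nat_lit 78) (nat_lit 684) (nat_lit 0) (XT.lf (nat_lit 0) (nat_lit 2925903473) (nat_lit 608) (nat_lit 2795394447) (nat_lit 684) (nat_lit 2848815198) (nat_lit 285) (nat_lit 5) (nat_lit 293) (nat_lit 5) (nat_lit 294)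 (nat_lit 5) (nat_lit 583) (nat_lit 507) (nat_lit 470)) (XT.lf (nat_lit 0) (nat_lit 421076713) (nat_lit 684) (nat_lit 7828687405) (nat_lit 76) (nat_lit 395362322) (nat_lit 276) (nat_lit 5) (nat_lit 285) (nat_lit 5) (nat_lit 277) (nat_lit 5) (nat_lit 584) (nat_lit 507) (nat_lit 469))))) (XT.nd (nat_lit 156) (nat_lit 1216) (nat_lit 0) (XT.nd (nat_lit 78) (nat_lit 532) (nat_lit 0) (XT.lf (nat_lit 0) (nat_lit 3727640054) (nat_lit 684) (nat_lit 1339349613) (nat_lit 76) (nat_lit 3654086519) (nat_lit 276) (nat_lit 5) (nat_lit 285) (nat_lit 5) (nat_lit 277) (nat_lit 5) (nat_lit 585) (nat_lit 507) (nat_lit 468)) (XT.lf (nat_lit 0) (nat_lit 5286712264) (nat_lit 532) (nat_lit 1801618392) (nat_lit 608) (nat_lit 1710455485) (nat_lit 269) (nat_lit 5) (nat_lit 276) (nat_lit 5) (nat_lit 277) (nat_lit 5) (nat_lit 586) (nat_lit 507) (nat_lit 467))) (XT.nd (nat_lit 78) (nat_lit 532) (nat_lit 0) (XT.lf (nat_lit 0) (nat_lit 1610181681) (nat_lit 684) (nat_lit 5734614888) (nat_lit 76) (nat_lit 1533172452) (nat_lit 260) (nat_lit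 5) (nat_lit 269) (nat_lit 5) (nat_lit 261) (nat_lit 5) (nat_lit 587) (nat_lit 507) (nat_lit 466)) (XT.nd (nat_lit 78) (nat_lit 0) (nat_lit 0) (XT.lf (nat_lit 0) (nat_lit 947245403) (nat_lit 532) (nat_lit 4023175599) (nat_lit 608) (nat_lit 3988167653) (nat_lit 253) (nat_lit 5) (nat_lit 260) (nat_lit 5) (nat_lit 261) (nat_lit 5) (nat_lit 588) (nat_lit 507) (nat_lit 465)) (XT.lf (nat_lit 0) (nat_lit 7777894933) (nat_lit 532) (nat_lit 613208556) (nat_lit 608) (nat_lit 649853473) (nat_lit 253) (nat_lit 5) (nat_lit 260) (nat_lit 5) (nat_lit 261) (nat_lit 5) (nat_lit 589) (nat_lit 507) (nat_lit 464))))))) (XT.nd (nat_lit 780) (nat_lit 3344) (nat_lit 0) (XT.nd (nat_lit 390) (nat_lit 1900) (nat_lit 0) (XT.nd (nat_lit 156) (nat_lit 1064) (nat_lit 0) (XT.nd (nat_lit 78) (nat_lit 456) (nat_lit 0) (XT.lf (nat_lit 0) (nat_lit 2729738557) (nat_lit 608) (nat_lit 3529653794) (nat_lit 76) (nat_lit 2865010577) (nat_lit 245) (nat_lit 5) (nat_lit 253) (nat_lit 5) (nat_lit 246) (nat_lit 5) (nat_lit 590) (nat_lit 507) (nat_lit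 463)) (XT.lf (nat_lit 0) (nat_lit 3370965739) (nat_lit 456) (nat_lit 2787454414) (nat_lit 532) (nat_lit 3051208750) (nat_lit 239) (nat_lit 5) (nat_lit 245) (nat_lit 5) (nat_lit 246) (nat_lit 5) (nat_lit 591) (nat_lit 507) (nat_lit 462))) (XT.nd (nat_lit 78) (nat_lit 456) (nat_lit 0) (XT.lf (nat_lit 0) (nat_lit 346345541) (nat_lit 608) (nat_lit 8190823330) (nat_lit 76) (nat_lit 759506055) (nat_lit 231) (nat_lit 5) (nat_lit 239) (nat_lit 5) (nat_lit 232) (nat_lit 5) (nat_lit 592) (nat_lit 507) (nat_lit 461)) (XT.nd (nat_lit 78) (nat_lit 456) (nat_lit 0) (XT.lf (nat_lit 0) (nat_lit 3785162582) (nat_lit 608) (nat_lit 1218037178) (nat_lit 76) (nat_lit 4381576321) (nat_lit 231) (nat_lit 5) (nat_lit 239) (nat_lit 5) (nat_lit 232) (nat_lit 5) (nat_lit 593) (nat_lit 507) (nat_lit 460)) (XT.lf (nat_lit 0) (nat_lit 5910114886) (nat_lit 456) (nat_lit 1378100934) (nat_lit 532) (nat_lit 2186515155) (nat_lit 225) (nat_lit 5) (nat_lit 231) (nat_lit 5) (nat_lit 232) (nat_lit 5) (nat_lit 594) (nat_lit 507) (nat_lit 459)))))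 (XT.nd (nat_lit 156) (nat_lit 912) (nat_lit 0) (XT.nd (nat_lit 78) (nat_lit 456) (nat_lit 0) (XT.lf (nat_lit 0) (nat_lit 1281968105) (nat_lit 532) (nat_lit 5973627723) (nat_lit 76) (nat_lit 2310639771) (nat_lit 218) (nat_lit 5) (nat_lit 225) (nat_lit 5) (nat_lit 219) (nat_lit 5) (nat_lit 595) (nat_lit 507) (nat_lit 458)) (XT.lf (nat_lit 0) (nat_lit 1212254714) (nat_lit 456) (nat_lit 3576957984) (nat_lit 532) (nat_lit 4870096038) (nat_lit 212) (nat_lit 5) (nat_lit 218) (nat_lit 5) (nat_lit 219) (nat_lit 5) (nat_lit 596) (nat_lit 507) (nat_lit 457))) (XT.nd (nat_lit 78) (nat_lit 912) (nat_lit 0) (XT.lf (nat_lit 0) (nat_lit 8365961208) (nat_lit 532) (nat_lit 1194403584) (nat_lit 76) (nat_lit 193892205) (nat_lit 212) (nat_lit 5) (nat_lit 219) (nat_lit 5) (nat_lit 213) (nat_lit 5) (nat_lit 597) (nat_lit 507) (nat_lit 456)) (XT.nd (nat_lit 78) (nat_lit 380) (nat_lit 0) (XT.lf (nat_lit 0) (nat_lit 2157556589) (nat_lit 532) (nat_lit 3665088675) (nat_lit 76) (nat_lit 4027723155) (nat_lit 205) (nat_lit 5) (nat_lit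 212) (nat_lit 5) (nat_lit 206) (nat_lit 5) (nat_lit 598) (nat_lit 507) (nat_lit 455)) (XT.lf (nat_lit 0) (nat_lit 3759251945) (nat_lit 380) (nat_lit 1987817278) (nat_lit 456) (nat_lit 4201323459) (nat_lit 200) (nat_lit 5) (nat_lit 205) (nat_lit 5) (nat_lit 206) (nat_lit 5) (nat_lit 599) (nat_lit 507) (nat_lit 454)))))) (XT.nd (nat_lit 390) (nat_lit 1596) (nat_lit 0) (XT.nd (nat_lit 156) (nat_lit 1216) (nat_lit 0) (XT.nd (nat_lit 78) (nat_lit 76) (nat_lit 0) (XT.lf (nat_lit 0) (nat_lit 1276370869) (nat_lit 456) (nat_lit 8136655970) (nat_lit 532) (nat_lit 635258274) (nat_lit 194) (nat_lit 5) (nat_lit 200) (nat_lit 5) (nat_lit 201) (nat_lit 5) (nat_lit 600) (nat_lit 507) (nat_lit 453)) (XT.lf (nat_lit 0) (nat_lit 2976982208) (nat_lit 532) (nat_lit 1268916012) (nat_lit 76) (nat_lit 5903603534) (nat_lit 193) (nat_lit 5) (nat_lit 200) (nat_lit 5) (nat_lit 194) (nat_lit 5) (nat_lit 601) (nat_lit 507) (nat_lit 452))) (XT.nd (nat_lit 78) (nat_lit 836) (nat_lit 0) (XT.lf (nat_lit 0) (nat_lit 6403399065) (nat_lit 380)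 (nat_lit 251199951) (nat_lit 456) (nat_lit 3598027711) (nat_lit 188) (nat_lit 5) (nat_lit 193) (nat_lit 5) (nat_lit 194) (nat_lit 5) (nat_lit 602) (nat_lit 507) (nat_lit 451)) (XT.nd (nat_lit 78) (nat_lit 380) (nat_lit 0) (XT.lf (nat_lit 0) (nat_lit 66177901) (nat_lit 456) (nat_lit 6504276347) (nat_lit 76) (nat_lit 3786977372) (nat_lit 182) (nat_lit 5) (nat_lit 188) (nat_lit 5) (nat_lit 183) (nat_lit 5) (nat_lit 603) (nat_lit 507) (nat_lit 450)) (XT.lf (nat_lit 0) (nat_lit 1227478614) (nat_lit 380) (nat_lit 2524130157) (nat_lit 456) (nat_lit 6712326496) (nat_lit 177) (nat_lit 5) (nat_lit 182) (nat_lit 5) (nat_lit 183) (nat_lit 5) (nat_lit 604) (nat_lit 507) (nat_lit 449))))) (XT.nd (nat_lit 234) (nat_lit 760) (nat_lit 0) (XT.nd (nat_lit 78) (nat_lit 836) (nat_lit 0) (XT.lf (nat_lit 0) (nat_lit 7525776479) (nat_lit 456) (nat_lit 1441507366) (nat_lit 76) (nat_lit 1604985256) (nat_lit 177) (nat_lit 5) (nat_lit 183) (nat_lit 5) (nat_lit 178) (nat_lit 5) (nat_lit 605) (nat_lit 507) (nat_lit 448)) (XT.nd (nat_lit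 78) (nat_lit 380) (nat_lit 0) (XT.lf (nat_lit 0) (nat_lit 704199396) (nat_lit 456) (nat_lit 4168832271) (nat_lit 76) (nat_lit 5809236134) (nat_lit 171) (nat_lit 5) (nat_lit 177) (nat_lit 5) (nat_lit 172) (nat_lit 5) (nat_lit 606) (nat_lit 507) (nat_lit 447)) (XT.lf (nat_lit 0) (nat_lit 3822570957) (nat_lit 380) (nat_lit 662705984) (nat_lit 456) (nat_lit 6308864143) (nat_lit 166) (nat_lit 5) (nat_lit 171) (nat_lit 5) (nat_lit 172) (nat_lit 5) (nat_lit 607) (nat_lit 507) (nat_lit 446)))) (XT.nd (nat_lit 78) (nat_lit 380) (nat_lit 0) (XT.lf (nat_lit 0) (nat_lit 1052362013) (nat_lit 380) (nat_lit 7309983091) (nat_lit 456) (nat_lit 2545499972) (nat_lit 161) (nat_lit 5) (nat_lit 166) (nat_lit 5) (nat_lit 167) (nat_lit 5) (nat_lit 608) (nat_lit 507) (nat_lit 445)) (XT.nd (nat_lit 78) (nat_lit 304) (nat_lit 0) (XT.lf (nat_lit 0) (nat_lit 1289558203) (nat_lit 456) (nat_lit 1765111840) (nat_lit 76) (nat_lit 7968718061) (nat_lit 160) (nat_lit 5) (nat_lit 166) (nat_lit 5) (nat_lit 161) (nat_lit 5) (nat_lit 609) (nat_lit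 507) (nat_lit 444)) (XT.lf (nat_lit 0) (nat_lit 5180691446) (nat_lit 380) (nat_lit 4653217619) (nat_lit 76) (nat_lit 1306727839) (nat_lit 156) (nat_lit 5) (nat_lit 161) (nat_lit 5) (nat_lit 157) (nat_lit 5) (nat_lit 610) (nat_lit 507) (nat_lit 443))))))))
noncomputable def xc39 : XT := (XT.nd (nat_lit 76596) (nat_lit 0) (nat_lit 19380) (XT.nd (nat_lit 780) (nat_lit 684) (nat_lit 0) (XT.nd (nat_lit 390) (nat_lit 988) (nat_lit 0) (XT.nd (nat_lit 156) (nat_lit 760) (nat_lit 0) (XT.nd (nat_lit 78) (nat_lit 380) (nat_lit 0) (XT.lf (nat_lit 0) (nat_lit 3636895365) (nat_lit 380) (nat_lit 5531378433) (nat_lit 456) (nat_lit 2091584932) (nat_lit 151) (nat_lit 5) (nat_lit 156) (nat_lit 5) (nat_lit 157) (nat_lit 5) (nat_lit 611) (nat_lit 507) (nat_lit 442)) (XT.lf (nat_lit 0) (nat_lit 712615954) (nat_lit 304) (nat_lit 1116229655) (nat_lit 380) (nat_lit 9552398767) (nat_lit 146) (nat_lit 5) (nat_lit 150) (nat_lit 5) (nat_lit 151) (nat_lit 5) (nat_lit 612) (nat_lit 507) (nat_lit 441))) (XT.nd (nat_lit 78) (nat_lit 760)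 (nat_lit 0) (XT.lf (nat_lit 0) (nat_lit 5836347262) (nat_lit 380) (nat_lit 2281706786) (nat_lit 76) (nat_lit 3385994347) (nat_lit 146) (nat_lit 5) (nat_lit 151) (nat_lit 5) (nat_lit 147) (nat_lit 5) (nat_lit 613) (nat_lit 507) (nat_lit 440)) (XT.nd (nat_lit 78) (nat_lit 380) (nat_lit 0) (XT.lf (nat_lit 0) (nat_lit 6289492139) (nat_lit 380) (nat_lit 3646614697) (nat_lit 456) (nat_lit 1692960036) (nat_lit 141) (nat_lit 5) (nat_lit 146) (nat_lit 5) (nat_lit 147) (nat_lit 5) (nat_lit 614) (nat_lit 507) (nat_lit 439)) (XT.lf (nat_lit 0) (nat_lit 2337094414) (nat_lit 380) (nat_lit 8486757847) (nat_lit 76) (nat_lit 932291608) (nat_lit 136) (nat_lit 5) (nat_lit 141) (nat_lit 5) (nat_lit 137) (nat_lit 5) (nat_lit 615) (nat_lit 507) (nat_lit 438))))) (XT.nd (nat_lit 156) (nat_lit 684) (nat_lit 0) (XT.nd (nat_lit 78) (nat_lit 0) (nat_lit 0) (XT.lf (nat_lit 0) (nat_lit 145334051) (nat_lit 304) (nat_lit 6305085078) (nat_lit 380) (nat_lit 5434613213) (nat_lit 132) (nat_lit 5) (nat_lit 136) (nat_lit 5) (nat_lit 137) (nat_lit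 5) (nat_lit 616) (nat_lit 507) (nat_lit 437)) (XT.lf (nat_lit 0) (nat_lit 9006662213) (nat_lit 304) (nat_lit 1660776816) (nat_lit 380) (nat_lit 1348631475) (nat_lit 132) (nat_lit 5) (nat_lit 136) (nat_lit 5) (nat_lit 137) (nat_lit 5) (nat_lit 617) (nat_lit 507) (nat_lit 436))) (XT.nd (nat_lit 78) (nat_lit 304) (nat_lit 0) (XT.lf (nat_lit 0) (nat_lit 2805527869) (nat_lit 380) (nat_lit 6272745649) (nat_lit 76) (nat_lit 3070621709) (nat_lit 127) (nat_lit 5) (nat_lit 132) (nat_lit 5) (nat_lit 128) (nat_lit 5) (nat_lit 618) (nat_lit 507) (nat_lit 435)) (XT.nd (nat_lit 78) (nat_lit 0) (nat_lit 0) (XT.lf (nat_lit 0) (nat_lit 2653036424) (nat_lit 304) (nat_lit 4385356179) (nat_lit 380) (nat_lit 5245532409) (nat_lit 123) (nat_lit 5) (nat_lit 127) (nat_lit 5) (nat_lit 128) (nat_lit 5) (nat_lit 619) (nat_lit 507) (nat_lit 434)) (XT.lf (nat_lit 0) (nat_lit 11366165603) (nat_lit 380) (nat_lit 639431828) (nat_lit 76) (nat_lit 415853399) (nat_lit 123) (nat_lit 5) (nat_lit 128) (nat_lit 5) (nat_lit 124) (nat_lit 5) (nat_lit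 620) (nat_lit 507) (nat_lit 433)))))) (XT.nd (nat_lit 75426) (nat_lit 0) (nat_lit 37772) (XT.nd (nat_lit 75192) (nat_lit 0) (nat_lit 41800) (XT.nd (nat_lit 78) (nat_lit 304) (nat_lit 0) (XT.lf (nat_lit 0) (nat_lit 3227446948) (nat_lit 380) (nat_lit 4023853640) (nat_lit 76) (nat_lit 5308991150) (nat_lit 118) (nat_lit 5) (nat_lit 123) (nat_lit 5) (nat_lit 119) (nat_lit 5) (nat_lit 621) (nat_lit 507) (nat_lit 432)) (XT.lf (nat_lit 0) (nat_lit 5206907780) (nat_lit 304) (nat_lit 2378964689) (nat_lit 380) (nat_lit 5115814537) (nat_lit 114) (nat_lit 5) (nat_lit 118) (nat_lit 5) (nat_lit 119) (nat_lit 5) (nat_lit 622) (nat_lit 507) (nat_lit 431))) (XT.nd (nat_lit 78) (nat_lit 1216) (nat_lit 0) (XT.lf (nat_lit 0) (nat_lit 81449596) (nat_lit 1140) (nat_lit 3195142930) (nat_lit 0) (nat_lit 81449596) (nat_lit 680) (nat_lit 5) (nat_lit 695) (nat_lit 4) (nat_lit 680) (nat_lit 4) (nat_lit 544) (nat_lit 508) (nat_lit 508)) (XT.nd (nat_lit 78) (nat_lit 1216) (nat_lit 0) (XT.lf (nat_lit 0) (nat_lit 3502976865) (nat_lit 1140)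 (nat_lit 1894650929) (nat_lit 0) (nat_lit 1341687842) (nat_lit 680) (nat_lit 5) (nat_lit 695) (nat_lit 4) (nat_lit 680) (nat_lit 4) (nat_lit 545) (nat_lit 508) (nat_lit 507)) (XT.lf (nat_lit 0) (nat_lit 89661134) (nat_lit 1216) (nat_lit 4099084337) (nat_lit 76) (nat_lit 2575355631) (nat_lit 664) (nat_lit 5) (nat_lit 680) (nat_lit 5) (nat_lit 665) (nat_lit 4) (nat_lit 546) (nat_lit 508) (nat_lit 506))))) (XT.nd (nat_lit 156) (nat_lit 2812) (nat_lit 0) (XT.nd (nat_lit 78) (nat_lit 0) (nat_lit 0) (XT.lf (nat_lit 0) (nat_lit 476365577) (nat_lit 1216) (nat_lit 2906767562) (nat_lit 1292) (nat_lit 3406938862) (nat_lit 648) (nat_lit 5) (nat_lit 664) (nat_lit 5) (nat_lit 665) (nat_lit 4) (nat_lit 547) (nat_lit 508) (nat_lit 505)) (XT.lf (nat_lit 0) (nat_lit 5138491192) (nat_lit 1216) (nat_lit 1560858052) (nat_lit 1292) (nat_lit 118078817) (nat_lit 648) (nat_lit 5) (nat_lit 664) (nat_lit 5) (nat_lit 665) (nat_lit 4) (nat_lit 548) (nat_lit 508) (nat_lit 504))) (XT.nd (nat_lit 78) (nat_lit 1444) (nat_lit 0) (XT.lf (nat_lit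 0) (nat_lit 3006806288) (nat_lit 1292) (nat_lit 137117146) (nat_lit 1368) (nat_lit 3701994381) (nat_lit 630) (nat_lit 5) (nat_lit 647) (nat_lit 5) (nat_lit 648) (nat_lit 5) (nat_lit 549) (nat_lit 508) (nat_lit 503)) (XT.nd (nat_lit 78) (nat_lit 76) (nat_lit 0) (XT.lf (nat_lit 0) (nat_lit 875170632) (nat_lit 1368) (nat_lit 5551305471) (nat_lit 1444) (nat_lit 449350873) (nat_lit 612) (nat_lit 5) (nat_lit 630) (nat_lit 5) (nat_lit 631) (nat_lit 4) (nat_lit 550) (nat_lit 508) (nat_lit 502)) (XT.lf (nat_lit 0) (nat_lit 2789396348) (nat_lit 1444) (nat_lit 1251431725) (nat_lit 76) (nat_lit 2865963318) (nat_lit 611) (nat_lit 5) (nat_lit 630) (nat_lit 5) (nat_lit 612) (nat_lit 5) (nat_lit 551) (nat_lit 508) (nat_lit 501))))))) (XT.nd (nat_lit 780) (nat_lit 7144) (nat_lit 0) (XT.nd (nat_lit 390) (nat_lit 4864) (nat_lit 0) (XT.nd (nat_lit 156) (nat_lit 3344) (nat_lit 0) (XT.nd (nat_lit 78) (nat_lit 1596) (nat_lit 0) (XT.lf (nat_lit 0) (nat_lit 3576224590) (nat_lit 1444) (nat_lit 2467067232) (nat_lit 1520) (nat_lit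 895898939) (nat_lit 592) (nat_lit 5) (nat_lit 611) (nat_lit 5) (nat_lit 612) (nat_lit 5) (nat_lit 552) (nat_lit 508) (nat_lit 500)) (XT.lf (nat_lit 0) (nat_lit 1488307049) (nat_lit 1520) (nat_lit 822137224) (nat_lit 1596) (nat_lit 4662451001) (nat_lit 571) (nat_lit 5) (nat_lit 591) (nat_lit 5) (nat_lit 592) (nat_lit 5) (nat_lit 553) (nat_lit 508) (nat_lit 499))) (XT.nd (nat_lit 78) (nat_lit 3344) (nat_lit 0) (XT.lf (nat_lit 0) (nat_lit 5531787793) (nat_lit 1596) (nat_lit 598177856) (nat_lit 76) (nat_lit 877935106) (nat_lit 571) (nat_lit 5) (nat_lit 592) (nat_lit 5) (nat_lit 572) (nat_lit 5) (nat_lit 554) (nat_lit 508) (nat_lit 498)) (XT.nd (nat_lit 78) (nat_lit 1672) (nat_lit 0) (XT.lf (nat_lit 0) (nat_lit 1720216073) (nat_lit 1672) (nat_lit 2678302082) (nat_lit 76) (nat_lit 2645469842) (nat_lit 549) (nat_lit 5) (nat_lit 571) (nat_lit 5) (nat_lit 550) (nat_lit 5) (nat_lit 555) (nat_lit 508) (nat_lit 497)) (XT.lf (nat_lit 0) (nat_lit 2315642221) (nat_lit 1672) (nat_lit 2600471109) (nat_lit 1748) (nat_lit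 2165382928) (nat_lit 527) (nat_lit 5) (nat_lit 549) (nat_lit 5) (nat_lit 550) (nat_lit 5) (nat_lit 556) (nat_lit 508) (nat_lit 496))))) (XT.nd (nat_lit 156) (nat_lit 3040) (nat_lit 0) (XT.nd (nat_lit 78) (nat_lit 0) (nat_lit 0) (XT.lf (nat_lit 0) (nat_lit 261239918) (nat_lit 1748) (nat_lit 737618774) (nat_lit 1824) (nat_lit 6121630562) (nat_lit 503) (nat_lit 5) (nat_lit 526) (nat_lit 5) (nat_lit 527) (nat_lit 5) (nat_lit 557) (nat_lit 508) (nat_lit 495)) (XT.lf (nat_lit 0) (nat_lit 4174758359) (nat_lit 1824) (nat_lit 1790682602) (nat_lit 76) (nat_lit 1194989936) (nat_lit 503) (nat_lit 5) (nat_lit 527) (nat_lit 5) (nat_lit 504) (nat_lit 5) (nat_lit 558) (nat_lit 508) (nat_lit 494))) (XT.nd (nat_lit 78) (nat_lit 1140) (nat_lit 0) (XT.lf (nat_lit 0) (nat_lit 175485533) (nat_lit 1900) (nat_lit 3845831708) (nat_lit 76) (nat_lit 3180523294) (nat_lit 478) (nat_lit 5) (nat_lit 503) (nat_lit 5) (nat_lit 479) (nat_lit 5) (nat_lit 559) (nat_lit 508) (nat_lit 493)) (XT.nd (nat_lit 78) (nat_lit 0) (nat_lit 0) (XT.lf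 (nat_lit 0) (nat_lit 1321932917) (nat_lit 1140) (nat_lit 1997897827) (nat_lit 1216) (nat_lit 3924656339) (nat_lit 463) (nat_lit 5) (nat_lit 478) (nat_lit 5) (nat_lit 479) (nat_lit 5) (nat_lit 560) (nat_lit 508) (nat_lit 492)) (XT.lf (nat_lit 0) (nat_lit 6493481842) (nat_lit 1216) (nat_lit 705295514) (nat_lit 76) (nat_lit 89883049) (nat_lit 463) (nat_lit 5) (nat_lit 479) (nat_lit 5) (nat_lit 464) (nat_lit 5) (nat_lit 561) (nat_lit 508) (nat_lit 491)))))) (XT.nd (nat_lit 390) (nat_lit 3344) (nat_lit 0) (XT.nd (nat_lit 156) (nat_lit 1900) (nat_lit 0) (XT.nd (nat_lit 78) (nat_lit 912) (nat_lit 0) (XT.lf (nat_lit 0) (nat_lit 2349647290) (nat_lit 988) (nat_lit 2747241144) (nat_lit 76) (nat_lit 2236835767) (nat_lit 450) (nat_lit 5) (nat_lit 463) (nat_lit 5) (nat_lit 451) (nat_lit 5) (nat_lit 562) (nat_lit 508) (nat_lit 490)) (XT.lf (nat_lit 0) (nat_lit 2581054315) (nat_lit 912) (nat_lit 2928760279) (nat_lit 988) (nat_lit 1870509803) (nat_lit 438) (nat_lit 5) (nat_lit 450) (nat_lit 5) (nat_lit 451) (nat_lit 5) (nat_lit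 563) (nat_lit 508) (nat_lit 489))) (XT.nd (nat_lit 78) (nat_lit 988) (nat_lit 0) (XT.lf (nat_lit 0) (nat_lit 562516645) (nat_lit 836) (nat_lit 689827110) (nat_lit 912) (nat_lit 6176062656) (nat_lit 426) (nat_lit 5) (nat_lit 437) (nat_lit 5) (nat_lit 438) (nat_lit 5) (nat_lit 564) (nat_lit 508) (nat_lit 488)) (XT.nd (nat_lit 78) (nat_lit 988) (nat_lit 0) (XT.lf (nat_lit 0) (nat_lit 4398036199) (nat_lit 912) (nat_lit 1465805940) (nat_lit 76) (nat_lit 1613654062) (nat_lit 426) (nat_lit 5) (nat_lit 438) (nat_lit 5) (nat_lit 427) (nat_lit 5) (nat_lit 565) (nat_lit 508) (nat_lit 487)) (XT.lf (nat_lit 0) (nat_lit 52356821) (nat_lit 988) (nat_lit 3499287145) (nat_lit 76) (nat_lit 3976429063) (nat_lit 413) (nat_lit 5) (nat_lit 426) (nat_lit 5) (nat_lit 414) (nat_lit 5) (nat_lit 566) (nat_lit 508) (nat_lit 486))))) (XT.nd (nat_lit 234) (nat_lit 1596) (nat_lit 0) (XT.nd (nat_lit 78) (nat_lit 912) (nat_lit 0) (XT.lf (nat_lit 0) (nat_lit 2017923271) (nat_lit 836) (nat_lit 1154793219) (nat_lit 912) (nat_lit 4407196849)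 (nat_lit 402) (nat_lit 5) (nat_lit 413) (nat_lit 5) (nat_lit 414) (nat_lit 5) (nat_lit 567) (nat_lit 508) (nat_lit 485)) (XT.nd (nat_lit 78) (nat_lit 912) (nat_lit 0) (XT.lf (nat_lit 0) (nat_lit 6332253041) (nat_lit 912) (nat_lit 10357351) (nat_lit 76) (nat_lit 1290646491) (nat_lit 402) (nat_lit 5) (nat_lit 414) (nat_lit 5) (nat_lit 403) (nat_lit 5) (nat_lit 568) (nat_lit 508) (nat_lit 484)) (XT.lf (nat_lit 0) (nat_lit 1832977148) (nat_lit 912) (nat_lit 2042255323) (nat_lit 76) (nat_lit 3812391016) (nat_lit 390) (nat_lit 5) (nat_lit 402) (nat_lit 5) (nat_lit 391) (nat_lit 5) (nat_lit 569) (nat_lit 508) (nat_lit 483)))) (XT.nd (nat_lit 78) (nat_lit 836) (nat_lit 0) (XT.lf (nat_lit 0) (nat_lit 3649005470) (nat_lit 760) (nat_lit 1333140968) (nat_lit 836) (nat_lit 2761362129) (nat_lit 380) (nat_lit 5) (nat_lit 390) (nat_lit 5) (nat_lit 391) (nat_lit 5) (nat_lit 570) (nat_lit 508) (nat_lit 482)) (XT.nd (nat_lit 78) (nat_lit 0) (nat_lit 0) (XT.lf (nat_lit 0) (nat_lit 367817949) (nat_lit 836) (nat_lit 6170785031)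 (nat_lit 76) (nat_lit 1262274988) (nat_lit 369) (nat_lit 5) (nat_lit 380) (nat_lit 5) (nat_lit 370) (nat_lit 5) (nat_lit 571) (nat_lit 508) (nat_lit 481)) (XT.lf (nat_lit 0) (nat_lit 3506180730) (nat_lit 836) (nat_lit 423874252) (nat_lit 76) (nat_lit 3929304867) (nat_lit 369) (nat_lit 5) (nat_lit 380) (nat_lit 5) (nat_lit 370) (nat_lit 5) (nat_lit 572) (nat_lit 508) (nat_lit 480))))))))
noncomputable def xc40 : XT := (XT.nd (nat_lit 1560) (nat_lit 6688) (nat_lit 0) (XT.nd (nat_lit 780) (nat_lit 4180) (nat_lit 0) (XT.nd (nat_lit 390) (nat_lit 2736) (nat_lit 0) (XT.nd (nat_lit 156) (nat_lit 1444) (nat_lit 0) (XT.nd (nat_lit 78) (nat_lit 836) (nat_lit 0) (XT.lf (nat_lit 0) (nat_lit 5448239076) (nat_lit 760) (nat_lit 1242535657) (nat_lit 836) (nat_lit 1228568941) (nat_lit 359) (nat_lit 5) (nat_lit 369) (nat_lit 5) (nat_lit 370) (nat_lit 5) (nat_lit 573) (nat_lit 508) (nat_lit 479)) (XT.lf (nat_lit 0) (nat_lit 1916295338) (nat_lit 836) (nat_lit 4556825450) (nat_lit 76) (nat_lit 1507484623) (nat_lit 348) (nat_lit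 5) (nat_lit 359) (nat_lit 5) (nat_lit 349) (nat_lit 5) (nat_lit 574) (nat_lit 508) (nat_lit 478))) (XT.nd (nat_lit 78) (nat_lit 760) (nat_lit 0) (XT.lf (nat_lit 0) (nat_lit 1366720650) (nat_lit 684) (nat_lit 3723618543) (nat_lit 760) (nat_lit 2952937610) (nat_lit 339) (nat_lit 5) (nat_lit 348) (nat_lit 5) (nat_lit 349) (nat_lit 5) (nat_lit 575) (nat_lit 508) (nat_lit 477)) (XT.nd (nat_lit 78) (nat_lit 684) (nat_lit 0) (XT.lf (nat_lit 0) (nat_lit 197738048) (nat_lit 760) (nat_lit 700014562) (nat_lit 76) (nat_lit 7209822402) (nat_lit 338) (nat_lit 5) (nat_lit 348) (nat_lit 5) (nat_lit 339) (nat_lit 5) (nat_lit 576) (nat_lit 508) (nat_lit 476)) (XT.lf (nat_lit 0) (nat_lit 3370252667) (nat_lit 760) (nat_lit 2800173169) (nat_lit 76) (nat_lit 2002377074) (nat_lit 329) (nat_lit 5) (nat_lit 339) (nat_lit 5) (nat_lit 330) (nat_lit 5) (nat_lit 577) (nat_lit 508) (nat_lit 475))))) (XT.nd (nat_lit 156) (nat_lit 1292) (nat_lit 0) (XT.nd (nat_lit 78) (nat_lit 760) (nat_lit 0) (XT.lf (nat_lit 0) (nat_lit 3312862279) (nat_lit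 684) (nat_lit 3276231988) (nat_lit 760) (nat_lit 1650584946) (nat_lit 320) (nat_lit 5) (nat_lit 329) (nat_lit 5) (nat_lit 330) (nat_lit 5) (nat_lit 578) (nat_lit 508) (nat_lit 474)) (XT.lf (nat_lit 0) (nat_lit 1222517560) (nat_lit 684) (nat_lit 299175835) (nat_lit 760) (nat_lit 6786442002) (nat_lit 310) (nat_lit 5) (nat_lit 319) (nat_lit 5) (nat_lit 320) (nat_lit 5) (nat_lit 579) (nat_lit 508) (nat_lit 473))) (XT.nd (nat_lit 78) (nat_lit 1292) (nat_lit 0) (XT.lf (nat_lit 0) (nat_lit 4737808415) (nat_lit 760) (nat_lit 906912667) (nat_lit 76) (nat_lit 2732972867) (nat_lit 310) (nat_lit 5) (nat_lit 320) (nat_lit 5) (nat_lit 311) (nat_lit 5) (nat_lit 580) (nat_lit 508) (nat_lit 472)) (XT.nd (nat_lit 78) (nat_lit 684) (nat_lit 0) (XT.lf (nat_lit 0) (nat_lit 5403157410) (nat_lit 608) (nat_lit 2604521232) (nat_lit 684) (nat_lit 441177650) (nat_lit 302) (nat_lit 5) (nat_lit 310) (nat_lit 5) (nat_lit 311) (nat_lit 5) (nat_lit 581) (nat_lit 508) (nat_lit 471)) (XT.lf (nat_lit 0) (nat_lit 2768046513) (nat_lit 684)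 (nat_lit 5230988550) (nat_lit 76) (nat_lit 522370730) (nat_lit 293) (nat_lit 5) (nat_lit 302) (nat_lit 5) (nat_lit 294) (nat_lit 5) (nat_lit 582) (nat_lit 508) (nat_lit 470)))))) (XT.nd (nat_lit 390) (nat_lit 1672) (nat_lit 0) (XT.nd (nat_lit 156) (nat_lit 1824) (nat_lit 0) (XT.nd (nat_lit 78) (nat_lit 76) (nat_lit 0) (XT.lf (nat_lit 0) (nat_lit 1132324032) (nat_lit 608) (nat_lit 4901443408) (nat_lit 684) (nat_lit 2561617329) (nat_lit 285) (nat_lit 5) (nat_lit 293) (nat_lit 5) (nat_lit 294) (nat_lit 5) (nat_lit 583) (nat_lit 508) (nat_lit 469)) (XT.lf (nat_lit 0) (nat_lit 673447166) (nat_lit 684) (nat_lit 1043049613) (nat_lit 76) (nat_lit 6954485806) (nat_lit 284) (nat_lit 5) (nat_lit 293) (nat_lit 5) (nat_lit 285) (nat_lit 5) (nat_lit 584) (nat_lit 508) (nat_lit 468))) (XT.nd (nat_lit 78) (nat_lit 1216) (nat_lit 0) (XT.lf (nat_lit 0) (nat_lit 3939023185) (nat_lit 684) (nat_lit 3258393671) (nat_lit 76) (nat_lit 1550335783) (nat_lit 276) (nat_lit 5) (nat_lit 285) (nat_lit 5) (nat_lit 277) (nat_lit 5) (nat_lit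 585) (nat_lit 508) (nat_lit 467)) (XT.nd (nat_lit 78) (nat_lit 684) (nat_lit 0) (XT.lf (nat_lit 0) (nat_lit 3311477827) (nat_lit 532) (nat_lit 3952926061) (nat_lit 608) (nat_lit 1561765453) (nat_lit 269) (nat_lit 5) (nat_lit 276) (nat_lit 5) (nat_lit 277) (nat_lit 5) (nat_lit 586) (nat_lit 508) (nat_lit 466)) (XT.lf (nat_lit 0) (nat_lit 1092645520) (nat_lit 608) (nat_lit 618420448) (nat_lit 684) (nat_lit 7195184587) (nat_lit 260) (nat_lit 5) (nat_lit 268) (nat_lit 5) (nat_lit 269) (nat_lit 5) (nat_lit 587) (nat_lit 508) (nat_lit 465))))) (XT.nd (nat_lit 156) (nat_lit 1140) (nat_lit 0) (XT.nd (nat_lit 78) (nat_lit 532) (nat_lit 0) (XT.lf (nat_lit 0) (nat_lit 5038943127) (nat_lit 684) (nat_lit 1170727794) (nat_lit 76) (nat_lit 2777847029) (nat_lit 260) (nat_lit 5) (nat_lit 269) (nat_lit 5) (nat_lit 261) (nat_lit 5) (nat_lit 588) (nat_lit 508) (nat_lit 464)) (XT.lf (nat_lit 0) (nat_lit 5613989575) (nat_lit 532) (nat_lit 2815975083) (nat_lit 608) (nat_lit 640515325) (nat_lit 253) (nat_lit 5) (nat_lit 260) (nat_lit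 5) (nat_lit 261) (nat_lit 5) (nat_lit 589) (nat_lit 508) (nat_lit 463))) (XT.nd (nat_lit 78) (nat_lit 532) (nat_lit 0) (XT.lf (nat_lit 0) (nat_lit 2688201474) (nat_lit 608) (nat_lit 5798554904) (nat_lit 76) (nat_lit 668183903) (nat_lit 245) (nat_lit 5) (nat_lit 253) (nat_lit 5) (nat_lit 246) (nat_lit 5) (nat_lit 590) (nat_lit 508) (nat_lit 462)) (XT.nd (nat_lit 78) (nat_lit 76) (nat_lit 0) (XT.lf (nat_lit 0) (nat_lit 1041266728) (nat_lit 456) (nat_lit 5038995369) (nat_lit 532) (nat_lit 3160637057) (nat_lit 239) (nat_lit 5) (nat_lit 245) (nat_lit 5) (nat_lit 246) (nat_lit 5) (nat_lit 591) (nat_lit 508) (nat_lit 461)) (XT.lf (nat_lit 0) (nat_lit 204732708) (nat_lit 532) (nat_lit 1294210282) (nat_lit 76) (nat_lit 7829689251) (nat_lit 238) (nat_lit 5) (nat_lit 245) (nat_lit 5) (nat_lit 239) (nat_lit 5) (nat_lit 592) (nat_lit 508) (nat_lit 460))))))) (XT.nd (nat_lit 780) (nat_lit 2888) (nat_lit 0) (XT.nd (nat_lit 390) (nat_lit 1824) (nat_lit 0) (XT.nd (nat_lit 156) (nat_lit 988) (nat_lit 0) (XT.nd (nat_lit 78)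 (nat_lit 456) (nat_lit 0) (XT.lf (nat_lit 0) (nat_lit 3604002861) (nat_lit 608) (nat_lit 3688133570) (nat_lit 76) (nat_lit 2125388353) (nat_lit 231) (nat_lit 5) (nat_lit 239) (nat_lit 5) (nat_lit 232) (nat_lit 5) (nat_lit 593) (nat_lit 508) (nat_lit 459)) (XT.lf (nat_lit 0) (nat_lit 3376896790) (nat_lit 456) (nat_lit 3692884695) (nat_lit 532) (nat_lit 2438444127) (nat_lit 225) (nat_lit 5) (nat_lit 231) (nat_lit 5) (nat_lit 232) (nat_lit 5) (nat_lit 594) (nat_lit 508) (nat_lit 458))) (XT.nd (nat_lit 78) (nat_lit 456) (nat_lit 0) (XT.lf (nat_lit 0) (nat_lit 978571973) (nat_lit 456) (nat_lit 1748273) (nat_lit 532) (nat_lit 8620503589) (nat_lit 218) (nat_lit 5) (nat_lit 224) (nat_lit 5) (nat_lit 225) (nat_lit 5) (nat_lit 595) (nat_lit 508) (nat_lit 457)) (XT.nd (nat_lit 78) (nat_lit 456) (nat_lit 0) (XT.lf (nat_lit 0) (nat_lit 4459087511) (nat_lit 532) (nat_lit 1482388445) (nat_lit 76) (nat_lit 3752990980) (nat_lit 218) (nat_lit 5) (nat_lit 225) (nat_lit 5) (nat_lit 219) (nat_lit 5) (nat_lit 596) (nat_lit 508)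 (nat_lit 456)) (XT.lf (nat_lit 0) (nat_lit 5816878010) (nat_lit 456) (nat_lit 2187544113) (nat_lit 532) (nat_lit 1785621761) (nat_lit 212) (nat_lit 5) (nat_lit 218) (nat_lit 5) (nat_lit 219) (nat_lit 5) (nat_lit 597) (nat_lit 508) (nat_lit 455))))) (XT.nd (nat_lit 156) (nat_lit 912) (nat_lit 0) (XT.nd (nat_lit 78) (nat_lit 380) (nat_lit 0) (XT.lf (nat_lit 0) (nat_lit 1712459696) (nat_lit 532) (nat_lit 6530379322) (nat_lit 76) (nat_lit 1644427914) (nat_lit 205) (nat_lit 5) (nat_lit 212) (nat_lit 5) (nat_lit 206) (nat_lit 5) (nat_lit 598) (nat_lit 508) (nat_lit 454)) (XT.lf (nat_lit 0) (nat_lit 825731458) (nat_lit 380) (nat_lit 4437217513) (nat_lit 456) (nat_lit 4723123074) (nat_lit 200) (nat_lit 5) (nat_lit 205) (nat_lit 5) (nat_lit 206) (nat_lit 5) (nat_lit 599) (nat_lit 508) (nat_lit 453))) (XT.nd (nat_lit 78) (nat_lit 912) (nat_lit 0) (XT.lf (nat_lit 0) (nat_lit 8357773405) (nat_lit 380) (nat_lit 530546932) (nat_lit 456) (nat_lit 1198456242) (nat_lit 200) (nat_lit 5) (nat_lit 205) (nat_lit 5) (nat_lit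 206) (nat_lit 5) (nat_lit 600) (nat_lit 508) (nat_lit 452)) (XT.nd (nat_lit 78) (nat_lit 380) (nat_lit 0) (XT.lf (nat_lit 0) (nat_lit 2386500697) (nat_lit 532) (nat_lit 4358769244) (nat_lit 76) (nat_lit 3443490175) (nat_lit 193) (nat_lit 5) (nat_lit 200) (nat_lit 5) (nat_lit 194) (nat_lit 5) (nat_lit 601) (nat_lit 508) (nat_lit 451)) (XT.lf (nat_lit 0) (nat_lit 3242721083) (nat_lit 380) (nat_lit 2781487979) (nat_lit 456) (nat_lit 4268474552) (nat_lit 188) (nat_lit 5) (nat_lit 193) (nat_lit 5) (nat_lit 194) (nat_lit 5) (nat_lit 602) (nat_lit 508) (nat_lit 450)))))) (XT.nd (nat_lit 390) (nat_lit 1216) (nat_lit 0) (XT.nd (nat_lit 156) (nat_lit 1216) (nat_lit 0) (XT.nd (nat_lit 78) (nat_lit 76) (nat_lit 0) (XT.lf (nat_lit 0) (nat_lit 597084906) (nat_lit 380) (nat_lit 9140189737) (nat_lit 456) (nat_lit 661359583) (nat_lit 183) (nat_lit 5) (nat_lit 188) (nat_lit 5) (nat_lit 189) (nat_lit 5) (nat_lit 603) (nat_lit 508) (nat_lit 449)) (XT.lf (nat_lit 0) (nat_lit 3005574947) (nat_lit 456) (nat_lit 2111158531) (nat_lit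 76) (nat_lit 5389034013) (nat_lit 182) (nat_lit 5) (nat_lit 188) (nat_lit 5) (nat_lit 183) (nat_lit 5) (nat_lit 604) (nat_lit 508) (nat_lit 448))) (XT.nd (nat_lit 78) (nat_lit 836) (nat_lit 0) (XT.lf (nat_lit 0) (nat_lit 5745473613) (nat_lit 380) (nat_lit 990805966) (nat_lit 456) (nat_lit 3878691336) (nat_lit 177) (nat_lit 5) (nat_lit 182) (nat_lit 5) (nat_lit 183) (nat_lit 5) (nat_lit 605) (nat_lit 508) (nat_lit 447)) (XT.nd (nat_lit 78) (nat_lit 456) (nat_lit 0) (XT.lf (nat_lit 0) (nat_lit 3021650166) (nat_lit 380) (nat_lit 7536928787) (nat_lit 456) (nat_lit 167440491) (nat_lit 172) (nat_lit 5) (nat_lit 177) (nat_lit 5) (nat_lit 178) (nat_lit 5) (nat_lit 606) (nat_lit 508) (nat_lit 446)) (XT.lf (nat_lit 0) (nat_lit 211609340) (nat_lit 380) (nat_lit 3362127291) (nat_lit 456) (nat_lit 7265020077) (nat_lit 166) (nat_lit 5) (nat_lit 171) (nat_lit 5) (nat_lit 172) (nat_lit 5) (nat_lit 607) (nat_lit 508) (nat_lit 445))))) (XT.nd (nat_lit 156) (nat_lit 760) (nat_lit 0) (XT.nd (nat_lit 78) (nat_lit 456) (nat_lit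 0) (XT.lf (nat_lit 0) (nat_lit 7407903643) (nat_lit 456) (nat_lit 2628753936) (nat_lit 76) (nat_lit 916661447) (nat_lit 166) (nat_lit 5) (nat_lit 172) (nat_lit 5) (nat_lit 167) (nat_lit 5) (nat_lit 608) (nat_lit 508) (nat_lit 444)) (XT.lf (nat_lit 0) (nat_lit 266858703) (nat_lit 456) (nat_lit 5549692447) (nat_lit 76) (nat_lit 5253159003) (nat_lit 160) (nat_lit 5) (nat_lit 166) (nat_lit 5) (nat_lit 161) (nat_lit 5) (nat_lit 609) (nat_lit 508) (nat_lit 443))) (XT.nd (nat_lit 78) (nat_lit 456) (nat_lit 0) (XT.lf (nat_lit 0) (nat_lit 2632188591) (nat_lit 304) (nat_lit 1473992152) (nat_lit 380) (nat_lit 7081814719) (nat_lit 156) (nat_lit 5) (nat_lit 160) (nat_lit 5) (nat_lit 161) (nat_lit 5) (nat_lit 610) (nat_lit 508) (nat_lit 442)) (XT.nd (nat_lit 78) (nat_lit 456) (nat_lit 0) (XT.lf (nat_lit 0) (nat_lit 8042554409) (nat_lit 380) (nat_lit 332665683) (nat_lit 76) (nat_lit 2933021650) (nat_lit 156) (nat_lit 5) (nat_lit 161) (nat_lit 5) (nat_lit 157) (nat_lit 5) (nat_lit 611) (nat_lit 508) (nat_lit 441)) (XT.lf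 (nat_lit 0) (nat_lit 645335362) (nat_lit 456) (nat_lit 3340394176) (nat_lit 76) (nat_lit 7444546710) (nat_lit 150) (nat_lit 5) (nat_lit 156) (nat_lit 5) (nat_lit 151) (nat_lit 5) (nat_lit 612) (nat_lit 508) (nat_lit 440))))))))
noncomputable def xc41 : XT := (XT.nd (nat_lit 76440) (nat_lit 0) (nat_lit 19380) (XT.nd (nat_lit 75660) (nat_lit 0) (nat_lit 37772) (XT.nd (nat_lit 390) (nat_lit 1368) (nat_lit 0) (XT.nd (nat_lit 156) (nat_lit 684) (nat_lit 0) (XT.nd (nat_lit 78) (nat_lit 380) (nat_lit 0) (XT.lf (nat_lit 0) (nat_lit 4594203355) (nat_lit 380) (nat_lit 6438792631) (nat_lit 76) (nat_lit 521257217) (nat_lit 146) (nat_lit 5) (nat_lit 151) (nat_lit 5) (nat_lit 147) (nat_lit 5) (nat_lit 613) (nat_lit 508) (nat_lit 439)) (XT.lf (nat_lit 0) (nat_lit 2048363051) (nat_lit 380) (nat_lit 6600533118) (nat_lit 456) (nat_lit 3031277105) (nat_lit 141) (nat_lit 5) (nat_lit 146) (nat_lit 5) (nat_lit 147) (nat_lit 5) (nat_lit 614) (nat_lit 508) (nat_lit 438))) (XT.nd (nat_lit 78) (nat_lit 608) (nat_lit 0) (XT.lf (nat_lit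 0) (nat_lit 971443082) (nat_lit 456) (nat_lit 1079330412) (nat_lit 76) (nat_lit 9757548543) (nat_lit 140) (nat_lit 5) (nat_lit 146) (nat_lit 5) (nat_lit 141) (nat_lit 5) (nat_lit 615) (nat_lit 508) (nat_lit 437)) (XT.nd (nat_lit 78) (nat_lit 304) (nat_lit 0) (XT.lf (nat_lit 0) (nat_lit 5045964074) (nat_lit 380) (nat_lit 4287144477) (nat_lit 76) (nat_lit 2604878278) (nat_lit 136) (nat_lit 5) (nat_lit 141) (nat_lit 5) (nat_lit 137) (nat_lit 5) (nat_lit 616) (nat_lit 508) (nat_lit 436)) (XT.lf (nat_lit 0) (nat_lit 4488843546) (nat_lit 304) (nat_lit 4728695227) (nat_lit 380) (nat_lit 2852395362) (nat_lit 132) (nat_lit 5) (nat_lit 136) (nat_lit 5) (nat_lit 137) (nat_lit 5) (nat_lit 617) (nat_lit 508) (nat_lit 435))))) (XT.nd (nat_lit 156) (nat_lit 988) (nat_lit 0) (XT.nd (nat_lit 78) (nat_lit 0) (nat_lit 0) (XT.lf (nat_lit 0) (nat_lit 1245801726) (nat_lit 304) (nat_lit 8271432) (nat_lit 380) (nat_lit 10950229457) (nat_lit 127) (nat_lit 5) (nat_lit 131) (nat_lit 5) (nat_lit 132) (nat_lit 5) (nat_lit 618) (nat_lit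 508) (nat_lit 434)) (XT.lf (nat_lit 0) (nat_lit 5452725918) (nat_lit 380) (nat_lit 2095578201) (nat_lit 76) (nat_lit 4791712747) (nat_lit 127) (nat_lit 5) (nat_lit 132) (nat_lit 5) (nat_lit 128) (nat_lit 5) (nat_lit 619) (nat_lit 508) (nat_lit 433))) (XT.nd (nat_lit 78) (nat_lit 684) (nat_lit 0) (XT.lf (nat_lit 0) (nat_lit 6980412788) (nat_lit 304) (nat_lit 2766781213) (nat_lit 380) (nat_lit 2731015000) (nat_lit 123) (nat_lit 5) (nat_lit 127) (nat_lit 5) (nat_lit 128) (nat_lit 5) (nat_lit 620) (nat_lit 508) (nat_lit 432)) (XT.nd (nat_lit 78) (nat_lit 304) (nat_lit 0) (XT.lf (nat_lit 0) (nat_lit 1506739326) (nat_lit 380) (nat_lit 9003359879) (nat_lit 76) (nat_lit 2108507624) (nat_lit 118) (nat_lit 5) (nat_lit 123) (nat_lit 5) (nat_lit 119) (nat_lit 5) (nat_lit 621) (nat_lit 508) (nat_lit 431)) (XT.lf (nat_lit 0) (nat_lit 133177559) (nat_lit 304) (nat_lit 5682558042) (nat_lit 380) (nat_lit 6945255289) (nat_lit 114) (nat_lit 5) (nat_lit 118) (nat_lit 5) (nat_lit 119) (nat_lit 5) (nat_lit 622) (nat_lit 508)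 (nat_lit 430)))))) (XT.nd (nat_lit 390) (nat_lit 4028) (nat_lit 0) (XT.nd (nat_lit 156) (nat_lit 2356) (nat_lit 0) (XT.nd (nat_lit 78) (nat_lit 988) (nat_lit 0) (XT.lf (nat_lit 0) (nat_lit 1207865107) (nat_lit 988) (nat_lit 920317156) (nat_lit 0) (nat_lit 1207865107) (nat_lit 708) (nat_lit 5) (nat_lit 721) (nat_lit 4) (nat_lit 708) (nat_lit 4) (nat_lit 542) (nat_lit 509) (nat_lit 509)) (XT.lf (nat_lit 0) (nat_lit 2557807071) (nat_lit 988) (nat_lit 3192234465) (nat_lit 988) (nat_lit 943629366) (nat_lit 695) (nat_lit 4) (nat_lit 708) (nat_lit 5) (nat_lit 708) (nat_lit 4) (nat_lit 543) (nat_lit 509) (nat_lit 508))) (XT.nd (nat_lit 78) (nat_lit 1216) (nat_lit 0) (XT.lf (nat_lit 0) (nat_lit 282456981) (nat_lit 1064) (nat_lit 2061888010) (nat_lit 1140) (nat_lit 4372202367) (nat_lit 680) (nat_lit 5) (nat_lit 694) (nat_lit 5) (nat_lit 695) (nat_lit 4) (nat_lit 544) (nat_lit 509) (nat_lit 507)) (XT.nd (nat_lit 78) (nat_lit 1216) (nat_lit 0) (XT.lf (nat_lit 0) (nat_lit 4780173707) (nat_lit 1064) (nat_lit 860708784)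 (nat_lit 1140) (nat_lit 1099768763) (nat_lit 680) (nat_lit 5) (nat_lit 694) (nat_lit 5) (nat_lit 695) (nat_lit 4) (nat_lit 545) (nat_lit 509) (nat_lit 506)) (XT.lf (nat_lit 0) (nat_lit 2156717582) (nat_lit 1216) (nat_lit 4205508651) (nat_lit 76) (nat_lit 403764521) (nat_lit 664) (nat_lit 5) (nat_lit 680) (nat_lit 5) (nat_lit 665) (nat_lit 4) (nat_lit 546) (nat_lit 509) (nat_lit 505))))) (XT.nd (nat_lit 156) (nat_lit 2736) (nat_lit 0) (XT.nd (nat_lit 78) (nat_lit 76) (nat_lit 0) (XT.lf (nat_lit 0) (nat_lit 338627204) (nat_lit 1216) (nat_lit 5075895711) (nat_lit 1292) (nat_lit 1378153674) (nat_lit 648) (nat_lit 5) (nat_lit 664) (nat_lit 5) (nat_lit 665) (nat_lit 4) (nat_lit 547) (nat_lit 509) (nat_lit 504)) (XT.lf (nat_lit 0) (nat_lit 1851137643) (nat_lit 1292) (nat_lit 1861459022) (nat_lit 76) (nat_lit 3107879603) (nat_lit 647) (nat_lit 5) (nat_lit 664) (nat_lit 5) (nat_lit 648) (nat_lit 5) (nat_lit 548) (nat_lit 509) (nat_lit 503))) (XT.nd (nat_lit 78) (nat_lit 1444) (nat_lit 0) (XT.lf (nat_lit 0) (nat_lit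 2791503940) (nat_lit 1292) (nat_lit 2284856632) (nat_lit 1368) (nat_lit 1773296241) (nat_lit 630) (nat_lit 5) (nat_lit 647) (nat_lit 5) (nat_lit 648) (nat_lit 5) (nat_lit 549) (nat_lit 509) (nat_lit 502)) (XT.nd (nat_lit 78) (nat_lit 0) (nat_lit 0) (XT.lf (nat_lit 0) (nat_lit 622537220) (nat_lit 1368) (nat_lit 793416142) (nat_lit 1444) (nat_lit 5464301804) (nat_lit 611) (nat_lit 5) (nat_lit 629) (nat_lit 5) (nat_lit 630) (nat_lit 5) (nat_lit 550) (nat_lit 509) (nat_lit 501)) (XT.lf (nat_lit 0) (nat_lit 4610569382) (nat_lit 1444) (nat_lit 1536199917) (nat_lit 76) (nat_lit 765158112) (nat_lit 611) (nat_lit 5) (nat_lit 630) (nat_lit 5) (nat_lit 612) (nat_lit 5) (nat_lit 551) (nat_lit 509) (nat_lit 500))))))) (XT.nd (nat_lit 780) (nat_lit 7068) (nat_lit 0) (XT.nd (nat_lit 390) (nat_lit 4940) (nat_lit 0) (XT.nd (nat_lit 156) (nat_lit 3344) (nat_lit 0) (XT.nd (nat_lit 78) (nat_lit 1520) (nat_lit 0) (XT.lf (nat_lit 0) (nat_lit 873336081) (nat_lit 1520) (nat_lit 3692835431) (nat_lit 76) (nat_lit 2378731840) (nat_lit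 591) (nat_lit 5) (nat_lit 611) (nat_lit 5) (nat_lit 592) (nat_lit 5) (nat_lit 552) (nat_lit 509) (nat_lit 499)) (XT.lf (nat_lit 0) (nat_lit 1118177075) (nat_lit 1520) (nat_lit 2915144966) (nat_lit 1596) (nat_lit 2945862975) (nat_lit 571) (nat_lit 5) (nat_lit 591) (nat_lit 5) (nat_lit 592) (nat_lit 5) (nat_lit 553) (nat_lit 509) (nat_lit 498))) (XT.nd (nat_lit 78) (nat_lit 3268) (nat_lit 0) (XT.lf (nat_lit 0) (nat_lit 199531752) (nat_lit 1596) (nat_lit 1000165936) (nat_lit 76) (nat_lit 5815218660) (nat_lit 570) (nat_lit 5) (nat_lit 591) (nat_lit 5) (nat_lit 571) (nat_lit 5) (nat_lit 554) (nat_lit 509) (nat_lit 497)) (XT.nd (nat_lit 78) (nat_lit 1672) (nat_lit 0) (XT.lf (nat_lit 0) (nat_lit 3334521658) (nat_lit 1672) (nat_lit 3124747518) (nat_lit 76) (nat_lit 592383592) (nat_lit 549) (nat_lit 5) (nat_lit 571) (nat_lit 5) (nat_lit 550) (nat_lit 5) (nat_lit 555) (nat_lit 509) (nat_lit 496)) (XT.lf (nat_lit 0) (nat_lit 1833193400) (nat_lit 1672) (nat_lit 4663183102) (nat_lit 1748) (nat_lit 593466615) (nat_lit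 527) (nat_lit 5) (nat_lit 549) (nat_lit 5) (nat_lit 550) (nat_lit 5) (nat_lit 556) (nat_lit 509) (nat_lit 495))))) (XT.nd (nat_lit 156) (nat_lit 3116) (nat_lit 0) (XT.nd (nat_lit 78) (nat_lit 1748) (nat_lit 0) (XT.lf (nat_lit 0) (nat_lit 2517764377) (nat_lit 1748) (nat_lit 273077797) (nat_lit 76) (nat_lit 4338438904) (nat_lit 526) (nat_lit 5) (nat_lit 549) (nat_lit 5) (nat_lit 527) (nat_lit 5) (nat_lit 557) (nat_lit 509) (nat_lit 494)) (XT.lf (nat_lit 0) (nat_lit 4810127272) (nat_lit 1748) (nat_lit 843589054) (nat_lit 1824) (nat_lit 1516306515) (nat_lit 503) (nat_lit 5) (nat_lit 526) (nat_lit 5) (nat_lit 527) (nat_lit 5) (nat_lit 558) (nat_lit 509) (nat_lit 493))) (XT.nd (nat_lit 78) (nat_lit 1216) (nat_lit 0) (XT.lf (nat_lit 0) (nat_lit 1586247604) (nat_lit 1900) (nat_lit 4466819884) (nat_lit 76) (nat_lit 1158961971) (nat_lit 478) (nat_lit 5) (nat_lit 503) (nat_lit 5) (nat_lit 479) (nat_lit 5) (nat_lit 559) (nat_lit 509) (nat_lit 492)) (XT.nd (nat_lit 78) (nat_lit 76) (nat_lit 0) (XT.lf (nat_lit 0) (nat_lit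 662387164) (nat_lit 1140) (nat_lit 4034427178) (nat_lit 1216) (nat_lit 2558538334) (nat_lit 463) (nat_lit 5) (nat_lit 478) (nat_lit 5) (nat_lit 479) (nat_lit 5) (nat_lit 560) (nat_lit 509) (nat_lit 491)) (XT.lf (nat_lit 0) (nat_lit 533551555) (nat_lit 1216) (nat_lit 1408919783) (nat_lit 76) (nat_lit 5357579577) (nat_lit 462) (nat_lit 5) (nat_lit 478) (nat_lit 5) (nat_lit 463) (nat_lit 5) (nat_lit 561) (nat_lit 509) (nat_lit 490)))))) (XT.nd (nat_lit 390) (nat_lit 3344) (nat_lit 0) (XT.nd (nat_lit 156) (nat_lit 1900) (nat_lit 0) (XT.nd (nat_lit 78) (nat_lit 912) (nat_lit 0) (XT.lf (nat_lit 0) (nat_lit 3621746358) (nat_lit 988) (nat_lit 3494696046) (nat_lit 76) (nat_lit 229494130) (nat_lit 450) (nat_lit 5) (nat_lit 463) (nat_lit 5) (nat_lit 451) (nat_lit 5) (nat_lit 562) (nat_lit 509) (nat_lit 489)) (XT.lf (nat_lit 0) (nat_lit 1793390246) (nat_lit 912) (nat_lit 4955046077) (nat_lit 988) (nat_lit 644770968) (nat_lit 438) (nat_lit 5) (nat_lit 450) (nat_lit 5) (nat_lit 451) (nat_lit 5) (nat_lit 563) (nat_lit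 509) (nat_lit 488))) (XT.nd (nat_lit 78) (nat_lit 1824) (nat_lit 0) (XT.lf (nat_lit 0) (nat_lit 2430168288) (nat_lit 988) (nat_lit 283423930) (nat_lit 76) (nat_lit 4728175670) (nat_lit 437) (nat_lit 5) (nat_lit 450) (nat_lit 5) (nat_lit 438) (nat_lit 5) (nat_lit 564) (nat_lit 509) (nat_lit 487)) (XT.nd (nat_lit 78) (nat_lit 988) (nat_lit 0) (XT.lf (nat_lit 0) (nat_lit 5142951549) (nat_lit 836) (nat_lit 392600919) (nat_lit 912) (nat_lit 1956112331) (nat_lit 426) (nat_lit 5) (nat_lit 437) (nat_lit 5) (nat_lit 438) (nat_lit 5) (nat_lit 565) (nat_lit 509) (nat_lit 486)) (XT.lf (nat_lit 0) (nat_lit 1124901614) (nat_lit 988) (nat_lit 4443491646) (nat_lit 76) (nat_lit 1974424817) (nat_lit 413) (nat_lit 5) (nat_lit 426) (nat_lit 5) (nat_lit 414) (nat_lit 5) (nat_lit 566) (nat_lit 509) (nat_lit 485))))) (XT.nd (nat_lit 234) (nat_lit 1596) (nat_lit 0) (XT.nd (nat_lit 78) (nat_lit 912) (nat_lit 0) (XT.lf (nat_lit 0) (nat_lit 1030798906) (nat_lit 836) (nat_lit 3180922057) (nat_lit 912) (nat_lit 3383609133) (nat_lit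 402) (nat_lit 5) (nat_lit 413) (nat_lit 5) (nat_lit 414) (nat_lit 5) (nat_lit 567) (nat_lit 509) (nat_lit 484)) (XT.nd (nat_lit 78) (nat_lit 912) (nat_lit 0) (XT.lf (nat_lit 0) (nat_lit 6614659728) (nat_lit 836) (nat_lit 721314094) (nat_lit 912) (nat_lit 313406375) (nat_lit 402) (nat_lit 5) (nat_lit 413) (nat_lit 5) (nat_lit 414) (nat_lit 5) (nat_lit 568) (nat_lit 509) (nat_lit 483)) (XT.lf (nat_lit 0) (nat_lit 2769497118) (nat_lit 912) (nat_lit 3128623584) (nat_lit 76) (nat_lit 1806261208) (nat_lit 390) (nat_lit 5) (nat_lit 402) (nat_lit 5) (nat_lit 391) (nat_lit 5) (nat_lit 569) (nat_lit 509) (nat_lit 482)))) (XT.nd (nat_lit 78) (nat_lit 836) (nat_lit 0) (XT.lf (nat_lit 0) (nat_lit 2517950734) (nat_lit 760) (nat_lit 3367236952) (nat_lit 836) (nat_lit 1875749710) (nat_lit 380) (nat_lit 5) (nat_lit 390) (nat_lit 5) (nat_lit 391) (nat_lit 5) (nat_lit 570) (nat_lit 509) (nat_lit 481)) (XT.nd (nat_lit 78) (nat_lit 0) (nat_lit 0) (XT.lf (nat_lit 0) (nat_lit 438589803) (nat_lit 760) (nat_lit 761143107) (nat_lit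 836) (nat_lit 6619301338) (nat_lit 369) (nat_lit 5) (nat_lit 379) (nat_lit 5) (nat_lit 380) (nat_lit 5) (nat_lit 571) (nat_lit 509) (nat_lit 480)) (XT.lf (nat_lit 0) (nat_lit 4307456017) (nat_lit 836) (nat_lit 1658884050) (nat_lit 76) (nat_lit 1911789642) (nat_lit 369) (nat_lit 5) (nat_lit 380) (nat_lit 5) (nat_lit 370) (nat_lit 5) (nat_lit 572) (nat_lit 509) (nat_lit 479))))))))
noncomputable def xc42 : XT := (XT.nd (nat_lit 1560) (nat_lit 6992) (nat_lit 0) (XT.nd (nat_lit 780) (nat_lit 4180) (nat_lit 0) (XT.nd (nat_lit 390) (nat_lit 2736) (nat_lit 0) (XT.nd (nat_lit 156) (nat_lit 1444) (nat_lit 0) (XT.nd (nat_lit 78) (nat_lit 836) (nat_lit 0) (XT.lf (nat_lit 0) (nat_lit 4166723712) (nat_lit 760) (nat_lit 3291811912) (nat_lit 836) (nat_lit 480248969) (nat_lit 359) (nat_lit 5) (nat_lit 369) (nat_lit 5) (nat_lit 370) (nat_lit 5) (nat_lit 573) (nat_lit 509) (nat_lit 478)) (XT.lf (nat_lit 0) (nat_lit 2080494385) (nat_lit 760) (nat_lit 530544640) (nat_lit 836) (nat_lit 5389786112) (nat_lit 348) (nat_lit 5) (nat_lit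 358) (nat_lit 5) (nat_lit 359) (nat_lit 5) (nat_lit 574) (nat_lit 509) (nat_lit 477))) (XT.nd (nat_lit 78) (nat_lit 1444) (nat_lit 0) (XT.lf (nat_lit 0) (nat_lit 5747974657) (nat_lit 836) (nat_lit 41369303) (nat_lit 76) (nat_lit 2274895459) (nat_lit 348) (nat_lit 5) (nat_lit 359) (nat_lit 5) (nat_lit 349) (nat_lit 5) (nat_lit 575) (nat_lit 509) (nat_lit 476)) (XT.nd (nat_lit 78) (nat_lit 684) (nat_lit 0) (XT.lf (nat_lit 0) (nat_lit 801125892) (nat_lit 760) (nat_lit 2163989138) (nat_lit 76) (nat_lit 5163839319) (nat_lit 338) (nat_lit 5) (nat_lit 348) (nat_lit 5) (nat_lit 339) (nat_lit 5) (nat_lit 576) (nat_lit 509) (nat_lit 475)) (XT.lf (nat_lit 0) (nat_lit 3872600747) (nat_lit 684) (nat_lit 53862399) (nat_lit 760) (nat_lit 4268663332) (nat_lit 329) (nat_lit 5) (nat_lit 338) (nat_lit 5) (nat_lit 339) (nat_lit 5) (nat_lit 577) (nat_lit 509) (nat_lit 474))))) (XT.nd (nat_lit 156) (nat_lit 1976) (nat_lit 0) (XT.nd (nat_lit 78) (nat_lit 76) (nat_lit 0) (XT.lf (nat_lit 0) (nat_lit 1740346051) (nat_lit 684) (nat_lit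 5370468586) (nat_lit 760) (nat_lit 1151878617) (nat_lit 320) (nat_lit 5) (nat_lit 329) (nat_lit 5) (nat_lit 330) (nat_lit 5) (nat_lit 578) (nat_lit 509) (nat_lit 473)) (XT.lf (nat_lit 0) (nat_lit 1982110268) (nat_lit 760) (nat_lit 422294164) (nat_lit 76) (nat_lit 5927315868) (nat_lit 319) (nat_lit 5) (nat_lit 329) (nat_lit 5) (nat_lit 320) (nat_lit 5) (nat_lit 579) (nat_lit 509) (nat_lit 472))) (XT.nd (nat_lit 78) (nat_lit 1292) (nat_lit 0) (XT.lf (nat_lit 0) (nat_lit 5158181250) (nat_lit 760) (nat_lit 2597533195) (nat_lit 76) (nat_lit 646365920) (nat_lit 310) (nat_lit 5) (nat_lit 320) (nat_lit 5) (nat_lit 311) (nat_lit 5) (nat_lit 580) (nat_lit 509) (nat_lit 471)) (XT.nd (nat_lit 78) (nat_lit 684) (nat_lit 0) (XT.lf (nat_lit 0) (nat_lit 3660025185) (nat_lit 608) (nat_lit 4733592203) (nat_lit 684) (nat_lit 80314620) (nat_lit 302) (nat_lit 5) (nat_lit 310) (nat_lit 5) (nat_lit 311) (nat_lit 5) (nat_lit 581) (nat_lit 509) (nat_lit 470)) (XT.lf (nat_lit 0) (nat_lit 1469685043) (nat_lit 608) (nat_lit 1616204458)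 (nat_lit 684) (nat_lit 5461311489) (nat_lit 293) (nat_lit 5) (nat_lit 301) (nat_lit 5) (nat_lit 302) (nat_lit 5) (nat_lit 582) (nat_lit 509) (nat_lit 469)))))) (XT.nd (nat_lit 390) (nat_lit 2280) (nat_lit 0) (XT.nd (nat_lit 156) (nat_lit 1216) (nat_lit 0) (XT.nd (nat_lit 78) (nat_lit 684) (nat_lit 0) (XT.lf (nat_lit 0) (nat_lit 6310973588) (nat_lit 684) (nat_lit 748537464) (nat_lit 76) (nat_lit 1562482234) (nat_lit 293) (nat_lit 5) (nat_lit 302) (nat_lit 5) (nat_lit 294) (nat_lit 5) (nat_lit 583) (nat_lit 509) (nat_lit 468)) (XT.lf (nat_lit 0) (nat_lit 893113111) (nat_lit 684) (nat_lit 2992242011) (nat_lit 76) (nat_lit 4812756901) (nat_lit 284) (nat_lit 5) (nat_lit 293) (nat_lit 5) (nat_lit 285) (nat_lit 5) (nat_lit 584) (nat_lit 509) (nat_lit 467))) (XT.nd (nat_lit 78) (nat_lit 608) (nat_lit 0) (XT.lf (nat_lit 0) (nat_lit 3494782514) (nat_lit 608) (nat_lit 618446388) (nat_lit 684) (nat_lit 4662562930) (nat_lit 276) (nat_lit 5) (nat_lit 284) (nat_lit 5) (nat_lit 285) (nat_lit 5) (nat_lit 585) (nat_lit 509)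 (nat_lit 466)) (XT.nd (nat_lit 78) (nat_lit 76) (nat_lit 0) (XT.lf (nat_lit 0) (nat_lit 1235965826) (nat_lit 532) (nat_lit 6163108339) (nat_lit 608) (nat_lit 1455925618) (nat_lit 269) (nat_lit 5) (nat_lit 276) (nat_lit 5) (nat_lit 277) (nat_lit 5) (nat_lit 586) (nat_lit 509) (nat_lit 465)) (XT.lf (nat_lit 0) (nat_lit 1786474861) (nat_lit 608) (nat_lit 1056502219) (nat_lit 76) (nat_lit 6092671547) (nat_lit 268) (nat_lit 5) (nat_lit 276) (nat_lit 5) (nat_lit 269) (nat_lit 5) (nat_lit 587) (nat_lit 509) (nat_lit 464))))) (XT.nd (nat_lit 156) (nat_lit 1140) (nat_lit 0) (XT.nd (nat_lit 78) (nat_lit 532) (nat_lit 0) (XT.lf (nat_lit 0) (nat_lit 5071150428) (nat_lit 684) (nat_lit 3378939096) (nat_lit 76) (nat_lit 567691039) (nat_lit 260) (nat_lit 5) (nat_lit 269) (nat_lit 5) (nat_lit 261) (nat_lit 5) (nat_lit 588) (nat_lit 509) (nat_lit 463)) (XT.lf (nat_lit 0) (nat_lit 3346654070) (nat_lit 532) (nat_lit 5079461950) (nat_lit 608) (nat_lit 675348193) (nat_lit 253) (nat_lit 5) (nat_lit 260) (nat_lit 5) (nat_lit 261)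 (nat_lit 5) (nat_lit 589) (nat_lit 509) (nat_lit 462))) (XT.nd (nat_lit 78) (nat_lit 532) (nat_lit 0) (XT.lf (nat_lit 0) (nat_lit 1002366294) (nat_lit 532) (nat_lit 1610503871) (nat_lit 608) (nat_lit 6573878453) (nat_lit 245) (nat_lit 5) (nat_lit 252) (nat_lit 5) (nat_lit 253) (nat_lit 5) (nat_lit 590) (nat_lit 509) (nat_lit 461)) (XT.nd (nat_lit 78) (nat_lit 532) (nat_lit 0) (XT.lf (nat_lit 0) (nat_lit 5966640185) (nat_lit 608) (nat_lit 1377411102) (nat_lit 76) (nat_lit 1929422486) (nat_lit 245) (nat_lit 5) (nat_lit 253) (nat_lit 5) (nat_lit 246) (nat_lit 5) (nat_lit 591) (nat_lit 509) (nat_lit 460)) (XT.lf (nat_lit 0) (nat_lit 30341511) (nat_lit 532) (nat_lit 3792674620) (nat_lit 76) (nat_lit 5538812404) (nat_lit 238) (nat_lit 5) (nat_lit 245) (nat_lit 5) (nat_lit 239) (nat_lit 5) (nat_lit 592) (nat_lit 509) (nat_lit 459))))))) (XT.nd (nat_lit 780) (nat_lit 3572) (nat_lit 0) (XT.nd (nat_lit 390) (nat_lit 1444) (nat_lit 0) (XT.nd (nat_lit 156) (nat_lit 988) (nat_lit 0) (XT.nd (nat_lit 78) (nat_lit 456)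 (nat_lit 0) (XT.lf (nat_lit 0) (nat_lit 3182446899) (nat_lit 532) (nat_lit 195974334) (nat_lit 608) (nat_lit 6073324098) (nat_lit 231) (nat_lit 5) (nat_lit 238) (nat_lit 5) (nat_lit 239) (nat_lit 5) (nat_lit 593) (nat_lit 509) (nat_lit 458)) (XT.lf (nat_lit 0) (nat_lit 733017516) (nat_lit 456) (nat_lit 6072325224) (nat_lit 532) (nat_lit 2737880994) (nat_lit 225) (nat_lit 5) (nat_lit 231) (nat_lit 5) (nat_lit 232) (nat_lit 5) (nat_lit 594) (nat_lit 509) (nat_lit 457))) (XT.nd (nat_lit 78) (nat_lit 912) (nat_lit 0) (XT.lf (nat_lit 0) (nat_lit 658115174) (nat_lit 532) (nat_lit 1740585189) (nat_lit 76) (nat_lit 7237694802) (nat_lit 224) (nat_lit 5) (nat_lit 231) (nat_lit 5) (nat_lit 225) (nat_lit 5) (nat_lit 595) (nat_lit 509) (nat_lit 456)) (XT.nd (nat_lit 78) (nat_lit 456) (nat_lit 0) (XT.lf (nat_lit 0) (nat_lit 4089601392) (nat_lit 532) (nat_lit 4274379604) (nat_lit 76) (nat_lit 1367003298) (nat_lit 218) (nat_lit 5) (nat_lit 225) (nat_lit 5) (nat_lit 219) (nat_lit 5) (nat_lit 596) (nat_lit 509) (nat_lit 455))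 (XT.lf (nat_lit 0) (nat_lit 2958436484) (nat_lit 456) (nat_lit 4638145142) (nat_lit 532) (nat_lit 2230747104) (nat_lit 212) (nat_lit 5) (nat_lit 218) (nat_lit 5) (nat_lit 219) (nat_lit 5) (nat_lit 597) (nat_lit 509) (nat_lit 454))))) (XT.nd (nat_lit 156) (nat_lit 912) (nat_lit 0) (XT.nd (nat_lit 78) (nat_lit 0) (nat_lit 0) (XT.lf (nat_lit 0) (nat_lit 407222786) (nat_lit 456) (nat_lit 816183752) (nat_lit 532) (nat_lit 8702198741) (nat_lit 205) (nat_lit 5) (nat_lit 211) (nat_lit 5) (nat_lit 212) (nat_lit 5) (nat_lit 598) (nat_lit 509) (nat_lit 453)) (XT.lf (nat_lit 0) (nat_lit 4743650120) (nat_lit 532) (nat_lit 2196974858) (nat_lit 76) (nat_lit 3084390706) (nat_lit 205) (nat_lit 5) (nat_lit 212) (nat_lit 5) (nat_lit 206) (nat_lit 5) (nat_lit 599) (nat_lit 509) (nat_lit 452))) (XT.nd (nat_lit 78) (nat_lit 532) (nat_lit 0) (XT.lf (nat_lit 0) (nat_lit 5276889638) (nat_lit 380) (nat_lit 3058288637) (nat_lit 456) (nat_lit 1791219176) (nat_lit 200) (nat_lit 5) (nat_lit 205) (nat_lit 5) (nat_lit 206) (nat_lit 5)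 (nat_lit 600) (nat_lit 509) (nat_lit 451)) (XT.nd (nat_lit 78) (nat_lit 0) (nat_lit 0) (XT.lf (nat_lit 0) (nat_lit 1745047360) (nat_lit 532) (nat_lit 7569750758) (nat_lit 76) (nat_lit 914789490) (nat_lit 193) (nat_lit 5) (nat_lit 200) (nat_lit 5) (nat_lit 194) (nat_lit 5) (nat_lit 601) (nat_lit 509) (nat_lit 450)) (XT.lf (nat_lit 0) (nat_lit 5342694744) (nat_lit 532) (nat_lit 39585271) (nat_lit 76) (nat_lit 4952032659) (nat_lit 193) (nat_lit 5) (nat_lit 200) (nat_lit 5) (nat_lit 194) (nat_lit 5) (nat_lit 602) (nat_lit 509) (nat_lit 449)))))) (XT.nd (nat_lit 390) (nat_lit 1900) (nat_lit 0) (XT.nd (nat_lit 156) (nat_lit 836) (nat_lit 0) (XT.nd (nat_lit 78) (nat_lit 456) (nat_lit 0) (XT.lf (nat_lit 0) (nat_lit 7684945656) (nat_lit 380) (nat_lit 1339603704) (nat_lit 456) (nat_lit 1416338487) (nat_lit 188) (nat_lit 5) (nat_lit 193) (nat_lit 5) (nat_lit 194) (nat_lit 5) (nat_lit 603) (nat_lit 509) (nat_lit 448)) (XT.lf (nat_lit 0) (nat_lit 2214724755) (nat_lit 456) (nat_lit 5558687360) (nat_lit 76) (nat_lit 2775622822)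 (nat_lit 182) (nat_lit 5) (nat_lit 188) (nat_lit 5) (nat_lit 183) (nat_lit 5) (nat_lit 604) (nat_lit 509) (nat_lit 447))) (XT.nd (nat_lit 78) (nat_lit 456) (nat_lit 0) (XT.lf (nat_lit 0) (nat_lit 2223339640) (nat_lit 380) (nat_lit 3680766714) (nat_lit 456) (nat_lit 4754958789) (nat_lit 177) (nat_lit 5) (nat_lit 182) (nat_lit 5) (nat_lit 183) (nat_lit 5) (nat_lit 605) (nat_lit 509) (nat_lit 446)) (XT.nd (nat_lit 78) (nat_lit 456) (nat_lit 0) (XT.lf (nat_lit 0) (nat_lit 9670981178) (nat_lit 456) (nat_lit 595268566) (nat_lit 76) (nat_lit 504972737) (nat_lit 177) (nat_lit 5) (nat_lit 183) (nat_lit 5) (nat_lit 178) (nat_lit 5) (nat_lit 606) (nat_lit 509) (nat_lit 445)) (XT.lf (nat_lit 0) (nat_lit 2629567630) (nat_lit 456) (nat_lit 3483776255) (nat_lit 76) (nat_lit 4771209331) (nat_lit 171) (nat_lit 5) (nat_lit 177) (nat_lit 5) (nat_lit 172) (nat_lit 5) (nat_lit 607) (nat_lit 509) (nat_lit 444))))) (XT.nd (nat_lit 234) (nat_lit 1064) (nat_lit 0) (XT.nd (nat_lit 78) (nat_lit 456) (nat_lit 0) (XT.lf (nat_lit 0)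 (nat_lit 4560639562) (nat_lit 380) (nat_lit 1856033073) (nat_lit 456) (nat_lit 4583384437) (nat_lit 166) (nat_lit 5) (nat_lit 171) (nat_lit 5) (nat_lit 172) (nat_lit 5) (nat_lit 608) (nat_lit 509) (nat_lit 443)) (XT.nd (nat_lit 78) (nat_lit 76) (nat_lit 0) (XT.lf (nat_lit 0) (nat_lit 1644213234) (nat_lit 380) (nat_lit 8649657546) (nat_lit 456) (nat_lit 823713794) (nat_lit 161) (nat_lit 5) (nat_lit 166) (nat_lit 5) (nat_lit 167) (nat_lit 5) (nat_lit 609) (nat_lit 509) (nat_lit 442)) (XT.lf (nat_lit 0) (nat_lit 2991550252) (nat_lit 456) (nat_lit 1348842137) (nat_lit 76) (nat_lit 6896281961) (nat_lit 160) (nat_lit 5) (nat_lit 166) (nat_lit 5) (nat_lit 161) (nat_lit 5) (nat_lit 610) (nat_lit 509) (nat_lit 441)))) (XT.nd (nat_lit 78) (nat_lit 760) (nat_lit 0) (XT.lf (nat_lit 0) (nat_lit 6882708640) (nat_lit 380) (nat_lit 4390086679) (nat_lit 76) (nat_lit 85029891) (nat_lit 156) (nat_lit 5) (nat_lit 161) (nat_lit 5) (nat_lit 157) (nat_lit 5) (nat_lit 611) (nat_lit 509) (nat_lit 440)) (XT.nd (nat_lit 78) (nat_lit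 380) (nat_lit 0) (XT.lf (nat_lit 0) (nat_lit 3954778826) (nat_lit 380) (nat_lit 6925446677) (nat_lit 456) (nat_lit 600603422) (nat_lit 151) (nat_lit 5) (nat_lit 156) (nat_lit 5) (nat_lit 157) (nat_lit 5) (nat_lit 612) (nat_lit 509) (nat_lit 439)) (XT.lf (nat_lit 0) (nat_lit 853488812) (nat_lit 304) (nat_lit 2454250698) (nat_lit 380) (nat_lit 8298112663) (nat_lit 146) (nat_lit 5) (nat_lit 150) (nat_lit 5) (nat_lit 151) (nat_lit 5) (nat_lit 613) (nat_lit 509) (nat_lit 438))))))))
noncomputable def xc43 : XT := (XT.nd (nat_lit 76284) (nat_lit 0) (nat_lit 19836) (XT.nd (nat_lit 75504) (nat_lit 0) (nat_lit 37468) (XT.nd (nat_lit 390) (nat_lit 1064) (nat_lit 0) (XT.nd (nat_lit 156) (nat_lit 684) (nat_lit 0) (XT.nd (nat_lit 78) (nat_lit 380) (nat_lit 0) (XT.lf (nat_lit 0) (nat_lit 7316011570) (nat_lit 380) (nat_lit 2304000520) (nat_lit 76) (nat_lit 2112688823) (nat_lit 146) (nat_lit 5) (nat_lit 151) (nat_lit 5) (nat_lit 147) (nat_lit 5) (nat_lit 614) (nat_lit 509) (nat_lit 437)) (XT.lf (nat_lit 0) (nat_lit 6324848487)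 (nat_lit 380) (nat_lit 5102882406) (nat_lit 456) (nat_lit 433890601) (nat_lit 141) (nat_lit 5) (nat_lit 146) (nat_lit 5) (nat_lit 147) (nat_lit 5) (nat_lit 615) (nat_lit 509) (nat_lit 436))) (XT.nd (nat_lit 78) (nat_lit 304) (nat_lit 0) (XT.lf (nat_lit 0) (nat_lit 3126773374) (nat_lit 304) (nat_lit 456117049) (nat_lit 380) (nat_lit 8409721055) (nat_lit 136) (nat_lit 5) (nat_lit 140) (nat_lit 5) (nat_lit 141) (nat_lit 5) (nat_lit 616) (nat_lit 509) (nat_lit 435)) (XT.nd (nat_lit 78) (nat_lit 304) (nat_lit 0) (XT.lf (nat_lit 0) (nat_lit 7705637461) (nat_lit 380) (nat_lit 173205967) (nat_lit 76) (nat_lit 4246692143) (nat_lit 136) (nat_lit 5) (nat_lit 141) (nat_lit 5) (nat_lit 137) (nat_lit 5) (nat_lit 617) (nat_lit 509) (nat_lit 434)) (XT.lf (nat_lit 0) (nat_lit 8750672333) (nat_lit 304) (nat_lit 3186887400) (nat_lit 380) (nat_lit 323024473) (nat_lit 132) (nat_lit 5) (nat_lit 136) (nat_lit 5) (nat_lit 137) (nat_lit 5) (nat_lit 618) (nat_lit 509) (nat_lit 433))))) (XT.nd (nat_lit 156) (nat_lit 380) (nat_lit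 0) (XT.nd (nat_lit 78) (nat_lit 304) (nat_lit 0) (XT.lf (nat_lit 0) (nat_lit 3819381697) (nat_lit 380) (nat_lit 6959358912) (nat_lit 76) (nat_lit 1618809675) (nat_lit 127) (nat_lit 5) (nat_lit 132) (nat_lit 5) (nat_lit 128) (nat_lit 5) (nat_lit 619) (nat_lit 509) (nat_lit 432)) (XT.lf (nat_lit 0) (nat_lit 2024609645) (nat_lit 304) (nat_lit 6040788305) (nat_lit 380) (nat_lit 4471313725) (nat_lit 123) (nat_lit 5) (nat_lit 127) (nat_lit 5) (nat_lit 128) (nat_lit 5) (nat_lit 620) (nat_lit 509) (nat_lit 431))) (XT.nd (nat_lit 78) (nat_lit 380) (nat_lit 0) (XT.lf (nat_lit 0) (nat_lit 11228359793) (nat_lit 304) (nat_lit 1182091761) (nat_lit 380) (nat_lit 267922827) (nat_lit 123) (nat_lit 5) (nat_lit 127) (nat_lit 5) (nat_lit 128) (nat_lit 5) (nat_lit 621) (nat_lit 509) (nat_lit 430)) (XT.nd (nat_lit 74802) (nat_lit 0) (nat_lit 45828) (XT.lf (nat_lit 0) (nat_lit 4010281012) (nat_lit 380) (nat_lit 5030719601) (nat_lit 76) (nat_lit 3780478950) (nat_lit 118) (nat_lit 5) (nat_lit 123) (nat_lit 5) (nat_lit 119) (nat_lit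 5) (nat_lit 622) (nat_lit 509) (nat_lit 429)) (XT.lf (nat_lit 0) (nat_lit 1416314296) (nat_lit 836) (nat_lit 949886201) (nat_lit 836) (nat_lit 949886201) (nat_lit 721) (nat_lit 4) (nat_lit 732) (nat_lit 5) (nat_lit 732) (nat_lit 4) (nat_lit 540) (nat_lit 510) (nat_lit 510)))))) (XT.nd (nat_lit 390) (nat_lit 5168) (nat_lit 0) (XT.nd (nat_lit 156) (nat_lit 2204) (nat_lit 0) (XT.nd (nat_lit 78) (nat_lit 0) (nat_lit 0) (XT.lf (nat_lit 0) (nat_lit 468673807) (nat_lit 912) (nat_lit 921485872) (nat_lit 988) (nat_lit 5261789833) (nat_lit 708) (nat_lit 5) (nat_lit 720) (nat_lit 5) (nat_lit 721) (nat_lit 4) (nat_lit 541) (nat_lit 510) (nat_lit 509)) (XT.lf (nat_lit 0) (nat_lit 4672708948) (nat_lit 988) (nat_lit 1869592917) (nat_lit 0) (nat_lit 130526647) (nat_lit 708) (nat_lit 5) (nat_lit 721) (nat_lit 4) (nat_lit 708) (nat_lit 4) (nat_lit 542) (nat_lit 510) (nat_lit 508))) (XT.nd (nat_lit 78) (nat_lit 1140) (nat_lit 0) (XT.lf (nat_lit 0) (nat_lit 1258900391) (nat_lit 1064) (nat_lit 4203718314) (nat_lit 76) (nat_lit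 1232347258) (nat_lit 694) (nat_lit 5) (nat_lit 708) (nat_lit 5) (nat_lit 695) (nat_lit 4) (nat_lit 543) (nat_lit 510) (nat_lit 507)) (XT.nd (nat_lit 78) (nat_lit 76) (nat_lit 0) (XT.lf (nat_lit 0) (nat_lit 178432771) (nat_lit 1064) (nat_lit 4319794406) (nat_lit 1140) (nat_lit 2220219844) (nat_lit 680) (nat_lit 5) (nat_lit 694) (nat_lit 5) (nat_lit 695) (nat_lit 4) (nat_lit 544) (nat_lit 510) (nat_lit 506)) (XT.lf (nat_lit 0) (nat_lit 1003096483) (nat_lit 1140) (nat_lit 2102194160) (nat_lit 76) (nat_lit 3637831619) (nat_lit 679) (nat_lit 5) (nat_lit 694) (nat_lit 5) (nat_lit 680) (nat_lit 5) (nat_lit 545) (nat_lit 510) (nat_lit 505))))) (XT.nd (nat_lit 156) (nat_lit 2736) (nat_lit 0) (XT.nd (nat_lit 78) (nat_lit 1292) (nat_lit 0) (XT.lf (nat_lit 0) (nat_lit 2383585766) (nat_lit 1140) (nat_lit 1823126124) (nat_lit 1216) (nat_lit 2562377612) (nat_lit 664) (nat_lit 5) (nat_lit 679) (nat_lit 5) (nat_lit 680) (nat_lit 5) (nat_lit 546) (nat_lit 510) (nat_lit 504)) (XT.lf (nat_lit 0) (nat_lit 131606025) (nat_lit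 1216) (nat_lit 483969003) (nat_lit 1292) (nat_lit 6181002934) (nat_lit 647) (nat_lit 5) (nat_lit 663) (nat_lit 5) (nat_lit 664) (nat_lit 5) (nat_lit 547) (nat_lit 510) (nat_lit 503))) (XT.nd (nat_lit 78) (nat_lit 2736) (nat_lit 0) (XT.lf (nat_lit 0) (nat_lit 3789816553) (nat_lit 1292) (nat_lit 2107377035) (nat_lit 76) (nat_lit 927746106) (nat_lit 647) (nat_lit 5) (nat_lit 664) (nat_lit 5) (nat_lit 648) (nat_lit 5) (nat_lit 548) (nat_lit 510) (nat_lit 502)) (XT.nd (nat_lit 78) (nat_lit 1368) (nat_lit 0) (XT.lf (nat_lit 0) (nat_lit 123600091) (nat_lit 1368) (nat_lit 4342314368) (nat_lit 76) (nat_lit 2388890509) (nat_lit 629) (nat_lit 5) (nat_lit 647) (nat_lit 5) (nat_lit 630) (nat_lit 5) (nat_lit 549) (nat_lit 510) (nat_lit 501)) (XT.lf (nat_lit 0) (nat_lit 293681171) (nat_lit 1368) (nat_lit 2960854635) (nat_lit 1444) (nat_lit 3631339804) (nat_lit 611) (nat_lit 5) (nat_lit 629) (nat_lit 5) (nat_lit 630) (nat_lit 5) (nat_lit 550) (nat_lit 510) (nat_lit 500))))))) (XT.nd (nat_lit 780) (nat_lit 7524) (nat_lit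 0) (XT.nd (nat_lit 390) (nat_lit 5396) (nat_lit 0) (XT.nd (nat_lit 156) (nat_lit 3192) (nat_lit 0) (XT.nd (nat_lit 78) (nat_lit 1520) (nat_lit 0) (XT.lf (nat_lit 0) (nat_lit 5023327848) (nat_lit 1368) (nat_lit 1388327730) (nat_lit 1444) (nat_lit 506643598) (nat_lit 611) (nat_lit 5) (nat_lit 629) (nat_lit 5) (nat_lit 630) (nat_lit 5) (nat_lit 551) (nat_lit 510) (nat_lit 499)) (XT.lf (nat_lit 0) (nat_lit 2600918348) (nat_lit 1520) (nat_lit 4095006222) (nat_lit 76) (nat_lit 255990721) (nat_lit 591) (nat_lit 5) (nat_lit 611) (nat_lit 5) (nat_lit 592) (nat_lit 5) (nat_lit 552) (nat_lit 510) (nat_lit 498))) (XT.nd (nat_lit 78) (nat_lit 1672) (nat_lit 0) (XT.lf (nat_lit 0) (nat_lit 681266689) (nat_lit 1520) (nat_lit 5045228113) (nat_lit 1596) (nat_lit 1260391657) (nat_lit 571) (nat_lit 5) (nat_lit 591) (nat_lit 5) (nat_lit 592) (nat_lit 5) (nat_lit 553) (nat_lit 510) (nat_lit 497)) (XT.nd (nat_lit 78) (nat_lit 1596) (nat_lit 0) (XT.lf (nat_lit 0) (nat_lit 1831549481) (nat_lit 1596) (nat_lit 1484957413) (nat_lit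 76) (nat_lit 3706520264) (nat_lit 570) (nat_lit 5) (nat_lit 591) (nat_lit 5) (nat_lit 571) (nat_lit 5) (nat_lit 554) (nat_lit 510) (nat_lit 496)) (XT.lf (nat_lit 0) (nat_lit 3410602250) (nat_lit 1596) (nat_lit 1517928227) (nat_lit 1672) (nat_lit 2131994517) (nat_lit 549) (nat_lit 5) (nat_lit 570) (nat_lit 5) (nat_lit 571) (nat_lit 5) (nat_lit 555) (nat_lit 510) (nat_lit 495))))) (XT.nd (nat_lit 156) (nat_lit 3648) (nat_lit 0) (XT.nd (nat_lit 78) (nat_lit 0) (nat_lit 0) (XT.lf (nat_lit 0) (nat_lit 934632149) (nat_lit 1748) (nat_lit 5824195778) (nat_lit 76) (nat_lit 340640471) (nat_lit 526) (nat_lit 5) (nat_lit 549) (nat_lit 5) (nat_lit 527) (nat_lit 5) (nat_lit 556) (nat_lit 510) (nat_lit 494)) (XT.lf (nat_lit 0) (nat_lit 4007983131) (nat_lit 1748) (nat_lit 873780864) (nat_lit 76) (nat_lit 2257668400) (nat_lit 526) (nat_lit 5) (nat_lit 549) (nat_lit 5) (nat_lit 527) (nat_lit 5) (nat_lit 557) (nat_lit 510) (nat_lit 493))) (XT.nd (nat_lit 78) (nat_lit 1900) (nat_lit 0) (XT.lf (nat_lit 0) (nat_lit 4172330139)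 (nat_lit 1748) (nat_lit 2937957481) (nat_lit 1824) (nat_lit 70560634) (nat_lit 503) (nat_lit 5) (nat_lit 526) (nat_lit 5) (nat_lit 527) (nat_lit 5) (nat_lit 558) (nat_lit 510) (nat_lit 492)) (XT.nd (nat_lit 78) (nat_lit 0) (nat_lit 0) (XT.lf (nat_lit 0) (nat_lit 2056917652) (nat_lit 1824) (nat_lit 914663411) (nat_lit 1900) (nat_lit 4251916197) (nat_lit 478) (nat_lit 5) (nat_lit 502) (nat_lit 5) (nat_lit 503) (nat_lit 5) (nat_lit 559) (nat_lit 510) (nat_lit 491)) (XT.lf (nat_lit 0) (nat_lit 6042990636) (nat_lit 1900) (nat_lit 69442380) (nat_lit 76) (nat_lit 1155171683) (nat_lit 478) (nat_lit 5) (nat_lit 503) (nat_lit 5) (nat_lit 479) (nat_lit 5) (nat_lit 560) (nat_lit 510) (nat_lit 490)))))) (XT.nd (nat_lit 390) (nat_lit 3572) (nat_lit 0) (XT.nd (nat_lit 156) (nat_lit 1824) (nat_lit 0) (XT.nd (nat_lit 78) (nat_lit 912) (nat_lit 0) (XT.lf (nat_lit 0) (nat_lit 1820791228) (nat_lit 1216) (nat_lit 2192102071) (nat_lit 76) (nat_lit 3299821258) (nat_lit 462) (nat_lit 5) (nat_lit 478) (nat_lit 5) (nat_lit 463) (nat_lit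 5) (nat_lit 561) (nat_lit 510) (nat_lit 489)) (XT.lf (nat_lit 0) (nat_lit 3029873261) (nat_lit 912) (nat_lit 1844093356) (nat_lit 988) (nat_lit 2485334964) (nat_lit 450) (nat_lit 5) (nat_lit 462) (nat_lit 5) (nat_lit 463) (nat_lit 5) (nat_lit 562) (nat_lit 510) (nat_lit 488))) (XT.nd (nat_lit 78) (nat_lit 836) (nat_lit 0) (XT.lf (nat_lit 0) (nat_lit 540605329) (nat_lit 988) (nat_lit 6481022893) (nat_lit 76) (nat_lit 385781697) (nat_lit 437) (nat_lit 5) (nat_lit 450) (nat_lit 5) (nat_lit 438) (nat_lit 5) (nat_lit 563) (nat_lit 510) (nat_lit 487)) (XT.nd (nat_lit 78) (nat_lit 836) (nat_lit 0) (XT.lf (nat_lit 0) (nat_lit 3579454685) (nat_lit 988) (nat_lit 1198284487) (nat_lit 76) (nat_lit 2678701248) (nat_lit 437) (nat_lit 5) (nat_lit 450) (nat_lit 5) (nat_lit 438) (nat_lit 5) (nat_lit 564) (nat_lit 510) (nat_lit 486)) (XT.lf (nat_lit 0) (nat_lit 4186658420) (nat_lit 836) (nat_lit 2464879777) (nat_lit 912) (nat_lit 855466086) (nat_lit 426) (nat_lit 5) (nat_lit 437) (nat_lit 5) (nat_lit 438) (nat_lit 5) (nat_lit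 565) (nat_lit 510) (nat_lit 485))))) (XT.nd (nat_lit 234) (nat_lit 1672) (nat_lit 0) (XT.nd (nat_lit 78) (nat_lit 912) (nat_lit 0) (XT.lf (nat_lit 0) (nat_lit 2091344220) (nat_lit 912) (nat_lit 73223365) (nat_lit 988) (nat_lit 5394378858) (nat_lit 413) (nat_lit 5) (nat_lit 425) (nat_lit 5) (nat_lit 426) (nat_lit 5) (nat_lit 566) (nat_lit 510) (nat_lit 484)) (XT.nd (nat_lit 78) (nat_lit 912) (nat_lit 0) (XT.lf (nat_lit 0) (nat_lit 5217619621) (nat_lit 988) (nat_lit 35741203) (nat_lit 76) (nat_lit 2358773867) (nat_lit 413) (nat_lit 5) (nat_lit 426) (nat_lit 5) (nat_lit 414) (nat_lit 5) (nat_lit 567) (nat_lit 510) (nat_lit 483)) (XT.lf (nat_lit 0) (nat_lit 640147161) (nat_lit 912) (nat_lit 2152475073) (nat_lit 76) (nat_lit 4874009245) (nat_lit 401) (nat_lit 5) (nat_lit 413) (nat_lit 5) (nat_lit 402) (nat_lit 5) (nat_lit 568) (nat_lit 510) (nat_lit 482)))) (XT.nd (nat_lit 78) (nat_lit 836) (nat_lit 0) (XT.lf (nat_lit 0) (nat_lit 3423858049) (nat_lit 836) (nat_lit 249717741) (nat_lit 912) (nat_lit 4048924828)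 (nat_lit 390) (nat_lit 5) (nat_lit 401) (nat_lit 5) (nat_lit 402) (nat_lit 5) (nat_lit 569) (nat_lit 510) (nat_lit 481)) (XT.nd (nat_lit 78) (nat_lit 76) (nat_lit 0) (XT.lf (nat_lit 0) (nat_lit 1304369601) (nat_lit 760) (nat_lit 5449773340) (nat_lit 836) (nat_lit 1025616449) (nat_lit 380) (nat_lit 5) (nat_lit 390) (nat_lit 5) (nat_lit 391) (nat_lit 5) (nat_lit 570) (nat_lit 510) (nat_lit 480)) (XT.lf (nat_lit 0) (nat_lit 2010391430) (nat_lit 836) (nat_lit 834499101) (nat_lit 76) (nat_lit 4993422605) (nat_lit 379) (nat_lit 5) (nat_lit 390) (nat_lit 5) (nat_lit 380) (nat_lit 5) (nat_lit 571) (nat_lit 510) (nat_lit 479))))))))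
noncomputable def xc44 : XT := (XT.nd (nat_lit 1560) (nat_lit 6764) (nat_lit 0) (XT.nd (nat_lit 780) (nat_lit 4256) (nat_lit 0) (XT.nd (nat_lit 390) (nat_lit 2812) (nat_lit 0) (XT.nd (nat_lit 156) (nat_lit 1520) (nat_lit 0) (XT.nd (nat_lit 78) (nat_lit 836) (nat_lit 0) (XT.lf (nat_lit 0) (nat_lit 4918675361) (nat_lit 760) (nat_lit 156203849) (nat_lit 836) (nat_lit 2823394862) (nat_lit 369) (nat_lit 5) (nat_lit 379) (nat_lit 5) (nat_lit 380) (nat_lit 5) (nat_lit 572) (nat_lit 510) (nat_lit 478)) (XT.lf (nat_lit 0) (nat_lit 228709990) (nat_lit 836) (nat_lit 5161143918) (nat_lit 76) (nat_lit 2569737469) (nat_lit 358) (nat_lit 5) (nat_lit 369) (nat_lit 5) (nat_lit 359) (nat_lit 5) (nat_lit 573) (nat_lit 510) (nat_lit 477))) (XT.nd (nat_lit 78) (nat_lit 760) (nat_lit 0) (XT.lf (nat_lit 0) (nat_lit 640151311) (nat_lit 760) (nat_lit 2639630681) (nat_lit 836) (nat_lit 4742466640) (nat_lit 348) (nat_lit 5) (nat_lit 358) (nat_lit 5) (nat_lit 359) (nat_lit 5) (nat_lit 574) (nat_lit 510) (nat_lit 476)) (XT.nd (nat_lit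 78) (nat_lit 760) (nat_lit 0) (XT.lf (nat_lit 0) (nat_lit 6378720197) (nat_lit 836) (nat_lit 1518956517) (nat_lit 76) (nat_lit 188746862) (nat_lit 348) (nat_lit 5) (nat_lit 359) (nat_lit 5) (nat_lit 349) (nat_lit 5) (nat_lit 575) (nat_lit 510) (nat_lit 475)) (XT.lf (nat_lit 0) (nat_lit 1367743131) (nat_lit 760) (nat_lit 3717120136) (nat_lit 76) (nat_lit 3066876154) (nat_lit 338) (nat_lit 5) (nat_lit 348) (nat_lit 5) (nat_lit 339) (nat_lit 5) (nat_lit 576) (nat_lit 510) (nat_lit 474))))) (XT.nd (nat_lit 156) (nat_lit 1444) (nat_lit 0) (XT.nd (nat_lit 78) (nat_lit 684) (nat_lit 0) (XT.lf (nat_lit 0) (nat_lit 2269382423) (nat_lit 684) (nat_lit 2189585464) (nat_lit 760) (nat_lit 3759626583) (nat_lit 329) (nat_lit 5) (nat_lit 338) (nat_lit 5) (nat_lit 339) (nat_lit 5) (nat_lit 577) (nat_lit 510) (nat_lit 473)) (XT.lf (nat_lit 0) (nat_lit 76399839) (nat_lit 684) (nat_lit 7518788212) (nat_lit 760) (nat_lit 691936478) (nat_lit 320) (nat_lit 5) (nat_lit 329) (nat_lit 5) (nat_lit 330) (nat_lit 5) (nat_lit 578) (nat_lit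 510) (nat_lit 472))) (XT.nd (nat_lit 78) (nat_lit 1368) (nat_lit 0) (XT.lf (nat_lit 0) (nat_lit 2412675637) (nat_lit 760) (nat_lit 2143079456) (nat_lit 76) (nat_lit 3800804281) (nat_lit 319) (nat_lit 5) (nat_lit 329) (nat_lit 5) (nat_lit 320) (nat_lit 5) (nat_lit 579) (nat_lit 510) (nat_lit 471)) (XT.nd (nat_lit 78) (nat_lit 684) (nat_lit 0) (XT.lf (nat_lit 0) (nat_lit 4036003011) (nat_lit 684) (nat_lit 1514093665) (nat_lit 760) (nat_lit 2877596381) (nat_lit 310) (nat_lit 5) (nat_lit 319) (nat_lit 5) (nat_lit 320) (nat_lit 5) (nat_lit 580) (nat_lit 510) (nat_lit 470)) (XT.lf (nat_lit 0) (nat_lit 237518546) (nat_lit 684) (nat_lit 6679465470) (nat_lit 76) (nat_lit 1583418518) (nat_lit 301) (nat_lit 5) (nat_lit 310) (nat_lit 5) (nat_lit 302) (nat_lit 5) (nat_lit 581) (nat_lit 510) (nat_lit 469)))))) (XT.nd (nat_lit 390) (nat_lit 2356) (nat_lit 0) (XT.nd (nat_lit 156) (nat_lit 1292) (nat_lit 0) (XT.nd (nat_lit 78) (nat_lit 608) (nat_lit 0) (XT.lf (nat_lit 0) (nat_lit 3370571817) (nat_lit 684) (nat_lit 444848160)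 (nat_lit 76) (nat_lit 4758883644) (nat_lit 301) (nat_lit 5) (nat_lit 310) (nat_lit 5) (nat_lit 302) (nat_lit 5) (nat_lit 582) (nat_lit 510) (nat_lit 468)) (XT.lf (nat_lit 0) (nat_lit 5934509942) (nat_lit 608) (nat_lit 625638564) (nat_lit 684) (nat_lit 2089658131) (nat_lit 293) (nat_lit 5) (nat_lit 301) (nat_lit 5) (nat_lit 302) (nat_lit 5) (nat_lit 583) (nat_lit 510) (nat_lit 467))) (XT.nd (nat_lit 78) (nat_lit 608) (nat_lit 0) (XT.lf (nat_lit 0) (nat_lit 1072241536) (nat_lit 684) (nat_lit 5039992000) (nat_lit 76) (nat_lit 2614450243) (nat_lit 284) (nat_lit 5) (nat_lit 293) (nat_lit 5) (nat_lit 285) (nat_lit 5) (nat_lit 584) (nat_lit 510) (nat_lit 466)) (XT.nd (nat_lit 78) (nat_lit 0) (nat_lit 0) (XT.lf (nat_lit 0) (nat_lit 1390521080) (nat_lit 608) (nat_lit 2866367132) (nat_lit 684) (nat_lit 4548185296) (nat_lit 276) (nat_lit 5) (nat_lit 284) (nat_lit 5) (nat_lit 285) (nat_lit 5) (nat_lit 585) (nat_lit 510) (nat_lit 465)) (XT.lf (nat_lit 0) (nat_lit 7498501542) (nat_lit 684) (nat_lit 928301032) (nat_lit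 76) (nat_lit 458364053) (nat_lit 276) (nat_lit 5) (nat_lit 285) (nat_lit 5) (nat_lit 277) (nat_lit 5) (nat_lit 586) (nat_lit 510) (nat_lit 464))))) (XT.nd (nat_lit 156) (nat_lit 1140) (nat_lit 0) (XT.nd (nat_lit 78) (nat_lit 608) (nat_lit 0) (XT.lf (nat_lit 0) (nat_lit 1827161051) (nat_lit 608) (nat_lit 3293007737) (nat_lit 76) (nat_lit 3846191518) (nat_lit 268) (nat_lit 5) (nat_lit 276) (nat_lit 5) (nat_lit 269) (nat_lit 5) (nat_lit 587) (nat_lit 510) (nat_lit 463)) (XT.lf (nat_lit 0) (nat_lit 3347411808) (nat_lit 608) (nat_lit 1724691423) (nat_lit 684) (nat_lit 3977184175) (nat_lit 260) (nat_lit 5) (nat_lit 268) (nat_lit 5) (nat_lit 269) (nat_lit 5) (nat_lit 588) (nat_lit 510) (nat_lit 462))) (XT.nd (nat_lit 78) (nat_lit 608) (nat_lit 0) (XT.lf (nat_lit 0) (nat_lit 974999267) (nat_lit 532) (nat_lit 7404556799) (nat_lit 608) (nat_lit 754365735) (nat_lit 253) (nat_lit 5) (nat_lit 260) (nat_lit 5) (nat_lit 261) (nat_lit 5) (nat_lit 589) (nat_lit 510) (nat_lit 461)) (XT.nd (nat_lit 78) (nat_lit 532) (nat_lit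 0) (XT.lf (nat_lit 0) (nat_lit 2507551153) (nat_lit 608) (nat_lit 1443278475) (nat_lit 76) (nat_lit 5268934063) (nat_lit 252) (nat_lit 5) (nat_lit 260) (nat_lit 5) (nat_lit 253) (nat_lit 5) (nat_lit 590) (nat_lit 510) (nat_lit 460)) (XT.lf (nat_lit 0) (nat_lit 5415475859) (nat_lit 532) (nat_lit 403048747) (nat_lit 608) (nat_lit 3488820632) (nat_lit 245) (nat_lit 5) (nat_lit 252) (nat_lit 5) (nat_lit 253) (nat_lit 5) (nat_lit 591) (nat_lit 510) (nat_lit 459))))))) (XT.nd (nat_lit 780) (nat_lit 3268) (nat_lit 0) (XT.nd (nat_lit 390) (nat_lit 1444) (nat_lit 0) (XT.nd (nat_lit 156) (nat_lit 988) (nat_lit 0) (XT.nd (nat_lit 78) (nat_lit 608) (nat_lit 0) (XT.lf (nat_lit 0) (nat_lit 2995257211) (nat_lit 456) (nat_lit 6209619607) (nat_lit 532) (nat_lit 191619322) (nat_lit 239) (nat_lit 5) (nat_lit 245) (nat_lit 5) (nat_lit 246) (nat_lit 5) (nat_lit 592) (nat_lit 510) (nat_lit 458)) (XT.lf (nat_lit 0) (nat_lit 511516819) (nat_lit 532) (nat_lit 2609940192) (nat_lit 608) (nat_lit 6365731571) (nat_lit 231) (nat_lit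 5) (nat_lit 238) (nat_lit 5) (nat_lit 239) (nat_lit 5) (nat_lit 593) (nat_lit 510) (nat_lit 457))) (XT.nd (nat_lit 78) (nat_lit 988) (nat_lit 0) (XT.lf (nat_lit 0) (nat_lit 6507927683) (nat_lit 608) (nat_lit 1996033516) (nat_lit 76) (nat_lit 1075515228) (nat_lit 231) (nat_lit 5) (nat_lit 239) (nat_lit 5) (nat_lit 232) (nat_lit 5) (nat_lit 594) (nat_lit 510) (nat_lit 456)) (XT.nd (nat_lit 78) (nat_lit 456) (nat_lit 0) (XT.lf (nat_lit 0) (nat_lit 295661793) (nat_lit 532) (nat_lit 4559237922) (nat_lit 76) (nat_lit 4818455115) (nat_lit 224) (nat_lit 5) (nat_lit 231) (nat_lit 5) (nat_lit 225) (nat_lit 5) (nat_lit 595) (nat_lit 510) (nat_lit 455)) (XT.lf (nat_lit 0) (nat_lit 2581042927) (nat_lit 456) (nat_lit 1098830088) (nat_lit 532) (nat_lit 6089016845) (nat_lit 218) (nat_lit 5) (nat_lit 224) (nat_lit 5) (nat_lit 225) (nat_lit 5) (nat_lit 596) (nat_lit 510) (nat_lit 454))))) (XT.nd (nat_lit 156) (nat_lit 912) (nat_lit 0) (XT.nd (nat_lit 78) (nat_lit 532) (nat_lit 0) (XT.lf (nat_lit 0) (nat_lit 7141103452) (nat_lit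 532) (nat_lit 15090459) (nat_lit 76) (nat_lit 2709955774) (nat_lit 218) (nat_lit 5) (nat_lit 225) (nat_lit 5) (nat_lit 219) (nat_lit 5) (nat_lit 597) (nat_lit 510) (nat_lit 453)) (XT.lf (nat_lit 0) (nat_lit 713508803) (nat_lit 532) (nat_lit 2635922551) (nat_lit 76) (nat_lit 6615501071) (nat_lit 211) (nat_lit 5) (nat_lit 218) (nat_lit 5) (nat_lit 212) (nat_lit 5) (nat_lit 598) (nat_lit 510) (nat_lit 452))) (XT.nd (nat_lit 78) (nat_lit 456) (nat_lit 0) (XT.lf (nat_lit 0) (nat_lit 4180647155) (nat_lit 532) (nat_lit 5326862550) (nat_lit 76) (nat_lit 557895600) (nat_lit 205) (nat_lit 5) (nat_lit 212) (nat_lit 5) (nat_lit 206) (nat_lit 5) (nat_lit 599) (nat_lit 510) (nat_lit 451)) (XT.nd (nat_lit 78) (nat_lit 76) (nat_lit 0) (XT.lf (nat_lit 0) (nat_lit 2076994827) (nat_lit 380) (nat_lit 5655579873) (nat_lit 456) (nat_lit 2435004747) (nat_lit 200) (nat_lit 5) (nat_lit 205) (nat_lit 5) (nat_lit 206) (nat_lit 5) (nat_lit 600) (nat_lit 510) (nat_lit 450)) (XT.lf (nat_lit 0) (nat_lit 1067617234) (nat_lit 456) (nat_lit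 633991216) (nat_lit 76) (nat_lit 8570086859) (nat_lit 199) (nat_lit 5) (nat_lit 205) (nat_lit 5) (nat_lit 200) (nat_lit 5) (nat_lit 601) (nat_lit 510) (nat_lit 449)))))) (XT.nd (nat_lit 390) (nat_lit 1596) (nat_lit 0) (XT.nd (nat_lit 156) (nat_lit 836) (nat_lit 0) (XT.nd (nat_lit 78) (nat_lit 380) (nat_lit 0) (XT.lf (nat_lit 0) (nat_lit 4631383634) (nat_lit 532) (nat_lit 3401185618) (nat_lit 76) (nat_lit 2344529085) (nat_lit 193) (nat_lit 5) (nat_lit 200) (nat_lit 5) (nat_lit 194) (nat_lit 5) (nat_lit 602) (nat_lit 510) (nat_lit 448)) (XT.lf (nat_lit 0) (nat_lit 4250625799) (nat_lit 380) (nat_lit 4022045552) (nat_lit 456) (nat_lit 2211813831) (nat_lit 188) (nat_lit 5) (nat_lit 193) (nat_lit 5) (nat_lit 194) (nat_lit 5) (nat_lit 603) (nat_lit 510) (nat_lit 447))) (XT.nd (nat_lit 78) (nat_lit 380) (nat_lit 0) (XT.lf (nat_lit 0) (nat_lit 1370778455) (nat_lit 456) (nat_lit 9132558446) (nat_lit 76) (nat_lit 90577065) (nat_lit 182) (nat_lit 5) (nat_lit 188) (nat_lit 5) (nat_lit 183) (nat_lit 5) (nat_lit 604) (nat_lit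 510) (nat_lit 446)) (XT.nd (nat_lit 78) (nat_lit 380) (nat_lit 0) (XT.lf (nat_lit 0) (nat_lit 5027631519) (nat_lit 456) (nat_lit 1407545574) (nat_lit 76) (nat_lit 4269417966) (nat_lit 182) (nat_lit 5) (nat_lit 188) (nat_lit 5) (nat_lit 183) (nat_lit 5) (nat_lit 605) (nat_lit 510) (nat_lit 445)) (XT.lf (nat_lit 0) (nat_lit 6502080417) (nat_lit 380) (nat_lit 2261925533) (nat_lit 456) (nat_lit 2053356762) (nat_lit 177) (nat_lit 5) (nat_lit 182) (nat_lit 5) (nat_lit 183) (nat_lit 5) (nat_lit 606) (nat_lit 510) (nat_lit 444))))) (XT.nd (nat_lit 234) (nat_lit 760) (nat_lit 0) (XT.nd (nat_lit 78) (nat_lit 380) (nat_lit 0) (XT.lf (nat_lit 0) (nat_lit 1631703270) (nat_lit 456) (nat_lit 7306841734) (nat_lit 76) (nat_lit 1993417490) (nat_lit 171) (nat_lit 5) (nat_lit 177) (nat_lit 5) (nat_lit 172) (nat_lit 5) (nat_lit 607) (nat_lit 510) (nat_lit 443)) (XT.nd (nat_lit 78) (nat_lit 0) (nat_lit 0) (XT.lf (nat_lit 0) (nat_lit 658930632) (nat_lit 380) (nat_lit 4716969270) (nat_lit 456) (nat_lit 5672424907) (nat_lit 166)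 (nat_lit 5) (nat_lit 171) (nat_lit 5) (nat_lit 172) (nat_lit 5) (nat_lit 608) (nat_lit 510) (nat_lit 442)) (XT.lf (nat_lit 0) (nat_lit 8827936585) (nat_lit 380) (nat_lit 380911554) (nat_lit 456) (nat_lit 1957889457) (nat_lit 166) (nat_lit 5) (nat_lit 171) (nat_lit 5) (nat_lit 172) (nat_lit 5) (nat_lit 609) (nat_lit 510) (nat_lit 441)))) (XT.nd (nat_lit 78) (nat_lit 304) (nat_lit 0) (XT.lf (nat_lit 0) (nat_lit 1836864848) (nat_lit 456) (nat_lit 5430085514) (nat_lit 76) (nat_lit 4019732254) (nat_lit 160) (nat_lit 5) (nat_lit 166) (nat_lit 5) (nat_lit 161) (nat_lit 5) (nat_lit 610) (nat_lit 510) (nat_lit 440)) (XT.nd (nat_lit 78) (nat_lit 0) (nat_lit 0) (XT.lf (nat_lit 0) (nat_lit 2805384132) (nat_lit 304) (nat_lit 2877970069) (nat_lit 380) (nat_lit 5725372925) (nat_lit 156) (nat_lit 5) (nat_lit 160) (nat_lit 5) (nat_lit 161) (nat_lit 5) (nat_lit 611) (nat_lit 510) (nat_lit 439)) (XT.lf (nat_lit 0) (nat_lit 9619522576) (nat_lit 380) (nat_lit 318839208) (nat_lit 76) (nat_lit 1594596292) (nat_lit 156) (nat_lit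 5) (nat_lit 161) (nat_lit 5) (nat_lit 157) (nat_lit 5) (nat_lit 612) (nat_lit 510) (nat_lit 438))))))))
noncomputable def xc45 : XT := (XT.nd (nat_lit 76128) (nat_lit 0) (nat_lit 21508) (XT.nd (nat_lit 75348) (nat_lit 0) (nat_lit 41420) (XT.nd (nat_lit 390) (nat_lit 1368) (nat_lit 0) (XT.nd (nat_lit 156) (nat_lit 760) (nat_lit 0) (XT.nd (nat_lit 78) (nat_lit 304) (nat_lit 0) (XT.lf (nat_lit 0) (nat_lit 1987532822) (nat_lit 456) (nat_lit 3506419857) (nat_lit 76) (nat_lit 6164691228) (nat_lit 150) (nat_lit 5) (nat_lit 156) (nat_lit 5) (nat_lit 151) (nat_lit 5) (nat_lit 613) (nat_lit 510) (nat_lit 437)) (XT.lf (nat_lit 0) (nat_lit 5009323289) (nat_lit 304) (nat_lit 932730608) (nat_lit 380) (nat_lit 5844514017) (nat_lit 146) (nat_lit 5) (nat_lit 150) (nat_lit 5) (nat_lit 151) (nat_lit 5) (nat_lit 614) (nat_lit 510) (nat_lit 436))) (XT.nd (nat_lit 78) (nat_lit 380) (nat_lit 0) (XT.lf (nat_lit 0) (nat_lit 1771156935) (nat_lit 380) (nat_lit 8230475379) (nat_lit 456) (nat_lit 1914899244) (nat_lit 141) (nat_lit 5)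 (nat_lit 146) (nat_lit 5) (nat_lit 147) (nat_lit 5) (nat_lit 615) (nat_lit 510) (nat_lit 435)) (XT.nd (nat_lit 78) (nat_lit 304) (nat_lit 0) (XT.lf (nat_lit 0) (nat_lit 2084527512) (nat_lit 456) (nat_lit 1540044628) (nat_lit 76) (nat_lit 8423877510) (nat_lit 140) (nat_lit 5) (nat_lit 146) (nat_lit 5) (nat_lit 141) (nat_lit 5) (nat_lit 616) (nat_lit 510) (nat_lit 434)) (XT.lf (nat_lit 0) (nat_lit 6160110046) (nat_lit 380) (nat_lit 4922799519) (nat_lit 76) (nat_lit 1099407699) (nat_lit 136) (nat_lit 5) (nat_lit 141) (nat_lit 5) (nat_lit 137) (nat_lit 5) (nat_lit 617) (nat_lit 510) (nat_lit 433))))) (XT.nd (nat_lit 156) (nat_lit 684) (nat_lit 0) (XT.nd (nat_lit 78) (nat_lit 380) (nat_lit 0) (XT.lf (nat_lit 0) (nat_lit 3911229037) (nat_lit 304) (nat_lit 6433310032) (nat_lit 380) (nat_lit 1973776920) (nat_lit 132) (nat_lit 5) (nat_lit 136) (nat_lit 5) (nat_lit 137) (nat_lit 5) (nat_lit 618) (nat_lit 510) (nat_lit 432)) (XT.lf (nat_lit 0) (nat_lit 470888281) (nat_lit 304) (nat_lit 1660386191) (nat_lit 380) (nat_lit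 10325402262) (nat_lit 127) (nat_lit 5) (nat_lit 131) (nat_lit 5) (nat_lit 132) (nat_lit 5) (nat_lit 619) (nat_lit 510) (nat_lit 431))) (XT.nd (nat_lit 78) (nat_lit 684) (nat_lit 0) (XT.lf (nat_lit 0) (nat_lit 6337408945) (nat_lit 380) (nat_lit 3044088943) (nat_lit 76) (nat_lit 3215138085) (nat_lit 127) (nat_lit 5) (nat_lit 132) (nat_lit 5) (nat_lit 128) (nat_lit 5) (nat_lit 620) (nat_lit 510) (nat_lit 430)) (XT.nd (nat_lit 78) (nat_lit 380) (nat_lit 0) (XT.lf (nat_lit 0) (nat_lit 6092884926) (nat_lit 304) (nat_lit 4553736349) (nat_lit 380) (nat_lit 2092394437) (nat_lit 123) (nat_lit 5) (nat_lit 127) (nat_lit 5) (nat_lit 128) (nat_lit 5) (nat_lit 621) (nat_lit 510) (nat_lit 429)) (XT.lf (nat_lit 0) (nat_lit 2137588351) (nat_lit 380) (nat_lit 10349857663) (nat_lit 76) (nat_lit 396354980) (nat_lit 118) (nat_lit 5) (nat_lit 123) (nat_lit 5) (nat_lit 119) (nat_lit 5) (nat_lit 622) (nat_lit 510) (nat_lit 428)))))) (XT.nd (nat_lit 390) (nat_lit 3344) (nat_lit 0) (XT.nd (nat_lit 156) (nat_lit 1900) (nat_lit 0) (XT.nd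 (nat_lit 78) (nat_lit 0) (nat_lit 0) (XT.lf (nat_lit 0) (nat_lit 258496744) (nat_lit 836) (nat_lit 2781116200) (nat_lit 0) (nat_lit 258496744) (nat_lit 732) (nat_lit 5) (nat_lit 743) (nat_lit 4) (nat_lit 732) (nat_lit 4) (nat_lit 538) (nat_lit 511) (nat_lit 511)) (XT.lf (nat_lit 0) (nat_lit 3794598440) (nat_lit 836) (nat_lit 1410869017) (nat_lit 0) (nat_lit 1408360719) (nat_lit 732) (nat_lit 5) (nat_lit 743) (nat_lit 4) (nat_lit 732) (nat_lit 4) (nat_lit 539) (nat_lit 511) (nat_lit 510))) (XT.nd (nat_lit 78) (nat_lit 988) (nat_lit 0) (XT.lf (nat_lit 0) (nat_lit 442885156) (nat_lit 912) (nat_lit 3831058450) (nat_lit 76) (nat_lit 2358912466) (nat_lit 720) (nat_lit 5) (nat_lit 732) (nat_lit 5) (nat_lit 721) (nat_lit 4) (nat_lit 540) (nat_lit 511) (nat_lit 509)) (XT.nd (nat_lit 78) (nat_lit 76) (nat_lit 0) (XT.lf (nat_lit 0) (nat_lit 396074222) (nat_lit 912) (nat_lit 3274885128) (nat_lit 988) (nat_lit 2982166788) (nat_lit 708) (nat_lit 5) (nat_lit 720) (nat_lit 5) (nat_lit 721) (nat_lit 4) (nat_lit 541) (nat_lit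 511) (nat_lit 508)) (XT.lf (nat_lit 0) (nat_lit 238798743) (nat_lit 988) (nat_lit 1972418224) (nat_lit 76) (nat_lit 4463494392) (nat_lit 707) (nat_lit 5) (nat_lit 720) (nat_lit 5) (nat_lit 708) (nat_lit 5) (nat_lit 542) (nat_lit 511) (nat_lit 507))))) (XT.nd (nat_lit 156) (nat_lit 1292) (nat_lit 0) (XT.nd (nat_lit 78) (nat_lit 1064) (nat_lit 0) (XT.lf (nat_lit 0) (nat_lit 2353377034) (nat_lit 988) (nat_lit 1074552485) (nat_lit 1064) (nat_lit 3269534413) (nat_lit 694) (nat_lit 5) (nat_lit 707) (nat_lit 5) (nat_lit 708) (nat_lit 5) (nat_lit 543) (nat_lit 511) (nat_lit 506)) (XT.lf (nat_lit 0) (nat_lit 14778098) (nat_lit 1064) (nat_lit 6609540603) (nat_lit 1140) (nat_lit 97486707) (nat_lit 680) (nat_lit 5) (nat_lit 694) (nat_lit 5) (nat_lit 695) (nat_lit 4) (nat_lit 544) (nat_lit 511) (nat_lit 505))) (XT.nd (nat_lit 78) (nat_lit 1216) (nat_lit 0) (XT.lf (nat_lit 0) (nat_lit 3063364784) (nat_lit 1140) (nat_lit 2311382619) (nat_lit 76) (nat_lit 1372151701) (nat_lit 679) (nat_lit 5) (nat_lit 694) (nat_lit 5) (nat_lit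 680) (nat_lit 5) (nat_lit 545) (nat_lit 511) (nat_lit 504)) (XT.nd (nat_lit 78) (nat_lit 76) (nat_lit 0) (XT.lf (nat_lit 0) (nat_lit 2143410893) (nat_lit 1140) (nat_lit 4088064034) (nat_lit 1216) (nat_lit 542103094) (nat_lit 664) (nat_lit 5) (nat_lit 679) (nat_lit 5) (nat_lit 680) (nat_lit 5) (nat_lit 546) (nat_lit 511) (nat_lit 503)) (XT.lf (nat_lit 0) (nat_lit 2574815875) (nat_lit 1216) (nat_lit 156002845) (nat_lit 76) (nat_lit 4070677681) (nat_lit 663) (nat_lit 5) (nat_lit 679) (nat_lit 5) (nat_lit 664) (nat_lit 5) (nat_lit 547) (nat_lit 511) (nat_lit 502))))))) (XT.nd (nat_lit 780) (nat_lit 9500) (nat_lit 0) (XT.nd (nat_lit 390) (nat_lit 4940) (nat_lit 0) (XT.nd (nat_lit 156) (nat_lit 2888) (nat_lit 0) (XT.nd (nat_lit 78) (nat_lit 1368) (nat_lit 0) (XT.lf (nat_lit 0) (nat_lit 4406188662) (nat_lit 1216) (nat_lit 1302535063) (nat_lit 1292) (nat_lit 1121942561) (nat_lit 647) (nat_lit 5) (nat_lit 663) (nat_lit 5) (nat_lit 664) (nat_lit 5) (nat_lit 548) (nat_lit 511) (nat_lit 501)) (XT.lf (nat_lit 0) (nat_lit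 1968210401) (nat_lit 1368) (nat_lit 4702216404) (nat_lit 76) (nat_lit 190727314) (nat_lit 629) (nat_lit 5) (nat_lit 647) (nat_lit 5) (nat_lit 630) (nat_lit 5) (nat_lit 549) (nat_lit 511) (nat_lit 500))) (XT.nd (nat_lit 78) (nat_lit 2888) (nat_lit 0) (XT.lf (nat_lit 0) (nat_lit 5064963229) (nat_lit 1368) (nat_lit 98374638) (nat_lit 76) (nat_lit 1729571948) (nat_lit 629) (nat_lit 5) (nat_lit 647) (nat_lit 5) (nat_lit 630) (nat_lit 5) (nat_lit 550) (nat_lit 511) (nat_lit 499)) (XT.nd (nat_lit 78) (nat_lit 1444) (nat_lit 0) (XT.lf (nat_lit 0) (nat_lit 1247053114) (nat_lit 1444) (nat_lit 2332339707) (nat_lit 76) (nat_lit 3346427301) (nat_lit 610) (nat_lit 5) (nat_lit 629) (nat_lit 5) (nat_lit 611) (nat_lit 5) (nat_lit 551) (nat_lit 511) (nat_lit 498)) (XT.lf (nat_lit 0) (nat_lit 2383757728) (nat_lit 1444) (nat_lit 1928035576) (nat_lit 1520) (nat_lit 2648301999) (nat_lit 591) (nat_lit 5) (nat_lit 610) (nat_lit 5) (nat_lit 611) (nat_lit 5) (nat_lit 552) (nat_lit 511) (nat_lit 497))))) (XT.nd (nat_lit 156) (nat_lit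 3344) (nat_lit 0) (XT.nd (nat_lit 78) (nat_lit 0) (nat_lit 0) (XT.lf (nat_lit 0) (nat_lit 173350689) (nat_lit 1520) (nat_lit 217509887) (nat_lit 1596) (nat_lit 6605062560) (nat_lit 570) (nat_lit 5) (nat_lit 590) (nat_lit 5) (nat_lit 591) (nat_lit 5) (nat_lit 553) (nat_lit 511) (nat_lit 496)) (XT.lf (nat_lit 0) (nat_lit 3434125577) (nat_lit 1596) (nat_lit 2037344357) (nat_lit 76) (nat_lit 1561074391) (nat_lit 570) (nat_lit 5) (nat_lit 591) (nat_lit 5) (nat_lit 571) (nat_lit 5) (nat_lit 554) (nat_lit 511) (nat_lit 495))) (XT.nd (nat_lit 78) (nat_lit 1748) (nat_lit 0) (XT.lf (nat_lit 0) (nat_lit 2822399761) (nat_lit 1596) (nat_lit 3674756775) (nat_lit 1672) (nat_lit 573565840) (nat_lit 549) (nat_lit 5) (nat_lit 570) (nat_lit 5) (nat_lit 571) (nat_lit 5) (nat_lit 555) (nat_lit 511) (nat_lit 494)) (XT.nd (nat_lit 78) (nat_lit 0) (nat_lit 0) (XT.lf (nat_lit 0) (nat_lit 632262026) (nat_lit 1672) (nat_lit 1804009490) (nat_lit 1748) (nat_lit 4673920069) (nat_lit 526) (nat_lit 5) (nat_lit 548) (nat_lit 5) (nat_lit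 549) (nat_lit 5) (nat_lit 556) (nat_lit 511) (nat_lit 493)) (XT.lf (nat_lit 0) (nat_lit 5468403213) (nat_lit 1748) (nat_lit 1544531061) (nat_lit 76) (nat_lit 138046837) (nat_lit 526) (nat_lit 5) (nat_lit 549) (nat_lit 5) (nat_lit 527) (nat_lit 5) (nat_lit 557) (nat_lit 511) (nat_lit 492)))))) (XT.nd (nat_lit 390) (nat_lit 3724) (nat_lit 0) (XT.nd (nat_lit 156) (nat_lit 2128) (nat_lit 0) (XT.nd (nat_lit 78) (nat_lit 1824) (nat_lit 0) (XT.lf (nat_lit 0) (nat_lit 1326484770) (nat_lit 1824) (nat_lit 3737669696) (nat_lit 76) (nat_lit 2128739609) (nat_lit 502) (nat_lit 5) (nat_lit 526) (nat_lit 5) (nat_lit 503) (nat_lit 5) (nat_lit 558) (nat_lit 511) (nat_lit 491)) (XT.lf (nat_lit 0) (nat_lit 1288871339) (nat_lit 1824) (nat_lit 3045110582) (nat_lit 1900) (nat_lit 2902227458) (nat_lit 478) (nat_lit 5) (nat_lit 502) (nat_lit 5) (nat_lit 503) (nat_lit 5) (nat_lit 559) (nat_lit 511) (nat_lit 490))) (XT.nd (nat_lit 78) (nat_lit 2052) (nat_lit 0) (XT.lf (nat_lit 0) (nat_lit 87243324) (nat_lit 1900) (nat_lit 871920002)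 (nat_lit 76) (nat_lit 6321862107) (nat_lit 477) (nat_lit 5) (nat_lit 502) (nat_lit 5) (nat_lit 478) (nat_lit 5) (nat_lit 560) (nat_lit 511) (nat_lit 489)) (XT.nd (nat_lit 78) (nat_lit 912) (nat_lit 0) (XT.lf (nat_lit 0) (nat_lit 3076878912) (nat_lit 1216) (nat_lit 3049391430) (nat_lit 76) (nat_lit 1200501119) (nat_lit 462) (nat_lit 5) (nat_lit 478) (nat_lit 5) (nat_lit 463) (nat_lit 5) (nat_lit 561) (nat_lit 511) (nat_lit 488)) (XT.lf (nat_lit 0) (nat_lit 2132448933) (nat_lit 912) (nat_lit 3964164259) (nat_lit 988) (nat_lit 1277415111) (nat_lit 450) (nat_lit 5) (nat_lit 462) (nat_lit 5) (nat_lit 463) (nat_lit 5) (nat_lit 562) (nat_lit 511) (nat_lit 487))))) (XT.nd (nat_lit 234) (nat_lit 1824) (nat_lit 0) (XT.nd (nat_lit 78) (nat_lit 1824) (nat_lit 0) (XT.lf (nat_lit 0) (nat_lit 1696676136) (nat_lit 988) (nat_lit 31745586) (nat_lit 76) (nat_lit 5694279164) (nat_lit 449) (nat_lit 5) (nat_lit 462) (nat_lit 5) (nat_lit 450) (nat_lit 5) (nat_lit 563) (nat_lit 511) (nat_lit 486)) (XT.nd (nat_lit 78) (nat_lit 912)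 (nat_lit 0) (XT.lf (nat_lit 0) (nat_lit 4697001417) (nat_lit 988) (nat_lit 2189801299) (nat_lit 76) (nat_lit 585700091) (nat_lit 437) (nat_lit 5) (nat_lit 450) (nat_lit 5) (nat_lit 438) (nat_lit 5) (nat_lit 564) (nat_lit 511) (nat_lit 485)) (XT.lf (nat_lit 0) (nat_lit 209300398) (nat_lit 912) (nat_lit 4371845642) (nat_lit 76) (nat_lit 2942559411) (nat_lit 425) (nat_lit 5) (nat_lit 437) (nat_lit 5) (nat_lit 426) (nat_lit 5) (nat_lit 565) (nat_lit 511) (nat_lit 484)))) (XT.nd (nat_lit 78) (nat_lit 912) (nat_lit 0) (XT.lf (nat_lit 0) (nat_lit 991374409) (nat_lit 912) (nat_lit 2193201325) (nat_lit 988) (nat_lit 4391632451) (nat_lit 413) (nat_lit 5) (nat_lit 425) (nat_lit 5) (nat_lit 426) (nat_lit 5) (nat_lit 566) (nat_lit 511) (nat_lit 483)) (XT.nd (nat_lit 78) (nat_lit 912) (nat_lit 0) (XT.lf (nat_lit 0) (nat_lit 6197785754) (nat_lit 988) (nat_lit 1168018094) (nat_lit 76) (nat_lit 264390293) (nat_lit 413) (nat_lit 5) (nat_lit 426) (nat_lit 5) (nat_lit 414) (nat_lit 5) (nat_lit 567) (nat_lit 511) (nat_lit 482))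 (XT.lf (nat_lit 0) (nat_lit 1556213530) (nat_lit 912) (nat_lit 3353170512) (nat_lit 76) (nat_lit 2775851230) (nat_lit 401) (nat_lit 5) (nat_lit 413) (nat_lit 5) (nat_lit 402) (nat_lit 5) (nat_lit 568) (nat_lit 511) (nat_lit 481))))))))
noncomputable def xc46 : XT := (XT.nd (nat_lit 1560) (nat_lit 7144) (nat_lit 0) (XT.nd (nat_lit 780) (nat_lit 5244) (nat_lit 0) (XT.nd (nat_lit 390) (nat_lit 2204) (nat_lit 0) (XT.nd (nat_lit 156) (nat_lit 1672) (nat_lit 0) (XT.nd (nat_lit 78) (nat_lit 760) (nat_lit 0) (XT.lf (nat_lit 0) (nat_lit 2178431113) (nat_lit 836) (nat_lit 2377709623) (nat_lit 912) (nat_lit 3185634521) (nat_lit 390) (nat_lit 5) (nat_lit 401) (nat_lit 5) (nat_lit 402) (nat_lit 5) (nat_lit 569) (nat_lit 511) (nat_lit 480)) (XT.lf (nat_lit 0) (nat_lit 7786156) (nat_lit 760) (nat_lit 7581566813) (nat_lit 836) (nat_lit 210628959) (nat_lit 380) (nat_lit 5) (nat_lit 390) (nat_lit 5) (nat_lit 391) (nat_lit 5) (nat_lit 570) (nat_lit 511) (nat_lit 479))) (XT.nd (nat_lit 78) (nat_lit 1596) (nat_lit 0) (XT.lf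 (nat_lit 0) (nat_lit 2789712295) (nat_lit 836) (nat_lit 2185433745) (nat_lit 76) (nat_lit 2883784134) (nat_lit 379) (nat_lit 5) (nat_lit 390) (nat_lit 5) (nat_lit 380) (nat_lit 5) (nat_lit 571) (nat_lit 511) (nat_lit 478)) (XT.nd (nat_lit 78) (nat_lit 836) (nat_lit 0) (XT.lf (nat_lit 0) (nat_lit 3521140004) (nat_lit 760) (nat_lit 2299498191) (nat_lit 836) (nat_lit 2098924909) (nat_lit 369) (nat_lit 5) (nat_lit 379) (nat_lit 5) (nat_lit 380) (nat_lit 5) (nat_lit 572) (nat_lit 511) (nat_lit 477)) (XT.lf (nat_lit 0) (nat_lit 895800737) (nat_lit 836) (nat_lit 6640277270) (nat_lit 76) (nat_lit 445666604) (nat_lit 358) (nat_lit 5) (nat_lit 369) (nat_lit 5) (nat_lit 359) (nat_lit 5) (nat_lit 573) (nat_lit 511) (nat_lit 476))))) (XT.nd (nat_lit 156) (nat_lit 1444) (nat_lit 0) (XT.nd (nat_lit 78) (nat_lit 760) (nat_lit 0) (XT.lf (nat_lit 0) (nat_lit 3918632359) (nat_lit 836) (nat_lit 876055762) (nat_lit 76) (nat_lit 3250279265) (nat_lit 358) (nat_lit 5) (nat_lit 369) (nat_lit 5) (nat_lit 359) (nat_lit 5) (nat_lit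 574) (nat_lit 511) (nat_lit 475)) (XT.lf (nat_lit 0) (nat_lit 5012394904) (nat_lit 760) (nat_lit 1974373548) (nat_lit 836) (nat_lit 1122990616) (nat_lit 348) (nat_lit 5) (nat_lit 358) (nat_lit 5) (nat_lit 359) (nat_lit 5) (nat_lit 575) (nat_lit 511) (nat_lit 474))) (XT.nd (nat_lit 78) (nat_lit 684) (nat_lit 0) (XT.lf (nat_lit 0) (nat_lit 1897811967) (nat_lit 760) (nat_lit 5360016628) (nat_lit 76) (nat_lit 918110569) (nat_lit 338) (nat_lit 5) (nat_lit 348) (nat_lit 5) (nat_lit 339) (nat_lit 5) (nat_lit 576) (nat_lit 511) (nat_lit 473)) (XT.nd (nat_lit 78) (nat_lit 0) (nat_lit 0) (XT.lf (nat_lit 0) (nat_lit 575783063) (nat_lit 684) (nat_lit 4379019121) (nat_lit 760) (nat_lit 3288677376) (nat_lit 329) (nat_lit 5) (nat_lit 338) (nat_lit 5) (nat_lit 339) (nat_lit 5) (nat_lit 577) (nat_lit 511) (nat_lit 472)) (XT.lf (nat_lit 0) (nat_lit 6645781978) (nat_lit 684) (nat_lit 1416726075) (nat_lit 760) (nat_lit 250072498) (nat_lit 329) (nat_lit 5) (nat_lit 338) (nat_lit 5) (nat_lit 339) (nat_lit 5) (nat_lit 578) (nat_lit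 511) (nat_lit 471)))))) (XT.nd (nat_lit 390) (nat_lit 2508) (nat_lit 0) (XT.nd (nat_lit 156) (nat_lit 1292) (nat_lit 0) (XT.nd (nat_lit 78) (nat_lit 684) (nat_lit 0) (XT.lf (nat_lit 0) (nat_lit 2805620954) (nat_lit 760) (nat_lit 3956546670) (nat_lit 76) (nat_lit 1620653482) (nat_lit 319) (nat_lit 5) (nat_lit 329) (nat_lit 5) (nat_lit 320) (nat_lit 5) (nat_lit 579) (nat_lit 511) (nat_lit 470)) (XT.lf (nat_lit 0) (nat_lit 2169780877) (nat_lit 684) (nat_lit 3738706315) (nat_lit 760) (nat_lit 2546159302) (nat_lit 310) (nat_lit 5) (nat_lit 319) (nat_lit 5) (nat_lit 320) (nat_lit 5) (nat_lit 580) (nat_lit 511) (nat_lit 469))) (XT.nd (nat_lit 78) (nat_lit 1216) (nat_lit 0) (XT.lf (nat_lit 0) (nat_lit 519971857) (nat_lit 760) (nat_lit 116176460) (nat_lit 76) (nat_lit 7892057937) (nat_lit 309) (nat_lit 5) (nat_lit 319) (nat_lit 5) (nat_lit 310) (nat_lit 5) (nat_lit 581) (nat_lit 511) (nat_lit 468)) (XT.nd (nat_lit 78) (nat_lit 608) (nat_lit 0) (XT.lf (nat_lit 0) (nat_lit 3626012371) (nat_lit 684) (nat_lit 2435795058)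 (nat_lit 76) (nat_lit 2540840739) (nat_lit 301) (nat_lit 5) (nat_lit 310) (nat_lit 5) (nat_lit 302) (nat_lit 5) (nat_lit 582) (nat_lit 511) (nat_lit 467)) (XT.lf (nat_lit 0) (nat_lit 3888686802) (nat_lit 608) (nat_lit 2891939927) (nat_lit 684) (nat_lit 1898224263) (nat_lit 293) (nat_lit 5) (nat_lit 301) (nat_lit 5) (nat_lit 302) (nat_lit 5) (nat_lit 583) (nat_lit 511) (nat_lit 466))))) (XT.nd (nat_lit 156) (nat_lit 1824) (nat_lit 0) (XT.nd (nat_lit 78) (nat_lit 0) (nat_lit 0) (XT.lf (nat_lit 0) (nat_lit 1210902685) (nat_lit 684) (nat_lit 7187102618) (nat_lit 76) (nat_lit 358703752) (nat_lit 284) (nat_lit 5) (nat_lit 293) (nat_lit 5) (nat_lit 285) (nat_lit 5) (nat_lit 584) (nat_lit 511) (nat_lit 465)) (XT.lf (nat_lit 0) (nat_lit 4365141910) (nat_lit 684) (nat_lit 803173214) (nat_lit 76) (nat_lit 3667392339) (nat_lit 284) (nat_lit 5) (nat_lit 293) (nat_lit 5) (nat_lit 285) (nat_lit 5) (nat_lit 585) (nat_lit 511) (nat_lit 464))) (XT.nd (nat_lit 78) (nat_lit 1216) (nat_lit 0) (XT.lf (nat_lit 0) (nat_lit 5727413164)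 (nat_lit 608) (nat_lit 1849899586) (nat_lit 684) (nat_lit 1339077199) (nat_lit 276) (nat_lit 5) (nat_lit 284) (nat_lit 5) (nat_lit 285) (nat_lit 5) (nat_lit 586) (nat_lit 511) (nat_lit 463)) (XT.nd (nat_lit 78) (nat_lit 608) (nat_lit 0) (XT.lf (nat_lit 0) (nat_lit 1826046314) (nat_lit 608) (nat_lit 5632078335) (nat_lit 76) (nat_lit 1540414867) (nat_lit 268) (nat_lit 5) (nat_lit 276) (nat_lit 5) (nat_lit 269) (nat_lit 5) (nat_lit 587) (nat_lit 511) (nat_lit 462)) (XT.lf (nat_lit 0) (nat_lit 948813382) (nat_lit 608) (nat_lit 4085919113) (nat_lit 684) (nat_lit 4047459730) (nat_lit 260) (nat_lit 5) (nat_lit 268) (nat_lit 5) (nat_lit 269) (nat_lit 5) (nat_lit 588) (nat_lit 511) (nat_lit 461))))))) (XT.nd (nat_lit 780) (nat_lit 3420) (nat_lit 0) (XT.nd (nat_lit 390) (nat_lit 2052) (nat_lit 0) (XT.nd (nat_lit 156) (nat_lit 1064) (nat_lit 0) (XT.nd (nat_lit 78) (nat_lit 608) (nat_lit 0) (XT.lf (nat_lit 0) (nat_lit 7681339320) (nat_lit 608) (nat_lit 622721700) (nat_lit 684) (nat_lit 863528564) (nat_lit 260) (nat_lit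 5) (nat_lit 268) (nat_lit 5) (nat_lit 269) (nat_lit 5) (nat_lit 589) (nat_lit 511) (nat_lit 460)) (XT.lf (nat_lit 0) (nat_lit 2365512828) (nat_lit 608) (nat_lit 3981658747) (nat_lit 76) (nat_lit 2906960678) (nat_lit 252) (nat_lit 5) (nat_lit 260) (nat_lit 5) (nat_lit 253) (nat_lit 5) (nat_lit 590) (nat_lit 511) (nat_lit 459))) (XT.nd (nat_lit 78) (nat_lit 532) (nat_lit 0) (XT.lf (nat_lit 0) (nat_lit 2815215700) (nat_lit 532) (nat_lit 2824367041) (nat_lit 608) (nat_lit 3702869582) (nat_lit 245) (nat_lit 5) (nat_lit 252) (nat_lit 5) (nat_lit 253) (nat_lit 5) (nat_lit 591) (nat_lit 511) (nat_lit 458)) (XT.nd (nat_lit 78) (nat_lit 76) (nat_lit 0) (XT.lf (nat_lit 0) (nat_lit 312485437) (nat_lit 456) (nat_lit 8660452300) (nat_lit 532) (nat_lit 459725874) (nat_lit 239) (nat_lit 5) (nat_lit 245) (nat_lit 5) (nat_lit 246) (nat_lit 5) (nat_lit 592) (nat_lit 511) (nat_lit 457)) (XT.lf (nat_lit 0) (nat_lit 2833766149) (nat_lit 532) (nat_lit 2240410101) (nat_lit 76) (nat_lit 4449677055) (nat_lit 238) (nat_lit 5) (nat_lit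 245) (nat_lit 5) (nat_lit 239) (nat_lit 5) (nat_lit 593) (nat_lit 511) (nat_lit 456))))) (XT.nd (nat_lit 156) (nat_lit 1064) (nat_lit 0) (XT.nd (nat_lit 78) (nat_lit 456) (nat_lit 0) (XT.lf (nat_lit 0) (nat_lit 4781123967) (nat_lit 532) (nat_lit 1397725191) (nat_lit 608) (nat_lit 3438120161) (nat_lit 231) (nat_lit 5) (nat_lit 238) (nat_lit 5) (nat_lit 239) (nat_lit 5) (nat_lit 594) (nat_lit 511) (nat_lit 455)) (XT.lf (nat_lit 0) (nat_lit 2219756786) (nat_lit 456) (nat_lit 7377028270) (nat_lit 532) (nat_lit 115044400) (nat_lit 225) (nat_lit 5) (nat_lit 231) (nat_lit 5) (nat_lit 232) (nat_lit 5) (nat_lit 595) (nat_lit 511) (nat_lit 454))) (XT.nd (nat_lit 78) (nat_lit 988) (nat_lit 0) (XT.lf (nat_lit 0) (nat_lit 3234749240) (nat_lit 532) (nat_lit 412590348) (nat_lit 76) (nat_lit 6160758758) (nat_lit 224) (nat_lit 5) (nat_lit 231) (nat_lit 5) (nat_lit 225) (nat_lit 5) (nat_lit 596) (nat_lit 511) (nat_lit 453)) (XT.nd (nat_lit 78) (nat_lit 532) (nat_lit 0) (XT.lf (nat_lit 0) (nat_lit 6657673879) (nat_lit 532)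 (nat_lit 3064741814) (nat_lit 76) (nat_lit 183708978) (nat_lit 218) (nat_lit 5) (nat_lit 225) (nat_lit 5) (nat_lit 219) (nat_lit 5) (nat_lit 597) (nat_lit 511) (nat_lit 452)) (XT.lf (nat_lit 0) (nat_lit 157814057) (nat_lit 532) (nat_lit 5790853231) (nat_lit 76) (nat_lit 4057091555) (nat_lit 211) (nat_lit 5) (nat_lit 218) (nat_lit 5) (nat_lit 212) (nat_lit 5) (nat_lit 598) (nat_lit 511) (nat_lit 451)))))) (XT.nd (nat_lit 390) (nat_lit 1672) (nat_lit 0) (XT.nd (nat_lit 156) (nat_lit 1292) (nat_lit 0) (XT.nd (nat_lit 78) (nat_lit 0) (nat_lit 0) (XT.lf (nat_lit 0) (nat_lit 1517706106) (nat_lit 456) (nat_lit 2064053190) (nat_lit 532) (nat_lit 6525336652) (nat_lit 205) (nat_lit 5) (nat_lit 211) (nat_lit 5) (nat_lit 212) (nat_lit 5) (nat_lit 599) (nat_lit 511) (nat_lit 450)) (XT.lf (nat_lit 0) (nat_lit 7088344754) (nat_lit 532) (nat_lit 1226861544) (nat_lit 76) (nat_lit 1894970989) (nat_lit 205) (nat_lit 5) (nat_lit 212) (nat_lit 5) (nat_lit 206) (nat_lit 5) (nat_lit 600) (nat_lit 511) (nat_lit 449))) (XT.nd (nat_lit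 78) (nat_lit 836) (nat_lit 0) (XT.lf (nat_lit 0) (nat_lit 363279970) (nat_lit 456) (nat_lit 4019952439) (nat_lit 76) (nat_lit 5931680616) (nat_lit 199) (nat_lit 5) (nat_lit 205) (nat_lit 5) (nat_lit 200) (nat_lit 5) (nat_lit 601) (nat_lit 511) (nat_lit 448)) (XT.nd (nat_lit 78) (nat_lit 380) (nat_lit 0) (XT.lf (nat_lit 0) (nat_lit 3533314122) (nat_lit 456) (nat_lit 337822132) (nat_lit 532) (nat_lit 6550298336) (nat_lit 193) (nat_lit 5) (nat_lit 199) (nat_lit 5) (nat_lit 200) (nat_lit 5) (nat_lit 602) (nat_lit 511) (nat_lit 447)) (XT.lf (nat_lit 0) (nat_lit 692078236) (nat_lit 380) (nat_lit 6777137119) (nat_lit 456) (nat_lit 3060470582) (nat_lit 188) (nat_lit 5) (nat_lit 193) (nat_lit 5) (nat_lit 194) (nat_lit 5) (nat_lit 603) (nat_lit 511) (nat_lit 446))))) (XT.nd (nat_lit 234) (nat_lit 836) (nat_lit 0) (XT.nd (nat_lit 78) (nat_lit 760) (nat_lit 0) (XT.lf (nat_lit 0) (nat_lit 505311659) (nat_lit 456) (nat_lit 2182642976) (nat_lit 76) (nat_lit 7951829409) (nat_lit 187) (nat_lit 5) (nat_lit 193) (nat_lit 5)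 (nat_lit 188) (nat_lit 5) (nat_lit 604) (nat_lit 511) (nat_lit 445)) (XT.nd (nat_lit 78) (nat_lit 380) (nat_lit 0) (XT.lf (nat_lit 0) (nat_lit 4112519777) (nat_lit 456) (nat_lit 5136468896) (nat_lit 76) (nat_lit 1502469672) (nat_lit 182) (nat_lit 5) (nat_lit 188) (nat_lit 5) (nat_lit 183) (nat_lit 5) (nat_lit 605) (nat_lit 511) (nat_lit 444)) (XT.lf (nat_lit 0) (nat_lit 2696472867) (nat_lit 380) (nat_lit 5110322252) (nat_lit 456) (nat_lit 3058273166) (nat_lit 177) (nat_lit 5) (nat_lit 182) (nat_lit 5) (nat_lit 183) (nat_lit 5) (nat_lit 606) (nat_lit 511) (nat_lit 443)))) (XT.nd (nat_lit 78) (nat_lit 760) (nat_lit 0) (XT.lf (nat_lit 0) (nat_lit 585891794) (nat_lit 456) (nat_lit 282837997) (nat_lit 76) (nat_lit 10112150553) (nat_lit 176) (nat_lit 5) (nat_lit 182) (nat_lit 5) (nat_lit 177) (nat_lit 5) (nat_lit 607) (nat_lit 511) (nat_lit 442)) (XT.nd (nat_lit 78) (nat_lit 380) (nat_lit 0) (XT.lf (nat_lit 0) (nat_lit 4301065478) (nat_lit 456) (nat_lit 3331664432) (nat_lit 76) (nat_lit 3465093494) (nat_lit 171)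 (nat_lit 5) (nat_lit 177) (nat_lit 5) (nat_lit 172) (nat_lit 5) (nat_lit 608) (nat_lit 511) (nat_lit 441)) (XT.lf (nat_lit 0) (nat_lit 4766309472) (nat_lit 380) (nat_lit 3328718283) (nat_lit 456) (nat_lit 3121988436) (nat_lit 166) (nat_lit 5) (nat_lit 171) (nat_lit 5) (nat_lit 172) (nat_lit 5) (nat_lit 609) (nat_lit 511) (nat_lit 440))))))))
noncomputable def xc47 : XT := (XT.nd (nat_lit 75972) (nat_lit 0) (nat_lit 24852) (XT.nd (nat_lit 780) (nat_lit 684) (nat_lit 0) (XT.nd (nat_lit 390) (nat_lit 1140) (nat_lit 0) (XT.nd (nat_lit 156) (nat_lit 1064) (nat_lit 0) (XT.nd (nat_lit 78) (nat_lit 0) (nat_lit 0) (XT.lf (nat_lit 0) (nat_lit 624581801) (nat_lit 456) (nat_lit 9647663654) (nat_lit 76) (nat_lit 1066136216) (nat_lit 160) (nat_lit 5) (nat_lit 166) (nat_lit 5) (nat_lit 161) (nat_lit 5) (nat_lit 610) (nat_lit 511) (nat_lit 439)) (XT.lf (nat_lit 0) (nat_lit 4436110508) (nat_lit 456) (nat_lit 1475540170) (nat_lit 76) (nat_lit 5549474980) (nat_lit 160) (nat_lit 5) (nat_lit 166) (nat_lit 5) (nat_lit 161) (nat_lit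 5) (nat_lit 611) (nat_lit 511) (nat_lit 438))) (XT.nd (nat_lit 78) (nat_lit 760) (nat_lit 0) (XT.lf (nat_lit 0) (nat_lit 6897907638) (nat_lit 304) (nat_lit 1437583837) (nat_lit 380) (nat_lit 3250601140) (nat_lit 156) (nat_lit 5) (nat_lit 160) (nat_lit 5) (nat_lit 161) (nat_lit 5) (nat_lit 612) (nat_lit 511) (nat_lit 437)) (XT.nd (nat_lit 78) (nat_lit 304) (nat_lit 0) (XT.lf (nat_lit 0) (nat_lit 613026984) (nat_lit 456) (nat_lit 7996027987) (nat_lit 76) (nat_lit 3103994907) (nat_lit 150) (nat_lit 5) (nat_lit 156) (nat_lit 5) (nat_lit 151) (nat_lit 5) (nat_lit 613) (nat_lit 511) (nat_lit 436)) (XT.lf (nat_lit 0) (nat_lit 433533753) (nat_lit 304) (nat_lit 4088023329) (nat_lit 380) (nat_lit 7320336868) (nat_lit 146) (nat_lit 5) (nat_lit 150) (nat_lit 5) (nat_lit 151) (nat_lit 5) (nat_lit 614) (nat_lit 511) (nat_lit 435))))) (XT.nd (nat_lit 156) (nat_lit 684) (nat_lit 0) (XT.nd (nat_lit 78) (nat_lit 456) (nat_lit 0) (XT.lf (nat_lit 0) (nat_lit 8532954215) (nat_lit 380) (nat_lit 2888957177) (nat_lit 76) (nat_lit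 550910067) (nat_lit 146) (nat_lit 5) (nat_lit 151) (nat_lit 5) (nat_lit 147) (nat_lit 5) (nat_lit 615) (nat_lit 511) (nat_lit 434)) (XT.lf (nat_lit 0) (nat_lit 544273775) (nat_lit 456) (nat_lit 6311492437) (nat_lit 76) (nat_lit 5249877309) (nat_lit 140) (nat_lit 5) (nat_lit 146) (nat_lit 5) (nat_lit 141) (nat_lit 5) (nat_lit 616) (nat_lit 511) (nat_lit 433))) (XT.nd (nat_lit 78) (nat_lit 380) (nat_lit 0) (XT.lf (nat_lit 0) (nat_lit 2405912600) (nat_lit 304) (nat_lit 2159312980) (nat_lit 380) (nat_lit 7675378395) (nat_lit 136) (nat_lit 5) (nat_lit 140) (nat_lit 5) (nat_lit 141) (nat_lit 5) (nat_lit 617) (nat_lit 511) (nat_lit 432)) (XT.nd (nat_lit 78) (nat_lit 380) (nat_lit 0) (XT.lf (nat_lit 0) (nat_lit 8694483389) (nat_lit 380) (nat_lit 1063801929) (nat_lit 76) (nat_lit 2619421027) (nat_lit 136) (nat_lit 5) (nat_lit 141) (nat_lit 5) (nat_lit 137) (nat_lit 5) (nat_lit 618) (nat_lit 511) (nat_lit 431)) (XT.lf (nat_lit 0) (nat_lit 418427064) (nat_lit 380) (nat_lit 4598742249) (nat_lit 76) (nat_lit 7499636389)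 (nat_lit 131) (nat_lit 5) (nat_lit 136) (nat_lit 5) (nat_lit 132) (nat_lit 5) (nat_lit 619) (nat_lit 511) (nat_lit 430)))))) (XT.nd (nat_lit 74802) (nat_lit 0) (nat_lit 44460) (XT.nd (nat_lit 156) (nat_lit 76) (nat_lit 0) (XT.nd (nat_lit 78) (nat_lit 304) (nat_lit 0) (XT.lf (nat_lit 0) (nat_lit 4417646019) (nat_lit 304) (nat_lit 139930858) (nat_lit 380) (nat_lit 8100527965) (nat_lit 127) (nat_lit 5) (nat_lit 131) (nat_lit 5) (nat_lit 132) (nat_lit 5) (nat_lit 620) (nat_lit 511) (nat_lit 429)) (XT.lf (nat_lit 0) (nat_lit 802572800) (nat_lit 304) (nat_lit 8013622929) (nat_lit 380) (nat_lit 3985300926) (nat_lit 123) (nat_lit 5) (nat_lit 127) (nat_lit 5) (nat_lit 128) (nat_lit 5) (nat_lit 621) (nat_lit 511) (nat_lit 428))) (XT.nd (nat_lit 74490) (nat_lit 0) (nat_lit 47196) (XT.lf (nat_lit 0) (nat_lit 235129620) (nat_lit 380) (nat_lit 2862671353) (nat_lit 76) (nat_lit 9849414523) (nat_lit 122) (nat_lit 5) (nat_lit 127) (nat_lit 5) (nat_lit 123) (nat_lit 5) (nat_lit 622) (nat_lit 511) (nat_lit 427)) (XT.nd (nat_lit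 78) (nat_lit 684) (nat_lit 0) (XT.lf (nat_lit 0) (nat_lit 1496992912) (nat_lit 684) (nat_lit 287905164) (nat_lit 0) (nat_lit 1496992912) (nat_lit 752) (nat_lit 5) (nat_lit 761) (nat_lit 4) (nat_lit 752) (nat_lit 4) (nat_lit 536) (nat_lit 512) (nat_lit 512)) (XT.lf (nat_lit 0) (nat_lit 3492789938) (nat_lit 684) (nat_lit 2784743677) (nat_lit 684) (nat_lit 302101953) (nat_lit 743) (nat_lit 4) (nat_lit 752) (nat_lit 5) (nat_lit 752) (nat_lit 4) (nat_lit 537) (nat_lit 512) (nat_lit 511))))) (XT.nd (nat_lit 156) (nat_lit 1900) (nat_lit 0) (XT.nd (nat_lit 78) (nat_lit 0) (nat_lit 0) (XT.lf (nat_lit 0) (nat_lit 993900270) (nat_lit 760) (nat_lit 1932092040) (nat_lit 836) (nat_lit 3670728256) (nat_lit 732) (nat_lit 5) (nat_lit 742) (nat_lit 5) (nat_lit 743) (nat_lit 4) (nat_lit 538) (nat_lit 512) (nat_lit 510)) (XT.lf (nat_lit 0) (nat_lit 5142164936) (nat_lit 760) (nat_lit 1018729546) (nat_lit 836) (nat_lit 454290814) (nat_lit 732) (nat_lit 5) (nat_lit 742) (nat_lit 5) (nat_lit 743) (nat_lit 4) (nat_lit 539) (nat_lit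 512) (nat_lit 509))) (XT.nd (nat_lit 78) (nat_lit 988) (nat_lit 0) (XT.lf (nat_lit 0) (nat_lit 2702635326) (nat_lit 836) (nat_lit 30876088) (nat_lit 912) (nat_lit 3901262409) (nat_lit 720) (nat_lit 5) (nat_lit 731) (nat_lit 5) (nat_lit 732) (nat_lit 5) (nat_lit 540) (nat_lit 512) (nat_lit 508)) (XT.nd (nat_lit 78) (nat_lit 76) (nat_lit 0) (XT.lf (nat_lit 0) (nat_lit 266237692) (nat_lit 912) (nat_lit 5658548908) (nat_lit 988) (nat_lit 730995039) (nat_lit 708) (nat_lit 5) (nat_lit 720) (nat_lit 5) (nat_lit 721) (nat_lit 4) (nat_lit 541) (nat_lit 512) (nat_lit 507)) (XT.lf (nat_lit 0) (nat_lit 2424980691) (nat_lit 988) (nat_lit 2147074187) (nat_lit 76) (nat_lit 2105730664) (nat_lit 707) (nat_lit 5) (nat_lit 720) (nat_lit 5) (nat_lit 708) (nat_lit 5) (nat_lit 542) (nat_lit 512) (nat_lit 506))))))) (XT.nd (nat_lit 780) (nat_lit 10792) (nat_lit 0) (XT.nd (nat_lit 390) (nat_lit 5472) (nat_lit 0) (XT.nd (nat_lit 156) (nat_lit 2280) (nat_lit 0) (XT.nd (nat_lit 78) (nat_lit 76) (nat_lit 0) (XT.lf (nat_lit 0) (nat_lit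 2149033388) (nat_lit 988) (nat_lit 3428981463) (nat_lit 1064) (nat_lit 1123246863) (nat_lit 694) (nat_lit 5) (nat_lit 707) (nat_lit 5) (nat_lit 708) (nat_lit 5) (nat_lit 543) (nat_lit 512) (nat_lit 505)) (XT.lf (nat_lit 0) (nat_lit 1986600193) (nat_lit 1064) (nat_lit 233405810) (nat_lit 76) (nat_lit 4506039353) (nat_lit 693) (nat_lit 5) (nat_lit 707) (nat_lit 5) (nat_lit 694) (nat_lit 5) (nat_lit 544) (nat_lit 512) (nat_lit 504))) (XT.nd (nat_lit 78) (nat_lit 1216) (nat_lit 0) (XT.lf (nat_lit 0) (nat_lit 4164933456) (nat_lit 1064) (nat_lit 937420654) (nat_lit 1140) (nat_lit 1649650233) (nat_lit 679) (nat_lit 5) (nat_lit 693) (nat_lit 5) (nat_lit 694) (nat_lit 5) (nat_lit 545) (nat_lit 512) (nat_lit 503)) (XT.nd (nat_lit 78) (nat_lit 0) (nat_lit 0) (XT.lf (nat_lit 0) (nat_lit 1430620974) (nat_lit 1216) (nat_lit 4946350407) (nat_lit 76) (nat_lit 402351577) (nat_lit 663) (nat_lit 5) (nat_lit 679) (nat_lit 5) (nat_lit 664) (nat_lit 5) (nat_lit 546) (nat_lit 512) (nat_lit 502)) (XT.lf (nat_lit 0) (nat_lit 4507407678)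 (nat_lit 1216) (nat_lit 503257268) (nat_lit 76) (nat_lit 1797167928) (nat_lit 663) (nat_lit 5) (nat_lit 679) (nat_lit 5) (nat_lit 664) (nat_lit 5) (nat_lit 547) (nat_lit 512) (nat_lit 501))))) (XT.nd (nat_lit 156) (nat_lit 2888) (nat_lit 0) (XT.nd (nat_lit 78) (nat_lit 1292) (nat_lit 0) (XT.lf (nat_lit 0) (nat_lit 758694658) (nat_lit 1292) (nat_lit 2815743150) (nat_lit 76) (nat_lit 3263163319) (nat_lit 646) (nat_lit 5) (nat_lit 663) (nat_lit 5) (nat_lit 647) (nat_lit 5) (nat_lit 548) (nat_lit 512) (nat_lit 500)) (XT.lf (nat_lit 0) (nat_lit 1728746992) (nat_lit 1292) (nat_lit 2069202811) (nat_lit 1368) (nat_lit 3070718532) (nat_lit 629) (nat_lit 5) (nat_lit 646) (nat_lit 5) (nat_lit 647) (nat_lit 5) (nat_lit 549) (nat_lit 512) (nat_lit 499))) (XT.nd (nat_lit 78) (nat_lit 2888) (nat_lit 0) (XT.lf (nat_lit 0) (nat_lit 6347588396) (nat_lit 1292) (nat_lit 505317201) (nat_lit 1368) (nat_lit 48355740) (nat_lit 629) (nat_lit 5) (nat_lit 646) (nat_lit 5) (nat_lit 647) (nat_lit 5) (nat_lit 550) (nat_lit 512) (nat_lit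 498)) (XT.nd (nat_lit 78) (nat_lit 1444) (nat_lit 0) (XT.lf (nat_lit 0) (nat_lit 2965598511) (nat_lit 1444) (nat_lit 2838337045) (nat_lit 76) (nat_lit 1130760434) (nat_lit 610) (nat_lit 5) (nat_lit 629) (nat_lit 5) (nat_lit 611) (nat_lit 5) (nat_lit 551) (nat_lit 512) (nat_lit 497)) (XT.lf (nat_lit 0) (nat_lit 1843236719) (nat_lit 1444) (nat_lit 4152798719) (nat_lit 1520) (nat_lit 973623086) (nat_lit 591) (nat_lit 5) (nat_lit 610) (nat_lit 5) (nat_lit 611) (nat_lit 5) (nat_lit 552) (nat_lit 512) (nat_lit 496)))))) (XT.nd (nat_lit 390) (nat_lit 5852) (nat_lit 0) (XT.nd (nat_lit 156) (nat_lit 3344) (nat_lit 0) (XT.nd (nat_lit 78) (nat_lit 1520) (nat_lit 0) (XT.lf (nat_lit 0) (nat_lit 2011880921) (nat_lit 1520) (nat_lit 417541831) (nat_lit 76) (nat_lit 4576481279) (nat_lit 590) (nat_lit 5) (nat_lit 610) (nat_lit 5) (nat_lit 591) (nat_lit 5) (nat_lit 553) (nat_lit 512) (nat_lit 495)) (XT.lf (nat_lit 0) (nat_lit 4381754511) (nat_lit 1520) (nat_lit 630225834) (nat_lit 1596) (nat_lit 2031409400) (nat_lit 570) (nat_lit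 5) (nat_lit 590) (nat_lit 5) (nat_lit 591) (nat_lit 5) (nat_lit 554) (nat_lit 512) (nat_lit 494))) (XT.nd (nat_lit 78) (nat_lit 1672) (nat_lit 0) (XT.lf (nat_lit 0) (nat_lit 942268608) (nat_lit 1672) (nat_lit 4922483673) (nat_lit 76) (nat_lit 1217450595) (nat_lit 548) (nat_lit 5) (nat_lit 570) (nat_lit 5) (nat_lit 549) (nat_lit 5) (nat_lit 555) (nat_lit 512) (nat_lit 493)) (XT.nd (nat_lit 78) (nat_lit 1672) (nat_lit 0) (XT.lf (nat_lit 0) (nat_lit 3911145650) (nat_lit 1672) (nat_lit 81675101) (nat_lit 76) (nat_lit 3129446757) (nat_lit 548) (nat_lit 5) (nat_lit 570) (nat_lit 5) (nat_lit 549) (nat_lit 5) (nat_lit 556) (nat_lit 512) (nat_lit 492)) (XT.lf (nat_lit 0) (nat_lit 4864776630) (nat_lit 1672) (nat_lit 2048118449) (nat_lit 1748) (nat_lit 250770722) (nat_lit 526) (nat_lit 5) (nat_lit 548) (nat_lit 5) (nat_lit 549) (nat_lit 5) (nat_lit 557) (nat_lit 512) (nat_lit 491))))) (XT.nd (nat_lit 234) (nat_lit 2128) (nat_lit 0) (XT.nd (nat_lit 78) (nat_lit 1900) (nat_lit 0) (XT.lf (nat_lit 0) (nat_lit 2666998586)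 (nat_lit 1748) (nat_lit 25655568) (nat_lit 1824) (nat_lit 4513676952) (nat_lit 502) (nat_lit 5) (nat_lit 525) (nat_lit 5) (nat_lit 526) (nat_lit 5) (nat_lit 558) (nat_lit 512) (nat_lit 490)) (XT.nd (nat_lit 78) (nat_lit 76) (nat_lit 0) (XT.lf (nat_lit 0) (nat_lit 448546688) (nat_lit 1824) (nat_lit 5217813018) (nat_lit 1900) (nat_lit 1583963594) (nat_lit 478) (nat_lit 5) (nat_lit 502) (nat_lit 5) (nat_lit 503) (nat_lit 5) (nat_lit 559) (nat_lit 512) (nat_lit 489)) (XT.lf (nat_lit 0) (nat_lit 1360236714) (nat_lit 1900) (nat_lit 1762914936) (nat_lit 76) (nat_lit 4172377162) (nat_lit 477) (nat_lit 5) (nat_lit 502) (nat_lit 5) (nat_lit 478) (nat_lit 5) (nat_lit 560) (nat_lit 512) (nat_lit 488)))) (XT.nd (nat_lit 78) (nat_lit 988) (nat_lit 0) (XT.lf (nat_lit 0) (nat_lit 3354787112) (nat_lit 1140) (nat_lit 953712211) (nat_lit 1216) (nat_lit 3033603973) (nat_lit 462) (nat_lit 5) (nat_lit 477) (nat_lit 5) (nat_lit 478) (nat_lit 5) (nat_lit 561) (nat_lit 512) (nat_lit 487)) (XT.nd (nat_lit 78) (nat_lit 76) (nat_lit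 0) (XT.lf (nat_lit 0) (nat_lit 1160155601) (nat_lit 912) (nat_lit 6128500121) (nat_lit 988) (nat_lit 101496949) (nat_lit 450) (nat_lit 5) (nat_lit 462) (nat_lit 5) (nat_lit 463) (nat_lit 5) (nat_lit 562) (nat_lit 512) (nat_lit 486)) (XT.lf (nat_lit 0) (nat_lit 2830272512) (nat_lit 988) (nat_lit 1055782501) (nat_lit 76) (nat_lit 3553156472) (nat_lit 449) (nat_lit 5) (nat_lit 462) (nat_lit 5) (nat_lit 450) (nat_lit 5) (nat_lit 563) (nat_lit 512) (nat_lit 485))))))))
noncomputable def xc48 : XT := (XT.nd (nat_lit 1560) (nat_lit 7600) (nat_lit 0) (XT.nd (nat_lit 780) (nat_lit 5700) (nat_lit 0) (XT.nd (nat_lit 390) (nat_lit 2508) (nat_lit 0) (XT.nd (nat_lit 156) (nat_lit 1824) (nat_lit 0) (XT.nd (nat_lit 78) (nat_lit 912) (nat_lit 0) (XT.lf (nat_lit 0) (nat_lit 4221185772) (nat_lit 912) (nat_lit 1572269179) (nat_lit 988) (nat_lit 1696302231) (nat_lit 437) (nat_lit 5) (nat_lit 449) (nat_lit 5) (nat_lit 450) (nat_lit 5) (nat_lit 564) (nat_lit 512) (nat_lit 484)) (XT.lf (nat_lit 0) (nat_lit 1230596269) (nat_lit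 912) (nat_lit 5507589498) (nat_lit 76) (nat_lit 803509795) (nat_lit 425) (nat_lit 5) (nat_lit 437) (nat_lit 5) (nat_lit 426) (nat_lit 5) (nat_lit 565) (nat_lit 512) (nat_lit 483))) (XT.nd (nat_lit 78) (nat_lit 1824) (nat_lit 0) (XT.lf (nat_lit 0) (nat_lit 4173555523) (nat_lit 912) (nat_lit 185302360) (nat_lit 76) (nat_lit 3235987601) (nat_lit 425) (nat_lit 5) (nat_lit 437) (nat_lit 5) (nat_lit 426) (nat_lit 5) (nat_lit 566) (nat_lit 512) (nat_lit 482)) (XT.nd (nat_lit 78) (nat_lit 912) (nat_lit 0) (XT.lf (nat_lit 0) (nat_lit 5257063801) (nat_lit 912) (nat_lit 1901191102) (nat_lit 988) (nat_lit 491147601) (nat_lit 413) (nat_lit 5) (nat_lit 425) (nat_lit 5) (nat_lit 426) (nat_lit 5) (nat_lit 567) (nat_lit 512) (nat_lit 481)) (XT.lf (nat_lit 0) (nat_lit 2439262351) (nat_lit 912) (nat_lit 4635242807) (nat_lit 76) (nat_lit 630734412) (nat_lit 401) (nat_lit 5) (nat_lit 413) (nat_lit 5) (nat_lit 402) (nat_lit 5) (nat_lit 568) (nat_lit 512) (nat_lit 480))))) (XT.nd (nat_lit 156) (nat_lit 1596) (nat_lit 0) (XT.nd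 (nat_lit 78) (nat_lit 76) (nat_lit 0) (XT.lf (nat_lit 0) (nat_lit 851110080) (nat_lit 836) (nat_lit 4554544683) (nat_lit 912) (nat_lit 2356796287) (nat_lit 390) (nat_lit 5) (nat_lit 401) (nat_lit 5) (nat_lit 402) (nat_lit 5) (nat_lit 569) (nat_lit 512) (nat_lit 479)) (XT.lf (nat_lit 0) (nat_lit 583832646) (nat_lit 912) (nat_lit 1370867648) (nat_lit 76) (nat_lit 5866403296) (nat_lit 389) (nat_lit 5) (nat_lit 401) (nat_lit 5) (nat_lit 390) (nat_lit 5) (nat_lit 570) (nat_lit 512) (nat_lit 478))) (XT.nd (nat_lit 78) (nat_lit 836) (nat_lit 0) (XT.lf (nat_lit 0) (nat_lit 3535153506) (nat_lit 836) (nat_lit 3620496090) (nat_lit 76) (nat_lit 725300803) (nat_lit 379) (nat_lit 5) (nat_lit 390) (nat_lit 5) (nat_lit 380) (nat_lit 5) (nat_lit 571) (nat_lit 512) (nat_lit 477)) (XT.nd (nat_lit 78) (nat_lit 76) (nat_lit 0) (XT.lf (nat_lit 0) (nat_lit 2038920648) (nat_lit 760) (nat_lit 4493527212) (nat_lit 836) (nat_lit 1409808839) (nat_lit 369) (nat_lit 5) (nat_lit 379) (nat_lit 5) (nat_lit 380) (nat_lit 5) (nat_lit 572)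 (nat_lit 512) (nat_lit 476)) (XT.lf (nat_lit 0) (nat_lit 1540343993) (nat_lit 836) (nat_lit 210415026) (nat_lit 76) (nat_lit 6254301114) (nat_lit 368) (nat_lit 5) (nat_lit 379) (nat_lit 5) (nat_lit 369) (nat_lit 5) (nat_lit 573) (nat_lit 512) (nat_lit 475)))))) (XT.nd (nat_lit 390) (nat_lit 2660) (nat_lit 0) (XT.nd (nat_lit 156) (nat_lit 1520) (nat_lit 0) (XT.nd (nat_lit 78) (nat_lit 760) (nat_lit 0) (XT.lf (nat_lit 0) (nat_lit 4526803192) (nat_lit 836) (nat_lit 2470817095) (nat_lit 76) (nat_lit 1071390766) (nat_lit 358) (nat_lit 5) (nat_lit 369) (nat_lit 5) (nat_lit 359) (nat_lit 5) (nat_lit 574) (nat_lit 512) (nat_lit 474)) (XT.lf (nat_lit 0) (nat_lit 3368509295) (nat_lit 760) (nat_lit 4192607915) (nat_lit 836) (nat_lit 573362651) (nat_lit 348) (nat_lit 5) (nat_lit 358) (nat_lit 5) (nat_lit 359) (nat_lit 5) (nat_lit 575) (nat_lit 512) (nat_lit 473))) (XT.nd (nat_lit 78) (nat_lit 760) (nat_lit 0) (XT.lf (nat_lit 0) (nat_lit 1099628562) (nat_lit 684) (nat_lit 1300354472) (nat_lit 760) (nat_lit 5801411178)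 (nat_lit 338) (nat_lit 5) (nat_lit 347) (nat_lit 5) (nat_lit 348) (nat_lit 5) (nat_lit 576) (nat_lit 512) (nat_lit 472)) (XT.nd (nat_lit 78) (nat_lit 760) (nat_lit 0) (XT.lf (nat_lit 0) (nat_lit 5422009212) (nat_lit 760) (nat_lit 1193007054) (nat_lit 76) (nat_lit 1654618268) (nat_lit 338) (nat_lit 5) (nat_lit 348) (nat_lit 5) (nat_lit 339) (nat_lit 5) (nat_lit 577) (nat_lit 512) (nat_lit 471)) (XT.lf (nat_lit 0) (nat_lit 157908028) (nat_lit 760) (nat_lit 3506993497) (nat_lit 76) (nat_lit 4674421154) (nat_lit 328) (nat_lit 5) (nat_lit 338) (nat_lit 5) (nat_lit 329) (nat_lit 5) (nat_lit 578) (nat_lit 512) (nat_lit 470))))) (XT.nd (nat_lit 156) (nat_lit 1292) (nat_lit 0) (XT.nd (nat_lit 78) (nat_lit 684) (nat_lit 0) (XT.lf (nat_lit 0) (nat_lit 2542988622) (nat_lit 684) (nat_lit 622151113) (nat_lit 760) (nat_lit 5245295275) (nat_lit 319) (nat_lit 5) (nat_lit 328) (nat_lit 5) (nat_lit 329) (nat_lit 5) (nat_lit 579) (nat_lit 512) (nat_lit 469)) (XT.lf (nat_lit 0) (nat_lit 209486373) (nat_lit 684) (nat_lit 6019754562)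 (nat_lit 760) (nat_lit 2253795358) (nat_lit 310) (nat_lit 5) (nat_lit 319) (nat_lit 5) (nat_lit 320) (nat_lit 5) (nat_lit 580) (nat_lit 512) (nat_lit 468))) (XT.nd (nat_lit 78) (nat_lit 1216) (nat_lit 0) (XT.lf (nat_lit 0) (nat_lit 786611234) (nat_lit 760) (nat_lit 2134592655) (nat_lit 76) (nat_lit 5635792576) (nat_lit 309) (nat_lit 5) (nat_lit 319) (nat_lit 5) (nat_lit 310) (nat_lit 5) (nat_lit 581) (nat_lit 512) (nat_lit 467)) (XT.nd (nat_lit 78) (nat_lit 608) (nat_lit 0) (XT.lf (nat_lit 0) (nat_lit 3842769166) (nat_lit 684) (nat_lit 4523211600) (nat_lit 76) (nat_lit 266455825) (nat_lit 301) (nat_lit 5) (nat_lit 310) (nat_lit 5) (nat_lit 302) (nat_lit 5) (nat_lit 582) (nat_lit 512) (nat_lit 466)) (XT.lf (nat_lit 0) (nat_lit 1745669196) (nat_lit 608) (nat_lit 5216546035) (nat_lit 684) (nat_lit 1747128099) (nat_lit 293) (nat_lit 5) (nat_lit 301) (nat_lit 5) (nat_lit 302) (nat_lit 5) (nat_lit 583) (nat_lit 512) (nat_lit 465))))))) (XT.nd (nat_lit 780) (nat_lit 3420) (nat_lit 0) (XT.nd (nat_lit 390) (nat_lit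 2280) (nat_lit 0) (XT.nd (nat_lit 156) (nat_lit 1216) (nat_lit 0) (XT.nd (nat_lit 78) (nat_lit 608) (nat_lit 0) (XT.lf (nat_lit 0) (nat_lit 1326296053) (nat_lit 684) (nat_lit 650690450) (nat_lit 76) (nat_lit 6810870222) (nat_lit 292) (nat_lit 5) (nat_lit 301) (nat_lit 5) (nat_lit 293) (nat_lit 5) (nat_lit 584) (nat_lit 512) (nat_lit 464)) (XT.lf (nat_lit 0) (nat_lit 4442430095) (nat_lit 684) (nat_lit 3078277389) (nat_lit 76) (nat_lit 1346910269) (nat_lit 284) (nat_lit 5) (nat_lit 293) (nat_lit 5) (nat_lit 285) (nat_lit 5) (nat_lit 585) (nat_lit 512) (nat_lit 463))) (XT.nd (nat_lit 78) (nat_lit 608) (nat_lit 0) (XT.lf (nat_lit 0) (nat_lit 3394465961) (nat_lit 608) (nat_lit 4224438848) (nat_lit 684) (nat_lit 1330109861) (nat_lit 276) (nat_lit 5) (nat_lit 284) (nat_lit 5) (nat_lit 285) (nat_lit 5) (nat_lit 586) (nat_lit 512) (nat_lit 462)) (XT.nd (nat_lit 78) (nat_lit 0) (nat_lit 0) (XT.lf (nat_lit 0) (nat_lit 952027622) (nat_lit 532) (nat_lit 836533924) (nat_lit 608) (nat_lit 7243528705) (nat_lit 268) (nat_lit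 5) (nat_lit 275) (nat_lit 5) (nat_lit 276) (nat_lit 5) (nat_lit 587) (nat_lit 512) (nat_lit 461)) (XT.lf (nat_lit 0) (nat_lit 4965378905) (nat_lit 608) (nat_lit 1533702827) (nat_lit 76) (nat_lit 2617299085) (nat_lit 268) (nat_lit 5) (nat_lit 276) (nat_lit 5) (nat_lit 269) (nat_lit 5) (nat_lit 588) (nat_lit 512) (nat_lit 460))))) (XT.nd (nat_lit 156) (nat_lit 1064) (nat_lit 0) (XT.nd (nat_lit 78) (nat_lit 608) (nat_lit 0) (XT.lf (nat_lit 0) (nat_lit 5151102665) (nat_lit 608) (nat_lit 3053457543) (nat_lit 684) (nat_lit 997821381) (nat_lit 260) (nat_lit 5) (nat_lit 268) (nat_lit 5) (nat_lit 269) (nat_lit 5) (nat_lit 589) (nat_lit 512) (nat_lit 459)) (XT.lf (nat_lit 0) (nat_lit 2180191464) (nat_lit 608) (nat_lit 6626916180) (nat_lit 76) (nat_lit 482890300) (nat_lit 252) (nat_lit 5) (nat_lit 260) (nat_lit 5) (nat_lit 253) (nat_lit 5) (nat_lit 590) (nat_lit 512) (nat_lit 458))) (XT.nd (nat_lit 78) (nat_lit 532) (nat_lit 0) (XT.lf (nat_lit 0) (nat_lit 107209924) (nat_lit 532) (nat_lit 5309840923) (nat_lit 608)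 (nat_lit 3962011819) (nat_lit 245) (nat_lit 5) (nat_lit 252) (nat_lit 5) (nat_lit 253) (nat_lit 5) (nat_lit 591) (nat_lit 512) (nat_lit 457)) (XT.nd (nat_lit 78) (nat_lit 532) (nat_lit 0) (XT.lf (nat_lit 0) (nat_lit 7011200679) (nat_lit 532) (nat_lit 1712690174) (nat_lit 608) (nat_lit 745913835) (nat_lit 245) (nat_lit 5) (nat_lit 252) (nat_lit 5) (nat_lit 253) (nat_lit 5) (nat_lit 592) (nat_lit 512) (nat_lit 456)) (XT.lf (nat_lit 0) (nat_lit 2504537890) (nat_lit 532) (nat_lit 5096022877) (nat_lit 76) (nat_lit 1961407067) (nat_lit 238) (nat_lit 5) (nat_lit 245) (nat_lit 5) (nat_lit 239) (nat_lit 5) (nat_lit 593) (nat_lit 512) (nat_lit 455)))))) (XT.nd (nat_lit 390) (nat_lit 1444) (nat_lit 0) (XT.nd (nat_lit 156) (nat_lit 1444) (nat_lit 0) (XT.nd (nat_lit 78) (nat_lit 0) (nat_lit 0) (XT.lf (nat_lit 0) (nat_lit 1860271967) (nat_lit 532) (nat_lit 3951373415) (nat_lit 608) (nat_lit 3844198386) (nat_lit 231) (nat_lit 5) (nat_lit 238) (nat_lit 5) (nat_lit 239) (nat_lit 5) (nat_lit 594) (nat_lit 512) (nat_lit 454))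 (XT.lf (nat_lit 0) (nat_lit 8970726466) (nat_lit 532) (nat_lit 210364619) (nat_lit 608) (nat_lit 570583025) (nat_lit 231) (nat_lit 5) (nat_lit 238) (nat_lit 5) (nat_lit 239) (nat_lit 5) (nat_lit 595) (nat_lit 512) (nat_lit 453))) (XT.nd (nat_lit 78) (nat_lit 912) (nat_lit 0) (XT.lf (nat_lit 0) (nat_lit 2759854707) (nat_lit 532) (nat_lit 3486414660) (nat_lit 76) (nat_lit 3602239778) (nat_lit 224) (nat_lit 5) (nat_lit 231) (nat_lit 5) (nat_lit 225) (nat_lit 5) (nat_lit 596) (nat_lit 512) (nat_lit 452)) (XT.nd (nat_lit 78) (nat_lit 456) (nat_lit 0) (XT.lf (nat_lit 0) (nat_lit 3700968853) (nat_lit 456) (nat_lit 2441779997) (nat_lit 532) (nat_lit 3804587608) (nat_lit 218) (nat_lit 5) (nat_lit 224) (nat_lit 5) (nat_lit 225) (nat_lit 5) (nat_lit 597) (nat_lit 512) (nat_lit 451)) (XT.lf (nat_lit 0) (nat_lit 981009625) (nat_lit 456) (nat_lit 8614611187) (nat_lit 532) (nat_lit 452473855) (nat_lit 212) (nat_lit 5) (nat_lit 218) (nat_lit 5) (nat_lit 219) (nat_lit 5) (nat_lit 598) (nat_lit 512) (nat_lit 450))))) (XT.nd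 (nat_lit 156) (nat_lit 912) (nat_lit 0) (XT.nd (nat_lit 78) (nat_lit 456) (nat_lit 0) (XT.lf (nat_lit 0) (nat_lit 2949329517) (nat_lit 532) (nat_lit 1802315276) (nat_lit 76) (nat_lit 5398407612) (nat_lit 211) (nat_lit 5) (nat_lit 218) (nat_lit 5) (nat_lit 212) (nat_lit 5) (nat_lit 599) (nat_lit 512) (nat_lit 449)) (XT.lf (nat_lit 0) (nat_lit 5625412911) (nat_lit 456) (nat_lit 788139919) (nat_lit 532) (nat_lit 3840428506) (nat_lit 205) (nat_lit 5) (nat_lit 211) (nat_lit 5) (nat_lit 212) (nat_lit 5) (nat_lit 600) (nat_lit 512) (nat_lit 448))) (XT.nd (nat_lit 78) (nat_lit 532) (nat_lit 0) (XT.lf (nat_lit 0) (nat_lit 2828895953) (nat_lit 380) (nat_lit 7134004772) (nat_lit 456) (nat_lit 396772010) (nat_lit 200) (nat_lit 5) (nat_lit 205) (nat_lit 5) (nat_lit 206) (nat_lit 5) (nat_lit 601) (nat_lit 512) (nat_lit 447)) (XT.nd (nat_lit 78) (nat_lit 456) (nat_lit 0) (XT.lf (nat_lit 0) (nat_lit 3075669155) (nat_lit 456) (nat_lit 47758239) (nat_lit 76) (nat_lit 7343631134) (nat_lit 199) (nat_lit 5) (nat_lit 205) (nat_lit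 5) (nat_lit 200) (nat_lit 5) (nat_lit 602) (nat_lit 512) (nat_lit 446)) (XT.lf (nat_lit 0) (nat_lit 6633292941) (nat_lit 532) (nat_lit 2952850707) (nat_lit 76) (nat_lit 989975656) (nat_lit 193) (nat_lit 5) (nat_lit 200) (nat_lit 5) (nat_lit 194) (nat_lit 5) (nat_lit 603) (nat_lit 512) (nat_lit 445))))))))
noncomputable def xc49 : XT := (XT.nd (nat_lit 75816) (nat_lit 0) (nat_lit 32300) (XT.nd (nat_lit 780) (nat_lit 2508) (nat_lit 0) (XT.nd (nat_lit 390) (nat_lit 1140) (nat_lit 0) (XT.nd (nat_lit 156) (nat_lit 836) (nat_lit 0) (XT.nd (nat_lit 78) (nat_lit 456) (nat_lit 0) (XT.lf (nat_lit 0) (nat_lit 4749933194) (nat_lit 380) (nat_lit 5529208370) (nat_lit 456) (nat_lit 407878922) (nat_lit 188) (nat_lit 5) (nat_lit 193) (nat_lit 5) (nat_lit 194) (nat_lit 5) (nat_lit 604) (nat_lit 512) (nat_lit 444)) (XT.lf (nat_lit 0) (nat_lit 1796930810) (nat_lit 380) (nat_lit 1355849128) (nat_lit 456) (nat_lit 7647006090) (nat_lit 182) (nat_lit 5) (nat_lit 187) (nat_lit 5) (nat_lit 188) (nat_lit 5) (nat_lit 605) (nat_lit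 512) (nat_lit 443))) (XT.nd (nat_lit 78) (nat_lit 836) (nat_lit 0) (XT.lf (nat_lit 0) (nat_lit 6803695348) (nat_lit 456) (nat_lit 1222723150) (nat_lit 76) (nat_lit 2887844965) (nat_lit 182) (nat_lit 5) (nat_lit 188) (nat_lit 5) (nat_lit 183) (nat_lit 5) (nat_lit 606) (nat_lit 512) (nat_lit 442)) (XT.nd (nat_lit 78) (nat_lit 456) (nat_lit 0) (XT.lf (nat_lit 0) (nat_lit 6740453270) (nat_lit 380) (nat_lit 3806153589) (nat_lit 456) (nat_lit 484044623) (nat_lit 177) (nat_lit 5) (nat_lit 182) (nat_lit 5) (nat_lit 183) (nat_lit 5) (nat_lit 607) (nat_lit 512) (nat_lit 441)) (XT.lf (nat_lit 0) (nat_lit 3174973482) (nat_lit 456) (nat_lit 7446594810) (nat_lit 76) (nat_lit 527339463) (nat_lit 171) (nat_lit 5) (nat_lit 177) (nat_lit 5) (nat_lit 172) (nat_lit 5) (nat_lit 608) (nat_lit 512) (nat_lit 440))))) (XT.nd (nat_lit 156) (nat_lit 760) (nat_lit 0) (XT.nd (nat_lit 78) (nat_lit 0) (nat_lit 0) (XT.lf (nat_lit 0) (nat_lit 570462482) (nat_lit 380) (nat_lit 6354668902) (nat_lit 456) (nat_lit 4343845521) (nat_lit 166)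 (nat_lit 5) (nat_lit 171) (nat_lit 5) (nat_lit 172) (nat_lit 5) (nat_lit 609) (nat_lit 512) (nat_lit 439)) (XT.lf (nat_lit 0) (nat_lit 8796853105) (nat_lit 380) (nat_lit 1970273067) (nat_lit 456) (nat_lit 623985135) (nat_lit 166) (nat_lit 5) (nat_lit 171) (nat_lit 5) (nat_lit 172) (nat_lit 5) (nat_lit 610) (nat_lit 512) (nat_lit 438))) (XT.nd (nat_lit 78) (nat_lit 304) (nat_lit 0) (XT.lf (nat_lit 0) (nat_lit 3149336538) (nat_lit 456) (nat_lit 5857139424) (nat_lit 76) (nat_lit 2508388432) (nat_lit 160) (nat_lit 5) (nat_lit 166) (nat_lit 5) (nat_lit 161) (nat_lit 5) (nat_lit 611) (nat_lit 512) (nat_lit 437)) (XT.nd (nat_lit 78) (nat_lit 0) (nat_lit 0) (XT.lf (nat_lit 0) (nat_lit 2432218105) (nat_lit 304) (nat_lit 4571409227) (nat_lit 380) (nat_lit 4637106076) (nat_lit 156) (nat_lit 5) (nat_lit 160) (nat_lit 5) (nat_lit 161) (nat_lit 5) (nat_lit 612) (nat_lit 512) (nat_lit 436)) (XT.lf (nat_lit 0) (nat_lit 10915542669) (nat_lit 304) (nat_lit 26556935) (nat_lit 380) (nat_lit 826878788) (nat_lit 156) (nat_lit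 5) (nat_lit 160) (nat_lit 5) (nat_lit 161) (nat_lit 5) (nat_lit 613) (nat_lit 512) (nat_lit 435)))))) (XT.nd (nat_lit 390) (nat_lit 988) (nat_lit 0) (XT.nd (nat_lit 156) (nat_lit 760) (nat_lit 0) (XT.nd (nat_lit 78) (nat_lit 304) (nat_lit 0) (XT.lf (nat_lit 0) (nat_lit 3067894205) (nat_lit 456) (nat_lit 4230069984) (nat_lit 76) (nat_lit 4600457923) (nat_lit 150) (nat_lit 5) (nat_lit 156) (nat_lit 5) (nat_lit 151) (nat_lit 5) (nat_lit 614) (nat_lit 512) (nat_lit 434)) (XT.lf (nat_lit 0) (nat_lit 4342254843) (nat_lit 304) (nat_lit 2689767528) (nat_lit 380) (nat_lit 4998272863) (nat_lit 146) (nat_lit 5) (nat_lit 150) (nat_lit 5) (nat_lit 151) (nat_lit 5) (nat_lit 615) (nat_lit 512) (nat_lit 433))) (XT.nd (nat_lit 78) (nat_lit 380) (nat_lit 0) (XT.lf (nat_lit 0) (nat_lit 927067197) (nat_lit 380) (nat_lit 10164568565) (nat_lit 456) (nat_lit 1072846469) (nat_lit 141) (nat_lit 5) (nat_lit 146) (nat_lit 5) (nat_lit 147) (nat_lit 5) (nat_lit 616) (nat_lit 512) (nat_lit 432)) (XT.nd (nat_lit 78) (nat_lit 304) (nat_lit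 0) (XT.lf (nat_lit 0) (nat_lit 2931028601) (nat_lit 456) (nat_lit 2569875085) (nat_lit 76) (nat_lit 6799301478) (nat_lit 140) (nat_lit 5) (nat_lit 146) (nat_lit 5) (nat_lit 141) (nat_lit 5) (nat_lit 617) (nat_lit 512) (nat_lit 431)) (XT.lf (nat_lit 0) (nat_lit 6296431689) (nat_lit 304) (nat_lit 714329494) (nat_lit 380) (nat_lit 5427537072) (nat_lit 136) (nat_lit 5) (nat_lit 140) (nat_lit 5) (nat_lit 141) (nat_lit 5) (nat_lit 618) (nat_lit 512) (nat_lit 430))))) (XT.nd (nat_lit 156) (nat_lit 608) (nat_lit 0) (XT.nd (nat_lit 78) (nat_lit 76) (nat_lit 0) (XT.lf (nat_lit 0) (nat_lit 2754832997) (nat_lit 304) (nat_lit 8448968691) (nat_lit 380) (nat_lit 1374717685) (nat_lit 132) (nat_lit 5) (nat_lit 136) (nat_lit 5) (nat_lit 137) (nat_lit 5) (nat_lit 619) (nat_lit 512) (nat_lit 429)) (XT.lf (nat_lit 0) (nat_lit 2738671186) (nat_lit 380) (nat_lit 881206260) (nat_lit 76) (nat_lit 9100995594) (nat_lit 131) (nat_lit 5) (nat_lit 136) (nat_lit 5) (nat_lit 132) (nat_lit 5) (nat_lit 620) (nat_lit 512) (nat_lit 428)))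 (XT.nd (nat_lit 78) (nat_lit 304) (nat_lit 0) (XT.lf (nat_lit 0) (nat_lit 6948613261) (nat_lit 380) (nat_lit 4583735780) (nat_lit 76) (nat_lit 1332889550) (nat_lit 127) (nat_lit 5) (nat_lit 132) (nat_lit 5) (nat_lit 128) (nat_lit 5) (nat_lit 621) (nat_lit 512) (nat_lit 427)) (XT.nd (nat_lit 74334) (nat_lit 0) (nat_lit 48488) (XT.lf (nat_lit 0) (nat_lit 4614094218) (nat_lit 304) (nat_lit 6658765723) (nat_lit 380) (nat_lit 1739029792) (nat_lit 123) (nat_lit 5) (nat_lit 127) (nat_lit 5) (nat_lit 128) (nat_lit 5) (nat_lit 622) (nat_lit 512) (nat_lit 426)) (XT.lf (nat_lit 0) (nat_lit 2283631372) (nat_lit 532) (nat_lit 492016131) (nat_lit 532) (nat_lit 492016131) (nat_lit 761) (nat_lit 4) (nat_lit 768) (nat_lit 5) (nat_lit 768) (nat_lit 4) (nat_lit 534) (nat_lit 513) (nat_lit 513))))))) (XT.nd (nat_lit 780) (nat_lit 11020) (nat_lit 0) (XT.nd (nat_lit 390) (nat_lit 2888) (nat_lit 0) (XT.nd (nat_lit 156) (nat_lit 1596) (nat_lit 0) (XT.nd (nat_lit 78) (nat_lit 0) (nat_lit 0) (XT.lf (nat_lit 0) (nat_lit 1975143027)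 (nat_lit 608) (nat_lit 281333941) (nat_lit 684) (nat_lit 4292778999) (nat_lit 752) (nat_lit 5) (nat_lit 760) (nat_lit 5) (nat_lit 761) (nat_lit 4) (nat_lit 535) (nat_lit 513) (nat_lit 512)) (XT.lf (nat_lit 0) (nat_lit 5488561403) (nat_lit 684) (nat_lit 602351827) (nat_lit 0) (nat_lit 473625120) (nat_lit 752) (nat_lit 5) (nat_lit 761) (nat_lit 4) (nat_lit 752) (nat_lit 4) (nat_lit 536) (nat_lit 513) (nat_lit 511))) (XT.nd (nat_lit 78) (nat_lit 836) (nat_lit 0) (XT.lf (nat_lit 0) (nat_lit 2125398172) (nat_lit 760) (nat_lit 3155594448) (nat_lit 76) (nat_lit 1299868118) (nat_lit 742) (nat_lit 5) (nat_lit 752) (nat_lit 5) (nat_lit 743) (nat_lit 4) (nat_lit 537) (nat_lit 513) (nat_lit 510)) (XT.nd (nat_lit 78) (nat_lit 76) (nat_lit 0) (XT.lf (nat_lit 0) (nat_lit 895561247) (nat_lit 760) (nat_lit 4416665349) (nat_lit 836) (nat_lit 1286427865) (nat_lit 732) (nat_lit 5) (nat_lit 742) (nat_lit 5) (nat_lit 743) (nat_lit 4) (nat_lit 538) (nat_lit 513) (nat_lit 509)) (XT.lf (nat_lit 0) (nat_lit 1868339961) (nat_lit 836)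 (nat_lit 1612474894) (nat_lit 76) (nat_lit 3136782665) (nat_lit 731) (nat_lit 5) (nat_lit 742) (nat_lit 5) (nat_lit 732) (nat_lit 5) (nat_lit 539) (nat_lit 513) (nat_lit 508))))) (XT.nd (nat_lit 156) (nat_lit 1064) (nat_lit 0) (XT.nd (nat_lit 78) (nat_lit 988) (nat_lit 0) (XT.lf (nat_lit 0) (nat_lit 2531863378) (nat_lit 836) (nat_lit 2481567634) (nat_lit 912) (nat_lit 1624432874) (nat_lit 720) (nat_lit 5) (nat_lit 731) (nat_lit 5) (nat_lit 732) (nat_lit 5) (nat_lit 540) (nat_lit 513) (nat_lit 507)) (XT.lf (nat_lit 0) (nat_lit 59808214) (nat_lit 912) (nat_lit 1422459738) (nat_lit 988) (nat_lit 5177270571) (nat_lit 707) (nat_lit 5) (nat_lit 719) (nat_lit 5) (nat_lit 720) (nat_lit 5) (nat_lit 541) (nat_lit 513) (nat_lit 506))) (XT.nd (nat_lit 78) (nat_lit 1064) (nat_lit 0) (XT.lf (nat_lit 0) (nat_lit 4300657456) (nat_lit 912) (nat_lit 285849587) (nat_lit 988) (nat_lit 2095785119) (nat_lit 707) (nat_lit 5) (nat_lit 719) (nat_lit 5) (nat_lit 720) (nat_lit 5) (nat_lit 542) (nat_lit 513) (nat_lit 505)) (XT.nd (nat_lit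 78) (nat_lit 0) (nat_lit 0) (XT.lf (nat_lit 0) (nat_lit 982314614) (nat_lit 1064) (nat_lit 4826579273) (nat_lit 76) (nat_lit 897499814) (nat_lit 693) (nat_lit 5) (nat_lit 707) (nat_lit 5) (nat_lit 694) (nat_lit 5) (nat_lit 543) (nat_lit 513) (nat_lit 504)) (XT.lf (nat_lit 0) (nat_lit 4043615545) (nat_lit 1064) (nat_lit 541804486) (nat_lit 76) (nat_lit 2146289315) (nat_lit 693) (nat_lit 5) (nat_lit 707) (nat_lit 5) (nat_lit 694) (nat_lit 5) (nat_lit 544) (nat_lit 513) (nat_lit 503)))))) (XT.nd (nat_lit 390) (nat_lit 6156) (nat_lit 0) (XT.nd (nat_lit 156) (nat_lit 2584) (nat_lit 0) (XT.nd (nat_lit 78) (nat_lit 1140) (nat_lit 0) (XT.lf (nat_lit 0) (nat_lit 360844082) (nat_lit 1140) (nat_lit 2934893432) (nat_lit 76) (nat_lit 3462591940) (nat_lit 678) (nat_lit 5) (nat_lit 693) (nat_lit 5) (nat_lit 679) (nat_lit 5) (nat_lit 545) (nat_lit 513) (nat_lit 502)) (XT.lf (nat_lit 0) (nat_lit 1445526292) (nat_lit 1140) (nat_lit 1935884883) (nat_lit 1216) (nat_lit 3404785535) (nat_lit 663) (nat_lit 5) (nat_lit 678) (nat_lit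 5) (nat_lit 679) (nat_lit 5) (nat_lit 546) (nat_lit 513) (nat_lit 501))) (XT.nd (nat_lit 78) (nat_lit 2584) (nat_lit 0) (XT.lf (nat_lit 0) (nat_lit 5900167370) (nat_lit 1140) (nat_lit 516439541) (nat_lit 1216) (nat_lit 398932984) (nat_lit 663) (nat_lit 5) (nat_lit 678) (nat_lit 5) (nat_lit 679) (nat_lit 5) (nat_lit 547) (nat_lit 513) (nat_lit 500)) (XT.nd (nat_lit 78) (nat_lit 1292) (nat_lit 0) (XT.lf (nat_lit 0) (nat_lit 2597038988) (nat_lit 1292) (nat_lit 3277333045) (nat_lit 76) (nat_lit 971454785) (nat_lit 646) (nat_lit 5) (nat_lit 663) (nat_lit 5) (nat_lit 647) (nat_lit 5) (nat_lit 548) (nat_lit 513) (nat_lit 499)) (XT.lf (nat_lit 0) (nat_lit 1233940295) (nat_lit 1292) (nat_lit 4367644007) (nat_lit 1368) (nat_lit 1276005288) (nat_lit 629) (nat_lit 5) (nat_lit 646) (nat_lit 5) (nat_lit 647) (nat_lit 5) (nat_lit 549) (nat_lit 513) (nat_lit 498))))) (XT.nd (nat_lit 234) (nat_lit 3192) (nat_lit 0) (XT.nd (nat_lit 78) (nat_lit 2888) (nat_lit 0) (XT.lf (nat_lit 0) (nat_lit 1692194730) (nat_lit 1368) (nat_lit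 1095707621) (nat_lit 76) (nat_lit 4122679966) (nat_lit 628) (nat_lit 5) (nat_lit 646) (nat_lit 5) (nat_lit 629) (nat_lit 5) (nat_lit 550) (nat_lit 513) (nat_lit 497)) (XT.nd (nat_lit 78) (nat_lit 1520) (nat_lit 0) (XT.lf (nat_lit 0) (nat_lit 3527599987) (nat_lit 1368) (nat_lit 1136087502) (nat_lit 1444) (nat_lit 2281161036) (nat_lit 610) (nat_lit 5) (nat_lit 628) (nat_lit 5) (nat_lit 629) (nat_lit 5) (nat_lit 551) (nat_lit 513) (nat_lit 496)) (XT.lf (nat_lit 0) (nat_lit 663165578) (nat_lit 1520) (nat_lit 5748153414) (nat_lit 76) (nat_lit 569236137) (nat_lit 590) (nat_lit 5) (nat_lit 610) (nat_lit 5) (nat_lit 591) (nat_lit 5) (nat_lit 552) (nat_lit 513) (nat_lit 495)))) (XT.nd (nat_lit 78) (nat_lit 3192) (nat_lit 0) (XT.lf (nat_lit 0) (nat_lit 3605930396) (nat_lit 1520) (nat_lit 1072714101) (nat_lit 76) (nat_lit 2338630324) (nat_lit 590) (nat_lit 5) (nat_lit 610) (nat_lit 5) (nat_lit 591) (nat_lit 5) (nat_lit 553) (nat_lit 513) (nat_lit 494)) (XT.nd (nat_lit 78) (nat_lit 1672) (nat_lit 0) (XT.lf (nat_lit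 0) (nat_lit 3690934508) (nat_lit 1520) (nat_lit 2881227749) (nat_lit 1596) (nat_lit 483276820) (nat_lit 570) (nat_lit 5) (nat_lit 590) (nat_lit 5) (nat_lit 591) (nat_lit 5) (nat_lit 554) (nat_lit 513) (nat_lit 493)) (XT.lf (nat_lit 0) (nat_lit 1418336186) (nat_lit 1596) (nat_lit 1009714105) (nat_lit 1672) (nat_lit 4666842969) (nat_lit 548) (nat_lit 5) (nat_lit 569) (nat_lit 5) (nat_lit 570) (nat_lit 5) (nat_lit 555) (nat_lit 513) (nat_lit 492))))))))
noncomputable def xc50 : XT := (XT.nd (nat_lit 1560) (nat_lit 9424) (nat_lit 0) (XT.nd (nat_lit 780) (nat_lit 5852) (nat_lit 0) (XT.nd (nat_lit 390) (nat_lit 3952) (nat_lit 0) (XT.nd (nat_lit 156) (nat_lit 3648) (nat_lit 0) (XT.nd (nat_lit 78) (nat_lit 1748) (nat_lit 0) (XT.lf (nat_lit 0) (nat_lit 5361613922) (nat_lit 1672) (nat_lit 856408329) (nat_lit 76) (nat_lit 917643031) (nat_lit 548) (nat_lit 5) (nat_lit 570) (nat_lit 5) (nat_lit 549) (nat_lit 5) (nat_lit 556) (nat_lit 513) (nat_lit 491)) (XT.lf (nat_lit 0) (nat_lit 1137052253) (nat_lit 1748) (nat_lit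 3132503513) (nat_lit 76) (nat_lit 2908028622) (nat_lit 525) (nat_lit 5) (nat_lit 548) (nat_lit 5) (nat_lit 526) (nat_lit 5) (nat_lit 557) (nat_lit 513) (nat_lit 490))) (XT.nd (nat_lit 78) (nat_lit 1900) (nat_lit 0) (XT.lf (nat_lit 0) (nat_lit 1793419404) (nat_lit 1748) (nat_lit 2250098631) (nat_lit 1824) (nat_lit 3177373555) (nat_lit 502) (nat_lit 5) (nat_lit 525) (nat_lit 5) (nat_lit 526) (nat_lit 5) (nat_lit 558) (nat_lit 513) (nat_lit 489)) (XT.nd (nat_lit 78) (nat_lit 1900) (nat_lit 0) (XT.lf (nat_lit 0) (nat_lit 6806383268) (nat_lit 1748) (nat_lit 166952717) (nat_lit 1824) (nat_lit 292426587) (nat_lit 502) (nat_lit 5) (nat_lit 525) (nat_lit 5) (nat_lit 526) (nat_lit 5) (nat_lit 559) (nat_lit 513) (nat_lit 488)) (XT.lf (nat_lit 0) (nat_lit 2603276211) (nat_lit 1900) (nat_lit 2727175440) (nat_lit 76) (nat_lit 1980980895) (nat_lit 477) (nat_lit 5) (nat_lit 502) (nat_lit 5) (nat_lit 478) (nat_lit 5) (nat_lit 560) (nat_lit 513) (nat_lit 487))))) (XT.nd (nat_lit 156) (nat_lit 1824) (nat_lit 0) (XT.nd (nat_lit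 78) (nat_lit 988) (nat_lit 0) (XT.lf (nat_lit 0) (nat_lit 2350444322) (nat_lit 1140) (nat_lit 3167678976) (nat_lit 1216) (nat_lit 1840553019) (nat_lit 462) (nat_lit 5) (nat_lit 477) (nat_lit 5) (nat_lit 478) (nat_lit 5) (nat_lit 561) (nat_lit 513) (nat_lit 486)) (XT.lf (nat_lit 0) (nat_lit 99508322) (nat_lit 912) (nat_lit 935770416) (nat_lit 988) (nat_lit 6372145338) (nat_lit 449) (nat_lit 5) (nat_lit 461) (nat_lit 5) (nat_lit 462) (nat_lit 5) (nat_lit 562) (nat_lit 513) (nat_lit 485))) (XT.nd (nat_lit 78) (nat_lit 1824) (nat_lit 0) (XT.lf (nat_lit 0) (nat_lit 3933269440) (nat_lit 988) (nat_lit 2155720187) (nat_lit 76) (nat_lit 1368129955) (nat_lit 449) (nat_lit 5) (nat_lit 462) (nat_lit 5) (nat_lit 450) (nat_lit 5) (nat_lit 563) (nat_lit 513) (nat_lit 484)) (XT.nd (nat_lit 78) (nat_lit 912) (nat_lit 0) (XT.lf (nat_lit 0) (nat_lit 3079375332) (nat_lit 912) (nat_lit 3783808286) (nat_lit 988) (nat_lit 645147929) (nat_lit 437) (nat_lit 5) (nat_lit 449) (nat_lit 5) (nat_lit 450) (nat_lit 5) (nat_lit 564) (nat_lit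 513) (nat_lit 483)) (XT.lf (nat_lit 0) (nat_lit 829354149) (nat_lit 836) (nat_lit 1399775748) (nat_lit 912) (nat_lit 5331781093) (nat_lit 425) (nat_lit 5) (nat_lit 436) (nat_lit 5) (nat_lit 437) (nat_lit 5) (nat_lit 565) (nat_lit 513) (nat_lit 482)))))) (XT.nd (nat_lit 390) (nat_lit 3116) (nat_lit 0) (XT.nd (nat_lit 156) (nat_lit 1748) (nat_lit 0) (XT.nd (nat_lit 78) (nat_lit 988) (nat_lit 0) (XT.lf (nat_lit 0) (nat_lit 5137628897) (nat_lit 912) (nat_lit 1427564627) (nat_lit 76) (nat_lit 1049557444) (nat_lit 425) (nat_lit 5) (nat_lit 437) (nat_lit 5) (nat_lit 426) (nat_lit 5) (nat_lit 566) (nat_lit 513) (nat_lit 481)) (XT.lf (nat_lit 0) (nat_lit 413634108) (nat_lit 988) (nat_lit 3701605097) (nat_lit 76) (nat_lit 3554679668) (nat_lit 412) (nat_lit 5) (nat_lit 425) (nat_lit 5) (nat_lit 413) (nat_lit 5) (nat_lit 567) (nat_lit 513) (nat_lit 480))) (XT.nd (nat_lit 78) (nat_lit 912) (nat_lit 0) (XT.lf (nat_lit 0) (nat_lit 1716974419) (nat_lit 836) (nat_lit 1582943015) (nat_lit 912) (nat_lit 4426529231) (nat_lit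 401) (nat_lit 5) (nat_lit 412) (nat_lit 5) (nat_lit 413) (nat_lit 5) (nat_lit 568) (nat_lit 513) (nat_lit 479)) (XT.nd (nat_lit 78) (nat_lit 912) (nat_lit 0) (XT.lf (nat_lit 0) (nat_lit 6226077982) (nat_lit 912) (nat_lit 551299093) (nat_lit 76) (nat_lit 1007086494) (nat_lit 401) (nat_lit 5) (nat_lit 413) (nat_lit 5) (nat_lit 402) (nat_lit 5) (nat_lit 569) (nat_lit 513) (nat_lit 478)) (XT.lf (nat_lit 0) (nat_lit 1343835088) (nat_lit 912) (nat_lit 2835286867) (nat_lit 76) (nat_lit 3664449971) (nat_lit 389) (nat_lit 5) (nat_lit 401) (nat_lit 5) (nat_lit 390) (nat_lit 5) (nat_lit 570) (nat_lit 513) (nat_lit 477))))) (XT.nd (nat_lit 156) (nat_lit 1596) (nat_lit 0) (XT.nd (nat_lit 78) (nat_lit 760) (nat_lit 0) (XT.lf (nat_lit 0) (nat_lit 2754182678) (nat_lit 760) (nat_lit 1502580463) (nat_lit 836) (nat_lit 3647424191) (nat_lit 379) (nat_lit 5) (nat_lit 389) (nat_lit 5) (nat_lit 390) (nat_lit 5) (nat_lit 571) (nat_lit 513) (nat_lit 476)) (XT.lf (nat_lit 0) (nat_lit 471436032) (nat_lit 760) (nat_lit 6739151315)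 (nat_lit 836) (nat_lit 755776413) (nat_lit 369) (nat_lit 5) (nat_lit 379) (nat_lit 5) (nat_lit 380) (nat_lit 5) (nat_lit 572) (nat_lit 513) (nat_lit 475))) (XT.nd (nat_lit 78) (nat_lit 1520) (nat_lit 0) (XT.lf (nat_lit 0) (nat_lit 2162392979) (nat_lit 836) (nat_lit 1833560044) (nat_lit 76) (nat_lit 4033598054) (nat_lit 368) (nat_lit 5) (nat_lit 379) (nat_lit 5) (nat_lit 369) (nat_lit 5) (nat_lit 573) (nat_lit 513) (nat_lit 474)) (XT.nd (nat_lit 78) (nat_lit 760) (nat_lit 0) (XT.lf (nat_lit 0) (nat_lit 3933540516) (nat_lit 760) (nat_lit 1174461572) (nat_lit 836) (nat_lit 2986317596) (nat_lit 358) (nat_lit 5) (nat_lit 368) (nat_lit 5) (nat_lit 369) (nat_lit 5) (nat_lit 574) (nat_lit 513) (nat_lit 473)) (XT.lf (nat_lit 0) (nat_lit 1636432162) (nat_lit 760) (nat_lit 6464317787) (nat_lit 836) (nat_lit 59870536) (nat_lit 348) (nat_lit 5) (nat_lit 358) (nat_lit 5) (nat_lit 359) (nat_lit 5) (nat_lit 575) (nat_lit 513) (nat_lit 472))))))) (XT.nd (nat_lit 780) (nat_lit 4560) (nat_lit 0) (XT.nd (nat_lit 390) (nat_lit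 2660) (nat_lit 0) (XT.nd (nat_lit 156) (nat_lit 1444) (nat_lit 0) (XT.nd (nat_lit 78) (nat_lit 684) (nat_lit 0) (XT.lf (nat_lit 0) (nat_lit 2877027653) (nat_lit 836) (nat_lit 703491736) (nat_lit 76) (nat_lit 4647543670) (nat_lit 347) (nat_lit 5) (nat_lit 358) (nat_lit 5) (nat_lit 348) (nat_lit 5) (nat_lit 576) (nat_lit 513) (nat_lit 471)) (XT.lf (nat_lit 0) (nat_lit 5248293317) (nat_lit 684) (nat_lit 612940715) (nat_lit 760) (nat_lit 2435826377) (nat_lit 338) (nat_lit 5) (nat_lit 347) (nat_lit 5) (nat_lit 348) (nat_lit 5) (nat_lit 577) (nat_lit 513) (nat_lit 470))) (XT.nd (nat_lit 78) (nat_lit 684) (nat_lit 0) (XT.lf (nat_lit 0) (nat_lit 525815082) (nat_lit 760) (nat_lit 5441199292) (nat_lit 76) (nat_lit 2400451136) (nat_lit 328) (nat_lit 5) (nat_lit 338) (nat_lit 5) (nat_lit 329) (nat_lit 5) (nat_lit 578) (nat_lit 513) (nat_lit 469)) (XT.nd (nat_lit 78) (nat_lit 0) (nat_lit 0) (XT.lf (nat_lit 0) (nat_lit 555758747) (nat_lit 684) (nat_lit 2942599691) (nat_lit 760) (nat_lit 4940913764) (nat_lit 319) (nat_lit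 5) (nat_lit 328) (nat_lit 5) (nat_lit 329) (nat_lit 5) (nat_lit 579) (nat_lit 513) (nat_lit 468)) (XT.lf (nat_lit 0) (nat_lit 6524466870) (nat_lit 760) (nat_lit 1821443223) (nat_lit 76) (nat_lit 166723831) (nat_lit 319) (nat_lit 5) (nat_lit 329) (nat_lit 5) (nat_lit 320) (nat_lit 5) (nat_lit 580) (nat_lit 513) (nat_lit 467))))) (XT.nd (nat_lit 156) (nat_lit 1292) (nat_lit 0) (XT.nd (nat_lit 78) (nat_lit 608) (nat_lit 0) (XT.lf (nat_lit 0) (nat_lit 1015232294) (nat_lit 760) (nat_lit 4248498757) (nat_lit 76) (nat_lit 3323499584) (nat_lit 309) (nat_lit 5) (nat_lit 319) (nat_lit 5) (nat_lit 310) (nat_lit 5) (nat_lit 581) (nat_lit 513) (nat_lit 466)) (XT.lf (nat_lit 0) (nat_lit 1941905862) (nat_lit 608) (nat_lit 2092607942) (nat_lit 684) (nat_lit 4628895034) (nat_lit 301) (nat_lit 5) (nat_lit 309) (nat_lit 5) (nat_lit 310) (nat_lit 5) (nat_lit 582) (nat_lit 513) (nat_lit 465))) (XT.nd (nat_lit 78) (nat_lit 1292) (nat_lit 0) (XT.lf (nat_lit 0) (nat_lit 7108201580) (nat_lit 684) (nat_lit 488886232) (nat_lit 76)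 (nat_lit 1144143471) (nat_lit 301) (nat_lit 5) (nat_lit 310) (nat_lit 5) (nat_lit 302) (nat_lit 5) (nat_lit 583) (nat_lit 513) (nat_lit 464)) (XT.nd (nat_lit 78) (nat_lit 608) (nat_lit 0) (XT.lf (nat_lit 0) (nat_lit 1414920474) (nat_lit 684) (nat_lit 2951469387) (nat_lit 76) (nat_lit 4453820070) (nat_lit 292) (nat_lit 5) (nat_lit 301) (nat_lit 5) (nat_lit 293) (nat_lit 5) (nat_lit 584) (nat_lit 513) (nat_lit 463)) (XT.lf (nat_lit 0) (nat_lit 3440147071) (nat_lit 608) (nat_lit 1046401757) (nat_lit 684) (nat_lit 4414312755) (nat_lit 284) (nat_lit 5) (nat_lit 292) (nat_lit 5) (nat_lit 293) (nat_lit 5) (nat_lit 585) (nat_lit 513) (nat_lit 462)))))) (XT.nd (nat_lit 390) (nat_lit 2660) (nat_lit 0) (XT.nd (nat_lit 156) (nat_lit 1216) (nat_lit 0) (XT.nd (nat_lit 78) (nat_lit 76) (nat_lit 0) (XT.lf (nat_lit 0) (nat_lit 960184971) (nat_lit 608) (nat_lit 6660093509) (nat_lit 684) (nat_lit 1362835418) (nat_lit 276) (nat_lit 5) (nat_lit 284) (nat_lit 5) (nat_lit 285) (nat_lit 5) (nat_lit 586) (nat_lit 513) (nat_lit 461))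 (XT.lf (nat_lit 0) (nat_lit 1730028143) (nat_lit 684) (nat_lit 1555429176) (nat_lit 76) (nat_lit 5781261629) (nat_lit 275) (nat_lit 5) (nat_lit 284) (nat_lit 5) (nat_lit 276) (nat_lit 5) (nat_lit 587) (nat_lit 513) (nat_lit 460))) (XT.nd (nat_lit 78) (nat_lit 684) (nat_lit 0) (XT.lf (nat_lit 0) (nat_lit 4860765038) (nat_lit 608) (nat_lit 4107675810) (nat_lit 76) (nat_lit 183490744) (nat_lit 268) (nat_lit 5) (nat_lit 276) (nat_lit 5) (nat_lit 269) (nat_lit 5) (nat_lit 588) (nat_lit 513) (nat_lit 459)) (XT.nd (nat_lit 78) (nat_lit 76) (nat_lit 0) (XT.lf (nat_lit 0) (nat_lit 2516120640) (nat_lit 608) (nat_lit 5547227873) (nat_lit 684) (nat_lit 1175316268) (nat_lit 260) (nat_lit 5) (nat_lit 268) (nat_lit 5) (nat_lit 269) (nat_lit 5) (nat_lit 589) (nat_lit 513) (nat_lit 458)) (XT.lf (nat_lit 0) (nat_lit 1965129666) (nat_lit 684) (nat_lit 65294986) (nat_lit 76) (nat_lit 7296677870) (nat_lit 259) (nat_lit 5) (nat_lit 268) (nat_lit 5) (nat_lit 260) (nat_lit 5) (nat_lit 590) (nat_lit 513) (nat_lit 457))))) (XT.nd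 (nat_lit 234) (nat_lit 1064) (nat_lit 0) (XT.nd (nat_lit 78) (nat_lit 1064) (nat_lit 0) (XT.lf (nat_lit 0) (nat_lit 5168434199) (nat_lit 608) (nat_lit 2674066494) (nat_lit 76) (nat_lit 1574338081) (nat_lit 252) (nat_lit 5) (nat_lit 260) (nat_lit 5) (nat_lit 253) (nat_lit 5) (nat_lit 591) (nat_lit 513) (nat_lit 456)) (XT.nd (nat_lit 78) (nat_lit 532) (nat_lit 0) (XT.lf (nat_lit 0) (nat_lit 4167864578) (nat_lit 532) (nat_lit 4270778714) (nat_lit 608) (nat_lit 1069670548) (nat_lit 245) (nat_lit 5) (nat_lit 252) (nat_lit 5) (nat_lit 253) (nat_lit 5) (nat_lit 592) (nat_lit 513) (nat_lit 455)) (XT.lf (nat_lit 0) (nat_lit 1534491868) (nat_lit 456) (nat_lit 599723958) (nat_lit 532) (nat_lit 7467319840) (nat_lit 238) (nat_lit 5) (nat_lit 244) (nat_lit 5) (nat_lit 245) (nat_lit 5) (nat_lit 593) (nat_lit 513) (nat_lit 454)))) (XT.nd (nat_lit 78) (nat_lit 1064) (nat_lit 0) (XT.lf (nat_lit 0) (nat_lit 5406712758) (nat_lit 532) (nat_lit 1157656600) (nat_lit 76) (nat_lit 3131734854) (nat_lit 238) (nat_lit 5) (nat_lit 245)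 (nat_lit 5) (nat_lit 239) (nat_lit 5) (nat_lit 594) (nat_lit 513) (nat_lit 453)) (XT.nd (nat_lit 78) (nat_lit 532) (nat_lit 0) (XT.lf (nat_lit 0) (nat_lit 5911183308) (nat_lit 532) (nat_lit 2838915515) (nat_lit 608) (nat_lit 1042357315) (nat_lit 231) (nat_lit 5) (nat_lit 238) (nat_lit 5) (nat_lit 239) (nat_lit 5) (nat_lit 595) (nat_lit 513) (nat_lit 452)) (XT.lf (nat_lit 0) (nat_lit 2238245342) (nat_lit 532) (nat_lit 6675486271) (nat_lit 76) (nat_lit 976741650) (nat_lit 224) (nat_lit 5) (nat_lit 231) (nat_lit 5) (nat_lit 225) (nat_lit 5) (nat_lit 596) (nat_lit 513) (nat_lit 451))))))))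
noncomputable def xc51 : XT := (XT.nd (nat_lit 1560) (nat_lit 1444) (nat_lit 0) (XT.nd (nat_lit 780) (nat_lit 2736) (nat_lit 0) (XT.nd (nat_lit 390) (nat_lit 1748) (nat_lit 0) (XT.nd (nat_lit 156) (nat_lit 988) (nat_lit 0) (XT.nd (nat_lit 78) (nat_lit 0) (nat_lit 0) (XT.lf (nat_lit 0) (nat_lit 443072072) (nat_lit 456) (nat_lit 5138852017) (nat_lit 532) (nat_lit 4408161164) (nat_lit 218) (nat_lit 5) (nat_lit 224) (nat_lit 5) (nat_lit 225) (nat_lit 5) (nat_lit 597) (nat_lit 513) (nat_lit 450)) (XT.lf (nat_lit 0) (nat_lit 7742119892) (nat_lit 456) (nat_lit 1259040765) (nat_lit 532) (nat_lit 1090355875) (nat_lit 218) (nat_lit 5) (nat_lit 224) (nat_lit 5) (nat_lit 225) (nat_lit 5) (nat_lit 598) (nat_lit 513) (nat_lit 449))) (XT.nd (nat_lit 78) (nat_lit 456) (nat_lit 0) (XT.lf (nat_lit 0) (nat_lit 2278215099) (nat_lit 532) (nat_lit 5221552757) (nat_lit 76) (nat_lit 2694621561) (nat_lit 211) (nat_lit 5) (nat_lit 218) (nat_lit 5) (nat_lit 212) (nat_lit 5) (nat_lit 599) (nat_lit 513) (nat_lit 448)) (XT.nd (nat_lit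 78) (nat_lit 0) (nat_lit 0) (XT.lf (nat_lit 0) (nat_lit 2134612151) (nat_lit 456) (nat_lit 3567647068) (nat_lit 532) (nat_lit 4596863055) (nat_lit 205) (nat_lit 5) (nat_lit 211) (nat_lit 5) (nat_lit 212) (nat_lit 5) (nat_lit 600) (nat_lit 513) (nat_lit 447)) (XT.lf (nat_lit 0) (nat_lit 9197802464) (nat_lit 532) (nat_lit 752005374) (nat_lit 76) (nat_lit 456082263) (nat_lit 205) (nat_lit 5) (nat_lit 212) (nat_lit 5) (nat_lit 206) (nat_lit 5) (nat_lit 601) (nat_lit 513) (nat_lit 446))))) (XT.nd (nat_lit 156) (nat_lit 836) (nat_lit 0) (XT.nd (nat_lit 78) (nat_lit 456) (nat_lit 0) (XT.lf (nat_lit 0) (nat_lit 2252682306) (nat_lit 456) (nat_lit 3705634054) (nat_lit 76) (nat_lit 4555511444) (nat_lit 199) (nat_lit 5) (nat_lit 205) (nat_lit 5) (nat_lit 200) (nat_lit 5) (nat_lit 602) (nat_lit 513) (nat_lit 445)) (XT.lf (nat_lit 0) (nat_lit 3897630837) (nat_lit 456) (nat_lit 1864938044) (nat_lit 532) (nat_lit 4861274757) (nat_lit 193) (nat_lit 5) (nat_lit 199) (nat_lit 5) (nat_lit 200) (nat_lit 5) (nat_lit 603) (nat_lit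 513) (nat_lit 444))) (XT.nd (nat_lit 78) (nat_lit 456) (nat_lit 0) (XT.lf (nat_lit 0) (nat_lit 912784622) (nat_lit 380) (nat_lit 8441733408) (nat_lit 456) (nat_lit 1381305090) (nat_lit 188) (nat_lit 5) (nat_lit 193) (nat_lit 5) (nat_lit 194) (nat_lit 5) (nat_lit 604) (nat_lit 513) (nat_lit 443)) (XT.nd (nat_lit 78) (nat_lit 380) (nat_lit 0) (XT.lf (nat_lit 0) (nat_lit 2163630853) (nat_lit 456) (nat_lit 2131892975) (nat_lit 76) (nat_lit 6553761327) (nat_lit 187) (nat_lit 5) (nat_lit 193) (nat_lit 5) (nat_lit 188) (nat_lit 5) (nat_lit 605) (nat_lit 513) (nat_lit 442)) (XT.lf (nat_lit 0) (nat_lit 5728306706) (nat_lit 380) (nat_lit 36556829) (nat_lit 456) (nat_lit 5199893002) (nat_lit 182) (nat_lit 5) (nat_lit 187) (nat_lit 5) (nat_lit 188) (nat_lit 5) (nat_lit 606) (nat_lit 513) (nat_lit 441)))))) (XT.nd (nat_lit 390) (nat_lit 1064) (nat_lit 0) (XT.nd (nat_lit 156) (nat_lit 1216) (nat_lit 0) (XT.nd (nat_lit 78) (nat_lit 76) (nat_lit 0) (XT.lf (nat_lit 0) (nat_lit 2648062705) (nat_lit 380) (nat_lit 6816516961)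 (nat_lit 456) (nat_lit 1617429082) (nat_lit 177) (nat_lit 5) (nat_lit 182) (nat_lit 5) (nat_lit 183) (nat_lit 5) (nat_lit 607) (nat_lit 513) (nat_lit 440)) (XT.lf (nat_lit 0) (nat_lit 2012586711) (nat_lit 456) (nat_lit 504420585) (nat_lit 76) (nat_lit 8684282512) (nat_lit 176) (nat_lit 5) (nat_lit 182) (nat_lit 5) (nat_lit 177) (nat_lit 5) (nat_lit 608) (nat_lit 513) (nat_lit 439))) (XT.nd (nat_lit 78) (nat_lit 836) (nat_lit 0) (XT.lf (nat_lit 0) (nat_lit 5723120771) (nat_lit 456) (nat_lit 3711920348) (nat_lit 76) (nat_lit 1887110584) (nat_lit 171) (nat_lit 5) (nat_lit 177) (nat_lit 5) (nat_lit 172) (nat_lit 5) (nat_lit 609) (nat_lit 513) (nat_lit 438)) (XT.nd (nat_lit 78) (nat_lit 456) (nat_lit 0) (XT.lf (nat_lit 0) (nat_lit 4439928048) (nat_lit 380) (nat_lit 5084684259) (nat_lit 456) (nat_lit 1920484127) (nat_lit 166) (nat_lit 5) (nat_lit 171) (nat_lit 5) (nat_lit 172) (nat_lit 5) (nat_lit 610) (nat_lit 513) (nat_lit 437)) (XT.lf (nat_lit 0) (nat_lit 1188297439) (nat_lit 380) (nat_lit 620041541) (nat_lit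 456) (nat_lit 9761909198) (nat_lit 160) (nat_lit 5) (nat_lit 165) (nat_lit 5) (nat_lit 166) (nat_lit 5) (nat_lit 611) (nat_lit 513) (nat_lit 436))))) (XT.nd (nat_lit 156) (nat_lit 760) (nat_lit 0) (XT.nd (nat_lit 78) (nat_lit 304) (nat_lit 0) (XT.lf (nat_lit 0) (nat_lit 5627032132) (nat_lit 456) (nat_lit 2145487995) (nat_lit 76) (nat_lit 3924309267) (nat_lit 160) (nat_lit 5) (nat_lit 166) (nat_lit 5) (nat_lit 161) (nat_lit 5) (nat_lit 612) (nat_lit 513) (nat_lit 435)) (XT.lf (nat_lit 0) (nat_lit 6284467249) (nat_lit 304) (nat_lit 3251289785) (nat_lit 380) (nat_lit 2289912536) (nat_lit 156) (nat_lit 5) (nat_lit 160) (nat_lit 5) (nat_lit 161) (nat_lit 5) (nat_lit 613) (nat_lit 513) (nat_lit 434))) (XT.nd (nat_lit 78) (nat_lit 304) (nat_lit 0) (XT.lf (nat_lit 0) (nat_lit 1556416822) (nat_lit 456) (nat_lit 9031955114) (nat_lit 76) (nat_lit 1368284200) (nat_lit 150) (nat_lit 5) (nat_lit 156) (nat_lit 5) (nat_lit 151) (nat_lit 5) (nat_lit 614) (nat_lit 513) (nat_lit 433)) (XT.nd (nat_lit 78) (nat_lit 304) (nat_lit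 0) (XT.lf (nat_lit 0) (nat_lit 5477009377) (nat_lit 456) (nat_lit 541239469) (nat_lit 76) (nat_lit 6071151354) (nat_lit 150) (nat_lit 5) (nat_lit 156) (nat_lit 5) (nat_lit 151) (nat_lit 5) (nat_lit 615) (nat_lit 513) (nat_lit 432)) (XT.lf (nat_lit 0) (nat_lit 8177706644) (nat_lit 304) (nat_lit 1321017446) (nat_lit 380) (nat_lit 2725621305) (nat_lit 146) (nat_lit 5) (nat_lit 150) (nat_lit 5) (nat_lit 151) (nat_lit 5) (nat_lit 616) (nat_lit 513) (nat_lit 431))))))) (XT.nd (nat_lit 74958) (nat_lit 0) (nat_lit 40660) (XT.nd (nat_lit 74568) (nat_lit 0) (nat_lit 47424) (XT.nd (nat_lit 156) (nat_lit 684) (nat_lit 0) (XT.nd (nat_lit 78) (nat_lit 304) (nat_lit 0) (XT.lf (nat_lit 0) (nat_lit 1249332264) (nat_lit 456) (nat_lit 7663051332) (nat_lit 76) (nat_lit 3448911528) (nat_lit 140) (nat_lit 5) (nat_lit 146) (nat_lit 5) (nat_lit 141) (nat_lit 5) (nat_lit 617) (nat_lit 513) (nat_lit 430)) (XT.lf (nat_lit 0) (nat_lit 1110951724) (nat_lit 304) (nat_lit 4169521932) (nat_lit 380) (nat_lit 7219886595) (nat_lit 136) (nat_lit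 5) (nat_lit 140) (nat_lit 5) (nat_lit 141) (nat_lit 5) (nat_lit 618) (nat_lit 513) (nat_lit 429))) (XT.nd (nat_lit 78) (nat_lit 684) (nat_lit 0) (XT.lf (nat_lit 0) (nat_lit 9418346169) (nat_lit 380) (nat_lit 2530776343) (nat_lit 76) (nat_lit 692562426) (nat_lit 136) (nat_lit 5) (nat_lit 141) (nat_lit 5) (nat_lit 137) (nat_lit 5) (nat_lit 619) (nat_lit 513) (nat_lit 428)) (XT.nd (nat_lit 78) (nat_lit 304) (nat_lit 0) (XT.lf (nat_lit 0) (nat_lit 882722911) (nat_lit 380) (nat_lit 6276241471) (nat_lit 76) (nat_lit 5625945917) (nat_lit 131) (nat_lit 5) (nat_lit 136) (nat_lit 5) (nat_lit 132) (nat_lit 5) (nat_lit 620) (nat_lit 513) (nat_lit 427)) (XT.lf (nat_lit 0) (nat_lit 2799468025) (nat_lit 304) (nat_lit 2234255222) (nat_lit 380) (nat_lit 7896731632) (nat_lit 127) (nat_lit 5) (nat_lit 131) (nat_lit 5) (nat_lit 132) (nat_lit 5) (nat_lit 621) (nat_lit 513) (nat_lit 426))))) (XT.nd (nat_lit 156) (nat_lit 760) (nat_lit 0) (XT.nd (nat_lit 78) (nat_lit 532) (nat_lit 0) (XT.lf (nat_lit 0) (nat_lit 833189828) (nat_lit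 532) (nat_lit 1588899403) (nat_lit 0) (nat_lit 833189828) (nat_lit 768) (nat_lit 5) (nat_lit 775) (nat_lit 4) (nat_lit 768) (nat_lit 4) (nat_lit 532) (nat_lit 514) (nat_lit 514)) (XT.lf (nat_lit 0) (nat_lit 647872514) (nat_lit 532) (nat_lit 4254685924) (nat_lit 532) (nat_lit 1620086665) (nat_lit 761) (nat_lit 4) (nat_lit 768) (nat_lit 5) (nat_lit 768) (nat_lit 4) (nat_lit 533) (nat_lit 514) (nat_lit 513))) (XT.nd (nat_lit 78) (nat_lit 684) (nat_lit 0) (XT.lf (nat_lit 0) (nat_lit 1590536302) (nat_lit 608) (nat_lit 2004656378) (nat_lit 76) (nat_lit 2940689954) (nat_lit 760) (nat_lit 5) (nat_lit 768) (nat_lit 5) (nat_lit 761) (nat_lit 4) (nat_lit 534) (nat_lit 514) (nat_lit 512)) (XT.nd (nat_lit 78) (nat_lit 76) (nat_lit 0) (XT.lf (nat_lit 0) (nat_lit 1905885945) (nat_lit 608) (nat_lit 2874173565) (nat_lit 684) (nat_lit 1770387639) (nat_lit 752) (nat_lit 5) (nat_lit 760) (nat_lit 5) (nat_lit 761) (nat_lit 4) (nat_lit 535) (nat_lit 514) (nat_lit 511)) (XT.lf (nat_lit 0) (nat_lit 1387004137) (nat_lit 684) (nat_lit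 704753268) (nat_lit 76) (nat_lit 4474595026) (nat_lit 751) (nat_lit 5) (nat_lit 760) (nat_lit 5) (nat_lit 752) (nat_lit 5) (nat_lit 536) (nat_lit 514) (nat_lit 510)))))) (XT.nd (nat_lit 390) (nat_lit 4332) (nat_lit 0) (XT.nd (nat_lit 156) (nat_lit 912) (nat_lit 0) (XT.nd (nat_lit 78) (nat_lit 836) (nat_lit 0) (XT.lf (nat_lit 0) (nat_lit 3294440103) (nat_lit 684) (nat_lit 1236934050) (nat_lit 760) (nat_lit 2052020694) (nat_lit 742) (nat_lit 5) (nat_lit 751) (nat_lit 5) (nat_lit 752) (nat_lit 5) (nat_lit 537) (nat_lit 514) (nat_lit 509)) (XT.lf (nat_lit 0) (nat_lit 733147643) (nat_lit 760) (nat_lit 326062166) (nat_lit 836) (nat_lit 5542698604) (nat_lit 731) (nat_lit 5) (nat_lit 741) (nat_lit 5) (nat_lit 742) (nat_lit 5) (nat_lit 538) (nat_lit 514) (nat_lit 508))) (XT.nd (nat_lit 78) (nat_lit 912) (nat_lit 0) (XT.lf (nat_lit 0) (nat_lit 4159344584) (nat_lit 836) (nat_lit 1810505934) (nat_lit 76) (nat_lit 651590903) (nat_lit 731) (nat_lit 5) (nat_lit 742) (nat_lit 5) (nat_lit 732) (nat_lit 5) (nat_lit 539) (nat_lit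 514) (nat_lit 507)) (XT.nd (nat_lit 78) (nat_lit 0) (nat_lit 0) (XT.lf (nat_lit 0) (nat_lit 617376411) (nat_lit 912) (nat_lit 4341255189) (nat_lit 76) (nat_lit 1683725023) (nat_lit 719) (nat_lit 5) (nat_lit 731) (nat_lit 5) (nat_lit 720) (nat_lit 5) (nat_lit 540) (nat_lit 514) (nat_lit 506)) (XT.lf (nat_lit 0) (nat_lit 3667729118) (nat_lit 912) (nat_lit 212687281) (nat_lit 76) (nat_lit 2784106457) (nat_lit 719) (nat_lit 5) (nat_lit 731) (nat_lit 5) (nat_lit 720) (nat_lit 5) (nat_lit 541) (nat_lit 514) (nat_lit 505))))) (XT.nd (nat_lit 234) (nat_lit 2356) (nat_lit 0) (XT.nd (nat_lit 78) (nat_lit 988) (nat_lit 0) (XT.lf (nat_lit 0) (nat_lit 47802037) (nat_lit 988) (nat_lit 2688707064) (nat_lit 76) (nat_lit 3951473577) (nat_lit 706) (nat_lit 5) (nat_lit 719) (nat_lit 5) (nat_lit 707) (nat_lit 5) (nat_lit 542) (nat_lit 514) (nat_lit 504)) (XT.nd (nat_lit 78) (nat_lit 0) (nat_lit 0) (XT.lf (nat_lit 0) (nat_lit 1534870794) (nat_lit 988) (nat_lit 1521664592) (nat_lit 1064) (nat_lit 3656115852) (nat_lit 693) (nat_lit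 5) (nat_lit 706) (nat_lit 5) (nat_lit 707) (nat_lit 5) (nat_lit 543) (nat_lit 514) (nat_lit 503)) (XT.lf (nat_lit 0) (nat_lit 5827826474) (nat_lit 988) (nat_lit 248592705) (nat_lit 1064) (nat_lit 662377587) (nat_lit 693) (nat_lit 5) (nat_lit 706) (nat_lit 5) (nat_lit 707) (nat_lit 5) (nat_lit 544) (nat_lit 514) (nat_lit 502)))) (XT.nd (nat_lit 78) (nat_lit 1216) (nat_lit 0) (XT.lf (nat_lit 0) (nat_lit 2323045311) (nat_lit 1140) (nat_lit 3354119679) (nat_lit 76) (nat_lit 1088729267) (nat_lit 678) (nat_lit 5) (nat_lit 693) (nat_lit 5) (nat_lit 679) (nat_lit 5) (nat_lit 545) (nat_lit 514) (nat_lit 501)) (XT.nd (nat_lit 78) (nat_lit 76) (nat_lit 0) (XT.lf (nat_lit 0) (nat_lit 994406821) (nat_lit 1140) (nat_lit 4314032971) (nat_lit 1216) (nat_lit 1486026623) (nat_lit 663) (nat_lit 5) (nat_lit 678) (nat_lit 5) (nat_lit 679) (nat_lit 5) (nat_lit 546) (nat_lit 514) (nat_lit 500)) (XT.lf (nat_lit 0) (nat_lit 1467902311) (nat_lit 1216) (nat_lit 1410861767) (nat_lit 76) (nat_lit 3945489380) (nat_lit 662) (nat_lit 5)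 (nat_lit 678) (nat_lit 5) (nat_lit 663) (nat_lit 5) (nat_lit 547) (nat_lit 514) (nat_lit 499))))))))
noncomputable def xc52 : XT := (XT.nd (nat_lit 1560) (nat_lit 10944) (nat_lit 0) (XT.nd (nat_lit 780) (nat_lit 8588) (nat_lit 0) (XT.nd (nat_lit 390) (nat_lit 4940) (nat_lit 0) (XT.nd (nat_lit 156) (nat_lit 2888) (nat_lit 0) (XT.nd (nat_lit 78) (nat_lit 1368) (nat_lit 0) (XT.lf (nat_lit 0) (nat_lit 3044254388) (nat_lit 1216) (nat_lit 1373187078) (nat_lit 1292) (nat_lit 2437872493) (nat_lit 646) (nat_lit 5) (nat_lit 662) (nat_lit 5) (nat_lit 663) (nat_lit 5) (nat_lit 548) (nat_lit 514) (nat_lit 498)) (XT.lf (nat_lit 0) (nat_lit 484185372) (nat_lit 1368) (nat_lit 6215528447) (nat_lit 76) (nat_lit 188168952) (nat_lit 628) (nat_lit 5) (nat_lit 646) (nat_lit 5) (nat_lit 629) (nat_lit 5) (nat_lit 549) (nat_lit 514) (nat_lit 497))) (XT.nd (nat_lit 78) (nat_lit 2888) (nat_lit 0) (XT.lf (nat_lit 0) (nat_lit 3405004293) (nat_lit 1368) (nat_lit 1702310871) (nat_lit 76) (nat_lit 1814008850) (nat_lit 628) (nat_lit 5)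 (nat_lit 646) (nat_lit 5) (nat_lit 629) (nat_lit 5) (nat_lit 550) (nat_lit 514) (nat_lit 496)) (XT.nd (nat_lit 78) (nat_lit 1520) (nat_lit 0) (XT.lf (nat_lit 0) (nat_lit 2886669815) (nat_lit 1368) (nat_lit 3455620737) (nat_lit 1444) (nat_lit 613985063) (nat_lit 610) (nat_lit 5) (nat_lit 628) (nat_lit 5) (nat_lit 629) (nat_lit 5) (nat_lit 551) (nat_lit 514) (nat_lit 495)) (XT.lf (nat_lit 0) (nat_lit 537731099) (nat_lit 1444) (nat_lit 1732644473) (nat_lit 1520) (nat_lit 4722153387) (nat_lit 590) (nat_lit 5) (nat_lit 609) (nat_lit 5) (nat_lit 610) (nat_lit 5) (nat_lit 552) (nat_lit 514) (nat_lit 494))))) (XT.nd (nat_lit 156) (nat_lit 3344) (nat_lit 0) (XT.nd (nat_lit 78) (nat_lit 1596) (nat_lit 0) (XT.lf (nat_lit 0) (nat_lit 5172508613) (nat_lit 1520) (nat_lit 1794696575) (nat_lit 76) (nat_lit 62857289) (nat_lit 590) (nat_lit 5) (nat_lit 610) (nat_lit 5) (nat_lit 591) (nat_lit 5) (nat_lit 553) (nat_lit 514) (nat_lit 493)) (XT.lf (nat_lit 0) (nat_lit 1022521696) (nat_lit 1596) (nat_lit 4142684888) (nat_lit 76)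 (nat_lit 1903561326) (nat_lit 569) (nat_lit 5) (nat_lit 590) (nat_lit 5) (nat_lit 570) (nat_lit 5) (nat_lit 554) (nat_lit 514) (nat_lit 492))) (XT.nd (nat_lit 78) (nat_lit 1748) (nat_lit 0) (XT.lf (nat_lit 0) (nat_lit 600009739) (nat_lit 1596) (nat_lit 3293588941) (nat_lit 1672) (nat_lit 3215240016) (nat_lit 548) (nat_lit 5) (nat_lit 569) (nat_lit 5) (nat_lit 570) (nat_lit 5) (nat_lit 555) (nat_lit 514) (nat_lit 491)) (XT.nd (nat_lit 78) (nat_lit 1748) (nat_lit 0) (XT.lf (nat_lit 0) (nat_lit 5440985364) (nat_lit 1596) (nat_lit 1351932355) (nat_lit 1672) (nat_lit 357378990) (nat_lit 548) (nat_lit 5) (nat_lit 569) (nat_lit 5) (nat_lit 570) (nat_lit 5) (nat_lit 556) (nat_lit 514) (nat_lit 490)) (XT.lf (nat_lit 0) (nat_lit 2492720368) (nat_lit 1748) (nat_lit 4038747511) (nat_lit 76) (nat_lit 661413521) (nat_lit 525) (nat_lit 5) (nat_lit 548) (nat_lit 5) (nat_lit 526) (nat_lit 5) (nat_lit 557) (nat_lit 514) (nat_lit 489)))))) (XT.nd (nat_lit 390) (nat_lit 3724) (nat_lit 0) (XT.nd (nat_lit 156) (nat_lit 3040)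 (nat_lit 0) (XT.nd (nat_lit 78) (nat_lit 76) (nat_lit 0) (XT.lf (nat_lit 0) (nat_lit 848429216) (nat_lit 1748) (nat_lit 4517172082) (nat_lit 1824) (nat_lit 1871260037) (nat_lit 502) (nat_lit 5) (nat_lit 525) (nat_lit 5) (nat_lit 526) (nat_lit 5) (nat_lit 558) (nat_lit 514) (nat_lit 488)) (XT.lf (nat_lit 0) (nat_lit 973130797) (nat_lit 1824) (nat_lit 1453463153) (nat_lit 76) (nat_lit 4855552961) (nat_lit 501) (nat_lit 5) (nat_lit 525) (nat_lit 5) (nat_lit 502) (nat_lit 5) (nat_lit 559) (nat_lit 514) (nat_lit 487))) (XT.nd (nat_lit 78) (nat_lit 1216) (nat_lit 0) (XT.lf (nat_lit 0) (nat_lit 3561964204) (nat_lit 1824) (nat_lit 256550772) (nat_lit 1900) (nat_lit 3510194581) (nat_lit 477) (nat_lit 5) (nat_lit 501) (nat_lit 5) (nat_lit 502) (nat_lit 5) (nat_lit 560) (nat_lit 514) (nat_lit 486)) (XT.nd (nat_lit 78) (nat_lit 76) (nat_lit 0) (XT.lf (nat_lit 0) (nat_lit 1272013797) (nat_lit 1140) (nat_lit 5426313368) (nat_lit 1216) (nat_lit 678327819) (nat_lit 462) (nat_lit 5) (nat_lit 477) (nat_lit 5) (nat_lit 478)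 (nat_lit 5) (nat_lit 561) (nat_lit 514) (nat_lit 485)) (XT.lf (nat_lit 0) (nat_lit 2155421349) (nat_lit 1216) (nat_lit 1032309827) (nat_lit 76) (nat_lit 4238058364) (nat_lit 461) (nat_lit 5) (nat_lit 477) (nat_lit 5) (nat_lit 462) (nat_lit 5) (nat_lit 562) (nat_lit 514) (nat_lit 484))))) (XT.nd (nat_lit 156) (nat_lit 1824) (nat_lit 0) (XT.nd (nat_lit 78) (nat_lit 988) (nat_lit 0) (XT.lf (nat_lit 0) (nat_lit 4138660035) (nat_lit 912) (nat_lit 873108230) (nat_lit 988) (nat_lit 2464550559) (nat_lit 449) (nat_lit 5) (nat_lit 461) (nat_lit 5) (nat_lit 462) (nat_lit 5) (nat_lit 563) (nat_lit 514) (nat_lit 483)) (XT.lf (nat_lit 0) (nat_lit 369532484) (nat_lit 988) (nat_lit 5669988612) (nat_lit 76) (nat_lit 1488740531) (nat_lit 436) (nat_lit 5) (nat_lit 449) (nat_lit 5) (nat_lit 437) (nat_lit 5) (nat_lit 564) (nat_lit 514) (nat_lit 482))) (XT.nd (nat_lit 78) (nat_lit 1824) (nat_lit 0) (XT.lf (nat_lit 0) (nat_lit 3204776824) (nat_lit 988) (nat_lit 453276494) (nat_lit 76) (nat_lit 3923316273) (nat_lit 436) (nat_lit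 5) (nat_lit 449) (nat_lit 5) (nat_lit 437) (nat_lit 5) (nat_lit 565) (nat_lit 514) (nat_lit 481)) (XT.nd (nat_lit 78) (nat_lit 988) (nat_lit 0) (XT.lf (nat_lit 0) (nat_lit 4879217139) (nat_lit 836) (nat_lit 1199306820) (nat_lit 912) (nat_lit 1557381480) (nat_lit 425) (nat_lit 5) (nat_lit 436) (nat_lit 5) (nat_lit 437) (nat_lit 5) (nat_lit 566) (nat_lit 514) (nat_lit 480)) (XT.lf (nat_lit 0) (nat_lit 1279999927) (nat_lit 988) (nat_lit 5094847455) (nat_lit 76) (nat_lit 1316933576) (nat_lit 412) (nat_lit 5) (nat_lit 425) (nat_lit 5) (nat_lit 413) (nat_lit 5) (nat_lit 567) (nat_lit 514) (nat_lit 479))))))) (XT.nd (nat_lit 780) (nat_lit 5320) (nat_lit 0) (XT.nd (nat_lit 390) (nat_lit 3116) (nat_lit 0) (XT.nd (nat_lit 156) (nat_lit 1672) (nat_lit 0) (XT.nd (nat_lit 78) (nat_lit 0) (nat_lit 0) (XT.lf (nat_lit 0) (nat_lit 278395216) (nat_lit 836) (nat_lit 3854309230) (nat_lit 912) (nat_lit 3616276666) (nat_lit 401) (nat_lit 5) (nat_lit 412) (nat_lit 5) (nat_lit 413) (nat_lit 5) (nat_lit 568) (nat_lit 514) (nat_lit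 478)) (XT.lf (nat_lit 0) (nat_lit 5775047875) (nat_lit 836) (nat_lit 1253257490) (nat_lit 912) (nat_lit 779304612) (nat_lit 401) (nat_lit 5) (nat_lit 412) (nat_lit 5) (nat_lit 413) (nat_lit 5) (nat_lit 569) (nat_lit 514) (nat_lit 477))) (XT.nd (nat_lit 78) (nat_lit 760) (nat_lit 0) (XT.lf (nat_lit 0) (nat_lit 2070941832) (nat_lit 912) (nat_lit 4383333897) (nat_lit 76) (nat_lit 1413177310) (nat_lit 389) (nat_lit 5) (nat_lit 401) (nat_lit 5) (nat_lit 390) (nat_lit 5) (nat_lit 570) (nat_lit 514) (nat_lit 476)) (XT.nd (nat_lit 78) (nat_lit 0) (nat_lit 0) (XT.lf (nat_lit 0) (nat_lit 1158839190) (nat_lit 760) (nat_lit 3791329749) (nat_lit 836) (nat_lit 2978574250) (nat_lit 379) (nat_lit 5) (nat_lit 389) (nat_lit 5) (nat_lit 390) (nat_lit 5) (nat_lit 571) (nat_lit 514) (nat_lit 475)) (XT.lf (nat_lit 0) (nat_lit 6818349523) (nat_lit 760) (nat_lit 1051473800) (nat_lit 836) (nat_lit 121780403) (nat_lit 379) (nat_lit 5) (nat_lit 389) (nat_lit 5) (nat_lit 390) (nat_lit 5) (nat_lit 572) (nat_lit 514) (nat_lit 474)))))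 (XT.nd (nat_lit 156) (nat_lit 1520) (nat_lit 0) (XT.nd (nat_lit 78) (nat_lit 760) (nat_lit 0) (XT.lf (nat_lit 0) (nat_lit 2750530505) (nat_lit 836) (nat_lit 3543246390) (nat_lit 76) (nat_lit 1761683375) (nat_lit 368) (nat_lit 5) (nat_lit 379) (nat_lit 5) (nat_lit 369) (nat_lit 5) (nat_lit 573) (nat_lit 514) (nat_lit 473)) (XT.lf (nat_lit 0) (nat_lit 2174537968) (nat_lit 760) (nat_lit 3487684218) (nat_lit 836) (nat_lit 2458685709) (nat_lit 358) (nat_lit 5) (nat_lit 368) (nat_lit 5) (nat_lit 369) (nat_lit 5) (nat_lit 574) (nat_lit 514) (nat_lit 472))) (XT.nd (nat_lit 78) (nat_lit 1444) (nat_lit 0) (XT.lf (nat_lit 0) (nat_lit 417395155) (nat_lit 836) (nat_lit 188795783) (nat_lit 76) (nat_lit 7581842290) (nat_lit 357) (nat_lit 5) (nat_lit 368) (nat_lit 5) (nat_lit 358) (nat_lit 5) (nat_lit 575) (nat_lit 514) (nat_lit 471)) (XT.nd (nat_lit 78) (nat_lit 684) (nat_lit 0) (XT.lf (nat_lit 0) (nat_lit 3326191214) (nat_lit 836) (nat_lit 2581725460) (nat_lit 76) (nat_lit 2348098325) (nat_lit 347) (nat_lit 5) (nat_lit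 358) (nat_lit 5) (nat_lit 348) (nat_lit 5) (nat_lit 576) (nat_lit 514) (nat_lit 470)) (XT.lf (nat_lit 0) (nat_lit 3318659455) (nat_lit 684) (nat_lit 2957512792) (nat_lit 760) (nat_lit 2049525229) (nat_lit 338) (nat_lit 5) (nat_lit 347) (nat_lit 5) (nat_lit 348) (nat_lit 5) (nat_lit 577) (nat_lit 514) (nat_lit 469)))))) (XT.nd (nat_lit 390) (nat_lit 3116) (nat_lit 0) (XT.nd (nat_lit 156) (nat_lit 1444) (nat_lit 0) (XT.nd (nat_lit 78) (nat_lit 0) (nat_lit 0) (XT.lf (nat_lit 0) (nat_lit 857072687) (nat_lit 760) (nat_lit 7468550831) (nat_lit 76) (nat_lit 71429033) (nat_lit 328) (nat_lit 5) (nat_lit 338) (nat_lit 5) (nat_lit 329) (nat_lit 5) (nat_lit 578) (nat_lit 514) (nat_lit 468)) (XT.lf (nat_lit 0) (nat_lit 3804648929) (nat_lit 760) (nat_lit 1505314219) (nat_lit 76) (nat_lit 3159396022) (nat_lit 328) (nat_lit 5) (nat_lit 338) (nat_lit 5) (nat_lit 329) (nat_lit 5) (nat_lit 579) (nat_lit 514) (nat_lit 467))) (XT.nd (nat_lit 78) (nat_lit 760) (nat_lit 0) (XT.lf (nat_lit 0) (nat_lit 4584973053) (nat_lit 684)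 (nat_lit 2213673607) (nat_lit 760) (nat_lit 1744717018) (nat_lit 319) (nat_lit 5) (nat_lit 328) (nat_lit 5) (nat_lit 329) (nat_lit 5) (nat_lit 580) (nat_lit 514) (nat_lit 466)) (XT.nd (nat_lit 78) (nat_lit 0) (nat_lit 0) (XT.lf (nat_lit 0) (nat_lit 1205924692) (nat_lit 760) (nat_lit 6458723749) (nat_lit 76) (nat_lit 954272179) (nat_lit 309) (nat_lit 5) (nat_lit 319) (nat_lit 5) (nat_lit 310) (nat_lit 5) (nat_lit 581) (nat_lit 514) (nat_lit 465)) (XT.lf (nat_lit 0) (nat_lit 4191970474) (nat_lit 760) (nat_lit 320015863) (nat_lit 76) (nat_lit 4183777740) (nat_lit 309) (nat_lit 5) (nat_lit 319) (nat_lit 5) (nat_lit 310) (nat_lit 5) (nat_lit 582) (nat_lit 514) (nat_lit 464))))) (XT.nd (nat_lit 234) (nat_lit 1216) (nat_lit 0) (XT.nd (nat_lit 78) (nat_lit 1292) (nat_lit 0) (XT.lf (nat_lit 0) (nat_lit 5967792553) (nat_lit 608) (nat_lit 1267840772) (nat_lit 684) (nat_lit 1538554224) (nat_lit 301) (nat_lit 5) (nat_lit 309) (nat_lit 5) (nat_lit 310) (nat_lit 5) (nat_lit 583) (nat_lit 514) (nat_lit 463)) (XT.nd (nat_lit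 78) (nat_lit 608) (nat_lit 0) (XT.lf (nat_lit 0) (nat_lit 1464244256) (nat_lit 684) (nat_lit 5351842788) (nat_lit 76) (nat_lit 2037945647) (nat_lit 292) (nat_lit 5) (nat_lit 301) (nat_lit 5) (nat_lit 293) (nat_lit 5) (nat_lit 584) (nat_lit 514) (nat_lit 462)) (XT.lf (nat_lit 0) (nat_lit 981524271) (nat_lit 608) (nat_lit 3518450786) (nat_lit 684) (nat_lit 4435427733) (nat_lit 284) (nat_lit 5) (nat_lit 292) (nat_lit 5) (nat_lit 293) (nat_lit 5) (nat_lit 585) (nat_lit 514) (nat_lit 461)))) (XT.nd (nat_lit 78) (nat_lit 1216) (nat_lit 0) (XT.lf (nat_lit 0) (nat_lit 7461921572) (nat_lit 608) (nat_lit 130595573) (nat_lit 684) (nat_lit 1425962201) (nat_lit 284) (nat_lit 5) (nat_lit 292) (nat_lit 5) (nat_lit 293) (nat_lit 5) (nat_lit 586) (nat_lit 514) (nat_lit 460)) (XT.nd (nat_lit 78) (nat_lit 532) (nat_lit 0) (XT.lf (nat_lit 0) (nat_lit 1636910435) (nat_lit 684) (nat_lit 4153379916) (nat_lit 76) (nat_lit 3312419088) (nat_lit 275) (nat_lit 5) (nat_lit 284) (nat_lit 5) (nat_lit 276) (nat_lit 5) (nat_lit 587) (nat_lit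 514) (nat_lit 459)) (XT.lf (nat_lit 0) (nat_lit 2386906347) (nat_lit 532) (nat_lit 2342995477) (nat_lit 608) (nat_lit 4458775629) (nat_lit 268) (nat_lit 5) (nat_lit 275) (nat_lit 5) (nat_lit 276) (nat_lit 5) (nat_lit 588) (nat_lit 514) (nat_lit 458))))))))
noncomputable def xc53 : XT := (XT.nd (nat_lit 1560) (nat_lit 3420) (nat_lit 0) (XT.nd (nat_lit 780) (nat_lit 3192) (nat_lit 0) (XT.nd (nat_lit 390) (nat_lit 1976) (nat_lit 0) (XT.nd (nat_lit 156) (nat_lit 1140) (nat_lit 0) (XT.nd (nat_lit 78) (nat_lit 684) (nat_lit 0) (XT.lf (nat_lit 0) (nat_lit 7881829070) (nat_lit 608) (nat_lit 221693885) (nat_lit 76) (nat_lit 1172901262) (nat_lit 268) (nat_lit 5) (nat_lit 276) (nat_lit 5) (nat_lit 269) (nat_lit 5) (nat_lit 589) (nat_lit 514) (nat_lit 457)) (XT.lf (nat_lit 0) (nat_lit 1728232666) (nat_lit 684) (nat_lit 2868425759) (nat_lit 76) (nat_lit 4768642322) (nat_lit 259) (nat_lit 5) (nat_lit 268) (nat_lit 5) (nat_lit 260) (nat_lit 5) (nat_lit 590) (nat_lit 514) (nat_lit 456))) (XT.nd (nat_lit 78) (nat_lit 608)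 (nat_lit 0) (XT.lf (nat_lit 0) (nat_lit 3887110356) (nat_lit 532) (nat_lit 996807137) (nat_lit 608) (nat_lit 4572072325) (nat_lit 252) (nat_lit 5) (nat_lit 259) (nat_lit 5) (nat_lit 260) (nat_lit 5) (nat_lit 591) (nat_lit 514) (nat_lit 455)) (XT.nd (nat_lit 78) (nat_lit 76) (nat_lit 0) (XT.lf (nat_lit 0) (nat_lit 1215136319) (nat_lit 532) (nat_lit 6894851022) (nat_lit 608) (nat_lit 1438360745) (nat_lit 245) (nat_lit 5) (nat_lit 252) (nat_lit 5) (nat_lit 253) (nat_lit 5) (nat_lit 592) (nat_lit 514) (nat_lit 454)) (XT.lf (nat_lit 0) (nat_lit 1741977453) (nat_lit 608) (nat_lit 1501740027) (nat_lit 76) (nat_lit 6398468380) (nat_lit 244) (nat_lit 5) (nat_lit 252) (nat_lit 5) (nat_lit 245) (nat_lit 5) (nat_lit 593) (nat_lit 514) (nat_lit 453))))) (XT.nd (nat_lit 156) (nat_lit 988) (nat_lit 0) (XT.nd (nat_lit 78) (nat_lit 532) (nat_lit 0) (XT.lf (nat_lit 0) (nat_lit 4969089353) (nat_lit 532) (nat_lit 4263347566) (nat_lit 76) (nat_lit 505225580) (nat_lit 238) (nat_lit 5) (nat_lit 245) (nat_lit 5) (nat_lit 239) (nat_lit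 5) (nat_lit 594) (nat_lit 514) (nat_lit 452)) (XT.lf (nat_lit 0) (nat_lit 2738503713) (nat_lit 532) (nat_lit 5535457690) (nat_lit 608) (nat_lit 1560823688) (nat_lit 231) (nat_lit 5) (nat_lit 238) (nat_lit 5) (nat_lit 239) (nat_lit 5) (nat_lit 595) (nat_lit 514) (nat_lit 451))) (XT.nd (nat_lit 78) (nat_lit 912) (nat_lit 0) (XT.lf (nat_lit 0) (nat_lit 1681391369) (nat_lit 608) (nat_lit 57800896) (nat_lit 76) (nat_lit 8194581393) (nat_lit 230) (nat_lit 5) (nat_lit 238) (nat_lit 5) (nat_lit 231) (nat_lit 5) (nat_lit 596) (nat_lit 514) (nat_lit 450)) (XT.nd (nat_lit 78) (nat_lit 456) (nat_lit 0) (XT.lf (nat_lit 0) (nat_lit 4992809828) (nat_lit 532) (nat_lit 2893893980) (nat_lit 76) (nat_lit 2147327409) (nat_lit 224) (nat_lit 5) (nat_lit 231) (nat_lit 5) (nat_lit 225) (nat_lit 5) (nat_lit 597) (nat_lit 514) (nat_lit 449)) (XT.lf (nat_lit 0) (nat_lit 4341278280) (nat_lit 456) (nat_lit 4034202752) (nat_lit 532) (nat_lit 1760713128) (nat_lit 218) (nat_lit 5) (nat_lit 224) (nat_lit 5) (nat_lit 225) (nat_lit 5) (nat_lit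 598) (nat_lit 514) (nat_lit 448)))))) (XT.nd (nat_lit 390) (nat_lit 1292) (nat_lit 0) (XT.nd (nat_lit 156) (nat_lit 1368) (nat_lit 0) (XT.nd (nat_lit 78) (nat_lit 0) (nat_lit 0) (XT.lf (nat_lit 0) (nat_lit 1478537575) (nat_lit 456) (nat_lit 80282575) (nat_lit 532) (nat_lit 8681490875) (nat_lit 211) (nat_lit 5) (nat_lit 217) (nat_lit 5) (nat_lit 218) (nat_lit 5) (nat_lit 599) (nat_lit 514) (nat_lit 447)) (XT.lf (nat_lit 0) (nat_lit 4951312532) (nat_lit 532) (nat_lit 1458358409) (nat_lit 76) (nat_lit 3936004311) (nat_lit 211) (nat_lit 5) (nat_lit 218) (nat_lit 5) (nat_lit 212) (nat_lit 5) (nat_lit 600) (nat_lit 514) (nat_lit 446))) (XT.nd (nat_lit 78) (nat_lit 912) (nat_lit 0) (XT.lf (nat_lit 0) (nat_lit 6019484894) (nat_lit 456) (nat_lit 2397778368) (nat_lit 532) (nat_lit 2035771996) (nat_lit 205) (nat_lit 5) (nat_lit 211) (nat_lit 5) (nat_lit 212) (nat_lit 5) (nat_lit 601) (nat_lit 514) (nat_lit 445)) (XT.nd (nat_lit 78) (nat_lit 456) (nat_lit 0) (XT.lf (nat_lit 0) (nat_lit 1378912349) (nat_lit 456) (nat_lit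 7488087831) (nat_lit 76) (nat_lit 1695219391) (nat_lit 199) (nat_lit 5) (nat_lit 205) (nat_lit 5) (nat_lit 200) (nat_lit 5) (nat_lit 602) (nat_lit 514) (nat_lit 444)) (XT.lf (nat_lit 0) (nat_lit 39622045) (nat_lit 456) (nat_lit 4807469531) (nat_lit 532) (nat_lit 5825978286) (nat_lit 193) (nat_lit 5) (nat_lit 199) (nat_lit 5) (nat_lit 200) (nat_lit 5) (nat_lit 603) (nat_lit 514) (nat_lit 443))))) (XT.nd (nat_lit 156) (nat_lit 836) (nat_lit 0) (XT.nd (nat_lit 78) (nat_lit 456) (nat_lit 0) (XT.lf (nat_lit 0) (nat_lit 7769308577) (nat_lit 456) (nat_lit 632259113) (nat_lit 532) (nat_lit 2384231417) (nat_lit 193) (nat_lit 5) (nat_lit 199) (nat_lit 5) (nat_lit 200) (nat_lit 5) (nat_lit 604) (nat_lit 514) (nat_lit 442)) (XT.lf (nat_lit 0) (nat_lit 1133283429) (nat_lit 456) (nat_lit 6166003633) (nat_lit 76) (nat_lit 3600916098) (nat_lit 187) (nat_lit 5) (nat_lit 193) (nat_lit 5) (nat_lit 188) (nat_lit 5) (nat_lit 605) (nat_lit 514) (nat_lit 441))) (XT.nd (nat_lit 78) (nat_lit 456) (nat_lit 0) (XT.lf (nat_lit 0) (nat_lit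 1615626952) (nat_lit 380) (nat_lit 3076017451) (nat_lit 456) (nat_lit 6324887860) (nat_lit 182) (nat_lit 5) (nat_lit 187) (nat_lit 5) (nat_lit 188) (nat_lit 5) (nat_lit 606) (nat_lit 514) (nat_lit 440)) (XT.nd (nat_lit 78) (nat_lit 456) (nat_lit 0) (XT.lf (nat_lit 0) (nat_lit 8338367170) (nat_lit 456) (nat_lit 1556122514) (nat_lit 76) (nat_lit 1240354938) (nat_lit 182) (nat_lit 5) (nat_lit 188) (nat_lit 5) (nat_lit 183) (nat_lit 5) (nat_lit 607) (nat_lit 514) (nat_lit 439)) (XT.lf (nat_lit 0) (nat_lit 822679984) (nat_lit 456) (nat_lit 4799388026) (nat_lit 76) (nat_lit 5632737481) (nat_lit 176) (nat_lit 5) (nat_lit 182) (nat_lit 5) (nat_lit 177) (nat_lit 5) (nat_lit 608) (nat_lit 514) (nat_lit 438))))))) (XT.nd (nat_lit 780) (nat_lit 684) (nat_lit 0) (XT.nd (nat_lit 390) (nat_lit 1216) (nat_lit 0) (XT.nd (nat_lit 156) (nat_lit 1140) (nat_lit 0) (XT.nd (nat_lit 78) (nat_lit 0) (nat_lit 0) (XT.lf (nat_lit 0) (nat_lit 3246228111) (nat_lit 380) (nat_lit 1230452213) (nat_lit 456) (nat_lit 6900118000) (nat_lit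 171) (nat_lit 5) (nat_lit 176) (nat_lit 5) (nat_lit 177) (nat_lit 5) (nat_lit 609) (nat_lit 514) (nat_lit 437)) (XT.lf (nat_lit 0) (nat_lit 8225749103) (nat_lit 456) (nat_lit 53357564) (nat_lit 76) (nat_lit 3221685102) (nat_lit 171) (nat_lit 5) (nat_lit 177) (nat_lit 5) (nat_lit 172) (nat_lit 5) (nat_lit 610) (nat_lit 514) (nat_lit 436))) (XT.nd (nat_lit 78) (nat_lit 684) (nat_lit 0) (XT.lf (nat_lit 0) (nat_lit 447916308) (nat_lit 456) (nat_lit 3392628102) (nat_lit 76) (nat_lit 7786047834) (nat_lit 165) (nat_lit 5) (nat_lit 171) (nat_lit 5) (nat_lit 166) (nat_lit 5) (nat_lit 611) (nat_lit 514) (nat_lit 435)) (XT.nd (nat_lit 78) (nat_lit 304) (nat_lit 0) (XT.lf (nat_lit 0) (nat_lit 4207761154) (nat_lit 456) (nat_lit 6831763698) (nat_lit 76) (nat_lit 714825818) (nat_lit 160) (nat_lit 5) (nat_lit 166) (nat_lit 5) (nat_lit 161) (nat_lit 5) (nat_lit 612) (nat_lit 514) (nat_lit 434)) (XT.lf (nat_lit 0) (nat_lit 1511543886) (nat_lit 304) (nat_lit 6558785608) (nat_lit 380) (nat_lit 3813784723) (nat_lit 156) (nat_lit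 5) (nat_lit 160) (nat_lit 5) (nat_lit 161) (nat_lit 5) (nat_lit 613) (nat_lit 514) (nat_lit 433))))) (XT.nd (nat_lit 156) (nat_lit 760) (nat_lit 0) (XT.nd (nat_lit 78) (nat_lit 380) (nat_lit 0) (XT.lf (nat_lit 0) (nat_lit 9354877) (nat_lit 380) (nat_lit 1950162415) (nat_lit 76) (nat_lit 10056645113) (nat_lit 155) (nat_lit 5) (nat_lit 160) (nat_lit 5) (nat_lit 156) (nat_lit 5) (nat_lit 614) (nat_lit 514) (nat_lit 432)) (XT.lf (nat_lit 0) (nat_lit 3889267989) (nat_lit 456) (nat_lit 5513151163) (nat_lit 76) (nat_lit 2747301132) (nat_lit 150) (nat_lit 5) (nat_lit 156) (nat_lit 5) (nat_lit 151) (nat_lit 5) (nat_lit 615) (nat_lit 514) (nat_lit 431))) (XT.nd (nat_lit 78) (nat_lit 456) (nat_lit 0) (XT.lf (nat_lit 0) (nat_lit 3115703709) (nat_lit 304) (nat_lit 4747666080) (nat_lit 380) (nat_lit 4422248170) (nat_lit 146) (nat_lit 5) (nat_lit 150) (nat_lit 5) (nat_lit 151) (nat_lit 5) (nat_lit 616) (nat_lit 514) (nat_lit 430)) (XT.nd (nat_lit 78) (nat_lit 456) (nat_lit 0) (XT.lf (nat_lit 0) (nat_lit 11924565050) (nat_lit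 380) (nat_lit 479908863) (nat_lit 76) (nat_lit 19607884) (nat_lit 146) (nat_lit 5) (nat_lit 151) (nat_lit 5) (nat_lit 147) (nat_lit 5) (nat_lit 617) (nat_lit 514) (nat_lit 429)) (XT.lf (nat_lit 0) (nat_lit 3513153662) (nat_lit 456) (nat_lit 4171553555) (nat_lit 76) (nat_lit 4879005225) (nat_lit 140) (nat_lit 5) (nat_lit 146) (nat_lit 5) (nat_lit 141) (nat_lit 5) (nat_lit 618) (nat_lit 514) (nat_lit 428)))))) (XT.nd (nat_lit 74412) (nat_lit 0) (nat_lit 46360) (XT.nd (nat_lit 156) (nat_lit 76) (nat_lit 0) (XT.nd (nat_lit 78) (nat_lit 304) (nat_lit 0) (XT.lf (nat_lit 0) (nat_lit 4753950886) (nat_lit 304) (nat_lit 2850576782) (nat_lit 380) (nat_lit 5101439634) (nat_lit 136) (nat_lit 5) (nat_lit 140) (nat_lit 5) (nat_lit 141) (nat_lit 5) (nat_lit 619) (nat_lit 514) (nat_lit 427)) (XT.lf (nat_lit 0) (nat_lit 1016325051) (nat_lit 304) (nat_lit 10780858688) (nat_lit 380) (nat_lit 1053494833) (nat_lit 132) (nat_lit 5) (nat_lit 136) (nat_lit 5) (nat_lit 137) (nat_lit 5) (nat_lit 620) (nat_lit 514) (nat_lit 426)))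 (XT.nd (nat_lit 74100) (nat_lit 0) (nat_lit 48868) (XT.lf (nat_lit 0) (nat_lit 3078909364) (nat_lit 380) (nat_lit 2811979158) (nat_lit 76) (nat_lit 7106119882) (nat_lit 131) (nat_lit 5) (nat_lit 136) (nat_lit 5) (nat_lit 132) (nat_lit 5) (nat_lit 621) (nat_lit 514) (nat_lit 425)) (XT.nd (nat_lit 78) (nat_lit 76) (nat_lit 0) (XT.lf (nat_lit 0) (nat_lit 1146724611) (nat_lit 380) (nat_lit 1049049888) (nat_lit 380) (nat_lit 1049049888) (nat_lit 775) (nat_lit 4) (nat_lit 780) (nat_lit 5) (nat_lit 780) (nat_lit 4) (nat_lit 530) (nat_lit 515) (nat_lit 515)) (XT.lf (nat_lit 0) (nat_lit 1121894601) (nat_lit 456) (nat_lit 474809974) (nat_lit 76) (nat_lit 4903188789) (nat_lit 774) (nat_lit 5) (nat_lit 780) (nat_lit 5) (nat_lit 775) (nat_lit 4) (nat_lit 531) (nat_lit 515) (nat_lit 514))))) (XT.nd (nat_lit 234) (nat_lit 1444) (nat_lit 0) (XT.nd (nat_lit 78) (nat_lit 608) (nat_lit 0) (XT.lf (nat_lit 0) (nat_lit 3301247657) (nat_lit 456) (nat_lit 1020324605) (nat_lit 532) (nat_lit 2189629945) (nat_lit 768) (nat_lit 5)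 (nat_lit 774) (nat_lit 5) (nat_lit 775) (nat_lit 4) (nat_lit 532) (nat_lit 515) (nat_lit 513)) (XT.nd (nat_lit 78) (nat_lit 0) (nat_lit 0) (XT.lf (nat_lit 0) (nat_lit 587504200) (nat_lit 532) (nat_lit 390706437) (nat_lit 608) (nat_lit 5545799937) (nat_lit 760) (nat_lit 5) (nat_lit 767) (nat_lit 5) (nat_lit 768) (nat_lit 5) (nat_lit 533) (nat_lit 515) (nat_lit 512)) (XT.lf (nat_lit 0) (nat_lit 4127418552) (nat_lit 608) (nat_lit 2099740035) (nat_lit 76) (nat_lit 310684484) (nat_lit 760) (nat_lit 5) (nat_lit 768) (nat_lit 5) (nat_lit 761) (nat_lit 4) (nat_lit 534) (nat_lit 515) (nat_lit 511)))) (XT.nd (nat_lit 78) (nat_lit 760) (nat_lit 0) (XT.lf (nat_lit 0) (nat_lit 716573778) (nat_lit 684) (nat_lit 4773539826) (nat_lit 76) (nat_lit 1062955287) (nat_lit 751) (nat_lit 5) (nat_lit 760) (nat_lit 5) (nat_lit 752) (nat_lit 5) (nat_lit 535) (nat_lit 515) (nat_lit 510)) (XT.nd (nat_lit 78) (nat_lit 760) (nat_lit 0) (XT.lf (nat_lit 0) (nat_lit 3814174348) (nat_lit 684) (nat_lit 870421211) (nat_lit 76) (nat_lit 1884882046)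 (nat_lit 751) (nat_lit 5) (nat_lit 760) (nat_lit 5) (nat_lit 752) (nat_lit 5) (nat_lit 536) (nat_lit 515) (nat_lit 509)) (XT.lf (nat_lit 0) (nat_lit 329790037) (nat_lit 760) (nat_lit 3487892200) (nat_lit 76) (nat_lit 2769538383) (nat_lit 741) (nat_lit 5) (nat_lit 751) (nat_lit 5) (nat_lit 742) (nat_lit 5) (nat_lit 537) (nat_lit 515) (nat_lit 508))))))))
noncomputable def xc54 : XT := (XT.nd (nat_lit 1560) (nat_lit 14288) (nat_lit 0) (XT.nd (nat_lit 780) (nat_lit 10412) (nat_lit 0) (XT.nd (nat_lit 390) (nat_lit 3344) (nat_lit 0) (XT.nd (nat_lit 156) (nat_lit 1900) (nat_lit 0) (XT.nd (nat_lit 78) (nat_lit 0) (nat_lit 0) (XT.lf (nat_lit 0) (nat_lit 492721435) (nat_lit 760) (nat_lit 2884278419) (nat_lit 836) (nat_lit 3229211799) (nat_lit 731) (nat_lit 5) (nat_lit 741) (nat_lit 5) (nat_lit 742) (nat_lit 5) (nat_lit 538) (nat_lit 515) (nat_lit 507)) (XT.lf (nat_lit 0) (nat_lit 4550033913) (nat_lit 760) (nat_lit 1887802546) (nat_lit 836) (nat_lit 188695900) (nat_lit 731) (nat_lit 5) (nat_lit 741) (nat_lit 5) (nat_lit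 742) (nat_lit 5) (nat_lit 539) (nat_lit 515) (nat_lit 506))) (XT.nd (nat_lit 78) (nat_lit 988) (nat_lit 0) (XT.lf (nat_lit 0) (nat_lit 1998392192) (nat_lit 836) (nat_lit 819214495) (nat_lit 912) (nat_lit 3830414424) (nat_lit 719) (nat_lit 5) (nat_lit 730) (nat_lit 5) (nat_lit 731) (nat_lit 5) (nat_lit 540) (nat_lit 515) (nat_lit 505)) (XT.nd (nat_lit 78) (nat_lit 988) (nat_lit 0) (XT.lf (nat_lit 0) (nat_lit 5828664946) (nat_lit 912) (nat_lit 541143622) (nat_lit 76) (nat_lit 301166301) (nat_lit 719) (nat_lit 5) (nat_lit 731) (nat_lit 5) (nat_lit 720) (nat_lit 5) (nat_lit 541) (nat_lit 515) (nat_lit 504)) (XT.lf (nat_lit 0) (nat_lit 2138157728) (nat_lit 988) (nat_lit 3067681432) (nat_lit 76) (nat_lit 1489034767) (nat_lit 706) (nat_lit 5) (nat_lit 719) (nat_lit 5) (nat_lit 707) (nat_lit 5) (nat_lit 542) (nat_lit 515) (nat_lit 503))))) (XT.nd (nat_lit 156) (nat_lit 2280) (nat_lit 0) (XT.nd (nat_lit 78) (nat_lit 76) (nat_lit 0) (XT.lf (nat_lit 0) (nat_lit 1125345270) (nat_lit 988) (nat_lit 3985851138) (nat_lit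 1064) (nat_lit 1609061515) (nat_lit 693) (nat_lit 5) (nat_lit 706) (nat_lit 5) (nat_lit 707) (nat_lit 5) (nat_lit 543) (nat_lit 515) (nat_lit 502)) (XT.lf (nat_lit 0) (nat_lit 1333749000) (nat_lit 1064) (nat_lit 1362544179) (nat_lit 76) (nat_lit 4050587295) (nat_lit 692) (nat_lit 5) (nat_lit 706) (nat_lit 5) (nat_lit 693) (nat_lit 5) (nat_lit 544) (nat_lit 515) (nat_lit 501))) (XT.nd (nat_lit 78) (nat_lit 1216) (nat_lit 0) (XT.lf (nat_lit 0) (nat_lit 2931863717) (nat_lit 1064) (nat_lit 1336169987) (nat_lit 1140) (nat_lit 2506708720) (nat_lit 678) (nat_lit 5) (nat_lit 692) (nat_lit 5) (nat_lit 693) (nat_lit 5) (nat_lit 545) (nat_lit 515) (nat_lit 500)) (XT.nd (nat_lit 78) (nat_lit 0) (nat_lit 0) (XT.lf (nat_lit 0) (nat_lit 400307340) (nat_lit 1216) (nat_lit 6324684638) (nat_lit 76) (nat_lit 79143609) (nat_lit 662) (nat_lit 5) (nat_lit 678) (nat_lit 5) (nat_lit 663) (nat_lit 5) (nat_lit 546) (nat_lit 515) (nat_lit 499)) (XT.lf (nat_lit 0) (nat_lit 3303383214) (nat_lit 1216) (nat_lit 1970853069) (nat_lit 76)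 (nat_lit 1560122020) (nat_lit 662) (nat_lit 5) (nat_lit 678) (nat_lit 5) (nat_lit 663) (nat_lit 5) (nat_lit 547) (nat_lit 515) (nat_lit 498)))))) (XT.nd (nat_lit 390) (nat_lit 6384) (nat_lit 0) (XT.nd (nat_lit 156) (nat_lit 1444) (nat_lit 0) (XT.nd (nat_lit 78) (nat_lit 1368) (nat_lit 0) (XT.lf (nat_lit 0) (nat_lit 2451272307) (nat_lit 1216) (nat_lit 3767051447) (nat_lit 1292) (nat_lit 647788363) (nat_lit 646) (nat_lit 5) (nat_lit 662) (nat_lit 5) (nat_lit 663) (nat_lit 5) (nat_lit 548) (nat_lit 515) (nat_lit 497)) (XT.lf (nat_lit 0) (nat_lit 24243141) (nat_lit 1292) (nat_lit 2190584655) (nat_lit 1368) (nat_lit 4684341262) (nat_lit 628) (nat_lit 5) (nat_lit 645) (nat_lit 5) (nat_lit 646) (nat_lit 5) (nat_lit 549) (nat_lit 515) (nat_lit 496))) (XT.nd (nat_lit 78) (nat_lit 1444) (nat_lit 0) (XT.lf (nat_lit 0) (nat_lit 4556525077) (nat_lit 1292) (nat_lit 538349075) (nat_lit 1368) (nat_lit 1838552864) (nat_lit 628) (nat_lit 5) (nat_lit 645) (nat_lit 5) (nat_lit 646) (nat_lit 5) (nat_lit 550) (nat_lit 515) (nat_lit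 495)) (XT.nd (nat_lit 78) (nat_lit 0) (nat_lit 0) (XT.lf (nat_lit 0) (nat_lit 1012046667) (nat_lit 1444) (nat_lit 4794883646) (nat_lit 76) (nat_lit 1162067051) (nat_lit 609) (nat_lit 5) (nat_lit 628) (nat_lit 5) (nat_lit 610) (nat_lit 5) (nat_lit 551) (nat_lit 515) (nat_lit 494)) (XT.lf (nat_lit 0) (nat_lit 3855627564) (nat_lit 1444) (nat_lit 224220867) (nat_lit 76) (nat_lit 2925978284) (nat_lit 609) (nat_lit 5) (nat_lit 628) (nat_lit 5) (nat_lit 610) (nat_lit 5) (nat_lit 552) (nat_lit 515) (nat_lit 493))))) (XT.nd (nat_lit 156) (nat_lit 3344) (nat_lit 0) (XT.nd (nat_lit 78) (nat_lit 1596) (nat_lit 0) (XT.lf (nat_lit 0) (nat_lit 4445389336) (nat_lit 1444) (nat_lit 2281654594) (nat_lit 1520) (nat_lit 316931804) (nat_lit 590) (nat_lit 5) (nat_lit 609) (nat_lit 5) (nat_lit 610) (nat_lit 5) (nat_lit 553) (nat_lit 515) (nat_lit 492)) (XT.lf (nat_lit 0) (nat_lit 2088043001) (nat_lit 1520) (nat_lit 408812969) (nat_lit 1596) (nat_lit 4586547907) (nat_lit 569) (nat_lit 5) (nat_lit 589) (nat_lit 5) (nat_lit 590) (nat_lit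 5) (nat_lit 554) (nat_lit 515) (nat_lit 491))) (XT.nd (nat_lit 78) (nat_lit 3344) (nat_lit 0) (XT.lf (nat_lit 0) (nat_lit 5333345021) (nat_lit 1596) (nat_lit 283641864) (nat_lit 76) (nat_lit 1507180638) (nat_lit 569) (nat_lit 5) (nat_lit 590) (nat_lit 5) (nat_lit 570) (nat_lit 5) (nat_lit 555) (nat_lit 515) (nat_lit 490)) (XT.nd (nat_lit 78) (nat_lit 1672) (nat_lit 0) (XT.lf (nat_lit 0) (nat_lit 1023327114) (nat_lit 1672) (nat_lit 2644976314) (nat_lit 76) (nat_lit 3497778946) (nat_lit 547) (nat_lit 5) (nat_lit 569) (nat_lit 5) (nat_lit 548) (nat_lit 5) (nat_lit 556) (nat_lit 515) (nat_lit 489)) (XT.lf (nat_lit 0) (nat_lit 2182330282) (nat_lit 1672) (nat_lit 1648426556) (nat_lit 1748) (nat_lit 3378624508) (nat_lit 525) (nat_lit 5) (nat_lit 547) (nat_lit 5) (nat_lit 548) (nat_lit 5) (nat_lit 557) (nat_lit 515) (nat_lit 488))))))) (XT.nd (nat_lit 780) (nat_lit 5700) (nat_lit 0) (XT.nd (nat_lit 390) (nat_lit 3724) (nat_lit 0) (XT.nd (nat_lit 156) (nat_lit 3040) (nat_lit 0) (XT.nd (nat_lit 78) (nat_lit 1824)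 (nat_lit 0) (XT.lf (nat_lit 0) (nat_lit 6660515398) (nat_lit 1748) (nat_lit 166134717) (nat_lit 76) (nat_lit 427574629) (nat_lit 525) (nat_lit 5) (nat_lit 548) (nat_lit 5) (nat_lit 526) (nat_lit 5) (nat_lit 558) (nat_lit 515) (nat_lit 487)) (XT.lf (nat_lit 0) (nat_lit 2206099042) (nat_lit 1824) (nat_lit 2521929617) (nat_lit 76) (nat_lit 2571873287) (nat_lit 501) (nat_lit 5) (nat_lit 525) (nat_lit 5) (nat_lit 502) (nat_lit 5) (nat_lit 559) (nat_lit 515) (nat_lit 486))) (XT.nd (nat_lit 78) (nat_lit 1216) (nat_lit 0) (XT.lf (nat_lit 0) (nat_lit 2453447631) (nat_lit 1824) (nat_lit 2564635514) (nat_lit 1900) (nat_lit 2329050405) (nat_lit 477) (nat_lit 5) (nat_lit 501) (nat_lit 5) (nat_lit 502) (nat_lit 5) (nat_lit 560) (nat_lit 515) (nat_lit 485)) (XT.nd (nat_lit 78) (nat_lit 0) (nat_lit 0) (XT.lf (nat_lit 0) (nat_lit 113844521) (nat_lit 1140) (nat_lit 335915773) (nat_lit 1216) (nat_lit 6946183542) (nat_lit 461) (nat_lit 5) (nat_lit 476) (nat_lit 5) (nat_lit 477) (nat_lit 5) (nat_lit 561) (nat_lit 515) (nat_lit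 484)) (XT.lf (nat_lit 0) (nat_lit 3246751964) (nat_lit 1216) (nat_lit 2238028328) (nat_lit 76) (nat_lit 1960768142) (nat_lit 461) (nat_lit 5) (nat_lit 477) (nat_lit 5) (nat_lit 462) (nat_lit 5) (nat_lit 562) (nat_lit 515) (nat_lit 483))))) (XT.nd (nat_lit 156) (nat_lit 1824) (nat_lit 0) (XT.nd (nat_lit 78) (nat_lit 988) (nat_lit 0) (XT.lf (nat_lit 0) (nat_lit 2891052260) (nat_lit 912) (nat_lit 3178769734) (nat_lit 988) (nat_lit 1426922146) (nat_lit 449) (nat_lit 5) (nat_lit 461) (nat_lit 5) (nat_lit 462) (nat_lit 5) (nat_lit 563) (nat_lit 515) (nat_lit 482)) (XT.lf (nat_lit 0) (nat_lit 550518735) (nat_lit 912) (nat_lit 799670477) (nat_lit 988) (nat_lit 6199231101) (nat_lit 436) (nat_lit 5) (nat_lit 448) (nat_lit 5) (nat_lit 449) (nat_lit 5) (nat_lit 564) (nat_lit 515) (nat_lit 481))) (XT.nd (nat_lit 78) (nat_lit 1824) (nat_lit 0) (XT.lf (nat_lit 0) (nat_lit 4155547895) (nat_lit 988) (nat_lit 1803009617) (nat_lit 76) (nat_lit 1644569312) (nat_lit 436) (nat_lit 5) (nat_lit 449) (nat_lit 5) (nat_lit 437) (nat_lit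 5) (nat_lit 565) (nat_lit 515) (nat_lit 480)) (XT.nd (nat_lit 78) (nat_lit 988) (nat_lit 0) (XT.lf (nat_lit 0) (nat_lit 3485705759) (nat_lit 836) (nat_lit 3510332195) (nat_lit 912) (nat_lit 662290677) (nat_lit 425) (nat_lit 5) (nat_lit 436) (nat_lit 5) (nat_lit 437) (nat_lit 5) (nat_lit 566) (nat_lit 515) (nat_lit 479)) (XT.lf (nat_lit 0) (nat_lit 1139134693) (nat_lit 912) (nat_lit 981972016) (nat_lit 988) (nat_lit 5593826890) (nat_lit 412) (nat_lit 5) (nat_lit 424) (nat_lit 5) (nat_lit 425) (nat_lit 5) (nat_lit 567) (nat_lit 515) (nat_lit 478)))))) (XT.nd (nat_lit 390) (nat_lit 3116) (nat_lit 0) (XT.nd (nat_lit 156) (nat_lit 1748) (nat_lit 0) (XT.nd (nat_lit 78) (nat_lit 836) (nat_lit 0) (XT.lf (nat_lit 0) (nat_lit 4941864759) (nat_lit 988) (nat_lit 1225782432) (nat_lit 76) (nat_lit 1605126262) (nat_lit 412) (nat_lit 5) (nat_lit 425) (nat_lit 5) (nat_lit 413) (nat_lit 5) (nat_lit 568) (nat_lit 515) (nat_lit 477)) (XT.lf (nat_lit 0) (nat_lit 4228800344) (nat_lit 836) (nat_lit 3577136214) (nat_lit 912) (nat_lit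 26097099) (nat_lit 401) (nat_lit 5) (nat_lit 412) (nat_lit 5) (nat_lit 413) (nat_lit 5) (nat_lit 569) (nat_lit 515) (nat_lit 476))) (XT.nd (nat_lit 78) (nat_lit 836) (nat_lit 0) (XT.lf (nat_lit 0) (nat_lit 1871179535) (nat_lit 836) (nat_lit 900102546) (nat_lit 912) (nat_lit 5121357331) (nat_lit 389) (nat_lit 5) (nat_lit 400) (nat_lit 5) (nat_lit 401) (nat_lit 5) (nat_lit 570) (nat_lit 515) (nat_lit 475)) (XT.nd (nat_lit 78) (nat_lit 836) (nat_lit 0) (XT.lf (nat_lit 0) (nat_lit 5614255961) (nat_lit 912) (nat_lit 514497230) (nat_lit 76) (nat_lit 1825902148) (nat_lit 389) (nat_lit 5) (nat_lit 401) (nat_lit 5) (nat_lit 390) (nat_lit 5) (nat_lit 571) (nat_lit 515) (nat_lit 474)) (XT.lf (nat_lit 0) (nat_lit 483460962) (nat_lit 836) (nat_lit 2908727308) (nat_lit 76) (nat_lit 4625784451) (nat_lit 378) (nat_lit 5) (nat_lit 389) (nat_lit 5) (nat_lit 379) (nat_lit 5) (nat_lit 572) (nat_lit 515) (nat_lit 473))))) (XT.nd (nat_lit 234) (nat_lit 1520) (nat_lit 0) (XT.nd (nat_lit 78) (nat_lit 836) (nat_lit 0) (XT.lf (nat_lit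 0) (nat_lit 2738879787) (nat_lit 760) (nat_lit 569806990) (nat_lit 836) (nat_lit 4774037103) (nat_lit 368) (nat_lit 5) (nat_lit 378) (nat_lit 5) (nat_lit 379) (nat_lit 5) (nat_lit 573) (nat_lit 515) (nat_lit 472)) (XT.nd (nat_lit 78) (nat_lit 76) (nat_lit 0) (XT.lf (nat_lit 0) (nat_lit 327686105) (nat_lit 760) (nat_lit 5854946098) (nat_lit 836) (nat_lit 1966294884) (nat_lit 358) (nat_lit 5) (nat_lit 368) (nat_lit 5) (nat_lit 369) (nat_lit 5) (nat_lit 574) (nat_lit 515) (nat_lit 471)) (XT.lf (nat_lit 0) (nat_lit 881394044) (nat_lit 836) (nat_lit 2092718531) (nat_lit 76) (nat_lit 5242315223) (nat_lit 357) (nat_lit 5) (nat_lit 368) (nat_lit 5) (nat_lit 358) (nat_lit 5) (nat_lit 575) (nat_lit 515) (nat_lit 470)))) (XT.nd (nat_lit 78) (nat_lit 760) (nat_lit 0) (XT.lf (nat_lit 0) (nat_lit 3735136968) (nat_lit 760) (nat_lit 5408488) (nat_lit 836) (nat_lit 4544857624) (nat_lit 347) (nat_lit 5) (nat_lit 357) (nat_lit 5) (nat_lit 358) (nat_lit 5) (nat_lit 576) (nat_lit 515) (nat_lit 469)) (XT.nd (nat_lit 78) (nat_lit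 76) (nat_lit 0) (XT.lf (nat_lit 0) (nat_lit 1298072534) (nat_lit 684) (nat_lit 5358028394) (nat_lit 760) (nat_lit 1699673746) (nat_lit 338) (nat_lit 5) (nat_lit 347) (nat_lit 5) (nat_lit 348) (nat_lit 5) (nat_lit 577) (nat_lit 515) (nat_lit 468)) (XT.lf (nat_lit 0) (nat_lit 1174675164) (nat_lit 760) (nat_lit 1161832797) (nat_lit 76) (nat_lit 6091130156) (nat_lit 337) (nat_lit 5) (nat_lit 347) (nat_lit 5) (nat_lit 338) (nat_lit 5) (nat_lit 578) (nat_lit 515) (nat_lit 467))))))))
noncomputable def xc55 : XT := (XT.nd (nat_lit 1560) (nat_lit 5928) (nat_lit 0) (XT.nd (nat_lit 780) (nat_lit 4332) (nat_lit 0) (XT.nd (nat_lit 390) (nat_lit 1976) (nat_lit 0) (XT.nd (nat_lit 156) (nat_lit 1368) (nat_lit 0) (XT.nd (nat_lit 78) (nat_lit 684) (nat_lit 0) (XT.lf (nat_lit 0) (nat_lit 4078447028) (nat_lit 760) (nat_lit 3652520810) (nat_lit 76) (nat_lit 769853558) (nat_lit 328) (nat_lit 5) (nat_lit 338) (nat_lit 5) (nat_lit 329) (nat_lit 5) (nat_lit 579) (nat_lit 515) (nat_lit 466)) (XT.lf (nat_lit 0) (nat_lit 2383487438)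 (nat_lit 684) (nat_lit 4654134442) (nat_lit 760) (nat_lit 1537901042) (nat_lit 319) (nat_lit 5) (nat_lit 328) (nat_lit 5) (nat_lit 329) (nat_lit 5) (nat_lit 580) (nat_lit 515) (nat_lit 465))) (XT.nd (nat_lit 78) (nat_lit 1292) (nat_lit 0) (XT.lf (nat_lit 0) (nat_lit 1369257501) (nat_lit 760) (nat_lit 122313443) (nat_lit 76) (nat_lit 7160298018) (nat_lit 318) (nat_lit 5) (nat_lit 328) (nat_lit 5) (nat_lit 319) (nat_lit 5) (nat_lit 581) (nat_lit 515) (nat_lit 464)) (XT.nd (nat_lit 78) (nat_lit 608) (nat_lit 0) (XT.lf (nat_lit 0) (nat_lit 4324585867) (nat_lit 760) (nat_lit 2653140509) (nat_lit 76) (nat_lit 1751600921) (nat_lit 309) (nat_lit 5) (nat_lit 319) (nat_lit 5) (nat_lit 310) (nat_lit 5) (nat_lit 582) (nat_lit 515) (nat_lit 463)) (XT.lf (nat_lit 0) (nat_lit 3578117070) (nat_lit 608) (nat_lit 3754789696) (nat_lit 684) (nat_lit 1475551361) (nat_lit 301) (nat_lit 5) (nat_lit 309) (nat_lit 5) (nat_lit 310) (nat_lit 5) (nat_lit 583) (nat_lit 515) (nat_lit 462))))) (XT.nd (nat_lit 156) (nat_lit 1292) (nat_lit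 0) (XT.nd (nat_lit 78) (nat_lit 0) (nat_lit 0) (XT.lf (nat_lit 0) (nat_lit 1033649090) (nat_lit 608) (nat_lit 443517257) (nat_lit 684) (nat_lit 7412114326) (nat_lit 292) (nat_lit 5) (nat_lit 300) (nat_lit 5) (nat_lit 301) (nat_lit 5) (nat_lit 584) (nat_lit 515) (nat_lit 461)) (XT.lf (nat_lit 0) (nat_lit 4484101168) (nat_lit 684) (nat_lit 1557752017) (nat_lit 76) (nat_lit 2929373997) (nat_lit 292) (nat_lit 5) (nat_lit 301) (nat_lit 5) (nat_lit 293) (nat_lit 5) (nat_lit 585) (nat_lit 515) (nat_lit 460))) (XT.nd (nat_lit 78) (nat_lit 684) (nat_lit 0) (XT.lf (nat_lit 0) (nat_lit 4876617070) (nat_lit 608) (nat_lit 2670452921) (nat_lit 684) (nat_lit 1507825691) (nat_lit 284) (nat_lit 5) (nat_lit 292) (nat_lit 5) (nat_lit 293) (nat_lit 5) (nat_lit 586) (nat_lit 515) (nat_lit 459)) (XT.nd (nat_lit 78) (nat_lit 0) (nat_lit 0) (XT.lf (nat_lit 0) (nat_lit 1502990711) (nat_lit 684) (nat_lit 6855329415) (nat_lit 76) (nat_lit 781879336) (nat_lit 275) (nat_lit 5) (nat_lit 284) (nat_lit 5) (nat_lit 276) (nat_lit 5) (nat_lit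 587) (nat_lit 515) (nat_lit 458)) (XT.lf (nat_lit 0) (nat_lit 4561585643) (nat_lit 684) (nat_lit 371604964) (nat_lit 76) (nat_lit 4293665250) (nat_lit 275) (nat_lit 5) (nat_lit 284) (nat_lit 5) (nat_lit 276) (nat_lit 5) (nat_lit 588) (nat_lit 515) (nat_lit 457)))))) (XT.nd (nat_lit 390) (nat_lit 1976) (nat_lit 0) (XT.nd (nat_lit 156) (nat_lit 1140) (nat_lit 0) (XT.nd (nat_lit 78) (nat_lit 684) (nat_lit 0) (XT.lf (nat_lit 0) (nat_lit 6274060429) (nat_lit 532) (nat_lit 1410599819) (nat_lit 608) (nat_lit 1630519869) (nat_lit 268) (nat_lit 5) (nat_lit 275) (nat_lit 5) (nat_lit 276) (nat_lit 5) (nat_lit 589) (nat_lit 515) (nat_lit 456)) (XT.lf (nat_lit 0) (nat_lit 1448919122) (nat_lit 684) (nat_lit 5779138666) (nat_lit 76) (nat_lit 2176959579) (nat_lit 259) (nat_lit 5) (nat_lit 268) (nat_lit 5) (nat_lit 260) (nat_lit 5) (nat_lit 590) (nat_lit 515) (nat_lit 455))) (XT.nd (nat_lit 78) (nat_lit 608) (nat_lit 0) (XT.lf (nat_lit 0) (nat_lit 912378688) (nat_lit 532) (nat_lit 3654624297) (nat_lit 608) (nat_lit 4929455890)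 (nat_lit 252) (nat_lit 5) (nat_lit 259) (nat_lit 5) (nat_lit 260) (nat_lit 5) (nat_lit 591) (nat_lit 515) (nat_lit 454)) (XT.nd (nat_lit 78) (nat_lit 608) (nat_lit 0) (XT.lf (nat_lit 0) (nat_lit 7749793480) (nat_lit 608) (nat_lit 1823903314) (nat_lit 76) (nat_lit 15986344) (nat_lit 252) (nat_lit 5) (nat_lit 260) (nat_lit 5) (nat_lit 253) (nat_lit 5) (nat_lit 592) (nat_lit 515) (nat_lit 453)) (XT.lf (nat_lit 0) (nat_lit 1315576346) (nat_lit 608) (nat_lit 4629140327) (nat_lit 76) (nat_lit 3739459538) (nat_lit 244) (nat_lit 5) (nat_lit 252) (nat_lit 5) (nat_lit 245) (nat_lit 5) (nat_lit 593) (nat_lit 515) (nat_lit 452))))) (XT.nd (nat_lit 156) (nat_lit 1520) (nat_lit 0) (XT.nd (nat_lit 78) (nat_lit 0) (nat_lit 0) (XT.lf (nat_lit 0) (nat_lit 2283676100) (nat_lit 456) (nat_lit 2217245159) (nat_lit 532) (nat_lit 5279567317) (nat_lit 238) (nat_lit 5) (nat_lit 244) (nat_lit 5) (nat_lit 245) (nat_lit 5) (nat_lit 594) (nat_lit 515) (nat_lit 451)) (XT.lf (nat_lit 0) (nat_lit 7756053697) (nat_lit 532) (nat_lit 541362089)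 (nat_lit 76) (nat_lit 1581190550) (nat_lit 238) (nat_lit 5) (nat_lit 245) (nat_lit 5) (nat_lit 239) (nat_lit 5) (nat_lit 595) (nat_lit 515) (nat_lit 450))) (XT.nd (nat_lit 78) (nat_lit 912) (nat_lit 0) (XT.lf (nat_lit 0) (nat_lit 1105949253) (nat_lit 608) (nat_lit 3410032815) (nat_lit 76) (nat_lit 5462107747) (nat_lit 230) (nat_lit 5) (nat_lit 238) (nat_lit 5) (nat_lit 231) (nat_lit 5) (nat_lit 596) (nat_lit 515) (nat_lit 449)) (XT.nd (nat_lit 78) (nat_lit 456) (nat_lit 0) (XT.lf (nat_lit 0) (nat_lit 3732979837) (nat_lit 456) (nat_lit 630893519) (nat_lit 532) (nat_lit 5715544261) (nat_lit 224) (nat_lit 5) (nat_lit 230) (nat_lit 5) (nat_lit 231) (nat_lit 5) (nat_lit 597) (nat_lit 515) (nat_lit 448)) (XT.lf (nat_lit 0) (nat_lit 822083749) (nat_lit 456) (nat_lit 6880494547) (nat_lit 532) (nat_lit 2479881937) (nat_lit 218) (nat_lit 5) (nat_lit 224) (nat_lit 5) (nat_lit 225) (nat_lit 5) (nat_lit 598) (nat_lit 515) (nat_lit 447))))))) (XT.nd (nat_lit 780) (nat_lit 2812) (nat_lit 0) (XT.nd (nat_lit 390) (nat_lit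 1672) (nat_lit 0) (XT.nd (nat_lit 156) (nat_lit 912) (nat_lit 0) (XT.nd (nat_lit 78) (nat_lit 456) (nat_lit 0) (XT.lf (nat_lit 0) (nat_lit 822525814) (nat_lit 532) (nat_lit 2126300940) (nat_lit 76) (nat_lit 7338375218) (nat_lit 217) (nat_lit 5) (nat_lit 224) (nat_lit 5) (nat_lit 218) (nat_lit 5) (nat_lit 599) (nat_lit 515) (nat_lit 446)) (XT.lf (nat_lit 0) (nat_lit 4165477755) (nat_lit 532) (nat_lit 5144687635) (nat_lit 76) (nat_lit 1083391946) (nat_lit 211) (nat_lit 5) (nat_lit 218) (nat_lit 5) (nat_lit 212) (nat_lit 5) (nat_lit 600) (nat_lit 515) (nat_lit 445))) (XT.nd (nat_lit 78) (nat_lit 456) (nat_lit 0) (XT.lf (nat_lit 0) (nat_lit 2259549617) (nat_lit 456) (nat_lit 5330962478) (nat_lit 532) (nat_lit 2911223897) (nat_lit 205) (nat_lit 5) (nat_lit 211) (nat_lit 5) (nat_lit 212) (nat_lit 5) (nat_lit 601) (nat_lit 515) (nat_lit 444)) (XT.nd (nat_lit 78) (nat_lit 380) (nat_lit 0) (XT.lf (nat_lit 0) (nat_lit 467310254) (nat_lit 532) (nat_lit 782264291) (nat_lit 76) (nat_lit 9362412388) (nat_lit 204) (nat_lit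 5) (nat_lit 211) (nat_lit 5) (nat_lit 205) (nat_lit 5) (nat_lit 602) (nat_lit 515) (nat_lit 443)) (XT.lf (nat_lit 0) (nat_lit 3905606647) (nat_lit 456) (nat_lit 3893879851) (nat_lit 76) (nat_lit 2923948686) (nat_lit 199) (nat_lit 5) (nat_lit 205) (nat_lit 5) (nat_lit 200) (nat_lit 5) (nat_lit 603) (nat_lit 515) (nat_lit 442))))) (XT.nd (nat_lit 156) (nat_lit 760) (nat_lit 0) (XT.nd (nat_lit 78) (nat_lit 456) (nat_lit 0) (XT.lf (nat_lit 0) (nat_lit 3759752842) (nat_lit 456) (nat_lit 3658542753) (nat_lit 532) (nat_lit 3418704876) (nat_lit 193) (nat_lit 5) (nat_lit 199) (nat_lit 5) (nat_lit 200) (nat_lit 5) (nat_lit 604) (nat_lit 515) (nat_lit 441)) (XT.lf (nat_lit 0) (nat_lit 49666741) (nat_lit 456) (nat_lit 10330550239) (nat_lit 76) (nat_lit 572576370) (nat_lit 187) (nat_lit 5) (nat_lit 193) (nat_lit 5) (nat_lit 188) (nat_lit 5) (nat_lit 605) (nat_lit 515) (nat_lit 440))) (XT.nd (nat_lit 78) (nat_lit 760) (nat_lit 0) (XT.lf (nat_lit 0) (nat_lit 3581685579) (nat_lit 456) (nat_lit 2594256501) (nat_lit 76) (nat_lit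 4893707495) (nat_lit 187) (nat_lit 5) (nat_lit 193) (nat_lit 5) (nat_lit 188) (nat_lit 5) (nat_lit 606) (nat_lit 515) (nat_lit 439)) (XT.nd (nat_lit 78) (nat_lit 380) (nat_lit 0) (XT.lf (nat_lit 0) (nat_lit 5318697042) (nat_lit 380) (nat_lit 1868786263) (nat_lit 456) (nat_lit 4001297406) (nat_lit 182) (nat_lit 5) (nat_lit 187) (nat_lit 5) (nat_lit 188) (nat_lit 5) (nat_lit 607) (nat_lit 515) (nat_lit 438)) (XT.lf (nat_lit 0) (nat_lit 2077851701) (nat_lit 380) (nat_lit 8803757516) (nat_lit 456) (nat_lit 428361552) (nat_lit 177) (nat_lit 5) (nat_lit 182) (nat_lit 5) (nat_lit 183) (nat_lit 5) (nat_lit 608) (nat_lit 515) (nat_lit 437)))))) (XT.nd (nat_lit 390) (nat_lit 1520) (nat_lit 0) (XT.nd (nat_lit 156) (nat_lit 836) (nat_lit 0) (XT.nd (nat_lit 78) (nat_lit 380) (nat_lit 0) (XT.lf (nat_lit 0) (nat_lit 3194785754) (nat_lit 456) (nat_lit 1250118685) (nat_lit 76) (nat_lit 6987844469) (nat_lit 176) (nat_lit 5) (nat_lit 182) (nat_lit 5) (nat_lit 177) (nat_lit 5) (nat_lit 609) (nat_lit 515) (nat_lit 436)) (XT.lf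 (nat_lit 0) (nat_lit 6899404374) (nat_lit 456) (nat_lit 4625423917) (nat_lit 76) (nat_lit 32803318) (nat_lit 171) (nat_lit 5) (nat_lit 177) (nat_lit 5) (nat_lit 172) (nat_lit 5) (nat_lit 610) (nat_lit 515) (nat_lit 435))) (XT.nd (nat_lit 78) (nat_lit 456) (nat_lit 0) (XT.lf (nat_lit 0) (nat_lit 3580384643) (nat_lit 380) (nat_lit 7128556197) (nat_lit 456) (nat_lit 975455120) (nat_lit 166) (nat_lit 5) (nat_lit 171) (nat_lit 5) (nat_lit 172) (nat_lit 5) (nat_lit 611) (nat_lit 515) (nat_lit 434)) (XT.nd (nat_lit 78) (nat_lit 0) (nat_lit 0) (XT.lf (nat_lit 0) (nat_lit 136002391) (nat_lit 380) (nat_lit 2610412387) (nat_lit 456) (nat_lit 9066881877) (nat_lit 160) (nat_lit 5) (nat_lit 165) (nat_lit 5) (nat_lit 166) (nat_lit 5) (nat_lit 612) (nat_lit 515) (nat_lit 433)) (XT.lf (nat_lit 0) (nat_lit 6567350470) (nat_lit 456) (nat_lit 3360440666) (nat_lit 76) (nat_lit 2016101953) (nat_lit 160) (nat_lit 5) (nat_lit 166) (nat_lit 5) (nat_lit 161) (nat_lit 5) (nat_lit 613) (nat_lit 515) (nat_lit 432))))) (XT.nd (nat_lit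 234) (nat_lit 760) (nat_lit 0) (XT.nd (nat_lit 78) (nat_lit 456) (nat_lit 0) (XT.lf (nat_lit 0) (nat_lit 5125996502) (nat_lit 304) (nat_lit 5359828466) (nat_lit 380) (nat_lit 1590854549) (nat_lit 156) (nat_lit 5) (nat_lit 160) (nat_lit 5) (nat_lit 161) (nat_lit 5) (nat_lit 614) (nat_lit 515) (nat_lit 431)) (XT.nd (nat_lit 78) (nat_lit 0) (nat_lit 0) (XT.lf (nat_lit 0) (nat_lit 1575031106) (nat_lit 380) (nat_lit 669297181) (nat_lit 456) (nat_lit 9967427799) (nat_lit 150) (nat_lit 5) (nat_lit 155) (nat_lit 5) (nat_lit 156) (nat_lit 5) (nat_lit 615) (nat_lit 515) (nat_lit 430)) (XT.lf (nat_lit 0) (nat_lit 6179397477) (nat_lit 456) (nat_lit 2067625016) (nat_lit 76) (nat_lit 4101412138) (nat_lit 150) (nat_lit 5) (nat_lit 156) (nat_lit 5) (nat_lit 151) (nat_lit 5) (nat_lit 616) (nat_lit 515) (nat_lit 429)))) (XT.nd (nat_lit 78) (nat_lit 456) (nat_lit 0) (XT.lf (nat_lit 0) (nat_lit 6710413604) (nat_lit 304) (nat_lit 3502123069) (nat_lit 380) (nat_lit 2274923129) (nat_lit 146) (nat_lit 5) (nat_lit 150) (nat_lit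 5) (nat_lit 151) (nat_lit 5) (nat_lit 617) (nat_lit 515) (nat_lit 428)) (XT.nd (nat_lit 78) (nat_lit 0) (nat_lit 0) (XT.lf (nat_lit 0) (nat_lit 1688869457) (nat_lit 456) (nat_lit 9592017844) (nat_lit 76) (nat_lit 1347877144) (nat_lit 140) (nat_lit 5) (nat_lit 146) (nat_lit 5) (nat_lit 141) (nat_lit 5) (nat_lit 618) (nat_lit 515) (nat_lit 427)) (XT.lf (nat_lit 0) (nat_lit 5735314806) (nat_lit 456) (nat_lit 751756248) (nat_lit 76) (nat_lit 6284847025) (nat_lit 140) (nat_lit 5) (nat_lit 146) (nat_lit 5) (nat_lit 141) (nat_lit 5) (nat_lit 619) (nat_lit 515) (nat_lit 426))))))))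
noncomputable def xc56 : XT := (XT.nd (nat_lit 75426) (nat_lit 0) (nat_lit 23180) (XT.nd (nat_lit 74646) (nat_lit 0) (nat_lit 41572) (XT.nd (nat_lit 74256) (nat_lit 0) (nat_lit 47120) (XT.nd (nat_lit 74022) (nat_lit 0) (nat_lit 48868) (XT.nd (nat_lit 78) (nat_lit 380) (nat_lit 0) (XT.lf (nat_lit 0) (nat_lit 8329210726) (nat_lit 304) (nat_lit 1559707129) (nat_lit 380) (nat_lit 3028492752) (nat_lit 136) (nat_lit 5) (nat_lit 140) (nat_lit 5) (nat_lit 141) (nat_lit 5) (nat_lit 620) (nat_lit 515) (nat_lit 425)) (XT.lf (nat_lit 0) (nat_lit 1075344060) (nat_lit 380) (nat_lit 8544664645) (nat_lit 76) (nat_lit 3445077777) (nat_lit 131) (nat_lit 5) (nat_lit 136) (nat_lit 5) (nat_lit 132) (nat_lit 5) (nat_lit 621) (nat_lit 515) (nat_lit 424))) (XT.nd (nat_lit 78) (nat_lit 456) (nat_lit 0) (XT.lf (nat_lit 0) (nat_lit 363356082) (nat_lit 380) (nat_lit 2509626631) (nat_lit 0) (nat_lit 363356082) (nat_lit 780) (nat_lit 5) (nat_lit 785) (nat_lit 4) (nat_lit 780) (nat_lit 4) (nat_lit 528) (nat_lit 516) (nat_lit 516)) (XT.nd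 (nat_lit 78) (nat_lit 456) (nat_lit 0) (XT.lf (nat_lit 0) (nat_lit 3937401802) (nat_lit 380) (nat_lit 1401885745) (nat_lit 0) (nat_lit 1141543992) (nat_lit 780) (nat_lit 5) (nat_lit 785) (nat_lit 4) (nat_lit 780) (nat_lit 4) (nat_lit 529) (nat_lit 516) (nat_lit 515)) (XT.lf (nat_lit 0) (nat_lit 649178662) (nat_lit 456) (nat_lit 4225553980) (nat_lit 76) (nat_lit 1615616246) (nat_lit 774) (nat_lit 5) (nat_lit 780) (nat_lit 5) (nat_lit 775) (nat_lit 4) (nat_lit 530) (nat_lit 516) (nat_lit 514))))) (XT.nd (nat_lit 156) (nat_lit 1216) (nat_lit 0) (XT.nd (nat_lit 78) (nat_lit 532) (nat_lit 0) (XT.lf (nat_lit 0) (nat_lit 3803001035) (nat_lit 456) (nat_lit 542124031) (nat_lit 76) (nat_lit 2155971180) (nat_lit 774) (nat_lit 5) (nat_lit 780) (nat_lit 5) (nat_lit 775) (nat_lit 4) (nat_lit 531) (nat_lit 516) (nat_lit 513)) (XT.lf (nat_lit 0) (nat_lit 445089650) (nat_lit 532) (nat_lit 3307243550) (nat_lit 76) (nat_lit 2760785336) (nat_lit 767) (nat_lit 5) (nat_lit 774) (nat_lit 5) (nat_lit 768) (nat_lit 5) (nat_lit 532)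 (nat_lit 516) (nat_lit 512))) (XT.nd (nat_lit 78) (nat_lit 684) (nat_lit 0) (XT.lf (nat_lit 0) (nat_lit 449990859) (nat_lit 532) (nat_lit 3095772156) (nat_lit 608) (nat_lit 2980650547) (nat_lit 760) (nat_lit 5) (nat_lit 767) (nat_lit 5) (nat_lit 768) (nat_lit 5) (nat_lit 533) (nat_lit 516) (nat_lit 511)) (XT.nd (nat_lit 78) (nat_lit 608) (nat_lit 0) (XT.lf (nat_lit 0) (nat_lit 113414601) (nat_lit 608) (nat_lit 2263145084) (nat_lit 76) (nat_lit 4164453817) (nat_lit 759) (nat_lit 5) (nat_lit 767) (nat_lit 5) (nat_lit 760) (nat_lit 5) (nat_lit 534) (nat_lit 516) (nat_lit 510)) (XT.lf (nat_lit 0) (nat_lit 1578762328) (nat_lit 608) (nat_lit 1587258344) (nat_lit 684) (nat_lit 3390763108) (nat_lit 751) (nat_lit 5) (nat_lit 759) (nat_lit 5) (nat_lit 760) (nat_lit 5) (nat_lit 535) (nat_lit 516) (nat_lit 509)))))) (XT.nd (nat_lit 390) (nat_lit 3116) (nat_lit 0) (XT.nd (nat_lit 156) (nat_lit 1672) (nat_lit 0) (XT.nd (nat_lit 78) (nat_lit 760) (nat_lit 0) (XT.lf (nat_lit 0) (nat_lit 5479903063) (nat_lit 608) (nat_lit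 742377500) (nat_lit 684) (nat_lit 351740584) (nat_lit 751) (nat_lit 5) (nat_lit 759) (nat_lit 5) (nat_lit 760) (nat_lit 5) (nat_lit 536) (nat_lit 516) (nat_lit 508)) (XT.lf (nat_lit 0) (nat_lit 2659981051) (nat_lit 760) (nat_lit 3754923074) (nat_lit 76) (nat_lit 177386666) (nat_lit 741) (nat_lit 5) (nat_lit 751) (nat_lit 5) (nat_lit 742) (nat_lit 5) (nat_lit 537) (nat_lit 516) (nat_lit 507))) (XT.nd (nat_lit 78) (nat_lit 912) (nat_lit 0) (XT.lf (nat_lit 0) (nat_lit 197293976) (nat_lit 760) (nat_lit 5473128723) (nat_lit 836) (nat_lit 941596223) (nat_lit 731) (nat_lit 5) (nat_lit 741) (nat_lit 5) (nat_lit 742) (nat_lit 5) (nat_lit 538) (nat_lit 516) (nat_lit 506)) (XT.nd (nat_lit 78) (nat_lit 836) (nat_lit 0) (XT.lf (nat_lit 0) (nat_lit 2036838082) (nat_lit 836) (nat_lit 2416182294) (nat_lit 76) (nat_lit 2179739445) (nat_lit 730) (nat_lit 5) (nat_lit 741) (nat_lit 5) (nat_lit 731) (nat_lit 5) (nat_lit 539) (nat_lit 516) (nat_lit 505)) (XT.lf (nat_lit 0) (nat_lit 1628294463) (nat_lit 836) (nat_lit 3376092148)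 (nat_lit 912) (nat_lit 1650564678) (nat_lit 719) (nat_lit 5) (nat_lit 730) (nat_lit 5) (nat_lit 731) (nat_lit 5) (nat_lit 540) (nat_lit 516) (nat_lit 504))))) (XT.nd (nat_lit 156) (nat_lit 2128) (nat_lit 0) (XT.nd (nat_lit 78) (nat_lit 912) (nat_lit 0) (XT.lf (nat_lit 0) (nat_lit 1284411626) (nat_lit 912) (nat_lit 949483979) (nat_lit 76) (nat_lit 4444549051) (nat_lit 718) (nat_lit 5) (nat_lit 730) (nat_lit 5) (nat_lit 719) (nat_lit 5) (nat_lit 541) (nat_lit 516) (nat_lit 503)) (XT.lf (nat_lit 0) (nat_lit 3191394479) (nat_lit 912) (nat_lit 1018808601) (nat_lit 988) (nat_lit 2492905382) (nat_lit 706) (nat_lit 5) (nat_lit 718) (nat_lit 5) (nat_lit 719) (nat_lit 5) (nat_lit 542) (nat_lit 516) (nat_lit 502))) (XT.nd (nat_lit 78) (nat_lit 1064) (nat_lit 0) (XT.lf (nat_lit 0) (nat_lit 406462325) (nat_lit 1064) (nat_lit 6074908968) (nat_lit 76) (nat_lit 247910050) (nat_lit 692) (nat_lit 5) (nat_lit 706) (nat_lit 5) (nat_lit 693) (nat_lit 5) (nat_lit 543) (nat_lit 516) (nat_lit 501)) (XT.nd (nat_lit 78) (nat_lit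 1064) (nat_lit 0) (XT.lf (nat_lit 0) (nat_lit 3296044743) (nat_lit 1064) (nat_lit 1877939980) (nat_lit 76) (nat_lit 1582354180) (nat_lit 692) (nat_lit 5) (nat_lit 706) (nat_lit 5) (nat_lit 693) (nat_lit 5) (nat_lit 544) (nat_lit 516) (nat_lit 500)) (XT.lf (nat_lit 0) (nat_lit 2384830346) (nat_lit 1064) (nat_lit 3810452333) (nat_lit 1140) (nat_lit 589620533) (nat_lit 678) (nat_lit 5) (nat_lit 692) (nat_lit 5) (nat_lit 693) (nat_lit 5) (nat_lit 545) (nat_lit 516) (nat_lit 499))))))) (XT.nd (nat_lit 780) (nat_lit 10108) (nat_lit 0) (XT.nd (nat_lit 390) (nat_lit 4484) (nat_lit 0) (XT.nd (nat_lit 156) (nat_lit 2584) (nat_lit 0) (XT.nd (nat_lit 78) (nat_lit 1140) (nat_lit 0) (XT.lf (nat_lit 0) (nat_lit 2257373319) (nat_lit 1140) (nat_lit 120672918) (nat_lit 76) (nat_lit 4436700150) (nat_lit 677) (nat_lit 5) (nat_lit 692) (nat_lit 5) (nat_lit 678) (nat_lit 5) (nat_lit 546) (nat_lit 516) (nat_lit 498)) (XT.lf (nat_lit 0) (nat_lit 4247159707) (nat_lit 1140) (nat_lit 871963255) (nat_lit 1216) (nat_lit 1726674006)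 (nat_lit 662) (nat_lit 5) (nat_lit 677) (nat_lit 5) (nat_lit 678) (nat_lit 5) (nat_lit 547) (nat_lit 516) (nat_lit 497))) (XT.nd (nat_lit 78) (nat_lit 1292) (nat_lit 0) (XT.lf (nat_lit 0) (nat_lit 1101015661) (nat_lit 1292) (nat_lit 5089762914) (nat_lit 76) (nat_lit 687429904) (nat_lit 645) (nat_lit 5) (nat_lit 662) (nat_lit 5) (nat_lit 646) (nat_lit 5) (nat_lit 548) (nat_lit 516) (nat_lit 496)) (XT.nd (nat_lit 78) (nat_lit 1292) (nat_lit 0) (XT.lf (nat_lit 0) (nat_lit 3925066488) (nat_lit 1292) (nat_lit 680159265) (nat_lit 76) (nat_lit 2306558200) (nat_lit 645) (nat_lit 5) (nat_lit 662) (nat_lit 5) (nat_lit 646) (nat_lit 5) (nat_lit 549) (nat_lit 516) (nat_lit 495)) (XT.lf (nat_lit 0) (nat_lit 3818292414) (nat_lit 1292) (nat_lit 2952859178) (nat_lit 1368) (nat_lit 175570783) (nat_lit 628) (nat_lit 5) (nat_lit 645) (nat_lit 5) (nat_lit 646) (nat_lit 5) (nat_lit 550) (nat_lit 516) (nat_lit 494))))) (XT.nd (nat_lit 156) (nat_lit 3040) (nat_lit 0) (XT.nd (nat_lit 78) (nat_lit 0) (nat_lit 0) (XT.lf (nat_lit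 0) (nat_lit 1384434414) (nat_lit 1368) (nat_lit 1226860098) (nat_lit 1444) (nat_lit 4371621937) (nat_lit 609) (nat_lit 5) (nat_lit 627) (nat_lit 5) (nat_lit 628) (nat_lit 5) (nat_lit 551) (nat_lit 516) (nat_lit 493)) (XT.lf (nat_lit 0) (nat_lit 5418247164) (nat_lit 1444) (nat_lit 1044986296) (nat_lit 76) (nat_lit 557246072) (nat_lit 609) (nat_lit 5) (nat_lit 628) (nat_lit 5) (nat_lit 610) (nat_lit 5) (nat_lit 552) (nat_lit 516) (nat_lit 492))) (XT.nd (nat_lit 78) (nat_lit 1520) (nat_lit 0) (XT.lf (nat_lit 0) (nat_lit 1181003154) (nat_lit 1520) (nat_lit 3478323621) (nat_lit 76) (nat_lit 2399820775) (nat_lit 589) (nat_lit 5) (nat_lit 609) (nat_lit 5) (nat_lit 590) (nat_lit 5) (nat_lit 553) (nat_lit 516) (nat_lit 491)) (XT.nd (nat_lit 78) (nat_lit 0) (nat_lit 0) (XT.lf (nat_lit 0) (nat_lit 1169349705) (nat_lit 1520) (nat_lit 2787426657) (nat_lit 1596) (nat_lit 3142436436) (nat_lit 569) (nat_lit 5) (nat_lit 589) (nat_lit 5) (nat_lit 590) (nat_lit 5) (nat_lit 554) (nat_lit 516) (nat_lit 490)) (XT.lf (nat_lit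 0) (nat_lit 5907260307) (nat_lit 1520) (nat_lit 848582907) (nat_lit 1596) (nat_lit 384882750) (nat_lit 569) (nat_lit 5) (nat_lit 589) (nat_lit 5) (nat_lit 590) (nat_lit 5) (nat_lit 555) (nat_lit 516) (nat_lit 489)))))) (XT.nd (nat_lit 390) (nat_lit 3116) (nat_lit 0) (XT.nd (nat_lit 156) (nat_lit 3648) (nat_lit 0) (XT.nd (nat_lit 78) (nat_lit 1672) (nat_lit 0) (XT.lf (nat_lit 0) (nat_lit 2371735196) (nat_lit 1672) (nat_lit 3653136673) (nat_lit 76) (nat_lit 1158369268) (nat_lit 547) (nat_lit 5) (nat_lit 569) (nat_lit 5) (nat_lit 548) (nat_lit 5) (nat_lit 556) (nat_lit 516) (nat_lit 488)) (XT.lf (nat_lit 0) (nat_lit 1135486318) (nat_lit 1672) (nat_lit 4010124219) (nat_lit 1748) (nat_lit 2081601675) (nat_lit 525) (nat_lit 5) (nat_lit 547) (nat_lit 5) (nat_lit 548) (nat_lit 5) (nat_lit 557) (nat_lit 516) (nat_lit 487))) (XT.nd (nat_lit 78) (nat_lit 3572) (nat_lit 0) (XT.lf (nat_lit 0) (nat_lit 664688134) (nat_lit 1748) (nat_lit 1257688266) (nat_lit 76) (nat_lit 5350176886) (nat_lit 524) (nat_lit 5) (nat_lit 547)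 (nat_lit 5) (nat_lit 525) (nat_lit 5) (nat_lit 558) (nat_lit 516) (nat_lit 486)) (XT.nd (nat_lit 78) (nat_lit 1824) (nat_lit 0) (XT.lf (nat_lit 0) (nat_lit 3410796892) (nat_lit 1824) (nat_lit 3663299074) (nat_lit 76) (nat_lit 244976643) (nat_lit 501) (nat_lit 5) (nat_lit 525) (nat_lit 5) (nat_lit 502) (nat_lit 5) (nat_lit 559) (nat_lit 516) (nat_lit 485)) (XT.lf (nat_lit 0) (nat_lit 1271566100) (nat_lit 1824) (nat_lit 4917852267) (nat_lit 1900) (nat_lit 1177554039) (nat_lit 477) (nat_lit 5) (nat_lit 501) (nat_lit 5) (nat_lit 502) (nat_lit 5) (nat_lit 560) (nat_lit 516) (nat_lit 484))))) (XT.nd (nat_lit 156) (nat_lit 1900) (nat_lit 0) (XT.nd (nat_lit 78) (nat_lit 1140) (nat_lit 0) (XT.lf (nat_lit 0) (nat_lit 1559899972) (nat_lit 1900) (nat_lit 1122032160) (nat_lit 76) (nat_lit 4734227028) (nat_lit 476) (nat_lit 5) (nat_lit 501) (nat_lit 5) (nat_lit 477) (nat_lit 5) (nat_lit 561) (nat_lit 516) (nat_lit 483)) (XT.lf (nat_lit 0) (nat_lit 3944868772) (nat_lit 1140) (nat_lit 366563684) (nat_lit 1216) (nat_lit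 3155241370) (nat_lit 461) (nat_lit 5) (nat_lit 476) (nat_lit 5) (nat_lit 477) (nat_lit 5) (nat_lit 562) (nat_lit 516) (nat_lit 482))) (XT.nd (nat_lit 78) (nat_lit 988) (nat_lit 0) (XT.lf (nat_lit 0) (nat_lit 1567267684) (nat_lit 912) (nat_lit 5531577010) (nat_lit 988) (nat_lit 419738860) (nat_lit 449) (nat_lit 5) (nat_lit 461) (nat_lit 5) (nat_lit 462) (nat_lit 5) (nat_lit 563) (nat_lit 516) (nat_lit 481)) (XT.nd (nat_lit 78) (nat_lit 912) (nat_lit 0) (XT.lf (nat_lit 0) (nat_lit 2316066241) (nat_lit 988) (nat_lit 834052939) (nat_lit 76) (nat_lit 4421572533) (nat_lit 448) (nat_lit 5) (nat_lit 461) (nat_lit 5) (nat_lit 449) (nat_lit 5) (nat_lit 564) (nat_lit 516) (nat_lit 480)) (XT.lf (nat_lit 0) (nat_lit 4390474816) (nat_lit 912) (nat_lit 690439219) (nat_lit 988) (nat_lit 2545295224) (nat_lit 436) (nat_lit 5) (nat_lit 448) (nat_lit 5) (nat_lit 449) (nat_lit 5) (nat_lit 565) (nat_lit 516) (nat_lit 479))))))))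
noncomputable def xc57 : XT := (XT.nd (nat_lit 1560) (nat_lit 7980) (nat_lit 0) (XT.nd (nat_lit 780) (nat_lit 4940) (nat_lit 0) (XT.nd (nat_lit 390) (nat_lit 2432) (nat_lit 0) (XT.nd (nat_lit 156) (nat_lit 2660) (nat_lit 0) (XT.nd (nat_lit 78) (nat_lit 0) (nat_lit 0) (XT.lf (nat_lit 0) (nat_lit 198816110) (nat_lit 912) (nat_lit 5670326628) (nat_lit 76) (nat_lit 1812998537) (nat_lit 424) (nat_lit 5) (nat_lit 436) (nat_lit 5) (nat_lit 425) (nat_lit 5) (nat_lit 566) (nat_lit 516) (nat_lit 478)) (XT.lf (nat_lit 0) (nat_lit 2942544819) (nat_lit 912) (nat_lit 402960848) (nat_lit 76) (nat_lit 4393774999) (nat_lit 424) (nat_lit 5) (nat_lit 436) (nat_lit 5) (nat_lit 425) (nat_lit 5) (nat_lit 567) (nat_lit 516) (nat_lit 477))) (XT.nd (nat_lit 78) (nat_lit 1748) (nat_lit 0) (XT.lf (nat_lit 0) (nat_lit 4985325256) (nat_lit 912) (nat_lit 741480166) (nat_lit 988) (nat_lit 2071045800) (nat_lit 412) (nat_lit 5) (nat_lit 424) (nat_lit 5) (nat_lit 425) (nat_lit 5) (nat_lit 568) (nat_lit 516) (nat_lit 476)) (XT.nd (nat_lit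 78) (nat_lit 836) (nat_lit 0) (XT.lf (nat_lit 0) (nat_lit 685662159) (nat_lit 912) (nat_lit 5261814038) (nat_lit 76) (nat_lit 1910310276) (nat_lit 400) (nat_lit 5) (nat_lit 412) (nat_lit 5) (nat_lit 401) (nat_lit 5) (nat_lit 569) (nat_lit 516) (nat_lit 475)) (XT.lf (nat_lit 0) (nat_lit 164970890) (nat_lit 836) (nat_lit 3283946667) (nat_lit 912) (nat_lit 4470147624) (nat_lit 389) (nat_lit 5) (nat_lit 400) (nat_lit 5) (nat_lit 401) (nat_lit 5) (nat_lit 570) (nat_lit 516) (nat_lit 474))))) (XT.nd (nat_lit 156) (nat_lit 1596) (nat_lit 0) (XT.nd (nat_lit 78) (nat_lit 836) (nat_lit 0) (XT.lf (nat_lit 0) (nat_lit 5721285990) (nat_lit 836) (nat_lit 536172655) (nat_lit 912) (nat_lit 1724311816) (nat_lit 389) (nat_lit 5) (nat_lit 400) (nat_lit 5) (nat_lit 401) (nat_lit 5) (nat_lit 571) (nat_lit 516) (nat_lit 473)) (XT.lf (nat_lit 0) (nat_lit 1054116924) (nat_lit 836) (nat_lit 4731184939) (nat_lit 76) (nat_lit 2260453680) (nat_lit 378) (nat_lit 5) (nat_lit 389) (nat_lit 5) (nat_lit 379) (nat_lit 5) (nat_lit 572) (nat_lit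 516) (nat_lit 472))) (XT.nd (nat_lit 78) (nat_lit 836) (nat_lit 0) (XT.lf (nat_lit 0) (nat_lit 866890790) (nat_lit 760) (nat_lit 2978427673) (nat_lit 836) (nat_lit 4265869382) (nat_lit 368) (nat_lit 5) (nat_lit 378) (nat_lit 5) (nat_lit 379) (nat_lit 5) (nat_lit 573) (nat_lit 516) (nat_lit 471)) (XT.nd (nat_lit 78) (nat_lit 836) (nat_lit 0) (XT.lf (nat_lit 0) (nat_lit 6590933078) (nat_lit 760) (nat_lit 89522898) (nat_lit 836) (nat_lit 1497711879) (nat_lit 368) (nat_lit 5) (nat_lit 378) (nat_lit 5) (nat_lit 379) (nat_lit 5) (nat_lit 574) (nat_lit 516) (nat_lit 470)) (XT.lf (nat_lit 0) (nat_lit 1311234707) (nat_lit 836) (nat_lit 4085922307) (nat_lit 76) (nat_lit 2849103259) (nat_lit 357) (nat_lit 5) (nat_lit 368) (nat_lit 5) (nat_lit 358) (nat_lit 5) (nat_lit 575) (nat_lit 516) (nat_lit 469)))))) (XT.nd (nat_lit 390) (nat_lit 2052) (nat_lit 0) (XT.nd (nat_lit 156) (nat_lit 2128) (nat_lit 0) (XT.nd (nat_lit 78) (nat_lit 0) (nat_lit 0) (XT.lf (nat_lit 0) (nat_lit 1690263516) (nat_lit 760) (nat_lit 2445763516)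 (nat_lit 836) (nat_lit 4179896313) (nat_lit 347) (nat_lit 5) (nat_lit 357) (nat_lit 5) (nat_lit 358) (nat_lit 5) (nat_lit 576) (nat_lit 516) (nat_lit 468)) (XT.lf (nat_lit 0) (nat_lit 7006455787) (nat_lit 836) (nat_lit 803580666) (nat_lit 76) (nat_lit 577161616) (nat_lit 347) (nat_lit 5) (nat_lit 358) (nat_lit 5) (nat_lit 348) (nat_lit 5) (nat_lit 577) (nat_lit 516) (nat_lit 467))) (XT.nd (nat_lit 78) (nat_lit 1368) (nat_lit 0) (XT.lf (nat_lit 0) (nat_lit 1463357791) (nat_lit 760) (nat_lit 3332920684) (nat_lit 76) (nat_lit 3663263514) (nat_lit 337) (nat_lit 5) (nat_lit 347) (nat_lit 5) (nat_lit 338) (nat_lit 5) (nat_lit 578) (nat_lit 516) (nat_lit 466)) (XT.nd (nat_lit 78) (nat_lit 684) (nat_lit 0) (XT.lf (nat_lit 0) (nat_lit 2628501245) (nat_lit 684) (nat_lit 1698780116) (nat_lit 760) (nat_lit 4206241434) (nat_lit 328) (nat_lit 5) (nat_lit 337) (nat_lit 5) (nat_lit 338) (nat_lit 5) (nat_lit 579) (nat_lit 516) (nat_lit 465)) (XT.lf (nat_lit 0) (nat_lit 86989336) (nat_lit 684) (nat_lit 7153400044) (nat_lit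 760) (nat_lit 1368756828) (nat_lit 319) (nat_lit 5) (nat_lit 328) (nat_lit 5) (nat_lit 329) (nat_lit 5) (nat_lit 580) (nat_lit 516) (nat_lit 464))))) (XT.nd (nat_lit 156) (nat_lit 1292) (nat_lit 0) (XT.nd (nat_lit 78) (nat_lit 684) (nat_lit 0) (XT.lf (nat_lit 0) (nat_lit 1516158238) (nat_lit 760) (nat_lit 2478543795) (nat_lit 76) (nat_lit 4691169282) (nat_lit 318) (nat_lit 5) (nat_lit 328) (nat_lit 5) (nat_lit 319) (nat_lit 5) (nat_lit 581) (nat_lit 516) (nat_lit 463)) (XT.lf (nat_lit 0) (nat_lit 3675551318) (nat_lit 684) (nat_lit 749116290) (nat_lit 760) (nat_lit 4339598940) (nat_lit 309) (nat_lit 5) (nat_lit 318) (nat_lit 5) (nat_lit 319) (nat_lit 5) (nat_lit 582) (nat_lit 516) (nat_lit 462))) (XT.nd (nat_lit 78) (nat_lit 684) (nat_lit 0) (XT.lf (nat_lit 0) (nat_lit 1090059280) (nat_lit 608) (nat_lit 6302473509) (nat_lit 684) (nat_lit 1451674211) (nat_lit 301) (nat_lit 5) (nat_lit 309) (nat_lit 5) (nat_lit 310) (nat_lit 5) (nat_lit 583) (nat_lit 516) (nat_lit 461)) (XT.nd (nat_lit 78) (nat_lit 608) (nat_lit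 0) (XT.lf (nat_lit 0) (nat_lit 1474675342) (nat_lit 684) (nat_lit 1528679551) (nat_lit 76) (nat_lit 5922193141) (nat_lit 300) (nat_lit 5) (nat_lit 309) (nat_lit 5) (nat_lit 301) (nat_lit 5) (nat_lit 584) (nat_lit 516) (nat_lit 460)) (XT.lf (nat_lit 0) (nat_lit 4435705834) (nat_lit 684) (nat_lit 4185172087) (nat_lit 76) (nat_lit 387535186) (nat_lit 292) (nat_lit 5) (nat_lit 301) (nat_lit 5) (nat_lit 293) (nat_lit 5) (nat_lit 585) (nat_lit 516) (nat_lit 459))))))) (XT.nd (nat_lit 780) (nat_lit 3876) (nat_lit 0) (XT.nd (nat_lit 390) (nat_lit 1596) (nat_lit 0) (XT.nd (nat_lit 156) (nat_lit 1824) (nat_lit 0) (XT.nd (nat_lit 78) (nat_lit 76) (nat_lit 0) (XT.lf (nat_lit 0) (nat_lit 2189450059) (nat_lit 608) (nat_lit 5272992964) (nat_lit 684) (nat_lit 1630363686) (nat_lit 284) (nat_lit 5) (nat_lit 292) (nat_lit 5) (nat_lit 293) (nat_lit 5) (nat_lit 586) (nat_lit 516) (nat_lit 458)) (XT.lf (nat_lit 0) (nat_lit 1343348973) (nat_lit 684) (nat_lit 488792850) (nat_lit 76) (nat_lit 7346759247) (nat_lit 283) (nat_lit 5)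 (nat_lit 292) (nat_lit 5) (nat_lit 284) (nat_lit 5) (nat_lit 587) (nat_lit 516) (nat_lit 457))) (XT.nd (nat_lit 78) (nat_lit 1216) (nat_lit 0) (XT.lf (nat_lit 0) (nat_lit 4368282878) (nat_lit 684) (nat_lit 3203374679) (nat_lit 76) (nat_lit 1694573570) (nat_lit 275) (nat_lit 5) (nat_lit 284) (nat_lit 5) (nat_lit 276) (nat_lit 5) (nat_lit 588) (nat_lit 516) (nat_lit 456)) (XT.nd (nat_lit 78) (nat_lit 684) (nat_lit 0) (XT.lf (nat_lit 0) (nat_lit 3380059022) (nat_lit 532) (nat_lit 4074343480) (nat_lit 608) (nat_lit 1900892419) (nat_lit 268) (nat_lit 5) (nat_lit 275) (nat_lit 5) (nat_lit 276) (nat_lit 5) (nat_lit 589) (nat_lit 516) (nat_lit 455)) (XT.lf (nat_lit 0) (nat_lit 644475858) (nat_lit 608) (nat_lit 485757501) (nat_lit 684) (nat_lit 8315971521) (nat_lit 259) (nat_lit 5) (nat_lit 267) (nat_lit 5) (nat_lit 268) (nat_lit 5) (nat_lit 590) (nat_lit 516) (nat_lit 454))))) (XT.nd (nat_lit 156) (nat_lit 1064) (nat_lit 0) (XT.nd (nat_lit 78) (nat_lit 532) (nat_lit 0) (XT.lf (nat_lit 0) (nat_lit 4221311130) (nat_lit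 684) (nat_lit 2143538152) (nat_lit 76) (nat_lit 3173337636) (nat_lit 259) (nat_lit 5) (nat_lit 268) (nat_lit 5) (nat_lit 260) (nat_lit 5) (nat_lit 591) (nat_lit 516) (nat_lit 453)) (XT.lf (nat_lit 0) (nat_lit 4657130711) (nat_lit 532) (nat_lit 2715028473) (nat_lit 608) (nat_lit 2259891247) (nat_lit 252) (nat_lit 5) (nat_lit 259) (nat_lit 5) (nat_lit 260) (nat_lit 5) (nat_lit 592) (nat_lit 516) (nat_lit 452))) (XT.nd (nat_lit 78) (nat_lit 456) (nat_lit 0) (XT.lf (nat_lit 0) (nat_lit 844882351) (nat_lit 608) (nat_lit 7869060599) (nat_lit 76) (nat_lit 1013779494) (nat_lit 244) (nat_lit 5) (nat_lit 252) (nat_lit 5) (nat_lit 245) (nat_lit 5) (nat_lit 593) (nat_lit 516) (nat_lit 451)) (XT.nd (nat_lit 78) (nat_lit 456) (nat_lit 0) (XT.lf (nat_lit 0) (nat_lit 3998041909) (nat_lit 608) (nat_lit 1010448520) (nat_lit 76) (nat_lit 4816188463) (nat_lit 244) (nat_lit 5) (nat_lit 252) (nat_lit 5) (nat_lit 245) (nat_lit 5) (nat_lit 594) (nat_lit 516) (nat_lit 450)) (XT.lf (nat_lit 0) (nat_lit 6016207955) (nat_lit 456) (nat_lit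 1202741843) (nat_lit 532) (nat_lit 2704531717) (nat_lit 238) (nat_lit 5) (nat_lit 244) (nat_lit 5) (nat_lit 245) (nat_lit 5) (nat_lit 595) (nat_lit 516) (nat_lit 449)))))) (XT.nd (nat_lit 390) (nat_lit 1824) (nat_lit 0) (XT.nd (nat_lit 156) (nat_lit 988) (nat_lit 0) (XT.nd (nat_lit 78) (nat_lit 456) (nat_lit 0) (XT.lf (nat_lit 0) (nat_lit 484351015) (nat_lit 608) (nat_lit 6878720009) (nat_lit 76) (nat_lit 2660914935) (nat_lit 230) (nat_lit 5) (nat_lit 238) (nat_lit 5) (nat_lit 231) (nat_lit 5) (nat_lit 596) (nat_lit 516) (nat_lit 448)) (XT.lf (nat_lit 0) (nat_lit 193895830) (nat_lit 456) (nat_lit 3508585406) (nat_lit 532) (nat_lit 6423628753) (nat_lit 224) (nat_lit 5) (nat_lit 230) (nat_lit 5) (nat_lit 231) (nat_lit 5) (nat_lit 597) (nat_lit 516) (nat_lit 447))) (XT.nd (nat_lit 78) (nat_lit 988) (nat_lit 0) (XT.lf (nat_lit 0) (nat_lit 7000477386) (nat_lit 532) (nat_lit 2779900362) (nat_lit 76) (nat_lit 449589373) (nat_lit 224) (nat_lit 5) (nat_lit 231) (nat_lit 5) (nat_lit 225) (nat_lit 5) (nat_lit 598)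 (nat_lit 516) (nat_lit 446)) (XT.nd (nat_lit 78) (nat_lit 456) (nat_lit 0) (XT.lf (nat_lit 0) (nat_lit 47713919) (nat_lit 532) (nat_lit 5832285557) (nat_lit 76) (nat_lit 4455507759) (nat_lit 217) (nat_lit 5) (nat_lit 224) (nat_lit 5) (nat_lit 218) (nat_lit 5) (nat_lit 599) (nat_lit 516) (nat_lit 445)) (XT.lf (nat_lit 0) (nat_lit 1476891163) (nat_lit 456) (nat_lit 1865810316) (nat_lit 532) (nat_lit 7100120730) (nat_lit 211) (nat_lit 5) (nat_lit 217) (nat_lit 5) (nat_lit 218) (nat_lit 5) (nat_lit 600) (nat_lit 516) (nat_lit 444))))) (XT.nd (nat_lit 234) (nat_lit 912) (nat_lit 0) (XT.nd (nat_lit 78) (nat_lit 912) (nat_lit 0) (XT.lf (nat_lit 0) (nat_lit 6724770465) (nat_lit 532) (nat_lit 1603031589) (nat_lit 76) (nat_lit 2224058434) (nat_lit 211) (nat_lit 5) (nat_lit 218) (nat_lit 5) (nat_lit 212) (nat_lit 5) (nat_lit 601) (nat_lit 516) (nat_lit 443)) (XT.nd (nat_lit 78) (nat_lit 456) (nat_lit 0) (XT.lf (nat_lit 0) (nat_lit 5925313108) (nat_lit 456) (nat_lit 4267950852) (nat_lit 532) (nat_lit 469440534) (nat_lit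 205) (nat_lit 5) (nat_lit 211) (nat_lit 5) (nat_lit 212) (nat_lit 5) (nat_lit 602) (nat_lit 516) (nat_lit 442)) (XT.lf (nat_lit 0) (nat_lit 2820858058) (nat_lit 380) (nat_lit 92956212) (nat_lit 456) (nat_lit 7861623700) (nat_lit 199) (nat_lit 5) (nat_lit 204) (nat_lit 5) (nat_lit 205) (nat_lit 5) (nat_lit 603) (nat_lit 516) (nat_lit 441)))) (XT.nd (nat_lit 78) (nat_lit 912) (nat_lit 0) (XT.lf (nat_lit 0) (nat_lit 6385791109) (nat_lit 456) (nat_lit 373170621) (nat_lit 76) (nat_lit 4130856060) (nat_lit 199) (nat_lit 5) (nat_lit 205) (nat_lit 5) (nat_lit 200) (nat_lit 5) (nat_lit 604) (nat_lit 516) (nat_lit 440)) (XT.nd (nat_lit 78) (nat_lit 456) (nat_lit 0) (XT.lf (nat_lit 0) (nat_lit 7409859813) (nat_lit 456) (nat_lit 2534985265) (nat_lit 532) (nat_lit 1061287955) (nat_lit 193) (nat_lit 5) (nat_lit 199) (nat_lit 5) (nat_lit 200) (nat_lit 5) (nat_lit 605) (nat_lit 516) (nat_lit 439)) (XT.lf (nat_lit 0) (nat_lit 2428833097) (nat_lit 456) (nat_lit 6914546337) (nat_lit 76) (nat_lit 1780864246) (nat_lit 187) (nat_lit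 5) (nat_lit 193) (nat_lit 5) (nat_lit 188) (nat_lit 5) (nat_lit 606) (nat_lit 516) (nat_lit 438))))))))
noncomputable def xc58 : XT := (XT.nd (nat_lit 75270) (nat_lit 0) (nat_lit 35948) (XT.nd (nat_lit 780) (nat_lit 1064) (nat_lit 0) (XT.nd (nat_lit 390) (nat_lit 1596) (nat_lit 0) (XT.nd (nat_lit 156) (nat_lit 836) (nat_lit 0) (XT.nd (nat_lit 78) (nat_lit 0) (nat_lit 0) (XT.lf (nat_lit 0) (nat_lit 917474452) (nat_lit 380) (nat_lit 5073343869) (nat_lit 456) (nat_lit 5253433014) (nat_lit 182) (nat_lit 5) (nat_lit 187) (nat_lit 5) (nat_lit 188) (nat_lit 5) (nat_lit 607) (nat_lit 516) (nat_lit 437)) (XT.lf (nat_lit 0) (nat_lit 8953288546) (nat_lit 380) (nat_lit 686677619) (nat_lit 456) (nat_lit 1726375054) (nat_lit 182) (nat_lit 5) (nat_lit 187) (nat_lit 5) (nat_lit 188) (nat_lit 5) (nat_lit 608) (nat_lit 516) (nat_lit 436))) (XT.nd (nat_lit 78) (nat_lit 380) (nat_lit 0) (XT.lf (nat_lit 0) (nat_lit 1878264528) (nat_lit 456) (nat_lit 5840143147) (nat_lit 76) (nat_lit 3771591116) (nat_lit 176) (nat_lit 5) (nat_lit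 182) (nat_lit 5) (nat_lit 177) (nat_lit 5) (nat_lit 609) (nat_lit 516) (nat_lit 435)) (XT.nd (nat_lit 78) (nat_lit 0) (nat_lit 0) (XT.lf (nat_lit 0) (nat_lit 2258203004) (nat_lit 380) (nat_lit 3279319541) (nat_lit 456) (nat_lit 6078266408) (nat_lit 171) (nat_lit 5) (nat_lit 176) (nat_lit 5) (nat_lit 177) (nat_lit 5) (nat_lit 610) (nat_lit 516) (nat_lit 434)) (XT.lf (nat_lit 0) (nat_lit 9287814543) (nat_lit 456) (nat_lit 1200430463) (nat_lit 76) (nat_lit 1255493430) (nat_lit 171) (nat_lit 5) (nat_lit 177) (nat_lit 5) (nat_lit 172) (nat_lit 5) (nat_lit 611) (nat_lit 516) (nat_lit 433))))) (XT.nd (nat_lit 156) (nat_lit 760) (nat_lit 0) (XT.nd (nat_lit 78) (nat_lit 380) (nat_lit 0) (XT.lf (nat_lit 0) (nat_lit 1261866408) (nat_lit 456) (nat_lit 4735416517) (nat_lit 76) (nat_lit 5876018611) (nat_lit 165) (nat_lit 5) (nat_lit 171) (nat_lit 5) (nat_lit 166) (nat_lit 5) (nat_lit 612) (nat_lit 516) (nat_lit 432)) (XT.lf (nat_lit 0) (nat_lit 3639751873) (nat_lit 380) (nat_lit 1384107987) (nat_lit 456) (nat_lit 6981217185)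 (nat_lit 160) (nat_lit 5) (nat_lit 165) (nat_lit 5) (nat_lit 166) (nat_lit 5) (nat_lit 613) (nat_lit 516) (nat_lit 431))) (XT.nd (nat_lit 78) (nat_lit 456) (nat_lit 0) (XT.lf (nat_lit 0) (nat_lit 40741742) (nat_lit 304) (nat_lit 8845296474) (nat_lit 380) (nat_lit 3252951404) (nat_lit 156) (nat_lit 5) (nat_lit 160) (nat_lit 5) (nat_lit 161) (nat_lit 5) (nat_lit 614) (nat_lit 516) (nat_lit 430)) (XT.nd (nat_lit 78) (nat_lit 380) (nat_lit 0) (XT.lf (nat_lit 0) (nat_lit 579551330) (nat_lit 380) (nat_lit 3605102436) (nat_lit 76) (nat_lit 8090118046) (nat_lit 155) (nat_lit 5) (nat_lit 160) (nat_lit 5) (nat_lit 156) (nat_lit 5) (nat_lit 615) (nat_lit 516) (nat_lit 429)) (XT.lf (nat_lit 0) (nat_lit 4453747254) (nat_lit 456) (nat_lit 7358959234) (nat_lit 76) (nat_lit 599961546) (nat_lit 150) (nat_lit 5) (nat_lit 156) (nat_lit 5) (nat_lit 151) (nat_lit 5) (nat_lit 616) (nat_lit 516) (nat_lit 428)))))) (XT.nd (nat_lit 74100) (nat_lit 0) (nat_lit 48488) (XT.nd (nat_lit 156) (nat_lit 760) (nat_lit 0) (XT.nd (nat_lit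 78) (nat_lit 0) (nat_lit 0) (XT.lf (nat_lit 0) (nat_lit 1326128439) (nat_lit 304) (nat_lit 7111903201) (nat_lit 380) (nat_lit 4114638869) (nat_lit 146) (nat_lit 5) (nat_lit 150) (nat_lit 5) (nat_lit 151) (nat_lit 5) (nat_lit 617) (nat_lit 516) (nat_lit 427)) (XT.lf (nat_lit 0) (nat_lit 10239850462) (nat_lit 304) (nat_lit 2283722304) (nat_lit 380) (nat_lit 171469262) (nat_lit 146) (nat_lit 5) (nat_lit 150) (nat_lit 5) (nat_lit 151) (nat_lit 5) (nat_lit 618) (nat_lit 516) (nat_lit 426))) (XT.nd (nat_lit 78) (nat_lit 304) (nat_lit 0) (XT.lf (nat_lit 0) (nat_lit 3832350837) (nat_lit 456) (nat_lit 6349320576) (nat_lit 76) (nat_lit 2657444192) (nat_lit 140) (nat_lit 5) (nat_lit 146) (nat_lit 5) (nat_lit 141) (nat_lit 5) (nat_lit 619) (nat_lit 516) (nat_lit 425)) (XT.nd (nat_lit 78) (nat_lit 0) (nat_lit 0) (XT.lf (nat_lit 0) (nat_lit 2634960354) (nat_lit 304) (nat_lit 5300505904) (nat_lit 380) (nat_lit 5050151819) (nat_lit 136) (nat_lit 5) (nat_lit 140) (nat_lit 5) (nat_lit 141) (nat_lit 5) (nat_lit 620) (nat_lit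 516) (nat_lit 424)) (XT.lf (nat_lit 0) (nat_lit 11840836100) (nat_lit 304) (nat_lit 295359952) (nat_lit 380) (nat_lit 998543887) (nat_lit 136) (nat_lit 5) (nat_lit 140) (nat_lit 5) (nat_lit 141) (nat_lit 5) (nat_lit 621) (nat_lit 516) (nat_lit 423))))) (XT.nd (nat_lit 156) (nat_lit 760) (nat_lit 0) (XT.nd (nat_lit 78) (nat_lit 76) (nat_lit 0) (XT.lf (nat_lit 0) (nat_lit 397299221) (nat_lit 228) (nat_lit 1416172434) (nat_lit 228) (nat_lit 1416172434) (nat_lit 785) (nat_lit 4) (nat_lit 788) (nat_lit 5) (nat_lit 788) (nat_lit 4) (nat_lit 526) (nat_lit 517) (nat_lit 517)) (XT.lf (nat_lit 0) (nat_lit 382454815) (nat_lit 304) (nat_lit 2136251738) (nat_lit 76) (nat_lit 3946947367) (nat_lit 784) (nat_lit 5) (nat_lit 788) (nat_lit 5) (nat_lit 785) (nat_lit 4) (nat_lit 527) (nat_lit 517) (nat_lit 516))) (XT.nd (nat_lit 78) (nat_lit 456) (nat_lit 0) (XT.lf (nat_lit 0) (nat_lit 1415611394) (nat_lit 304) (nat_lit 2136961291) (nat_lit 380) (nat_lit 2920625440) (nat_lit 780) (nat_lit 5) (nat_lit 784) (nat_lit 5) (nat_lit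 785) (nat_lit 4) (nat_lit 528) (nat_lit 517) (nat_lit 515)) (XT.nd (nat_lit 78) (nat_lit 380) (nat_lit 0) (XT.lf (nat_lit 0) (nat_lit 236091656) (nat_lit 380) (nat_lit 1462918578) (nat_lit 76) (nat_lit 4783149812) (nat_lit 779) (nat_lit 5) (nat_lit 784) (nat_lit 5) (nat_lit 780) (nat_lit 5) (nat_lit 529) (nat_lit 517) (nat_lit 514)) (XT.lf (nat_lit 0) (nat_lit 2165938288) (nat_lit 380) (nat_lit 1187020815) (nat_lit 456) (nat_lit 3139237802) (nat_lit 774) (nat_lit 5) (nat_lit 779) (nat_lit 5) (nat_lit 780) (nat_lit 5) (nat_lit 530) (nat_lit 517) (nat_lit 513))))))) (XT.nd (nat_lit 780) (nat_lit 8284) (nat_lit 0) (XT.nd (nat_lit 390) (nat_lit 2508) (nat_lit 0) (XT.nd (nat_lit 156) (nat_lit 1216) (nat_lit 0) (XT.nd (nat_lit 78) (nat_lit 532) (nat_lit 0) (XT.lf (nat_lit 0) (nat_lit 5840740802) (nat_lit 380) (nat_lit 624491252) (nat_lit 456) (nat_lit 38545270) (nat_lit 774) (nat_lit 5) (nat_lit 779) (nat_lit 5) (nat_lit 780) (nat_lit 5) (nat_lit 531) (nat_lit 517) (nat_lit 512)) (XT.lf (nat_lit 0) (nat_lit 3027346759)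 (nat_lit 532) (nat_lit 3469871875) (nat_lit 76) (nat_lit 19085868) (nat_lit 767) (nat_lit 5) (nat_lit 774) (nat_lit 5) (nat_lit 768) (nat_lit 5) (nat_lit 532) (nat_lit 517) (nat_lit 511))) (XT.nd (nat_lit 78) (nat_lit 684) (nat_lit 0) (XT.lf (nat_lit 0) (nat_lit 261156228) (nat_lit 532) (nat_lit 5828817268) (nat_lit 608) (nat_lit 440388918) (nat_lit 760) (nat_lit 5) (nat_lit 767) (nat_lit 5) (nat_lit 768) (nat_lit 5) (nat_lit 533) (nat_lit 517) (nat_lit 510)) (XT.nd (nat_lit 78) (nat_lit 608) (nat_lit 0) (XT.lf (nat_lit 0) (nat_lit 2583866604) (nat_lit 608) (nat_lit 2496482077) (nat_lit 76) (nat_lit 1465015561) (nat_lit 759) (nat_lit 5) (nat_lit 767) (nat_lit 5) (nat_lit 760) (nat_lit 5) (nat_lit 534) (nat_lit 517) (nat_lit 509)) (XT.lf (nat_lit 0) (nat_lit 1318422254) (nat_lit 608) (nat_lit 4280582044) (nat_lit 684) (nat_lit 962881431) (nat_lit 751) (nat_lit 5) (nat_lit 759) (nat_lit 5) (nat_lit 760) (nat_lit 5) (nat_lit 535) (nat_lit 517) (nat_lit 508))))) (XT.nd (nat_lit 156) (nat_lit 1748) (nat_lit 0)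 (XT.nd (nat_lit 78) (nat_lit 684) (nat_lit 0) (XT.lf (nat_lit 0) (nat_lit 2013448353) (nat_lit 684) (nat_lit 1396946342) (nat_lit 76) (nat_lit 3169169852) (nat_lit 750) (nat_lit 5) (nat_lit 759) (nat_lit 5) (nat_lit 751) (nat_lit 5) (nat_lit 536) (nat_lit 517) (nat_lit 507)) (XT.lf (nat_lit 0) (nat_lit 2505642038) (nat_lit 684) (nat_lit 2476817873) (nat_lit 760) (nat_lit 1616092277) (nat_lit 741) (nat_lit 5) (nat_lit 750) (nat_lit 5) (nat_lit 751) (nat_lit 5) (nat_lit 537) (nat_lit 517) (nat_lit 506))) (XT.nd (nat_lit 78) (nat_lit 1672) (nat_lit 0) (XT.lf (nat_lit 0) (nat_lit 1314478034) (nat_lit 760) (nat_lit 169581328) (nat_lit 76) (nat_lit 5134886422) (nat_lit 740) (nat_lit 5) (nat_lit 750) (nat_lit 5) (nat_lit 741) (nat_lit 5) (nat_lit 538) (nat_lit 517) (nat_lit 505)) (XT.nd (nat_lit 78) (nat_lit 912) (nat_lit 0) (XT.lf (nat_lit 0) (nat_lit 3824651413) (nat_lit 760) (nat_lit 413964544) (nat_lit 836) (nat_lit 2401789033) (nat_lit 730) (nat_lit 5) (nat_lit 740) (nat_lit 5) (nat_lit 741) (nat_lit 5) (nat_lit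 539) (nat_lit 517) (nat_lit 504)) (XT.lf (nat_lit 0) (nat_lit 497513493) (nat_lit 912) (nat_lit 5464682743) (nat_lit 76) (nat_lit 701109720) (nat_lit 718) (nat_lit 5) (nat_lit 730) (nat_lit 5) (nat_lit 719) (nat_lit 5) (nat_lit 540) (nat_lit 517) (nat_lit 503)))))) (XT.nd (nat_lit 390) (nat_lit 5168) (nat_lit 0) (XT.nd (nat_lit 156) (nat_lit 2204) (nat_lit 0) (XT.nd (nat_lit 78) (nat_lit 912) (nat_lit 0) (XT.lf (nat_lit 0) (nat_lit 3377909364) (nat_lit 912) (nat_lit 1422366390) (nat_lit 76) (nat_lit 1886969438) (nat_lit 718) (nat_lit 5) (nat_lit 730) (nat_lit 5) (nat_lit 719) (nat_lit 5) (nat_lit 541) (nat_lit 517) (nat_lit 502)) (XT.lf (nat_lit 0) (nat_lit 2688246592) (nat_lit 912) (nat_lit 3579900219) (nat_lit 988) (nat_lit 444474777) (nat_lit 706) (nat_lit 5) (nat_lit 718) (nat_lit 5) (nat_lit 719) (nat_lit 5) (nat_lit 542) (nat_lit 517) (nat_lit 501))) (XT.nd (nat_lit 78) (nat_lit 1140) (nat_lit 0) (XT.lf (nat_lit 0) (nat_lit 98829469) (nat_lit 988) (nat_lit 2291930278) (nat_lit 1064) (nat_lit 4348515529)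 (nat_lit 692) (nat_lit 5) (nat_lit 705) (nat_lit 5) (nat_lit 706) (nat_lit 5) (nat_lit 543) (nat_lit 517) (nat_lit 500)) (XT.nd (nat_lit 78) (nat_lit 1140) (nat_lit 0) (XT.lf (nat_lit 0) (nat_lit 4308030460) (nat_lit 988) (nat_lit 931986987) (nat_lit 1064) (nat_lit 1527123307) (nat_lit 692) (nat_lit 5) (nat_lit 705) (nat_lit 5) (nat_lit 706) (nat_lit 5) (nat_lit 544) (nat_lit 517) (nat_lit 499)) (XT.lf (nat_lit 0) (nat_lit 1284787320) (nat_lit 1140) (nat_lit 5027210517) (nat_lit 76) (nat_lit 484356971) (nat_lit 677) (nat_lit 5) (nat_lit 692) (nat_lit 5) (nat_lit 678) (nat_lit 5) (nat_lit 545) (nat_lit 517) (nat_lit 498))))) (XT.nd (nat_lit 234) (nat_lit 2736) (nat_lit 0) (XT.nd (nat_lit 78) (nat_lit 2432) (nat_lit 0) (XT.lf (nat_lit 0) (nat_lit 4093418576) (nat_lit 1140) (nat_lit 775872842) (nat_lit 76) (nat_lit 1957443933) (nat_lit 677) (nat_lit 5) (nat_lit 692) (nat_lit 5) (nat_lit 678) (nat_lit 5) (nat_lit 546) (nat_lit 517) (nat_lit 497)) (XT.nd (nat_lit 78) (nat_lit 1216) (nat_lit 0) (XT.lf (nat_lit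 0) (nat_lit 61379483) (nat_lit 1216) (nat_lit 3299703087) (nat_lit 76) (nat_lit 3497386517) (nat_lit 661) (nat_lit 5) (nat_lit 677) (nat_lit 5) (nat_lit 662) (nat_lit 5) (nat_lit 547) (nat_lit 517) (nat_lit 496)) (XT.lf (nat_lit 0) (nat_lit 1046997572) (nat_lit 1216) (nat_lit 1780268721) (nat_lit 1292) (nat_lit 4064174499) (nat_lit 645) (nat_lit 5) (nat_lit 661) (nat_lit 5) (nat_lit 662) (nat_lit 5) (nat_lit 548) (nat_lit 517) (nat_lit 495)))) (XT.nd (nat_lit 78) (nat_lit 2736) (nat_lit 0) (XT.lf (nat_lit 0) (nat_lit 5477200047) (nat_lit 1216) (nat_lit 134103519) (nat_lit 1292) (nat_lit 1314514211) (nat_lit 645) (nat_lit 5) (nat_lit 661) (nat_lit 5) (nat_lit 662) (nat_lit 5) (nat_lit 549) (nat_lit 517) (nat_lit 494)) (XT.nd (nat_lit 78) (nat_lit 1368) (nat_lit 0) (XT.lf (nat_lit 0) (nat_lit 1441943052) (nat_lit 1368) (nat_lit 3954741854) (nat_lit 76) (nat_lit 1564579357) (nat_lit 627) (nat_lit 5) (nat_lit 645) (nat_lit 5) (nat_lit 628) (nat_lit 5) (nat_lit 550) (nat_lit 517) (nat_lit 493)) (XT.lf (nat_lit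 0) (nat_lit 521455534) (nat_lit 1368) (nat_lit 3670916751) (nat_lit 1444) (nat_lit 2805747088) (nat_lit 609) (nat_lit 5) (nat_lit 627) (nat_lit 5) (nat_lit 628) (nat_lit 5) (nat_lit 551) (nat_lit 517) (nat_lit 492))))))))
noncomputable def xc59 : XT := (XT.nd (nat_lit 1560) (nat_lit 10412) (nat_lit 0) (XT.nd (nat_lit 780) (nat_lit 6612) (nat_lit 0) (XT.nd (nat_lit 390) (nat_lit 5396) (nat_lit 0) (XT.nd (nat_lit 156) (nat_lit 3192) (nat_lit 0) (XT.nd (nat_lit 78) (nat_lit 1520) (nat_lit 0) (XT.lf (nat_lit 0) (nat_lit 5092204098) (nat_lit 1368) (nat_lit 1875327630) (nat_lit 1444) (nat_lit 68787737) (nat_lit 609) (nat_lit 5) (nat_lit 627) (nat_lit 5) (nat_lit 628) (nat_lit 5) (nat_lit 552) (nat_lit 517) (nat_lit 491)) (XT.lf (nat_lit 0) (nat_lit 2647755725) (nat_lit 1444) (nat_lit 560748) (nat_lit 1520) (nat_lit 4427393386) (nat_lit 589) (nat_lit 5) (nat_lit 608) (nat_lit 5) (nat_lit 609) (nat_lit 5) (nat_lit 553) (nat_lit 517) (nat_lit 490))) (XT.nd (nat_lit 78) (nat_lit 1672) (nat_lit 0) (XT.lf (nat_lit 0)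 (nat_lit 182416760) (nat_lit 1520) (nat_lit 5207915199) (nat_lit 1596) (nat_lit 1726119379) (nat_lit 569) (nat_lit 5) (nat_lit 589) (nat_lit 5) (nat_lit 590) (nat_lit 5) (nat_lit 554) (nat_lit 517) (nat_lit 489)) (XT.nd (nat_lit 78) (nat_lit 1596) (nat_lit 0) (XT.lf (nat_lit 0) (nat_lit 990760033) (nat_lit 1596) (nat_lit 2268897693) (nat_lit 76) (nat_lit 3898716817) (nat_lit 568) (nat_lit 5) (nat_lit 589) (nat_lit 5) (nat_lit 569) (nat_lit 5) (nat_lit 555) (nat_lit 517) (nat_lit 488)) (XT.lf (nat_lit 0) (nat_lit 2461751037) (nat_lit 1596) (nat_lit 1239356823) (nat_lit 1672) (nat_lit 3500557341) (nat_lit 547) (nat_lit 5) (nat_lit 568) (nat_lit 5) (nat_lit 569) (nat_lit 5) (nat_lit 556) (nat_lit 517) (nat_lit 487))))) (XT.nd (nat_lit 156) (nat_lit 3648) (nat_lit 0) (XT.nd (nat_lit 78) (nat_lit 76) (nat_lit 0) (XT.lf (nat_lit 0) (nat_lit 17629903) (nat_lit 1672) (nat_lit 6415815787) (nat_lit 1748) (nat_lit 813022332) (nat_lit 525) (nat_lit 5) (nat_lit 547) (nat_lit 5) (nat_lit 548) (nat_lit 5) (nat_lit 557)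 (nat_lit 517) (nat_lit 486)) (XT.lf (nat_lit 0) (nat_lit 1890581156) (nat_lit 1748) (nat_lit 2427687891) (nat_lit 76) (nat_lit 2973897249) (nat_lit 524) (nat_lit 5) (nat_lit 547) (nat_lit 5) (nat_lit 525) (nat_lit 5) (nat_lit 558) (nat_lit 517) (nat_lit 485))) (XT.nd (nat_lit 78) (nat_lit 1900) (nat_lit 0) (XT.lf (nat_lit 0) (nat_lit 2447380390) (nat_lit 1748) (nat_lit 2154303555) (nat_lit 1824) (nat_lit 2737702733) (nat_lit 501) (nat_lit 5) (nat_lit 524) (nat_lit 5) (nat_lit 525) (nat_lit 5) (nat_lit 559) (nat_lit 517) (nat_lit 484)) (XT.nd (nat_lit 78) (nat_lit 76) (nat_lit 0) (XT.lf (nat_lit 0) (nat_lit 15856127) (nat_lit 1824) (nat_lit 7317123862) (nat_lit 1900) (nat_lit 55253915) (nat_lit 477) (nat_lit 5) (nat_lit 501) (nat_lit 5) (nat_lit 502) (nat_lit 5) (nat_lit 560) (nat_lit 517) (nat_lit 483)) (XT.lf (nat_lit 0) (nat_lit 2642465778) (nat_lit 1900) (nat_lit 2430983411) (nat_lit 76) (nat_lit 2364326921) (nat_lit 476) (nat_lit 5) (nat_lit 501) (nat_lit 5) (nat_lit 477) (nat_lit 5) (nat_lit 561) (nat_lit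 517) (nat_lit 482)))))) (XT.nd (nat_lit 390) (nat_lit 2660) (nat_lit 0) (XT.nd (nat_lit 156) (nat_lit 1824) (nat_lit 0) (XT.nd (nat_lit 78) (nat_lit 988) (nat_lit 0) (XT.lf (nat_lit 0) (nat_lit 2593991638) (nat_lit 1140) (nat_lit 2766711178) (nat_lit 1216) (nat_lit 2128254737) (nat_lit 461) (nat_lit 5) (nat_lit 476) (nat_lit 5) (nat_lit 477) (nat_lit 5) (nat_lit 562) (nat_lit 517) (nat_lit 481)) (XT.lf (nat_lit 0) (nat_lit 160498931) (nat_lit 912) (nat_lit 392130986) (nat_lit 988) (nat_lit 6989092418) (nat_lit 448) (nat_lit 5) (nat_lit 460) (nat_lit 5) (nat_lit 461) (nat_lit 5) (nat_lit 563) (nat_lit 517) (nat_lit 480))) (XT.nd (nat_lit 78) (nat_lit 1824) (nat_lit 0) (XT.lf (nat_lit 0) (nat_lit 3256342394) (nat_lit 988) (nat_lit 2288834066) (nat_lit 76) (nat_lit 2050132101) (nat_lit 448) (nat_lit 5) (nat_lit 461) (nat_lit 5) (nat_lit 449) (nat_lit 5) (nat_lit 564) (nat_lit 517) (nat_lit 479)) (XT.nd (nat_lit 78) (nat_lit 912) (nat_lit 0) (XT.lf (nat_lit 0) (nat_lit 2891828533) (nat_lit 912) (nat_lit 3096061155)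 (nat_lit 988) (nat_lit 1662603229) (nat_lit 436) (nat_lit 5) (nat_lit 448) (nat_lit 5) (nat_lit 449) (nat_lit 5) (nat_lit 565) (nat_lit 517) (nat_lit 478)) (XT.lf (nat_lit 0) (nat_lit 450318129) (nat_lit 836) (nat_lit 574049298) (nat_lit 912) (nat_lit 6682854936) (nat_lit 424) (nat_lit 5) (nat_lit 435) (nat_lit 5) (nat_lit 436) (nat_lit 5) (nat_lit 566) (nat_lit 517) (nat_lit 477))))) (XT.nd (nat_lit 156) (nat_lit 1748) (nat_lit 0) (XT.nd (nat_lit 78) (nat_lit 912) (nat_lit 0) (XT.lf (nat_lit 0) (nat_lit 3741244910) (nat_lit 912) (nat_lit 2010469973) (nat_lit 76) (nat_lit 2013184650) (nat_lit 424) (nat_lit 5) (nat_lit 436) (nat_lit 5) (nat_lit 425) (nat_lit 5) (nat_lit 567) (nat_lit 517) (nat_lit 476)) (XT.lf (nat_lit 0) (nat_lit 3331956781) (nat_lit 912) (nat_lit 3160143264) (nat_lit 988) (nat_lit 1332038894) (nat_lit 412) (nat_lit 5) (nat_lit 424) (nat_lit 5) (nat_lit 425) (nat_lit 5) (nat_lit 568) (nat_lit 517) (nat_lit 475))) (XT.nd (nat_lit 78) (nat_lit 836) (nat_lit 0) (XT.lf (nat_lit 0) (nat_lit 877312431)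 (nat_lit 836) (nat_lit 491323632) (nat_lit 912) (nat_lit 6516269691) (nat_lit 400) (nat_lit 5) (nat_lit 411) (nat_lit 5) (nat_lit 412) (nat_lit 5) (nat_lit 569) (nat_lit 517) (nat_lit 474)) (XT.nd (nat_lit 78) (nat_lit 836) (nat_lit 0) (XT.lf (nat_lit 0) (nat_lit 4105371859) (nat_lit 912) (nat_lit 1604371477) (nat_lit 76) (nat_lit 2236972217) (nat_lit 400) (nat_lit 5) (nat_lit 412) (nat_lit 5) (nat_lit 401) (nat_lit 5) (nat_lit 570) (nat_lit 517) (nat_lit 473)) (XT.lf (nat_lit 0) (nat_lit 3906194684) (nat_lit 836) (nat_lit 2975182521) (nat_lit 912) (nat_lit 1128695026) (nat_lit 389) (nat_lit 5) (nat_lit 400) (nat_lit 5) (nat_lit 401) (nat_lit 5) (nat_lit 571) (nat_lit 517) (nat_lit 472))))))) (XT.nd (nat_lit 780) (nat_lit 5016) (nat_lit 0) (XT.nd (nat_lit 390) (nat_lit 2964) (nat_lit 0) (XT.nd (nat_lit 156) (nat_lit 1596) (nat_lit 0) (XT.nd (nat_lit 78) (nat_lit 0) (nat_lit 0) (XT.lf (nat_lit 0) (nat_lit 1433370345) (nat_lit 760) (nat_lit 159674811) (nat_lit 836) (nat_lit 6481913010) (nat_lit 378) (nat_lit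 5) (nat_lit 388) (nat_lit 5) (nat_lit 389) (nat_lit 5) (nat_lit 572) (nat_lit 517) (nat_lit 471)) (XT.lf (nat_lit 0) (nat_lit 4356140294) (nat_lit 836) (nat_lit 1078334896) (nat_lit 76) (nat_lit 2706478049) (nat_lit 378) (nat_lit 5) (nat_lit 389) (nat_lit 5) (nat_lit 379) (nat_lit 5) (nat_lit 573) (nat_lit 517) (nat_lit 470))) (XT.nd (nat_lit 78) (nat_lit 836) (nat_lit 0) (XT.lf (nat_lit 0) (nat_lit 4607047915) (nat_lit 760) (nat_lit 2555956784) (nat_lit 836) (nat_lit 1045494645) (nat_lit 368) (nat_lit 5) (nat_lit 378) (nat_lit 5) (nat_lit 379) (nat_lit 5) (nat_lit 574) (nat_lit 517) (nat_lit 469)) (XT.nd (nat_lit 78) (nat_lit 0) (nat_lit 0) (XT.lf (nat_lit 0) (nat_lit 1707085709) (nat_lit 836) (nat_lit 6169188761) (nat_lit 76) (nat_lit 401267883) (nat_lit 357) (nat_lit 5) (nat_lit 368) (nat_lit 5) (nat_lit 358) (nat_lit 5) (nat_lit 575) (nat_lit 517) (nat_lit 468)) (XT.lf (nat_lit 0) (nat_lit 4500234691) (nat_lit 836) (nat_lit 439534569) (nat_lit 76) (nat_lit 3408069627) (nat_lit 357) (nat_lit 5) (nat_lit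 368) (nat_lit 5) (nat_lit 358) (nat_lit 5) (nat_lit 576) (nat_lit 517) (nat_lit 467))))) (XT.nd (nat_lit 156) (nat_lit 1444) (nat_lit 0) (XT.nd (nat_lit 78) (nat_lit 760) (nat_lit 0) (XT.lf (nat_lit 0) (nat_lit 5427647956) (nat_lit 760) (nat_lit 1915905797) (nat_lit 836) (nat_lit 1076102635) (nat_lit 347) (nat_lit 5) (nat_lit 357) (nat_lit 5) (nat_lit 358) (nat_lit 5) (nat_lit 577) (nat_lit 517) (nat_lit 466)) (XT.lf (nat_lit 0) (nat_lit 1716732288) (nat_lit 760) (nat_lit 5597317774) (nat_lit 76) (nat_lit 1178856645) (nat_lit 337) (nat_lit 5) (nat_lit 347) (nat_lit 5) (nat_lit 338) (nat_lit 5) (nat_lit 578) (nat_lit 517) (nat_lit 465))) (XT.nd (nat_lit 78) (nat_lit 760) (nat_lit 0) (XT.lf (nat_lit 0) (nat_lit 309477234) (nat_lit 684) (nat_lit 4236183241) (nat_lit 760) (nat_lit 4021927495) (nat_lit 328) (nat_lit 5) (nat_lit 337) (nat_lit 5) (nat_lit 338) (nat_lit 5) (nat_lit 579) (nat_lit 517) (nat_lit 464)) (XT.nd (nat_lit 78) (nat_lit 760) (nat_lit 0) (XT.lf (nat_lit 0) (nat_lit 6361693770) (nat_lit 684)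 (nat_lit 1067232415) (nat_lit 760) (nat_lit 1214882584) (nat_lit 328) (nat_lit 5) (nat_lit 337) (nat_lit 5) (nat_lit 338) (nat_lit 5) (nat_lit 580) (nat_lit 517) (nat_lit 463)) (XT.lf (nat_lit 0) (nat_lit 1626339396) (nat_lit 760) (nat_lit 4931429880) (nat_lit 76) (nat_lit 2163578636) (nat_lit 318) (nat_lit 5) (nat_lit 328) (nat_lit 5) (nat_lit 319) (nat_lit 5) (nat_lit 581) (nat_lit 517) (nat_lit 462)))))) (XT.nd (nat_lit 390) (nat_lit 3040) (nat_lit 0) (XT.nd (nat_lit 156) (nat_lit 1292) (nat_lit 0) (XT.nd (nat_lit 78) (nat_lit 0) (nat_lit 0) (XT.lf (nat_lit 0) (nat_lit 1165708625) (nat_lit 684) (nat_lit 3333597056) (nat_lit 760) (nat_lit 4301148834) (nat_lit 309) (nat_lit 5) (nat_lit 318) (nat_lit 5) (nat_lit 319) (nat_lit 5) (nat_lit 582) (nat_lit 517) (nat_lit 461)) (XT.lf (nat_lit 0) (nat_lit 7403396275) (nat_lit 684) (nat_lit 20996657) (nat_lit 760) (nat_lit 1456858091) (nat_lit 309) (nat_lit 5) (nat_lit 318) (nat_lit 5) (nat_lit 319) (nat_lit 5) (nat_lit 583) (nat_lit 517) (nat_lit 460))) (XT.nd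 (nat_lit 78) (nat_lit 608) (nat_lit 0) (XT.lf (nat_lit 0) (nat_lit 1440671431) (nat_lit 684) (nat_lit 4177561581) (nat_lit 76) (nat_lit 3344937958) (nat_lit 300) (nat_lit 5) (nat_lit 309) (nat_lit 5) (nat_lit 301) (nat_lit 5) (nat_lit 584) (nat_lit 517) (nat_lit 459)) (XT.nd (nat_lit 78) (nat_lit 0) (nat_lit 0) (XT.lf (nat_lit 0) (nat_lit 2117593355) (nat_lit 608) (nat_lit 2245382530) (nat_lit 684) (nat_lit 4683835150) (nat_lit 292) (nat_lit 5) (nat_lit 300) (nat_lit 5) (nat_lit 301) (nat_lit 5) (nat_lit 585) (nat_lit 517) (nat_lit 458)) (XT.lf (nat_lit 0) (nat_lit 7342502765) (nat_lit 684) (nat_lit 592755837) (nat_lit 76) (nat_lit 1196890700) (nat_lit 292) (nat_lit 5) (nat_lit 301) (nat_lit 5) (nat_lit 293) (nat_lit 5) (nat_lit 586) (nat_lit 517) (nat_lit 457))))) (XT.nd (nat_lit 234) (nat_lit 1216) (nat_lit 0) (XT.nd (nat_lit 78) (nat_lit 1140) (nat_lit 0) (XT.lf (nat_lit 0) (nat_lit 1163898287) (nat_lit 684) (nat_lit 3341346542) (nat_lit 76) (nat_lit 4713465098) (nat_lit 283) (nat_lit 5) (nat_lit 292)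 (nat_lit 5) (nat_lit 284) (nat_lit 5) (nat_lit 587) (nat_lit 517) (nat_lit 456)) (XT.nd (nat_lit 78) (nat_lit 532) (nat_lit 0) (XT.lf (nat_lit 0) (nat_lit 3159814127) (nat_lit 608) (nat_lit 980975360) (nat_lit 684) (nat_lit 5166211784) (nat_lit 275) (nat_lit 5) (nat_lit 283) (nat_lit 5) (nat_lit 284) (nat_lit 5) (nat_lit 588) (nat_lit 517) (nat_lit 455)) (XT.lf (nat_lit 0) (nat_lit 379461994) (nat_lit 532) (nat_lit 6803787085) (nat_lit 608) (nat_lit 2213689611) (nat_lit 268) (nat_lit 5) (nat_lit 275) (nat_lit 5) (nat_lit 276) (nat_lit 5) (nat_lit 589) (nat_lit 517) (nat_lit 454)))) (XT.nd (nat_lit 78) (nat_lit 1140) (nat_lit 0) (XT.lf (nat_lit 0) (nat_lit 799623800) (nat_lit 608) (nat_lit 2428066260) (nat_lit 76) (nat_lit 6260637911) (nat_lit 267) (nat_lit 5) (nat_lit 275) (nat_lit 5) (nat_lit 268) (nat_lit 5) (nat_lit 590) (nat_lit 517) (nat_lit 453)) (XT.nd (nat_lit 78) (nat_lit 532) (nat_lit 0) (XT.lf (nat_lit 0) (nat_lit 3839242291) (nat_lit 684) (nat_lit 5296915993) (nat_lit 76) (nat_lit 445181311)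 (nat_lit 259) (nat_lit 5) (nat_lit 268) (nat_lit 5) (nat_lit 260) (nat_lit 5) (nat_lit 591) (nat_lit 517) (nat_lit 452)) (XT.lf (nat_lit 0) (nat_lit 1437970595) (nat_lit 532) (nat_lit 5513986547) (nat_lit 608) (nat_lit 2724009023) (nat_lit 252) (nat_lit 5) (nat_lit 259) (nat_lit 5) (nat_lit 260) (nat_lit 5) (nat_lit 592) (nat_lit 517) (nat_lit 451))))))))
noncomputable def xc60 : XT := (XT.nd (nat_lit 1560) (nat_lit 2280) (nat_lit 0) (XT.nd (nat_lit 780) (nat_lit 2964) (nat_lit 0) (XT.nd (nat_lit 390) (nat_lit 1900) (nat_lit 0) (XT.nd (nat_lit 156) (nat_lit 1064) (nat_lit 0) (XT.nd (nat_lit 78) (nat_lit 532) (nat_lit 0) (XT.lf (nat_lit 0) (nat_lit 350910487) (nat_lit 608) (nat_lit 1442699373) (nat_lit 76) (nat_lit 7978807784) (nat_lit 251) (nat_lit 5) (nat_lit 259) (nat_lit 5) (nat_lit 252) (nat_lit 5) (nat_lit 593) (nat_lit 517) (nat_lit 450)) (XT.lf (nat_lit 0) (nat_lit 3465852582) (nat_lit 608) (nat_lit 4387937288) (nat_lit 76) (nat_lit 2016348941) (nat_lit 244) (nat_lit 5) (nat_lit 252) (nat_lit 5) (nat_lit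 245) (nat_lit 5) (nat_lit 594) (nat_lit 517) (nat_lit 449))) (XT.nd (nat_lit 78) (nat_lit 608) (nat_lit 0) (XT.lf (nat_lit 0) (nat_lit 2570212606) (nat_lit 456) (nat_lit 4077490004) (nat_lit 532) (nat_lit 3322020344) (nat_lit 238) (nat_lit 5) (nat_lit 244) (nat_lit 5) (nat_lit 245) (nat_lit 5) (nat_lit 595) (nat_lit 517) (nat_lit 448)) (XT.nd (nat_lit 78) (nat_lit 608) (nat_lit 0) (XT.lf (nat_lit 0) (nat_lit 9680225244) (nat_lit 456) (nat_lit 209064828) (nat_lit 532) (nat_lit 182087416) (nat_lit 238) (nat_lit 5) (nat_lit 244) (nat_lit 5) (nat_lit 245) (nat_lit 5) (nat_lit 596) (nat_lit 517) (nat_lit 447)) (XT.lf (nat_lit 0) (nat_lit 3016738131) (nat_lit 608) (nat_lit 3418660759) (nat_lit 76) (nat_lit 3738560469) (nat_lit 230) (nat_lit 5) (nat_lit 238) (nat_lit 5) (nat_lit 231) (nat_lit 5) (nat_lit 597) (nat_lit 517) (nat_lit 446))))) (XT.nd (nat_lit 156) (nat_lit 988) (nat_lit 0) (XT.nd (nat_lit 78) (nat_lit 456) (nat_lit 0) (XT.lf (nat_lit 0) (nat_lit 3771738754) (nat_lit 456) (nat_lit 2501232045) (nat_lit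 532) (nat_lit 4005681299) (nat_lit 224) (nat_lit 5) (nat_lit 230) (nat_lit 5) (nat_lit 231) (nat_lit 5) (nat_lit 598) (nat_lit 517) (nat_lit 445)) (XT.lf (nat_lit 0) (nat_lit 719972721) (nat_lit 456) (nat_lit 8879537720) (nat_lit 532) (nat_lit 785825267) (nat_lit 218) (nat_lit 5) (nat_lit 224) (nat_lit 5) (nat_lit 225) (nat_lit 5) (nat_lit 599) (nat_lit 517) (nat_lit 444))) (XT.nd (nat_lit 78) (nat_lit 912) (nat_lit 0) (XT.lf (nat_lit 0) (nat_lit 2493899758) (nat_lit 532) (nat_lit 2393687710) (nat_lit 76) (nat_lit 5605676947) (nat_lit 217) (nat_lit 5) (nat_lit 224) (nat_lit 5) (nat_lit 218) (nat_lit 5) (nat_lit 600) (nat_lit 517) (nat_lit 443)) (XT.nd (nat_lit 78) (nat_lit 456) (nat_lit 0) (XT.lf (nat_lit 0) (nat_lit 5038282784) (nat_lit 456) (nat_lit 791489707) (nat_lit 532) (nat_lit 4773454438) (nat_lit 211) (nat_lit 5) (nat_lit 217) (nat_lit 5) (nat_lit 218) (nat_lit 5) (nat_lit 601) (nat_lit 517) (nat_lit 442)) (XT.lf (nat_lit 0) (nat_lit 1892759144) (nat_lit 456) (nat_lit 7358633488) (nat_lit 532) (nat_lit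 1463616073) (nat_lit 205) (nat_lit 5) (nat_lit 211) (nat_lit 5) (nat_lit 212) (nat_lit 5) (nat_lit 602) (nat_lit 517) (nat_lit 441)))))) (XT.nd (nat_lit 390) (nat_lit 1596) (nat_lit 0) (XT.nd (nat_lit 156) (nat_lit 912) (nat_lit 0) (XT.nd (nat_lit 78) (nat_lit 380) (nat_lit 0) (XT.lf (nat_lit 0) (nat_lit 1898865224) (nat_lit 532) (nat_lit 1317489577) (nat_lit 76) (nat_lit 7612193015) (nat_lit 204) (nat_lit 5) (nat_lit 211) (nat_lit 5) (nat_lit 205) (nat_lit 5) (nat_lit 603) (nat_lit 517) (nat_lit 440)) (XT.lf (nat_lit 0) (nat_lit 5326447823) (nat_lit 456) (nat_lit 4585029605) (nat_lit 76) (nat_lit 1032338380) (nat_lit 199) (nat_lit 5) (nat_lit 205) (nat_lit 5) (nat_lit 200) (nat_lit 5) (nat_lit 604) (nat_lit 517) (nat_lit 439))) (XT.nd (nat_lit 78) (nat_lit 456) (nat_lit 0) (XT.lf (nat_lit 0) (nat_lit 3119123142) (nat_lit 456) (nat_lit 5723432137) (nat_lit 532) (nat_lit 2218434981) (nat_lit 193) (nat_lit 5) (nat_lit 199) (nat_lit 5) (nat_lit 200) (nat_lit 5) (nat_lit 605) (nat_lit 517) (nat_lit 438)) (XT.nd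 (nat_lit 78) (nat_lit 380) (nat_lit 0) (XT.lf (nat_lit 0) (nat_lit 1232698962) (nat_lit 532) (nat_lit 194456025) (nat_lit 76) (nat_lit 9753179716) (nat_lit 192) (nat_lit 5) (nat_lit 199) (nat_lit 5) (nat_lit 193) (nat_lit 5) (nat_lit 606) (nat_lit 517) (nat_lit 437)) (XT.lf (nat_lit 0) (nat_lit 4763235424) (nat_lit 456) (nat_lit 3570892910) (nat_lit 76) (nat_lit 2966843265) (nat_lit 187) (nat_lit 5) (nat_lit 193) (nat_lit 5) (nat_lit 188) (nat_lit 5) (nat_lit 607) (nat_lit 517) (nat_lit 436))))) (XT.nd (nat_lit 156) (nat_lit 760) (nat_lit 0) (XT.nd (nat_lit 78) (nat_lit 456) (nat_lit 0) (XT.lf (nat_lit 0) (nat_lit 4394860767) (nat_lit 380) (nat_lit 3979237835) (nat_lit 456) (nat_lit 3049728832) (nat_lit 182) (nat_lit 5) (nat_lit 187) (nat_lit 5) (nat_lit 188) (nat_lit 5) (nat_lit 608) (nat_lit 517) (nat_lit 435)) (XT.lf (nat_lit 0) (nat_lit 505523698) (nat_lit 456) (nat_lit 10568220148) (nat_lit 76) (nat_lit 475248112) (nat_lit 176) (nat_lit 5) (nat_lit 182) (nat_lit 5) (nat_lit 177) (nat_lit 5) (nat_lit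 609) (nat_lit 517) (nat_lit 434))) (XT.nd (nat_lit 78) (nat_lit 760) (nat_lit 0) (XT.lf (nat_lit 0) (nat_lit 4135613471) (nat_lit 456) (nat_lit 2521938828) (nat_lit 76) (nat_lit 5017813432) (nat_lit 176) (nat_lit 5) (nat_lit 182) (nat_lit 5) (nat_lit 177) (nat_lit 5) (nat_lit 610) (nat_lit 517) (nat_lit 433)) (XT.nd (nat_lit 78) (nat_lit 380) (nat_lit 0) (XT.lf (nat_lit 0) (nat_lit 5715775515) (nat_lit 380) (nat_lit 2130911583) (nat_lit 456) (nat_lit 3957412723) (nat_lit 171) (nat_lit 5) (nat_lit 176) (nat_lit 5) (nat_lit 177) (nat_lit 5) (nat_lit 611) (nat_lit 517) (nat_lit 432)) (XT.lf (nat_lit 0) (nat_lit 2185132375) (nat_lit 380) (nat_lit 9465661236) (nat_lit 456) (nat_lit 284239227) (nat_lit 166) (nat_lit 5) (nat_lit 171) (nat_lit 5) (nat_lit 172) (nat_lit 5) (nat_lit 612) (nat_lit 517) (nat_lit 431))))))) (XT.nd (nat_lit 74334) (nat_lit 0) (nat_lit 46664) (XT.nd (nat_lit 390) (nat_lit 1064) (nat_lit 0) (XT.nd (nat_lit 156) (nat_lit 760) (nat_lit 0) (XT.nd (nat_lit 78) (nat_lit 380) (nat_lit 0) (XT.lf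 (nat_lit 0) (nat_lit 3443756463) (nat_lit 456) (nat_lit 1442759354) (nat_lit 76) (nat_lit 7181084178) (nat_lit 165) (nat_lit 5) (nat_lit 171) (nat_lit 5) (nat_lit 166) (nat_lit 5) (nat_lit 613) (nat_lit 517) (nat_lit 430)) (XT.lf (nat_lit 0) (nat_lit 7077627104) (nat_lit 380) (nat_lit 182923704) (nat_lit 456) (nat_lit 4941869663) (nat_lit 160) (nat_lit 5) (nat_lit 165) (nat_lit 5) (nat_lit 166) (nat_lit 5) (nat_lit 614) (nat_lit 517) (nat_lit 429))) (XT.nd (nat_lit 78) (nat_lit 456) (nat_lit 0) (XT.lf (nat_lit 0) (nat_lit 3419048773) (nat_lit 304) (nat_lit 7768788506) (nat_lit 380) (nat_lit 1151417390) (nat_lit 156) (nat_lit 5) (nat_lit 160) (nat_lit 5) (nat_lit 161) (nat_lit 5) (nat_lit 615) (nat_lit 517) (nat_lit 428)) (XT.nd (nat_lit 78) (nat_lit 380) (nat_lit 0) (XT.lf (nat_lit 0) (nat_lit 2687395086) (nat_lit 380) (nat_lit 338047642) (nat_lit 76) (nat_lit 9452867577) (nat_lit 155) (nat_lit 5) (nat_lit 160) (nat_lit 5) (nat_lit 156) (nat_lit 5) (nat_lit 616) (nat_lit 517) (nat_lit 427)) (XT.lf (nat_lit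 0) (nat_lit 6627563482) (nat_lit 456) (nat_lit 4155438867) (nat_lit 76) (nat_lit 1836192956) (nat_lit 150) (nat_lit 5) (nat_lit 156) (nat_lit 5) (nat_lit 151) (nat_lit 5) (nat_lit 617) (nat_lit 517) (nat_lit 426))))) (XT.nd (nat_lit 156) (nat_lit 304) (nat_lit 0) (XT.nd (nat_lit 78) (nat_lit 456) (nat_lit 0) (XT.lf (nat_lit 0) (nat_lit 4681306485) (nat_lit 304) (nat_lit 5990961631) (nat_lit 380) (nat_lit 2090115637) (nat_lit 146) (nat_lit 5) (nat_lit 150) (nat_lit 5) (nat_lit 151) (nat_lit 5) (nat_lit 618) (nat_lit 517) (nat_lit 425)) (XT.lf (nat_lit 0) (nat_lit 797810247) (nat_lit 380) (nat_lit 1073181256) (nat_lit 456) (nat_lit 11037072690) (nat_lit 140) (nat_lit 5) (nat_lit 145) (nat_lit 5) (nat_lit 146) (nat_lit 5) (nat_lit 619) (nat_lit 517) (nat_lit 424))) (XT.nd (nat_lit 78) (nat_lit 304) (nat_lit 0) (XT.lf (nat_lit 0) (nat_lit 5936779468) (nat_lit 456) (nat_lit 3175136645) (nat_lit 76) (nat_lit 3943397290) (nat_lit 140) (nat_lit 5) (nat_lit 146) (nat_lit 5) (nat_lit 141) (nat_lit 5) (nat_lit 620)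 (nat_lit 517) (nat_lit 423)) (XT.nd (nat_lit 73632) (nat_lit 0) (nat_lit 49552) (XT.lf (nat_lit 0) (nat_lit 5967111679) (nat_lit 304) (nat_lit 4136377473) (nat_lit 380) (nat_lit 3101626699) (nat_lit 136) (nat_lit 5) (nat_lit 140) (nat_lit 5) (nat_lit 141) (nat_lit 5) (nat_lit 621) (nat_lit 517) (nat_lit 422)) (XT.lf (nat_lit 0) (nat_lit 85925296) (nat_lit 228) (nat_lit 3053150895) (nat_lit 0) (nat_lit 85925296) (nat_lit 788) (nat_lit 5) (nat_lit 791) (nat_lit 4) (nat_lit 788) (nat_lit 4) (nat_lit 524) (nat_lit 518) (nat_lit 518)))))) (XT.nd (nat_lit 390) (nat_lit 2204) (nat_lit 0) (XT.nd (nat_lit 156) (nat_lit 380) (nat_lit 0) (XT.nd (nat_lit 78) (nat_lit 304) (nat_lit 0) (XT.lf (nat_lit 0) (nat_lit 3368801253) (nat_lit 228) (nat_lit 2683628533) (nat_lit 0) (nat_lit 401814578) (nat_lit 788) (nat_lit 5) (nat_lit 791) (nat_lit 4) (nat_lit 788) (nat_lit 4) (nat_lit 525) (nat_lit 518) (nat_lit 517)) (XT.lf (nat_lit 0) (nat_lit 92338908) (nat_lit 304) (nat_lit 5689272545) (nat_lit 76) (nat_lit 678472270) (nat_lit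 784) (nat_lit 5) (nat_lit 788) (nat_lit 5) (nat_lit 785) (nat_lit 4) (nat_lit 526) (nat_lit 518) (nat_lit 516))) (XT.nd (nat_lit 78) (nat_lit 380) (nat_lit 0) (XT.lf (nat_lit 0) (nat_lit 3230249678) (nat_lit 304) (nat_lit 2202467757) (nat_lit 76) (nat_lit 1034161329) (nat_lit 784) (nat_lit 5) (nat_lit 788) (nat_lit 5) (nat_lit 785) (nat_lit 4) (nat_lit 527) (nat_lit 518) (nat_lit 515)) (XT.nd (nat_lit 78) (nat_lit 76) (nat_lit 0) (XT.lf (nat_lit 0) (nat_lit 1325424569) (nat_lit 304) (nat_lit 5035394483) (nat_lit 380) (nat_lit 114397086) (nat_lit 780) (nat_lit 5) (nat_lit 784) (nat_lit 5) (nat_lit 785) (nat_lit 4) (nat_lit 528) (nat_lit 518) (nat_lit 514)) (XT.lf (nat_lit 0) (nat_lit 2966913800) (nat_lit 380) (nat_lit 1596496495) (nat_lit 76) (nat_lit 1921177521) (nat_lit 779) (nat_lit 5) (nat_lit 784) (nat_lit 5) (nat_lit 780) (nat_lit 5) (nat_lit 529) (nat_lit 518) (nat_lit 513))))) (XT.nd (nat_lit 234) (nat_lit 1292) (nat_lit 0) (XT.nd (nat_lit 78) (nat_lit 532) (nat_lit 0) (XT.lf (nat_lit 0) (nat_lit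 2007584331) (nat_lit 380) (nat_lit 4037323659) (nat_lit 456) (nat_lit 450496223) (nat_lit 774) (nat_lit 5) (nat_lit 779) (nat_lit 5) (nat_lit 780) (nat_lit 5) (nat_lit 530) (nat_lit 518) (nat_lit 512)) (XT.nd (nat_lit 78) (nat_lit 456) (nat_lit 0) (XT.lf (nat_lit 0) (nat_lit 2577940351) (nat_lit 456) (nat_lit 864854805) (nat_lit 76) (nat_lit 3064597295) (nat_lit 773) (nat_lit 5) (nat_lit 779) (nat_lit 5) (nat_lit 774) (nat_lit 5) (nat_lit 531) (nat_lit 518) (nat_lit 511)) (XT.lf (nat_lit 0) (nat_lit 2818908237) (nat_lit 456) (nat_lit 2786052083) (nat_lit 532) (nat_lit 915723587) (nat_lit 767) (nat_lit 5) (nat_lit 773) (nat_lit 5) (nat_lit 774) (nat_lit 5) (nat_lit 532) (nat_lit 518) (nat_lit 510)))) (XT.nd (nat_lit 78) (nat_lit 1216) (nat_lit 0) (XT.lf (nat_lit 0) (nat_lit 2062228033) (nat_lit 532) (nat_lit 6436478) (nat_lit 76) (nat_lit 4466655119) (nat_lit 766) (nat_lit 5) (nat_lit 773) (nat_lit 5) (nat_lit 767) (nat_lit 5) (nat_lit 533) (nat_lit 518) (nat_lit 509)) (XT.nd (nat_lit 78) (nat_lit 684) (nat_lit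 0) (XT.lf (nat_lit 0) (nat_lit 3760645254) (nat_lit 532) (nat_lit 1279115543) (nat_lit 608) (nat_lit 1511324255) (nat_lit 759) (nat_lit 5) (nat_lit 766) (nat_lit 5) (nat_lit 767) (nat_lit 5) (nat_lit 534) (nat_lit 518) (nat_lit 508)) (XT.lf (nat_lit 0) (nat_lit 993137718) (nat_lit 608) (nat_lit 431735867) (nat_lit 684) (nat_lit 5143399838) (nat_lit 750) (nat_lit 5) (nat_lit 758) (nat_lit 5) (nat_lit 759) (nat_lit 5) (nat_lit 535) (nat_lit 518) (nat_lit 507))))))))
noncomputable def xc61 : XT := (XT.nd (nat_lit 1560) (nat_lit 16036) (nat_lit 0) (XT.nd (nat_lit 780) (nat_lit 8284) (nat_lit 0) (XT.nd (nat_lit 390) (nat_lit 3116) (nat_lit 0) (XT.nd (nat_lit 156) (nat_lit 1672) (nat_lit 0) (XT.nd (nat_lit 78) (nat_lit 760) (nat_lit 0) (XT.lf (nat_lit 0) (nat_lit 4351003484) (nat_lit 684) (nat_lit 1755504915) (nat_lit 76) (nat_lit 480071973) (nat_lit 750) (nat_lit 5) (nat_lit 759) (nat_lit 5) (nat_lit 751) (nat_lit 5) (nat_lit 536) (nat_lit 518) (nat_lit 506)) (XT.lf (nat_lit 0) (nat_lit 668236102) (nat_lit 760)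 (nat_lit 4491663127) (nat_lit 76) (nat_lit 1446314495) (nat_lit 740) (nat_lit 5) (nat_lit 750) (nat_lit 5) (nat_lit 741) (nat_lit 5) (nat_lit 537) (nat_lit 518) (nat_lit 505))) (XT.nd (nat_lit 78) (nat_lit 1672) (nat_lit 0) (XT.lf (nat_lit 0) (nat_lit 3543820617) (nat_lit 760) (nat_lit 602104795) (nat_lit 76) (nat_lit 2481149496) (nat_lit 740) (nat_lit 5) (nat_lit 750) (nat_lit 5) (nat_lit 741) (nat_lit 5) (nat_lit 538) (nat_lit 518) (nat_lit 504)) (XT.nd (nat_lit 78) (nat_lit 912) (nat_lit 0) (XT.lf (nat_lit 0) (nat_lit 3363255332) (nat_lit 760) (nat_lit 3068579622) (nat_lit 836) (nat_lit 217423235) (nat_lit 730) (nat_lit 5) (nat_lit 740) (nat_lit 5) (nat_lit 741) (nat_lit 5) (nat_lit 539) (nat_lit 518) (nat_lit 503)) (XT.lf (nat_lit 0) (nat_lit 689042260) (nat_lit 836) (nat_lit 1923393893) (nat_lit 912) (nat_lit 4060256791) (nat_lit 718) (nat_lit 5) (nat_lit 729) (nat_lit 5) (nat_lit 730) (nat_lit 5) (nat_lit 540) (nat_lit 518) (nat_lit 502))))) (XT.nd (nat_lit 156) (nat_lit 2128) (nat_lit 0) (XT.nd (nat_lit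 78) (nat_lit 988) (nat_lit 0) (XT.lf (nat_lit 0) (nat_lit 4740298436) (nat_lit 836) (nat_lit 712383668) (nat_lit 912) (nat_lit 1244754583) (nat_lit 718) (nat_lit 5) (nat_lit 729) (nat_lit 5) (nat_lit 730) (nat_lit 5) (nat_lit 541) (nat_lit 518) (nat_lit 501)) (XT.lf (nat_lit 0) (nat_lit 1558672773) (nat_lit 988) (nat_lit 4606323660) (nat_lit 76) (nat_lit 558411439) (nat_lit 705) (nat_lit 5) (nat_lit 718) (nat_lit 5) (nat_lit 706) (nat_lit 5) (nat_lit 542) (nat_lit 518) (nat_lit 500))) (XT.nd (nat_lit 78) (nat_lit 2128) (nat_lit 0) (XT.lf (nat_lit 0) (nat_lit 4356045182) (nat_lit 988) (nat_lit 510769680) (nat_lit 76) (nat_lit 1883831060) (nat_lit 705) (nat_lit 5) (nat_lit 718) (nat_lit 5) (nat_lit 706) (nat_lit 5) (nat_lit 543) (nat_lit 518) (nat_lit 499)) (XT.nd (nat_lit 78) (nat_lit 1064) (nat_lit 0) (XT.lf (nat_lit 0) (nat_lit 386678320) (nat_lit 1064) (nat_lit 3113413125) (nat_lit 76) (nat_lit 3279056215) (nat_lit 691) (nat_lit 5) (nat_lit 705) (nat_lit 5) (nat_lit 692) (nat_lit 5) (nat_lit 544) (nat_lit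 518) (nat_lit 498)) (XT.lf (nat_lit 0) (nat_lit 1075776451) (nat_lit 1064) (nat_lit 2064551855) (nat_lit 1140) (nat_lit 3668601090) (nat_lit 677) (nat_lit 5) (nat_lit 691) (nat_lit 5) (nat_lit 692) (nat_lit 5) (nat_lit 545) (nat_lit 518) (nat_lit 497)))))) (XT.nd (nat_lit 390) (nat_lit 4484) (nat_lit 0) (XT.nd (nat_lit 156) (nat_lit 2584) (nat_lit 0) (XT.nd (nat_lit 78) (nat_lit 1216) (nat_lit 0) (XT.lf (nat_lit 0) (nat_lit 5344268981) (nat_lit 1064) (nat_lit 564924973) (nat_lit 1140) (nat_lit 930912612) (nat_lit 677) (nat_lit 5) (nat_lit 691) (nat_lit 5) (nat_lit 692) (nat_lit 5) (nat_lit 546) (nat_lit 518) (nat_lit 496)) (XT.lf (nat_lit 0) (nat_lit 1801918217) (nat_lit 1216) (nat_lit 4074704644) (nat_lit 76) (nat_lit 995749189) (nat_lit 661) (nat_lit 5) (nat_lit 677) (nat_lit 5) (nat_lit 662) (nat_lit 5) (nat_lit 547) (nat_lit 518) (nat_lit 495))) (XT.nd (nat_lit 78) (nat_lit 1368) (nat_lit 0) (XT.lf (nat_lit 0) (nat_lit 237854800) (nat_lit 1216) (nat_lit 4295490137) (nat_lit 1292) (nat_lit 2372689256)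 (nat_lit 645) (nat_lit 5) (nat_lit 661) (nat_lit 5) (nat_lit 662) (nat_lit 5) (nat_lit 548) (nat_lit 518) (nat_lit 494)) (XT.nd (nat_lit 78) (nat_lit 1292) (nat_lit 0) (XT.lf (nat_lit 0) (nat_lit 343049475) (nat_lit 1292) (nat_lit 2298562101) (nat_lit 76) (nat_lit 4299331392) (nat_lit 644) (nat_lit 5) (nat_lit 661) (nat_lit 5) (nat_lit 645) (nat_lit 5) (nat_lit 549) (nat_lit 518) (nat_lit 493)) (XT.lf (nat_lit 0) (nat_lit 2123529424) (nat_lit 1292) (nat_lit 914233469) (nat_lit 1368) (nat_lit 3939347109) (nat_lit 627) (nat_lit 5) (nat_lit 644) (nat_lit 5) (nat_lit 645) (nat_lit 5) (nat_lit 550) (nat_lit 518) (nat_lit 492))))) (XT.nd (nat_lit 156) (nat_lit 3040) (nat_lit 0) (XT.nd (nat_lit 78) (nat_lit 1444) (nat_lit 0) (XT.lf (nat_lit 0) (nat_lit 5750899712) (nat_lit 1368) (nat_lit 402020620) (nat_lit 76) (nat_lit 861791774) (nat_lit 627) (nat_lit 5) (nat_lit 645) (nat_lit 5) (nat_lit 628) (nat_lit 5) (nat_lit 551) (nat_lit 518) (nat_lit 491)) (XT.lf (nat_lit 0) (nat_lit 1423404649) (nat_lit 1444) (nat_lit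 2923075044) (nat_lit 76) (nat_lit 2706850745) (nat_lit 608) (nat_lit 5) (nat_lit 627) (nat_lit 5) (nat_lit 609) (nat_lit 5) (nat_lit 552) (nat_lit 518) (nat_lit 490))) (XT.nd (nat_lit 78) (nat_lit 1596) (nat_lit 0) (XT.lf (nat_lit 0) (nat_lit 1631543074) (nat_lit 1444) (nat_lit 2474250665) (nat_lit 1520) (nat_lit 2987595498) (nat_lit 589) (nat_lit 5) (nat_lit 608) (nat_lit 5) (nat_lit 609) (nat_lit 5) (nat_lit 553) (nat_lit 518) (nat_lit 489)) (XT.nd (nat_lit 78) (nat_lit 1596) (nat_lit 0) (XT.lf (nat_lit 0) (nat_lit 6269761960) (nat_lit 1444) (nat_lit 537481690) (nat_lit 1520) (nat_lit 327699435) (nat_lit 589) (nat_lit 5) (nat_lit 608) (nat_lit 5) (nat_lit 609) (nat_lit 5) (nat_lit 554) (nat_lit 518) (nat_lit 488)) (XT.lf (nat_lit 0) (nat_lit 2335005549) (nat_lit 1596) (nat_lit 3376233207) (nat_lit 76) (nat_lit 1466163639) (nat_lit 568) (nat_lit 5) (nat_lit 589) (nat_lit 5) (nat_lit 569) (nat_lit 5) (nat_lit 555) (nat_lit 518) (nat_lit 487))))))) (XT.nd (nat_lit 780) (nat_lit 6004) (nat_lit 0) (XT.nd (nat_lit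 390) (nat_lit 4864) (nat_lit 0) (XT.nd (nat_lit 156) (nat_lit 3496) (nat_lit 0) (XT.nd (nat_lit 78) (nat_lit 76) (nat_lit 0) (XT.lf (nat_lit 0) (nat_lit 1315775900) (nat_lit 1596) (nat_lit 3696044363) (nat_lit 1672) (nat_lit 2209544447) (nat_lit 547) (nat_lit 5) (nat_lit 568) (nat_lit 5) (nat_lit 569) (nat_lit 5) (nat_lit 556) (nat_lit 518) (nat_lit 486)) (XT.lf (nat_lit 0) (nat_lit 440201429) (nat_lit 1672) (nat_lit 1169678227) (nat_lit 76) (nat_lit 5656857168) (nat_lit 546) (nat_lit 5) (nat_lit 568) (nat_lit 5) (nat_lit 547) (nat_lit 5) (nat_lit 557) (nat_lit 518) (nat_lit 485))) (XT.nd (nat_lit 78) (nat_lit 1824) (nat_lit 0) (XT.lf (nat_lit 0) (nat_lit 3089405446) (nat_lit 1748) (nat_lit 3669906039) (nat_lit 76) (nat_lit 553893709) (nat_lit 524) (nat_lit 5) (nat_lit 547) (nat_lit 5) (nat_lit 525) (nat_lit 5) (nat_lit 558) (nat_lit 518) (nat_lit 484)) (XT.nd (nat_lit 78) (nat_lit 76) (nat_lit 0) (XT.lf (nat_lit 0) (nat_lit 1164645224) (nat_lit 1748) (nat_lit 4602497471) (nat_lit 1824) (nat_lit 1593951113)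 (nat_lit 501) (nat_lit 5) (nat_lit 524) (nat_lit 5) (nat_lit 525) (nat_lit 5) (nat_lit 559) (nat_lit 518) (nat_lit 483)) (XT.lf (nat_lit 0) (nat_lit 1048784453) (nat_lit 1824) (nat_lit 1319259589) (nat_lit 76) (nat_lit 5042265278) (nat_lit 500) (nat_lit 5) (nat_lit 524) (nat_lit 5) (nat_lit 501) (nat_lit 5) (nat_lit 560) (nat_lit 518) (nat_lit 482))))) (XT.nd (nat_lit 156) (nat_lit 1900) (nat_lit 0) (XT.nd (nat_lit 78) (nat_lit 1140) (nat_lit 0) (XT.lf (nat_lit 0) (nat_lit 3645457787) (nat_lit 1824) (nat_lit 52023075) (nat_lit 1900) (nat_lit 3763330330) (nat_lit 476) (nat_lit 5) (nat_lit 500) (nat_lit 5) (nat_lit 501) (nat_lit 5) (nat_lit 561) (nat_lit 518) (nat_lit 481)) (XT.lf (nat_lit 0) (nat_lit 1167516734) (nat_lit 1140) (nat_lit 5214557995) (nat_lit 1216) (nat_lit 1130591619) (nat_lit 461) (nat_lit 5) (nat_lit 476) (nat_lit 5) (nat_lit 477) (nat_lit 5) (nat_lit 562) (nat_lit 518) (nat_lit 480))) (XT.nd (nat_lit 78) (nat_lit 1824) (nat_lit 0) (XT.lf (nat_lit 0) (nat_lit 1512283076) (nat_lit 1216) (nat_lit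 1322163501) (nat_lit 76) (nat_lit 4731354329) (nat_lit 460) (nat_lit 5) (nat_lit 476) (nat_lit 5) (nat_lit 461) (nat_lit 5) (nat_lit 563) (nat_lit 518) (nat_lit 479)) (XT.nd (nat_lit 78) (nat_lit 912) (nat_lit 0) (XT.lf (nat_lit 0) (nat_lit 3796259612) (nat_lit 912) (nat_lit 373980593) (nat_lit 988) (nat_lit 3450062835) (nat_lit 448) (nat_lit 5) (nat_lit 460) (nat_lit 5) (nat_lit 461) (nat_lit 5) (nat_lit 564) (nat_lit 518) (nat_lit 478)) (XT.lf (nat_lit 0) (nat_lit 1314626582) (nat_lit 912) (nat_lit 5551384415) (nat_lit 988) (nat_lit 810192715) (nat_lit 436) (nat_lit 5) (nat_lit 448) (nat_lit 5) (nat_lit 449) (nat_lit 5) (nat_lit 565) (nat_lit 518) (nat_lit 477)))))) (XT.nd (nat_lit 390) (nat_lit 3268) (nat_lit 0) (XT.nd (nat_lit 156) (nat_lit 1824) (nat_lit 0) (XT.nd (nat_lit 78) (nat_lit 836) (nat_lit 0) (XT.lf (nat_lit 0) (nat_lit 1839714729) (nat_lit 988) (nat_lit 1187920192) (nat_lit 76) (nat_lit 4705705977) (nat_lit 435) (nat_lit 5) (nat_lit 448) (nat_lit 5) (nat_lit 436) (nat_lit 5) (nat_lit 566)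 (nat_lit 518) (nat_lit 476)) (XT.lf (nat_lit 0) (nat_lit 4090185914) (nat_lit 836) (nat_lit 422682603) (nat_lit 912) (nat_lit 3279024765) (nat_lit 424) (nat_lit 5) (nat_lit 435) (nat_lit 5) (nat_lit 436) (nat_lit 5) (nat_lit 567) (nat_lit 518) (nat_lit 475))) (XT.nd (nat_lit 78) (nat_lit 912) (nat_lit 0) (XT.lf (nat_lit 0) (nat_lit 1597008459) (nat_lit 912) (nat_lit 5630480243) (nat_lit 988) (nat_lit 624369412) (nat_lit 412) (nat_lit 5) (nat_lit 424) (nat_lit 5) (nat_lit 425) (nat_lit 5) (nat_lit 568) (nat_lit 518) (nat_lit 474)) (XT.nd (nat_lit 78) (nat_lit 836) (nat_lit 0) (XT.lf (nat_lit 0) (nat_lit 2039238975) (nat_lit 988) (nat_lit 925295262) (nat_lit 76) (nat_lit 4948555204) (nat_lit 411) (nat_lit 5) (nat_lit 424) (nat_lit 5) (nat_lit 412) (nat_lit 5) (nat_lit 569) (nat_lit 518) (nat_lit 473)) (XT.lf (nat_lit 0) (nat_lit 4518768368) (nat_lit 836) (nat_lit 214592104) (nat_lit 912) (nat_lit 3242391736) (nat_lit 400) (nat_lit 5) (nat_lit 411) (nat_lit 5) (nat_lit 412) (nat_lit 5) (nat_lit 570) (nat_lit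 518) (nat_lit 472))))) (XT.nd (nat_lit 234) (nat_lit 1596) (nat_lit 0) (XT.nd (nat_lit 78) (nat_lit 836) (nat_lit 0) (XT.lf (nat_lit 0) (nat_lit 2006425157) (nat_lit 836) (nat_lit 5467818645) (nat_lit 912) (nat_lit 565568196) (nat_lit 389) (nat_lit 5) (nat_lit 400) (nat_lit 5) (nat_lit 401) (nat_lit 5) (nat_lit 571) (nat_lit 518) (nat_lit 471)) (XT.nd (nat_lit 78) (nat_lit 760) (nat_lit 0) (XT.lf (nat_lit 0) (nat_lit 2118212393) (nat_lit 912) (nat_lit 542356460) (nat_lit 76) (nat_lit 5444668081) (nat_lit 388) (nat_lit 5) (nat_lit 400) (nat_lit 5) (nat_lit 389) (nat_lit 5) (nat_lit 572) (nat_lit 518) (nat_lit 470)) (XT.lf (nat_lit 0) (nat_lit 4840457465) (nat_lit 836) (nat_lit 3099368265) (nat_lit 76) (nat_lit 232223912) (nat_lit 378) (nat_lit 5) (nat_lit 389) (nat_lit 5) (nat_lit 379) (nat_lit 5) (nat_lit 573) (nat_lit 518) (nat_lit 469)))) (XT.nd (nat_lit 78) (nat_lit 836) (nat_lit 0) (XT.lf (nat_lit 0) (nat_lit 2535304144) (nat_lit 760) (nat_lit 5077957925) (nat_lit 836) (nat_lit 627015492) (nat_lit 368)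 (nat_lit 5) (nat_lit 378) (nat_lit 5) (nat_lit 379) (nat_lit 5) (nat_lit 574) (nat_lit 518) (nat_lit 468)) (XT.nd (nat_lit 78) (nat_lit 760) (nat_lit 0) (XT.lf (nat_lit 0) (nat_lit 2083238389) (nat_lit 836) (nat_lit 46536640) (nat_lit 76) (nat_lit 6180228556) (nat_lit 367) (nat_lit 5) (nat_lit 378) (nat_lit 5) (nat_lit 368) (nat_lit 5) (nat_lit 575) (nat_lit 518) (nat_lit 467)) (XT.lf (nat_lit 0) (nat_lit 4841987512) (nat_lit 836) (nat_lit 2637566473) (nat_lit 76) (nat_lit 901434715) (nat_lit 357) (nat_lit 5) (nat_lit 368) (nat_lit 5) (nat_lit 358) (nat_lit 5) (nat_lit 576) (nat_lit 518) (nat_lit 466))))))))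
noncomputable def xc62 : XT := (XT.nd (nat_lit 1560) (nat_lit 6688) (nat_lit 0) (XT.nd (nat_lit 780) (nat_lit 4104) (nat_lit 0) (XT.nd (nat_lit 390) (nat_lit 1976) (nat_lit 0) (XT.nd (nat_lit 156) (nat_lit 1444) (nat_lit 0) (XT.nd (nat_lit 78) (nat_lit 760) (nat_lit 0) (XT.lf (nat_lit 0) (nat_lit 3176676703) (nat_lit 760) (nat_lit 4474148645) (nat_lit 836) (nat_lit 802671050) (nat_lit 347) (nat_lit 5) (nat_lit 357) (nat_lit 5) (nat_lit 358) (nat_lit 5) (nat_lit 577) (nat_lit 518) (nat_lit 465)) (XT.lf (nat_lit 0) (nat_lit 562686409) (nat_lit 684) (nat_lit 1381179140) (nat_lit 760) (nat_lit 6583700456) (nat_lit 337) (nat_lit 5) (nat_lit 346) (nat_lit 5) (nat_lit 347) (nat_lit 5) (nat_lit 578) (nat_lit 518) (nat_lit 464))) (XT.nd (nat_lit 78) (nat_lit 1444) (nat_lit 0) (XT.lf (nat_lit 0) (nat_lit 4742269088) (nat_lit 760) (nat_lit 2076913656) (nat_lit 76) (nat_lit 1783675556) (nat_lit 337) (nat_lit 5) (nat_lit 347) (nat_lit 5) (nat_lit 338) (nat_lit 5) (nat_lit 579) (nat_lit 518) (nat_lit 463)) (XT.nd (nat_lit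 78) (nat_lit 760) (nat_lit 0) (XT.lf (nat_lit 0) (nat_lit 3924120209) (nat_lit 684) (nat_lit 3668433079) (nat_lit 760) (nat_lit 1087185968) (nat_lit 328) (nat_lit 5) (nat_lit 337) (nat_lit 5) (nat_lit 338) (nat_lit 5) (nat_lit 580) (nat_lit 518) (nat_lit 462)) (XT.lf (nat_lit 0) (nat_lit 1273537378) (nat_lit 684) (nat_lit 429092761) (nat_lit 760) (nat_lit 7055626810) (nat_lit 318) (nat_lit 5) (nat_lit 327) (nat_lit 5) (nat_lit 328) (nat_lit 5) (nat_lit 581) (nat_lit 518) (nat_lit 461))))) (XT.nd (nat_lit 156) (nat_lit 1292) (nat_lit 0) (XT.nd (nat_lit 78) (nat_lit 684) (nat_lit 0) (XT.lf (nat_lit 0) (nat_lit 4546371797) (nat_lit 760) (nat_lit 1423651794) (nat_lit 76) (nat_lit 2867924952) (nat_lit 318) (nat_lit 5) (nat_lit 328) (nat_lit 5) (nat_lit 319) (nat_lit 5) (nat_lit 582) (nat_lit 518) (nat_lit 460)) (XT.lf (nat_lit 0) (nat_lit 4771703122) (nat_lit 684) (nat_lit 2671737666) (nat_lit 760) (nat_lit 1475865117) (nat_lit 309) (nat_lit 5) (nat_lit 318) (nat_lit 5) (nat_lit 319) (nat_lit 5) (nat_lit 583)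 (nat_lit 518) (nat_lit 459))) (XT.nd (nat_lit 78) (nat_lit 608) (nat_lit 0) (XT.lf (nat_lit 0) (nat_lit 1368430146) (nat_lit 684) (nat_lit 6927592269) (nat_lit 76) (nat_lit 706276044) (nat_lit 300) (nat_lit 5) (nat_lit 309) (nat_lit 5) (nat_lit 301) (nat_lit 5) (nat_lit 584) (nat_lit 518) (nat_lit 458)) (XT.nd (nat_lit 78) (nat_lit 608) (nat_lit 0) (XT.lf (nat_lit 0) (nat_lit 4258757620) (nat_lit 684) (nat_lit 683589401) (nat_lit 76) (nat_lit 4144231502) (nat_lit 300) (nat_lit 5) (nat_lit 309) (nat_lit 5) (nat_lit 301) (nat_lit 5) (nat_lit 585) (nat_lit 518) (nat_lit 457)) (XT.lf (nat_lit 0) (nat_lit 5713932295) (nat_lit 608) (nat_lit 1493959086) (nat_lit 684) (nat_lit 1964633724) (nat_lit 292) (nat_lit 5) (nat_lit 300) (nat_lit 5) (nat_lit 301) (nat_lit 5) (nat_lit 586) (nat_lit 518) (nat_lit 456)))))) (XT.nd (nat_lit 390) (nat_lit 1596) (nat_lit 0) (XT.nd (nat_lit 156) (nat_lit 1216) (nat_lit 0) (XT.nd (nat_lit 78) (nat_lit 608) (nat_lit 0) (XT.lf (nat_lit 0) (nat_lit 944555377) (nat_lit 684) (nat_lit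 6298698147) (nat_lit 76) (nat_lit 2016788375) (nat_lit 283) (nat_lit 5) (nat_lit 292) (nat_lit 5) (nat_lit 284) (nat_lit 5) (nat_lit 587) (nat_lit 518) (nat_lit 455)) (XT.lf (nat_lit 0) (nat_lit 139679333) (nat_lit 608) (nat_lit 3744539031) (nat_lit 684) (nat_lit 5464859869) (nat_lit 275) (nat_lit 5) (nat_lit 283) (nat_lit 5) (nat_lit 284) (nat_lit 5) (nat_lit 588) (nat_lit 518) (nat_lit 454))) (XT.nd (nat_lit 78) (nat_lit 1216) (nat_lit 0) (XT.lf (nat_lit 0) (nat_lit 6745702212) (nat_lit 608) (nat_lit 144044542) (nat_lit 684) (nat_lit 2550007939) (nat_lit 275) (nat_lit 5) (nat_lit 283) (nat_lit 5) (nat_lit 284) (nat_lit 5) (nat_lit 589) (nat_lit 518) (nat_lit 453)) (XT.nd (nat_lit 78) (nat_lit 608) (nat_lit 0) (XT.lf (nat_lit 0) (nat_lit 431556968) (nat_lit 608) (nat_lit 5600729107) (nat_lit 76) (nat_lit 3499625159) (nat_lit 267) (nat_lit 5) (nat_lit 275) (nat_lit 5) (nat_lit 268) (nat_lit 5) (nat_lit 590) (nat_lit 518) (nat_lit 452)) (XT.lf (nat_lit 0) (nat_lit 1049327600) (nat_lit 608) (nat_lit 2380853347)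 (nat_lit 684) (nat_lit 6195562194) (nat_lit 259) (nat_lit 5) (nat_lit 267) (nat_lit 5) (nat_lit 268) (nat_lit 5) (nat_lit 591) (nat_lit 518) (nat_lit 451))))) (XT.nd (nat_lit 156) (nat_lit 1064) (nat_lit 0) (XT.nd (nat_lit 78) (nat_lit 532) (nat_lit 0) (XT.lf (nat_lit 0) (nat_lit 6501207069) (nat_lit 684) (nat_lit 1868030521) (nat_lit 76) (nat_lit 1351966282) (nat_lit 259) (nat_lit 5) (nat_lit 268) (nat_lit 5) (nat_lit 260) (nat_lit 5) (nat_lit 592) (nat_lit 518) (nat_lit 450)) (XT.lf (nat_lit 0) (nat_lit 4978298379) (nat_lit 532) (nat_lit 4669987466) (nat_lit 608) (nat_lit 169996090) (nat_lit 252) (nat_lit 5) (nat_lit 259) (nat_lit 5) (nat_lit 260) (nat_lit 5) (nat_lit 593) (nat_lit 518) (nat_lit 449))) (XT.nd (nat_lit 78) (nat_lit 456) (nat_lit 0) (XT.lf (nat_lit 0) (nat_lit 2031398460) (nat_lit 532) (nat_lit 863525558) (nat_lit 608) (nat_lit 7022146553) (nat_lit 244) (nat_lit 5) (nat_lit 251) (nat_lit 5) (nat_lit 252) (nat_lit 5) (nat_lit 594) (nat_lit 518) (nat_lit 448)) (XT.nd (nat_lit 78) (nat_lit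 456) (nat_lit 0) (XT.lf (nat_lit 0) (nat_lit 6038122906) (nat_lit 608) (nat_lit 978479076) (nat_lit 76) (nat_lit 3000826109) (nat_lit 244) (nat_lit 5) (nat_lit 252) (nat_lit 5) (nat_lit 245) (nat_lit 5) (nat_lit 595) (nat_lit 518) (nat_lit 447)) (XT.lf (nat_lit 0) (nat_lit 6095825809) (nat_lit 456) (nat_lit 3161263479) (nat_lit 532) (nat_lit 862446109) (nat_lit 238) (nat_lit 5) (nat_lit 244) (nat_lit 5) (nat_lit 245) (nat_lit 5) (nat_lit 596) (nat_lit 518) (nat_lit 446))))))) (XT.nd (nat_lit 780) (nat_lit 3192) (nat_lit 0) (XT.nd (nat_lit 390) (nat_lit 1444) (nat_lit 0) (XT.nd (nat_lit 156) (nat_lit 1444) (nat_lit 0) (XT.nd (nat_lit 78) (nat_lit 0) (nat_lit 0) (XT.lf (nat_lit 0) (nat_lit 2285915338) (nat_lit 608) (nat_lit 7147435390) (nat_lit 76) (nat_lit 790042966) (nat_lit 230) (nat_lit 5) (nat_lit 238) (nat_lit 5) (nat_lit 231) (nat_lit 5) (nat_lit 597) (nat_lit 518) (nat_lit 445)) (XT.lf (nat_lit 0) (nat_lit 5501813470) (nat_lit 608) (nat_lit 29100824) (nat_lit 76) (nat_lit 4797979157) (nat_lit 230)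 (nat_lit 5) (nat_lit 238) (nat_lit 5) (nat_lit 231) (nat_lit 5) (nat_lit 598) (nat_lit 518) (nat_lit 444))) (XT.nd (nat_lit 78) (nat_lit 988) (nat_lit 0) (XT.lf (nat_lit 0) (nat_lit 7282357120) (nat_lit 456) (nat_lit 1515573229) (nat_lit 532) (nat_lit 1638255489) (nat_lit 224) (nat_lit 5) (nat_lit 230) (nat_lit 5) (nat_lit 231) (nat_lit 5) (nat_lit 599) (nat_lit 518) (nat_lit 443)) (XT.nd (nat_lit 78) (nat_lit 456) (nat_lit 0) (XT.lf (nat_lit 0) (nat_lit 1606256435) (nat_lit 532) (nat_lit 6367933207) (nat_lit 76) (nat_lit 2570963762) (nat_lit 217) (nat_lit 5) (nat_lit 224) (nat_lit 5) (nat_lit 218) (nat_lit 5) (nat_lit 600) (nat_lit 518) (nat_lit 442)) (XT.lf (nat_lit 0) (nat_lit 988593230) (nat_lit 456) (nat_lit 3911883365) (nat_lit 532) (nat_lit 5755472676) (nat_lit 211) (nat_lit 5) (nat_lit 217) (nat_lit 5) (nat_lit 218) (nat_lit 5) (nat_lit 601) (nat_lit 518) (nat_lit 441))))) (XT.nd (nat_lit 156) (nat_lit 912) (nat_lit 0) (XT.nd (nat_lit 78) (nat_lit 532) (nat_lit 0) (XT.lf (nat_lit 0) (nat_lit 8274300513)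 (nat_lit 532) (nat_lit 2236660699) (nat_lit 76) (nat_lit 257726058) (nat_lit 211) (nat_lit 5) (nat_lit 218) (nat_lit 5) (nat_lit 212) (nat_lit 5) (nat_lit 602) (nat_lit 518) (nat_lit 440)) (XT.lf (nat_lit 0) (nat_lit 851607415) (nat_lit 532) (nat_lit 5546314712) (nat_lit 76) (nat_lit 4485038507) (nat_lit 204) (nat_lit 5) (nat_lit 211) (nat_lit 5) (nat_lit 205) (nat_lit 5) (nat_lit 603) (nat_lit 518) (nat_lit 439))) (XT.nd (nat_lit 78) (nat_lit 532) (nat_lit 0) (XT.lf (nat_lit 0) (nat_lit 2058339475) (nat_lit 380) (nat_lit 2171196875) (nat_lit 456) (nat_lit 6769685629) (nat_lit 199) (nat_lit 5) (nat_lit 204) (nat_lit 5) (nat_lit 205) (nat_lit 5) (nat_lit 604) (nat_lit 518) (nat_lit 438)) (XT.nd (nat_lit 78) (nat_lit 532) (nat_lit 0) (XT.lf (nat_lit 0) (nat_lit 7696503184) (nat_lit 456) (nat_lit 1285701456) (nat_lit 76) (nat_lit 2135174879) (nat_lit 199) (nat_lit 5) (nat_lit 205) (nat_lit 5) (nat_lit 200) (nat_lit 5) (nat_lit 605) (nat_lit 518) (nat_lit 437)) (XT.lf (nat_lit 0) (nat_lit 22770763) (nat_lit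 532) (nat_lit 4687273366) (nat_lit 76) (nat_lit 6527301379) (nat_lit 192) (nat_lit 5) (nat_lit 199) (nat_lit 5) (nat_lit 193) (nat_lit 5) (nat_lit 606) (nat_lit 518) (nat_lit 436)))))) (XT.nd (nat_lit 390) (nat_lit 1596) (nat_lit 0) (XT.nd (nat_lit 156) (nat_lit 1216) (nat_lit 0) (XT.nd (nat_lit 78) (nat_lit 0) (nat_lit 0) (XT.lf (nat_lit 0) (nat_lit 3175398295) (nat_lit 380) (nat_lit 314235523) (nat_lit 456) (nat_lit 7869622312) (nat_lit 187) (nat_lit 5) (nat_lit 192) (nat_lit 5) (nat_lit 193) (nat_lit 5) (nat_lit 607) (nat_lit 518) (nat_lit 435)) (XT.lf (nat_lit 0) (nat_lit 7055564400) (nat_lit 456) (nat_lit 295574556) (nat_lit 76) (nat_lit 4131871916) (nat_lit 187) (nat_lit 5) (nat_lit 193) (nat_lit 5) (nat_lit 188) (nat_lit 5) (nat_lit 608) (nat_lit 518) (nat_lit 434))) (XT.nd (nat_lit 78) (nat_lit 836) (nat_lit 0) (XT.lf (nat_lit 0) (nat_lit 7807476192) (nat_lit 380) (nat_lit 2909675234) (nat_lit 456) (nat_lit 891603029) (nat_lit 182) (nat_lit 5) (nat_lit 187) (nat_lit 5) (nat_lit 188) (nat_lit 5) (nat_lit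 609) (nat_lit 518) (nat_lit 433)) (XT.nd (nat_lit 78) (nat_lit 380) (nat_lit 0) (XT.lf (nat_lit 0) (nat_lit 2691892655) (nat_lit 456) (nat_lit 7411930451) (nat_lit 76) (nat_lit 1632586891) (nat_lit 176) (nat_lit 5) (nat_lit 182) (nat_lit 5) (nat_lit 177) (nat_lit 5) (nat_lit 610) (nat_lit 518) (nat_lit 432)) (XT.lf (nat_lit 0) (nat_lit 738935331) (nat_lit 380) (nat_lit 5617774815) (nat_lit 456) (nat_lit 5509359299) (nat_lit 171) (nat_lit 5) (nat_lit 176) (nat_lit 5) (nat_lit 177) (nat_lit 5) (nat_lit 611) (nat_lit 518) (nat_lit 431))))) (XT.nd (nat_lit 234) (nat_lit 760) (nat_lit 0) (XT.nd (nat_lit 78) (nat_lit 836) (nat_lit 0) (XT.lf (nat_lit 0) (nat_lit 9109991497) (nat_lit 380) (nat_lit 1006676346) (nat_lit 456) (nat_lit 1881217826) (nat_lit 171) (nat_lit 5) (nat_lit 176) (nat_lit 5) (nat_lit 177) (nat_lit 5) (nat_lit 612) (nat_lit 518) (nat_lit 430)) (XT.nd (nat_lit 78) (nat_lit 380) (nat_lit 0) (XT.lf (nat_lit 0) (nat_lit 1828243811) (nat_lit 456) (nat_lit 6622069532) (nat_lit 76) (nat_lit 3681136651)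 (nat_lit 165) (nat_lit 5) (nat_lit 171) (nat_lit 5) (nat_lit 166) (nat_lit 5) (nat_lit 613) (nat_lit 518) (nat_lit 429)) (XT.lf (nat_lit 0) (nat_lit 1807926705) (nat_lit 380) (nat_lit 3789350419) (nat_lit 456) (nat_lit 6669948784) (nat_lit 160) (nat_lit 5) (nat_lit 165) (nat_lit 5) (nat_lit 166) (nat_lit 5) (nat_lit 614) (nat_lit 518) (nat_lit 428)))) (XT.nd (nat_lit 78) (nat_lit 760) (nat_lit 0) (XT.lf (nat_lit 0) (nat_lit 9465481173) (nat_lit 456) (nat_lit 1958238821) (nat_lit 76) (nat_lit 981521973) (nat_lit 160) (nat_lit 5) (nat_lit 166) (nat_lit 5) (nat_lit 161) (nat_lit 5) (nat_lit 615) (nat_lit 518) (nat_lit 427)) (XT.nd (nat_lit 78) (nat_lit 380) (nat_lit 0) (XT.lf (nat_lit 0) (nat_lit 896107063) (nat_lit 380) (nat_lit 5817301555) (nat_lit 76) (nat_lit 5831649392) (nat_lit 155) (nat_lit 5) (nat_lit 160) (nat_lit 5) (nat_lit 156) (nat_lit 5) (nat_lit 616) (nat_lit 518) (nat_lit 426)) (XT.lf (nat_lit 0) (nat_lit 2902754869) (nat_lit 380) (nat_lit 1872087410) (nat_lit 456) (nat_lit 7912329595) (nat_lit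 150) (nat_lit 5) (nat_lit 155) (nat_lit 5) (nat_lit 156) (nat_lit 5) (nat_lit 617) (nat_lit 518) (nat_lit 425))))))))
noncomputable def xc63 : XT := (XT.nd (nat_lit 74958) (nat_lit 0) (nat_lit 29184) (XT.nd (nat_lit 74178) (nat_lit 0) (nat_lit 45600) (XT.nd (nat_lit 73788) (nat_lit 0) (nat_lit 48944) (XT.nd (nat_lit 156) (nat_lit 456) (nat_lit 0) (XT.nd (nat_lit 78) (nat_lit 304) (nat_lit 0) (XT.lf (nat_lit 0) (nat_lit 8763902990) (nat_lit 456) (nat_lit 1017959839) (nat_lit 76) (nat_lit 3049610568) (nat_lit 150) (nat_lit 5) (nat_lit 156) (nat_lit 5) (nat_lit 151) (nat_lit 5) (nat_lit 618) (nat_lit 518) (nat_lit 424)) (XT.lf (nat_lit 0) (nat_lit 7974332342) (nat_lit 304) (nat_lit 4896652035) (nat_lit 380) (nat_lit 106912173) (nat_lit 146) (nat_lit 5) (nat_lit 150) (nat_lit 5) (nat_lit 151) (nat_lit 5) (nat_lit 619) (nat_lit 518) (nat_lit 423))) (XT.nd (nat_lit 78) (nat_lit 0) (nat_lit 0) (XT.lf (nat_lit 0) (nat_lit 3889325363) (nat_lit 456) (nat_lit 9108910351) (nat_lit 76) (nat_lit 128343165) (nat_lit 140)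 (nat_lit 5) (nat_lit 146) (nat_lit 5) (nat_lit 141) (nat_lit 5) (nat_lit 620) (nat_lit 518) (nat_lit 422)) (XT.nd (nat_lit 73476) (nat_lit 0) (nat_lit 49476) (XT.lf (nat_lit 0) (nat_lit 8004555440) (nat_lit 456) (nat_lit 65657503) (nat_lit 76) (nat_lit 5207198160) (nat_lit 140) (nat_lit 5) (nat_lit 146) (nat_lit 5) (nat_lit 141) (nat_lit 5) (nat_lit 621) (nat_lit 518) (nat_lit 421)) (XT.lf (nat_lit 0) (nat_lit 32883998) (nat_lit 76) (nat_lit 1594591711) (nat_lit 76) (nat_lit 1594591711) (nat_lit 791) (nat_lit 4) (nat_lit 792) (nat_lit 5) (nat_lit 792) (nat_lit 4) (nat_lit 522) (nat_lit 519) (nat_lit 519))))) (XT.nd (nat_lit 156) (nat_lit 304) (nat_lit 0) (XT.nd (nat_lit 78) (nat_lit 152) (nat_lit 0) (XT.lf (nat_lit 0) (nat_lit 22900620) (nat_lit 152) (nat_lit 3040593682) (nat_lit 76) (nat_lit 3383175386) (nat_lit 790) (nat_lit 5) (nat_lit 792) (nat_lit 5) (nat_lit 791) (nat_lit 4) (nat_lit 523) (nat_lit 519) (nat_lit 518)) (XT.lf (nat_lit 0) (nat_lit 302169490) (nat_lit 152) (nat_lit 2873745774) (nat_lit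 228) (nat_lit 3274535327) (nat_lit 788) (nat_lit 5) (nat_lit 790) (nat_lit 5) (nat_lit 791) (nat_lit 4) (nat_lit 524) (nat_lit 519) (nat_lit 517))) (XT.nd (nat_lit 78) (nat_lit 304) (nat_lit 0) (XT.lf (nat_lit 0) (nat_lit 3708689411) (nat_lit 152) (nat_lit 2622427139) (nat_lit 228) (nat_lit 124412751) (nat_lit 788) (nat_lit 5) (nat_lit 790) (nat_lit 5) (nat_lit 791) (nat_lit 4) (nat_lit 525) (nat_lit 519) (nat_lit 516)) (XT.nd (nat_lit 78) (nat_lit 0) (nat_lit 0) (XT.lf (nat_lit 0) (nat_lit 666805232) (nat_lit 228) (nat_lit 2305511140) (nat_lit 304) (nat_lit 3489514401) (nat_lit 784) (nat_lit 5) (nat_lit 787) (nat_lit 5) (nat_lit 788) (nat_lit 5) (nat_lit 526) (nat_lit 519) (nat_lit 515)) (XT.lf (nat_lit 0) (nat_lit 4140899177) (nat_lit 228) (nat_lit 1927913408) (nat_lit 304) (nat_lit 400643720) (nat_lit 784) (nat_lit 5) (nat_lit 787) (nat_lit 5) (nat_lit 788) (nat_lit 5) (nat_lit 527) (nat_lit 519) (nat_lit 514)))))) (XT.nd (nat_lit 390) (nat_lit 1976) (nat_lit 0) (XT.nd (nat_lit 156) (nat_lit 988) (nat_lit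 0) (XT.nd (nat_lit 78) (nat_lit 0) (nat_lit 0) (XT.lf (nat_lit 0) (nat_lit 1160206381) (nat_lit 304) (nat_lit 1483364421) (nat_lit 380) (nat_lit 3834718051) (nat_lit 779) (nat_lit 5) (nat_lit 783) (nat_lit 5) (nat_lit 784) (nat_lit 5) (nat_lit 528) (nat_lit 519) (nat_lit 513)) (XT.lf (nat_lit 0) (nat_lit 4703517178) (nat_lit 304) (nat_lit 978742717) (nat_lit 380) (nat_lit 806210283) (nat_lit 779) (nat_lit 5) (nat_lit 783) (nat_lit 5) (nat_lit 784) (nat_lit 5) (nat_lit 529) (nat_lit 519) (nat_lit 512))) (XT.nd (nat_lit 78) (nat_lit 532) (nat_lit 0) (XT.lf (nat_lit 0) (nat_lit 1783155224) (nat_lit 380) (nat_lit 405692456) (nat_lit 456) (nat_lit 4310996629) (nat_lit 773) (nat_lit 5) (nat_lit 778) (nat_lit 5) (nat_lit 779) (nat_lit 5) (nat_lit 530) (nat_lit 519) (nat_lit 511)) (XT.nd (nat_lit 78) (nat_lit 532) (nat_lit 0) (XT.lf (nat_lit 0) (nat_lit 5171978994) (nat_lit 456) (nat_lit 1116613125) (nat_lit 76) (nat_lit 223971822) (nat_lit 773) (nat_lit 5) (nat_lit 779) (nat_lit 5) (nat_lit 774) (nat_lit 5) (nat_lit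 531) (nat_lit 519) (nat_lit 510)) (XT.lf (nat_lit 0) (nat_lit 1613103354) (nat_lit 532) (nat_lit 3995872083) (nat_lit 76) (nat_lit 917426506) (nat_lit 766) (nat_lit 5) (nat_lit 773) (nat_lit 5) (nat_lit 767) (nat_lit 5) (nat_lit 532) (nat_lit 519) (nat_lit 509))))) (XT.nd (nat_lit 156) (nat_lit 1368) (nat_lit 0) (XT.nd (nat_lit 78) (nat_lit 608) (nat_lit 0) (XT.lf (nat_lit 0) (nat_lit 4543330039) (nat_lit 532) (nat_lit 328964210) (nat_lit 76) (nat_lit 1669340647) (nat_lit 766) (nat_lit 5) (nat_lit 773) (nat_lit 5) (nat_lit 767) (nat_lit 5) (nat_lit 533) (nat_lit 519) (nat_lit 508)) (XT.lf (nat_lit 0) (nat_lit 913296132) (nat_lit 608) (nat_lit 3152662891) (nat_lit 76) (nat_lit 2492068564) (nat_lit 758) (nat_lit 5) (nat_lit 766) (nat_lit 5) (nat_lit 759) (nat_lit 5) (nat_lit 534) (nat_lit 519) (nat_lit 507))) (XT.nd (nat_lit 78) (nat_lit 760) (nat_lit 0) (XT.lf (nat_lit 0) (nat_lit 593497970) (nat_lit 608) (nat_lit 3198879574) (nat_lit 684) (nat_lit 2783389801) (nat_lit 750) (nat_lit 5) (nat_lit 758) (nat_lit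 5) (nat_lit 759) (nat_lit 5) (nat_lit 535) (nat_lit 519) (nat_lit 506)) (XT.nd (nat_lit 78) (nat_lit 684) (nat_lit 0) (XT.lf (nat_lit 0) (nat_lit 85229718) (nat_lit 684) (nat_lit 2182941589) (nat_lit 76) (nat_lit 4326639926) (nat_lit 749) (nat_lit 5) (nat_lit 758) (nat_lit 5) (nat_lit 750) (nat_lit 5) (nat_lit 536) (nat_lit 519) (nat_lit 505)) (XT.lf (nat_lit 0) (nat_lit 1650684556) (nat_lit 684) (nat_lit 1265909650) (nat_lit 760) (nat_lit 3698424286) (nat_lit 740) (nat_lit 5) (nat_lit 749) (nat_lit 5) (nat_lit 750) (nat_lit 5) (nat_lit 537) (nat_lit 519) (nat_lit 504))))))) (XT.nd (nat_lit 780) (nat_lit 10412) (nat_lit 0) (XT.nd (nat_lit 390) (nat_lit 3344) (nat_lit 0) (XT.nd (nat_lit 156) (nat_lit 1824) (nat_lit 0) (XT.nd (nat_lit 78) (nat_lit 836) (nat_lit 0) (XT.lf (nat_lit 0) (nat_lit 5545964817) (nat_lit 684) (nat_lit 206205706) (nat_lit 760) (nat_lit 884510918) (nat_lit 740) (nat_lit 5) (nat_lit 749) (nat_lit 5) (nat_lit 750) (nat_lit 5) (nat_lit 538) (nat_lit 519) (nat_lit 503)) (XT.lf (nat_lit 0)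 (nat_lit 1917916963) (nat_lit 836) (nat_lit 3825392026) (nat_lit 76) (nat_lit 916048349) (nat_lit 729) (nat_lit 5) (nat_lit 740) (nat_lit 5) (nat_lit 730) (nat_lit 5) (nat_lit 539) (nat_lit 519) (nat_lit 502))) (XT.nd (nat_lit 78) (nat_lit 988) (nat_lit 0) (XT.lf (nat_lit 0) (nat_lit 118097321) (nat_lit 836) (nat_lit 4590921374) (nat_lit 912) (nat_lit 1974464796) (nat_lit 718) (nat_lit 5) (nat_lit 729) (nat_lit 5) (nat_lit 730) (nat_lit 5) (nat_lit 540) (nat_lit 519) (nat_lit 501)) (XT.nd (nat_lit 78) (nat_lit 912) (nat_lit 0) (XT.lf (nat_lit 0) (nat_lit 798081636) (nat_lit 912) (nat_lit 2567267048) (nat_lit 76) (nat_lit 3343409299) (nat_lit 717) (nat_lit 5) (nat_lit 729) (nat_lit 5) (nat_lit 718) (nat_lit 5) (nat_lit 541) (nat_lit 519) (nat_lit 500)) (XT.lf (nat_lit 0) (nat_lit 1471623321) (nat_lit 912) (nat_lit 2074372212) (nat_lit 988) (nat_lit 3189357188) (nat_lit 705) (nat_lit 5) (nat_lit 717) (nat_lit 5) (nat_lit 718) (nat_lit 5) (nat_lit 542) (nat_lit 519) (nat_lit 499))))) (XT.nd (nat_lit 156) (nat_lit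 2280) (nat_lit 0) (XT.nd (nat_lit 78) (nat_lit 1064) (nat_lit 0) (XT.lf (nat_lit 0) (nat_lit 5580974453) (nat_lit 912) (nat_lit 722842893) (nat_lit 988) (nat_lit 459565831) (nat_lit 705) (nat_lit 5) (nat_lit 717) (nat_lit 5) (nat_lit 718) (nat_lit 5) (nat_lit 543) (nat_lit 519) (nat_lit 498)) (XT.lf (nat_lit 0) (nat_lit 2256671103) (nat_lit 1064) (nat_lit 3837908550) (nat_lit 76) (nat_lit 697848609) (nat_lit 691) (nat_lit 5) (nat_lit 705) (nat_lit 5) (nat_lit 692) (nat_lit 5) (nat_lit 544) (nat_lit 519) (nat_lit 497))) (XT.nd (nat_lit 78) (nat_lit 1216) (nat_lit 0) (XT.lf (nat_lit 0) (nat_lit 318541986) (nat_lit 1064) (nat_lit 4656938439) (nat_lit 1140) (nat_lit 1847427699) (nat_lit 677) (nat_lit 5) (nat_lit 691) (nat_lit 5) (nat_lit 692) (nat_lit 5) (nat_lit 545) (nat_lit 519) (nat_lit 496)) (XT.nd (nat_lit 78) (nat_lit 1140) (nat_lit 0) (XT.lf (nat_lit 0) (nat_lit 848903758) (nat_lit 1140) (nat_lit 2295884376) (nat_lit 76) (nat_lit 3709776443) (nat_lit 676) (nat_lit 5) (nat_lit 691) (nat_lit 5) (nat_lit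 677) (nat_lit 5) (nat_lit 546) (nat_lit 519) (nat_lit 495)) (XT.lf (nat_lit 0) (nat_lit 1964644226) (nat_lit 1140) (nat_lit 1563779264) (nat_lit 1216) (nat_lit 3359108967) (nat_lit 661) (nat_lit 5) (nat_lit 676) (nat_lit 5) (nat_lit 677) (nat_lit 5) (nat_lit 547) (nat_lit 519) (nat_lit 494)))))) (XT.nd (nat_lit 390) (nat_lit 6384) (nat_lit 0) (XT.nd (nat_lit 156) (nat_lit 2736) (nat_lit 0) (XT.nd (nat_lit 78) (nat_lit 1292) (nat_lit 0) (XT.lf (nat_lit 0) (nat_lit 6219518889) (nat_lit 1216) (nat_lit 626363009) (nat_lit 76) (nat_lit 76120544) (nat_lit 661) (nat_lit 5) (nat_lit 677) (nat_lit 5) (nat_lit 662) (nat_lit 5) (nat_lit 548) (nat_lit 519) (nat_lit 493)) (XT.lf (nat_lit 0) (nat_lit 1958792704) (nat_lit 1292) (nat_lit 3221266160) (nat_lit 76) (nat_lit 1777287786) (nat_lit 644) (nat_lit 5) (nat_lit 661) (nat_lit 5) (nat_lit 645) (nat_lit 5) (nat_lit 549) (nat_lit 519) (nat_lit 492))) (XT.nd (nat_lit 78) (nat_lit 1444) (nat_lit 0) (XT.lf (nat_lit 0) (nat_lit 1165421613) (nat_lit 1292) (nat_lit 3454011557)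 (nat_lit 1368) (nat_lit 2374763117) (nat_lit 627) (nat_lit 5) (nat_lit 644) (nat_lit 5) (nat_lit 645) (nat_lit 5) (nat_lit 550) (nat_lit 519) (nat_lit 491)) (XT.nd (nat_lit 78) (nat_lit 1368) (nat_lit 0) (XT.lf (nat_lit 0) (nat_lit 263483313) (nat_lit 1368) (nat_lit 1396516414) (nat_lit 76) (nat_lit 5372427579) (nat_lit 626) (nat_lit 5) (nat_lit 644) (nat_lit 5) (nat_lit 627) (nat_lit 5) (nat_lit 551) (nat_lit 519) (nat_lit 490)) (XT.lf (nat_lit 0) (nat_lit 2889546316) (nat_lit 1444) (nat_lit 3969496126) (nat_lit 76) (nat_lit 212731743) (nat_lit 608) (nat_lit 5) (nat_lit 627) (nat_lit 5) (nat_lit 609) (nat_lit 5) (nat_lit 552) (nat_lit 519) (nat_lit 489))))) (XT.nd (nat_lit 234) (nat_lit 3344) (nat_lit 0) (XT.nd (nat_lit 78) (nat_lit 1596) (nat_lit 0) (XT.lf (nat_lit 0) (nat_lit 547891524) (nat_lit 1444) (nat_lit 4990326695) (nat_lit 1520) (nat_lit 1574290166) (nat_lit 589) (nat_lit 5) (nat_lit 608) (nat_lit 5) (nat_lit 609) (nat_lit 5) (nat_lit 553) (nat_lit 519) (nat_lit 488)) (XT.nd (nat_lit 78) (nat_lit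 1520) (nat_lit 0) (XT.lf (nat_lit 0) (nat_lit 1044886036) (nat_lit 1520) (nat_lit 1998219993) (nat_lit 76) (nat_lit 4111345891) (nat_lit 588) (nat_lit 5) (nat_lit 608) (nat_lit 5) (nat_lit 589) (nat_lit 5) (nat_lit 554) (nat_lit 519) (nat_lit 487)) (XT.lf (nat_lit 0) (nat_lit 2637688710) (nat_lit 1520) (nat_lit 1022378004) (nat_lit 1596) (nat_lit 3537667487) (nat_lit 568) (nat_lit 5) (nat_lit 588) (nat_lit 5) (nat_lit 589) (nat_lit 5) (nat_lit 555) (nat_lit 519) (nat_lit 486)))) (XT.nd (nat_lit 78) (nat_lit 1748) (nat_lit 0) (XT.lf (nat_lit 0) (nat_lit 99502921) (nat_lit 1596) (nat_lit 6197262640) (nat_lit 1672) (nat_lit 945734249) (nat_lit 547) (nat_lit 5) (nat_lit 568) (nat_lit 5) (nat_lit 569) (nat_lit 5) (nat_lit 556) (nat_lit 519) (nat_lit 485)) (XT.nd (nat_lit 78) (nat_lit 1672) (nat_lit 0) (XT.lf (nat_lit 0) (nat_lit 1662039738) (nat_lit 1672) (nat_lit 2438624978) (nat_lit 76) (nat_lit 3187551973) (nat_lit 546) (nat_lit 5) (nat_lit 568) (nat_lit 5) (nat_lit 547) (nat_lit 5) (nat_lit 557) (nat_lit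 519) (nat_lit 484)) (XT.lf (nat_lit 0) (nat_lit 2338026019) (nat_lit 1672) (nat_lit 1936176053) (nat_lit 1748) (nat_lit 3061224742) (nat_lit 524) (nat_lit 5) (nat_lit 546) (nat_lit 5) (nat_lit 547) (nat_lit 5) (nat_lit 558) (nat_lit 519) (nat_lit 483))))))))
noncomputable def xc64 : XT := (XT.nd (nat_lit 1560) (nat_lit 8816) (nat_lit 0) (XT.nd (nat_lit 780) (nat_lit 5852) (nat_lit 0) (XT.nd (nat_lit 390) (nat_lit 2812) (nat_lit 0) (XT.nd (nat_lit 156) (nat_lit 3040) (nat_lit 0) (XT.nd (nat_lit 78) (nat_lit 1824) (nat_lit 0) (XT.lf (nat_lit 0) (nat_lit 6907260484) (nat_lit 1748) (nat_lit 188782256) (nat_lit 76) (nat_lit 288167165) (nat_lit 524) (nat_lit 5) (nat_lit 547) (nat_lit 5) (nat_lit 525) (nat_lit 5) (nat_lit 559) (nat_lit 519) (nat_lit 482)) (XT.lf (nat_lit 0) (nat_lit 2125510241) (nat_lit 1824) (nat_lit 2728982036) (nat_lit 76) (nat_lit 2579301487) (nat_lit 500) (nat_lit 5) (nat_lit 524) (nat_lit 5) (nat_lit 501) (nat_lit 5) (nat_lit 560) (nat_lit 519) (nat_lit 481))) (XT.nd (nat_lit 78) (nat_lit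 1216) (nat_lit 0) (XT.lf (nat_lit 0) (nat_lit 2193753704) (nat_lit 1824) (nat_lit 2547129469) (nat_lit 1900) (nat_lit 2744079782) (nat_lit 476) (nat_lit 5) (nat_lit 500) (nat_lit 5) (nat_lit 501) (nat_lit 5) (nat_lit 561) (nat_lit 519) (nat_lit 480)) (XT.nd (nat_lit 78) (nat_lit 1216) (nat_lit 0) (XT.lf (nat_lit 0) (nat_lit 7205897724) (nat_lit 1824) (nat_lit 173352322) (nat_lit 1900) (nat_lit 158493438) (nat_lit 476) (nat_lit 5) (nat_lit 500) (nat_lit 5) (nat_lit 501) (nat_lit 5) (nat_lit 562) (nat_lit 519) (nat_lit 479)) (XT.lf (nat_lit 0) (nat_lit 2444893780) (nat_lit 1216) (nat_lit 2879656098) (nat_lit 76) (nat_lit 2266737500) (nat_lit 460) (nat_lit 5) (nat_lit 476) (nat_lit 5) (nat_lit 461) (nat_lit 5) (nat_lit 563) (nat_lit 519) (nat_lit 478))))) (XT.nd (nat_lit 156) (nat_lit 1824) (nat_lit 0) (XT.nd (nat_lit 78) (nat_lit 76) (nat_lit 0) (XT.lf (nat_lit 0) (nat_lit 2194795172) (nat_lit 912) (nat_lit 2874702025) (nat_lit 988) (nat_lit 2576960174) (nat_lit 448) (nat_lit 5) (nat_lit 460) (nat_lit 5) (nat_lit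 461) (nat_lit 5) (nat_lit 564) (nat_lit 519) (nat_lit 477)) (XT.lf (nat_lit 0) (nat_lit 16673033) (nat_lit 988) (nat_lit 339691615) (nat_lit 76) (nat_lit 7346894218) (nat_lit 447) (nat_lit 5) (nat_lit 460) (nat_lit 5) (nat_lit 448) (nat_lit 5) (nat_lit 565) (nat_lit 519) (nat_lit 476))) (XT.nd (nat_lit 78) (nat_lit 912) (nat_lit 0) (XT.lf (nat_lit 0) (nat_lit 2628881550) (nat_lit 988) (nat_lit 2900201137) (nat_lit 76) (nat_lit 2231750361) (nat_lit 435) (nat_lit 5) (nat_lit 448) (nat_lit 5) (nat_lit 436) (nat_lit 5) (nat_lit 566) (nat_lit 519) (nat_lit 475)) (XT.nd (nat_lit 78) (nat_lit 76) (nat_lit 0) (XT.lf (nat_lit 0) (nat_lit 2331886893) (nat_lit 836) (nat_lit 2936664033) (nat_lit 912) (nat_lit 2551504920) (nat_lit 424) (nat_lit 5) (nat_lit 435) (nat_lit 5) (nat_lit 436) (nat_lit 5) (nat_lit 567) (nat_lit 519) (nat_lit 474)) (XT.lf (nat_lit 0) (nat_lit 54788949) (nat_lit 912) (nat_lit 219455536) (nat_lit 76) (nat_lit 7606703668) (nat_lit 423) (nat_lit 5) (nat_lit 435) (nat_lit 5) (nat_lit 424) (nat_lit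 5) (nat_lit 568) (nat_lit 519) (nat_lit 473)))))) (XT.nd (nat_lit 390) (nat_lit 2432) (nat_lit 0) (XT.nd (nat_lit 156) (nat_lit 1672) (nat_lit 0) (XT.nd (nat_lit 78) (nat_lit 836) (nat_lit 0) (XT.lf (nat_lit 0) (nat_lit 2685318553) (nat_lit 988) (nat_lit 2799430290) (nat_lit 76) (nat_lit 2457848046) (nat_lit 411) (nat_lit 5) (nat_lit 424) (nat_lit 5) (nat_lit 412) (nat_lit 5) (nat_lit 569) (nat_lit 519) (nat_lit 472)) (XT.lf (nat_lit 0) (nat_lit 2596508848) (nat_lit 836) (nat_lit 2749219107) (nat_lit 912) (nat_lit 2660206614) (nat_lit 400) (nat_lit 5) (nat_lit 411) (nat_lit 5) (nat_lit 412) (nat_lit 5) (nat_lit 570) (nat_lit 519) (nat_lit 471))) (XT.nd (nat_lit 78) (nat_lit 836) (nat_lit 0) (XT.lf (nat_lit 0) (nat_lit 21232400) (nat_lit 836) (nat_lit 8015058530) (nat_lit 912) (nat_lit 34710493) (nat_lit 389) (nat_lit 5) (nat_lit 400) (nat_lit 5) (nat_lit 401) (nat_lit 5) (nat_lit 571) (nat_lit 519) (nat_lit 470)) (XT.nd (nat_lit 78) (nat_lit 760) (nat_lit 0) (XT.lf (nat_lit 0) (nat_lit 2621257124) (nat_lit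 912) (nat_lit 2585481802) (nat_lit 76) (nat_lit 2930036145) (nat_lit 388) (nat_lit 5) (nat_lit 400) (nat_lit 5) (nat_lit 389) (nat_lit 5) (nat_lit 572) (nat_lit 519) (nat_lit 469)) (XT.lf (nat_lit 0) (nat_lit 2980819106) (nat_lit 760) (nat_lit 2327121583) (nat_lit 836) (nat_lit 2896358938) (nat_lit 378) (nat_lit 5) (nat_lit 388) (nat_lit 5) (nat_lit 389) (nat_lit 5) (nat_lit 573) (nat_lit 519) (nat_lit 468))))) (XT.nd (nat_lit 156) (nat_lit 1596) (nat_lit 0) (XT.nd (nat_lit 78) (nat_lit 76) (nat_lit 0) (XT.lf (nat_lit 0) (nat_lit 374889315) (nat_lit 760) (nat_lit 7656515341) (nat_lit 836) (nat_lit 242110311) (nat_lit 368) (nat_lit 5) (nat_lit 378) (nat_lit 5) (nat_lit 379) (nat_lit 5) (nat_lit 574) (nat_lit 519) (nat_lit 467)) (XT.lf (nat_lit 0) (nat_lit 2443005460) (nat_lit 836) (nat_lit 2265881238) (nat_lit 76) (nat_lit 3634706696) (nat_lit 367) (nat_lit 5) (nat_lit 378) (nat_lit 5) (nat_lit 368) (nat_lit 5) (nat_lit 575) (nat_lit 519) (nat_lit 466))) (XT.nd (nat_lit 78) (nat_lit 836) (nat_lit 0) (XT.lf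 (nat_lit 0) (nat_lit 3477592095) (nat_lit 760) (nat_lit 1683785361) (nat_lit 836) (nat_lit 3254009168) (nat_lit 357) (nat_lit 5) (nat_lit 367) (nat_lit 5) (nat_lit 368) (nat_lit 5) (nat_lit 576) (nat_lit 519) (nat_lit 465)) (XT.nd (nat_lit 78) (nat_lit 76) (nat_lit 0) (XT.lf (nat_lit 0) (nat_lit 833693967) (nat_lit 760) (nat_lit 7090899985) (nat_lit 836) (nat_lit 564213357) (nat_lit 347) (nat_lit 5) (nat_lit 357) (nat_lit 5) (nat_lit 358) (nat_lit 5) (nat_lit 577) (nat_lit 519) (nat_lit 464)) (XT.lf (nat_lit 0) (nat_lit 2156171442) (nat_lit 836) (nat_lit 1847600416) (nat_lit 76) (nat_lit 4559535120) (nat_lit 346) (nat_lit 5) (nat_lit 357) (nat_lit 5) (nat_lit 347) (nat_lit 5) (nat_lit 578) (nat_lit 519) (nat_lit 463))))))) (XT.nd (nat_lit 780) (nat_lit 4028) (nat_lit 0) (XT.nd (nat_lit 390) (nat_lit 1976) (nat_lit 0) (XT.nd (nat_lit 156) (nat_lit 1444) (nat_lit 0) (XT.nd (nat_lit 78) (nat_lit 684) (nat_lit 0) (XT.lf (nat_lit 0) (nat_lit 4080160108) (nat_lit 684) (nat_lit 831384903) (nat_lit 760) (nat_lit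 3727915390) (nat_lit 337) (nat_lit 5) (nat_lit 346) (nat_lit 5) (nat_lit 347) (nat_lit 5) (nat_lit 579) (nat_lit 519) (nat_lit 462)) (XT.lf (nat_lit 0) (nat_lit 1391094401) (nat_lit 684) (nat_lit 6330102104) (nat_lit 760) (nat_lit 995958025) (nat_lit 328) (nat_lit 5) (nat_lit 337) (nat_lit 5) (nat_lit 338) (nat_lit 5) (nat_lit 580) (nat_lit 519) (nat_lit 461))) (XT.nd (nat_lit 78) (nat_lit 1368) (nat_lit 0) (XT.lf (nat_lit 0) (nat_lit 1765702021) (nat_lit 760) (nat_lit 1337113457) (nat_lit 76) (nat_lit 5693384589) (nat_lit 327) (nat_lit 5) (nat_lit 337) (nat_lit 5) (nat_lit 328) (nat_lit 5) (nat_lit 581) (nat_lit 519) (nat_lit 460)) (XT.nd (nat_lit 78) (nat_lit 684) (nat_lit 0) (XT.lf (nat_lit 0) (nat_lit 4564728924) (nat_lit 760) (nat_lit 4095879461) (nat_lit 76) (nat_lit 216178057) (nat_lit 318) (nat_lit 5) (nat_lit 328) (nat_lit 5) (nat_lit 319) (nat_lit 5) (nat_lit 582) (nat_lit 519) (nat_lit 459)) (XT.lf (nat_lit 0) (nat_lit 2041008886) (nat_lit 684) (nat_lit 5384922182) (nat_lit 760) (nat_lit 1532930553)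 (nat_lit 309) (nat_lit 5) (nat_lit 318) (nat_lit 5) (nat_lit 319) (nat_lit 5) (nat_lit 583) (nat_lit 519) (nat_lit 458))))) (XT.nd (nat_lit 156) (nat_lit 1292) (nat_lit 0) (XT.nd (nat_lit 78) (nat_lit 608) (nat_lit 0) (XT.lf (nat_lit 0) (nat_lit 1275918403) (nat_lit 760) (nat_lit 740450360) (nat_lit 76) (nat_lit 7026217178) (nat_lit 308) (nat_lit 5) (nat_lit 318) (nat_lit 5) (nat_lit 309) (nat_lit 5) (nat_lit 584) (nat_lit 519) (nat_lit 457)) (XT.lf (nat_lit 0) (nat_lit 4130379886) (nat_lit 684) (nat_lit 3558768221) (nat_lit 76) (nat_lit 1438435668) (nat_lit 300) (nat_lit 5) (nat_lit 309) (nat_lit 5) (nat_lit 301) (nat_lit 5) (nat_lit 585) (nat_lit 519) (nat_lit 456))) (XT.nd (nat_lit 78) (nat_lit 684) (nat_lit 0) (XT.lf (nat_lit 0) (nat_lit 2777773628) (nat_lit 608) (nat_lit 4265156192) (nat_lit 684) (nat_lit 2171332655) (nat_lit 292) (nat_lit 5) (nat_lit 300) (nat_lit 5) (nat_lit 301) (nat_lit 5) (nat_lit 586) (nat_lit 519) (nat_lit 455)) (XT.nd (nat_lit 78) (nat_lit 608) (nat_lit 0) (XT.lf (nat_lit 0)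 (nat_lit 690547235) (nat_lit 684) (nat_lit 63248509) (nat_lit 76) (nat_lit 8549011194) (nat_lit 291) (nat_lit 5) (nat_lit 300) (nat_lit 5) (nat_lit 292) (nat_lit 5) (nat_lit 587) (nat_lit 519) (nat_lit 454)) (XT.lf (nat_lit 0) (nat_lit 3606716309) (nat_lit 684) (nat_lit 2948181045) (nat_lit 76) (nat_lit 2837416212) (nat_lit 283) (nat_lit 5) (nat_lit 292) (nat_lit 5) (nat_lit 284) (nat_lit 5) (nat_lit 588) (nat_lit 519) (nat_lit 453)))))) (XT.nd (nat_lit 390) (nat_lit 1672) (nat_lit 0) (XT.nd (nat_lit 156) (nat_lit 1140) (nat_lit 0) (XT.nd (nat_lit 78) (nat_lit 608) (nat_lit 0) (XT.lf (nat_lit 0) (nat_lit 3596092333) (nat_lit 608) (nat_lit 2979674591) (nat_lit 684) (nat_lit 2907953067) (nat_lit 275) (nat_lit 5) (nat_lit 283) (nat_lit 5) (nat_lit 284) (nat_lit 5) (nat_lit 589) (nat_lit 519) (nat_lit 452)) (XT.lf (nat_lit 0) (nat_lit 21704158) (nat_lit 608) (nat_lit 8883209282) (nat_lit 76) (nat_lit 672142009) (nat_lit 267) (nat_lit 5) (nat_lit 275) (nat_lit 5) (nat_lit 268) (nat_lit 5) (nat_lit 590) (nat_lit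 519) (nat_lit 451))) (XT.nd (nat_lit 78) (nat_lit 1140) (nat_lit 0) (XT.lf (nat_lit 0) (nat_lit 2996807461) (nat_lit 608) (nat_lit 2269417154) (nat_lit 76) (nat_lit 4405133539) (nat_lit 267) (nat_lit 5) (nat_lit 275) (nat_lit 5) (nat_lit 268) (nat_lit 5) (nat_lit 591) (nat_lit 519) (nat_lit 450)) (XT.nd (nat_lit 78) (nat_lit 532) (nat_lit 0) (XT.lf (nat_lit 0) (nat_lit 4490987223) (nat_lit 608) (nat_lit 1536496184) (nat_lit 684) (nat_lit 3740142858) (nat_lit 259) (nat_lit 5) (nat_lit 267) (nat_lit 5) (nat_lit 268) (nat_lit 5) (nat_lit 592) (nat_lit 519) (nat_lit 449)) (XT.lf (nat_lit 0) (nat_lit 1512001313) (nat_lit 532) (nat_lit 7613841057) (nat_lit 608) (nat_lit 739836726) (nat_lit 252) (nat_lit 5) (nat_lit 259) (nat_lit 5) (nat_lit 260) (nat_lit 5) (nat_lit 593) (nat_lit 519) (nat_lit 448))))) (XT.nd (nat_lit 156) (nat_lit 1064) (nat_lit 0) (XT.nd (nat_lit 78) (nat_lit 532) (nat_lit 0) (XT.lf (nat_lit 0) (nat_lit 2303197847) (nat_lit 608) (nat_lit 1527510696) (nat_lit 76) (nat_lit 6134420722) (nat_lit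 251) (nat_lit 5) (nat_lit 259) (nat_lit 5) (nat_lit 252) (nat_lit 5) (nat_lit 594) (nat_lit 519) (nat_lit 447)) (XT.lf (nat_lit 0) (nat_lit 5400979543) (nat_lit 608) (nat_lit 4609022765) (nat_lit 76) (nat_lit 56393170) (nat_lit 244) (nat_lit 5) (nat_lit 252) (nat_lit 5) (nat_lit 245) (nat_lit 5) (nat_lit 595) (nat_lit 519) (nat_lit 446))) (XT.nd (nat_lit 78) (nat_lit 608) (nat_lit 0) (XT.lf (nat_lit 0) (nat_lit 2394775007) (nat_lit 456) (nat_lit 6185419371) (nat_lit 532) (nat_lit 1589103778) (nat_lit 238) (nat_lit 5) (nat_lit 244) (nat_lit 5) (nat_lit 245) (nat_lit 5) (nat_lit 596) (nat_lit 519) (nat_lit 445)) (XT.nd (nat_lit 78) (nat_lit 532) (nat_lit 0) (XT.lf (nat_lit 0) (nat_lit 1527926049) (nat_lit 532) (nat_lit 727278056) (nat_lit 76) (nat_lit 8018864272) (nat_lit 237) (nat_lit 5) (nat_lit 244) (nat_lit 5) (nat_lit 238) (nat_lit 5) (nat_lit 597) (nat_lit 519) (nat_lit 444)) (XT.lf (nat_lit 0) (nat_lit 4708830287) (nat_lit 608) (nat_lit 3900253557) (nat_lit 76) (nat_lit 1771184489) (nat_lit 230) (nat_lit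 5) (nat_lit 238) (nat_lit 5) (nat_lit 231) (nat_lit 5) (nat_lit 598) (nat_lit 519) (nat_lit 443))))))))
noncomputable def xc65 : XT := (XT.nd (nat_lit 1560) (nat_lit 304) (nat_lit 0) (XT.nd (nat_lit 780) (nat_lit 2812) (nat_lit 0) (XT.nd (nat_lit 390) (nat_lit 1368) (nat_lit 0) (XT.nd (nat_lit 156) (nat_lit 912) (nat_lit 0) (XT.nd (nat_lit 78) (nat_lit 532) (nat_lit 0) (XT.lf (nat_lit 0) (nat_lit 3337749739) (nat_lit 456) (nat_lit 4626355829) (nat_lit 532) (nat_lit 2524272302) (nat_lit 224) (nat_lit 5) (nat_lit 230) (nat_lit 5) (nat_lit 231) (nat_lit 5) (nat_lit 599) (nat_lit 519) (nat_lit 442)) (XT.lf (nat_lit 0) (nat_lit 128318117) (nat_lit 456) (nat_lit 545055200) (nat_lit 532) (nat_lit 9925257206) (nat_lit 217) (nat_lit 5) (nat_lit 223) (nat_lit 5) (nat_lit 224) (nat_lit 5) (nat_lit 600) (nat_lit 519) (nat_lit 441))) (XT.nd (nat_lit 78) (nat_lit 912) (nat_lit 0) (XT.lf (nat_lit 0) (nat_lit 3942577877) (nat_lit 532) (nat_lit 3145106461) (nat_lit 76) (nat_lit 3622242662) (nat_lit 217) (nat_lit 5) (nat_lit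 224) (nat_lit 5) (nat_lit 218) (nat_lit 5) (nat_lit 601) (nat_lit 519) (nat_lit 440)) (XT.nd (nat_lit 78) (nat_lit 456) (nat_lit 0) (XT.lf (nat_lit 0) (nat_lit 4336509811) (nat_lit 456) (nat_lit 2942600833) (nat_lit 532) (nat_lit 3544300471) (nat_lit 211) (nat_lit 5) (nat_lit 217) (nat_lit 5) (nat_lit 218) (nat_lit 5) (nat_lit 602) (nat_lit 519) (nat_lit 439)) (XT.lf (nat_lit 0) (nat_lit 1033136903) (nat_lit 456) (nat_lit 9655931658) (nat_lit 532) (nat_lit 249963038) (nat_lit 205) (nat_lit 5) (nat_lit 211) (nat_lit 5) (nat_lit 212) (nat_lit 5) (nat_lit 603) (nat_lit 519) (nat_lit 438))))) (XT.nd (nat_lit 156) (nat_lit 912) (nat_lit 0) (XT.nd (nat_lit 78) (nat_lit 380) (nat_lit 0) (XT.lf (nat_lit 0) (nat_lit 3103276540) (nat_lit 532) (nat_lit 2348237720) (nat_lit 76) (nat_lit 5604370771) (nat_lit 204) (nat_lit 5) (nat_lit 211) (nat_lit 5) (nat_lit 205) (nat_lit 5) (nat_lit 604) (nat_lit 519) (nat_lit 437)) (XT.lf (nat_lit 0) (nat_lit 5386739793) (nat_lit 380) (nat_lit 1139550750) (nat_lit 456) (nat_lit 4648631355)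 (nat_lit 199) (nat_lit 5) (nat_lit 204) (nat_lit 5) (nat_lit 205) (nat_lit 5) (nat_lit 605) (nat_lit 519) (nat_lit 436))) (XT.nd (nat_lit 78) (nat_lit 456) (nat_lit 0) (XT.lf (nat_lit 0) (nat_lit 1973822513) (nat_lit 456) (nat_lit 8065057015) (nat_lit 532) (nat_lit 1257038213) (nat_lit 193) (nat_lit 5) (nat_lit 199) (nat_lit 5) (nat_lit 200) (nat_lit 5) (nat_lit 606) (nat_lit 519) (nat_lit 435)) (XT.nd (nat_lit 78) (nat_lit 380) (nat_lit 0) (XT.lf (nat_lit 0) (nat_lit 2191524301) (nat_lit 532) (nat_lit 1514256557) (nat_lit 76) (nat_lit 7712906726) (nat_lit 192) (nat_lit 5) (nat_lit 199) (nat_lit 5) (nat_lit 193) (nat_lit 5) (nat_lit 607) (nat_lit 519) (nat_lit 434)) (XT.lf (nat_lit 0) (nat_lit 5711330041) (nat_lit 456) (nat_lit 5064340030) (nat_lit 76) (nat_lit 767695001) (nat_lit 187) (nat_lit 5) (nat_lit 193) (nat_lit 5) (nat_lit 188) (nat_lit 5) (nat_lit 608) (nat_lit 519) (nat_lit 433)))))) (XT.nd (nat_lit 390) (nat_lit 1140) (nat_lit 0) (XT.nd (nat_lit 156) (nat_lit 1216) (nat_lit 0) (XT.nd (nat_lit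 78) (nat_lit 76) (nat_lit 0) (XT.lf (nat_lit 0) (nat_lit 2954035018) (nat_lit 380) (nat_lit 6373569810) (nat_lit 456) (nat_lit 2342410317) (nat_lit 182) (nat_lit 5) (nat_lit 187) (nat_lit 5) (nat_lit 188) (nat_lit 5) (nat_lit 609) (nat_lit 519) (nat_lit 432)) (XT.lf (nat_lit 0) (nat_lit 1207467532) (nat_lit 456) (nat_lit 647773898) (nat_lit 76) (nat_lit 9943670791) (nat_lit 181) (nat_lit 5) (nat_lit 187) (nat_lit 5) (nat_lit 182) (nat_lit 5) (nat_lit 610) (nat_lit 519) (nat_lit 431))) (XT.nd (nat_lit 78) (nat_lit 836) (nat_lit 0) (XT.lf (nat_lit 0) (nat_lit 4837482221) (nat_lit 456) (nat_lit 4323285074) (nat_lit 76) (nat_lit 2768500661) (nat_lit 176) (nat_lit 5) (nat_lit 182) (nat_lit 5) (nat_lit 177) (nat_lit 5) (nat_lit 611) (nat_lit 519) (nat_lit 430)) (XT.nd (nat_lit 78) (nat_lit 456) (nat_lit 0) (XT.lf (nat_lit 0) (nat_lit 3969302735) (nat_lit 380) (nat_lit 4586156322) (nat_lit 456) (nat_lit 3506464965) (nat_lit 171) (nat_lit 5) (nat_lit 176) (nat_lit 5) (nat_lit 177) (nat_lit 5) (nat_lit 612) (nat_lit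 519) (nat_lit 429)) (XT.lf (nat_lit 0) (nat_lit 153056689) (nat_lit 456) (nat_lit 11947945763) (nat_lit 76) (nat_lit 96122264) (nat_lit 165) (nat_lit 5) (nat_lit 171) (nat_lit 5) (nat_lit 166) (nat_lit 5) (nat_lit 613) (nat_lit 519) (nat_lit 428))))) (XT.nd (nat_lit 156) (nat_lit 760) (nat_lit 0) (XT.nd (nat_lit 78) (nat_lit 380) (nat_lit 0) (XT.lf (nat_lit 0) (nat_lit 3897070720) (nat_lit 456) (nat_lit 3562520763) (nat_lit 76) (nat_lit 4873809744) (nat_lit 165) (nat_lit 5) (nat_lit 171) (nat_lit 5) (nat_lit 166) (nat_lit 5) (nat_lit 614) (nat_lit 519) (nat_lit 427)) (XT.lf (nat_lit 0) (nat_lit 5015075463) (nat_lit 380) (nat_lit 2707149131) (nat_lit 456) (nat_lit 4750053903) (nat_lit 160) (nat_lit 5) (nat_lit 165) (nat_lit 5) (nat_lit 166) (nat_lit 5) (nat_lit 615) (nat_lit 519) (nat_lit 426))) (XT.nd (nat_lit 78) (nat_lit 456) (nat_lit 0) (XT.lf (nat_lit 0) (nat_lit 1158738290) (nat_lit 304) (nat_lit 10484478114) (nat_lit 380) (nat_lit 970330626) (nat_lit 156) (nat_lit 5) (nat_lit 160) (nat_lit 5) (nat_lit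 161) (nat_lit 5) (nat_lit 616) (nat_lit 519) (nat_lit 425)) (XT.nd (nat_lit 78) (nat_lit 380) (nat_lit 0) (XT.lf (nat_lit 0) (nat_lit 2889374971) (nat_lit 380) (nat_lit 2787085515) (nat_lit 76) (nat_lit 7079961720) (nat_lit 155) (nat_lit 5) (nat_lit 160) (nat_lit 5) (nat_lit 156) (nat_lit 5) (nat_lit 617) (nat_lit 519) (nat_lit 424)) (XT.lf (nat_lit 0) (nat_lit 6086670972) (nat_lit 380) (nat_lit 740576812) (nat_lit 456) (nat_lit 6074499895) (nat_lit 150) (nat_lit 5) (nat_lit 155) (nat_lit 5) (nat_lit 156) (nat_lit 5) (nat_lit 618) (nat_lit 519) (nat_lit 423))))))) (XT.nd (nat_lit 74178) (nat_lit 0) (nat_lit 44308) (XT.nd (nat_lit 73788) (nat_lit 0) (nat_lit 48108) (XT.nd (nat_lit 73554) (nat_lit 0) (nat_lit 48944) (XT.nd (nat_lit 73476) (nat_lit 0) (nat_lit 49172) (XT.lf (nat_lit 0) (nat_lit 2084548649) (nat_lit 304) (nat_lit 8794145372) (nat_lit 380) (nat_lit 2170589701) (nat_lit 146) (nat_lit 5) (nat_lit 150) (nat_lit 5) (nat_lit 151) (nat_lit 5) (nat_lit 619) (nat_lit 519) (nat_lit 422)) (XT.lf (nat_lit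 0) (nat_lit 1073741823) (nat_lit 0) (nat_lit 0) (nat_lit 0) (nat_lit 0) (nat_lit 793) (nat_lit 0) (nat_lit 1) (nat_lit 0) (nat_lit 1) (nat_lit 0) (nat_lit 520) (nat_lit 520) (nat_lit 520))) (XT.nd (nat_lit 78) (nat_lit 152) (nat_lit 0) (XT.lf (nat_lit 0) (nat_lit 3190710206) (nat_lit 76) (nat_lit 3210040085) (nat_lit 0) (nat_lit 42120210) (nat_lit 792) (nat_lit 5) (nat_lit 793) (nat_lit 0) (nat_lit 792) (nat_lit 4) (nat_lit 521) (nat_lit 520) (nat_lit 519)) (XT.nd (nat_lit 78) (nat_lit 76) (nat_lit 0) (XT.lf (nat_lit 0) (nat_lit 43799929) (nat_lit 76) (nat_lit 6318304530) (nat_lit 76) (nat_lit 82861597) (nat_lit 791) (nat_lit 4) (nat_lit 792) (nat_lit 5) (nat_lit 792) (nat_lit 4) (nat_lit 522) (nat_lit 520) (nat_lit 518)) (XT.lf (nat_lit 0) (nat_lit 3047586576) (nat_lit 152) (nat_lit 3105644455) (nat_lit 76) (nat_lit 294686806) (nat_lit 790) (nat_lit 5) (nat_lit 792) (nat_lit 5) (nat_lit 791) (nat_lit 4) (nat_lit 523) (nat_lit 520) (nat_lit 517))))) (XT.nd (nat_lit 156) (nat_lit 608) (nat_lit 0) (XT.nd (nat_lit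 78) (nat_lit 76) (nat_lit 0) (XT.lf (nat_lit 0) (nat_lit 214316324) (nat_lit 152) (nat_lit 5945620477) (nat_lit 228) (nat_lit 292577562) (nat_lit 788) (nat_lit 5) (nat_lit 790) (nat_lit 5) (nat_lit 791) (nat_lit 4) (nat_lit 524) (nat_lit 520) (nat_lit 516)) (XT.lf (nat_lit 0) (nat_lit 2780356793) (nat_lit 228) (nat_lit 2877347635) (nat_lit 76) (nat_lit 800314046) (nat_lit 787) (nat_lit 5) (nat_lit 790) (nat_lit 5) (nat_lit 788) (nat_lit 5) (nat_lit 525) (nat_lit 520) (nat_lit 515))) (XT.nd (nat_lit 78) (nat_lit 380) (nat_lit 0) (XT.lf (nat_lit 0) (nat_lit 511851858) (nat_lit 228) (nat_lit 5323663947) (nat_lit 304) (nat_lit 629588954) (nat_lit 784) (nat_lit 5) (nat_lit 787) (nat_lit 5) (nat_lit 788) (nat_lit 5) (nat_lit 526) (nat_lit 520) (nat_lit 514)) (XT.nd (nat_lit 78) (nat_lit 304) (nat_lit 0) (XT.lf (nat_lit 0) (nat_lit 2388463647) (nat_lit 304) (nat_lit 2524729862) (nat_lit 76) (nat_lit 1559990832) (nat_lit 783) (nat_lit 5) (nat_lit 787) (nat_lit 5) (nat_lit 784) (nat_lit 5) (nat_lit 527) (nat_lit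 520) (nat_lit 513)) (XT.lf (nat_lit 0) (nat_lit 936957306) (nat_lit 304) (nat_lit 4451208870) (nat_lit 380) (nat_lit 1094585911) (nat_lit 779) (nat_lit 5) (nat_lit 783) (nat_lit 5) (nat_lit 784) (nat_lit 5) (nat_lit 528) (nat_lit 520) (nat_lit 512)))))) (XT.nd (nat_lit 390) (nat_lit 2736) (nat_lit 0) (XT.nd (nat_lit 156) (nat_lit 608) (nat_lit 0) (XT.nd (nat_lit 78) (nat_lit 380) (nat_lit 0) (XT.lf (nat_lit 0) (nat_lit 1871104081) (nat_lit 380) (nat_lit 2047126735) (nat_lit 76) (nat_lit 2575202542) (nat_lit 778) (nat_lit 5) (nat_lit 783) (nat_lit 5) (nat_lit 779) (nat_lit 5) (nat_lit 529) (nat_lit 520) (nat_lit 511)) (XT.lf (nat_lit 0) (nat_lit 1490432312) (nat_lit 380) (nat_lit 3326535938) (nat_lit 456) (nat_lit 1688508907) (nat_lit 773) (nat_lit 5) (nat_lit 778) (nat_lit 5) (nat_lit 779) (nat_lit 5) (nat_lit 530) (nat_lit 520) (nat_lit 510))) (XT.nd (nat_lit 78) (nat_lit 532) (nat_lit 0) (XT.lf (nat_lit 0) (nat_lit 1227227743) (nat_lit 456) (nat_lit 1443628255) (nat_lit 76) (nat_lit 3847933462) (nat_lit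 772) (nat_lit 5) (nat_lit 778) (nat_lit 5) (nat_lit 773) (nat_lit 5) (nat_lit 531) (nat_lit 520) (nat_lit 509)) (XT.nd (nat_lit 78) (nat_lit 76) (nat_lit 0) (XT.lf (nat_lit 0) (nat_lit 2173326566) (nat_lit 456) (nat_lit 1947429783) (nat_lit 532) (nat_lit 2412550428) (nat_lit 766) (nat_lit 5) (nat_lit 772) (nat_lit 5) (nat_lit 773) (nat_lit 5) (nat_lit 532) (nat_lit 520) (nat_lit 508)) (XT.lf (nat_lit 0) (nat_lit 455535132) (nat_lit 532) (nat_lit 713077468) (nat_lit 76) (nat_lit 5380670027) (nat_lit 765) (nat_lit 5) (nat_lit 772) (nat_lit 5) (nat_lit 766) (nat_lit 5) (nat_lit 533) (nat_lit 520) (nat_lit 507))))) (XT.nd (nat_lit 234) (nat_lit 1520) (nat_lit 0) (XT.nd (nat_lit 78) (nat_lit 684) (nat_lit 0) (XT.lf (nat_lit 0) (nat_lit 2986941386) (nat_lit 532) (nat_lit 311175349) (nat_lit 608) (nat_lit 3268157055) (nat_lit 758) (nat_lit 5) (nat_lit 765) (nat_lit 5) (nat_lit 766) (nat_lit 5) (nat_lit 534) (nat_lit 520) (nat_lit 506)) (XT.nd (nat_lit 78) (nat_lit 76) (nat_lit 0) (XT.lf (nat_lit 0) (nat_lit 140989784)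 (nat_lit 608) (nat_lit 5997230011) (nat_lit 684) (nat_lit 446575021) (nat_lit 750) (nat_lit 5) (nat_lit 758) (nat_lit 5) (nat_lit 759) (nat_lit 5) (nat_lit 535) (nat_lit 520) (nat_lit 505)) (XT.lf (nat_lit 0) (nat_lit 2357678925) (nat_lit 684) (nat_lit 2681879188) (nat_lit 76) (nat_lit 1564653138) (nat_lit 749) (nat_lit 5) (nat_lit 758) (nat_lit 5) (nat_lit 750) (nat_lit 5) (nat_lit 536) (nat_lit 520) (nat_lit 504)))) (XT.nd (nat_lit 78) (nat_lit 836) (nat_lit 0) (XT.lf (nat_lit 0) (nat_lit 1123032797) (nat_lit 684) (nat_lit 4029528059) (nat_lit 760) (nat_lit 1472588907) (nat_lit 740) (nat_lit 5) (nat_lit 749) (nat_lit 5) (nat_lit 750) (nat_lit 5) (nat_lit 537) (nat_lit 520) (nat_lit 503)) (XT.nd (nat_lit 78) (nat_lit 760) (nat_lit 0) (XT.lf (nat_lit 0) (nat_lit 1290966549) (nat_lit 760) (nat_lit 1659295940) (nat_lit 76) (nat_lit 3697032912) (nat_lit 739) (nat_lit 5) (nat_lit 749) (nat_lit 5) (nat_lit 740) (nat_lit 5) (nat_lit 538) (nat_lit 520) (nat_lit 502)) (XT.lf (nat_lit 0) (nat_lit 2236215688) (nat_lit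 760) (nat_lit 1803506966) (nat_lit 836) (nat_lit 2630976722) (nat_lit 729) (nat_lit 5) (nat_lit 739) (nat_lit 5) (nat_lit 740) (nat_lit 5) (nat_lit 539) (nat_lit 520) (nat_lit 501))))))))
noncomputable def xc66 : XT := (XT.nd (nat_lit 1560) (nat_lit 14136) (nat_lit 0) (XT.nd (nat_lit 780) (nat_lit 9196) (nat_lit 0) (XT.nd (nat_lit 390) (nat_lit 3572) (nat_lit 0) (XT.nd (nat_lit 156) (nat_lit 1976) (nat_lit 0) (XT.nd (nat_lit 78) (nat_lit 836) (nat_lit 0) (XT.lf (nat_lit 0) (nat_lit 93812488) (nat_lit 836) (nat_lit 507571332) (nat_lit 76) (nat_lit 6094233555) (nat_lit 728) (nat_lit 5) (nat_lit 739) (nat_lit 5) (nat_lit 729) (nat_lit 5) (nat_lit 540) (nat_lit 520) (nat_lit 500)) (XT.lf (nat_lit 0) (nat_lit 2801898047) (nat_lit 912) (nat_lit 3243257642) (nat_lit 76) (nat_lit 676252517) (nat_lit 717) (nat_lit 5) (nat_lit 729) (nat_lit 5) (nat_lit 718) (nat_lit 5) (nat_lit 541) (nat_lit 520) (nat_lit 499))) (XT.nd (nat_lit 78) (nat_lit 1064) (nat_lit 0) (XT.lf (nat_lit 0) (nat_lit 764314006) (nat_lit 912) (nat_lit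 4750219902) (nat_lit 988) (nat_lit 1234175992) (nat_lit 705) (nat_lit 5) (nat_lit 717) (nat_lit 5) (nat_lit 718) (nat_lit 5) (nat_lit 542) (nat_lit 520) (nat_lit 498)) (XT.nd (nat_lit 78) (nat_lit 988) (nat_lit 0) (XT.lf (nat_lit 0) (nat_lit 1445572369) (nat_lit 988) (nat_lit 1935088673) (nat_lit 76) (nat_lit 3396495000) (nat_lit 704) (nat_lit 5) (nat_lit 717) (nat_lit 5) (nat_lit 705) (nat_lit 5) (nat_lit 543) (nat_lit 520) (nat_lit 497)) (XT.lf (nat_lit 0) (nat_lit 2171340320) (nat_lit 988) (nat_lit 1944904154) (nat_lit 1064) (nat_lit 2690689041) (nat_lit 691) (nat_lit 5) (nat_lit 704) (nat_lit 5) (nat_lit 705) (nat_lit 5) (nat_lit 544) (nat_lit 520) (nat_lit 496))))) (XT.nd (nat_lit 156) (nat_lit 2432) (nat_lit 0) (XT.nd (nat_lit 78) (nat_lit 1140) (nat_lit 0) (XT.lf (nat_lit 0) (nat_lit 6342250573) (nat_lit 988) (nat_lit 451702738) (nat_lit 1064) (nat_lit 44283366) (nat_lit 691) (nat_lit 5) (nat_lit 704) (nat_lit 5) (nat_lit 705) (nat_lit 5) (nat_lit 545) (nat_lit 520) (nat_lit 495)) (XT.lf (nat_lit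 0) (nat_lit 2593082993) (nat_lit 1140) (nat_lit 3163751924) (nat_lit 76) (nat_lit 1113531637) (nat_lit 676) (nat_lit 5) (nat_lit 691) (nat_lit 5) (nat_lit 677) (nat_lit 5) (nat_lit 546) (nat_lit 520) (nat_lit 494))) (XT.nd (nat_lit 78) (nat_lit 1292) (nat_lit 0) (XT.lf (nat_lit 0) (nat_lit 1062790465) (nat_lit 1140) (nat_lit 4175428291) (nat_lit 1216) (nat_lit 1665804571) (nat_lit 661) (nat_lit 5) (nat_lit 676) (nat_lit 5) (nat_lit 677) (nat_lit 5) (nat_lit 547) (nat_lit 520) (nat_lit 493)) (XT.nd (nat_lit 78) (nat_lit 1216) (nat_lit 0) (XT.lf (nat_lit 0) (nat_lit 949022519) (nat_lit 1216) (nat_lit 1573026311) (nat_lit 76) (nat_lit 4416893059) (nat_lit 660) (nat_lit 5) (nat_lit 676) (nat_lit 5) (nat_lit 661) (nat_lit 5) (nat_lit 548) (nat_lit 520) (nat_lit 492)) (XT.lf (nat_lit 0) (nat_lit 2761388245) (nat_lit 1216) (nat_lit 794358448) (nat_lit 1292) (nat_lit 3419356107) (nat_lit 644) (nat_lit 5) (nat_lit 660) (nat_lit 5) (nat_lit 661) (nat_lit 5) (nat_lit 549) (nat_lit 520) (nat_lit 491)))))) (XT.nd (nat_lit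 390) (nat_lit 4940) (nat_lit 0) (XT.nd (nat_lit 156) (nat_lit 2888) (nat_lit 0) (XT.nd (nat_lit 78) (nat_lit 76) (nat_lit 0) (XT.lf (nat_lit 0) (nat_lit 142322396) (nat_lit 1292) (nat_lit 6034958463) (nat_lit 1368) (nat_lit 835454824) (nat_lit 627) (nat_lit 5) (nat_lit 644) (nat_lit 5) (nat_lit 645) (nat_lit 5) (nat_lit 550) (nat_lit 520) (nat_lit 490)) (XT.lf (nat_lit 0) (nat_lit 1755508812) (nat_lit 1368) (nat_lit 2470753276) (nat_lit 76) (nat_lit 2825047699) (nat_lit 626) (nat_lit 5) (nat_lit 644) (nat_lit 5) (nat_lit 627) (nat_lit 5) (nat_lit 551) (nat_lit 520) (nat_lit 489))) (XT.nd (nat_lit 78) (nat_lit 1520) (nat_lit 0) (XT.lf (nat_lit 0) (nat_lit 1992737369) (nat_lit 1368) (nat_lit 2353658525) (nat_lit 1444) (nat_lit 2744965346) (nat_lit 608) (nat_lit 5) (nat_lit 626) (nat_lit 5) (nat_lit 627) (nat_lit 5) (nat_lit 552) (nat_lit 520) (nat_lit 488)) (XT.nd (nat_lit 78) (nat_lit 1520) (nat_lit 0) (XT.lf (nat_lit 0) (nat_lit 6534519185) (nat_lit 1368) (nat_lit 418267256) (nat_lit 1444) (nat_lit 180155663)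 (nat_lit 608) (nat_lit 5) (nat_lit 626) (nat_lit 5) (nat_lit 627) (nat_lit 5) (nat_lit 553) (nat_lit 520) (nat_lit 487)) (XT.lf (nat_lit 0) (nat_lit 2388094791) (nat_lit 1520) (nat_lit 3202073933) (nat_lit 76) (nat_lit 1585189706) (nat_lit 588) (nat_lit 5) (nat_lit 608) (nat_lit 5) (nat_lit 589) (nat_lit 5) (nat_lit 554) (nat_lit 520) (nat_lit 486))))) (XT.nd (nat_lit 156) (nat_lit 3344) (nat_lit 0) (XT.nd (nat_lit 78) (nat_lit 76) (nat_lit 0) (XT.lf (nat_lit 0) (nat_lit 1395221543) (nat_lit 1520) (nat_lit 3574533387) (nat_lit 1596) (nat_lit 2249557169) (nat_lit 568) (nat_lit 5) (nat_lit 588) (nat_lit 5) (nat_lit 589) (nat_lit 5) (nat_lit 555) (nat_lit 520) (nat_lit 485)) (XT.lf (nat_lit 0) (nat_lit 305051969) (nat_lit 1596) (nat_lit 1183655896) (nat_lit 76) (nat_lit 5775983000) (nat_lit 567) (nat_lit 5) (nat_lit 588) (nat_lit 5) (nat_lit 568) (nat_lit 5) (nat_lit 556) (nat_lit 520) (nat_lit 484))) (XT.nd (nat_lit 78) (nat_lit 1748) (nat_lit 0) (XT.lf (nat_lit 0) (nat_lit 2858019208) (nat_lit 1672) (nat_lit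 3779159507) (nat_lit 76) (nat_lit 673955207) (nat_lit 546) (nat_lit 5) (nat_lit 568) (nat_lit 5) (nat_lit 547) (nat_lit 5) (nat_lit 557) (nat_lit 520) (nat_lit 483)) (XT.nd (nat_lit 78) (nat_lit 76) (nat_lit 0) (XT.lf (nat_lit 0) (nat_lit 956951325) (nat_lit 1672) (nat_lit 4479852760) (nat_lit 1748) (nat_lit 1922208412) (nat_lit 524) (nat_lit 5) (nat_lit 546) (nat_lit 5) (nat_lit 547) (nat_lit 5) (nat_lit 558) (nat_lit 520) (nat_lit 482)) (XT.lf (nat_lit 0) (nat_lit 627238451) (nat_lit 1748) (nat_lit 1618435358) (nat_lit 76) (nat_lit 5162559583) (nat_lit 523) (nat_lit 5) (nat_lit 546) (nat_lit 5) (nat_lit 524) (nat_lit 5) (nat_lit 559) (nat_lit 520) (nat_lit 481))))))) (XT.nd (nat_lit 780) (nat_lit 5624) (nat_lit 0) (XT.nd (nat_lit 390) (nat_lit 2812) (nat_lit 0) (XT.nd (nat_lit 156) (nat_lit 2128) (nat_lit 0) (XT.nd (nat_lit 78) (nat_lit 1824) (nat_lit 0) (XT.lf (nat_lit 0) (nat_lit 3175496481) (nat_lit 1824) (nat_lit 4213242329) (nat_lit 76) (nat_lit 69976283) (nat_lit 500) (nat_lit 5) (nat_lit 524) (nat_lit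 5) (nat_lit 501) (nat_lit 5) (nat_lit 560) (nat_lit 520) (nat_lit 480)) (XT.lf (nat_lit 0) (nat_lit 666977034) (nat_lit 1824) (nat_lit 5090550072) (nat_lit 1900) (nat_lit 1753024859) (nat_lit 476) (nat_lit 5) (nat_lit 500) (nat_lit 5) (nat_lit 501) (nat_lit 5) (nat_lit 561) (nat_lit 520) (nat_lit 479))) (XT.nd (nat_lit 78) (nat_lit 2052) (nat_lit 0) (XT.lf (nat_lit 0) (nat_lit 798373268) (nat_lit 1900) (nat_lit 1912271467) (nat_lit 76) (nat_lit 4853045830) (nat_lit 475) (nat_lit 5) (nat_lit 500) (nat_lit 5) (nat_lit 476) (nat_lit 5) (nat_lit 562) (nat_lit 520) (nat_lit 478)) (XT.nd (nat_lit 78) (nat_lit 912) (nat_lit 0) (XT.lf (nat_lit 0) (nat_lit 3101865388) (nat_lit 1140) (nat_lit 249540487) (nat_lit 1216) (nat_lit 4266774308) (nat_lit 460) (nat_lit 5) (nat_lit 475) (nat_lit 5) (nat_lit 476) (nat_lit 5) (nat_lit 563) (nat_lit 520) (nat_lit 477)) (XT.lf (nat_lit 0) (nat_lit 515210615) (nat_lit 912) (nat_lit 5425767692) (nat_lit 988) (nat_lit 1733073258) (nat_lit 448) (nat_lit 5) (nat_lit 460) (nat_lit 5)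 (nat_lit 461) (nat_lit 5) (nat_lit 564) (nat_lit 520) (nat_lit 476))))) (XT.nd (nat_lit 156) (nat_lit 1824) (nat_lit 0) (XT.nd (nat_lit 78) (nat_lit 912) (nat_lit 0) (XT.lf (nat_lit 0) (nat_lit 827134615) (nat_lit 988) (nat_lit 2075017145) (nat_lit 76) (nat_lit 4829039610) (nat_lit 447) (nat_lit 5) (nat_lit 460) (nat_lit 5) (nat_lit 448) (nat_lit 5) (nat_lit 565) (nat_lit 520) (nat_lit 475)) (XT.lf (nat_lit 0) (nat_lit 3094702462) (nat_lit 912) (nat_lit 296476060) (nat_lit 988) (nat_lit 4398551049) (nat_lit 435) (nat_lit 5) (nat_lit 447) (nat_lit 5) (nat_lit 448) (nat_lit 5) (nat_lit 566) (nat_lit 520) (nat_lit 474))) (XT.nd (nat_lit 78) (nat_lit 988) (nat_lit 0) (XT.lf (nat_lit 0) (nat_lit 492352498) (nat_lit 836) (nat_lit 5502991348) (nat_lit 912) (nat_lit 1854319315) (nat_lit 424) (nat_lit 5) (nat_lit 435) (nat_lit 5) (nat_lit 436) (nat_lit 5) (nat_lit 567) (nat_lit 520) (nat_lit 473)) (XT.nd (nat_lit 78) (nat_lit 912) (nat_lit 0) (XT.lf (nat_lit 0) (nat_lit 721332118) (nat_lit 912) (nat_lit 2115769670)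 (nat_lit 76) (nat_lit 5073793806) (nat_lit 423) (nat_lit 5) (nat_lit 435) (nat_lit 5) (nat_lit 424) (nat_lit 5) (nat_lit 568) (nat_lit 520) (nat_lit 472)) (XT.lf (nat_lit 0) (nat_lit 3215648055) (nat_lit 912) (nat_lit 86344619) (nat_lit 988) (nat_lit 4671549706) (nat_lit 411) (nat_lit 5) (nat_lit 423) (nat_lit 5) (nat_lit 424) (nat_lit 5) (nat_lit 569) (nat_lit 520) (nat_lit 471)))))) (XT.nd (nat_lit 390) (nat_lit 3040) (nat_lit 0) (XT.nd (nat_lit 156) (nat_lit 1672) (nat_lit 0) (XT.nd (nat_lit 78) (nat_lit 76) (nat_lit 0) (XT.lf (nat_lit 0) (nat_lit 589822947) (nat_lit 836) (nat_lit 5338174580) (nat_lit 912) (nat_lit 2109571282) (nat_lit 400) (nat_lit 5) (nat_lit 411) (nat_lit 5) (nat_lit 412) (nat_lit 5) (nat_lit 570) (nat_lit 520) (nat_lit 470)) (XT.lf (nat_lit 0) (nat_lit 487961351) (nat_lit 912) (nat_lit 2042937656) (nat_lit 76) (nat_lit 5572094234) (nat_lit 399) (nat_lit 5) (nat_lit 411) (nat_lit 5) (nat_lit 400) (nat_lit 5) (nat_lit 571) (nat_lit 520) (nat_lit 469))) (XT.nd (nat_lit 78) (nat_lit 836)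 (nat_lit 0) (XT.lf (nat_lit 0) (nat_lit 3093070229) (nat_lit 912) (nat_lit 4715605816) (nat_lit 76) (nat_lit 361095027) (nat_lit 388) (nat_lit 5) (nat_lit 400) (nat_lit 5) (nat_lit 389) (nat_lit 5) (nat_lit 572) (nat_lit 520) (nat_lit 468)) (XT.nd (nat_lit 78) (nat_lit 76) (nat_lit 0) (XT.lf (nat_lit 0) (nat_lit 799697440) (nat_lit 760) (nat_lit 4945854044) (nat_lit 836) (nat_lit 2492428797) (nat_lit 378) (nat_lit 5) (nat_lit 388) (nat_lit 5) (nat_lit 389) (nat_lit 5) (nat_lit 573) (nat_lit 520) (nat_lit 467)) (XT.lf (nat_lit 0) (nat_lit 133253264) (nat_lit 836) (nat_lit 1864304195) (nat_lit 76) (nat_lit 6310146618) (nat_lit 377) (nat_lit 5) (nat_lit 388) (nat_lit 5) (nat_lit 378) (nat_lit 5) (nat_lit 574) (nat_lit 520) (nat_lit 466))))) (XT.nd (nat_lit 234) (nat_lit 1520) (nat_lit 0) (XT.nd (nat_lit 78) (nat_lit 760) (nat_lit 0) (XT.lf (nat_lit 0) (nat_lit 2770181773) (nat_lit 836) (nat_lit 4575544563) (nat_lit 76) (nat_lit 1032925541) (nat_lit 367) (nat_lit 5) (nat_lit 378) (nat_lit 5) (nat_lit 368) (nat_lit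 5) (nat_lit 575) (nat_lit 520) (nat_lit 465)) (XT.nd (nat_lit 78) (nat_lit 0) (nat_lit 0) (XT.lf (nat_lit 0) (nat_lit 1114645623) (nat_lit 760) (nat_lit 4339256439) (nat_lit 836) (nat_lit 2997236639) (nat_lit 357) (nat_lit 5) (nat_lit 367) (nat_lit 5) (nat_lit 368) (nat_lit 5) (nat_lit 576) (nat_lit 520) (nat_lit 464)) (XT.lf (nat_lit 0) (nat_lit 6935927371) (nat_lit 760) (nat_lit 1247542093) (nat_lit 836) (nat_lit 341763454) (nat_lit 357) (nat_lit 5) (nat_lit 367) (nat_lit 5) (nat_lit 368) (nat_lit 5) (nat_lit 577) (nat_lit 520) (nat_lit 463)))) (XT.nd (nat_lit 78) (nat_lit 684) (nat_lit 0) (XT.lf (nat_lit 0) (nat_lit 2338087575) (nat_lit 836) (nat_lit 4344243832) (nat_lit 76) (nat_lit 1918125148) (nat_lit 346) (nat_lit 5) (nat_lit 357) (nat_lit 5) (nat_lit 347) (nat_lit 5) (nat_lit 578) (nat_lit 520) (nat_lit 462)) (XT.nd (nat_lit 78) (nat_lit 0) (nat_lit 0) (XT.lf (nat_lit 0) (nat_lit 1527873424) (nat_lit 684) (nat_lit 3530397733) (nat_lit 760) (nat_lit 3619043139) (nat_lit 337) (nat_lit 5) (nat_lit 346)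 (nat_lit 5) (nat_lit 347) (nat_lit 5) (nat_lit 579) (nat_lit 520) (nat_lit 461)) (XT.lf (nat_lit 0) (nat_lit 7531832486) (nat_lit 684) (nat_lit 293016620) (nat_lit 760) (nat_lit 931021299) (nat_lit 337) (nat_lit 5) (nat_lit 346) (nat_lit 5) (nat_lit 347) (nat_lit 5) (nat_lit 580) (nat_lit 520) (nat_lit 460))))))))
noncomputable def xc67 : XT := (XT.nd (nat_lit 1560) (nat_lit 5624) (nat_lit 0) (XT.nd (nat_lit 780) (nat_lit 3876) (nat_lit 0) (XT.nd (nat_lit 390) (nat_lit 1900) (nat_lit 0) (XT.nd (nat_lit 156) (nat_lit 1368) (nat_lit 0) (XT.nd (nat_lit 78) (nat_lit 684) (nat_lit 0) (XT.lf (nat_lit 0) (nat_lit 1801453968) (nat_lit 760) (nat_lit 4028320814) (nat_lit 76) (nat_lit 3005699878) (nat_lit 327) (nat_lit 5) (nat_lit 337) (nat_lit 5) (nat_lit 328) (nat_lit 5) (nat_lit 581) (nat_lit 520) (nat_lit 459)) (XT.lf (nat_lit 0) (nat_lit 2033067903) (nat_lit 684) (nat_lit 2530175382) (nat_lit 760) (nat_lit 4353562982) (nat_lit 318) (nat_lit 5) (nat_lit 327) (nat_lit 5) (nat_lit 328) (nat_lit 5) (nat_lit 582) (nat_lit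 520) (nat_lit 458))) (XT.nd (nat_lit 78) (nat_lit 1368) (nat_lit 0) (XT.lf (nat_lit 0) (nat_lit 7376984533) (nat_lit 760) (nat_lit 779399484) (nat_lit 76) (nat_lit 843447114) (nat_lit 318) (nat_lit 5) (nat_lit 328) (nat_lit 5) (nat_lit 319) (nat_lit 5) (nat_lit 583) (nat_lit 520) (nat_lit 457)) (XT.nd (nat_lit 78) (nat_lit 608) (nat_lit 0) (XT.lf (nat_lit 0) (nat_lit 1164326864) (nat_lit 760) (nat_lit 3633969170) (nat_lit 76) (nat_lit 4285728640) (nat_lit 308) (nat_lit 5) (nat_lit 318) (nat_lit 5) (nat_lit 309) (nat_lit 5) (nat_lit 584) (nat_lit 520) (nat_lit 456)) (XT.lf (nat_lit 0) (nat_lit 2624344443) (nat_lit 608) (nat_lit 1348454132) (nat_lit 684) (nat_lit 5197144171) (nat_lit 300) (nat_lit 5) (nat_lit 308) (nat_lit 5) (nat_lit 309) (nat_lit 5) (nat_lit 585) (nat_lit 520) (nat_lit 455))))) (XT.nd (nat_lit 156) (nat_lit 1216) (nat_lit 0) (XT.nd (nat_lit 78) (nat_lit 684) (nat_lit 0) (XT.lf (nat_lit 0) (nat_lit 6841381502) (nat_lit 684) (nat_lit 258763373) (nat_lit 76) (nat_lit 2157356345) (nat_lit 300)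 (nat_lit 5) (nat_lit 309) (nat_lit 5) (nat_lit 301) (nat_lit 5) (nat_lit 586) (nat_lit 520) (nat_lit 454)) (XT.lf (nat_lit 0) (nat_lit 430161951) (nat_lit 684) (nat_lit 3167010175) (nat_lit 76) (nat_lit 5749281932) (nat_lit 291) (nat_lit 5) (nat_lit 300) (nat_lit 5) (nat_lit 292) (nat_lit 5) (nat_lit 587) (nat_lit 520) (nat_lit 453))) (XT.nd (nat_lit 78) (nat_lit 608) (nat_lit 0) (XT.lf (nat_lit 0) (nat_lit 3290379918) (nat_lit 684) (nat_lit 6140922986) (nat_lit 76) (nat_lit 5777214) (nat_lit 283) (nat_lit 5) (nat_lit 292) (nat_lit 5) (nat_lit 284) (nat_lit 5) (nat_lit 588) (nat_lit 520) (nat_lit 452)) (XT.nd (nat_lit 78) (nat_lit 0) (nat_lit 0) (XT.lf (nat_lit 0) (nat_lit 338793350) (nat_lit 608) (nat_lit 5882885393) (nat_lit 684) (nat_lit 3307563236) (nat_lit 275) (nat_lit 5) (nat_lit 283) (nat_lit 5) (nat_lit 284) (nat_lit 5) (nat_lit 589) (nat_lit 520) (nat_lit 451)) (XT.lf (nat_lit 0) (nat_lit 6987525343) (nat_lit 608) (nat_lit 2232121580) (nat_lit 684) (nat_lit 403440079) (nat_lit 275) (nat_lit 5)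 (nat_lit 283) (nat_lit 5) (nat_lit 284) (nat_lit 5) (nat_lit 590) (nat_lit 520) (nat_lit 450)))))) (XT.nd (nat_lit 390) (nat_lit 1520) (nat_lit 0) (XT.nd (nat_lit 156) (nat_lit 1140) (nat_lit 0) (XT.nd (nat_lit 78) (nat_lit 608) (nat_lit 0) (XT.lf (nat_lit 0) (nat_lit 2528627804) (nat_lit 608) (nat_lit 5685063139) (nat_lit 76) (nat_lit 1504718062) (nat_lit 267) (nat_lit 5) (nat_lit 275) (nat_lit 5) (nat_lit 268) (nat_lit 5) (nat_lit 591) (nat_lit 520) (nat_lit 449)) (XT.lf (nat_lit 0) (nat_lit 1008033005) (nat_lit 608) (nat_lit 4512598132) (nat_lit 684) (nat_lit 4294819800) (nat_lit 259) (nat_lit 5) (nat_lit 267) (nat_lit 5) (nat_lit 268) (nat_lit 5) (nat_lit 592) (nat_lit 520) (nat_lit 448))) (XT.nd (nat_lit 78) (nat_lit 1140) (nat_lit 0) (XT.lf (nat_lit 0) (nat_lit 7868651135) (nat_lit 608) (nat_lit 709888324) (nat_lit 684) (nat_lit 1335773685) (nat_lit 259) (nat_lit 5) (nat_lit 267) (nat_lit 5) (nat_lit 268) (nat_lit 5) (nat_lit 593) (nat_lit 520) (nat_lit 447)) (XT.nd (nat_lit 78) (nat_lit 532) (nat_lit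 0) (XT.lf (nat_lit 0) (nat_lit 1681067359) (nat_lit 608) (nat_lit 5174531434) (nat_lit 76) (nat_lit 3158922440) (nat_lit 251) (nat_lit 5) (nat_lit 259) (nat_lit 5) (nat_lit 252) (nat_lit 5) (nat_lit 594) (nat_lit 520) (nat_lit 446)) (XT.lf (nat_lit 0) (nat_lit 1740571233) (nat_lit 532) (nat_lit 2998230402) (nat_lit 608) (nat_lit 5377787101) (nat_lit 244) (nat_lit 5) (nat_lit 251) (nat_lit 5) (nat_lit 252) (nat_lit 5) (nat_lit 595) (nat_lit 520) (nat_lit 445))))) (XT.nd (nat_lit 156) (nat_lit 988) (nat_lit 0) (XT.nd (nat_lit 78) (nat_lit 532) (nat_lit 0) (XT.lf (nat_lit 0) (nat_lit 7867587905) (nat_lit 608) (nat_lit 1405697572) (nat_lit 76) (nat_lit 947214844) (nat_lit 244) (nat_lit 5) (nat_lit 252) (nat_lit 5) (nat_lit 245) (nat_lit 5) (nat_lit 596) (nat_lit 520) (nat_lit 444)) (XT.lf (nat_lit 0) (nat_lit 749474044) (nat_lit 532) (nat_lit 4614397432) (nat_lit 76) (nat_lit 4961991788) (nat_lit 237) (nat_lit 5) (nat_lit 244) (nat_lit 5) (nat_lit 238) (nat_lit 5) (nat_lit 597) (nat_lit 520) (nat_lit 443)))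 (XT.nd (nat_lit 78) (nat_lit 456) (nat_lit 0) (XT.lf (nat_lit 0) (nat_lit 2531666223) (nat_lit 532) (nat_lit 1346296475) (nat_lit 608) (nat_lit 6555149151) (nat_lit 230) (nat_lit 5) (nat_lit 237) (nat_lit 5) (nat_lit 238) (nat_lit 5) (nat_lit 598) (nat_lit 520) (nat_lit 442)) (XT.nd (nat_lit 78) (nat_lit 456) (nat_lit 0) (XT.lf (nat_lit 0) (nat_lit 7087894094) (nat_lit 608) (nat_lit 719770989) (nat_lit 76) (nat_lit 2734463489) (nat_lit 230) (nat_lit 5) (nat_lit 238) (nat_lit 5) (nat_lit 231) (nat_lit 5) (nat_lit 599) (nat_lit 520) (nat_lit 441)) (XT.lf (nat_lit 0) (nat_lit 6641554955) (nat_lit 456) (nat_lit 3742935293) (nat_lit 532) (nat_lit 268386673) (nat_lit 224) (nat_lit 5) (nat_lit 230) (nat_lit 5) (nat_lit 231) (nat_lit 5) (nat_lit 600) (nat_lit 520) (nat_lit 440))))))) (XT.nd (nat_lit 780) (nat_lit 2432) (nat_lit 0) (XT.nd (nat_lit 390) (nat_lit 1292) (nat_lit 0) (XT.nd (nat_lit 156) (nat_lit 912) (nat_lit 0) (XT.nd (nat_lit 78) (nat_lit 456) (nat_lit 0) (XT.lf (nat_lit 0) (nat_lit 2942247140) (nat_lit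 532) (nat_lit 7391613518) (nat_lit 76) (nat_lit 431589696) (nat_lit 217) (nat_lit 5) (nat_lit 224) (nat_lit 5) (nat_lit 218) (nat_lit 5) (nat_lit 601) (nat_lit 520) (nat_lit 439)) (XT.lf (nat_lit 0) (nat_lit 12245639) (nat_lit 456) (nat_lit 6223984864) (nat_lit 532) (nat_lit 4643555240) (nat_lit 211) (nat_lit 5) (nat_lit 217) (nat_lit 5) (nat_lit 218) (nat_lit 5) (nat_lit 602) (nat_lit 520) (nat_lit 438))) (XT.nd (nat_lit 78) (nat_lit 912) (nat_lit 0) (XT.lf (nat_lit 0) (nat_lit 7622148807) (nat_lit 456) (nat_lit 1994609136) (nat_lit 532) (nat_lit 1379237174) (nat_lit 211) (nat_lit 5) (nat_lit 217) (nat_lit 5) (nat_lit 218) (nat_lit 5) (nat_lit 603) (nat_lit 520) (nat_lit 437)) (XT.nd (nat_lit 78) (nat_lit 380) (nat_lit 0) (XT.lf (nat_lit 0) (nat_lit 1939202142) (nat_lit 532) (nat_lit 6858236337) (nat_lit 76) (nat_lit 2316549197) (nat_lit 204) (nat_lit 5) (nat_lit 211) (nat_lit 5) (nat_lit 205) (nat_lit 5) (nat_lit 604) (nat_lit 520) (nat_lit 436)) (XT.lf (nat_lit 0) (nat_lit 795744513) (nat_lit 380) (nat_lit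 4522627358) (nat_lit 456) (nat_lit 5915529822) (nat_lit 199) (nat_lit 5) (nat_lit 204) (nat_lit 5) (nat_lit 205) (nat_lit 5) (nat_lit 605) (nat_lit 520) (nat_lit 435))))) (XT.nd (nat_lit 156) (nat_lit 760) (nat_lit 0) (XT.nd (nat_lit 78) (nat_lit 532) (nat_lit 0) (XT.lf (nat_lit 0) (nat_lit 8654060833) (nat_lit 380) (nat_lit 129017984) (nat_lit 456) (nat_lit 2572776620) (nat_lit 199) (nat_lit 5) (nat_lit 204) (nat_lit 5) (nat_lit 205) (nat_lit 5) (nat_lit 606) (nat_lit 520) (nat_lit 434)) (XT.lf (nat_lit 0) (nat_lit 860419503) (nat_lit 532) (nat_lit 6297504263) (nat_lit 76) (nat_lit 4321525066) (nat_lit 192) (nat_lit 5) (nat_lit 199) (nat_lit 5) (nat_lit 193) (nat_lit 5) (nat_lit 607) (nat_lit 520) (nat_lit 433))) (XT.nd (nat_lit 78) (nat_lit 380) (nat_lit 0) (XT.lf (nat_lit 0) (nat_lit 1616569830) (nat_lit 380) (nat_lit 2713381264) (nat_lit 456) (nat_lit 7275180953) (nat_lit 187) (nat_lit 5) (nat_lit 192) (nat_lit 5) (nat_lit 193) (nat_lit 5) (nat_lit 608) (nat_lit 520) (nat_lit 432)) (XT.nd (nat_lit 78)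 (nat_lit 380) (nat_lit 0) (XT.lf (nat_lit 0) (nat_lit 7895899372) (nat_lit 456) (nat_lit 2011922550) (nat_lit 76) (nat_lit 1824966966) (nat_lit 187) (nat_lit 5) (nat_lit 193) (nat_lit 5) (nat_lit 188) (nat_lit 5) (nat_lit 609) (nat_lit 520) (nat_lit 431)) (XT.lf (nat_lit 0) (nat_lit 6146071944) (nat_lit 380) (nat_lit 5418173985) (nat_lit 456) (nat_lit 298131827) (nat_lit 182) (nat_lit 5) (nat_lit 187) (nat_lit 5) (nat_lit 188) (nat_lit 5) (nat_lit 610) (nat_lit 520) (nat_lit 430)))))) (XT.nd (nat_lit 390) (nat_lit 1140) (nat_lit 0) (XT.nd (nat_lit 156) (nat_lit 836) (nat_lit 0) (XT.nd (nat_lit 78) (nat_lit 0) (nat_lit 0) (XT.lf (nat_lit 0) (nat_lit 2470114596) (nat_lit 380) (nat_lit 800776373) (nat_lit 456) (nat_lit 8723179497) (nat_lit 176) (nat_lit 5) (nat_lit 181) (nat_lit 5) (nat_lit 182) (nat_lit 5) (nat_lit 611) (nat_lit 520) (nat_lit 429)) (XT.lf (nat_lit 0) (nat_lit 6944758311) (nat_lit 456) (nat_lit 1298558939) (nat_lit 76) (nat_lit 3884291696) (nat_lit 176) (nat_lit 5) (nat_lit 182) (nat_lit 5)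 (nat_lit 177) (nat_lit 5) (nat_lit 612) (nat_lit 520) (nat_lit 428))) (XT.nd (nat_lit 78) (nat_lit 456) (nat_lit 0) (XT.lf (nat_lit 0) (nat_lit 7139412259) (nat_lit 380) (nat_lit 3578327364) (nat_lit 456) (nat_lit 1545566275) (nat_lit 171) (nat_lit 5) (nat_lit 176) (nat_lit 5) (nat_lit 177) (nat_lit 5) (nat_lit 613) (nat_lit 520) (nat_lit 427)) (XT.nd (nat_lit 78) (nat_lit 0) (nat_lit 0) (XT.lf (nat_lit 0) (nat_lit 2148531579) (nat_lit 456) (nat_lit 9057502561) (nat_lit 76) (nat_lit 1195152906) (nat_lit 165) (nat_lit 5) (nat_lit 171) (nat_lit 5) (nat_lit 166) (nat_lit 5) (nat_lit 614) (nat_lit 520) (nat_lit 426)) (XT.lf (nat_lit 0) (nat_lit 5928358954) (nat_lit 456) (nat_lit 565729887) (nat_lit 76) (nat_lit 6046882210) (nat_lit 165) (nat_lit 5) (nat_lit 171) (nat_lit 5) (nat_lit 166) (nat_lit 5) (nat_lit 615) (nat_lit 520) (nat_lit 425))))) (XT.nd (nat_lit 234) (nat_lit 0) (nat_lit 0) (XT.nd (nat_lit 78) (nat_lit 760) (nat_lit 0) (XT.lf (nat_lit 0) (nat_lit 8163233781) (nat_lit 380) (nat_lit 1648269915)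 (nat_lit 456) (nat_lit 2871493029) (nat_lit 160) (nat_lit 5) (nat_lit 165) (nat_lit 5) (nat_lit 166) (nat_lit 5) (nat_lit 616) (nat_lit 520) (nat_lit 424)) (XT.nd (nat_lit 78) (nat_lit 380) (nat_lit 0) (XT.lf (nat_lit 0) (nat_lit 959856838) (nat_lit 380) (nat_lit 8592614110) (nat_lit 76) (nat_lit 3274713813) (nat_lit 155) (nat_lit 5) (nat_lit 160) (nat_lit 5) (nat_lit 156) (nat_lit 5) (nat_lit 617) (nat_lit 520) (nat_lit 423)) (XT.lf (nat_lit 0) (nat_lit 183962709) (nat_lit 380) (nat_lit 4663034851) (nat_lit 456) (nat_lit 8126527505) (nat_lit 150) (nat_lit 5) (nat_lit 155) (nat_lit 5) (nat_lit 156) (nat_lit 5) (nat_lit 618) (nat_lit 520) (nat_lit 422)))) (XT.nd (nat_lit 73554) (nat_lit 0) (nat_lit 48564) (XT.lf (nat_lit 0) (nat_lit 8847102669) (nat_lit 456) (nat_lit 3911641940) (nat_lit 76) (nat_lit 363343508) (nat_lit 150) (nat_lit 5) (nat_lit 156) (nat_lit 5) (nat_lit 151) (nat_lit 5) (nat_lit 619) (nat_lit 520) (nat_lit 421)) (XT.nd (nat_lit 78) (nat_lit 228) (nat_lit 0) (XT.lf (nat_lit 0) (nat_lit 1584859345)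 (nat_lit 0) (nat_lit 1584859345) (nat_lit 76) (nat_lit 52347407) (nat_lit 792) (nat_lit 5) (nat_lit 792) (nat_lit 3) (nat_lit 793) (nat_lit 0) (nat_lit 521) (nat_lit 521) (nat_lit 518)) (XT.lf (nat_lit 0) (nat_lit 2982678932) (nat_lit 228) (nat_lit 61339502) (nat_lit 228) (nat_lit 3402648394) (nat_lit 789) (nat_lit 3) (nat_lit 792) (nat_lit 3) (nat_lit 792) (nat_lit 5) (nat_lit 522) (nat_lit 521) (nat_lit 517))))))))
noncomputable def xc68 : XT := (XT.nd (nat_lit 1560) (nat_lit 19456) (nat_lit 0) (XT.nd (nat_lit 780) (nat_lit 3724) (nat_lit 0) (XT.nd (nat_lit 390) (nat_lit 1292) (nat_lit 0) (XT.nd (nat_lit 156) (nat_lit 304) (nat_lit 0) (XT.nd (nat_lit 78) (nat_lit 228) (nat_lit 0) (XT.lf (nat_lit 76) (nat_lit 3216184373) (nat_lit 0) (nat_lit 2854122819) (nat_lit 228) (nat_lit 380137653) (nat_lit 790) (nat_lit 5) (nat_lit 789) (nat_lit 3) (nat_lit 792) (nat_lit 5) (nat_lit 523) (nat_lit 521) (nat_lit 516)) (XT.lf (nat_lit 76) (nat_lit 46352921) (nat_lit 0) (nat_lit 2603298667) (nat_lit 304) (nat_lit 3805881661)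 (nat_lit 787) (nat_lit 5) (nat_lit 786) (nat_lit 5) (nat_lit 790) (nat_lit 5) (nat_lit 524) (nat_lit 521) (nat_lit 515))) (XT.nd (nat_lit 78) (nat_lit 304) (nat_lit 0) (XT.lf (nat_lit 76) (nat_lit 3392048328) (nat_lit 0) (nat_lit 2285706030) (nat_lit 304) (nat_lit 784067097) (nat_lit 787) (nat_lit 5) (nat_lit 786) (nat_lit 5) (nat_lit 790) (nat_lit 5) (nat_lit 525) (nat_lit 521) (nat_lit 514)) (XT.nd (nat_lit 78) (nat_lit 0) (nat_lit 0) (XT.lf (nat_lit 76) (nat_lit 283175300) (nat_lit 0) (nat_lit 1908852204) (nat_lit 380) (nat_lit 4277434068) (nat_lit 783) (nat_lit 5) (nat_lit 782) (nat_lit 5) (nat_lit 787) (nat_lit 5) (nat_lit 526) (nat_lit 521) (nat_lit 513)) (XT.lf (nat_lit 76) (nat_lit 3697769875) (nat_lit 0) (nat_lit 1463352582) (nat_lit 380) (nat_lit 1317153025) (nat_lit 783) (nat_lit 5) (nat_lit 782) (nat_lit 5) (nat_lit 787) (nat_lit 5) (nat_lit 527) (nat_lit 521) (nat_lit 512))))) (XT.nd (nat_lit 156) (nat_lit 912) (nat_lit 0) (XT.nd (nat_lit 78) (nat_lit 0) (nat_lit 0) (XT.lf (nat_lit 76) (nat_lit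 648895674) (nat_lit 0) (nat_lit 959726833) (nat_lit 456) (nat_lit 4879853827) (nat_lit 778) (nat_lit 5) (nat_lit 777) (nat_lit 5) (nat_lit 783) (nat_lit 5) (nat_lit 528) (nat_lit 521) (nat_lit 511)) (XT.lf (nat_lit 76) (nat_lit 4134059981) (nat_lit 0) (nat_lit 385448582) (nat_lit 456) (nat_lit 1980317824) (nat_lit 778) (nat_lit 5) (nat_lit 777) (nat_lit 5) (nat_lit 783) (nat_lit 5) (nat_lit 529) (nat_lit 521) (nat_lit 510))) (XT.nd (nat_lit 78) (nat_lit 532) (nat_lit 0) (XT.lf (nat_lit 0) (nat_lit 900005015) (nat_lit 456) (nat_lit 5369847991) (nat_lit 76) (nat_lit 242715086) (nat_lit 772) (nat_lit 5) (nat_lit 778) (nat_lit 5) (nat_lit 773) (nat_lit 5) (nat_lit 530) (nat_lit 521) (nat_lit 509)) (XT.nd (nat_lit 78) (nat_lit 532) (nat_lit 0) (XT.lf (nat_lit 0) (nat_lit 3757930501) (nat_lit 456) (nat_lit 1830786147) (nat_lit 76) (nat_lit 937659649) (nat_lit 772) (nat_lit 5) (nat_lit 778) (nat_lit 5) (nat_lit 773) (nat_lit 5) (nat_lit 531) (nat_lit 521) (nat_lit 508)) (XT.lf (nat_lit 0) (nat_lit 71212475) (nat_lit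 532) (nat_lit 4782344501) (nat_lit 76) (nat_lit 1688082109) (nat_lit 765) (nat_lit 5) (nat_lit 772) (nat_lit 5) (nat_lit 766) (nat_lit 5) (nat_lit 532) (nat_lit 521) (nat_lit 507)))))) (XT.nd (nat_lit 390) (nat_lit 1748) (nat_lit 0) (XT.nd (nat_lit 156) (nat_lit 1444) (nat_lit 0) (XT.nd (nat_lit 78) (nat_lit 532) (nat_lit 0) (XT.lf (nat_lit 0) (nat_lit 2873010954) (nat_lit 532) (nat_lit 1172402200) (nat_lit 76) (nat_lit 2512583159) (nat_lit 765) (nat_lit 5) (nat_lit 772) (nat_lit 5) (nat_lit 766) (nat_lit 5) (nat_lit 533) (nat_lit 521) (nat_lit 506)) (XT.lf (nat_lit 0) (nat_lit 2500356013) (nat_lit 532) (nat_lit 3178110593) (nat_lit 608) (nat_lit 897265089) (nat_lit 758) (nat_lit 5) (nat_lit 765) (nat_lit 5) (nat_lit 766) (nat_lit 5) (nat_lit 534) (nat_lit 521) (nat_lit 505))) (XT.nd (nat_lit 78) (nat_lit 1368) (nat_lit 0) (XT.lf (nat_lit 0) (nat_lit 1860614184) (nat_lit 608) (nat_lit 386695945) (nat_lit 76) (nat_lit 4347463646) (nat_lit 757) (nat_lit 5) (nat_lit 765) (nat_lit 5) (nat_lit 758) (nat_lit 5)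 (nat_lit 535) (nat_lit 521) (nat_lit 504)) (XT.nd (nat_lit 78) (nat_lit 760) (nat_lit 0) (XT.lf (nat_lit 0) (nat_lit 3372074982) (nat_lit 608) (nat_lit 1244809747) (nat_lit 684) (nat_lit 1998091625) (nat_lit 749) (nat_lit 5) (nat_lit 757) (nat_lit 5) (nat_lit 758) (nat_lit 5) (nat_lit 536) (nat_lit 521) (nat_lit 503)) (XT.lf (nat_lit 0) (nat_lit 535014391) (nat_lit 684) (nat_lit 187314427) (nat_lit 760) (nat_lit 5914353791) (nat_lit 739) (nat_lit 5) (nat_lit 748) (nat_lit 5) (nat_lit 749) (nat_lit 5) (nat_lit 537) (nat_lit 521) (nat_lit 502))))) (XT.nd (nat_lit 156) (nat_lit 988) (nat_lit 0) (XT.nd (nat_lit 78) (nat_lit 760) (nat_lit 0) (XT.lf (nat_lit 0) (nat_lit 3433231114) (nat_lit 760) (nat_lit 2288846475) (nat_lit 76) (nat_lit 937227747) (nat_lit 739) (nat_lit 5) (nat_lit 749) (nat_lit 5) (nat_lit 740) (nat_lit 5) (nat_lit 538) (nat_lit 521) (nat_lit 501)) (XT.lf (nat_lit 0) (nat_lit 1576786794) (nat_lit 760) (nat_lit 4569425128) (nat_lit 836) (nat_lit 537214374) (nat_lit 729) (nat_lit 5) (nat_lit 739)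 (nat_lit 5) (nat_lit 740) (nat_lit 5) (nat_lit 539) (nat_lit 521) (nat_lit 500))) (XT.nd (nat_lit 78) (nat_lit 912) (nat_lit 0) (XT.lf (nat_lit 0) (nat_lit 2128894696) (nat_lit 836) (nat_lit 1214827723) (nat_lit 76) (nat_lit 3364975818) (nat_lit 728) (nat_lit 5) (nat_lit 739) (nat_lit 5) (nat_lit 729) (nat_lit 5) (nat_lit 540) (nat_lit 521) (nat_lit 499)) (XT.nd (nat_lit 78) (nat_lit 76) (nat_lit 0) (XT.lf (nat_lit 0) (nat_lit 2744668126) (nat_lit 836) (nat_lit 2052463469) (nat_lit 912) (nat_lit 1938155841) (nat_lit 717) (nat_lit 5) (nat_lit 728) (nat_lit 5) (nat_lit 729) (nat_lit 5) (nat_lit 541) (nat_lit 521) (nat_lit 498)) (XT.lf (nat_lit 0) (nat_lit 693315245) (nat_lit 912) (nat_lit 10517092) (nat_lit 76) (nat_lit 6059542384) (nat_lit 716) (nat_lit 5) (nat_lit 728) (nat_lit 5) (nat_lit 717) (nat_lit 5) (nat_lit 542) (nat_lit 521) (nat_lit 497))))))) (XT.nd (nat_lit 780) (nat_lit 11248) (nat_lit 0) (XT.nd (nat_lit 390) (nat_lit 3952) (nat_lit 0) (XT.nd (nat_lit 156) (nat_lit 2356) (nat_lit 0) (XT.nd (nat_lit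 78) (nat_lit 988) (nat_lit 0) (XT.lf (nat_lit 0) (nat_lit 3322406664) (nat_lit 988) (nat_lit 2750034242) (nat_lit 76) (nat_lit 719910420) (nat_lit 704) (nat_lit 5) (nat_lit 717) (nat_lit 5) (nat_lit 705) (nat_lit 5) (nat_lit 543) (nat_lit 521) (nat_lit 496)) (XT.lf (nat_lit 0) (nat_lit 1323842793) (nat_lit 988) (nat_lit 4634487277) (nat_lit 1064) (nat_lit 864494992) (nat_lit 691) (nat_lit 5) (nat_lit 704) (nat_lit 5) (nat_lit 705) (nat_lit 5) (nat_lit 544) (nat_lit 521) (nat_lit 495))) (XT.nd (nat_lit 78) (nat_lit 2280) (nat_lit 0) (XT.lf (nat_lit 0) (nat_lit 1729537560) (nat_lit 1064) (nat_lit 1392627041) (nat_lit 76) (nat_lit 3732313534) (nat_lit 690) (nat_lit 5) (nat_lit 704) (nat_lit 5) (nat_lit 691) (nat_lit 5) (nat_lit 545) (nat_lit 521) (nat_lit 494)) (XT.nd (nat_lit 78) (nat_lit 1216) (nat_lit 0) (XT.lf (nat_lit 0) (nat_lit 2783698983) (nat_lit 1064) (nat_lit 1540823233) (nat_lit 1140) (nat_lit 2562917279) (nat_lit 676) (nat_lit 5) (nat_lit 690) (nat_lit 5) (nat_lit 691) (nat_lit 5) (nat_lit 546)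 (nat_lit 521) (nat_lit 493)) (XT.lf (nat_lit 0) (nat_lit 3396258) (nat_lit 1216) (nat_lit 6823570037) (nat_lit 76) (nat_lit 95015406) (nat_lit 660) (nat_lit 5) (nat_lit 676) (nat_lit 5) (nat_lit 661) (nat_lit 5) (nat_lit 547) (nat_lit 521) (nat_lit 492))))) (XT.nd (nat_lit 156) (nat_lit 2736) (nat_lit 0) (XT.nd (nat_lit 78) (nat_lit 1216) (nat_lit 0) (XT.lf (nat_lit 0) (nat_lit 2568631493) (nat_lit 1216) (nat_lit 2588129692) (nat_lit 76) (nat_lit 1800478802) (nat_lit 660) (nat_lit 5) (nat_lit 676) (nat_lit 5) (nat_lit 661) (nat_lit 5) (nat_lit 548) (nat_lit 521) (nat_lit 491)) (XT.lf (nat_lit 0) (nat_lit 1710988387) (nat_lit 1216) (nat_lit 3430346868) (nat_lit 1292) (nat_lit 1852747172) (nat_lit 644) (nat_lit 5) (nat_lit 660) (nat_lit 5) (nat_lit 661) (nat_lit 5) (nat_lit 549) (nat_lit 521) (nat_lit 490))) (XT.nd (nat_lit 78) (nat_lit 2660) (nat_lit 0) (XT.lf (nat_lit 0) (nat_lit 687180906) (nat_lit 1292) (nat_lit 948933865) (nat_lit 76) (nat_lit 5396194356) (nat_lit 643) (nat_lit 5) (nat_lit 660) (nat_lit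 5) (nat_lit 644) (nat_lit 5) (nat_lit 550) (nat_lit 521) (nat_lit 489)) (XT.nd (nat_lit 78) (nat_lit 1368) (nat_lit 0) (XT.lf (nat_lit 0) (nat_lit 3223717105) (nat_lit 1368) (nat_lit 3611239736) (nat_lit 76) (nat_lit 236688366) (nat_lit 626) (nat_lit 5) (nat_lit 644) (nat_lit 5) (nat_lit 627) (nat_lit 5) (nat_lit 551) (nat_lit 521) (nat_lit 488)) (XT.lf (nat_lit 0) (nat_lit 815079418) (nat_lit 1368) (nat_lit 4965836256) (nat_lit 1444) (nat_lit 1331455794) (nat_lit 608) (nat_lit 5) (nat_lit 626) (nat_lit 5) (nat_lit 627) (nat_lit 5) (nat_lit 552) (nat_lit 521) (nat_lit 487)))))) (XT.nd (nat_lit 390) (nat_lit 6536) (nat_lit 0) (XT.nd (nat_lit 156) (nat_lit 3192) (nat_lit 0) (XT.nd (nat_lit 78) (nat_lit 1444) (nat_lit 0) (XT.lf (nat_lit 0) (nat_lit 1191335339) (nat_lit 1444) (nat_lit 1827026644) (nat_lit 76) (nat_lit 4135948046) (nat_lit 607) (nat_lit 5) (nat_lit 626) (nat_lit 5) (nat_lit 608) (nat_lit 5) (nat_lit 553) (nat_lit 521) (nat_lit 486)) (XT.lf (nat_lit 0) (nat_lit 2716021966) (nat_lit 1444) (nat_lit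 997203958) (nat_lit 1520) (nat_lit 3484357956) (nat_lit 588) (nat_lit 5) (nat_lit 607) (nat_lit 5) (nat_lit 608) (nat_lit 5) (nat_lit 554) (nat_lit 521) (nat_lit 485))) (XT.nd (nat_lit 78) (nat_lit 1672) (nat_lit 0) (XT.lf (nat_lit 0) (nat_lit 83119176) (nat_lit 1520) (nat_lit 6171818813) (nat_lit 1596) (nat_lit 987399479) (nat_lit 568) (nat_lit 5) (nat_lit 588) (nat_lit 5) (nat_lit 589) (nat_lit 5) (nat_lit 555) (nat_lit 521) (nat_lit 484)) (XT.nd (nat_lit 78) (nat_lit 1596) (nat_lit 0) (XT.lf (nat_lit 0) (nat_lit 1525886001) (nat_lit 1596) (nat_lit 2549044987) (nat_lit 76) (nat_lit 3213117674) (nat_lit 567) (nat_lit 5) (nat_lit 588) (nat_lit 5) (nat_lit 568) (nat_lit 5) (nat_lit 556) (nat_lit 521) (nat_lit 483)) (XT.lf (nat_lit 0) (nat_lit 2131041201) (nat_lit 1596) (nat_lit 1909968431) (nat_lit 1672) (nat_lit 3294239863) (nat_lit 546) (nat_lit 5) (nat_lit 567) (nat_lit 5) (nat_lit 568) (nat_lit 5) (nat_lit 557) (nat_lit 521) (nat_lit 482))))) (XT.nd (nat_lit 234) (nat_lit 3040) (nat_lit 0) (XT.nd (nat_lit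 78) (nat_lit 3496) (nat_lit 0) (XT.lf (nat_lit 0) (nat_lit 6577248603) (nat_lit 1672) (nat_lit 490234643) (nat_lit 76) (nat_lit 316496627) (nat_lit 546) (nat_lit 5) (nat_lit 568) (nat_lit 5) (nat_lit 547) (nat_lit 5) (nat_lit 558) (nat_lit 521) (nat_lit 481)) (XT.nd (nat_lit 78) (nat_lit 1748) (nat_lit 0) (XT.lf (nat_lit 0) (nat_lit 1701077619) (nat_lit 1748) (nat_lit 3126548577) (nat_lit 76) (nat_lit 2605970740) (nat_lit 523) (nat_lit 5) (nat_lit 546) (nat_lit 5) (nat_lit 524) (nat_lit 5) (nat_lit 559) (nat_lit 521) (nat_lit 480)) (XT.lf (nat_lit 0) (nat_lit 1695773527) (nat_lit 1748) (nat_lit 2519741239) (nat_lit 1824) (nat_lit 3269241122) (nat_lit 500) (nat_lit 5) (nat_lit 523) (nat_lit 5) (nat_lit 524) (nat_lit 5) (nat_lit 560) (nat_lit 521) (nat_lit 479)))) (XT.nd (nat_lit 78) (nat_lit 3040) (nat_lit 0) (XT.lf (nat_lit 0) (nat_lit 6613327768) (nat_lit 1748) (nat_lit 141475828) (nat_lit 1824) (nat_lit 782644816) (nat_lit 500) (nat_lit 5) (nat_lit 523) (nat_lit 5) (nat_lit 524) (nat_lit 5) (nat_lit 561)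 (nat_lit 521) (nat_lit 478)) (XT.nd (nat_lit 78) (nat_lit 1140) (nat_lit 0) (XT.lf (nat_lit 0) (nat_lit 1726175276) (nat_lit 1900) (nat_lit 3570220077) (nat_lit 76) (nat_lit 2294663464) (nat_lit 475) (nat_lit 5) (nat_lit 500) (nat_lit 5) (nat_lit 476) (nat_lit 5) (nat_lit 562) (nat_lit 521) (nat_lit 477)) (XT.lf (nat_lit 0) (nat_lit 1399819355) (nat_lit 1140) (nat_lit 2845972259) (nat_lit 1216) (nat_lit 3400425916) (nat_lit 460) (nat_lit 5) (nat_lit 475) (nat_lit 5) (nat_lit 476) (nat_lit 5) (nat_lit 563) (nat_lit 521) (nat_lit 476))))))))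
noncomputable def xc69 : XT := (XT.nd (nat_lit 1560) (nat_lit 8208) (nat_lit 0) (XT.nd (nat_lit 780) (nat_lit 5320) (nat_lit 0) (XT.nd (nat_lit 390) (nat_lit 2660) (nat_lit 0) (XT.nd (nat_lit 156) (nat_lit 1824) (nat_lit 0) (XT.nd (nat_lit 78) (nat_lit 988) (nat_lit 0) (XT.lf (nat_lit 0) (nat_lit 6473959162) (nat_lit 1140) (nat_lit 321223095) (nat_lit 1216) (nat_lit 907711046) (nat_lit 460) (nat_lit 5) (nat_lit 475) (nat_lit 5) (nat_lit 476) (nat_lit 5) (nat_lit 564) (nat_lit 521) (nat_lit 475)) (XT.lf (nat_lit 0) (nat_lit 1609528602) (nat_lit 988) (nat_lit 3889940133) (nat_lit 76) (nat_lit 2261100792) (nat_lit 447) (nat_lit 5) (nat_lit 460) (nat_lit 5) (nat_lit 448) (nat_lit 5) (nat_lit 565) (nat_lit 521) (nat_lit 474))) (XT.nd (nat_lit 78) (nat_lit 912) (nat_lit 0) (XT.lf (nat_lit 0) (nat_lit 1233583067) (nat_lit 912) (nat_lit 2906416389) (nat_lit 988) (nat_lit 3679780444) (nat_lit 435) (nat_lit 5) (nat_lit 447) (nat_lit 5) (nat_lit 448) (nat_lit 5) (nat_lit 566) (nat_lit 521) (nat_lit 473)) (XT.nd (nat_lit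 78) (nat_lit 912) (nat_lit 0) (XT.lf (nat_lit 0) (nat_lit 6468584707) (nat_lit 912) (nat_lit 235757196) (nat_lit 988) (nat_lit 1176168743) (nat_lit 435) (nat_lit 5) (nat_lit 447) (nat_lit 5) (nat_lit 448) (nat_lit 5) (nat_lit 567) (nat_lit 521) (nat_lit 472)) (XT.lf (nat_lit 0) (nat_lit 1358630250) (nat_lit 912) (nat_lit 4094857716) (nat_lit 76) (nat_lit 2488806890) (nat_lit 423) (nat_lit 5) (nat_lit 435) (nat_lit 5) (nat_lit 424) (nat_lit 5) (nat_lit 568) (nat_lit 521) (nat_lit 471))))) (XT.nd (nat_lit 156) (nat_lit 1748) (nat_lit 0) (XT.nd (nat_lit 78) (nat_lit 0) (nat_lit 0) (XT.lf (nat_lit 0) (nat_lit 1188203239) (nat_lit 912) (nat_lit 2717260150) (nat_lit 988) (nat_lit 4100155459) (nat_lit 411) (nat_lit 5) (nat_lit 423) (nat_lit 5) (nat_lit 424) (nat_lit 5) (nat_lit 569) (nat_lit 521) (nat_lit 470)) (XT.lf (nat_lit 0) (nat_lit 6490150006) (nat_lit 988) (nat_lit 1482376266) (nat_lit 76) (nat_lit 97946014) (nat_lit 411) (nat_lit 5) (nat_lit 424) (nat_lit 5) (nat_lit 412) (nat_lit 5) (nat_lit 570) (nat_lit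 521) (nat_lit 469))) (XT.nd (nat_lit 78) (nat_lit 836) (nat_lit 0) (XT.lf (nat_lit 0) (nat_lit 980169054) (nat_lit 912) (nat_lit 4193456268) (nat_lit 76) (nat_lit 2962805292) (nat_lit 399) (nat_lit 5) (nat_lit 411) (nat_lit 5) (nat_lit 400) (nat_lit 5) (nat_lit 571) (nat_lit 521) (nat_lit 468)) (XT.nd (nat_lit 78) (nat_lit 0) (nat_lit 0) (XT.lf (nat_lit 0) (nat_lit 1255487019) (nat_lit 836) (nat_lit 2293238943) (nat_lit 912) (nat_lit 4655214130) (nat_lit 388) (nat_lit 5) (nat_lit 399) (nat_lit 5) (nat_lit 400) (nat_lit 5) (nat_lit 572) (nat_lit 521) (nat_lit 467)) (XT.lf (nat_lit 0) (nat_lit 6161477763) (nat_lit 912) (nat_lit 1450701556) (nat_lit 76) (nat_lit 660765165) (nat_lit 388) (nat_lit 5) (nat_lit 400) (nat_lit 5) (nat_lit 389) (nat_lit 5) (nat_lit 573) (nat_lit 521) (nat_lit 466)))))) (XT.nd (nat_lit 390) (nat_lit 2128) (nat_lit 0) (XT.nd (nat_lit 156) (nat_lit 1596) (nat_lit 0) (XT.nd (nat_lit 78) (nat_lit 760) (nat_lit 0) (XT.lf (nat_lit 0) (nat_lit 480078177) (nat_lit 836) (nat_lit 4193616120)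 (nat_lit 76) (nat_lit 3669507903) (nat_lit 377) (nat_lit 5) (nat_lit 388) (nat_lit 5) (nat_lit 378) (nat_lit 5) (nat_lit 574) (nat_lit 521) (nat_lit 465)) (XT.lf (nat_lit 0) (nat_lit 1427848193) (nat_lit 760) (nat_lit 1647745698) (nat_lit 836) (nat_lit 5339384925) (nat_lit 367) (nat_lit 5) (nat_lit 377) (nat_lit 5) (nat_lit 378) (nat_lit 5) (nat_lit 575) (nat_lit 521) (nat_lit 464))) (XT.nd (nat_lit 78) (nat_lit 1596) (nat_lit 0) (XT.lf (nat_lit 0) (nat_lit 5722447639) (nat_lit 836) (nat_lit 1322716524) (nat_lit 76) (nat_lit 1443039359) (nat_lit 367) (nat_lit 5) (nat_lit 378) (nat_lit 5) (nat_lit 368) (nat_lit 5) (nat_lit 576) (nat_lit 521) (nat_lit 463)) (XT.nd (nat_lit 78) (nat_lit 836) (nat_lit 0) (XT.lf (nat_lit 0) (nat_lit 4459275236) (nat_lit 760) (nat_lit 3965336691) (nat_lit 836) (nat_lit 138234413) (nat_lit 357) (nat_lit 5) (nat_lit 367) (nat_lit 5) (nat_lit 368) (nat_lit 5) (nat_lit 577) (nat_lit 521) (nat_lit 462)) (XT.lf (nat_lit 0) (nat_lit 1698248525) (nat_lit 760) (nat_lit 792931669) (nat_lit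 836) (nat_lit 6147819214) (nat_lit 346) (nat_lit 5) (nat_lit 356) (nat_lit 5) (nat_lit 357) (nat_lit 5) (nat_lit 578) (nat_lit 521) (nat_lit 461))))) (XT.nd (nat_lit 156) (nat_lit 1444) (nat_lit 0) (XT.nd (nat_lit 78) (nat_lit 684) (nat_lit 0) (XT.lf (nat_lit 0) (nat_lit 5178041797) (nat_lit 836) (nat_lit 1105258595) (nat_lit 76) (nat_lit 2433223705) (nat_lit 346) (nat_lit 5) (nat_lit 357) (nat_lit 5) (nat_lit 347) (nat_lit 5) (nat_lit 579) (nat_lit 521) (nat_lit 460)) (XT.lf (nat_lit 0) (nat_lit 4862420281) (nat_lit 684) (nat_lit 3056891980) (nat_lit 760) (nat_lit 876274592) (nat_lit 337) (nat_lit 5) (nat_lit 346) (nat_lit 5) (nat_lit 347) (nat_lit 5) (nat_lit 580) (nat_lit 521) (nat_lit 459))) (XT.nd (nat_lit 78) (nat_lit 684) (nat_lit 0) (XT.lf (nat_lit 0) (nat_lit 1801631351) (nat_lit 760) (nat_lit 6817842741) (nat_lit 76) (nat_lit 256787412) (nat_lit 327) (nat_lit 5) (nat_lit 337) (nat_lit 5) (nat_lit 328) (nat_lit 5) (nat_lit 581) (nat_lit 521) (nat_lit 458)) (XT.nd (nat_lit 78) (nat_lit 684) (nat_lit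 0) (XT.lf (nat_lit 0) (nat_lit 4532607751) (nat_lit 760) (nat_lit 804711173) (nat_lit 76) (nat_lit 3620890914) (nat_lit 327) (nat_lit 5) (nat_lit 337) (nat_lit 5) (nat_lit 328) (nat_lit 5) (nat_lit 582) (nat_lit 521) (nat_lit 457)) (XT.lf (nat_lit 0) (nat_lit 5356167317) (nat_lit 684) (nat_lit 1961931720) (nat_lit 760) (nat_lit 1723701126) (nat_lit 318) (nat_lit 5) (nat_lit 327) (nat_lit 5) (nat_lit 328) (nat_lit 5) (nat_lit 583) (nat_lit 521) (nat_lit 456))))))) (XT.nd (nat_lit 780) (nat_lit 3724) (nat_lit 0) (XT.nd (nat_lit 390) (nat_lit 1824) (nat_lit 0) (XT.nd (nat_lit 156) (nat_lit 1900) (nat_lit 0) (XT.nd (nat_lit 78) (nat_lit 0) (nat_lit 0) (XT.lf (nat_lit 0) (nat_lit 1015464074) (nat_lit 760) (nat_lit 6629517772) (nat_lit 76) (nat_lit 1482012018) (nat_lit 308) (nat_lit 5) (nat_lit 318) (nat_lit 5) (nat_lit 309) (nat_lit 5) (nat_lit 584) (nat_lit 521) (nat_lit 455)) (XT.lf (nat_lit 0) (nat_lit 3789890676) (nat_lit 760) (nat_lit 427055355) (nat_lit 76) (nat_lit 4996647240) (nat_lit 308) (nat_lit 5)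 (nat_lit 318) (nat_lit 5) (nat_lit 309) (nat_lit 5) (nat_lit 585) (nat_lit 521) (nat_lit 454))) (XT.nd (nat_lit 78) (nat_lit 1292) (nat_lit 0) (XT.lf (nat_lit 0) (nat_lit 5934848259) (nat_lit 608) (nat_lit 689811725) (nat_lit 684) (nat_lit 2677168459) (nat_lit 300) (nat_lit 5) (nat_lit 308) (nat_lit 5) (nat_lit 309) (nat_lit 5) (nat_lit 586) (nat_lit 521) (nat_lit 453)) (XT.nd (nat_lit 78) (nat_lit 608) (nat_lit 0) (XT.lf (nat_lit 0) (nat_lit 130714191) (nat_lit 684) (nat_lit 6376640749) (nat_lit 76) (nat_lit 2884297103) (nat_lit 291) (nat_lit 5) (nat_lit 300) (nat_lit 5) (nat_lit 292) (nat_lit 5) (nat_lit 587) (nat_lit 521) (nat_lit 452)) (XT.lf (nat_lit 0) (nat_lit 22373621) (nat_lit 608) (nat_lit 2930833538) (nat_lit 684) (nat_lit 6529825843) (nat_lit 283) (nat_lit 5) (nat_lit 291) (nat_lit 5) (nat_lit 292) (nat_lit 5) (nat_lit 588) (nat_lit 521) (nat_lit 451))))) (XT.nd (nat_lit 156) (nat_lit 1216) (nat_lit 0) (XT.nd (nat_lit 78) (nat_lit 608) (nat_lit 0) (XT.lf (nat_lit 0) (nat_lit 5846999708) (nat_lit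 684) (nat_lit 2987766269) (nat_lit 76) (nat_lit 741179404) (nat_lit 283) (nat_lit 5) (nat_lit 292) (nat_lit 5) (nat_lit 284) (nat_lit 5) (nat_lit 589) (nat_lit 521) (nat_lit 450)) (XT.lf (nat_lit 0) (nat_lit 3599991925) (nat_lit 608) (nat_lit 5209223000) (nat_lit 684) (nat_lit 861290923) (nat_lit 275) (nat_lit 5) (nat_lit 283) (nat_lit 5) (nat_lit 284) (nat_lit 5) (nat_lit 590) (nat_lit 521) (nat_lit 449))) (XT.nd (nat_lit 78) (nat_lit 608) (nat_lit 0) (XT.lf (nat_lit 0) (nat_lit 544512190) (nat_lit 532) (nat_lit 1483766854) (nat_lit 608) (nat_lit 7738578685) (nat_lit 267) (nat_lit 5) (nat_lit 274) (nat_lit 5) (nat_lit 275) (nat_lit 5) (nat_lit 591) (nat_lit 521) (nat_lit 448)) (XT.nd (nat_lit 78) (nat_lit 608) (nat_lit 0) (XT.lf (nat_lit 0) (nat_lit 4988359879) (nat_lit 608) (nat_lit 2554040902) (nat_lit 76) (nat_lit 2322137695) (nat_lit 267) (nat_lit 5) (nat_lit 275) (nat_lit 5) (nat_lit 268) (nat_lit 5) (nat_lit 592) (nat_lit 521) (nat_lit 447)) (XT.lf (nat_lit 0) (nat_lit 4251570300) (nat_lit 608) (nat_lit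 3762322856) (nat_lit 684) (nat_lit 1950155383) (nat_lit 259) (nat_lit 5) (nat_lit 267) (nat_lit 5) (nat_lit 268) (nat_lit 5) (nat_lit 593) (nat_lit 521) (nat_lit 446)))))) (XT.nd (nat_lit 390) (nat_lit 2052) (nat_lit 0) (XT.nd (nat_lit 156) (nat_lit 1064) (nat_lit 0) (XT.nd (nat_lit 78) (nat_lit 0) (nat_lit 0) (XT.lf (nat_lit 0) (nat_lit 1015099393) (nat_lit 608) (nat_lit 8937736115) (nat_lit 76) (nat_lit 112694120) (nat_lit 251) (nat_lit 5) (nat_lit 259) (nat_lit 5) (nat_lit 252) (nat_lit 5) (nat_lit 594) (nat_lit 521) (nat_lit 445)) (XT.lf (nat_lit 0) (nat_lit 4046295460) (nat_lit 608) (nat_lit 2066449279) (nat_lit 76) (nat_lit 4055383492) (nat_lit 251) (nat_lit 5) (nat_lit 259) (nat_lit 5) (nat_lit 252) (nat_lit 5) (nat_lit 595) (nat_lit 521) (nat_lit 444))) (XT.nd (nat_lit 78) (nat_lit 532) (nat_lit 0) (XT.lf (nat_lit 0) (nat_lit 4965826673) (nat_lit 532) (nat_lit 2174354448) (nat_lit 608) (nat_lit 3132557035) (nat_lit 244) (nat_lit 5) (nat_lit 251) (nat_lit 5) (nat_lit 252) (nat_lit 5) (nat_lit 596)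 (nat_lit 521) (nat_lit 443)) (XT.nd (nat_lit 78) (nat_lit 76) (nat_lit 0) (XT.lf (nat_lit 0) (nat_lit 1756765924) (nat_lit 456) (nat_lit 8546581723) (nat_lit 532) (nat_lit 75945222) (nat_lit 238) (nat_lit 5) (nat_lit 244) (nat_lit 5) (nat_lit 245) (nat_lit 5) (nat_lit 597) (nat_lit 521) (nat_lit 442)) (XT.lf (nat_lit 0) (nat_lit 3022346733) (nat_lit 532) (nat_lit 1529933829) (nat_lit 76) (nat_lit 5934894918) (nat_lit 237) (nat_lit 5) (nat_lit 244) (nat_lit 5) (nat_lit 238) (nat_lit 5) (nat_lit 598) (nat_lit 521) (nat_lit 441))))) (XT.nd (nat_lit 234) (nat_lit 988) (nat_lit 0) (XT.nd (nat_lit 78) (nat_lit 532) (nat_lit 0) (XT.lf (nat_lit 0) (nat_lit 5738151418) (nat_lit 532) (nat_lit 451471406) (nat_lit 608) (nat_lit 4407422789) (nat_lit 230) (nat_lit 5) (nat_lit 237) (nat_lit 5) (nat_lit 238) (nat_lit 5) (nat_lit 599) (nat_lit 521) (nat_lit 440)) (XT.nd (nat_lit 78) (nat_lit 76) (nat_lit 0) (XT.lf (nat_lit 0) (nat_lit 2429655553) (nat_lit 456) (nat_lit 7011933603) (nat_lit 532) (nat_lit 1267097699) (nat_lit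 224) (nat_lit 5) (nat_lit 230) (nat_lit 5) (nat_lit 231) (nat_lit 5) (nat_lit 600) (nat_lit 521) (nat_lit 439)) (XT.lf (nat_lit 0) (nat_lit 1917573920) (nat_lit 532) (nat_lit 949301732) (nat_lit 76) (nat_lit 7955295819) (nat_lit 223) (nat_lit 5) (nat_lit 230) (nat_lit 5) (nat_lit 224) (nat_lit 5) (nat_lit 601) (nat_lit 521) (nat_lit 438)))) (XT.nd (nat_lit 78) (nat_lit 532) (nat_lit 0) (XT.lf (nat_lit 0) (nat_lit 5172387732) (nat_lit 532) (nat_lit 4382491252) (nat_lit 76) (nat_lit 1382411546) (nat_lit 217) (nat_lit 5) (nat_lit 224) (nat_lit 5) (nat_lit 218) (nat_lit 5) (nat_lit 602) (nat_lit 521) (nat_lit 437)) (XT.nd (nat_lit 78) (nat_lit 76) (nat_lit 0) (XT.lf (nat_lit 0) (nat_lit 3148675650) (nat_lit 456) (nat_lit 5361362881) (nat_lit 532) (nat_lit 2544319181) (nat_lit 211) (nat_lit 5) (nat_lit 217) (nat_lit 5) (nat_lit 218) (nat_lit 5) (nat_lit 603) (nat_lit 521) (nat_lit 436)) (XT.lf (nat_lit 0) (nat_lit 732567317) (nat_lit 532) (nat_lit 329271344) (nat_lit 76) (nat_lit 10111799826) (nat_lit 210) (nat_lit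 5) (nat_lit 217) (nat_lit 5) (nat_lit 211) (nat_lit 5) (nat_lit 604) (nat_lit 521) (nat_lit 435))))))))
noncomputable def xc70 : XT := (XT.nd (nat_lit 75114) (nat_lit 0) (nat_lit 39900) (XT.nd (nat_lit 780) (nat_lit 1520) (nat_lit 0) (XT.nd (nat_lit 390) (nat_lit 1292) (nat_lit 0) (XT.nd (nat_lit 156) (nat_lit 912) (nat_lit 0) (XT.nd (nat_lit 78) (nat_lit 380) (nat_lit 0) (XT.lf (nat_lit 0) (nat_lit 4083734518) (nat_lit 532) (nat_lit 3877253361) (nat_lit 76) (nat_lit 3333124934) (nat_lit 204) (nat_lit 5) (nat_lit 211) (nat_lit 5) (nat_lit 205) (nat_lit 5) (nat_lit 605) (nat_lit 521) (nat_lit 434)) (XT.lf (nat_lit 0) (nat_lit 3909292976) (nat_lit 380) (nat_lit 3600017374) (nat_lit 456) (nat_lit 3907539083) (nat_lit 199) (nat_lit 5) (nat_lit 204) (nat_lit 5) (nat_lit 205) (nat_lit 5) (nat_lit 606) (nat_lit 521) (nat_lit 433))) (XT.nd (nat_lit 78) (nat_lit 456) (nat_lit 0) (XT.lf (nat_lit 0) (nat_lit 320587699) (nat_lit 456) (nat_lit 10689525341) (nat_lit 532) (nat_lit 531793942) (nat_lit 193) (nat_lit 5) (nat_lit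 199) (nat_lit 5) (nat_lit 200) (nat_lit 5) (nat_lit 607) (nat_lit 521) (nat_lit 432)) (XT.nd (nat_lit 78) (nat_lit 380) (nat_lit 0) (XT.lf (nat_lit 0) (nat_lit 2920863642) (nat_lit 532) (nat_lit 3345111294) (nat_lit 76) (nat_lit 5402161528) (nat_lit 192) (nat_lit 5) (nat_lit 199) (nat_lit 5) (nat_lit 193) (nat_lit 5) (nat_lit 608) (nat_lit 521) (nat_lit 431)) (XT.lf (nat_lit 0) (nat_lit 4706992025) (nat_lit 380) (nat_lit 1732585548) (nat_lit 456) (nat_lit 5357160654) (nat_lit 187) (nat_lit 5) (nat_lit 192) (nat_lit 5) (nat_lit 193) (nat_lit 5) (nat_lit 609) (nat_lit 521) (nat_lit 430))))) (XT.nd (nat_lit 156) (nat_lit 836) (nat_lit 0) (XT.nd (nat_lit 78) (nat_lit 76) (nat_lit 0) (XT.lf (nat_lit 0) (nat_lit 992092569) (nat_lit 380) (nat_lit 9058114912) (nat_lit 456) (nat_lit 1877274175) (nat_lit 182) (nat_lit 5) (nat_lit 187) (nat_lit 5) (nat_lit 188) (nat_lit 5) (nat_lit 610) (nat_lit 521) (nat_lit 429)) (XT.lf (nat_lit 0) (nat_lit 1683458951) (nat_lit 456) (nat_lit 2790963451) (nat_lit 76) (nat_lit 7585537252)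 (nat_lit 181) (nat_lit 5) (nat_lit 187) (nat_lit 5) (nat_lit 182) (nat_lit 5) (nat_lit 611) (nat_lit 521) (nat_lit 428))) (XT.nd (nat_lit 78) (nat_lit 456) (nat_lit 0) (XT.lf (nat_lit 0) (nat_lit 5302109992) (nat_lit 456) (nat_lit 6658943759) (nat_lit 76) (nat_lit 233548924) (nat_lit 176) (nat_lit 5) (nat_lit 182) (nat_lit 5) (nat_lit 177) (nat_lit 5) (nat_lit 612) (nat_lit 521) (nat_lit 427)) (XT.nd (nat_lit 78) (nat_lit 76) (nat_lit 0) (XT.lf (nat_lit 0) (nat_lit 1687988622) (nat_lit 380) (nat_lit 7339079649) (nat_lit 456) (nat_lit 3304192030) (nat_lit 171) (nat_lit 5) (nat_lit 176) (nat_lit 5) (nat_lit 177) (nat_lit 5) (nat_lit 613) (nat_lit 521) (nat_lit 426)) (XT.lf (nat_lit 0) (nat_lit 370755944) (nat_lit 456) (nat_lit 2219794862) (nat_lit 76) (nat_lit 9879663502) (nat_lit 170) (nat_lit 5) (nat_lit 176) (nat_lit 5) (nat_lit 171) (nat_lit 5) (nat_lit 614) (nat_lit 521) (nat_lit 425)))))) (XT.nd (nat_lit 73944) (nat_lit 0) (nat_lit 48032) (XT.nd (nat_lit 156) (nat_lit 760) (nat_lit 0) (XT.nd (nat_lit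 78) (nat_lit 380) (nat_lit 0) (XT.lf (nat_lit 0) (nat_lit 4106548113) (nat_lit 456) (nat_lit 6230768993) (nat_lit 76) (nat_lit 2273562112) (nat_lit 165) (nat_lit 5) (nat_lit 171) (nat_lit 5) (nat_lit 166) (nat_lit 5) (nat_lit 615) (nat_lit 521) (nat_lit 424)) (XT.lf (nat_lit 0) (nat_lit 2403381808) (nat_lit 380) (nat_lit 5536644657) (nat_lit 456) (nat_lit 4813871952) (nat_lit 160) (nat_lit 5) (nat_lit 165) (nat_lit 5) (nat_lit 166) (nat_lit 5) (nat_lit 616) (nat_lit 521) (nat_lit 423))) (XT.nd (nat_lit 78) (nat_lit 760) (nat_lit 0) (XT.lf (nat_lit 0) (nat_lit 11256003272) (nat_lit 380) (nat_lit 611433123) (nat_lit 456) (nat_lit 1031996752) (nat_lit 160) (nat_lit 5) (nat_lit 165) (nat_lit 5) (nat_lit 166) (nat_lit 5) (nat_lit 617) (nat_lit 521) (nat_lit 422)) (XT.nd (nat_lit 78) (nat_lit 380) (nat_lit 0) (XT.lf (nat_lit 0) (nat_lit 2840466409) (nat_lit 380) (nat_lit 5799390675) (nat_lit 76) (nat_lit 4406614808) (nat_lit 155) (nat_lit 5) (nat_lit 160) (nat_lit 5) (nat_lit 156) (nat_lit 5) (nat_lit 618) (nat_lit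 521) (nat_lit 421)) (XT.lf (nat_lit 0) (nat_lit 3133210603) (nat_lit 380) (nat_lit 3654765645) (nat_lit 456) (nat_lit 6408110783) (nat_lit 150) (nat_lit 5) (nat_lit 155) (nat_lit 5) (nat_lit 156) (nat_lit 5) (nat_lit 619) (nat_lit 521) (nat_lit 420))))) (XT.nd (nat_lit 156) (nat_lit 304) (nat_lit 0) (XT.nd (nat_lit 78) (nat_lit 228) (nat_lit 0) (XT.lf (nat_lit 0) (nat_lit 3014296722) (nat_lit 228) (nat_lit 105349619) (nat_lit 228) (nat_lit 105349619) (nat_lit 789) (nat_lit 3) (nat_lit 792) (nat_lit 3) (nat_lit 792) (nat_lit 5) (nat_lit 522) (nat_lit 522) (nat_lit 516)) (XT.lf (nat_lit 0) (nat_lit 2586848688) (nat_lit 228) (nat_lit 3427070128) (nat_lit 304) (nat_lit 440321328) (nat_lit 786) (nat_lit 5) (nat_lit 789) (nat_lit 3) (nat_lit 790) (nat_lit 5) (nat_lit 523) (nat_lit 522) (nat_lit 515))) (XT.nd (nat_lit 78) (nat_lit 304) (nat_lit 0) (XT.lf (nat_lit 0) (nat_lit 5572434337) (nat_lit 228) (nat_lit 169964498) (nat_lit 304) (nat_lit 717666911) (nat_lit 786) (nat_lit 5) (nat_lit 789) (nat_lit 3) (nat_lit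 790) (nat_lit 5) (nat_lit 524) (nat_lit 522) (nat_lit 514)) (XT.nd (nat_lit 78) (nat_lit 0) (nat_lit 0) (XT.lf (nat_lit 0) (nat_lit 2066525919) (nat_lit 304) (nat_lit 3327564897) (nat_lit 380) (nat_lit 1072781459) (nat_lit 782) (nat_lit 5) (nat_lit 786) (nat_lit 5) (nat_lit 787) (nat_lit 5) (nat_lit 525) (nat_lit 522) (nat_lit 513)) (XT.lf (nat_lit 0) (nat_lit 4992713047) (nat_lit 304) (nat_lit 3824599) (nat_lit 380) (nat_lit 1478667491) (nat_lit 782) (nat_lit 5) (nat_lit 786) (nat_lit 5) (nat_lit 787) (nat_lit 5) (nat_lit 526) (nat_lit 522) (nat_lit 512))))))) (XT.nd (nat_lit 780) (nat_lit 5548) (nat_lit 0) (XT.nd (nat_lit 390) (nat_lit 1748) (nat_lit 0) (XT.nd (nat_lit 156) (nat_lit 456) (nat_lit 0) (XT.nd (nat_lit 78) (nat_lit 0) (nat_lit 0) (XT.lf (nat_lit 0) (nat_lit 1420957512) (nat_lit 380) (nat_lit 3103663686) (nat_lit 456) (nat_lit 1959956945) (nat_lit 777) (nat_lit 5) (nat_lit 782) (nat_lit 5) (nat_lit 783) (nat_lit 5) (nat_lit 527) (nat_lit 522) (nat_lit 511)) (XT.lf (nat_lit 76) (nat_lit 292145486)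 (nat_lit 0) (nat_lit 3998305773) (nat_lit 456) (nat_lit 2204938793) (nat_lit 778) (nat_lit 5) (nat_lit 777) (nat_lit 5) (nat_lit 783) (nat_lit 5) (nat_lit 528) (nat_lit 522) (nat_lit 510))) (XT.nd (nat_lit 78) (nat_lit 0) (nat_lit 0) (XT.lf (nat_lit 0) (nat_lit 649143732) (nat_lit 456) (nat_lit 2754652444) (nat_lit 532) (nat_lit 3103582487) (nat_lit 771) (nat_lit 5) (nat_lit 777) (nat_lit 5) (nat_lit 778) (nat_lit 5) (nat_lit 529) (nat_lit 522) (nat_lit 509)) (XT.nd (nat_lit 78) (nat_lit 0) (nat_lit 0) (XT.lf (nat_lit 76) (nat_lit 716690235) (nat_lit 0) (nat_lit 2746799571) (nat_lit 532) (nat_lit 3057175341) (nat_lit 772) (nat_lit 5) (nat_lit 771) (nat_lit 5) (nat_lit 778) (nat_lit 5) (nat_lit 530) (nat_lit 522) (nat_lit 508)) (XT.lf (nat_lit 76) (nat_lit 4254051101) (nat_lit 0) (nat_lit 2027728774) (nat_lit 532) (nat_lit 253487990) (nat_lit 772) (nat_lit 5) (nat_lit 771) (nat_lit 5) (nat_lit 778) (nat_lit 5) (nat_lit 531) (nat_lit 522) (nat_lit 507))))) (XT.nd (nat_lit 156) (nat_lit 1216) (nat_lit 0) (XT.nd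 (nat_lit 78) (nat_lit 0) (nat_lit 0) (XT.lf (nat_lit 76) (nat_lit 1270860269) (nat_lit 0) (nat_lit 1239579667) (nat_lit 608) (nat_lit 4040620800) (nat_lit 765) (nat_lit 5) (nat_lit 764) (nat_lit 5) (nat_lit 772) (nat_lit 5) (nat_lit 532) (nat_lit 522) (nat_lit 506)) (XT.lf (nat_lit 76) (nat_lit 4882587078) (nat_lit 0) (nat_lit 390169688) (nat_lit 608) (nat_lit 1295452530) (nat_lit 765) (nat_lit 5) (nat_lit 764) (nat_lit 5) (nat_lit 772) (nat_lit 5) (nat_lit 533) (nat_lit 522) (nat_lit 505))) (XT.nd (nat_lit 78) (nat_lit 684) (nat_lit 0) (XT.lf (nat_lit 0) (nat_lit 1433105890) (nat_lit 608) (nat_lit 4634020391) (nat_lit 76) (nat_lit 519418067) (nat_lit 757) (nat_lit 5) (nat_lit 765) (nat_lit 5) (nat_lit 758) (nat_lit 5) (nat_lit 534) (nat_lit 522) (nat_lit 504)) (XT.nd (nat_lit 78) (nat_lit 684) (nat_lit 0) (XT.lf (nat_lit 0) (nat_lit 4146218899) (nat_lit 608) (nat_lit 971941354) (nat_lit 76) (nat_lit 1487971234) (nat_lit 757) (nat_lit 5) (nat_lit 765) (nat_lit 5) (nat_lit 758) (nat_lit 5) (nat_lit 535) (nat_lit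 522) (nat_lit 503)) (XT.lf (nat_lit 0) (nat_lit 235955627) (nat_lit 684) (nat_lit 3870201102) (nat_lit 76) (nat_lit 2520874574) (nat_lit 748) (nat_lit 5) (nat_lit 757) (nat_lit 5) (nat_lit 749) (nat_lit 5) (nat_lit 536) (nat_lit 522) (nat_lit 502)))))) (XT.nd (nat_lit 390) (nat_lit 3116) (nat_lit 0) (XT.nd (nat_lit 156) (nat_lit 1748) (nat_lit 0) (XT.nd (nat_lit 78) (nat_lit 684) (nat_lit 0) (XT.lf (nat_lit 0) (nat_lit 2894636164) (nat_lit 684) (nat_lit 132936374) (nat_lit 76) (nat_lit 3621617764) (nat_lit 748) (nat_lit 5) (nat_lit 757) (nat_lit 5) (nat_lit 749) (nat_lit 5) (nat_lit 537) (nat_lit 522) (nat_lit 501)) (XT.lf (nat_lit 0) (nat_lit 3686505371) (nat_lit 684) (nat_lit 1880427007) (nat_lit 760) (nat_lit 1105654252) (nat_lit 739) (nat_lit 5) (nat_lit 748) (nat_lit 5) (nat_lit 749) (nat_lit 5) (nat_lit 538) (nat_lit 522) (nat_lit 500))) (XT.nd (nat_lit 78) (nat_lit 912) (nat_lit 0) (XT.lf (nat_lit 0) (nat_lit 846955793) (nat_lit 760) (nat_lit 671801055) (nat_lit 836) (nat_lit 5178620274) (nat_lit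 728) (nat_lit 5) (nat_lit 738) (nat_lit 5) (nat_lit 739) (nat_lit 5) (nat_lit 539) (nat_lit 522) (nat_lit 499)) (XT.nd (nat_lit 78) (nat_lit 912) (nat_lit 0) (XT.lf (nat_lit 0) (nat_lit 4142850567) (nat_lit 836) (nat_lit 1978820511) (nat_lit 76) (nat_lit 601609016) (nat_lit 728) (nat_lit 5) (nat_lit 739) (nat_lit 5) (nat_lit 729) (nat_lit 5) (nat_lit 540) (nat_lit 522) (nat_lit 498)) (XT.lf (nat_lit 0) (nat_lit 25011001) (nat_lit 912) (nat_lit 4801162402) (nat_lit 76) (nat_lit 1924397367) (nat_lit 716) (nat_lit 5) (nat_lit 728) (nat_lit 5) (nat_lit 717) (nat_lit 5) (nat_lit 541) (nat_lit 522) (nat_lit 497))))) (XT.nd (nat_lit 234) (nat_lit 1140) (nat_lit 0) (XT.nd (nat_lit 78) (nat_lit 1976) (nat_lit 0) (XT.lf (nat_lit 0) (nat_lit 2601313090) (nat_lit 912) (nat_lit 854576013) (nat_lit 76) (nat_lit 3323113584) (nat_lit 716) (nat_lit 5) (nat_lit 728) (nat_lit 5) (nat_lit 717) (nat_lit 5) (nat_lit 542) (nat_lit 522) (nat_lit 496)) (XT.nd (nat_lit 78) (nat_lit 1064) (nat_lit 0) (XT.lf (nat_lit 0) (nat_lit 3171077717)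 (nat_lit 912) (nat_lit 2019736103) (nat_lit 988) (nat_lit 1617958574) (nat_lit 704) (nat_lit 5) (nat_lit 716) (nat_lit 5) (nat_lit 717) (nat_lit 5) (nat_lit 543) (nat_lit 522) (nat_lit 495)) (XT.lf (nat_lit 0) (nat_lit 406694892) (nat_lit 988) (nat_lit 523247292) (nat_lit 1064) (nat_lit 5910068913) (nat_lit 690) (nat_lit 5) (nat_lit 703) (nat_lit 5) (nat_lit 704) (nat_lit 5) (nat_lit 544) (nat_lit 522) (nat_lit 494)))) (XT.nd (nat_lit 78) (nat_lit 1140) (nat_lit 0) (XT.lf (nat_lit 0) (nat_lit 3480805105) (nat_lit 1064) (nat_lit 2350433953) (nat_lit 76) (nat_lit 1040950700) (nat_lit 690) (nat_lit 5) (nat_lit 704) (nat_lit 5) (nat_lit 691) (nat_lit 5) (nat_lit 545) (nat_lit 522) (nat_lit 493)) (XT.nd (nat_lit 78) (nat_lit 76) (nat_lit 0) (XT.lf (nat_lit 0) (nat_lit 1792045802) (nat_lit 1064) (nat_lit 4249428669) (nat_lit 1140) (nat_lit 864364144) (nat_lit 676) (nat_lit 5) (nat_lit 690) (nat_lit 5) (nat_lit 691) (nat_lit 5) (nat_lit 546) (nat_lit 522) (nat_lit 492)) (XT.lf (nat_lit 0) (nat_lit 1650756695) (nat_lit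 1140) (nat_lit 944402232) (nat_lit 76) (nat_lit 4345580792) (nat_lit 675) (nat_lit 5) (nat_lit 690) (nat_lit 5) (nat_lit 676) (nat_lit 5) (nat_lit 547) (nat_lit 522) (nat_lit 491))))))))
noncomputable def xc71 : XT := (XT.nd (nat_lit 1560) (nat_lit 10944) (nat_lit 0) (XT.nd (nat_lit 780) (nat_lit 8436) (nat_lit 0) (XT.nd (nat_lit 390) (nat_lit 6004) (nat_lit 0) (XT.nd (nat_lit 156) (nat_lit 1444) (nat_lit 0) (XT.nd (nat_lit 78) (nat_lit 1216) (nat_lit 0) (XT.lf (nat_lit 0) (nat_lit 3304256960) (nat_lit 1140) (nat_lit 867060168) (nat_lit 1216) (nat_lit 2805575495) (nat_lit 660) (nat_lit 5) (nat_lit 675) (nat_lit 5) (nat_lit 676) (nat_lit 5) (nat_lit 548) (nat_lit 522) (nat_lit 490)) (XT.lf (nat_lit 0) (nat_lit 596395533) (nat_lit 1216) (nat_lit 6108091976) (nat_lit 1292) (nat_lit 310039322) (nat_lit 644) (nat_lit 5) (nat_lit 660) (nat_lit 5) (nat_lit 661) (nat_lit 5) (nat_lit 549) (nat_lit 522) (nat_lit 489))) (XT.nd (nat_lit 78) (nat_lit 1368) (nat_lit 0) (XT.lf (nat_lit 0) (nat_lit 2183200386) (nat_lit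 1292) (nat_lit 2115299565) (nat_lit 76) (nat_lit 2754583421) (nat_lit 643) (nat_lit 5) (nat_lit 660) (nat_lit 5) (nat_lit 644) (nat_lit 5) (nat_lit 550) (nat_lit 522) (nat_lit 488)) (XT.nd (nat_lit 78) (nat_lit 76) (nat_lit 0) (XT.lf (nat_lit 0) (nat_lit 2258955742) (nat_lit 1292) (nat_lit 2425476017) (nat_lit 1368) (nat_lit 2408694825) (nat_lit 626) (nat_lit 5) (nat_lit 643) (nat_lit 5) (nat_lit 644) (nat_lit 5) (nat_lit 551) (nat_lit 522) (nat_lit 487)) (XT.lf (nat_lit 0) (nat_lit 62690692) (nat_lit 1368) (nat_lit 427693160) (nat_lit 76) (nat_lit 6644329460) (nat_lit 625) (nat_lit 5) (nat_lit 643) (nat_lit 5) (nat_lit 626) (nat_lit 5) (nat_lit 552) (nat_lit 522) (nat_lit 486))))) (XT.nd (nat_lit 156) (nat_lit 3192) (nat_lit 0) (XT.nd (nat_lit 78) (nat_lit 1444) (nat_lit 0) (XT.lf (nat_lit 0) (nat_lit 2536667073) (nat_lit 1444) (nat_lit 3124821159) (nat_lit 76) (nat_lit 1515618774) (nat_lit 607) (nat_lit 5) (nat_lit 626) (nat_lit 5) (nat_lit 608) (nat_lit 5) (nat_lit 553) (nat_lit 522) (nat_lit 485)) (XT.lf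 (nat_lit 0) (nat_lit 1379624040) (nat_lit 1444) (nat_lit 3645417455) (nat_lit 1520) (nat_lit 2196010641) (nat_lit 588) (nat_lit 5) (nat_lit 607) (nat_lit 5) (nat_lit 608) (nat_lit 5) (nat_lit 554) (nat_lit 522) (nat_lit 484))) (XT.nd (nat_lit 78) (nat_lit 3116) (nat_lit 0) (XT.lf (nat_lit 0) (nat_lit 264720282) (nat_lit 1520) (nat_lit 1293967729) (nat_lit 76) (nat_lit 5707725166) (nat_lit 587) (nat_lit 5) (nat_lit 607) (nat_lit 5) (nat_lit 588) (nat_lit 5) (nat_lit 555) (nat_lit 522) (nat_lit 483)) (XT.nd (nat_lit 78) (nat_lit 1596) (nat_lit 0) (XT.lf (nat_lit 0) (nat_lit 2722081942) (nat_lit 1596) (nat_lit 3985442362) (nat_lit 76) (nat_lit 605332231) (nat_lit 567) (nat_lit 5) (nat_lit 588) (nat_lit 5) (nat_lit 568) (nat_lit 5) (nat_lit 556) (nat_lit 522) (nat_lit 482)) (XT.lf (nat_lit 0) (nat_lit 654063277) (nat_lit 1596) (nat_lit 4549744401) (nat_lit 1672) (nat_lit 2156918532) (nat_lit 546) (nat_lit 5) (nat_lit 567) (nat_lit 5) (nat_lit 568) (nat_lit 5) (nat_lit 557) (nat_lit 522) (nat_lit 481)))))) (XT.nd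 (nat_lit 390) (nat_lit 3040) (nat_lit 0) (XT.nd (nat_lit 156) (nat_lit 3648) (nat_lit 0) (XT.nd (nat_lit 78) (nat_lit 1672) (nat_lit 0) (XT.lf (nat_lit 0) (nat_lit 300523622) (nat_lit 1672) (nat_lit 2014124810) (nat_lit 76) (nat_lit 5095280691) (nat_lit 545) (nat_lit 5) (nat_lit 567) (nat_lit 5) (nat_lit 546) (nat_lit 5) (nat_lit 558) (nat_lit 522) (nat_lit 480)) (XT.lf (nat_lit 0) (nat_lit 2749336077) (nat_lit 1748) (nat_lit 4708708266) (nat_lit 76) (nat_lit 2366239) (nat_lit 523) (nat_lit 5) (nat_lit 546) (nat_lit 5) (nat_lit 524) (nat_lit 5) (nat_lit 559) (nat_lit 522) (nat_lit 479))) (XT.nd (nat_lit 78) (nat_lit 1900) (nat_lit 0) (XT.lf (nat_lit 0) (nat_lit 71005840) (nat_lit 1748) (nat_lit 5159379307) (nat_lit 1824) (nat_lit 2281852967) (nat_lit 500) (nat_lit 5) (nat_lit 523) (nat_lit 5) (nat_lit 524) (nat_lit 5) (nat_lit 560) (nat_lit 522) (nat_lit 478)) (XT.nd (nat_lit 78) (nat_lit 1824) (nat_lit 0) (XT.lf (nat_lit 0) (nat_lit 179379546) (nat_lit 1824) (nat_lit 2599160811) (nat_lit 76) (nat_lit 4786818051)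 (nat_lit 499) (nat_lit 5) (nat_lit 523) (nat_lit 5) (nat_lit 500) (nat_lit 5) (nat_lit 561) (nat_lit 522) (nat_lit 477)) (XT.lf (nat_lit 0) (nat_lit 2312467859) (nat_lit 1824) (nat_lit 316945059) (nat_lit 1900) (nat_lit 4990425480) (nat_lit 475) (nat_lit 5) (nat_lit 499) (nat_lit 5) (nat_lit 500) (nat_lit 5) (nat_lit 562) (nat_lit 522) (nat_lit 476))))) (XT.nd (nat_lit 156) (nat_lit 1900) (nat_lit 0) (XT.nd (nat_lit 78) (nat_lit 1140) (nat_lit 0) (XT.lf (nat_lit 0) (nat_lit 5115955964) (nat_lit 1900) (nat_lit 374979998) (nat_lit 76) (nat_lit 2184723369) (nat_lit 475) (nat_lit 5) (nat_lit 500) (nat_lit 5) (nat_lit 476) (nat_lit 5) (nat_lit 563) (nat_lit 522) (nat_lit 475)) (XT.lf (nat_lit 0) (nat_lit 4672969140) (nat_lit 1140) (nat_lit 2968275820) (nat_lit 1216) (nat_lit 91572917) (nat_lit 460) (nat_lit 5) (nat_lit 475) (nat_lit 5) (nat_lit 476) (nat_lit 5) (nat_lit 564) (nat_lit 522) (nat_lit 474))) (XT.nd (nat_lit 78) (nat_lit 912) (nat_lit 0) (XT.lf (nat_lit 0) (nat_lit 2003830651) (nat_lit 912) (nat_lit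 362685963) (nat_lit 988) (nat_lit 5424841147) (nat_lit 447) (nat_lit 5) (nat_lit 459) (nat_lit 5) (nat_lit 460) (nat_lit 5) (nat_lit 565) (nat_lit 522) (nat_lit 473)) (XT.nd (nat_lit 78) (nat_lit 912) (nat_lit 0) (XT.lf (nat_lit 0) (nat_lit 4865555360) (nat_lit 988) (nat_lit 699188061) (nat_lit 76) (nat_lit 2286454052) (nat_lit 447) (nat_lit 5) (nat_lit 460) (nat_lit 5) (nat_lit 448) (nat_lit 5) (nat_lit 566) (nat_lit 522) (nat_lit 472)) (XT.lf (nat_lit 0) (nat_lit 4505301979) (nat_lit 912) (nat_lit 2899203162) (nat_lit 988) (nat_lit 507931615) (nat_lit 435) (nat_lit 5) (nat_lit 447) (nat_lit 5) (nat_lit 448) (nat_lit 5) (nat_lit 567) (nat_lit 522) (nat_lit 471))))))) (XT.nd (nat_lit 780) (nat_lit 4940) (nat_lit 0) (XT.nd (nat_lit 390) (nat_lit 3268) (nat_lit 0) (XT.nd (nat_lit 156) (nat_lit 1824) (nat_lit 0) (XT.nd (nat_lit 78) (nat_lit 0) (nat_lit 0) (XT.lf (nat_lit 0) (nat_lit 1816660782) (nat_lit 836) (nat_lit 151254529) (nat_lit 912) (nat_lit 6007223301) (nat_lit 423) (nat_lit 5) (nat_lit 434) (nat_lit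 5) (nat_lit 435) (nat_lit 5) (nat_lit 568) (nat_lit 522) (nat_lit 470)) (XT.lf (nat_lit 0) (nat_lit 4485793077) (nat_lit 912) (nat_lit 911358003) (nat_lit 76) (nat_lit 2641891276) (nat_lit 423) (nat_lit 5) (nat_lit 435) (nat_lit 5) (nat_lit 424) (nat_lit 5) (nat_lit 569) (nat_lit 522) (nat_lit 469))) (XT.nd (nat_lit 78) (nat_lit 912) (nat_lit 0) (XT.lf (nat_lit 0) (nat_lit 4455881297) (nat_lit 912) (nat_lit 2587959101) (nat_lit 988) (nat_lit 1060588812) (nat_lit 411) (nat_lit 5) (nat_lit 423) (nat_lit 5) (nat_lit 424) (nat_lit 5) (nat_lit 570) (nat_lit 522) (nat_lit 468)) (XT.nd (nat_lit 78) (nat_lit 0) (nat_lit 0) (XT.lf (nat_lit 0) (nat_lit 1442052535) (nat_lit 912) (nat_lit 6430849396) (nat_lit 76) (nat_lit 298439398) (nat_lit 399) (nat_lit 5) (nat_lit 411) (nat_lit 5) (nat_lit 400) (nat_lit 5) (nat_lit 571) (nat_lit 522) (nat_lit 467)) (XT.lf (nat_lit 0) (nat_lit 3982962562) (nat_lit 912) (nat_lit 1019661186) (nat_lit 76) (nat_lit 3236780590) (nat_lit 399) (nat_lit 5) (nat_lit 411) (nat_lit 5) (nat_lit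 400) (nat_lit 5) (nat_lit 572) (nat_lit 522) (nat_lit 466))))) (XT.nd (nat_lit 156) (nat_lit 1596) (nat_lit 0) (XT.nd (nat_lit 78) (nat_lit 836) (nat_lit 0) (XT.lf (nat_lit 0) (nat_lit 4516828965) (nat_lit 836) (nat_lit 2048579485) (nat_lit 912) (nat_lit 1743606985) (nat_lit 388) (nat_lit 5) (nat_lit 399) (nat_lit 5) (nat_lit 400) (nat_lit 5) (nat_lit 573) (nat_lit 522) (nat_lit 465)) (XT.lf (nat_lit 0) (nat_lit 795155637) (nat_lit 836) (nat_lit 6613218624) (nat_lit 76) (nat_lit 971810835) (nat_lit 377) (nat_lit 5) (nat_lit 388) (nat_lit 5) (nat_lit 378) (nat_lit 5) (nat_lit 574) (nat_lit 522) (nat_lit 464))) (XT.nd (nat_lit 78) (nat_lit 1596) (nat_lit 0) (XT.lf (nat_lit 0) (nat_lit 3362625843) (nat_lit 836) (nat_lit 1031692376) (nat_lit 76) (nat_lit 4058204954) (nat_lit 377) (nat_lit 5) (nat_lit 388) (nat_lit 5) (nat_lit 378) (nat_lit 5) (nat_lit 575) (nat_lit 522) (nat_lit 463)) (XT.nd (nat_lit 78) (nat_lit 836) (nat_lit 0) (XT.lf (nat_lit 0) (nat_lit 4680847301) (nat_lit 760) (nat_lit 1293807510) (nat_lit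 836) (nat_lit 2551790101) (nat_lit 367) (nat_lit 5) (nat_lit 377) (nat_lit 5) (nat_lit 378) (nat_lit 5) (nat_lit 576) (nat_lit 522) (nat_lit 462)) (XT.lf (nat_lit 0) (nat_lit 31173773) (nat_lit 836) (nat_lit 6712066678) (nat_lit 76) (nat_lit 1858709252) (nat_lit 356) (nat_lit 5) (nat_lit 367) (nat_lit 5) (nat_lit 357) (nat_lit 5) (nat_lit 577) (nat_lit 522) (nat_lit 461)))))) (XT.nd (nat_lit 390) (nat_lit 2736) (nat_lit 0) (XT.nd (nat_lit 156) (nat_lit 1444) (nat_lit 0) (XT.nd (nat_lit 78) (nat_lit 760) (nat_lit 0) (XT.lf (nat_lit 0) (nat_lit 2629654859) (nat_lit 836) (nat_lit 954527051) (nat_lit 76) (nat_lit 5094485830) (nat_lit 356) (nat_lit 5) (nat_lit 367) (nat_lit 5) (nat_lit 357) (nat_lit 5) (nat_lit 578) (nat_lit 522) (nat_lit 460)) (XT.lf (nat_lit 0) (nat_lit 4941162195) (nat_lit 760) (nat_lit 335190671) (nat_lit 836) (nat_lit 3480643334) (nat_lit 346) (nat_lit 5) (nat_lit 356) (nat_lit 5) (nat_lit 357) (nat_lit 5) (nat_lit 579) (nat_lit 522) (nat_lit 459))) (XT.nd (nat_lit 78) (nat_lit 760) (nat_lit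 0) (XT.lf (nat_lit 0) (nat_lit 2096859443) (nat_lit 684) (nat_lit 5883086794) (nat_lit 760) (nat_lit 856866748) (nat_lit 337) (nat_lit 5) (nat_lit 346) (nat_lit 5) (nat_lit 347) (nat_lit 5) (nat_lit 580) (nat_lit 522) (nat_lit 458)) (XT.nd (nat_lit 78) (nat_lit 684) (nat_lit 0) (XT.lf (nat_lit 0) (nat_lit 1788268496) (nat_lit 760) (nat_lit 794775992) (nat_lit 76) (nat_lit 6335091421) (nat_lit 336) (nat_lit 5) (nat_lit 346) (nat_lit 5) (nat_lit 337) (nat_lit 5) (nat_lit 581) (nat_lit 522) (nat_lit 457)) (XT.lf (nat_lit 0) (nat_lit 4479943100) (nat_lit 760) (nat_lit 3714811304) (nat_lit 76) (nat_lit 806116336) (nat_lit 327) (nat_lit 5) (nat_lit 337) (nat_lit 5) (nat_lit 328) (nat_lit 5) (nat_lit 582) (nat_lit 522) (nat_lit 456))))) (XT.nd (nat_lit 234) (nat_lit 1292) (nat_lit 0) (XT.nd (nat_lit 78) (nat_lit 760) (nat_lit 0) (XT.lf (nat_lit 0) (nat_lit 2386363057) (nat_lit 684) (nat_lit 4842860428) (nat_lit 760) (nat_lit 1855962248) (nat_lit 318) (nat_lit 5) (nat_lit 327) (nat_lit 5) (nat_lit 328) (nat_lit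 5) (nat_lit 583) (nat_lit 522) (nat_lit 455)) (XT.nd (nat_lit 78) (nat_lit 684) (nat_lit 0) (XT.lf (nat_lit 0) (nat_lit 842065535) (nat_lit 760) (nat_lit 558637536) (nat_lit 76) (nat_lit 7770551412) (nat_lit 317) (nat_lit 5) (nat_lit 327) (nat_lit 5) (nat_lit 318) (nat_lit 5) (nat_lit 584) (nat_lit 522) (nat_lit 454)) (XT.lf (nat_lit 0) (nat_lit 3587025585) (nat_lit 760) (nat_lit 3546820678) (nat_lit 76) (nat_lit 2124597383) (nat_lit 308) (nat_lit 5) (nat_lit 318) (nat_lit 5) (nat_lit 309) (nat_lit 5) (nat_lit 585) (nat_lit 522) (nat_lit 453)))) (XT.nd (nat_lit 78) (nat_lit 684) (nat_lit 0) (XT.lf (nat_lit 0) (nat_lit 2752748930) (nat_lit 608) (nat_lit 3632039906) (nat_lit 684) (nat_lit 2962630519) (nat_lit 300) (nat_lit 5) (nat_lit 308) (nat_lit 5) (nat_lit 309) (nat_lit 5) (nat_lit 586) (nat_lit 522) (nat_lit 452)) (XT.nd (nat_lit 78) (nat_lit 684) (nat_lit 0) (XT.lf (nat_lit 0) (nat_lit 9185049382) (nat_lit 608) (nat_lit 44619599) (nat_lit 684) (nat_lit 208683190) (nat_lit 300) (nat_lit 5) (nat_lit 308)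 (nat_lit 5) (nat_lit 309) (nat_lit 5) (nat_lit 587) (nat_lit 522) (nat_lit 451)) (XT.lf (nat_lit 0) (nat_lit 2598325245) (nat_lit 684) (nat_lit 3315516145) (nat_lit 76) (nat_lit 3616283662) (nat_lit 291) (nat_lit 5) (nat_lit 300) (nat_lit 5) (nat_lit 292) (nat_lit 5) (nat_lit 588) (nat_lit 522) (nat_lit 450))))))))
noncomputable def xc72 : XT := (XT.nd (nat_lit 1560) (nat_lit 2812) (nat_lit 0) (XT.nd (nat_lit 780) (nat_lit 3420) (nat_lit 0) (XT.nd (nat_lit 390) (nat_lit 1672) (nat_lit 0) (XT.nd (nat_lit 156) (nat_lit 1216) (nat_lit 0) (XT.nd (nat_lit 78) (nat_lit 608) (nat_lit 0) (XT.lf (nat_lit 0) (nat_lit 3190500504) (nat_lit 608) (nat_lit 2259000976) (nat_lit 684) (nat_lit 4174388663) (nat_lit 283) (nat_lit 5) (nat_lit 291) (nat_lit 5) (nat_lit 292) (nat_lit 5) (nat_lit 589) (nat_lit 522) (nat_lit 449)) (XT.lf (nat_lit 0) (nat_lit 102588945) (nat_lit 608) (nat_lit 8256107751) (nat_lit 684) (nat_lit 1360814690) (nat_lit 275) (nat_lit 5) (nat_lit 283) (nat_lit 5) (nat_lit 284) (nat_lit 5) (nat_lit 590)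 (nat_lit 522) (nat_lit 448))) (XT.nd (nat_lit 78) (nat_lit 1140) (nat_lit 0) (XT.lf (nat_lit 0) (nat_lit 1516196907) (nat_lit 684) (nat_lit 3026443897) (nat_lit 76) (nat_lit 5273669886) (nat_lit 274) (nat_lit 5) (nat_lit 283) (nat_lit 5) (nat_lit 275) (nat_lit 5) (nat_lit 591) (nat_lit 522) (nat_lit 447)) (XT.nd (nat_lit 78) (nat_lit 608) (nat_lit 0) (XT.lf (nat_lit 0) (nat_lit 3694390823) (nat_lit 532) (nat_lit 731296691) (nat_lit 608) (nat_lit 5489316082) (nat_lit 267) (nat_lit 5) (nat_lit 274) (nat_lit 5) (nat_lit 275) (nat_lit 5) (nat_lit 592) (nat_lit 522) (nat_lit 446)) (XT.lf (nat_lit 0) (nat_lit 520430753) (nat_lit 608) (nat_lit 6886684222) (nat_lit 684) (nat_lit 2608281148) (nat_lit 259) (nat_lit 5) (nat_lit 267) (nat_lit 5) (nat_lit 268) (nat_lit 5) (nat_lit 593) (nat_lit 522) (nat_lit 445))))) (XT.nd (nat_lit 156) (nat_lit 1064) (nat_lit 0) (XT.nd (nat_lit 78) (nat_lit 532) (nat_lit 0) (XT.lf (nat_lit 0) (nat_lit 342469445) (nat_lit 684) (nat_lit 2684913176) (nat_lit 76) (nat_lit 7090043101) (nat_lit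 258) (nat_lit 5) (nat_lit 267) (nat_lit 5) (nat_lit 259) (nat_lit 5) (nat_lit 594) (nat_lit 522) (nat_lit 444)) (XT.lf (nat_lit 0) (nat_lit 3321290356) (nat_lit 608) (nat_lit 5967890069) (nat_lit 76) (nat_lit 931891732) (nat_lit 251) (nat_lit 5) (nat_lit 259) (nat_lit 5) (nat_lit 252) (nat_lit 5) (nat_lit 595) (nat_lit 522) (nat_lit 443))) (XT.nd (nat_lit 78) (nat_lit 532) (nat_lit 0) (XT.lf (nat_lit 0) (nat_lit 992096760) (nat_lit 532) (nat_lit 5382633581) (nat_lit 608) (nat_lit 3951760977) (nat_lit 244) (nat_lit 5) (nat_lit 251) (nat_lit 5) (nat_lit 252) (nat_lit 5) (nat_lit 596) (nat_lit 522) (nat_lit 442)) (XT.nd (nat_lit 78) (nat_lit 532) (nat_lit 0) (XT.lf (nat_lit 0) (nat_lit 8131698392) (nat_lit 532) (nat_lit 1368321582) (nat_lit 608) (nat_lit 933783909) (nat_lit 244) (nat_lit 5) (nat_lit 251) (nat_lit 5) (nat_lit 252) (nat_lit 5) (nat_lit 597) (nat_lit 522) (nat_lit 441)) (XT.lf (nat_lit 0) (nat_lit 2137162817) (nat_lit 532) (nat_lit 5680012230) (nat_lit 76) (nat_lit 2725395063) (nat_lit 237) (nat_lit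 5) (nat_lit 244) (nat_lit 5) (nat_lit 238) (nat_lit 5) (nat_lit 598) (nat_lit 522) (nat_lit 440)))))) (XT.nd (nat_lit 390) (nat_lit 1900) (nat_lit 0) (XT.nd (nat_lit 156) (nat_lit 988) (nat_lit 0) (XT.nd (nat_lit 78) (nat_lit 0) (nat_lit 0) (XT.lf (nat_lit 0) (nat_lit 1512701260) (nat_lit 532) (nat_lit 3750120718) (nat_lit 608) (nat_lit 5390450901) (nat_lit 230) (nat_lit 5) (nat_lit 237) (nat_lit 5) (nat_lit 238) (nat_lit 5) (nat_lit 599) (nat_lit 522) (nat_lit 439)) (XT.lf (nat_lit 0) (nat_lit 8463525645) (nat_lit 608) (nat_lit 1882536523) (nat_lit 76) (nat_lit 419877498) (nat_lit 230) (nat_lit 5) (nat_lit 238) (nat_lit 5) (nat_lit 231) (nat_lit 5) (nat_lit 600) (nat_lit 522) (nat_lit 438))) (XT.nd (nat_lit 78) (nat_lit 456) (nat_lit 0) (XT.lf (nat_lit 0) (nat_lit 869352090) (nat_lit 532) (nat_lit 5357329104) (nat_lit 76) (nat_lit 4653407484) (nat_lit 223) (nat_lit 5) (nat_lit 230) (nat_lit 5) (nat_lit 224) (nat_lit 5) (nat_lit 601) (nat_lit 522) (nat_lit 437)) (XT.nd (nat_lit 78) (nat_lit 0) (nat_lit 0)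 (XT.lf (nat_lit 0) (nat_lit 2077479782) (nat_lit 456) (nat_lit 1994719448) (nat_lit 532) (nat_lit 6924048116) (nat_lit 217) (nat_lit 5) (nat_lit 223) (nat_lit 5) (nat_lit 224) (nat_lit 5) (nat_lit 602) (nat_lit 522) (nat_lit 436)) (XT.lf (nat_lit 0) (nat_lit 7362817079) (nat_lit 532) (nat_lit 1435774933) (nat_lit 76) (nat_lit 2315663445) (nat_lit 217) (nat_lit 5) (nat_lit 224) (nat_lit 5) (nat_lit 218) (nat_lit 5) (nat_lit 603) (nat_lit 522) (nat_lit 435))))) (XT.nd (nat_lit 156) (nat_lit 912) (nat_lit 0) (XT.nd (nat_lit 78) (nat_lit 532) (nat_lit 0) (XT.lf (nat_lit 0) (nat_lit 6226052372) (nat_lit 456) (nat_lit 4519818820) (nat_lit 532) (nat_lit 488220594) (nat_lit 211) (nat_lit 5) (nat_lit 217) (nat_lit 5) (nat_lit 218) (nat_lit 5) (nat_lit 604) (nat_lit 522) (nat_lit 434)) (XT.lf (nat_lit 0) (nat_lit 2681742554) (nat_lit 456) (nat_lit 121467647) (nat_lit 532) (nat_lit 8552742353) (nat_lit 204) (nat_lit 5) (nat_lit 210) (nat_lit 5) (nat_lit 211) (nat_lit 5) (nat_lit 605) (nat_lit 522) (nat_lit 433))) (XT.nd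 (nat_lit 78) (nat_lit 912) (nat_lit 0) (XT.lf (nat_lit 0) (nat_lit 6189388767) (nat_lit 532) (nat_lit 957732202) (nat_lit 76) (nat_lit 4332356399) (nat_lit 204) (nat_lit 5) (nat_lit 211) (nat_lit 5) (nat_lit 205) (nat_lit 5) (nat_lit 606) (nat_lit 522) (nat_lit 432)) (XT.nd (nat_lit 78) (nat_lit 532) (nat_lit 0) (XT.lf (nat_lit 0) (nat_lit 6964827521) (nat_lit 380) (nat_lit 2698293644) (nat_lit 456) (nat_lit 1941955402) (nat_lit 199) (nat_lit 5) (nat_lit 204) (nat_lit 5) (nat_lit 205) (nat_lit 5) (nat_lit 607) (nat_lit 522) (nat_lit 431)) (XT.lf (nat_lit 0) (nat_lit 1467856546) (nat_lit 532) (nat_lit 8424240468) (nat_lit 76) (nat_lit 1840619186) (nat_lit 192) (nat_lit 5) (nat_lit 199) (nat_lit 5) (nat_lit 193) (nat_lit 5) (nat_lit 608) (nat_lit 522) (nat_lit 430))))))) (XT.nd (nat_lit 780) (nat_lit 0) (nat_lit 0) (XT.nd (nat_lit 390) (nat_lit 1596) (nat_lit 0) (XT.nd (nat_lit 156) (nat_lit 836) (nat_lit 0) (XT.nd (nat_lit 78) (nat_lit 380) (nat_lit 0) (XT.lf (nat_lit 0) (nat_lit 4943175330) (nat_lit 532)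 (nat_lit 453206277) (nat_lit 76) (nat_lit 6465804489) (nat_lit 192) (nat_lit 5) (nat_lit 199) (nat_lit 5) (nat_lit 193) (nat_lit 5) (nat_lit 609) (nat_lit 522) (nat_lit 429)) (XT.lf (nat_lit 0) (nat_lit 7740473270) (nat_lit 380) (nat_lit 772366689) (nat_lit 456) (nat_lit 3480909097) (nat_lit 187) (nat_lit 5) (nat_lit 192) (nat_lit 5) (nat_lit 193) (nat_lit 5) (nat_lit 610) (nat_lit 522) (nat_lit 428))) (XT.nd (nat_lit 78) (nat_lit 380) (nat_lit 0) (XT.lf (nat_lit 0) (nat_lit 54965271) (nat_lit 456) (nat_lit 8163533125) (nat_lit 76) (nat_lit 3908854927) (nat_lit 181) (nat_lit 5) (nat_lit 187) (nat_lit 5) (nat_lit 182) (nat_lit 5) (nat_lit 611) (nat_lit 522) (nat_lit 427)) (XT.nd (nat_lit 78) (nat_lit 0) (nat_lit 0) (XT.lf (nat_lit 0) (nat_lit 73923530) (nat_lit 380) (nat_lit 3550225468) (nat_lit 456) (nat_lit 8638836904) (nat_lit 176) (nat_lit 5) (nat_lit 181) (nat_lit 5) (nat_lit 182) (nat_lit 5) (nat_lit 612) (nat_lit 522) (nat_lit 426)) (XT.lf (nat_lit 0) (nat_lit 7302716165) (nat_lit 456) (nat_lit 3860377079)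 (nat_lit 76) (nat_lit 1237478316) (nat_lit 176) (nat_lit 5) (nat_lit 182) (nat_lit 5) (nat_lit 177) (nat_lit 5) (nat_lit 613) (nat_lit 522) (nat_lit 425))))) (XT.nd (nat_lit 156) (nat_lit 760) (nat_lit 0) (XT.nd (nat_lit 78) (nat_lit 456) (nat_lit 0) (XT.lf (nat_lit 0) (nat_lit 4634206149) (nat_lit 380) (nat_lit 6449728755) (nat_lit 456) (nat_lit 1456392835) (nat_lit 171) (nat_lit 5) (nat_lit 176) (nat_lit 5) (nat_lit 177) (nat_lit 5) (nat_lit 614) (nat_lit 522) (nat_lit 424)) (XT.lf (nat_lit 0) (nat_lit 623982416) (nat_lit 380) (nat_lit 1609987127) (nat_lit 456) (nat_lit 10448503032) (nat_lit 165) (nat_lit 5) (nat_lit 170) (nat_lit 5) (nat_lit 171) (nat_lit 5) (nat_lit 615) (nat_lit 522) (nat_lit 423))) (XT.nd (nat_lit 78) (nat_lit 760) (nat_lit 0) (XT.lf (nat_lit 0) (nat_lit 6029361411) (nat_lit 456) (nat_lit 3464300541) (nat_lit 76) (nat_lit 3332591743) (nat_lit 165) (nat_lit 5) (nat_lit 171) (nat_lit 5) (nat_lit 166) (nat_lit 5) (nat_lit 616) (nat_lit 522) (nat_lit 422)) (XT.nd (nat_lit 78) (nat_lit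 380) (nat_lit 0) (XT.lf (nat_lit 0) (nat_lit 5323512988) (nat_lit 380) (nat_lit 4598551873) (nat_lit 456) (nat_lit 3050417884) (nat_lit 160) (nat_lit 5) (nat_lit 165) (nat_lit 5) (nat_lit 166) (nat_lit 5) (nat_lit 617) (nat_lit 522) (nat_lit 421)) (XT.lf (nat_lit 0) (nat_lit 770932442) (nat_lit 380) (nat_lit 11938324321) (nat_lit 76) (nat_lit 412078702) (nat_lit 155) (nat_lit 5) (nat_lit 160) (nat_lit 5) (nat_lit 156) (nat_lit 5) (nat_lit 618) (nat_lit 522) (nat_lit 420)))))) (XT.nd (nat_lit 74022) (nat_lit 0) (nat_lit 46284) (XT.nd (nat_lit 73788) (nat_lit 0) (nat_lit 47196) (XT.nd (nat_lit 73710) (nat_lit 0) (nat_lit 47956) (XT.lf (nat_lit 0) (nat_lit 4686407258) (nat_lit 380) (nat_lit 3065440275) (nat_lit 76) (nat_lit 5519743949) (nat_lit 155) (nat_lit 5) (nat_lit 160) (nat_lit 5) (nat_lit 156) (nat_lit 5) (nat_lit 619) (nat_lit 522) (nat_lit 419)) (XT.lf (nat_lit 0) (nat_lit 1386871494) (nat_lit 0) (nat_lit 1386871494) (nat_lit 228) (nat_lit 455895767) (nat_lit 786) (nat_lit 5) (nat_lit 786) (nat_lit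 3) (nat_lit 789) (nat_lit 3) (nat_lit 523) (nat_lit 523) (nat_lit 514))) (XT.nd (nat_lit 78) (nat_lit 380) (nat_lit 0) (XT.lf (nat_lit 0) (nat_lit 2000476129) (nat_lit 380) (nat_lit 459672126) (nat_lit 380) (nat_lit 4005495852) (nat_lit 781) (nat_lit 3) (nat_lit 786) (nat_lit 3) (nat_lit 786) (nat_lit 5) (nat_lit 524) (nat_lit 523) (nat_lit 513)) (XT.nd (nat_lit 78) (nat_lit 380) (nat_lit 0) (XT.lf (nat_lit 76) (nat_lit 2822768979) (nat_lit 0) (nat_lit 2078037794) (nat_lit 380) (nat_lit 1572374380) (nat_lit 782) (nat_lit 5) (nat_lit 781) (nat_lit 3) (nat_lit 786) (nat_lit 5) (nat_lit 525) (nat_lit 523) (nat_lit 512)) (XT.lf (nat_lit 0) (nat_lit 1287735742) (nat_lit 380) (nat_lit 352359999) (nat_lit 456) (nat_lit 4842047509) (nat_lit 776) (nat_lit 5) (nat_lit 781) (nat_lit 3) (nat_lit 782) (nat_lit 5) (nat_lit 526) (nat_lit 523) (nat_lit 511))))) (XT.nd (nat_lit 156) (nat_lit 456) (nat_lit 0) (XT.nd (nat_lit 78) (nat_lit 456) (nat_lit 0) (XT.lf (nat_lit 76) (nat_lit 3001712524) (nat_lit 0) (nat_lit 1127703873)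 (nat_lit 456) (nat_lit 2362755820) (nat_lit 777) (nat_lit 5) (nat_lit 776) (nat_lit 5) (nat_lit 782) (nat_lit 5) (nat_lit 527) (nat_lit 523) (nat_lit 510)) (XT.lf (nat_lit 0) (nat_lit 447645613) (nat_lit 456) (nat_lit 117757967) (nat_lit 532) (nat_lit 5938353553) (nat_lit 770) (nat_lit 5) (nat_lit 776) (nat_lit 5) (nat_lit 777) (nat_lit 5) (nat_lit 528) (nat_lit 523) (nat_lit 509))) (XT.nd (nat_lit 78) (nat_lit 532) (nat_lit 0) (XT.lf (nat_lit 0) (nat_lit 3232728053) (nat_lit 456) (nat_lit 3205449453) (nat_lit 532) (nat_lit 78085396) (nat_lit 771) (nat_lit 5) (nat_lit 777) (nat_lit 5) (nat_lit 778) (nat_lit 5) (nat_lit 529) (nat_lit 523) (nat_lit 508)) (XT.nd (nat_lit 78) (nat_lit 532) (nat_lit 0) (XT.lf (nat_lit 76) (nat_lit 239729744) (nat_lit 0) (nat_lit 5769315200) (nat_lit 532) (nat_lit 521266831) (nat_lit 772) (nat_lit 5) (nat_lit 771) (nat_lit 5) (nat_lit 778) (nat_lit 5) (nat_lit 530) (nat_lit 523) (nat_lit 507)) (XT.lf (nat_lit 0) (nat_lit 2217880868) (nat_lit 532) (nat_lit 2802881575) (nat_lit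 608) (nat_lit 1524549510) (nat_lit 764) (nat_lit 5) (nat_lit 771) (nat_lit 5) (nat_lit 772) (nat_lit 5) (nat_lit 531) (nat_lit 523) (nat_lit 506))))))))
noncomputable def xc73 : XT := (XT.nd (nat_lit 1560) (nat_lit 17252) (nat_lit 0) (XT.nd (nat_lit 780) (nat_lit 6840) (nat_lit 0) (XT.nd (nat_lit 390) (nat_lit 2356) (nat_lit 0) (XT.nd (nat_lit 156) (nat_lit 684) (nat_lit 0) (XT.nd (nat_lit 78) (nat_lit 608) (nat_lit 0) (XT.lf (nat_lit 76) (nat_lit 720489568) (nat_lit 0) (nat_lit 4220494554) (nat_lit 608) (nat_lit 1620839489) (nat_lit 765) (nat_lit 5) (nat_lit 764) (nat_lit 5) (nat_lit 772) (nat_lit 5) (nat_lit 532) (nat_lit 523) (nat_lit 505)) (XT.lf (nat_lit 0) (nat_lit 1075970728) (nat_lit 608) (nat_lit 2274215337) (nat_lit 684) (nat_lit 3229313989) (nat_lit 756) (nat_lit 5) (nat_lit 764) (nat_lit 5) (nat_lit 765) (nat_lit 5) (nat_lit 533) (nat_lit 523) (nat_lit 504))) (XT.nd (nat_lit 78) (nat_lit 684) (nat_lit 0) (XT.lf (nat_lit 76) (nat_lit 1331044578) (nat_lit 0) (nat_lit 2416066354) (nat_lit 684) (nat_lit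 2851366118) (nat_lit 757) (nat_lit 5) (nat_lit 756) (nat_lit 5) (nat_lit 765) (nat_lit 5) (nat_lit 534) (nat_lit 523) (nat_lit 503)) (XT.nd (nat_lit 78) (nat_lit 684) (nat_lit 0) (XT.lf (nat_lit 76) (nat_lit 4999575919) (nat_lit 0) (nat_lit 1421841412) (nat_lit 684) (nat_lit 197424562) (nat_lit 757) (nat_lit 5) (nat_lit 756) (nat_lit 5) (nat_lit 765) (nat_lit 5) (nat_lit 535) (nat_lit 523) (nat_lit 502)) (XT.lf (nat_lit 76) (nat_lit 2073011762) (nat_lit 0) (nat_lit 352468046) (nat_lit 760) (nat_lit 4214835438) (nat_lit 748) (nat_lit 5) (nat_lit 747) (nat_lit 5) (nat_lit 757) (nat_lit 5) (nat_lit 536) (nat_lit 523) (nat_lit 501))))) (XT.nd (nat_lit 156) (nat_lit 1672) (nat_lit 0) (XT.nd (nat_lit 78) (nat_lit 760) (nat_lit 0) (XT.lf (nat_lit 0) (nat_lit 5050439626) (nat_lit 684) (nat_lit 848006467) (nat_lit 76) (nat_lit 764704046) (nat_lit 748) (nat_lit 5) (nat_lit 757) (nat_lit 5) (nat_lit 749) (nat_lit 5) (nat_lit 537) (nat_lit 523) (nat_lit 500)) (XT.lf (nat_lit 0) (nat_lit 986711028) (nat_lit 760) (nat_lit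 3751942987) (nat_lit 76) (nat_lit 1948477092) (nat_lit 738) (nat_lit 5) (nat_lit 748) (nat_lit 5) (nat_lit 739) (nat_lit 5) (nat_lit 538) (nat_lit 523) (nat_lit 499))) (XT.nd (nat_lit 78) (nat_lit 912) (nat_lit 0) (XT.lf (nat_lit 0) (nat_lit 43238913) (nat_lit 760) (nat_lit 3517621969) (nat_lit 836) (nat_lit 3151633748) (nat_lit 728) (nat_lit 5) (nat_lit 738) (nat_lit 5) (nat_lit 739) (nat_lit 5) (nat_lit 539) (nat_lit 523) (nat_lit 498)) (XT.nd (nat_lit 78) (nat_lit 912) (nat_lit 0) (XT.lf (nat_lit 0) (nat_lit 3924776668) (nat_lit 760) (nat_lit 2226146841) (nat_lit 836) (nat_lit 588156082) (nat_lit 728) (nat_lit 5) (nat_lit 738) (nat_lit 5) (nat_lit 739) (nat_lit 5) (nat_lit 540) (nat_lit 523) (nat_lit 497)) (XT.lf (nat_lit 0) (nat_lit 1078319824) (nat_lit 836) (nat_lit 868739678) (nat_lit 912) (nat_lit 4819935293) (nat_lit 716) (nat_lit 5) (nat_lit 727) (nat_lit 5) (nat_lit 728) (nat_lit 5) (nat_lit 541) (nat_lit 523) (nat_lit 496)))))) (XT.nd (nat_lit 390) (nat_lit 3724) (nat_lit 0) (XT.nd (nat_lit 156)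 (nat_lit 2128) (nat_lit 0) (XT.nd (nat_lit 78) (nat_lit 988) (nat_lit 0) (XT.lf (nat_lit 0) (nat_lit 4488554752) (nat_lit 912) (nat_lit 1756969753) (nat_lit 76) (nat_lit 550599634) (nat_lit 716) (nat_lit 5) (nat_lit 728) (nat_lit 5) (nat_lit 717) (nat_lit 5) (nat_lit 542) (nat_lit 523) (nat_lit 495)) (XT.lf (nat_lit 0) (nat_lit 213960001) (nat_lit 988) (nat_lit 4591690970) (nat_lit 76) (nat_lit 2020909259) (nat_lit 703) (nat_lit 5) (nat_lit 716) (nat_lit 5) (nat_lit 704) (nat_lit 5) (nat_lit 543) (nat_lit 523) (nat_lit 494))) (XT.nd (nat_lit 78) (nat_lit 2128) (nat_lit 0) (XT.lf (nat_lit 0) (nat_lit 2709649066) (nat_lit 988) (nat_lit 583504981) (nat_lit 76) (nat_lit 3565055839) (nat_lit 703) (nat_lit 5) (nat_lit 716) (nat_lit 5) (nat_lit 704) (nat_lit 5) (nat_lit 544) (nat_lit 523) (nat_lit 493)) (XT.nd (nat_lit 78) (nat_lit 1140) (nat_lit 0) (XT.lf (nat_lit 0) (nat_lit 3510555918) (nat_lit 988) (nat_lit 1711342073) (nat_lit 1064) (nat_lit 1669264028) (nat_lit 690) (nat_lit 5) (nat_lit 703) (nat_lit 5) (nat_lit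 704) (nat_lit 5) (nat_lit 545) (nat_lit 523) (nat_lit 492)) (XT.lf (nat_lit 0) (nat_lit 732910580) (nat_lit 1064) (nat_lit 68459583) (nat_lit 1140) (nat_lit 6124233209) (nat_lit 675) (nat_lit 5) (nat_lit 689) (nat_lit 5) (nat_lit 690) (nat_lit 5) (nat_lit 546) (nat_lit 523) (nat_lit 491))))) (XT.nd (nat_lit 156) (nat_lit 2584) (nat_lit 0) (XT.nd (nat_lit 78) (nat_lit 1140) (nat_lit 0) (XT.lf (nat_lit 0) (nat_lit 3277604665) (nat_lit 1140) (nat_lit 2049128591) (nat_lit 76) (nat_lit 1634211101) (nat_lit 675) (nat_lit 5) (nat_lit 690) (nat_lit 5) (nat_lit 676) (nat_lit 5) (nat_lit 547) (nat_lit 523) (nat_lit 490)) (XT.lf (nat_lit 0) (nat_lit 2164326441) (nat_lit 1140) (nat_lit 3599863391) (nat_lit 1216) (nat_lit 1233588034) (nat_lit 660) (nat_lit 5) (nat_lit 675) (nat_lit 5) (nat_lit 676) (nat_lit 5) (nat_lit 548) (nat_lit 523) (nat_lit 489))) (XT.nd (nat_lit 78) (nat_lit 2508) (nat_lit 0) (XT.lf (nat_lit 0) (nat_lit 1209164265) (nat_lit 1216) (nat_lit 594904447) (nat_lit 76) (nat_lit 5231905215) (nat_lit 659)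 (nat_lit 5) (nat_lit 675) (nat_lit 5) (nat_lit 660) (nat_lit 5) (nat_lit 549) (nat_lit 523) (nat_lit 488)) (XT.nd (nat_lit 78) (nat_lit 1292) (nat_lit 0) (XT.lf (nat_lit 0) (nat_lit 3656748033) (nat_lit 1292) (nat_lit 3347199009) (nat_lit 76) (nat_lit 71375997) (nat_lit 643) (nat_lit 5) (nat_lit 660) (nat_lit 5) (nat_lit 644) (nat_lit 5) (nat_lit 550) (nat_lit 523) (nat_lit 487)) (XT.lf (nat_lit 0) (nat_lit 989928191) (nat_lit 1292) (nat_lit 5134383666) (nat_lit 1368) (nat_lit 991728762) (nat_lit 626) (nat_lit 5) (nat_lit 643) (nat_lit 5) (nat_lit 644) (nat_lit 5) (nat_lit 551) (nat_lit 523) (nat_lit 486))))))) (XT.nd (nat_lit 780) (nat_lit 7600) (nat_lit 0) (XT.nd (nat_lit 390) (nat_lit 5168) (nat_lit 0) (XT.nd (nat_lit 156) (nat_lit 3040) (nat_lit 0) (XT.nd (nat_lit 78) (nat_lit 1368) (nat_lit 0) (XT.lf (nat_lit 0) (nat_lit 1435844322) (nat_lit 1368) (nat_lit 1749520695) (nat_lit 76) (nat_lit 3972583881) (nat_lit 625) (nat_lit 5) (nat_lit 643) (nat_lit 5) (nat_lit 626) (nat_lit 5) (nat_lit 552) (nat_lit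 523) (nat_lit 485)) (XT.lf (nat_lit 0) (nat_lit 2702512544) (nat_lit 1368) (nat_lit 1163773336) (nat_lit 1444) (nat_lit 3334928365) (nat_lit 607) (nat_lit 5) (nat_lit 625) (nat_lit 5) (nat_lit 626) (nat_lit 5) (nat_lit 553) (nat_lit 523) (nat_lit 484))) (XT.nd (nat_lit 78) (nat_lit 3040) (nat_lit 0) (XT.lf (nat_lit 0) (nat_lit 6313794547) (nat_lit 1444) (nat_lit 25457581) (nat_lit 76) (nat_lit 906725502) (nat_lit 607) (nat_lit 5) (nat_lit 626) (nat_lit 5) (nat_lit 608) (nat_lit 5) (nat_lit 554) (nat_lit 523) (nat_lit 483)) (XT.nd (nat_lit 78) (nat_lit 1520) (nat_lit 0) (XT.lf (nat_lit 0) (nat_lit 1487635905) (nat_lit 1520) (nat_lit 2753370203) (nat_lit 76) (nat_lit 3050656085) (nat_lit 587) (nat_lit 5) (nat_lit 607) (nat_lit 5) (nat_lit 588) (nat_lit 5) (nat_lit 555) (nat_lit 523) (nat_lit 482)) (XT.lf (nat_lit 0) (nat_lit 1831967080) (nat_lit 1520) (nat_lit 2075618094) (nat_lit 1596) (nat_lit 3431269509) (nat_lit 567) (nat_lit 5) (nat_lit 587) (nat_lit 5) (nat_lit 588) (nat_lit 5) (nat_lit 556) (nat_lit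 523) (nat_lit 481))))) (XT.nd (nat_lit 156) (nat_lit 3496) (nat_lit 0) (XT.nd (nat_lit 78) (nat_lit 1672) (nat_lit 0) (XT.lf (nat_lit 0) (nat_lit 6348246467) (nat_lit 1596) (nat_lit 883277673) (nat_lit 76) (nat_lit 156022374) (nat_lit 567) (nat_lit 5) (nat_lit 588) (nat_lit 5) (nat_lit 568) (nat_lit 5) (nat_lit 557) (nat_lit 523) (nat_lit 480)) (XT.lf (nat_lit 0) (nat_lit 1374463556) (nat_lit 1672) (nat_lit 3618324226) (nat_lit 76) (nat_lit 2444397769) (nat_lit 545) (nat_lit 5) (nat_lit 567) (nat_lit 5) (nat_lit 546) (nat_lit 5) (nat_lit 558) (nat_lit 523) (nat_lit 479))) (XT.nd (nat_lit 78) (nat_lit 1824) (nat_lit 0) (XT.lf (nat_lit 0) (nat_lit 1105371940) (nat_lit 1672) (nat_lit 2684482410) (nat_lit 1748) (nat_lit 3698481911) (nat_lit 523) (nat_lit 5) (nat_lit 545) (nat_lit 5) (nat_lit 546) (nat_lit 5) (nat_lit 559) (nat_lit 523) (nat_lit 478)) (XT.nd (nat_lit 78) (nat_lit 1824) (nat_lit 0) (XT.lf (nat_lit 0) (nat_lit 5931342010) (nat_lit 1672) (nat_lit 301235590) (nat_lit 1748) (nat_lit 1308353510) (nat_lit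 523) (nat_lit 5) (nat_lit 545) (nat_lit 5) (nat_lit 546) (nat_lit 5) (nat_lit 560) (nat_lit 523) (nat_lit 477)) (XT.lf (nat_lit 0) (nat_lit 1105262161) (nat_lit 1824) (nat_lit 4355385904) (nat_lit 76) (nat_lit 2133974681) (nat_lit 499) (nat_lit 5) (nat_lit 523) (nat_lit 5) (nat_lit 500) (nat_lit 5) (nat_lit 561) (nat_lit 523) (nat_lit 476)))))) (XT.nd (nat_lit 390) (nat_lit 3648) (nat_lit 0) (XT.nd (nat_lit 156) (nat_lit 2128) (nat_lit 0) (XT.nd (nat_lit 78) (nat_lit 0) (nat_lit 0) (XT.lf (nat_lit 0) (nat_lit 512001758) (nat_lit 1824) (nat_lit 3009806043) (nat_lit 1900) (nat_lit 4127965444) (nat_lit 475) (nat_lit 5) (nat_lit 499) (nat_lit 5) (nat_lit 500) (nat_lit 5) (nat_lit 562) (nat_lit 523) (nat_lit 475)) (XT.lf (nat_lit 0) (nat_lit 5494382015) (nat_lit 1824) (nat_lit 478092104) (nat_lit 1900) (nat_lit 1733838335) (nat_lit 475) (nat_lit 5) (nat_lit 499) (nat_lit 5) (nat_lit 500) (nat_lit 5) (nat_lit 563) (nat_lit 523) (nat_lit 474))) (XT.nd (nat_lit 78) (nat_lit 912) (nat_lit 0) (XT.lf (nat_lit 0) (nat_lit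 688040771) (nat_lit 1216) (nat_lit 4974765509) (nat_lit 76) (nat_lit 2101302501) (nat_lit 459) (nat_lit 5) (nat_lit 475) (nat_lit 5) (nat_lit 460) (nat_lit 5) (nat_lit 564) (nat_lit 523) (nat_lit 473)) (XT.nd (nat_lit 78) (nat_lit 0) (nat_lit 0) (XT.lf (nat_lit 0) (nat_lit 41925835) (nat_lit 912) (nat_lit 3069332499) (nat_lit 988) (nat_lit 4712052556) (nat_lit 447) (nat_lit 5) (nat_lit 459) (nat_lit 5) (nat_lit 460) (nat_lit 5) (nat_lit 565) (nat_lit 523) (nat_lit 472)) (XT.lf (nat_lit 0) (nat_lit 5184921088) (nat_lit 912) (nat_lit 389677722) (nat_lit 988) (nat_lit 2309266441) (nat_lit 447) (nat_lit 5) (nat_lit 459) (nat_lit 5) (nat_lit 460) (nat_lit 5) (nat_lit 566) (nat_lit 523) (nat_lit 471))))) (XT.nd (nat_lit 234) (nat_lit 1824) (nat_lit 0) (XT.nd (nat_lit 78) (nat_lit 836) (nat_lit 0) (XT.lf (nat_lit 0) (nat_lit 129940714) (nat_lit 988) (nat_lit 5485951016) (nat_lit 76) (nat_lit 2329917472) (nat_lit 434) (nat_lit 5) (nat_lit 447) (nat_lit 5) (nat_lit 435) (nat_lit 5) (nat_lit 567) (nat_lit 523) (nat_lit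 470)) (XT.nd (nat_lit 78) (nat_lit 836) (nat_lit 0) (XT.lf (nat_lit 0) (nat_lit 2567212721) (nat_lit 988) (nat_lit 309942892) (nat_lit 76) (nat_lit 5131928397) (nat_lit 434) (nat_lit 5) (nat_lit 447) (nat_lit 5) (nat_lit 435) (nat_lit 5) (nat_lit 568) (nat_lit 523) (nat_lit 469)) (XT.lf (nat_lit 0) (nat_lit 4994162353) (nat_lit 836) (nat_lit 51651031) (nat_lit 912) (nat_lit 3027960545) (nat_lit 423) (nat_lit 5) (nat_lit 434) (nat_lit 5) (nat_lit 435) (nat_lit 5) (nat_lit 569) (nat_lit 523) (nat_lit 468)))) (XT.nd (nat_lit 78) (nat_lit 912) (nat_lit 0) (XT.lf (nat_lit 0) (nat_lit 2238368975) (nat_lit 912) (nat_lit 5331286762) (nat_lit 988) (nat_lit 570189765) (nat_lit 411) (nat_lit 5) (nat_lit 423) (nat_lit 5) (nat_lit 424) (nat_lit 5) (nat_lit 570) (nat_lit 523) (nat_lit 467)) (XT.nd (nat_lit 78) (nat_lit 836) (nat_lit 0) (XT.lf (nat_lit 0) (nat_lit 1893392617) (nat_lit 988) (nat_lit 557104960) (nat_lit 76) (nat_lit 5756849504) (nat_lit 410) (nat_lit 5) (nat_lit 423) (nat_lit 5) (nat_lit 411) (nat_lit 5)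 (nat_lit 571) (nat_lit 523) (nat_lit 466)) (XT.lf (nat_lit 0) (nat_lit 4395589788) (nat_lit 912) (nat_lit 3365677946) (nat_lit 76) (nat_lit 514917198) (nat_lit 399) (nat_lit 5) (nat_lit 411) (nat_lit 5) (nat_lit 400) (nat_lit 5) (nat_lit 572) (nat_lit 523) (nat_lit 465))))))))
noncomputable def xc74 : XT := (XT.nd (nat_lit 1560) (nat_lit 7448) (nat_lit 0) (XT.nd (nat_lit 780) (nat_lit 4028) (nat_lit 0) (XT.nd (nat_lit 390) (nat_lit 2964) (nat_lit 0) (XT.nd (nat_lit 156) (nat_lit 1596) (nat_lit 0) (XT.nd (nat_lit 78) (nat_lit 76) (nat_lit 0) (XT.lf (nat_lit 0) (nat_lit 2118900485) (nat_lit 836) (nat_lit 4824827854) (nat_lit 912) (nat_lit 1402754408) (nat_lit 388) (nat_lit 5) (nat_lit 399) (nat_lit 5) (nat_lit 400) (nat_lit 5) (nat_lit 573) (nat_lit 523) (nat_lit 464)) (XT.lf (nat_lit 0) (nat_lit 1095003672) (nat_lit 912) (nat_lit 707956524) (nat_lit 76) (nat_lit 6615379185) (nat_lit 387) (nat_lit 5) (nat_lit 399) (nat_lit 5) (nat_lit 388) (nat_lit 5) (nat_lit 574) (nat_lit 523) (nat_lit 463))) (XT.nd (nat_lit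 78) (nat_lit 836) (nat_lit 0) (XT.lf (nat_lit 0) (nat_lit 3627672576) (nat_lit 836) (nat_lit 3563329991) (nat_lit 76) (nat_lit 1300371457) (nat_lit 377) (nat_lit 5) (nat_lit 388) (nat_lit 5) (nat_lit 378) (nat_lit 5) (nat_lit 575) (nat_lit 523) (nat_lit 462)) (XT.nd (nat_lit 78) (nat_lit 76) (nat_lit 0) (XT.lf (nat_lit 0) (nat_lit 2094906702) (nat_lit 760) (nat_lit 4109959285) (nat_lit 836) (nat_lit 2361127016) (nat_lit 367) (nat_lit 5) (nat_lit 377) (nat_lit 5) (nat_lit 378) (nat_lit 5) (nat_lit 576) (nat_lit 523) (nat_lit 461)) (XT.lf (nat_lit 0) (nat_lit 176814447) (nat_lit 836) (nat_lit 769813125) (nat_lit 76) (nat_lit 7695696408) (nat_lit 366) (nat_lit 5) (nat_lit 377) (nat_lit 5) (nat_lit 367) (nat_lit 5) (nat_lit 577) (nat_lit 523) (nat_lit 460))))) (XT.nd (nat_lit 156) (nat_lit 1444) (nat_lit 0) (XT.nd (nat_lit 78) (nat_lit 760) (nat_lit 0) (XT.lf (nat_lit 0) (nat_lit 2746311693) (nat_lit 836) (nat_lit 3679445252) (nat_lit 76) (nat_lit 2293865248) (nat_lit 356) (nat_lit 5) (nat_lit 367) (nat_lit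 5) (nat_lit 357) (nat_lit 5) (nat_lit 578) (nat_lit 523) (nat_lit 459)) (XT.lf (nat_lit 0) (nat_lit 2159471678) (nat_lit 760) (nat_lit 3198085671) (nat_lit 836) (nat_lit 3441102837) (nat_lit 346) (nat_lit 5) (nat_lit 356) (nat_lit 5) (nat_lit 357) (nat_lit 5) (nat_lit 579) (nat_lit 523) (nat_lit 458))) (XT.nd (nat_lit 78) (nat_lit 1444) (nat_lit 0) (XT.lf (nat_lit 0) (nat_lit 8011747767) (nat_lit 836) (nat_lit 755889190) (nat_lit 76) (nat_lit 111828553) (nat_lit 346) (nat_lit 5) (nat_lit 357) (nat_lit 5) (nat_lit 347) (nat_lit 5) (nat_lit 580) (nat_lit 523) (nat_lit 457)) (XT.nd (nat_lit 78) (nat_lit 684) (nat_lit 0) (XT.lf (nat_lit 0) (nat_lit 1755445138) (nat_lit 760) (nat_lit 3720792931) (nat_lit 76) (nat_lit 3484994527) (nat_lit 336) (nat_lit 5) (nat_lit 346) (nat_lit 5) (nat_lit 337) (nat_lit 5) (nat_lit 581) (nat_lit 523) (nat_lit 456)) (XT.lf (nat_lit 0) (nat_lit 2306127756) (nat_lit 684) (nat_lit 2099532453) (nat_lit 760) (nat_lit 4639136859) (nat_lit 327) (nat_lit 5) (nat_lit 336) (nat_lit 5) (nat_lit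 337) (nat_lit 5) (nat_lit 582) (nat_lit 523) (nat_lit 455)))))) (XT.nd (nat_lit 390) (nat_lit 1976) (nat_lit 0) (XT.nd (nat_lit 156) (nat_lit 1292) (nat_lit 0) (XT.nd (nat_lit 78) (nat_lit 760) (nat_lit 0) (XT.lf (nat_lit 0) (nat_lit 7109218165) (nat_lit 760) (nat_lit 675508634) (nat_lit 76) (nat_lit 1345300153) (nat_lit 327) (nat_lit 5) (nat_lit 337) (nat_lit 5) (nat_lit 328) (nat_lit 5) (nat_lit 583) (nat_lit 523) (nat_lit 454)) (XT.lf (nat_lit 0) (nat_lit 658395533) (nat_lit 760) (nat_lit 3693750413) (nat_lit 76) (nat_lit 4864391297) (nat_lit 317) (nat_lit 5) (nat_lit 327) (nat_lit 5) (nat_lit 318) (nat_lit 5) (nat_lit 584) (nat_lit 523) (nat_lit 453))) (XT.nd (nat_lit 78) (nat_lit 608) (nat_lit 0) (XT.lf (nat_lit 0) (nat_lit 2528804037) (nat_lit 684) (nat_lit 823628269) (nat_lit 760) (nat_lit 5952312984) (nat_lit 308) (nat_lit 5) (nat_lit 317) (nat_lit 5) (nat_lit 318) (nat_lit 5) (nat_lit 585) (nat_lit 523) (nat_lit 452)) (XT.nd (nat_lit 78) (nat_lit 608) (nat_lit 0) (XT.lf (nat_lit 0) (nat_lit 6110950093)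 (nat_lit 760) (nat_lit 527323174) (nat_lit 76) (nat_lit 2756233049) (nat_lit 308) (nat_lit 5) (nat_lit 318) (nat_lit 5) (nat_lit 309) (nat_lit 5) (nat_lit 586) (nat_lit 523) (nat_lit 451)) (XT.lf (nat_lit 0) (nat_lit 5877906025) (nat_lit 608) (nat_lit 3058613685) (nat_lit 684) (nat_lit 549306033) (nat_lit 300) (nat_lit 5) (nat_lit 308) (nat_lit 5) (nat_lit 309) (nat_lit 5) (nat_lit 587) (nat_lit 523) (nat_lit 450))))) (XT.nd (nat_lit 156) (nat_lit 1292) (nat_lit 0) (XT.nd (nat_lit 78) (nat_lit 0) (nat_lit 0) (XT.lf (nat_lit 0) (nat_lit 2204591755) (nat_lit 684) (nat_lit 6761132161) (nat_lit 76) (nat_lit 613070882) (nat_lit 291) (nat_lit 5) (nat_lit 300) (nat_lit 5) (nat_lit 292) (nat_lit 5) (nat_lit 588) (nat_lit 523) (nat_lit 449)) (XT.lf (nat_lit 0) (nat_lit 5019569692) (nat_lit 684) (nat_lit 316988503) (nat_lit 76) (nat_lit 4336726038) (nat_lit 291) (nat_lit 5) (nat_lit 300) (nat_lit 5) (nat_lit 292) (nat_lit 5) (nat_lit 589) (nat_lit 523) (nat_lit 448))) (XT.nd (nat_lit 78) (nat_lit 684) (nat_lit 0)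 (XT.lf (nat_lit 0) (nat_lit 6298985071) (nat_lit 608) (nat_lit 1602095996) (nat_lit 684) (nat_lit 1868378457) (nat_lit 283) (nat_lit 5) (nat_lit 291) (nat_lit 5) (nat_lit 292) (nat_lit 5) (nat_lit 590) (nat_lit 523) (nat_lit 447)) (XT.nd (nat_lit 78) (nat_lit 0) (nat_lit 0) (XT.lf (nat_lit 0) (nat_lit 966635785) (nat_lit 684) (nat_lit 6702428881) (nat_lit 76) (nat_lit 2198233508) (nat_lit 274) (nat_lit 5) (nat_lit 283) (nat_lit 5) (nat_lit 275) (nat_lit 5) (nat_lit 591) (nat_lit 523) (nat_lit 446)) (XT.lf (nat_lit 0) (nat_lit 3837170349) (nat_lit 684) (nat_lit 49894352) (nat_lit 76) (nat_lit 6079705850) (nat_lit 274) (nat_lit 5) (nat_lit 283) (nat_lit 5) (nat_lit 275) (nat_lit 5) (nat_lit 592) (nat_lit 523) (nat_lit 445))))))) (XT.nd (nat_lit 780) (nat_lit 3572) (nat_lit 0) (XT.nd (nat_lit 390) (nat_lit 1596) (nat_lit 0) (XT.nd (nat_lit 156) (nat_lit 1140) (nat_lit 0) (XT.nd (nat_lit 78) (nat_lit 608) (nat_lit 0) (XT.lf (nat_lit 0) (nat_lit 6779563062) (nat_lit 608) (nat_lit 3282606582) (nat_lit 76) (nat_lit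 5774471) (nat_lit 267) (nat_lit 5) (nat_lit 275) (nat_lit 5) (nat_lit 268) (nat_lit 5) (nat_lit 593) (nat_lit 523) (nat_lit 444)) (XT.lf (nat_lit 0) (nat_lit 3568299163) (nat_lit 608) (nat_lit 6232370317) (nat_lit 684) (nat_lit 370075031) (nat_lit 259) (nat_lit 5) (nat_lit 267) (nat_lit 5) (nat_lit 268) (nat_lit 5) (nat_lit 594) (nat_lit 523) (nat_lit 443))) (XT.nd (nat_lit 78) (nat_lit 532) (nat_lit 0) (XT.lf (nat_lit 0) (nat_lit 272361331) (nat_lit 532) (nat_lit 2294738699) (nat_lit 608) (nat_lit 7708269282) (nat_lit 251) (nat_lit 5) (nat_lit 258) (nat_lit 5) (nat_lit 259) (nat_lit 5) (nat_lit 595) (nat_lit 523) (nat_lit 442)) (XT.nd (nat_lit 78) (nat_lit 532) (nat_lit 0) (XT.lf (nat_lit 0) (nat_lit 5584841282) (nat_lit 608) (nat_lit 3060911107) (nat_lit 76) (nat_lit 1735750375) (nat_lit 251) (nat_lit 5) (nat_lit 259) (nat_lit 5) (nat_lit 252) (nat_lit 5) (nat_lit 596) (nat_lit 523) (nat_lit 441)) (XT.lf (nat_lit 0) (nat_lit 4018365347) (nat_lit 532) (nat_lit 4657423551) (nat_lit 608) (nat_lit 1813713581)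 (nat_lit 244) (nat_lit 5) (nat_lit 251) (nat_lit 5) (nat_lit 252) (nat_lit 5) (nat_lit 597) (nat_lit 523) (nat_lit 440))))) (XT.nd (nat_lit 156) (nat_lit 1064) (nat_lit 0) (XT.nd (nat_lit 78) (nat_lit 0) (nat_lit 0) (XT.lf (nat_lit 0) (nat_lit 642492752) (nat_lit 456) (nat_lit 566813942) (nat_lit 532) (nat_lit 9390265909) (nat_lit 237) (nat_lit 5) (nat_lit 243) (nat_lit 5) (nat_lit 244) (nat_lit 5) (nat_lit 598) (nat_lit 523) (nat_lit 439)) (XT.lf (nat_lit 0) (nat_lit 4307559848) (nat_lit 532) (nat_lit 2800088537) (nat_lit 76) (nat_lit 3603175399) (nat_lit 237) (nat_lit 5) (nat_lit 244) (nat_lit 5) (nat_lit 238) (nat_lit 5) (nat_lit 599) (nat_lit 523) (nat_lit 438))) (XT.nd (nat_lit 78) (nat_lit 532) (nat_lit 0) (XT.lf (nat_lit 0) (nat_lit 4516784987) (nat_lit 532) (nat_lit 2956536580) (nat_lit 608) (nat_lit 3350868130) (nat_lit 230) (nat_lit 5) (nat_lit 237) (nat_lit 5) (nat_lit 238) (nat_lit 5) (nat_lit 600) (nat_lit 523) (nat_lit 437)) (XT.nd (nat_lit 78) (nat_lit 76) (nat_lit 0) (XT.lf (nat_lit 0) (nat_lit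 1044828508) (nat_lit 456) (nat_lit 9664244104) (nat_lit 532) (nat_lit 230617401) (nat_lit 224) (nat_lit 5) (nat_lit 230) (nat_lit 5) (nat_lit 231) (nat_lit 5) (nat_lit 601) (nat_lit 523) (nat_lit 436)) (XT.lf (nat_lit 0) (nat_lit 2948293501) (nat_lit 532) (nat_lit 2505141344) (nat_lit 76) (nat_lit 5602983268) (nat_lit 223) (nat_lit 5) (nat_lit 230) (nat_lit 5) (nat_lit 224) (nat_lit 5) (nat_lit 602) (nat_lit 523) (nat_lit 435)))))) (XT.nd (nat_lit 390) (nat_lit 1748) (nat_lit 0) (XT.nd (nat_lit 156) (nat_lit 912) (nat_lit 0) (XT.nd (nat_lit 78) (nat_lit 456) (nat_lit 0) (XT.lf (nat_lit 0) (nat_lit 5058894415) (nat_lit 456) (nat_lit 1134968088) (nat_lit 532) (nat_lit 4981464962) (nat_lit 217) (nat_lit 5) (nat_lit 223) (nat_lit 5) (nat_lit 224) (nat_lit 5) (nat_lit 603) (nat_lit 523) (nat_lit 434)) (XT.lf (nat_lit 0) (nat_lit 1471344523) (nat_lit 456) (nat_lit 8054223395) (nat_lit 532) (nat_lit 1770623108) (nat_lit 211) (nat_lit 5) (nat_lit 217) (nat_lit 5) (nat_lit 218) (nat_lit 5) (nat_lit 604) (nat_lit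 523) (nat_lit 433))) (XT.nd (nat_lit 78) (nat_lit 836) (nat_lit 0) (XT.lf (nat_lit 0) (nat_lit 1507153887) (nat_lit 532) (nat_lit 2181018141) (nat_lit 76) (nat_lit 7730655994) (nat_lit 210) (nat_lit 5) (nat_lit 217) (nat_lit 5) (nat_lit 211) (nat_lit 5) (nat_lit 605) (nat_lit 523) (nat_lit 432)) (XT.nd (nat_lit 78) (nat_lit 380) (nat_lit 0) (XT.lf (nat_lit 0) (nat_lit 4842763669) (nat_lit 532) (nat_lit 5908589557) (nat_lit 76) (nat_lit 792011231) (nat_lit 204) (nat_lit 5) (nat_lit 211) (nat_lit 5) (nat_lit 205) (nat_lit 5) (nat_lit 606) (nat_lit 523) (nat_lit 431)) (XT.lf (nat_lit 0) (nat_lit 1929100140) (nat_lit 380) (nat_lit 6341987365) (nat_lit 456) (nat_lit 3398784561) (nat_lit 199) (nat_lit 5) (nat_lit 204) (nat_lit 5) (nat_lit 205) (nat_lit 5) (nat_lit 607) (nat_lit 523) (nat_lit 430))))) (XT.nd (nat_lit 234) (nat_lit 836) (nat_lit 0) (XT.nd (nat_lit 78) (nat_lit 912) (nat_lit 0) (XT.lf (nat_lit 0) (nat_lit 9965858679) (nat_lit 380) (nat_lit 1816346332) (nat_lit 456) (nat_lit 16420748) (nat_lit 199)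 (nat_lit 5) (nat_lit 204) (nat_lit 5) (nat_lit 205) (nat_lit 5) (nat_lit 608) (nat_lit 523) (nat_lit 429)) (XT.nd (nat_lit 78) (nat_lit 380) (nat_lit 0) (XT.lf (nat_lit 0) (nat_lit 3422600358) (nat_lit 532) (nat_lit 5691933864) (nat_lit 76) (nat_lit 2814294051) (nat_lit 192) (nat_lit 5) (nat_lit 199) (nat_lit 5) (nat_lit 193) (nat_lit 5) (nat_lit 609) (nat_lit 523) (nat_lit 428)) (XT.lf (nat_lit 0) (nat_lit 2413293526) (nat_lit 380) (nat_lit 4532048014) (nat_lit 456) (nat_lit 5115988385) (nat_lit 187) (nat_lit 5) (nat_lit 192) (nat_lit 5) (nat_lit 193) (nat_lit 5) (nat_lit 610) (nat_lit 523) (nat_lit 427)))) (XT.nd (nat_lit 78) (nat_lit 836) (nat_lit 0) (XT.lf (nat_lit 0) (nat_lit 10553154946) (nat_lit 456) (nat_lit 1476819160) (nat_lit 76) (nat_lit 166215591) (nat_lit 187) (nat_lit 5) (nat_lit 193) (nat_lit 5) (nat_lit 188) (nat_lit 5) (nat_lit 611) (nat_lit 523) (nat_lit 426)) (XT.nd (nat_lit 78) (nat_lit 380) (nat_lit 0) (XT.lf (nat_lit 0) (nat_lit 1925222330) (nat_lit 456) (nat_lit 5464316796) (nat_lit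 76) (nat_lit 4942946219) (nat_lit 181) (nat_lit 5) (nat_lit 187) (nat_lit 5) (nat_lit 182) (nat_lit 5) (nat_lit 612) (nat_lit 523) (nat_lit 425)) (XT.lf (nat_lit 0) (nat_lit 2919056840) (nat_lit 380) (nat_lit 2628545633) (nat_lit 456) (nat_lit 6923592474) (nat_lit 176) (nat_lit 5) (nat_lit 181) (nat_lit 5) (nat_lit 182) (nat_lit 5) (nat_lit 613) (nat_lit 523) (nat_lit 424))))))))
noncomputable def xc75 : XT := (XT.nd (nat_lit 75192) (nat_lit 0) (nat_lit 31236) (XT.nd (nat_lit 74412) (nat_lit 0) (nat_lit 44992) (XT.nd (nat_lit 390) (nat_lit 380) (nat_lit 0) (XT.nd (nat_lit 156) (nat_lit 760) (nat_lit 0) (XT.nd (nat_lit 78) (nat_lit 456) (nat_lit 0) (XT.lf (nat_lit 0) (nat_lit 9269766234) (nat_lit 456) (nat_lit 1119682319) (nat_lit 76) (nat_lit 2222683873) (nat_lit 176) (nat_lit 5) (nat_lit 182) (nat_lit 5) (nat_lit 177) (nat_lit 5) (nat_lit 614) (nat_lit 523) (nat_lit 423)) (XT.lf (nat_lit 0) (nat_lit 349400584) (nat_lit 456) (nat_lit 5231079884) (nat_lit 76) (nat_lit 7174508497) (nat_lit 170) (nat_lit 5)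 (nat_lit 176) (nat_lit 5) (nat_lit 171) (nat_lit 5) (nat_lit 615) (nat_lit 523) (nat_lit 422))) (XT.nd (nat_lit 78) (nat_lit 380) (nat_lit 0) (XT.lf (nat_lit 0) (nat_lit 3441405433) (nat_lit 380) (nat_lit 635296628) (nat_lit 456) (nat_lit 8823430021) (nat_lit 165) (nat_lit 5) (nat_lit 170) (nat_lit 5) (nat_lit 171) (nat_lit 5) (nat_lit 616) (nat_lit 523) (nat_lit 421)) (XT.nd (nat_lit 78) (nat_lit 380) (nat_lit 0) (XT.lf (nat_lit 0) (nat_lit 7919155037) (nat_lit 456) (nat_lit 754767028) (nat_lit 76) (nat_lit 4373444260) (nat_lit 165) (nat_lit 5) (nat_lit 171) (nat_lit 5) (nat_lit 166) (nat_lit 5) (nat_lit 617) (nat_lit 523) (nat_lit 420)) (XT.lf (nat_lit 0) (nat_lit 8190521063) (nat_lit 380) (nat_lit 3682424413) (nat_lit 456) (nat_lit 1323910376) (nat_lit 160) (nat_lit 5) (nat_lit 165) (nat_lit 5) (nat_lit 166) (nat_lit 5) (nat_lit 618) (nat_lit 523) (nat_lit 419))))) (XT.nd (nat_lit 73788) (nat_lit 0) (nat_lit 47196) (XT.nd (nat_lit 78) (nat_lit 0) (nat_lit 0) (XT.lf (nat_lit 0) (nat_lit 2540401601) (nat_lit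 380) (nat_lit 9383033736) (nat_lit 76) (nat_lit 1425219144) (nat_lit 155) (nat_lit 5) (nat_lit 160) (nat_lit 5) (nat_lit 156) (nat_lit 5) (nat_lit 619) (nat_lit 523) (nat_lit 418)) (XT.lf (nat_lit 0) (nat_lit 6499792766) (nat_lit 380) (nat_lit 387477442) (nat_lit 76) (nat_lit 6615333797) (nat_lit 155) (nat_lit 5) (nat_lit 160) (nat_lit 5) (nat_lit 156) (nat_lit 5) (nat_lit 620) (nat_lit 523) (nat_lit 417))) (XT.nd (nat_lit 78) (nat_lit 380) (nat_lit 0) (XT.lf (nat_lit 0) (nat_lit 2431503587) (nat_lit 380) (nat_lit 402410692) (nat_lit 380) (nat_lit 402410692) (nat_lit 781) (nat_lit 3) (nat_lit 786) (nat_lit 3) (nat_lit 786) (nat_lit 5) (nat_lit 524) (nat_lit 524) (nat_lit 512)) (XT.nd (nat_lit 78) (nat_lit 0) (nat_lit 0) (XT.lf (nat_lit 0) (nat_lit 1226626372) (nat_lit 380) (nat_lit 4035155925) (nat_lit 456) (nat_lit 1219033976) (nat_lit 776) (nat_lit 5) (nat_lit 781) (nat_lit 3) (nat_lit 782) (nat_lit 5) (nat_lit 525) (nat_lit 524) (nat_lit 511)) (XT.lf (nat_lit 0) (nat_lit 4029438103) (nat_lit 380) (nat_lit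 766567904) (nat_lit 456) (nat_lit 1694303666) (nat_lit 776) (nat_lit 5) (nat_lit 781) (nat_lit 3) (nat_lit 782) (nat_lit 5) (nat_lit 526) (nat_lit 524) (nat_lit 510)))))) (XT.nd (nat_lit 390) (nat_lit 1216) (nat_lit 0) (XT.nd (nat_lit 156) (nat_lit 532) (nat_lit 0) (XT.nd (nat_lit 78) (nat_lit 0) (nat_lit 0) (XT.lf (nat_lit 0) (nat_lit 326851861) (nat_lit 456) (nat_lit 3940395592) (nat_lit 532) (nat_lit 2233826226) (nat_lit 770) (nat_lit 5) (nat_lit 776) (nat_lit 5) (nat_lit 777) (nat_lit 5) (nat_lit 527) (nat_lit 524) (nat_lit 509)) (XT.lf (nat_lit 0) (nat_lit 3070655222) (nat_lit 456) (nat_lit 602263031) (nat_lit 532) (nat_lit 2840147573) (nat_lit 770) (nat_lit 5) (nat_lit 776) (nat_lit 5) (nat_lit 777) (nat_lit 5) (nat_lit 528) (nat_lit 524) (nat_lit 508))) (XT.nd (nat_lit 78) (nat_lit 532) (nat_lit 0) (XT.lf (nat_lit 76) (nat_lit 2801291479) (nat_lit 0) (nat_lit 3015709037) (nat_lit 532) (nat_lit 709347626) (nat_lit 771) (nat_lit 5) (nat_lit 770) (nat_lit 5) (nat_lit 777) (nat_lit 5) (nat_lit 529) (nat_lit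 524) (nat_lit 507)) (XT.nd (nat_lit 78) (nat_lit 0) (nat_lit 0) (XT.lf (nat_lit 0) (nat_lit 1985338761) (nat_lit 532) (nat_lit 311016687) (nat_lit 608) (nat_lit 4244589867) (nat_lit 763) (nat_lit 5) (nat_lit 770) (nat_lit 5) (nat_lit 771) (nat_lit 5) (nat_lit 530) (nat_lit 524) (nat_lit 506)) (XT.lf (nat_lit 76) (nat_lit 3170182602) (nat_lit 0) (nat_lit 1506351646) (nat_lit 608) (nat_lit 1880167571) (nat_lit 764) (nat_lit 5) (nat_lit 763) (nat_lit 5) (nat_lit 771) (nat_lit 5) (nat_lit 531) (nat_lit 524) (nat_lit 505))))) (XT.nd (nat_lit 156) (nat_lit 608) (nat_lit 0) (XT.nd (nat_lit 78) (nat_lit 0) (nat_lit 76) (XT.lf (nat_lit 76) (nat_lit 109748732) (nat_lit 0) (nat_lit 662882806) (nat_lit 684) (nat_lit 5801335335) (nat_lit 756) (nat_lit 5) (nat_lit 755) (nat_lit 5) (nat_lit 764) (nat_lit 5) (nat_lit 532) (nat_lit 524) (nat_lit 504)) (XT.lf (nat_lit 0) (nat_lit 3410927069) (nat_lit 608) (nat_lit 2923083491) (nat_lit 684) (nat_lit 258169030) (nat_lit 756) (nat_lit 5) (nat_lit 764) (nat_lit 5) (nat_lit 765)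 (nat_lit 5) (nat_lit 533) (nat_lit 524) (nat_lit 503))) (XT.nd (nat_lit 78) (nat_lit 684) (nat_lit 0) (XT.lf (nat_lit 76) (nat_lit 653918971) (nat_lit 0) (nat_lit 5391444882) (nat_lit 684) (nat_lit 566528372) (nat_lit 757) (nat_lit 5) (nat_lit 756) (nat_lit 5) (nat_lit 765) (nat_lit 5) (nat_lit 534) (nat_lit 524) (nat_lit 502)) (XT.nd (nat_lit 78) (nat_lit 0) (nat_lit 0) (XT.lf (nat_lit 0) (nat_lit 2028025699) (nat_lit 684) (nat_lit 2343035890) (nat_lit 760) (nat_lit 2261566143) (nat_lit 747) (nat_lit 5) (nat_lit 756) (nat_lit 5) (nat_lit 757) (nat_lit 5) (nat_lit 535) (nat_lit 524) (nat_lit 501)) (XT.lf (nat_lit 76) (nat_lit 1318777662) (nat_lit 0) (nat_lit 3293283136) (nat_lit 760) (nat_lit 2042741732) (nat_lit 748) (nat_lit 5) (nat_lit 747) (nat_lit 5) (nat_lit 757) (nat_lit 5) (nat_lit 536) (nat_lit 524) (nat_lit 500))))))) (XT.nd (nat_lit 780) (nat_lit 9348) (nat_lit 0) (XT.nd (nat_lit 390) (nat_lit 2052) (nat_lit 0) (XT.nd (nat_lit 156) (nat_lit 1596) (nat_lit 0) (XT.nd (nat_lit 78) (nat_lit 0) (nat_lit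 0) (XT.lf (nat_lit 0) (nat_lit 515884406) (nat_lit 760) (nat_lit 1634873717) (nat_lit 836) (nat_lit 4527531332) (nat_lit 737) (nat_lit 5) (nat_lit 747) (nat_lit 5) (nat_lit 748) (nat_lit 5) (nat_lit 537) (nat_lit 524) (nat_lit 499)) (XT.lf (nat_lit 76) (nat_lit 2115748181) (nat_lit 0) (nat_lit 934758532) (nat_lit 836) (nat_lit 3652428655) (nat_lit 738) (nat_lit 5) (nat_lit 737) (nat_lit 5) (nat_lit 748) (nat_lit 5) (nat_lit 538) (nat_lit 524) (nat_lit 498))) (XT.nd (nat_lit 78) (nat_lit 1672) (nat_lit 0) (XT.lf (nat_lit 0) (nat_lit 5588363496) (nat_lit 760) (nat_lit 806244103) (nat_lit 76) (nat_lit 334418520) (nat_lit 738) (nat_lit 5) (nat_lit 748) (nat_lit 5) (nat_lit 739) (nat_lit 5) (nat_lit 539) (nat_lit 524) (nat_lit 497)) (XT.nd (nat_lit 78) (nat_lit 836) (nat_lit 0) (XT.lf (nat_lit 0) (nat_lit 1369135155) (nat_lit 836) (nat_lit 3720347483) (nat_lit 76) (nat_lit 1666645388) (nat_lit 727) (nat_lit 5) (nat_lit 738) (nat_lit 5) (nat_lit 728) (nat_lit 5) (nat_lit 540) (nat_lit 524) (nat_lit 496)) (XT.lf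 (nat_lit 0) (nat_lit 136489908) (nat_lit 836) (nat_lit 3724933991) (nat_lit 912) (nat_lit 2923248508) (nat_lit 716) (nat_lit 5) (nat_lit 727) (nat_lit 5) (nat_lit 728) (nat_lit 5) (nat_lit 541) (nat_lit 524) (nat_lit 495))))) (XT.nd (nat_lit 156) (nat_lit 1064) (nat_lit 0) (XT.nd (nat_lit 78) (nat_lit 988) (nat_lit 0) (XT.lf (nat_lit 0) (nat_lit 4081533937) (nat_lit 836) (nat_lit 2289108799) (nat_lit 912) (nat_lit 443805806) (nat_lit 716) (nat_lit 5) (nat_lit 727) (nat_lit 5) (nat_lit 728) (nat_lit 5) (nat_lit 542) (nat_lit 524) (nat_lit 494)) (XT.lf (nat_lit 0) (nat_lit 1223820367) (nat_lit 912) (nat_lit 784878607) (nat_lit 988) (nat_lit 4836836478) (nat_lit 703) (nat_lit 5) (nat_lit 715) (nat_lit 5) (nat_lit 716) (nat_lit 5) (nat_lit 543) (nat_lit 524) (nat_lit 493))) (XT.nd (nat_lit 78) (nat_lit 1064) (nat_lit 0) (XT.lf (nat_lit 0) (nat_lit 4471496652) (nat_lit 988) (nat_lit 1628398679) (nat_lit 76) (nat_lit 777948795) (nat_lit 703) (nat_lit 5) (nat_lit 716) (nat_lit 5) (nat_lit 704) (nat_lit 5) (nat_lit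 544) (nat_lit 524) (nat_lit 492)) (XT.nd (nat_lit 78) (nat_lit 0) (nat_lit 0) (XT.lf (nat_lit 0) (nat_lit 37511074) (nat_lit 1064) (nat_lit 4479787328) (nat_lit 76) (nat_lit 2394179158) (nat_lit 689) (nat_lit 5) (nat_lit 703) (nat_lit 5) (nat_lit 690) (nat_lit 5) (nat_lit 545) (nat_lit 524) (nat_lit 491)) (XT.lf (nat_lit 0) (nat_lit 2454472776) (nat_lit 1064) (nat_lit 406526367) (nat_lit 76) (nat_lit 4085339727) (nat_lit 689) (nat_lit 5) (nat_lit 703) (nat_lit 5) (nat_lit 690) (nat_lit 5) (nat_lit 546) (nat_lit 524) (nat_lit 490)))))) (XT.nd (nat_lit 390) (nat_lit 5776) (nat_lit 0) (XT.nd (nat_lit 156) (nat_lit 1292) (nat_lit 0) (XT.nd (nat_lit 78) (nat_lit 1216) (nat_lit 0) (XT.lf (nat_lit 0) (nat_lit 3758267517) (nat_lit 1064) (nat_lit 1132394692) (nat_lit 1140) (nat_lit 2091819649) (nat_lit 675) (nat_lit 5) (nat_lit 689) (nat_lit 5) (nat_lit 690) (nat_lit 5) (nat_lit 547) (nat_lit 524) (nat_lit 489)) (XT.lf (nat_lit 0) (nat_lit 311745263) (nat_lit 1216) (nat_lit 6061237900) (nat_lit 76) (nat_lit 647116630)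 (nat_lit 659) (nat_lit 5) (nat_lit 675) (nat_lit 5) (nat_lit 660) (nat_lit 5) (nat_lit 548) (nat_lit 524) (nat_lit 488))) (XT.nd (nat_lit 78) (nat_lit 1292) (nat_lit 0) (XT.lf (nat_lit 0) (nat_lit 2712477538) (nat_lit 1216) (nat_lit 1850770644) (nat_lit 76) (nat_lit 2495405348) (nat_lit 659) (nat_lit 5) (nat_lit 675) (nat_lit 5) (nat_lit 660) (nat_lit 5) (nat_lit 549) (nat_lit 524) (nat_lit 487)) (XT.nd (nat_lit 78) (nat_lit 76) (nat_lit 0) (XT.lf (nat_lit 0) (nat_lit 2436108595) (nat_lit 1216) (nat_lit 2689756798) (nat_lit 1292) (nat_lit 1972822185) (nat_lit 643) (nat_lit 5) (nat_lit 659) (nat_lit 5) (nat_lit 660) (nat_lit 5) (nat_lit 550) (nat_lit 524) (nat_lit 486)) (XT.lf (nat_lit 0) (nat_lit 403860240) (nat_lit 1292) (nat_lit 348614240) (nat_lit 76) (nat_lit 6387756880) (nat_lit 642) (nat_lit 5) (nat_lit 659) (nat_lit 5) (nat_lit 643) (nat_lit 5) (nat_lit 551) (nat_lit 524) (nat_lit 485))))) (XT.nd (nat_lit 234) (nat_lit 3040) (nat_lit 0) (XT.nd (nat_lit 78) (nat_lit 1444) (nat_lit 0) (XT.lf (nat_lit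 0) (nat_lit 2786498369) (nat_lit 1368) (nat_lit 3138751306) (nat_lit 76) (nat_lit 1257400709) (nat_lit 625) (nat_lit 5) (nat_lit 643) (nat_lit 5) (nat_lit 626) (nat_lit 5) (nat_lit 552) (nat_lit 524) (nat_lit 484)) (XT.nd (nat_lit 78) (nat_lit 76) (nat_lit 0) (XT.lf (nat_lit 0) (nat_lit 1274672756) (nat_lit 1368) (nat_lit 3908747680) (nat_lit 1444) (nat_lit 2043166624) (nat_lit 607) (nat_lit 5) (nat_lit 625) (nat_lit 5) (nat_lit 626) (nat_lit 5) (nat_lit 553) (nat_lit 524) (nat_lit 483)) (XT.lf (nat_lit 0) (nat_lit 324796935) (nat_lit 1444) (nat_lit 1495072656) (nat_lit 76) (nat_lit 5452036380) (nat_lit 606) (nat_lit 5) (nat_lit 625) (nat_lit 5) (nat_lit 607) (nat_lit 5) (nat_lit 554) (nat_lit 524) (nat_lit 482)))) (XT.nd (nat_lit 78) (nat_lit 1596) (nat_lit 0) (XT.lf (nat_lit 0) (nat_lit 2687147693) (nat_lit 1520) (nat_lit 4283250303) (nat_lit 76) (nat_lit 347977224) (nat_lit 587) (nat_lit 5) (nat_lit 607) (nat_lit 5) (nat_lit 588) (nat_lit 5) (nat_lit 555) (nat_lit 524) (nat_lit 481)) (XT.nd (nat_lit 78)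 (nat_lit 76) (nat_lit 0) (XT.lf (nat_lit 0) (nat_lit 261449771) (nat_lit 1520) (nat_lit 4812220810) (nat_lit 1596) (nat_lit 2292566524) (nat_lit 567) (nat_lit 5) (nat_lit 587) (nat_lit 5) (nat_lit 588) (nat_lit 5) (nat_lit 556) (nat_lit 524) (nat_lit 480)) (XT.lf (nat_lit 0) (nat_lit 74010157) (nat_lit 1596) (nat_lit 2501004519) (nat_lit 76) (nat_lit 4840383967) (nat_lit 566) (nat_lit 5) (nat_lit 587) (nat_lit 5) (nat_lit 567) (nat_lit 5) (nat_lit 557) (nat_lit 524) (nat_lit 479))))))))
noncomputable def xc76 : XT := (XT.nd (nat_lit 1560) (nat_lit 9348) (nat_lit 0) (XT.nd (nat_lit 780) (nat_lit 5168) (nat_lit 0) (XT.nd (nat_lit 390) (nat_lit 4940) (nat_lit 0) (XT.nd (nat_lit 156) (nat_lit 3496) (nat_lit 0) (XT.nd (nat_lit 78) (nat_lit 0) (nat_lit 0) (XT.lf (nat_lit 0) (nat_lit 2168072452) (nat_lit 1596) (nat_lit 257594126) (nat_lit 1672) (nat_lit 5040206494) (nat_lit 545) (nat_lit 5) (nat_lit 566) (nat_lit 5) (nat_lit 567) (nat_lit 5) (nat_lit 558) (nat_lit 524) (nat_lit 478)) (XT.lf (nat_lit 0) (nat_lit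 4809936600) (nat_lit 1672) (nat_lit 607080812) (nat_lit 76) (nat_lit 2100629585) (nat_lit 545) (nat_lit 5) (nat_lit 567) (nat_lit 5) (nat_lit 546) (nat_lit 5) (nat_lit 559) (nat_lit 524) (nat_lit 477))) (XT.nd (nat_lit 78) (nat_lit 1824) (nat_lit 0) (XT.lf (nat_lit 0) (nat_lit 4190802369) (nat_lit 1672) (nat_lit 3035898754) (nat_lit 1748) (nat_lit 344060684) (nat_lit 523) (nat_lit 5) (nat_lit 545) (nat_lit 5) (nat_lit 546) (nat_lit 5) (nat_lit 560) (nat_lit 524) (nat_lit 476)) (XT.nd (nat_lit 78) (nat_lit 0) (nat_lit 0) (XT.lf (nat_lit 0) (nat_lit 1433135203) (nat_lit 1748) (nat_lit 576236755) (nat_lit 1824) (nat_lit 5615907746) (nat_lit 499) (nat_lit 5) (nat_lit 522) (nat_lit 5) (nat_lit 523) (nat_lit 5) (nat_lit 561) (nat_lit 524) (nat_lit 475)) (XT.lf (nat_lit 0) (nat_lit 4397481532) (nat_lit 1824) (nat_lit 1347953631) (nat_lit 76) (nat_lit 1935564503) (nat_lit 499) (nat_lit 5) (nat_lit 523) (nat_lit 5) (nat_lit 500) (nat_lit 5) (nat_lit 562) (nat_lit 524) (nat_lit 474))))) (XT.nd (nat_lit 156) (nat_lit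 1900) (nat_lit 0) (XT.nd (nat_lit 78) (nat_lit 1216) (nat_lit 0) (XT.lf (nat_lit 0) (nat_lit 3596422969) (nat_lit 1824) (nat_lit 3221774854) (nat_lit 1900) (nat_lit 919940777) (nat_lit 475) (nat_lit 5) (nat_lit 499) (nat_lit 5) (nat_lit 500) (nat_lit 5) (nat_lit 563) (nat_lit 524) (nat_lit 473)) (XT.lf (nat_lit 0) (nat_lit 822419733) (nat_lit 1140) (nat_lit 621351580) (nat_lit 1216) (nat_lit 6353008476) (nat_lit 459) (nat_lit 5) (nat_lit 474) (nat_lit 5) (nat_lit 475) (nat_lit 5) (nat_lit 564) (nat_lit 524) (nat_lit 472))) (XT.nd (nat_lit 78) (nat_lit 1900) (nat_lit 0) (XT.lf (nat_lit 0) (nat_lit 3842159905) (nat_lit 1216) (nat_lit 1974441956) (nat_lit 76) (nat_lit 2039877300) (nat_lit 459) (nat_lit 5) (nat_lit 475) (nat_lit 5) (nat_lit 460) (nat_lit 5) (nat_lit 565) (nat_lit 524) (nat_lit 471)) (XT.nd (nat_lit 78) (nat_lit 988) (nat_lit 0) (XT.lf (nat_lit 0) (nat_lit 3122189670) (nat_lit 912) (nat_lit 3150070169) (nat_lit 988) (nat_lit 1645439166) (nat_lit 447) (nat_lit 5) (nat_lit 459) (nat_lit 5) (nat_lit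 460) (nat_lit 5) (nat_lit 566) (nat_lit 524) (nat_lit 470)) (XT.lf (nat_lit 0) (nat_lit 326436735) (nat_lit 912) (nat_lit 409357686) (nat_lit 988) (nat_lit 7244748325) (nat_lit 434) (nat_lit 5) (nat_lit 446) (nat_lit 5) (nat_lit 447) (nat_lit 5) (nat_lit 567) (nat_lit 524) (nat_lit 469)))))) (XT.nd (nat_lit 390) (nat_lit 2508) (nat_lit 0) (XT.nd (nat_lit 156) (nat_lit 1824) (nat_lit 0) (XT.nd (nat_lit 78) (nat_lit 836) (nat_lit 0) (XT.lf (nat_lit 0) (nat_lit 3150684746) (nat_lit 988) (nat_lit 2495698669) (nat_lit 76) (nat_lit 2397882406) (nat_lit 434) (nat_lit 5) (nat_lit 447) (nat_lit 5) (nat_lit 435) (nat_lit 5) (nat_lit 568) (nat_lit 524) (nat_lit 468)) (XT.lf (nat_lit 0) (nat_lit 2759233710) (nat_lit 836) (nat_lit 2836203941) (nat_lit 912) (nat_lit 2514195662) (nat_lit 423) (nat_lit 5) (nat_lit 434) (nat_lit 5) (nat_lit 435) (nat_lit 5) (nat_lit 569) (nat_lit 524) (nat_lit 467))) (XT.nd (nat_lit 78) (nat_lit 1824) (nat_lit 0) (XT.lf (nat_lit 0) (nat_lit 8067577615) (nat_lit 912) (nat_lit 63805349) (nat_lit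 76) (nat_lit 45356578) (nat_lit 423) (nat_lit 5) (nat_lit 435) (nat_lit 5) (nat_lit 424) (nat_lit 5) (nat_lit 570) (nat_lit 524) (nat_lit 466)) (XT.nd (nat_lit 78) (nat_lit 836) (nat_lit 0) (XT.lf (nat_lit 0) (nat_lit 2328980414) (nat_lit 988) (nat_lit 2920249433) (nat_lit 76) (nat_lit 2995339863) (nat_lit 410) (nat_lit 5) (nat_lit 423) (nat_lit 5) (nat_lit 411) (nat_lit 5) (nat_lit 571) (nat_lit 524) (nat_lit 465)) (XT.lf (nat_lit 0) (nat_lit 2499316766) (nat_lit 836) (nat_lit 2294196681) (nat_lit 912) (nat_lit 3520647968) (nat_lit 399) (nat_lit 5) (nat_lit 410) (nat_lit 5) (nat_lit 411) (nat_lit 5) (nat_lit 572) (nat_lit 524) (nat_lit 464))))) (XT.nd (nat_lit 156) (nat_lit 1596) (nat_lit 0) (XT.nd (nat_lit 78) (nat_lit 912) (nat_lit 0) (XT.lf (nat_lit 0) (nat_lit 7294628269) (nat_lit 912) (nat_lit 363221764) (nat_lit 76) (nat_lit 727550233) (nat_lit 399) (nat_lit 5) (nat_lit 411) (nat_lit 5) (nat_lit 400) (nat_lit 5) (nat_lit 573) (nat_lit 524) (nat_lit 463)) (XT.lf (nat_lit 0) (nat_lit 1382228105) (nat_lit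 912) (nat_lit 3256053350) (nat_lit 76) (nat_lit 3819348798) (nat_lit 387) (nat_lit 5) (nat_lit 399) (nat_lit 5) (nat_lit 388) (nat_lit 5) (nat_lit 574) (nat_lit 524) (nat_lit 462))) (XT.nd (nat_lit 78) (nat_lit 836) (nat_lit 0) (XT.lf (nat_lit 0) (nat_lit 2334770766) (nat_lit 760) (nat_lit 1536774486) (nat_lit 836) (nat_lit 4659987207) (nat_lit 377) (nat_lit 5) (nat_lit 387) (nat_lit 5) (nat_lit 388) (nat_lit 5) (nat_lit 575) (nat_lit 524) (nat_lit 461)) (XT.nd (nat_lit 78) (nat_lit 836) (nat_lit 0) (XT.lf (nat_lit 0) (nat_lit 6407467306) (nat_lit 836) (nat_lit 576010464) (nat_lit 76) (nat_lit 1623499613) (nat_lit 377) (nat_lit 5) (nat_lit 388) (nat_lit 5) (nat_lit 378) (nat_lit 5) (nat_lit 576) (nat_lit 524) (nat_lit 460)) (XT.lf (nat_lit 0) (nat_lit 314906793) (nat_lit 836) (nat_lit 3510560476) (nat_lit 76) (nat_lit 4858248701) (nat_lit 366) (nat_lit 5) (nat_lit 377) (nat_lit 5) (nat_lit 367) (nat_lit 5) (nat_lit 577) (nat_lit 524) (nat_lit 459))))))) (XT.nd (nat_lit 780) (nat_lit 4332) (nat_lit 0) (XT.nd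 (nat_lit 390) (nat_lit 2736) (nat_lit 0) (XT.nd (nat_lit 156) (nat_lit 1520) (nat_lit 0) (XT.nd (nat_lit 78) (nat_lit 0) (nat_lit 0) (XT.lf (nat_lit 0) (nat_lit 2258440811) (nat_lit 760) (nat_lit 575465782) (nat_lit 836) (nat_lit 5928118028) (nat_lit 356) (nat_lit 5) (nat_lit 366) (nat_lit 5) (nat_lit 367) (nat_lit 5) (nat_lit 578) (nat_lit 524) (nat_lit 458)) (XT.lf (nat_lit 0) (nat_lit 5410344467) (nat_lit 836) (nat_lit 709144537) (nat_lit 76) (nat_lit 2722270245) (nat_lit 356) (nat_lit 5) (nat_lit 367) (nat_lit 5) (nat_lit 357) (nat_lit 5) (nat_lit 579) (nat_lit 524) (nat_lit 457))) (XT.nd (nat_lit 78) (nat_lit 760) (nat_lit 0) (XT.lf (nat_lit 0) (nat_lit 5226525141) (nat_lit 760) (nat_lit 2815763874) (nat_lit 836) (nat_lit 880720945) (nat_lit 346) (nat_lit 5) (nat_lit 356) (nat_lit 5) (nat_lit 357) (nat_lit 5) (nat_lit 580) (nat_lit 524) (nat_lit 456)) (XT.nd (nat_lit 78) (nat_lit 0) (nat_lit 0) (XT.lf (nat_lit 0) (nat_lit 1688083206) (nat_lit 760) (nat_lit 6746075466) (nat_lit 76) (nat_lit 571711098)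 (nat_lit 336) (nat_lit 5) (nat_lit 346) (nat_lit 5) (nat_lit 337) (nat_lit 5) (nat_lit 581) (nat_lit 524) (nat_lit 455)) (XT.lf (nat_lit 0) (nat_lit 4306880936) (nat_lit 760) (nat_lit 769175468) (nat_lit 76) (nat_lit 4014006629) (nat_lit 336) (nat_lit 5) (nat_lit 346) (nat_lit 5) (nat_lit 337) (nat_lit 5) (nat_lit 582) (nat_lit 524) (nat_lit 454))))) (XT.nd (nat_lit 156) (nat_lit 1292) (nat_lit 0) (XT.nd (nat_lit 78) (nat_lit 760) (nat_lit 0) (XT.lf (nat_lit 0) (nat_lit 5358375520) (nat_lit 684) (nat_lit 1621902805) (nat_lit 760) (nat_lit 2195618237) (nat_lit 327) (nat_lit 5) (nat_lit 336) (nat_lit 5) (nat_lit 337) (nat_lit 5) (nat_lit 583) (nat_lit 524) (nat_lit 453)) (XT.lf (nat_lit 0) (nat_lit 438352119) (nat_lit 760) (nat_lit 6932032195) (nat_lit 76) (nat_lit 1892996186) (nat_lit 317) (nat_lit 5) (nat_lit 327) (nat_lit 5) (nat_lit 318) (nat_lit 5) (nat_lit 584) (nat_lit 524) (nat_lit 452))) (XT.nd (nat_lit 78) (nat_lit 1292) (nat_lit 0) (XT.lf (nat_lit 0) (nat_lit 3100099509) (nat_lit 760) (nat_lit 762283653)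 (nat_lit 76) (nat_lit 5489851581) (nat_lit 317) (nat_lit 5) (nat_lit 327) (nat_lit 5) (nat_lit 318) (nat_lit 5) (nat_lit 585) (nat_lit 524) (nat_lit 451)) (XT.nd (nat_lit 78) (nat_lit 608) (nat_lit 0) (XT.lf (nat_lit 0) (nat_lit 5564949901) (nat_lit 684) (nat_lit 254833061) (nat_lit 760) (nat_lit 3622989895) (nat_lit 308) (nat_lit 5) (nat_lit 317) (nat_lit 5) (nat_lit 318) (nat_lit 5) (nat_lit 586) (nat_lit 524) (nat_lit 450)) (XT.lf (nat_lit 0) (nat_lit 2464886393) (nat_lit 608) (nat_lit 6141249082) (nat_lit 684) (nat_lit 928741544) (nat_lit 300) (nat_lit 5) (nat_lit 308) (nat_lit 5) (nat_lit 309) (nat_lit 5) (nat_lit 587) (nat_lit 524) (nat_lit 449)))))) (XT.nd (nat_lit 390) (nat_lit 2356) (nat_lit 0) (XT.nd (nat_lit 156) (nat_lit 1292) (nat_lit 0) (XT.nd (nat_lit 78) (nat_lit 608) (nat_lit 0) (XT.lf (nat_lit 0) (nat_lit 1792451028) (nat_lit 684) (nat_lit 694327190) (nat_lit 76) (nat_lit 7141871137) (nat_lit 299) (nat_lit 5) (nat_lit 308) (nat_lit 5) (nat_lit 300) (nat_lit 5) (nat_lit 588) (nat_lit 524)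 (nat_lit 448)) (XT.lf (nat_lit 0) (nat_lit 4571505102) (nat_lit 684) (nat_lit 3891611702) (nat_lit 76) (nat_lit 1260740832) (nat_lit 291) (nat_lit 5) (nat_lit 300) (nat_lit 5) (nat_lit 292) (nat_lit 5) (nat_lit 589) (nat_lit 524) (nat_lit 447))) (XT.nd (nat_lit 78) (nat_lit 684) (nat_lit 0) (XT.lf (nat_lit 0) (nat_lit 2657349920) (nat_lit 608) (nat_lit 4757140435) (nat_lit 684) (nat_lit 2406313458) (nat_lit 283) (nat_lit 5) (nat_lit 291) (nat_lit 5) (nat_lit 292) (nat_lit 5) (nat_lit 590) (nat_lit 524) (nat_lit 446)) (XT.nd (nat_lit 78) (nat_lit 608) (nat_lit 0) (XT.lf (nat_lit 0) (nat_lit 385837259) (nat_lit 684) (nat_lit 570889302) (nat_lit 76) (nat_lit 8962984476) (nat_lit 282) (nat_lit 5) (nat_lit 291) (nat_lit 5) (nat_lit 283) (nat_lit 5) (nat_lit 591) (nat_lit 524) (nat_lit 445)) (XT.lf (nat_lit 0) (nat_lit 3231703309) (nat_lit 684) (nat_lit 3858949593) (nat_lit 76) (nat_lit 2929024223) (nat_lit 274) (nat_lit 5) (nat_lit 283) (nat_lit 5) (nat_lit 275) (nat_lit 5) (nat_lit 592) (nat_lit 524) (nat_lit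 444))))) (XT.nd (nat_lit 234) (nat_lit 1140) (nat_lit 0) (XT.nd (nat_lit 78) (nat_lit 684) (nat_lit 0) (XT.lf (nat_lit 0) (nat_lit 2906370296) (nat_lit 532) (nat_lit 3228114335) (nat_lit 608) (nat_lit 3987158621) (nat_lit 267) (nat_lit 5) (nat_lit 274) (nat_lit 5) (nat_lit 275) (nat_lit 5) (nat_lit 593) (nat_lit 524) (nat_lit 443)) (XT.nd (nat_lit 78) (nat_lit 684) (nat_lit 0) (XT.lf (nat_lit 0) (nat_lit 9097204325) (nat_lit 608) (nat_lit 409412671) (nat_lit 76) (nat_lit 718994716) (nat_lit 267) (nat_lit 5) (nat_lit 275) (nat_lit 5) (nat_lit 268) (nat_lit 5) (nat_lit 594) (nat_lit 524) (nat_lit 442)) (XT.lf (nat_lit 0) (nat_lit 1800035754) (nat_lit 684) (nat_lit 3783611365) (nat_lit 76) (nat_lit 4747061734) (nat_lit 258) (nat_lit 5) (nat_lit 267) (nat_lit 5) (nat_lit 259) (nat_lit 5) (nat_lit 595) (nat_lit 524) (nat_lit 441)))) (XT.nd (nat_lit 78) (nat_lit 608) (nat_lit 0) (XT.lf (nat_lit 0) (nat_lit 3206843041) (nat_lit 532) (nat_lit 1560578591) (nat_lit 608) (nat_lit 5670428090) (nat_lit 251) (nat_lit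 5) (nat_lit 258) (nat_lit 5) (nat_lit 259) (nat_lit 5) (nat_lit 596) (nat_lit 524) (nat_lit 440)) (XT.nd (nat_lit 78) (nat_lit 608) (nat_lit 0) (XT.lf (nat_lit 0) (nat_lit 7808346181) (nat_lit 608) (nat_lit 213308912) (nat_lit 76) (nat_lit 2525195109) (nat_lit 251) (nat_lit 5) (nat_lit 259) (nat_lit 5) (nat_lit 252) (nat_lit 5) (nat_lit 597) (nat_lit 524) (nat_lit 439)) (XT.lf (nat_lit 0) (nat_lit 277317339) (nat_lit 608) (nat_lit 3670872109) (nat_lit 76) (nat_lit 6709237811) (nat_lit 243) (nat_lit 5) (nat_lit 251) (nat_lit 5) (nat_lit 244) (nat_lit 5) (nat_lit 598) (nat_lit 524) (nat_lit 438))))))))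
noncomputable def xc77 : XT := (XT.nd (nat_lit 75426) (nat_lit 0) (nat_lit 40204) (XT.nd (nat_lit 780) (nat_lit 2964) (nat_lit 0) (XT.nd (nat_lit 390) (nat_lit 1368) (nat_lit 0) (XT.nd (nat_lit 156) (nat_lit 988) (nat_lit 0) (XT.nd (nat_lit 78) (nat_lit 532) (nat_lit 0) (XT.lf (nat_lit 0) (nat_lit 3315674168) (nat_lit 532) (nat_lit 7217640324) (nat_lit 76) (nat_lit 236562161) (nat_lit 237) (nat_lit 5) (nat_lit 244) (nat_lit 5) (nat_lit 238) (nat_lit 5) (nat_lit 599) (nat_lit 524) (nat_lit 437)) (XT.lf (nat_lit 0) (nat_lit 21473070) (nat_lit 532) (nat_lit 6417411778) (nat_lit 608) (nat_lit 4445209017) (nat_lit 230) (nat_lit 5) (nat_lit 237) (nat_lit 5) (nat_lit 238) (nat_lit 5) (nat_lit 600) (nat_lit 524) (nat_lit 436))) (XT.nd (nat_lit 78) (nat_lit 988) (nat_lit 0) (XT.lf (nat_lit 0) (nat_lit 7465472957) (nat_lit 532) (nat_lit 2180809033) (nat_lit 608) (nat_lit 1353879545) (nat_lit 230) (nat_lit 5) (nat_lit 237) (nat_lit 5) (nat_lit 238) (nat_lit 5) (nat_lit 601) (nat_lit 524) (nat_lit 435)) (XT.nd (nat_lit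 78) (nat_lit 456) (nat_lit 0) (XT.lf (nat_lit 0) (nat_lit 1788987065) (nat_lit 532) (nat_lit 7189923289) (nat_lit 76) (nat_lit 2139140926) (nat_lit 223) (nat_lit 5) (nat_lit 230) (nat_lit 5) (nat_lit 224) (nat_lit 5) (nat_lit 602) (nat_lit 524) (nat_lit 434)) (XT.lf (nat_lit 0) (nat_lit 293018602) (nat_lit 456) (nat_lit 4697644939) (nat_lit 532) (nat_lit 6247175200) (nat_lit 217) (nat_lit 5) (nat_lit 223) (nat_lit 5) (nat_lit 224) (nat_lit 5) (nat_lit 603) (nat_lit 524) (nat_lit 433))))) (XT.nd (nat_lit 156) (nat_lit 836) (nat_lit 0) (XT.nd (nat_lit 78) (nat_lit 532) (nat_lit 0) (XT.lf (nat_lit 0) (nat_lit 7985778798) (nat_lit 456) (nat_lit 292956042) (nat_lit 532) (nat_lit 3080840400) (nat_lit 217) (nat_lit 5) (nat_lit 223) (nat_lit 5) (nat_lit 224) (nat_lit 5) (nat_lit 604) (nat_lit 524) (nat_lit 432)) (XT.lf (nat_lit 0) (nat_lit 177070254) (nat_lit 532) (nat_lit 7143000970) (nat_lit 76) (nat_lit 4163052393) (nat_lit 210) (nat_lit 5) (nat_lit 217) (nat_lit 5) (nat_lit 211) (nat_lit 5) (nat_lit 605) (nat_lit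 524) (nat_lit 431))) (XT.nd (nat_lit 78) (nat_lit 380) (nat_lit 0) (XT.lf (nat_lit 0) (nat_lit 593554385) (nat_lit 456) (nat_lit 2868595686) (nat_lit 532) (nat_lit 8146520820) (nat_lit 204) (nat_lit 5) (nat_lit 210) (nat_lit 5) (nat_lit 211) (nat_lit 5) (nat_lit 606) (nat_lit 524) (nat_lit 430)) (XT.nd (nat_lit 78) (nat_lit 380) (nat_lit 0) (XT.lf (nat_lit 0) (nat_lit 6846860085) (nat_lit 532) (nat_lit 3202558905) (nat_lit 76) (nat_lit 1686632022) (nat_lit 204) (nat_lit 5) (nat_lit 211) (nat_lit 5) (nat_lit 205) (nat_lit 5) (nat_lit 607) (nat_lit 524) (nat_lit 429)) (XT.lf (nat_lit 0) (nat_lit 4773304307) (nat_lit 380) (nat_lit 5551265166) (nat_lit 456) (nat_lit 1540903622) (nat_lit 199) (nat_lit 5) (nat_lit 204) (nat_lit 5) (nat_lit 205) (nat_lit 5) (nat_lit 608) (nat_lit 524) (nat_lit 428)))))) (XT.nd (nat_lit 390) (nat_lit 1596) (nat_lit 0) (XT.nd (nat_lit 156) (nat_lit 836) (nat_lit 0) (XT.nd (nat_lit 78) (nat_lit 0) (nat_lit 0) (XT.lf (nat_lit 0) (nat_lit 918134328) (nat_lit 456) (nat_lit 934629346)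 (nat_lit 532) (nat_lit 10144417070) (nat_lit 192) (nat_lit 5) (nat_lit 198) (nat_lit 5) (nat_lit 199) (nat_lit 5) (nat_lit 609) (nat_lit 524) (nat_lit 427)) (XT.lf (nat_lit 0) (nat_lit 5341673935) (nat_lit 532) (nat_lit 3017622393) (nat_lit 76) (nat_lit 3771062902) (nat_lit 192) (nat_lit 5) (nat_lit 199) (nat_lit 5) (nat_lit 193) (nat_lit 5) (nat_lit 610) (nat_lit 524) (nat_lit 426))) (XT.nd (nat_lit 78) (nat_lit 456) (nat_lit 0) (XT.lf (nat_lit 0) (nat_lit 5231366451) (nat_lit 380) (nat_lit 3685200216) (nat_lit 456) (nat_lit 3349310963) (nat_lit 187) (nat_lit 5) (nat_lit 192) (nat_lit 5) (nat_lit 193) (nat_lit 5) (nat_lit 611) (nat_lit 524) (nat_lit 425)) (XT.nd (nat_lit 78) (nat_lit 0) (nat_lit 0) (XT.lf (nat_lit 0) (nat_lit 168615959) (nat_lit 456) (nat_lit 11149379463) (nat_lit 76) (nat_lit 1085853791) (nat_lit 181) (nat_lit 5) (nat_lit 187) (nat_lit 5) (nat_lit 182) (nat_lit 5) (nat_lit 612) (nat_lit 524) (nat_lit 424)) (XT.lf (nat_lit 0) (nat_lit 3760302857) (nat_lit 456) (nat_lit 2822270000) (nat_lit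 76) (nat_lit 5960600024) (nat_lit 181) (nat_lit 5) (nat_lit 187) (nat_lit 5) (nat_lit 182) (nat_lit 5) (nat_lit 613) (nat_lit 524) (nat_lit 423))))) (XT.nd (nat_lit 156) (nat_lit 836) (nat_lit 0) (XT.nd (nat_lit 78) (nat_lit 380) (nat_lit 0) (XT.lf (nat_lit 0) (nat_lit 5710670234) (nat_lit 380) (nat_lit 1726979344) (nat_lit 456) (nat_lit 5247357318) (nat_lit 176) (nat_lit 5) (nat_lit 181) (nat_lit 5) (nat_lit 182) (nat_lit 5) (nat_lit 614) (nat_lit 524) (nat_lit 422)) (XT.lf (nat_lit 0) (nat_lit 1587220436) (nat_lit 380) (nat_lit 9628530671) (nat_lit 456) (nat_lit 1613382716) (nat_lit 171) (nat_lit 5) (nat_lit 176) (nat_lit 5) (nat_lit 177) (nat_lit 5) (nat_lit 615) (nat_lit 524) (nat_lit 421))) (XT.nd (nat_lit 78) (nat_lit 760) (nat_lit 0) (XT.lf (nat_lit 0) (nat_lit 2101331314) (nat_lit 456) (nat_lit 2621823020) (nat_lit 76) (nat_lit 8252007239) (nat_lit 170) (nat_lit 5) (nat_lit 176) (nat_lit 5) (nat_lit 171) (nat_lit 5) (nat_lit 616) (nat_lit 524) (nat_lit 420)) (XT.nd (nat_lit 78) (nat_lit 380) (nat_lit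 0) (XT.lf (nat_lit 0) (nat_lit 5888544916) (nat_lit 456) (nat_lit 6919361054) (nat_lit 76) (nat_lit 315594816) (nat_lit 165) (nat_lit 5) (nat_lit 171) (nat_lit 5) (nat_lit 166) (nat_lit 5) (nat_lit 617) (nat_lit 524) (nat_lit 419)) (XT.lf (nat_lit 0) (nat_lit 1926316188) (nat_lit 380) (nat_lit 7864234829) (nat_lit 456) (nat_lit 3483475161) (nat_lit 160) (nat_lit 5) (nat_lit 165) (nat_lit 5) (nat_lit 166) (nat_lit 5) (nat_lit 618) (nat_lit 524) (nat_lit 418))))))) (XT.nd (nat_lit 780) (nat_lit 4332) (nat_lit 0) (XT.nd (nat_lit 390) (nat_lit 1292) (nat_lit 0) (XT.nd (nat_lit 156) (nat_lit 456) (nat_lit 0) (XT.nd (nat_lit 78) (nat_lit 532) (nat_lit 0) (XT.lf (nat_lit 0) (nat_lit 999867491) (nat_lit 0) (nat_lit 999867491) (nat_lit 380) (nat_lit 1245075934) (nat_lit 776) (nat_lit 5) (nat_lit 776) (nat_lit 3) (nat_lit 781) (nat_lit 3) (nat_lit 525) (nat_lit 525) (nat_lit 510)) (XT.lf (nat_lit 0) (nat_lit 259727723) (nat_lit 532) (nat_lit 1238641385) (nat_lit 532) (nat_lit 5001497891) (nat_lit 769) (nat_lit 3)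 (nat_lit 776) (nat_lit 3) (nat_lit 776) (nat_lit 5) (nat_lit 526) (nat_lit 525) (nat_lit 509))) (XT.nd (nat_lit 78) (nat_lit 456) (nat_lit 0) (XT.lf (nat_lit 76) (nat_lit 2051361710) (nat_lit 0) (nat_lit 921331743) (nat_lit 532) (nat_lit 3538469499) (nat_lit 770) (nat_lit 5) (nat_lit 769) (nat_lit 3) (nat_lit 776) (nat_lit 5) (nat_lit 527) (nat_lit 525) (nat_lit 508)) (XT.nd (nat_lit 78) (nat_lit 456) (nat_lit 0) (XT.lf (nat_lit 76) (nat_lit 5387516109) (nat_lit 0) (nat_lit 289969614) (nat_lit 532) (nat_lit 846451401) (nat_lit 770) (nat_lit 5) (nat_lit 769) (nat_lit 3) (nat_lit 776) (nat_lit 5) (nat_lit 528) (nat_lit 525) (nat_lit 507)) (XT.lf (nat_lit 0) (nat_lit 1821870045) (nat_lit 532) (nat_lit 4306786887) (nat_lit 608) (nat_lit 409119225) (nat_lit 763) (nat_lit 5) (nat_lit 770) (nat_lit 5) (nat_lit 771) (nat_lit 5) (nat_lit 529) (nat_lit 525) (nat_lit 506))))) (XT.nd (nat_lit 156) (nat_lit 684) (nat_lit 0) (XT.nd (nat_lit 78) (nat_lit 608) (nat_lit 0) (XT.lf (nat_lit 0) (nat_lit 4473353078) (nat_lit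 532) (nat_lit 916165007) (nat_lit 608) (nat_lit 1163442836) (nat_lit 763) (nat_lit 5) (nat_lit 770) (nat_lit 5) (nat_lit 771) (nat_lit 5) (nat_lit 530) (nat_lit 525) (nat_lit 505)) (XT.lf (nat_lit 0) (nat_lit 550429786) (nat_lit 608) (nat_lit 4034783697) (nat_lit 684) (nat_lit 1984179944) (nat_lit 755) (nat_lit 5) (nat_lit 763) (nat_lit 5) (nat_lit 764) (nat_lit 5) (nat_lit 531) (nat_lit 525) (nat_lit 504))) (XT.nd (nat_lit 78) (nat_lit 684) (nat_lit 0) (XT.lf (nat_lit 0) (nat_lit 3144936703) (nat_lit 608) (nat_lit 570923848) (nat_lit 684) (nat_lit 2871228057) (nat_lit 755) (nat_lit 5) (nat_lit 763) (nat_lit 5) (nat_lit 764) (nat_lit 5) (nat_lit 532) (nat_lit 525) (nat_lit 503)) (XT.nd (nat_lit 78) (nat_lit 684) (nat_lit 0) (XT.lf (nat_lit 76) (nat_lit 2963930689) (nat_lit 0) (nat_lit 2781450584) (nat_lit 684) (nat_lit 860678639) (nat_lit 756) (nat_lit 5) (nat_lit 755) (nat_lit 5) (nat_lit 764) (nat_lit 5) (nat_lit 533) (nat_lit 525) (nat_lit 502)) (XT.lf (nat_lit 0) (nat_lit 1688449471) (nat_lit 684) (nat_lit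 97417714) (nat_lit 760) (nat_lit 4840530932) (nat_lit 746) (nat_lit 5) (nat_lit 755) (nat_lit 5) (nat_lit 756) (nat_lit 5) (nat_lit 534) (nat_lit 525) (nat_lit 501)))))) (XT.nd (nat_lit 390) (nat_lit 2812) (nat_lit 0) (XT.nd (nat_lit 156) (nat_lit 836) (nat_lit 0) (XT.nd (nat_lit 78) (nat_lit 684) (nat_lit 0) (XT.lf (nat_lit 76) (nat_lit 3521643876) (nat_lit 0) (nat_lit 714948255) (nat_lit 760) (nat_lit 2411249035) (nat_lit 747) (nat_lit 5) (nat_lit 746) (nat_lit 5) (nat_lit 756) (nat_lit 5) (nat_lit 535) (nat_lit 525) (nat_lit 500)) (XT.lf (nat_lit 0) (nat_lit 107709445) (nat_lit 760) (nat_lit 6160790626) (nat_lit 836) (nat_lit 402316288) (nat_lit 737) (nat_lit 5) (nat_lit 747) (nat_lit 5) (nat_lit 748) (nat_lit 5) (nat_lit 536) (nat_lit 525) (nat_lit 499))) (XT.nd (nat_lit 78) (nat_lit 836) (nat_lit 0) (XT.lf (nat_lit 0) (nat_lit 2609056316) (nat_lit 760) (nat_lit 2492096667) (nat_lit 836) (nat_lit 1593496207) (nat_lit 737) (nat_lit 5) (nat_lit 747) (nat_lit 5) (nat_lit 748) (nat_lit 5) (nat_lit 537) (nat_lit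 525) (nat_lit 498)) (XT.nd (nat_lit 78) (nat_lit 836) (nat_lit 0) (XT.lf (nat_lit 76) (nat_lit 1228065110) (nat_lit 0) (nat_lit 3879959554) (nat_lit 836) (nat_lit 1611984885) (nat_lit 738) (nat_lit 5) (nat_lit 737) (nat_lit 5) (nat_lit 748) (nat_lit 5) (nat_lit 538) (nat_lit 525) (nat_lit 497)) (XT.lf (nat_lit 0) (nat_lit 856143647) (nat_lit 836) (nat_lit 1733717810) (nat_lit 912) (nat_lit 4156760053) (nat_lit 726) (nat_lit 5) (nat_lit 737) (nat_lit 5) (nat_lit 738) (nat_lit 5) (nat_lit 539) (nat_lit 525) (nat_lit 496))))) (XT.nd (nat_lit 234) (nat_lit 1976) (nat_lit 0) (XT.nd (nat_lit 78) (nat_lit 836) (nat_lit 0) (XT.lf (nat_lit 76) (nat_lit 2078453199) (nat_lit 0) (nat_lit 1228448742) (nat_lit 912) (nat_lit 3467556233) (nat_lit 727) (nat_lit 5) (nat_lit 726) (nat_lit 5) (nat_lit 738) (nat_lit 5) (nat_lit 540) (nat_lit 525) (nat_lit 495)) (XT.nd (nat_lit 78) (nat_lit 912) (nat_lit 0) (XT.lf (nat_lit 0) (nat_lit 5761801066) (nat_lit 836) (nat_lit 852211563) (nat_lit 76) (nat_lit 189738983) (nat_lit 727)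 (nat_lit 5) (nat_lit 738) (nat_lit 5) (nat_lit 728) (nat_lit 5) (nat_lit 541) (nat_lit 525) (nat_lit 494)) (XT.lf (nat_lit 0) (nat_lit 1384715937) (nat_lit 912) (nat_lit 3780909195) (nat_lit 76) (nat_lit 1668395631) (nat_lit 715) (nat_lit 5) (nat_lit 727) (nat_lit 5) (nat_lit 716) (nat_lit 5) (nat_lit 542) (nat_lit 525) (nat_lit 493)))) (XT.nd (nat_lit 78) (nat_lit 1064) (nat_lit 0) (XT.lf (nat_lit 0) (nat_lit 139626551) (nat_lit 912) (nat_lit 3657009302) (nat_lit 988) (nat_lit 3069110666) (nat_lit 703) (nat_lit 5) (nat_lit 715) (nat_lit 5) (nat_lit 716) (nat_lit 5) (nat_lit 543) (nat_lit 525) (nat_lit 492)) (XT.nd (nat_lit 78) (nat_lit 1064) (nat_lit 0) (XT.lf (nat_lit 0) (nat_lit 4151499377) (nat_lit 912) (nat_lit 2075511547) (nat_lit 988) (nat_lit 671693889) (nat_lit 703) (nat_lit 5) (nat_lit 715) (nat_lit 5) (nat_lit 716) (nat_lit 5) (nat_lit 544) (nat_lit 525) (nat_lit 491)) (XT.lf (nat_lit 0) (nat_lit 1278236789) (nat_lit 988) (nat_lit 426037532) (nat_lit 1064) (nat_lit 5228742598) (nat_lit 689) (nat_lit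 5) (nat_lit 702) (nat_lit 5) (nat_lit 703) (nat_lit 5) (nat_lit 545) (nat_lit 525) (nat_lit 490))))))))
noncomputable def xc78 : XT := (XT.nd (nat_lit 1560) (nat_lit 11476) (nat_lit 0) (XT.nd (nat_lit 780) (nat_lit 9728) (nat_lit 0) (XT.nd (nat_lit 390) (nat_lit 4256) (nat_lit 0) (XT.nd (nat_lit 156) (nat_lit 2432) (nat_lit 0) (XT.nd (nat_lit 78) (nat_lit 1064) (nat_lit 0) (XT.lf (nat_lit 0) (nat_lit 4091978485) (nat_lit 1064) (nat_lit 1598170205) (nat_lit 76) (nat_lit 1278315790) (nat_lit 689) (nat_lit 5) (nat_lit 703) (nat_lit 5) (nat_lit 690) (nat_lit 5) (nat_lit 546) (nat_lit 525) (nat_lit 489)) (XT.lf (nat_lit 0) (nat_lit 2531497950) (nat_lit 1064) (nat_lit 3962732985) (nat_lit 1140) (nat_lit 511056351) (nat_lit 675) (nat_lit 5) (nat_lit 689) (nat_lit 5) (nat_lit 690) (nat_lit 5) (nat_lit 547) (nat_lit 525) (nat_lit 488))) (XT.nd (nat_lit 78) (nat_lit 2356) (nat_lit 0) (XT.lf (nat_lit 0) (nat_lit 1835509464) (nat_lit 1140) (nat_lit 328521075) (nat_lit 76) (nat_lit 4879395793) (nat_lit 674) (nat_lit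 5) (nat_lit 689) (nat_lit 5) (nat_lit 675) (nat_lit 5) (nat_lit 548) (nat_lit 525) (nat_lit 487)) (XT.nd (nat_lit 78) (nat_lit 1216) (nat_lit 0) (XT.lf (nat_lit 0) (nat_lit 3909409204) (nat_lit 1140) (nat_lit 287136252) (nat_lit 1216) (nat_lit 2886229555) (nat_lit 659) (nat_lit 5) (nat_lit 674) (nat_lit 5) (nat_lit 675) (nat_lit 5) (nat_lit 549) (nat_lit 525) (nat_lit 486)) (XT.lf (nat_lit 0) (nat_lit 1078278433) (nat_lit 1216) (nat_lit 5496136819) (nat_lit 1292) (nat_lit 549105163) (nat_lit 643) (nat_lit 5) (nat_lit 659) (nat_lit 5) (nat_lit 660) (nat_lit 5) (nat_lit 550) (nat_lit 525) (nat_lit 485))))) (XT.nd (nat_lit 156) (nat_lit 2888) (nat_lit 0) (XT.nd (nat_lit 78) (nat_lit 1292) (nat_lit 0) (XT.lf (nat_lit 0) (nat_lit 1784266649) (nat_lit 1292) (nat_lit 1760013518) (nat_lit 76) (nat_lit 3621092881) (nat_lit 642) (nat_lit 5) (nat_lit 659) (nat_lit 5) (nat_lit 643) (nat_lit 5) (nat_lit 551) (nat_lit 525) (nat_lit 484)) (XT.lf (nat_lit 0) (nat_lit 2602816545) (nat_lit 1292) (nat_lit 1522249408) (nat_lit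 1368) (nat_lit 3083563833) (nat_lit 625) (nat_lit 5) (nat_lit 642) (nat_lit 5) (nat_lit 643) (nat_lit 5) (nat_lit 552) (nat_lit 525) (nat_lit 483))) (XT.nd (nat_lit 78) (nat_lit 2888) (nat_lit 0) (XT.lf (nat_lit 0) (nat_lit 6480055010) (nat_lit 1368) (nat_lit 218716230) (nat_lit 76) (nat_lit 554634802) (nat_lit 625) (nat_lit 5) (nat_lit 643) (nat_lit 5) (nat_lit 626) (nat_lit 5) (nat_lit 553) (nat_lit 525) (nat_lit 482)) (XT.nd (nat_lit 78) (nat_lit 1444) (nat_lit 0) (XT.lf (nat_lit 0) (nat_lit 1552921019) (nat_lit 1444) (nat_lit 3046130056) (nat_lit 76) (nat_lit 2700010626) (nat_lit 606) (nat_lit 5) (nat_lit 625) (nat_lit 5) (nat_lit 607) (nat_lit 5) (nat_lit 554) (nat_lit 525) (nat_lit 481)) (XT.lf (nat_lit 0) (nat_lit 1446240287) (nat_lit 1444) (nat_lit 2433284251) (nat_lit 1520) (nat_lit 3466722225) (nat_lit 587) (nat_lit 5) (nat_lit 606) (nat_lit 5) (nat_lit 607) (nat_lit 5) (nat_lit 555) (nat_lit 525) (nat_lit 480)))))) (XT.nd (nat_lit 390) (nat_lit 4788) (nat_lit 0) (XT.nd (nat_lit 156) (nat_lit 3344)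 (nat_lit 0) (XT.nd (nat_lit 78) (nat_lit 1596) (nat_lit 0) (XT.lf (nat_lit 0) (nat_lit 6031033249) (nat_lit 1444) (nat_lit 196016787) (nat_lit 1520) (nat_lit 1167839409) (nat_lit 587) (nat_lit 5) (nat_lit 606) (nat_lit 5) (nat_lit 607) (nat_lit 5) (nat_lit 556) (nat_lit 525) (nat_lit 479)) (XT.lf (nat_lit 0) (nat_lit 1151077686) (nat_lit 1596) (nat_lit 4199056210) (nat_lit 76) (nat_lit 2094430028) (nat_lit 566) (nat_lit 5) (nat_lit 587) (nat_lit 5) (nat_lit 567) (nat_lit 5) (nat_lit 557) (nat_lit 525) (nat_lit 478))) (XT.nd (nat_lit 78) (nat_lit 1748) (nat_lit 0) (XT.lf (nat_lit 0) (nat_lit 427766320) (nat_lit 1596) (nat_lit 3041508020) (nat_lit 1672) (nat_lit 4026434008) (nat_lit 545) (nat_lit 5) (nat_lit 566) (nat_lit 5) (nat_lit 567) (nat_lit 5) (nat_lit 558) (nat_lit 525) (nat_lit 477)) (XT.nd (nat_lit 78) (nat_lit 1748) (nat_lit 0) (XT.lf (nat_lit 0) (nat_lit 5165054199) (nat_lit 1596) (nat_lit 652818883) (nat_lit 1672) (nat_lit 1730323402) (nat_lit 545) (nat_lit 5) (nat_lit 566) (nat_lit 5) (nat_lit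 567) (nat_lit 5) (nat_lit 559) (nat_lit 525) (nat_lit 476)) (XT.lf (nat_lit 0) (nat_lit 587342131) (nat_lit 1748) (nat_lit 5230118481) (nat_lit 76) (nat_lit 1784522757) (nat_lit 522) (nat_lit 5) (nat_lit 545) (nat_lit 5) (nat_lit 523) (nat_lit 5) (nat_lit 560) (nat_lit 525) (nat_lit 475))))) (XT.nd (nat_lit 156) (nat_lit 3040) (nat_lit 0) (XT.nd (nat_lit 78) (nat_lit 1748) (nat_lit 0) (XT.lf (nat_lit 0) (nat_lit 2905705079) (nat_lit 1748) (nat_lit 457578444) (nat_lit 76) (nat_lit 4293784952) (nat_lit 522) (nat_lit 5) (nat_lit 545) (nat_lit 5) (nat_lit 523) (nat_lit 5) (nat_lit 561) (nat_lit 525) (nat_lit 474)) (XT.lf (nat_lit 0) (nat_lit 4429843611) (nat_lit 1748) (nat_lit 827265045) (nat_lit 1824) (nat_lit 2456414626) (nat_lit 499) (nat_lit 5) (nat_lit 522) (nat_lit 5) (nat_lit 523) (nat_lit 5) (nat_lit 562) (nat_lit 525) (nat_lit 473))) (XT.nd (nat_lit 78) (nat_lit 1216) (nat_lit 0) (XT.lf (nat_lit 0) (nat_lit 1620718543) (nat_lit 1824) (nat_lit 6018367009) (nat_lit 1900) (nat_lit 132352164) (nat_lit 475)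 (nat_lit 5) (nat_lit 499) (nat_lit 5) (nat_lit 500) (nat_lit 5) (nat_lit 563) (nat_lit 525) (nat_lit 472)) (XT.nd (nat_lit 78) (nat_lit 1140) (nat_lit 0) (XT.lf (nat_lit 0) (nat_lit 2195292710) (nat_lit 1900) (nat_lit 1222065242) (nat_lit 76) (nat_lit 4413134122) (nat_lit 474) (nat_lit 5) (nat_lit 499) (nat_lit 5) (nat_lit 475) (nat_lit 5) (nat_lit 564) (nat_lit 525) (nat_lit 471)) (XT.lf (nat_lit 0) (nat_lit 3815547399) (nat_lit 1140) (nat_lit 736549261) (nat_lit 1216) (nat_lit 3338927150) (nat_lit 459) (nat_lit 5) (nat_lit 474) (nat_lit 5) (nat_lit 475) (nat_lit 5) (nat_lit 565) (nat_lit 525) (nat_lit 470))))))) (XT.nd (nat_lit 780) (nat_lit 6004) (nat_lit 0) (XT.nd (nat_lit 390) (nat_lit 2660) (nat_lit 0) (XT.nd (nat_lit 156) (nat_lit 1824) (nat_lit 0) (XT.nd (nat_lit 78) (nat_lit 76) (nat_lit 0) (XT.lf (nat_lit 0) (nat_lit 978349553) (nat_lit 912) (nat_lit 5965420022) (nat_lit 988) (nat_lit 1009243275) (nat_lit 447) (nat_lit 5) (nat_lit 459) (nat_lit 5) (nat_lit 460) (nat_lit 5) (nat_lit 566) (nat_lit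 525) (nat_lit 469)) (XT.lf (nat_lit 0) (nat_lit 1341933076) (nat_lit 988) (nat_lit 1880733014) (nat_lit 76) (nat_lit 4793542790) (nat_lit 446) (nat_lit 5) (nat_lit 459) (nat_lit 5) (nat_lit 447) (nat_lit 5) (nat_lit 567) (nat_lit 525) (nat_lit 468))) (XT.nd (nat_lit 78) (nat_lit 912) (nat_lit 0) (XT.lf (nat_lit 0) (nat_lit 3313019572) (nat_lit 912) (nat_lit 396318825) (nat_lit 988) (nat_lit 4371543878) (nat_lit 434) (nat_lit 5) (nat_lit 446) (nat_lit 5) (nat_lit 447) (nat_lit 5) (nat_lit 568) (nat_lit 525) (nat_lit 467)) (XT.nd (nat_lit 78) (nat_lit 76) (nat_lit 0) (XT.lf (nat_lit 0) (nat_lit 439750464) (nat_lit 836) (nat_lit 5677750089) (nat_lit 912) (nat_lit 2029481635) (nat_lit 423) (nat_lit 5) (nat_lit 434) (nat_lit 5) (nat_lit 435) (nat_lit 5) (nat_lit 569) (nat_lit 525) (nat_lit 466)) (XT.lf (nat_lit 0) (nat_lit 351489956) (nat_lit 912) (nat_lit 2442370169) (nat_lit 76) (nat_lit 5420562843) (nat_lit 422) (nat_lit 5) (nat_lit 434) (nat_lit 5) (nat_lit 423) (nat_lit 5) (nat_lit 570) (nat_lit 525) (nat_lit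 465))))) (XT.nd (nat_lit 156) (nat_lit 1748) (nat_lit 0) (XT.nd (nat_lit 78) (nat_lit 0) (nat_lit 0) (XT.lf (nat_lit 0) (nat_lit 2735709898) (nat_lit 988) (nat_lit 5370718652) (nat_lit 76) (nat_lit 176860798) (nat_lit 410) (nat_lit 5) (nat_lit 423) (nat_lit 5) (nat_lit 411) (nat_lit 5) (nat_lit 571) (nat_lit 525) (nat_lit 464)) (XT.lf (nat_lit 0) (nat_lit 5165781353) (nat_lit 988) (nat_lit 3375169) (nat_lit 76) (nat_lit 3184414325) (nat_lit 410) (nat_lit 5) (nat_lit 423) (nat_lit 5) (nat_lit 411) (nat_lit 5) (nat_lit 572) (nat_lit 525) (nat_lit 463))) (XT.nd (nat_lit 78) (nat_lit 912) (nat_lit 0) (XT.lf (nat_lit 0) (nat_lit 5505008148) (nat_lit 836) (nat_lit 2139077073) (nat_lit 912) (nat_lit 781181244) (nat_lit 399) (nat_lit 5) (nat_lit 410) (nat_lit 5) (nat_lit 411) (nat_lit 5) (nat_lit 573) (nat_lit 525) (nat_lit 462)) (XT.nd (nat_lit 78) (nat_lit 0) (nat_lit 0) (XT.lf (nat_lit 0) (nat_lit 1639033421) (nat_lit 912) (nat_lit 5895061506) (nat_lit 76) (nat_lit 964336355) (nat_lit 387) (nat_lit 5) (nat_lit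 399) (nat_lit 5) (nat_lit 388) (nat_lit 5) (nat_lit 574) (nat_lit 525) (nat_lit 461)) (XT.lf (nat_lit 0) (nat_lit 4095639948) (nat_lit 912) (nat_lit 354247472) (nat_lit 76) (nat_lit 4123100798) (nat_lit 387) (nat_lit 5) (nat_lit 399) (nat_lit 5) (nat_lit 388) (nat_lit 5) (nat_lit 575) (nat_lit 525) (nat_lit 460)))))) (XT.nd (nat_lit 390) (nat_lit 2888) (nat_lit 0) (XT.nd (nat_lit 156) (nat_lit 1520) (nat_lit 0) (XT.nd (nat_lit 78) (nat_lit 836) (nat_lit 0) (XT.lf (nat_lit 0) (nat_lit 5328873870) (nat_lit 760) (nat_lit 1272343990) (nat_lit 836) (nat_lit 2047822674) (nat_lit 377) (nat_lit 5) (nat_lit 387) (nat_lit 5) (nat_lit 388) (nat_lit 5) (nat_lit 576) (nat_lit 525) (nat_lit 459)) (XT.lf (nat_lit 0) (nat_lit 420925259) (nat_lit 836) (nat_lit 6345910655) (nat_lit 76) (nat_lit 1959797589) (nat_lit 366) (nat_lit 5) (nat_lit 377) (nat_lit 5) (nat_lit 367) (nat_lit 5) (nat_lit 577) (nat_lit 525) (nat_lit 458))) (XT.nd (nat_lit 78) (nat_lit 1520) (nat_lit 0) (XT.lf (nat_lit 0) (nat_lit 2908354499) (nat_lit 836)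 (nat_lit 625839979) (nat_lit 76) (nat_lit 5271379565) (nat_lit 366) (nat_lit 5) (nat_lit 377) (nat_lit 5) (nat_lit 367) (nat_lit 5) (nat_lit 578) (nat_lit 525) (nat_lit 457)) (XT.nd (nat_lit 78) (nat_lit 760) (nat_lit 0) (XT.lf (nat_lit 0) (nat_lit 5239100994) (nat_lit 760) (nat_lit 206964035) (nat_lit 836) (nat_lit 3440018659) (nat_lit 356) (nat_lit 5) (nat_lit 366) (nat_lit 5) (nat_lit 367) (nat_lit 5) (nat_lit 579) (nat_lit 525) (nat_lit 456)) (XT.lf (nat_lit 0) (nat_lit 2231632508) (nat_lit 760) (nat_lit 5809199839) (nat_lit 836) (nat_lit 927246056) (nat_lit 346) (nat_lit 5) (nat_lit 356) (nat_lit 5) (nat_lit 357) (nat_lit 5) (nat_lit 580) (nat_lit 525) (nat_lit 455))))) (XT.nd (nat_lit 234) (nat_lit 1444) (nat_lit 0) (XT.nd (nat_lit 78) (nat_lit 1368) (nat_lit 0) (XT.lf (nat_lit 0) (nat_lit 1607411735) (nat_lit 836) (nat_lit 824927059) (nat_lit 76) (nat_lit 6619301034) (nat_lit 345) (nat_lit 5) (nat_lit 356) (nat_lit 5) (nat_lit 346) (nat_lit 5) (nat_lit 581) (nat_lit 525) (nat_lit 454)) (XT.nd (nat_lit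 78) (nat_lit 684) (nat_lit 0) (XT.lf (nat_lit 0) (nat_lit 4188832023) (nat_lit 760) (nat_lit 3914297640) (nat_lit 76) (nat_lit 1033451410) (nat_lit 336) (nat_lit 5) (nat_lit 346) (nat_lit 5) (nat_lit 337) (nat_lit 5) (nat_lit 582) (nat_lit 525) (nat_lit 453)) (XT.lf (nat_lit 0) (nat_lit 2152196222) (nat_lit 684) (nat_lit 4673410673) (nat_lit 760) (nat_lit 2397540582) (nat_lit 327) (nat_lit 5) (nat_lit 336) (nat_lit 5) (nat_lit 337) (nat_lit 5) (nat_lit 583) (nat_lit 525) (nat_lit 452)))) (XT.nd (nat_lit 78) (nat_lit 1368) (nat_lit 0) (XT.lf (nat_lit 0) (nat_lit 195682566) (nat_lit 760) (nat_lit 957902355) (nat_lit 76) (nat_lit 8157941033) (nat_lit 326) (nat_lit 5) (nat_lit 336) (nat_lit 5) (nat_lit 327) (nat_lit 5) (nat_lit 584) (nat_lit 525) (nat_lit 451)) (XT.nd (nat_lit 78) (nat_lit 684) (nat_lit 0) (XT.lf (nat_lit 0) (nat_lit 2828036873) (nat_lit 760) (nat_lit 4124259340) (nat_lit 76) (nat_lit 2448672246) (nat_lit 317) (nat_lit 5) (nat_lit 327) (nat_lit 5) (nat_lit 318) (nat_lit 5) (nat_lit 585) (nat_lit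 525) (nat_lit 450)) (XT.lf (nat_lit 0) (nat_lit 2139166917) (nat_lit 684) (nat_lit 3371056522) (nat_lit 760) (nat_lit 3982033464) (nat_lit 308) (nat_lit 5) (nat_lit 317) (nat_lit 5) (nat_lit 318) (nat_lit 5) (nat_lit 586) (nat_lit 525) (nat_lit 449))))))))
noncomputable def xc79 : XT := (XT.nd (nat_lit 1560) (nat_lit 3420) (nat_lit 0) (XT.nd (nat_lit 780) (nat_lit 3648) (nat_lit 0) (XT.nd (nat_lit 390) (nat_lit 1900) (nat_lit 0) (XT.nd (nat_lit 156) (nat_lit 1216) (nat_lit 0) (XT.nd (nat_lit 78) (nat_lit 684) (nat_lit 0) (XT.lf (nat_lit 0) (nat_lit 8245238734) (nat_lit 760) (nat_lit 1041506875) (nat_lit 76) (nat_lit 298642586) (nat_lit 308) (nat_lit 5) (nat_lit 318) (nat_lit 5) (nat_lit 309) (nat_lit 5) (nat_lit 587) (nat_lit 525) (nat_lit 448)) (XT.lf (nat_lit 0) (nat_lit 1364514565) (nat_lit 684) (nat_lit 4281599505) (nat_lit 76) (nat_lit 4033538738) (nat_lit 299) (nat_lit 5) (nat_lit 308) (nat_lit 5) (nat_lit 300) (nat_lit 5) (nat_lit 588) (nat_lit 525) (nat_lit 447))) (XT.nd (nat_lit 78) (nat_lit 608)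 (nat_lit 0) (XT.lf (nat_lit 0) (nat_lit 2186780329) (nat_lit 608) (nat_lit 1910038057) (nat_lit 684) (nat_lit 5678978070) (nat_lit 291) (nat_lit 5) (nat_lit 299) (nat_lit 5) (nat_lit 300) (nat_lit 5) (nat_lit 589) (nat_lit 525) (nat_lit 446)) (XT.nd (nat_lit 78) (nat_lit 608) (nat_lit 0) (XT.lf (nat_lit 0) (nat_lit 6895558725) (nat_lit 684) (nat_lit 1081378669) (nat_lit 76) (nat_lit 1896690493) (nat_lit 291) (nat_lit 5) (nat_lit 300) (nat_lit 5) (nat_lit 292) (nat_lit 5) (nat_lit 590) (nat_lit 525) (nat_lit 445)) (XT.lf (nat_lit 0) (nat_lit 5579561756) (nat_lit 608) (nat_lit 4190692868) (nat_lit 684) (nat_lit 202762413) (nat_lit 283) (nat_lit 5) (nat_lit 291) (nat_lit 5) (nat_lit 292) (nat_lit 5) (nat_lit 591) (nat_lit 525) (nat_lit 444))))) (XT.nd (nat_lit 156) (nat_lit 1216) (nat_lit 0) (XT.nd (nat_lit 78) (nat_lit 0) (nat_lit 0) (XT.lf (nat_lit 0) (nat_lit 2289532608) (nat_lit 608) (nat_lit 297461227) (nat_lit 684) (nat_lit 7487191335) (nat_lit 274) (nat_lit 5) (nat_lit 282) (nat_lit 5) (nat_lit 283)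 (nat_lit 5) (nat_lit 592) (nat_lit 525) (nat_lit 443)) (XT.lf (nat_lit 0) (nat_lit 5454867563) (nat_lit 684) (nat_lit 1074221755) (nat_lit 76) (nat_lit 3647760461) (nat_lit 274) (nat_lit 5) (nat_lit 283) (nat_lit 5) (nat_lit 275) (nat_lit 5) (nat_lit 593) (nat_lit 525) (nat_lit 442))) (XT.nd (nat_lit 78) (nat_lit 684) (nat_lit 0) (XT.lf (nat_lit 0) (nat_lit 5807576198) (nat_lit 532) (nat_lit 2584263345) (nat_lit 608) (nat_lit 1889493972) (nat_lit 267) (nat_lit 5) (nat_lit 274) (nat_lit 5) (nat_lit 275) (nat_lit 5) (nat_lit 594) (nat_lit 525) (nat_lit 441)) (XT.nd (nat_lit 78) (nat_lit 0) (nat_lit 0) (XT.lf (nat_lit 0) (nat_lit 991316512) (nat_lit 684) (nat_lit 7955218756) (nat_lit 76) (nat_lit 1441146815) (nat_lit 258) (nat_lit 5) (nat_lit 267) (nat_lit 5) (nat_lit 259) (nat_lit 5) (nat_lit 595) (nat_lit 525) (nat_lit 440)) (XT.lf (nat_lit 0) (nat_lit 3924234867) (nat_lit 684) (nat_lit 1025342740) (nat_lit 76) (nat_lit 5545934999) (nat_lit 258) (nat_lit 5) (nat_lit 267) (nat_lit 5) (nat_lit 259) (nat_lit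 5) (nat_lit 596) (nat_lit 525) (nat_lit 439)))))) (XT.nd (nat_lit 390) (nat_lit 1520) (nat_lit 0) (XT.nd (nat_lit 156) (nat_lit 1064) (nat_lit 0) (XT.nd (nat_lit 78) (nat_lit 532) (nat_lit 0) (XT.lf (nat_lit 0) (nat_lit 6086276406) (nat_lit 532) (nat_lit 842025763) (nat_lit 608) (nat_lit 3676948360) (nat_lit 251) (nat_lit 5) (nat_lit 258) (nat_lit 5) (nat_lit 259) (nat_lit 5) (nat_lit 597) (nat_lit 525) (nat_lit 438)) (XT.lf (nat_lit 0) (nat_lit 2612556433) (nat_lit 532) (nat_lit 7398723113) (nat_lit 608) (nat_lit 705527680) (nat_lit 244) (nat_lit 5) (nat_lit 251) (nat_lit 5) (nat_lit 252) (nat_lit 5) (nat_lit 598) (nat_lit 525) (nat_lit 437))) (XT.nd (nat_lit 78) (nat_lit 988) (nat_lit 0) (XT.lf (nat_lit 0) (nat_lit 2304242262) (nat_lit 608) (nat_lit 939910064) (nat_lit 76) (nat_lit 7585952989) (nat_lit 243) (nat_lit 5) (nat_lit 251) (nat_lit 5) (nat_lit 244) (nat_lit 5) (nat_lit 599) (nat_lit 525) (nat_lit 436)) (XT.nd (nat_lit 78) (nat_lit 532) (nat_lit 0) (XT.lf (nat_lit 0) (nat_lit 5386923324) (nat_lit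 532) (nat_lit 4541128664) (nat_lit 76) (nat_lit 1017081407) (nat_lit 237) (nat_lit 5) (nat_lit 244) (nat_lit 5) (nat_lit 238) (nat_lit 5) (nat_lit 600) (nat_lit 525) (nat_lit 435)) (XT.lf (nat_lit 0) (nat_lit 2824208679) (nat_lit 532) (nat_lit 5727271505) (nat_lit 608) (nat_lit 2510577954) (nat_lit 230) (nat_lit 5) (nat_lit 237) (nat_lit 5) (nat_lit 238) (nat_lit 5) (nat_lit 601) (nat_lit 525) (nat_lit 434))))) (XT.nd (nat_lit 156) (nat_lit 988) (nat_lit 0) (XT.nd (nat_lit 78) (nat_lit 456) (nat_lit 0) (XT.lf (nat_lit 0) (nat_lit 594993791) (nat_lit 608) (nat_lit 822998986) (nat_lit 76) (nat_lit 9763154872) (nat_lit 229) (nat_lit 5) (nat_lit 237) (nat_lit 5) (nat_lit 230) (nat_lit 5) (nat_lit 602) (nat_lit 525) (nat_lit 433)) (XT.lf (nat_lit 0) (nat_lit 3767415532) (nat_lit 532) (nat_lit 4545074909) (nat_lit 76) (nat_lit 2989030018) (nat_lit 223) (nat_lit 5) (nat_lit 230) (nat_lit 5) (nat_lit 224) (nat_lit 5) (nat_lit 603) (nat_lit 525) (nat_lit 432))) (XT.nd (nat_lit 78) (nat_lit 532) (nat_lit 0) (XT.lf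 (nat_lit 0) (nat_lit 3069179459) (nat_lit 456) (nat_lit 3943841556) (nat_lit 532) (nat_lit 4411085508) (nat_lit 217) (nat_lit 5) (nat_lit 223) (nat_lit 5) (nat_lit 224) (nat_lit 5) (nat_lit 604) (nat_lit 525) (nat_lit 431)) (XT.nd (nat_lit 78) (nat_lit 532) (nat_lit 0) (XT.lf (nat_lit 0) (nat_lit 10332612959) (nat_lit 532) (nat_lit 691013361) (nat_lit 76) (nat_lit 525336994) (nat_lit 217) (nat_lit 5) (nat_lit 224) (nat_lit 5) (nat_lit 218) (nat_lit 5) (nat_lit 605) (nat_lit 525) (nat_lit 430)) (XT.lf (nat_lit 0) (nat_lit 2063944362) (nat_lit 532) (nat_lit 4530558718) (nat_lit 76) (nat_lit 5080580444) (nat_lit 210) (nat_lit 5) (nat_lit 217) (nat_lit 5) (nat_lit 211) (nat_lit 5) (nat_lit 606) (nat_lit 525) (nat_lit 429))))))) (XT.nd (nat_lit 780) (nat_lit 380) (nat_lit 0) (XT.nd (nat_lit 390) (nat_lit 1672) (nat_lit 0) (XT.nd (nat_lit 156) (nat_lit 912) (nat_lit 0) (XT.nd (nat_lit 78) (nat_lit 0) (nat_lit 0) (XT.lf (nat_lit 0) (nat_lit 3342600755) (nat_lit 456) (nat_lit 2052968485) (nat_lit 532) (nat_lit 6407956337)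 (nat_lit 204) (nat_lit 5) (nat_lit 210) (nat_lit 5) (nat_lit 211) (nat_lit 5) (nat_lit 607) (nat_lit 525) (nat_lit 428)) (XT.lf (nat_lit 0) (nat_lit 8816977932) (nat_lit 532) (nat_lit 552074862) (nat_lit 76) (nat_lit 2565021107) (nat_lit 204) (nat_lit 5) (nat_lit 211) (nat_lit 5) (nat_lit 205) (nat_lit 5) (nat_lit 608) (nat_lit 525) (nat_lit 427))) (XT.nd (nat_lit 78) (nat_lit 456) (nat_lit 0) (XT.lf (nat_lit 0) (nat_lit 275687828) (nat_lit 456) (nat_lit 4502820733) (nat_lit 76) (nat_lit 7287908991) (nat_lit 198) (nat_lit 5) (nat_lit 204) (nat_lit 5) (nat_lit 199) (nat_lit 5) (nat_lit 609) (nat_lit 525) (nat_lit 426)) (XT.nd (nat_lit 78) (nat_lit 0) (nat_lit 0) (XT.lf (nat_lit 0) (nat_lit 3639582558) (nat_lit 456) (nat_lit 58763193) (nat_lit 532) (nat_lit 8502575545) (nat_lit 192) (nat_lit 5) (nat_lit 198) (nat_lit 5) (nat_lit 199) (nat_lit 5) (nat_lit 610) (nat_lit 525) (nat_lit 425)) (XT.lf (nat_lit 0) (nat_lit 7227267093) (nat_lit 532) (nat_lit 398091961) (nat_lit 76) (nat_lit 4712000278) (nat_lit 192)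 (nat_lit 5) (nat_lit 199) (nat_lit 5) (nat_lit 193) (nat_lit 5) (nat_lit 611) (nat_lit 525) (nat_lit 424))))) (XT.nd (nat_lit 156) (nat_lit 836) (nat_lit 0) (XT.nd (nat_lit 78) (nat_lit 456) (nat_lit 0) (XT.lf (nat_lit 0) (nat_lit 7998245851) (nat_lit 380) (nat_lit 2857819294) (nat_lit 456) (nat_lit 1619875431) (nat_lit 187) (nat_lit 5) (nat_lit 192) (nat_lit 5) (nat_lit 193) (nat_lit 5) (nat_lit 612) (nat_lit 525) (nat_lit 423)) (XT.lf (nat_lit 0) (nat_lit 1933337376) (nat_lit 456) (nat_lit 8674981629) (nat_lit 76) (nat_lit 2008350162) (nat_lit 181) (nat_lit 5) (nat_lit 187) (nat_lit 5) (nat_lit 182) (nat_lit 5) (nat_lit 613) (nat_lit 525) (nat_lit 422))) (XT.nd (nat_lit 78) (nat_lit 836) (nat_lit 0) (XT.lf (nat_lit 0) (nat_lit 5562321755) (nat_lit 456) (nat_lit 234219887) (nat_lit 76) (nat_lit 6962928979) (nat_lit 181) (nat_lit 5) (nat_lit 187) (nat_lit 5) (nat_lit 182) (nat_lit 5) (nat_lit 614) (nat_lit 525) (nat_lit 421)) (XT.nd (nat_lit 78) (nat_lit 456) (nat_lit 0) (XT.lf (nat_lit 0) (nat_lit 8451981155)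 (nat_lit 380) (nat_lit 844432040) (nat_lit 456) (nat_lit 3608064744) (nat_lit 176) (nat_lit 5) (nat_lit 181) (nat_lit 5) (nat_lit 182) (nat_lit 5) (nat_lit 615) (nat_lit 525) (nat_lit 420)) (XT.lf (nat_lit 0) (nat_lit 86660785) (nat_lit 456) (nat_lit 8795401843) (nat_lit 76) (nat_lit 4169625241) (nat_lit 170) (nat_lit 5) (nat_lit 176) (nat_lit 5) (nat_lit 171) (nat_lit 5) (nat_lit 616) (nat_lit 525) (nat_lit 419)))))) (XT.nd (nat_lit 74334) (nat_lit 0) (nat_lit 44156) (XT.nd (nat_lit 74100) (nat_lit 0) (nat_lit 45372) (XT.nd (nat_lit 78) (nat_lit 380) (nat_lit 0) (XT.lf (nat_lit 0) (nat_lit 3820542407) (nat_lit 456) (nat_lit 65764226) (nat_lit 76) (nat_lit 9314787265) (nat_lit 170) (nat_lit 5) (nat_lit 176) (nat_lit 5) (nat_lit 171) (nat_lit 5) (nat_lit 617) (nat_lit 525) (nat_lit 418)) (XT.lf (nat_lit 0) (nat_lit 7673478517) (nat_lit 456) (nat_lit 4439204574) (nat_lit 76) (nat_lit 1239917773) (nat_lit 165) (nat_lit 5) (nat_lit 171) (nat_lit 5) (nat_lit 166) (nat_lit 5) (nat_lit 618) (nat_lit 525) (nat_lit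 417))) (XT.nd (nat_lit 78) (nat_lit 532) (nat_lit 0) (XT.lf (nat_lit 0) (nat_lit 1470672706) (nat_lit 532) (nat_lit 892289324) (nat_lit 532) (nat_lit 892289324) (nat_lit 769) (nat_lit 3) (nat_lit 776) (nat_lit 3) (nat_lit 776) (nat_lit 5) (nat_lit 526) (nat_lit 526) (nat_lit 508)) (XT.nd (nat_lit 78) (nat_lit 532) (nat_lit 0) (XT.lf (nat_lit 76) (nat_lit 1480130183) (nat_lit 0) (nat_lit 4135567132) (nat_lit 532) (nat_lit 906875429) (nat_lit 770) (nat_lit 5) (nat_lit 769) (nat_lit 3) (nat_lit 776) (nat_lit 5) (nat_lit 527) (nat_lit 526) (nat_lit 507)) (XT.lf (nat_lit 0) (nat_lit 1727165642) (nat_lit 532) (nat_lit 1748799082) (nat_lit 608) (nat_lit 3059843412) (nat_lit 762) (nat_lit 5) (nat_lit 769) (nat_lit 3) (nat_lit 770) (nat_lit 5) (nat_lit 528) (nat_lit 526) (nat_lit 506))))) (XT.nd (nat_lit 234) (nat_lit 608) (nat_lit 0) (XT.nd (nat_lit 78) (nat_lit 608) (nat_lit 0) (XT.lf (nat_lit 76) (nat_lit 1589622636) (nat_lit 0) (nat_lit 2754002692) (nat_lit 608) (nat_lit 2206728834) (nat_lit 763) (nat_lit 5)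 (nat_lit 762) (nat_lit 5) (nat_lit 770) (nat_lit 5) (nat_lit 529) (nat_lit 526) (nat_lit 505)) (XT.nd (nat_lit 78) (nat_lit 0) (nat_lit 0) (XT.lf (nat_lit 0) (nat_lit 385380488) (nat_lit 608) (nat_lit 1586024360) (nat_lit 684) (nat_lit 4594851034) (nat_lit 754) (nat_lit 5) (nat_lit 762) (nat_lit 5) (nat_lit 763) (nat_lit 5) (nat_lit 530) (nat_lit 526) (nat_lit 504)) (XT.lf (nat_lit 76) (nat_lit 1829672283) (nat_lit 0) (nat_lit 1115557626) (nat_lit 684) (nat_lit 3638048313) (nat_lit 755) (nat_lit 5) (nat_lit 754) (nat_lit 5) (nat_lit 763) (nat_lit 5) (nat_lit 531) (nat_lit 526) (nat_lit 503)))) (XT.nd (nat_lit 78) (nat_lit 608) (nat_lit 0) (XT.lf (nat_lit 76) (nat_lit 5299530886) (nat_lit 0) (nat_lit 201999122) (nat_lit 684) (nat_lit 1100209101) (nat_lit 755) (nat_lit 5) (nat_lit 754) (nat_lit 5) (nat_lit 763) (nat_lit 5) (nat_lit 532) (nat_lit 526) (nat_lit 502)) (XT.nd (nat_lit 78) (nat_lit 0) (nat_lit 0) (XT.lf (nat_lit 0) (nat_lit 1423709628) (nat_lit 684) (nat_lit 4424851647) (nat_lit 760) (nat_lit 772720851)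 (nat_lit 746) (nat_lit 5) (nat_lit 755) (nat_lit 5) (nat_lit 756) (nat_lit 5) (nat_lit 533) (nat_lit 526) (nat_lit 501)) (XT.lf (nat_lit 0) (nat_lit 3930203672) (nat_lit 684) (nat_lit 904060552) (nat_lit 760) (nat_lit 1807872748) (nat_lit 746) (nat_lit 5) (nat_lit 755) (nat_lit 5) (nat_lit 756) (nat_lit 5) (nat_lit 534) (nat_lit 526) (nat_lit 500))))))))
noncomputable def xc80 : XT := (XT.nd (nat_lit 1560) (nat_lit 15808) (nat_lit 0) (XT.nd (nat_lit 780) (nat_lit 7296) (nat_lit 0) (XT.nd (nat_lit 390) (nat_lit 1748) (nat_lit 0) (XT.nd (nat_lit 156) (nat_lit 836) (nat_lit 0) (XT.nd (nat_lit 78) (nat_lit 760) (nat_lit 0) (XT.lf (nat_lit 76) (nat_lit 2686069467) (nat_lit 0) (nat_lit 3756120278) (nat_lit 760) (nat_lit 222114858) (nat_lit 747) (nat_lit 5) (nat_lit 746) (nat_lit 5) (nat_lit 756) (nat_lit 5) (nat_lit 535) (nat_lit 526) (nat_lit 499)) (XT.lf (nat_lit 0) (nat_lit 2231710432) (nat_lit 760) (nat_lit 378510786) (nat_lit 836) (nat_lit 4077504153) (nat_lit 736) (nat_lit 5) (nat_lit 746) (nat_lit 5) (nat_lit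 747) (nat_lit 5) (nat_lit 536) (nat_lit 526) (nat_lit 498))) (XT.nd (nat_lit 78) (nat_lit 836) (nat_lit 0) (XT.lf (nat_lit 76) (nat_lit 3298838741) (nat_lit 0) (nat_lit 1393924330) (nat_lit 836) (nat_lit 2019602382) (nat_lit 737) (nat_lit 5) (nat_lit 736) (nat_lit 5) (nat_lit 747) (nat_lit 5) (nat_lit 537) (nat_lit 526) (nat_lit 497)) (XT.nd (nat_lit 78) (nat_lit 0) (nat_lit 76) (XT.lf (nat_lit 76) (nat_lit 281347146) (nat_lit 0) (nat_lit 122726434) (nat_lit 912) (nat_lit 6334474145) (nat_lit 726) (nat_lit 5) (nat_lit 725) (nat_lit 5) (nat_lit 737) (nat_lit 5) (nat_lit 538) (nat_lit 526) (nat_lit 496)) (XT.lf (nat_lit 0) (nat_lit 2821222631) (nat_lit 836) (nat_lit 2727358077) (nat_lit 912) (nat_lit 1216967706) (nat_lit 726) (nat_lit 5) (nat_lit 737) (nat_lit 5) (nat_lit 738) (nat_lit 5) (nat_lit 539) (nat_lit 526) (nat_lit 495))))) (XT.nd (nat_lit 156) (nat_lit 912) (nat_lit 0) (XT.nd (nat_lit 78) (nat_lit 912) (nat_lit 0) (XT.lf (nat_lit 76) (nat_lit 1053016228) (nat_lit 0) (nat_lit 4183835126) (nat_lit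 912) (nat_lit 1557237580) (nat_lit 727) (nat_lit 5) (nat_lit 726) (nat_lit 5) (nat_lit 738) (nat_lit 5) (nat_lit 540) (nat_lit 526) (nat_lit 494)) (XT.lf (nat_lit 0) (nat_lit 827504060) (nat_lit 912) (nat_lit 1920264196) (nat_lit 988) (nat_lit 4076092074) (nat_lit 714) (nat_lit 5) (nat_lit 726) (nat_lit 5) (nat_lit 727) (nat_lit 5) (nat_lit 541) (nat_lit 526) (nat_lit 493))) (XT.nd (nat_lit 78) (nat_lit 912) (nat_lit 0) (XT.lf (nat_lit 76) (nat_lit 1955451665) (nat_lit 0) (nat_lit 1240468962) (nat_lit 988) (nat_lit 3658966434) (nat_lit 715) (nat_lit 5) (nat_lit 714) (nat_lit 5) (nat_lit 727) (nat_lit 5) (nat_lit 542) (nat_lit 526) (nat_lit 492)) (XT.nd (nat_lit 78) (nat_lit 988) (nat_lit 0) (XT.lf (nat_lit 0) (nat_lit 5571698710) (nat_lit 912) (nat_lit 991400800) (nat_lit 76) (nat_lit 324237311) (nat_lit 715) (nat_lit 5) (nat_lit 727) (nat_lit 5) (nat_lit 716) (nat_lit 5) (nat_lit 543) (nat_lit 526) (nat_lit 491)) (XT.lf (nat_lit 0) (nat_lit 1034077827) (nat_lit 988) (nat_lit 3939069089) (nat_lit 76) (nat_lit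 1947679110) (nat_lit 702) (nat_lit 5) (nat_lit 715) (nat_lit 5) (nat_lit 703) (nat_lit 5) (nat_lit 544) (nat_lit 526) (nat_lit 490)))))) (XT.nd (nat_lit 390) (nat_lit 4028) (nat_lit 0) (XT.nd (nat_lit 156) (nat_lit 2280) (nat_lit 0) (XT.nd (nat_lit 78) (nat_lit 0) (nat_lit 0) (XT.lf (nat_lit 0) (nat_lit 47279666) (nat_lit 988) (nat_lit 3319545631) (nat_lit 1064) (nat_lit 3588914941) (nat_lit 689) (nat_lit 5) (nat_lit 702) (nat_lit 5) (nat_lit 703) (nat_lit 5) (nat_lit 545) (nat_lit 526) (nat_lit 489)) (XT.lf (nat_lit 0) (nat_lit 4129449451) (nat_lit 988) (nat_lit 1590649004) (nat_lit 1064) (nat_lit 1271779042) (nat_lit 689) (nat_lit 5) (nat_lit 702) (nat_lit 5) (nat_lit 703) (nat_lit 5) (nat_lit 546) (nat_lit 526) (nat_lit 488))) (XT.nd (nat_lit 78) (nat_lit 1140) (nat_lit 0) (XT.lf (nat_lit 0) (nat_lit 1034851065) (nat_lit 1140) (nat_lit 5794400446) (nat_lit 76) (nat_lit 200196936) (nat_lit 674) (nat_lit 5) (nat_lit 689) (nat_lit 5) (nat_lit 675) (nat_lit 5) (nat_lit 547) (nat_lit 526) (nat_lit 487)) (XT.nd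 (nat_lit 78) (nat_lit 1140) (nat_lit 0) (XT.lf (nat_lit 0) (nat_lit 3349463311) (nat_lit 1140) (nat_lit 1671327268) (nat_lit 76) (nat_lit 2047236588) (nat_lit 674) (nat_lit 5) (nat_lit 689) (nat_lit 5) (nat_lit 675) (nat_lit 5) (nat_lit 548) (nat_lit 526) (nat_lit 486)) (XT.lf (nat_lit 0) (nat_lit 2530005048) (nat_lit 1140) (nat_lit 3146782391) (nat_lit 1216) (nat_lit 1431263640) (nat_lit 659) (nat_lit 5) (nat_lit 674) (nat_lit 5) (nat_lit 675) (nat_lit 5) (nat_lit 549) (nat_lit 526) (nat_lit 485))))) (XT.nd (nat_lit 156) (nat_lit 2736) (nat_lit 0) (XT.nd (nat_lit 78) (nat_lit 1216) (nat_lit 0) (XT.lf (nat_lit 0) (nat_lit 851649648) (nat_lit 1216) (nat_lit 354359998) (nat_lit 76) (nat_lit 5943516777) (nat_lit 658) (nat_lit 5) (nat_lit 674) (nat_lit 5) (nat_lit 659) (nat_lit 5) (nat_lit 550) (nat_lit 526) (nat_lit 484)) (XT.lf (nat_lit 0) (nat_lit 3143487674) (nat_lit 1292) (nat_lit 3238243700) (nat_lit 76) (nat_lit 810263960) (nat_lit 642) (nat_lit 5) (nat_lit 659) (nat_lit 5) (nat_lit 643) (nat_lit 5) (nat_lit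 551) (nat_lit 526) (nat_lit 483))) (XT.nd (nat_lit 78) (nat_lit 1444) (nat_lit 0) (XT.lf (nat_lit 0) (nat_lit 1085956832) (nat_lit 1292) (nat_lit 4364800114) (nat_lit 1368) (nat_lit 1785166648) (nat_lit 625) (nat_lit 5) (nat_lit 642) (nat_lit 5) (nat_lit 643) (nat_lit 5) (nat_lit 552) (nat_lit 526) (nat_lit 482)) (XT.nd (nat_lit 78) (nat_lit 1368) (nat_lit 0) (XT.lf (nat_lit 0) (nat_lit 490993480) (nat_lit 1368) (nat_lit 1781531105) (nat_lit 76) (nat_lit 5008651304) (nat_lit 624) (nat_lit 5) (nat_lit 642) (nat_lit 5) (nat_lit 625) (nat_lit 5) (nat_lit 553) (nat_lit 526) (nat_lit 481)) (XT.lf (nat_lit 0) (nat_lit 2659855576) (nat_lit 1368) (nat_lit 99683363) (nat_lit 1444) (nat_lit 4568144731) (nat_lit 606) (nat_lit 5) (nat_lit 624) (nat_lit 5) (nat_lit 625) (nat_lit 5) (nat_lit 554) (nat_lit 526) (nat_lit 480))))))) (XT.nd (nat_lit 780) (nat_lit 5776) (nat_lit 0) (XT.nd (nat_lit 390) (nat_lit 5396) (nat_lit 0) (XT.nd (nat_lit 156) (nat_lit 3192) (nat_lit 0) (XT.nd (nat_lit 78) (nat_lit 1444) (nat_lit 0)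 (XT.lf (nat_lit 0) (nat_lit 5053432100) (nat_lit 1444) (nat_lit 212693152) (nat_lit 76) (nat_lit 2109398538) (nat_lit 606) (nat_lit 5) (nat_lit 625) (nat_lit 5) (nat_lit 607) (nat_lit 5) (nat_lit 555) (nat_lit 526) (nat_lit 479)) (XT.lf (nat_lit 0) (nat_lit 4350482759) (nat_lit 1444) (nat_lit 3026724916) (nat_lit 1520) (nat_lit 47434629) (nat_lit 587) (nat_lit 5) (nat_lit 606) (nat_lit 5) (nat_lit 607) (nat_lit 5) (nat_lit 556) (nat_lit 526) (nat_lit 478))) (XT.nd (nat_lit 78) (nat_lit 1596) (nat_lit 0) (XT.lf (nat_lit 0) (nat_lit 1500194279) (nat_lit 1520) (nat_lit 709333447) (nat_lit 1596) (nat_lit 5265589577) (nat_lit 566) (nat_lit 5) (nat_lit 586) (nat_lit 5) (nat_lit 587) (nat_lit 5) (nat_lit 557) (nat_lit 526) (nat_lit 477)) (XT.nd (nat_lit 78) (nat_lit 1596) (nat_lit 0) (XT.lf (nat_lit 0) (nat_lit 4498615551) (nat_lit 1596) (nat_lit 1368154297) (nat_lit 76) (nat_lit 1660074843) (nat_lit 566) (nat_lit 5) (nat_lit 587) (nat_lit 5) (nat_lit 567) (nat_lit 5) (nat_lit 558) (nat_lit 526) (nat_lit 476))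 (XT.lf (nat_lit 0) (nat_lit 3332027821) (nat_lit 1596) (nat_lit 3484762568) (nat_lit 1672) (nat_lit 763151687) (nat_lit 545) (nat_lit 5) (nat_lit 566) (nat_lit 5) (nat_lit 567) (nat_lit 5) (nat_lit 559) (nat_lit 526) (nat_lit 475))))) (XT.nd (nat_lit 156) (nat_lit 3648) (nat_lit 0) (XT.nd (nat_lit 78) (nat_lit 0) (nat_lit 0) (XT.lf (nat_lit 0) (nat_lit 468838526) (nat_lit 1672) (nat_lit 1027674278) (nat_lit 1748) (nat_lit 6137997634) (nat_lit 522) (nat_lit 5) (nat_lit 544) (nat_lit 5) (nat_lit 545) (nat_lit 5) (nat_lit 560) (nat_lit 526) (nat_lit 474)) (XT.lf (nat_lit 0) (nat_lit 3787367711) (nat_lit 1748) (nat_lit 2405601601) (nat_lit 76) (nat_lit 1497177119) (nat_lit 522) (nat_lit 5) (nat_lit 545) (nat_lit 5) (nat_lit 523) (nat_lit 5) (nat_lit 561) (nat_lit 526) (nat_lit 473))) (XT.nd (nat_lit 78) (nat_lit 1900) (nat_lit 0) (XT.lf (nat_lit 0) (nat_lit 2436916118) (nat_lit 1748) (nat_lit 3668488606) (nat_lit 1824) (nat_lit 1641864555) (nat_lit 499) (nat_lit 5) (nat_lit 522) (nat_lit 5) (nat_lit 523) (nat_lit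 5) (nat_lit 562) (nat_lit 526) (nat_lit 472)) (XT.nd (nat_lit 78) (nat_lit 1824) (nat_lit 0) (XT.lf (nat_lit 0) (nat_lit 630836453) (nat_lit 1824) (nat_lit 438943989) (nat_lit 76) (nat_lit 6736163656) (nat_lit 498) (nat_lit 5) (nat_lit 522) (nat_lit 5) (nat_lit 499) (nat_lit 5) (nat_lit 563) (nat_lit 526) (nat_lit 471)) (XT.lf (nat_lit 0) (nat_lit 2926894676) (nat_lit 1900) (nat_lit 3335217466) (nat_lit 76) (nat_lit 1603466816) (nat_lit 474) (nat_lit 5) (nat_lit 499) (nat_lit 5) (nat_lit 475) (nat_lit 5) (nat_lit 564) (nat_lit 526) (nat_lit 470)))))) (XT.nd (nat_lit 390) (nat_lit 2736) (nat_lit 0) (XT.nd (nat_lit 156) (nat_lit 1900) (nat_lit 0) (XT.nd (nat_lit 78) (nat_lit 0) (nat_lit 0) (XT.lf (nat_lit 0) (nat_lit 1655241047) (nat_lit 1140) (nat_lit 3594825366) (nat_lit 1216) (nat_lit 2676717581) (nat_lit 459) (nat_lit 5) (nat_lit 474) (nat_lit 5) (nat_lit 475) (nat_lit 5) (nat_lit 565) (nat_lit 526) (nat_lit 469)) (XT.lf (nat_lit 0) (nat_lit 6752949534) (nat_lit 1140) (nat_lit 850060187) (nat_lit 1216)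 (nat_lit 386538550) (nat_lit 459) (nat_lit 5) (nat_lit 474) (nat_lit 5) (nat_lit 475) (nat_lit 5) (nat_lit 566) (nat_lit 526) (nat_lit 468))) (XT.nd (nat_lit 78) (nat_lit 912) (nat_lit 0) (XT.lf (nat_lit 0) (nat_lit 1923552593) (nat_lit 988) (nat_lit 4166502677) (nat_lit 76) (nat_lit 1963267156) (nat_lit 446) (nat_lit 5) (nat_lit 459) (nat_lit 5) (nat_lit 447) (nat_lit 5) (nat_lit 567) (nat_lit 526) (nat_lit 467)) (XT.nd (nat_lit 78) (nat_lit 0) (nat_lit 0) (XT.lf (nat_lit 0) (nat_lit 977780162) (nat_lit 912) (nat_lit 3279182716) (nat_lit 988) (nat_lit 3861713449) (nat_lit 434) (nat_lit 5) (nat_lit 446) (nat_lit 5) (nat_lit 447) (nat_lit 5) (nat_lit 568) (nat_lit 526) (nat_lit 466)) (XT.lf (nat_lit 0) (nat_lit 6243614932) (nat_lit 912) (nat_lit 383843418) (nat_lit 988) (nat_lit 1558071821) (nat_lit 434) (nat_lit 5) (nat_lit 446) (nat_lit 5) (nat_lit 447) (nat_lit 5) (nat_lit 569) (nat_lit 526) (nat_lit 465))))) (XT.nd (nat_lit 156) (nat_lit 912) (nat_lit 0) (XT.nd (nat_lit 78) (nat_lit 912) (nat_lit 0) (XT.lf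 (nat_lit 0) (nat_lit 782897620) (nat_lit 912) (nat_lit 4908340864) (nat_lit 76) (nat_lit 2562348216) (nat_lit 422) (nat_lit 5) (nat_lit 434) (nat_lit 5) (nat_lit 423) (nat_lit 5) (nat_lit 570) (nat_lit 526) (nat_lit 464)) (XT.lf (nat_lit 0) (nat_lit 395931234) (nat_lit 912) (nat_lit 2735570474) (nat_lit 988) (nat_lit 5191664249) (nat_lit 410) (nat_lit 5) (nat_lit 422) (nat_lit 5) (nat_lit 423) (nat_lit 5) (nat_lit 571) (nat_lit 526) (nat_lit 463))) (XT.nd (nat_lit 78) (nat_lit 912) (nat_lit 0) (XT.lf (nat_lit 0) (nat_lit 5525935204) (nat_lit 988) (nat_lit 2561192581) (nat_lit 76) (nat_lit 307032979) (nat_lit 410) (nat_lit 5) (nat_lit 423) (nat_lit 5) (nat_lit 411) (nat_lit 5) (nat_lit 572) (nat_lit 526) (nat_lit 462)) (XT.nd (nat_lit 78) (nat_lit 76) (nat_lit 0) (XT.lf (nat_lit 0) (nat_lit 2894261621) (nat_lit 836) (nat_lit 5075500459) (nat_lit 912) (nat_lit 496784382) (nat_lit 399) (nat_lit 5) (nat_lit 410) (nat_lit 5) (nat_lit 411) (nat_lit 5) (nat_lit 573) (nat_lit 526) (nat_lit 461)) (XT.lf (nat_lit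 0) (nat_lit 1878992935) (nat_lit 912) (nat_lit 97058319) (nat_lit 76) (nat_lit 6564437762) (nat_lit 398) (nat_lit 5) (nat_lit 410) (nat_lit 5) (nat_lit 399) (nat_lit 5) (nat_lit 574) (nat_lit 526) (nat_lit 460))))))))
noncomputable def xc81 : XT := (XT.nd (nat_lit 1560) (nat_lit 6916) (nat_lit 0) (XT.nd (nat_lit 780) (nat_lit 4560) (nat_lit 0) (XT.nd (nat_lit 390) (nat_lit 2204) (nat_lit 0) (XT.nd (nat_lit 156) (nat_lit 1596) (nat_lit 0) (XT.nd (nat_lit 78) (nat_lit 760) (nat_lit 0) (XT.lf (nat_lit 0) (nat_lit 4304919267) (nat_lit 912) (nat_lit 3104210829) (nat_lit 76) (nat_lit 1206529968) (nat_lit 387) (nat_lit 5) (nat_lit 399) (nat_lit 5) (nat_lit 388) (nat_lit 5) (nat_lit 575) (nat_lit 526) (nat_lit 459)) (XT.lf (nat_lit 0) (nat_lit 2523481041) (nat_lit 760) (nat_lit 4251931482) (nat_lit 836) (nat_lit 1917002048) (nat_lit 377) (nat_lit 5) (nat_lit 387) (nat_lit 5) (nat_lit 388) (nat_lit 5) (nat_lit 576) (nat_lit 526) (nat_lit 458))) (XT.nd (nat_lit 78) (nat_lit 1520) (nat_lit 0) (XT.lf (nat_lit 0) (nat_lit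 504823715) (nat_lit 836) (nat_lit 505875190) (nat_lit 76) (nat_lit 7760196255) (nat_lit 376) (nat_lit 5) (nat_lit 387) (nat_lit 5) (nat_lit 377) (nat_lit 5) (nat_lit 577) (nat_lit 526) (nat_lit 457)) (XT.nd (nat_lit 78) (nat_lit 760) (nat_lit 0) (XT.lf (nat_lit 0) (nat_lit 2965764911) (nat_lit 836) (nat_lit 3575836998) (nat_lit 76) (nat_lit 2308764021) (nat_lit 366) (nat_lit 5) (nat_lit 377) (nat_lit 5) (nat_lit 367) (nat_lit 5) (nat_lit 578) (nat_lit 526) (nat_lit 456)) (XT.lf (nat_lit 0) (nat_lit 2231092508) (nat_lit 760) (nat_lit 3236602212) (nat_lit 836) (nat_lit 3463896929) (nat_lit 356) (nat_lit 5) (nat_lit 366) (nat_lit 5) (nat_lit 367) (nat_lit 5) (nat_lit 579) (nat_lit 526) (nat_lit 455))))) (XT.nd (nat_lit 156) (nat_lit 1368) (nat_lit 0) (XT.nd (nat_lit 78) (nat_lit 836) (nat_lit 0) (XT.lf (nat_lit 0) (nat_lit 8012235073) (nat_lit 836) (nat_lit 850226553) (nat_lit 76) (nat_lit 152129730) (nat_lit 356) (nat_lit 5) (nat_lit 367) (nat_lit 5) (nat_lit 357) (nat_lit 5) (nat_lit 580) (nat_lit 526) (nat_lit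 454)) (XT.lf (nat_lit 0) (nat_lit 1511677231) (nat_lit 836) (nat_lit 3983019535) (nat_lit 76) (nat_lit 3603898389) (nat_lit 345) (nat_lit 5) (nat_lit 356) (nat_lit 5) (nat_lit 346) (nat_lit 5) (nat_lit 581) (nat_lit 526) (nat_lit 453))) (XT.nd (nat_lit 78) (nat_lit 684) (nat_lit 0) (XT.lf (nat_lit 0) (nat_lit 2010446249) (nat_lit 684) (nat_lit 2039288430) (nat_lit 760) (nat_lit 5134669403) (nat_lit 336) (nat_lit 5) (nat_lit 345) (nat_lit 5) (nat_lit 346) (nat_lit 5) (nat_lit 582) (nat_lit 526) (nat_lit 452)) (XT.nd (nat_lit 78) (nat_lit 684) (nat_lit 0) (XT.lf (nat_lit 0) (nat_lit 6643799698) (nat_lit 760) (nat_lit 1141084808) (nat_lit 76) (nat_lit 1486940593) (nat_lit 336) (nat_lit 5) (nat_lit 346) (nat_lit 5) (nat_lit 337) (nat_lit 5) (nat_lit 583) (nat_lit 526) (nat_lit 451)) (XT.lf (nat_lit 0) (nat_lit 5027979071) (nat_lit 684) (nat_lit 4277229075) (nat_lit 760) (nat_lit 55477976) (nat_lit 327) (nat_lit 5) (nat_lit 336) (nat_lit 5) (nat_lit 337) (nat_lit 5) (nat_lit 584) (nat_lit 526) (nat_lit 450))))))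 (XT.nd (nat_lit 390) (nat_lit 2432) (nat_lit 0) (XT.nd (nat_lit 156) (nat_lit 1368) (nat_lit 0) (XT.nd (nat_lit 78) (nat_lit 0) (nat_lit 0) (XT.lf (nat_lit 0) (nat_lit 1855257593) (nat_lit 684) (nat_lit 668803758) (nat_lit 760) (nat_lit 6927145724) (nat_lit 317) (nat_lit 5) (nat_lit 326) (nat_lit 5) (nat_lit 327) (nat_lit 5) (nat_lit 585) (nat_lit 526) (nat_lit 449)) (XT.lf (nat_lit 0) (nat_lit 5173061385) (nat_lit 760) (nat_lit 1374743855) (nat_lit 76) (nat_lit 2995354395) (nat_lit 317) (nat_lit 5) (nat_lit 327) (nat_lit 5) (nat_lit 318) (nat_lit 5) (nat_lit 586) (nat_lit 526) (nat_lit 448))) (XT.nd (nat_lit 78) (nat_lit 684) (nat_lit 0) (XT.lf (nat_lit 0) (nat_lit 4995319344) (nat_lit 684) (nat_lit 2886966758) (nat_lit 760) (nat_lit 1754521013) (nat_lit 308) (nat_lit 5) (nat_lit 317) (nat_lit 5) (nat_lit 318) (nat_lit 5) (nat_lit 587) (nat_lit 526) (nat_lit 447)) (XT.nd (nat_lit 78) (nat_lit 0) (nat_lit 0) (XT.lf (nat_lit 0) (nat_lit 898260341) (nat_lit 684) (nat_lit 7978455159) (nat_lit 76) (nat_lit 855556743)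 (nat_lit 299) (nat_lit 5) (nat_lit 308) (nat_lit 5) (nat_lit 300) (nat_lit 5) (nat_lit 588) (nat_lit 526) (nat_lit 446)) (XT.lf (nat_lit 0) (nat_lit 3601922808) (nat_lit 684) (nat_lit 1557119685) (nat_lit 76) (nat_lit 4669946583) (nat_lit 299) (nat_lit 5) (nat_lit 308) (nat_lit 5) (nat_lit 300) (nat_lit 5) (nat_lit 589) (nat_lit 526) (nat_lit 445))))) (XT.nd (nat_lit 156) (nat_lit 1216) (nat_lit 0) (XT.nd (nat_lit 78) (nat_lit 608) (nat_lit 0) (XT.lf (nat_lit 0) (nat_lit 5022140169) (nat_lit 608) (nat_lit 1341521967) (nat_lit 684) (nat_lit 3563898739) (nat_lit 291) (nat_lit 5) (nat_lit 299) (nat_lit 5) (nat_lit 300) (nat_lit 5) (nat_lit 590) (nat_lit 526) (nat_lit 444)) (XT.lf (nat_lit 0) (nat_lit 1695144048) (nat_lit 608) (nat_lit 7495259880) (nat_lit 684) (nat_lit 837505520) (nat_lit 283) (nat_lit 5) (nat_lit 291) (nat_lit 5) (nat_lit 292) (nat_lit 5) (nat_lit 591) (nat_lit 526) (nat_lit 443))) (XT.nd (nat_lit 78) (nat_lit 1140) (nat_lit 0) (XT.lf (nat_lit 0) (nat_lit 1931752306) (nat_lit 684) (nat_lit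 1693891329) (nat_lit 76) (nat_lit 6504093162) (nat_lit 282) (nat_lit 5) (nat_lit 291) (nat_lit 5) (nat_lit 283) (nat_lit 5) (nat_lit 592) (nat_lit 526) (nat_lit 442)) (XT.nd (nat_lit 78) (nat_lit 532) (nat_lit 0) (XT.lf (nat_lit 0) (nat_lit 4752969838) (nat_lit 684) (nat_lit 5132584662) (nat_lit 76) (nat_lit 347780352) (nat_lit 274) (nat_lit 5) (nat_lit 283) (nat_lit 5) (nat_lit 275) (nat_lit 5) (nat_lit 593) (nat_lit 526) (nat_lit 441)) (XT.lf (nat_lit 0) (nat_lit 1677064309) (nat_lit 532) (nat_lit 5972501049) (nat_lit 608) (nat_lit 2689061074) (nat_lit 267) (nat_lit 5) (nat_lit 274) (nat_lit 5) (nat_lit 275) (nat_lit 5) (nat_lit 594) (nat_lit 526) (nat_lit 440))))))) (XT.nd (nat_lit 780) (nat_lit 3572) (nat_lit 0) (XT.nd (nat_lit 390) (nat_lit 1520) (nat_lit 0) (XT.nd (nat_lit 156) (nat_lit 1140) (nat_lit 0) (XT.nd (nat_lit 78) (nat_lit 608) (nat_lit 0) (XT.lf (nat_lit 0) (nat_lit 163401056) (nat_lit 608) (nat_lit 1790546321) (nat_lit 76) (nat_lit 8491908450) (nat_lit 266) (nat_lit 5) (nat_lit 274) (nat_lit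 5) (nat_lit 267) (nat_lit 5) (nat_lit 595) (nat_lit 526) (nat_lit 439)) (XT.lf (nat_lit 0) (nat_lit 3058396174) (nat_lit 684) (nat_lit 5335949746) (nat_lit 76) (nat_lit 2160099192) (nat_lit 258) (nat_lit 5) (nat_lit 267) (nat_lit 5) (nat_lit 259) (nat_lit 5) (nat_lit 596) (nat_lit 526) (nat_lit 438))) (XT.nd (nat_lit 78) (nat_lit 608) (nat_lit 0) (XT.lf (nat_lit 0) (nat_lit 1700346225) (nat_lit 532) (nat_lit 4320524224) (nat_lit 608) (nat_lit 4644144739) (nat_lit 251) (nat_lit 5) (nat_lit 258) (nat_lit 5) (nat_lit 259) (nat_lit 5) (nat_lit 597) (nat_lit 526) (nat_lit 437)) (XT.nd (nat_lit 78) (nat_lit 608) (nat_lit 0) (XT.lf (nat_lit 0) (nat_lit 8913977044) (nat_lit 532) (nat_lit 138216143) (nat_lit 608) (nat_lit 1725412077) (nat_lit 251) (nat_lit 5) (nat_lit 258) (nat_lit 5) (nat_lit 259) (nat_lit 5) (nat_lit 598) (nat_lit 526) (nat_lit 436)) (XT.lf (nat_lit 0) (nat_lit 1271543652) (nat_lit 608) (nat_lit 5512271786) (nat_lit 76) (nat_lit 4107744428) (nat_lit 243) (nat_lit 5) (nat_lit 251) (nat_lit 5) (nat_lit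 244) (nat_lit 5) (nat_lit 599) (nat_lit 526) (nat_lit 435))))) (XT.nd (nat_lit 156) (nat_lit 1064) (nat_lit 0) (XT.nd (nat_lit 78) (nat_lit 0) (nat_lit 0) (XT.lf (nat_lit 0) (nat_lit 1759854557) (nat_lit 456) (nat_lit 2544784675) (nat_lit 532) (nat_lit 6702940696) (nat_lit 237) (nat_lit 5) (nat_lit 243) (nat_lit 5) (nat_lit 244) (nat_lit 5) (nat_lit 600) (nat_lit 526) (nat_lit 434)) (XT.lf (nat_lit 0) (nat_lit 7421743368) (nat_lit 532) (nat_lit 1920624376) (nat_lit 76) (nat_lit 1783086245) (nat_lit 237) (nat_lit 5) (nat_lit 244) (nat_lit 5) (nat_lit 238) (nat_lit 5) (nat_lit 601) (nat_lit 526) (nat_lit 433))) (XT.nd (nat_lit 78) (nat_lit 532) (nat_lit 0) (XT.lf (nat_lit 0) (nat_lit 5574182037) (nat_lit 532) (nat_lit 5055111333) (nat_lit 608) (nat_lit 615830610) (nat_lit 230) (nat_lit 5) (nat_lit 237) (nat_lit 5) (nat_lit 238) (nat_lit 5) (nat_lit 602) (nat_lit 526) (nat_lit 432)) (XT.nd (nat_lit 78) (nat_lit 0) (nat_lit 0) (XT.lf (nat_lit 0) (nat_lit 1850533209) (nat_lit 456) (nat_lit 650189481) (nat_lit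 532) (nat_lit 8866133221) (nat_lit 223) (nat_lit 5) (nat_lit 229) (nat_lit 5) (nat_lit 230) (nat_lit 5) (nat_lit 603) (nat_lit 526) (nat_lit 431)) (XT.lf (nat_lit 0) (nat_lit 5709977151) (nat_lit 532) (nat_lit 1955616117) (nat_lit 76) (nat_lit 3824575972) (nat_lit 223) (nat_lit 5) (nat_lit 230) (nat_lit 5) (nat_lit 224) (nat_lit 5) (nat_lit 604) (nat_lit 526) (nat_lit 430)))))) (XT.nd (nat_lit 390) (nat_lit 1748) (nat_lit 0) (XT.nd (nat_lit 156) (nat_lit 836) (nat_lit 0) (XT.nd (nat_lit 78) (nat_lit 532) (nat_lit 0) (XT.lf (nat_lit 0) (nat_lit 5793289389) (nat_lit 456) (nat_lit 3207881514) (nat_lit 532) (nat_lit 2614423331) (nat_lit 217) (nat_lit 5) (nat_lit 223) (nat_lit 5) (nat_lit 224) (nat_lit 5) (nat_lit 605) (nat_lit 526) (nat_lit 429)) (XT.lf (nat_lit 0) (nat_lit 617331182) (nat_lit 532) (nat_lit 9784873073) (nat_lit 76) (nat_lit 1341029487) (nat_lit 210) (nat_lit 5) (nat_lit 217) (nat_lit 5) (nat_lit 211) (nat_lit 5) (nat_lit 606) (nat_lit 526) (nat_lit 428))) (XT.nd (nat_lit 78) (nat_lit 836) (nat_lit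 0) (XT.lf (nat_lit 0) (nat_lit 3915423849) (nat_lit 532) (nat_lit 1972859366) (nat_lit 76) (nat_lit 5984063451) (nat_lit 210) (nat_lit 5) (nat_lit 217) (nat_lit 5) (nat_lit 211) (nat_lit 5) (nat_lit 607) (nat_lit 526) (nat_lit 427)) (XT.nd (nat_lit 78) (nat_lit 380) (nat_lit 0) (XT.lf (nat_lit 0) (nat_lit 6040340201) (nat_lit 456) (nat_lit 1254928359) (nat_lit 532) (nat_lit 4708457929) (nat_lit 204) (nat_lit 5) (nat_lit 210) (nat_lit 5) (nat_lit 211) (nat_lit 5) (nat_lit 608) (nat_lit 526) (nat_lit 426)) (XT.lf (nat_lit 0) (nat_lit 2073200547) (nat_lit 380) (nat_lit 8695573542) (nat_lit 456) (nat_lit 1368438981) (nat_lit 199) (nat_lit 5) (nat_lit 204) (nat_lit 5) (nat_lit 205) (nat_lit 5) (nat_lit 609) (nat_lit 526) (nat_lit 425))))) (XT.nd (nat_lit 234) (nat_lit 836) (nat_lit 0) (XT.nd (nat_lit 78) (nat_lit 836) (nat_lit 0) (XT.lf (nat_lit 0) (nat_lit 2037060976) (nat_lit 456) (nat_lit 1977549608) (nat_lit 76) (nat_lit 8257986242) (nat_lit 198) (nat_lit 5) (nat_lit 204) (nat_lit 5) (nat_lit 199) (nat_lit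 5) (nat_lit 610) (nat_lit 526) (nat_lit 424)) (XT.nd (nat_lit 78) (nat_lit 380) (nat_lit 0) (XT.lf (nat_lit 0) (nat_lit 5515805545) (nat_lit 532) (nat_lit 6104840197) (nat_lit 76) (nat_lit 789392860) (nat_lit 192) (nat_lit 5) (nat_lit 199) (nat_lit 5) (nat_lit 193) (nat_lit 5) (nat_lit 611) (nat_lit 526) (nat_lit 423)) (XT.lf (nat_lit 0) (nat_lit 2198601007) (nat_lit 380) (nat_lit 6897174475) (nat_lit 456) (nat_lit 3453821125) (nat_lit 187) (nat_lit 5) (nat_lit 192) (nat_lit 5) (nat_lit 193) (nat_lit 5) (nat_lit 612) (nat_lit 526) (nat_lit 422)))) (XT.nd (nat_lit 78) (nat_lit 760) (nat_lit 0) (XT.lf (nat_lit 0) (nat_lit 73415905) (nat_lit 456) (nat_lit 1974972414) (nat_lit 76) (nat_lit 10643175782) (nat_lit 186) (nat_lit 5) (nat_lit 192) (nat_lit 5) (nat_lit 187) (nat_lit 5) (nat_lit 613) (nat_lit 526) (nat_lit 421)) (XT.nd (nat_lit 78) (nat_lit 380) (nat_lit 0) (XT.lf (nat_lit 0) (nat_lit 3664957890) (nat_lit 456) (nat_lit 6255838601) (nat_lit 76) (nat_lit 2914318101) (nat_lit 181) (nat_lit 5) (nat_lit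 187) (nat_lit 5) (nat_lit 182) (nat_lit 5) (nat_lit 614) (nat_lit 526) (nat_lit 420)) (XT.lf (nat_lit 0) (nat_lit 2333506603) (nat_lit 380) (nat_lit 5014970854) (nat_lit 456) (nat_lit 5632656076) (nat_lit 176) (nat_lit 5) (nat_lit 181) (nat_lit 5) (nat_lit 182) (nat_lit 5) (nat_lit 615) (nat_lit 526) (nat_lit 419))))))))
noncomputable def xc82 : XT := (XT.nd (nat_lit 75582) (nat_lit 0) (nat_lit 23484) (XT.nd (nat_lit 74802) (nat_lit 0) (nat_lit 40736) (XT.nd (nat_lit 74412) (nat_lit 0) (nat_lit 44080) (XT.nd (nat_lit 156) (nat_lit 380) (nat_lit 0) (XT.nd (nat_lit 78) (nat_lit 456) (nat_lit 0) (XT.lf (nat_lit 0) (nat_lit 11126081145) (nat_lit 456) (nat_lit 1983693521) (nat_lit 76) (nat_lit 19890276) (nat_lit 176) (nat_lit 5) (nat_lit 182) (nat_lit 5) (nat_lit 177) (nat_lit 5) (nat_lit 616) (nat_lit 526) (nat_lit 418)) (XT.lf (nat_lit 0) (nat_lit 1732692497) (nat_lit 456) (nat_lit 6413961592) (nat_lit 76) (nat_lit 5133154884) (nat_lit 170) (nat_lit 5) (nat_lit 176) (nat_lit 5) (nat_lit 171) (nat_lit 5) (nat_lit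 617) (nat_lit 526) (nat_lit 417))) (XT.nd (nat_lit 74100) (nat_lit 0) (nat_lit 45372) (XT.lf (nat_lit 0) (nat_lit 2472552665) (nat_lit 380) (nat_lit 3052511391) (nat_lit 456) (nat_lit 7907463345) (nat_lit 165) (nat_lit 5) (nat_lit 170) (nat_lit 5) (nat_lit 171) (nat_lit 5) (nat_lit 618) (nat_lit 526) (nat_lit 416)) (XT.nd (nat_lit 78) (nat_lit 0) (nat_lit 0) (XT.lf (nat_lit 0) (nat_lit 422426296) (nat_lit 0) (nat_lit 422426296) (nat_lit 532) (nat_lit 2422782479) (nat_lit 762) (nat_lit 5) (nat_lit 762) (nat_lit 3) (nat_lit 769) (nat_lit 3) (nat_lit 527) (nat_lit 527) (nat_lit 506)) (XT.lf (nat_lit 0) (nat_lit 4133281679) (nat_lit 0) (nat_lit 140108253) (nat_lit 532) (nat_lit 2275768791) (nat_lit 762) (nat_lit 5) (nat_lit 762) (nat_lit 3) (nat_lit 769) (nat_lit 3) (nat_lit 528) (nat_lit 527) (nat_lit 505))))) (XT.nd (nat_lit 156) (nat_lit 684) (nat_lit 0) (XT.nd (nat_lit 78) (nat_lit 0) (nat_lit 0) (XT.lf (nat_lit 0) (nat_lit 282980465) (nat_lit 608) (nat_lit 5669412958) (nat_lit 684) (nat_lit 612048349) (nat_lit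 754) (nat_lit 5) (nat_lit 762) (nat_lit 5) (nat_lit 763) (nat_lit 5) (nat_lit 529) (nat_lit 527) (nat_lit 504)) (XT.lf (nat_lit 0) (nat_lit 2813246630) (nat_lit 608) (nat_lit 2326799204) (nat_lit 684) (nat_lit 1440670739) (nat_lit 754) (nat_lit 5) (nat_lit 762) (nat_lit 5) (nat_lit 763) (nat_lit 5) (nat_lit 530) (nat_lit 527) (nat_lit 503))) (XT.nd (nat_lit 78) (nat_lit 684) (nat_lit 0) (XT.lf (nat_lit 76) (nat_lit 1061403945) (nat_lit 0) (nat_lit 4274447612) (nat_lit 684) (nat_lit 1262633817) (nat_lit 755) (nat_lit 5) (nat_lit 754) (nat_lit 5) (nat_lit 763) (nat_lit 5) (nat_lit 531) (nat_lit 527) (nat_lit 502)) (XT.nd (nat_lit 78) (nat_lit 0) (nat_lit 0) (XT.lf (nat_lit 0) (nat_lit 1226532903) (nat_lit 684) (nat_lit 2111692200) (nat_lit 760) (nat_lit 3279196036) (nat_lit 745) (nat_lit 5) (nat_lit 754) (nat_lit 5) (nat_lit 755) (nat_lit 5) (nat_lit 532) (nat_lit 527) (nat_lit 501)) (XT.lf (nat_lit 76) (nat_lit 1356523662) (nat_lit 0) (nat_lit 2337606428) (nat_lit 760) (nat_lit 2943530523) (nat_lit 746) (nat_lit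 5) (nat_lit 745) (nat_lit 5) (nat_lit 755) (nat_lit 5) (nat_lit 533) (nat_lit 527) (nat_lit 500)))))) (XT.nd (nat_lit 390) (nat_lit 1824) (nat_lit 0) (XT.nd (nat_lit 156) (nat_lit 760) (nat_lit 0) (XT.nd (nat_lit 78) (nat_lit 760) (nat_lit 0) (XT.lf (nat_lit 76) (nat_lit 4887848987) (nat_lit 0) (nat_lit 1275145463) (nat_lit 760) (nat_lit 496275054) (nat_lit 746) (nat_lit 5) (nat_lit 745) (nat_lit 5) (nat_lit 755) (nat_lit 5) (nat_lit 534) (nat_lit 527) (nat_lit 499)) (XT.lf (nat_lit 76) (nat_lit 1783886560) (nat_lit 0) (nat_lit 139950069) (nat_lit 836) (nat_lit 4758214254) (nat_lit 736) (nat_lit 5) (nat_lit 735) (nat_lit 5) (nat_lit 746) (nat_lit 5) (nat_lit 535) (nat_lit 527) (nat_lit 498))) (XT.nd (nat_lit 78) (nat_lit 836) (nat_lit 0) (XT.lf (nat_lit 0) (nat_lit 4343990657) (nat_lit 760) (nat_lit 1316876023) (nat_lit 836) (nat_lit 1045192661) (nat_lit 736) (nat_lit 5) (nat_lit 746) (nat_lit 5) (nat_lit 747) (nat_lit 5) (nat_lit 536) (nat_lit 527) (nat_lit 497)) (XT.nd (nat_lit 78) (nat_lit 0) (nat_lit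 0) (XT.lf (nat_lit 0) (nat_lit 37578884) (nat_lit 836) (nat_lit 4401440733) (nat_lit 912) (nat_lit 2292387266) (nat_lit 725) (nat_lit 5) (nat_lit 736) (nat_lit 5) (nat_lit 737) (nat_lit 5) (nat_lit 537) (nat_lit 527) (nat_lit 496)) (XT.lf (nat_lit 0) (nat_lit 2403945006) (nat_lit 836) (nat_lit 741192094) (nat_lit 912) (nat_lit 3612807539) (nat_lit 725) (nat_lit 5) (nat_lit 736) (nat_lit 5) (nat_lit 737) (nat_lit 5) (nat_lit 538) (nat_lit 527) (nat_lit 495))))) (XT.nd (nat_lit 156) (nat_lit 912) (nat_lit 0) (XT.nd (nat_lit 78) (nat_lit 912) (nat_lit 0) (XT.lf (nat_lit 76) (nat_lit 2996262087) (nat_lit 0) (nat_lit 1783407225) (nat_lit 912) (nat_lit 2006105774) (nat_lit 726) (nat_lit 5) (nat_lit 725) (nat_lit 5) (nat_lit 737) (nat_lit 5) (nat_lit 539) (nat_lit 527) (nat_lit 494)) (XT.lf (nat_lit 0) (nat_lit 331752834) (nat_lit 912) (nat_lit 33929571) (nat_lit 988) (nat_lit 6449469601) (nat_lit 713) (nat_lit 5) (nat_lit 725) (nat_lit 5) (nat_lit 726) (nat_lit 5) (nat_lit 540) (nat_lit 527) (nat_lit 493))) (XT.nd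 (nat_lit 78) (nat_lit 988) (nat_lit 0) (XT.lf (nat_lit 0) (nat_lit 2665806688) (nat_lit 912) (nat_lit 3054701985) (nat_lit 988) (nat_lit 1124818994) (nat_lit 714) (nat_lit 5) (nat_lit 726) (nat_lit 5) (nat_lit 727) (nat_lit 5) (nat_lit 541) (nat_lit 527) (nat_lit 492)) (XT.nd (nat_lit 78) (nat_lit 988) (nat_lit 0) (XT.lf (nat_lit 76) (nat_lit 787819129) (nat_lit 0) (nat_lit 4211700156) (nat_lit 988) (nat_lit 1877530361) (nat_lit 715) (nat_lit 5) (nat_lit 714) (nat_lit 5) (nat_lit 727) (nat_lit 5) (nat_lit 542) (nat_lit 527) (nat_lit 491)) (XT.lf (nat_lit 0) (nat_lit 430657241) (nat_lit 988) (nat_lit 2200194723) (nat_lit 1064) (nat_lit 4279168712) (nat_lit 701) (nat_lit 5) (nat_lit 714) (nat_lit 5) (nat_lit 715) (nat_lit 5) (nat_lit 543) (nat_lit 527) (nat_lit 490))))))) (XT.nd (nat_lit 780) (nat_lit 11400) (nat_lit 0) (XT.nd (nat_lit 390) (nat_lit 3800) (nat_lit 0) (XT.nd (nat_lit 156) (nat_lit 2052) (nat_lit 0) (XT.nd (nat_lit 78) (nat_lit 0) (nat_lit 76) (XT.lf (nat_lit 76) (nat_lit 1741134837) (nat_lit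 0) (nat_lit 976820018) (nat_lit 1064) (nat_lit 4226288555) (nat_lit 702) (nat_lit 5) (nat_lit 701) (nat_lit 5) (nat_lit 715) (nat_lit 5) (nat_lit 544) (nat_lit 527) (nat_lit 489)) (XT.lf (nat_lit 0) (nat_lit 5018152050) (nat_lit 988) (nat_lit 1229261426) (nat_lit 76) (nat_lit 732396230) (nat_lit 702) (nat_lit 5) (nat_lit 715) (nat_lit 5) (nat_lit 703) (nat_lit 5) (nat_lit 545) (nat_lit 527) (nat_lit 488))) (XT.nd (nat_lit 78) (nat_lit 1064) (nat_lit 0) (XT.lf (nat_lit 0) (nat_lit 316994469) (nat_lit 1064) (nat_lit 4200237150) (nat_lit 76) (nat_lit 2499346654) (nat_lit 688) (nat_lit 5) (nat_lit 702) (nat_lit 5) (nat_lit 689) (nat_lit 5) (nat_lit 546) (nat_lit 527) (nat_lit 487)) (XT.nd (nat_lit 78) (nat_lit 1064) (nat_lit 0) (XT.lf (nat_lit 0) (nat_lit 2572423147) (nat_lit 1064) (nat_lit 143974832) (nat_lit 76) (nat_lit 4338277552) (nat_lit 688) (nat_lit 5) (nat_lit 702) (nat_lit 5) (nat_lit 689) (nat_lit 5) (nat_lit 547) (nat_lit 527) (nat_lit 486)) (XT.lf (nat_lit 0) (nat_lit 4010192870) (nat_lit 1064)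 (nat_lit 838943510) (nat_lit 1140) (nat_lit 2244876848) (nat_lit 674) (nat_lit 5) (nat_lit 688) (nat_lit 5) (nat_lit 689) (nat_lit 5) (nat_lit 548) (nat_lit 527) (nat_lit 485))))) (XT.nd (nat_lit 156) (nat_lit 2584) (nat_lit 0) (XT.nd (nat_lit 78) (nat_lit 0) (nat_lit 0) (XT.lf (nat_lit 0) (nat_lit 2513438) (nat_lit 1216) (nat_lit 6048961567) (nat_lit 76) (nat_lit 1083344654) (nat_lit 658) (nat_lit 5) (nat_lit 674) (nat_lit 5) (nat_lit 659) (nat_lit 5) (nat_lit 549) (nat_lit 527) (nat_lit 484)) (XT.lf (nat_lit 0) (nat_lit 2242584562) (nat_lit 1216) (nat_lit 1852913657) (nat_lit 76) (nat_lit 3081093285) (nat_lit 658) (nat_lit 5) (nat_lit 674) (nat_lit 5) (nat_lit 659) (nat_lit 5) (nat_lit 550) (nat_lit 527) (nat_lit 483))) (XT.nd (nat_lit 78) (nat_lit 1368) (nat_lit 0) (XT.lf (nat_lit 0) (nat_lit 2422495567) (nat_lit 1216) (nat_lit 2073020198) (nat_lit 1292) (nat_lit 2724323708) (nat_lit 642) (nat_lit 5) (nat_lit 658) (nat_lit 5) (nat_lit 659) (nat_lit 5) (nat_lit 551) (nat_lit 527) (nat_lit 482)) (XT.nd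 (nat_lit 78) (nat_lit 1368) (nat_lit 0) (XT.lf (nat_lit 0) (nat_lit 6759057636) (nat_lit 1292) (nat_lit 492294749) (nat_lit 76) (nat_lit 13290798) (nat_lit 642) (nat_lit 5) (nat_lit 659) (nat_lit 5) (nat_lit 643) (nat_lit 5) (nat_lit 552) (nat_lit 527) (nat_lit 481)) (XT.lf (nat_lit 0) (nat_lit 1727499552) (nat_lit 1368) (nat_lit 3421950224) (nat_lit 76) (nat_lit 2160806272) (nat_lit 624) (nat_lit 5) (nat_lit 642) (nat_lit 5) (nat_lit 625) (nat_lit 5) (nat_lit 553) (nat_lit 527) (nat_lit 480)))))) (XT.nd (nat_lit 390) (nat_lit 6992) (nat_lit 0) (XT.nd (nat_lit 156) (nat_lit 3040) (nat_lit 0) (XT.nd (nat_lit 78) (nat_lit 0) (nat_lit 0) (XT.lf (nat_lit 0) (nat_lit 979203822) (nat_lit 1368) (nat_lit 2983348046) (nat_lit 1444) (nat_lit 3394882675) (nat_lit 606) (nat_lit 5) (nat_lit 624) (nat_lit 5) (nat_lit 625) (nat_lit 5) (nat_lit 554) (nat_lit 527) (nat_lit 479)) (XT.lf (nat_lit 0) (nat_lit 5478263150) (nat_lit 1368) (nat_lit 742048461) (nat_lit 1444) (nat_lit 1185686554) (nat_lit 606) (nat_lit 5) (nat_lit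 624) (nat_lit 5) (nat_lit 625) (nat_lit 5) (nat_lit 555) (nat_lit 527) (nat_lit 478))) (XT.nd (nat_lit 78) (nat_lit 1520) (nat_lit 0) (XT.lf (nat_lit 0) (nat_lit 1036454400) (nat_lit 1520) (nat_lit 4863587149) (nat_lit 76) (nat_lit 1555699207) (nat_lit 586) (nat_lit 5) (nat_lit 606) (nat_lit 5) (nat_lit 587) (nat_lit 5) (nat_lit 556) (nat_lit 527) (nat_lit 477)) (XT.nd (nat_lit 78) (nat_lit 1520) (nat_lit 0) (XT.lf (nat_lit 0) (nat_lit 3261428603) (nat_lit 1520) (nat_lit 327565612) (nat_lit 76) (nat_lit 3917843486) (nat_lit 586) (nat_lit 5) (nat_lit 606) (nat_lit 5) (nat_lit 587) (nat_lit 5) (nat_lit 557) (nat_lit 527) (nat_lit 476)) (XT.lf (nat_lit 0) (nat_lit 4319489027) (nat_lit 1520) (nat_lit 1196630719) (nat_lit 1596) (nat_lit 2043134046) (nat_lit 566) (nat_lit 5) (nat_lit 586) (nat_lit 5) (nat_lit 587) (nat_lit 5) (nat_lit 558) (nat_lit 527) (nat_lit 475))))) (XT.nd (nat_lit 234) (nat_lit 3648) (nat_lit 0) (XT.nd (nat_lit 78) (nat_lit 1672) (nat_lit 0) (XT.lf (nat_lit 0) (nat_lit 177725817) (nat_lit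 1672) (nat_lit 6189477319) (nat_lit 76) (nat_lit 1245946096) (nat_lit 544) (nat_lit 5) (nat_lit 566) (nat_lit 5) (nat_lit 545) (nat_lit 5) (nat_lit 559) (nat_lit 527) (nat_lit 474)) (XT.nd (nat_lit 78) (nat_lit 1672) (nat_lit 0) (XT.lf (nat_lit 0) (nat_lit 2403609321) (nat_lit 1672) (nat_lit 1502293397) (nat_lit 76) (nat_lit 3762191948) (nat_lit 544) (nat_lit 5) (nat_lit 566) (nat_lit 5) (nat_lit 545) (nat_lit 5) (nat_lit 560) (nat_lit 527) (nat_lit 473)) (XT.lf (nat_lit 0) (nat_lit 3285151474) (nat_lit 1672) (nat_lit 1369138620) (nat_lit 1748) (nat_lit 3070244757) (nat_lit 522) (nat_lit 5) (nat_lit 544) (nat_lit 5) (nat_lit 545) (nat_lit 5) (nat_lit 561) (nat_lit 527) (nat_lit 472)))) (XT.nd (nat_lit 78) (nat_lit 1900) (nat_lit 0) (XT.lf (nat_lit 0) (nat_lit 366470675) (nat_lit 1748) (nat_lit 6563497748) (nat_lit 1824) (nat_lit 852537148) (nat_lit 499) (nat_lit 5) (nat_lit 522) (nat_lit 5) (nat_lit 523) (nat_lit 5) (nat_lit 562) (nat_lit 527) (nat_lit 471)) (XT.nd (nat_lit 78) (nat_lit 1824) (nat_lit 0)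 (XT.lf (nat_lit 0) (nat_lit 1389927586) (nat_lit 1824) (nat_lit 2568293195) (nat_lit 76) (nat_lit 3883255465) (nat_lit 498) (nat_lit 5) (nat_lit 522) (nat_lit 5) (nat_lit 499) (nat_lit 5) (nat_lit 563) (nat_lit 527) (nat_lit 470)) (XT.lf (nat_lit 0) (nat_lit 2365053820) (nat_lit 1824) (nat_lit 1276760171) (nat_lit 1900) (nat_lit 4260181208) (nat_lit 474) (nat_lit 5) (nat_lit 498) (nat_lit 5) (nat_lit 499) (nat_lit 5) (nat_lit 564) (nat_lit 527) (nat_lit 469))))))))
noncomputable def xc83 : XT := (XT.nd (nat_lit 1560) (nat_lit 8360) (nat_lit 0) (XT.nd (nat_lit 780) (nat_lit 5396) (nat_lit 0) (XT.nd (nat_lit 390) (nat_lit 2736) (nat_lit 0) (XT.nd (nat_lit 156) (nat_lit 1824) (nat_lit 0) (XT.nd (nat_lit 78) (nat_lit 1216) (nat_lit 0) (XT.lf (nat_lit 0) (nat_lit 5926727595) (nat_lit 1900) (nat_lit 578354353) (nat_lit 76) (nat_lit 1458884095) (nat_lit 474) (nat_lit 5) (nat_lit 499) (nat_lit 5) (nat_lit 475) (nat_lit 5) (nat_lit 565) (nat_lit 527) (nat_lit 468)) (XT.lf (nat_lit 0) (nat_lit 226703089) (nat_lit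 1216) (nat_lit 3535340566) (nat_lit 76) (nat_lit 4265112841) (nat_lit 458) (nat_lit 5) (nat_lit 474) (nat_lit 5) (nat_lit 459) (nat_lit 5) (nat_lit 566) (nat_lit 527) (nat_lit 467))) (XT.nd (nat_lit 78) (nat_lit 912) (nat_lit 0) (XT.lf (nat_lit 0) (nat_lit 1549697466) (nat_lit 912) (nat_lit 935135669) (nat_lit 988) (nat_lit 5606985761) (nat_lit 446) (nat_lit 5) (nat_lit 458) (nat_lit 5) (nat_lit 459) (nat_lit 5) (nat_lit 567) (nat_lit 527) (nat_lit 466)) (XT.nd (nat_lit 78) (nat_lit 912) (nat_lit 0) (XT.lf (nat_lit 0) (nat_lit 4787359668) (nat_lit 988) (nat_lit 1423064030) (nat_lit 76) (nat_lit 1947367371) (nat_lit 446) (nat_lit 5) (nat_lit 459) (nat_lit 5) (nat_lit 447) (nat_lit 5) (nat_lit 568) (nat_lit 527) (nat_lit 465)) (XT.lf (nat_lit 0) (nat_lit 3805507304) (nat_lit 912) (nat_lit 3324764622) (nat_lit 988) (nat_lit 1094925233) (nat_lit 434) (nat_lit 5) (nat_lit 446) (nat_lit 5) (nat_lit 447) (nat_lit 5) (nat_lit 569) (nat_lit 527) (nat_lit 464))))) (XT.nd (nat_lit 156) (nat_lit 1824) (nat_lit 0) (XT.nd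 (nat_lit 78) (nat_lit 0) (nat_lit 0) (XT.lf (nat_lit 0) (nat_lit 830216935) (nat_lit 836) (nat_lit 358472047) (nat_lit 912) (nat_lit 7105530745) (nat_lit 422) (nat_lit 5) (nat_lit 433) (nat_lit 5) (nat_lit 434) (nat_lit 5) (nat_lit 570) (nat_lit 527) (nat_lit 463)) (XT.lf (nat_lit 0) (nat_lit 3514645087) (nat_lit 912) (nat_lit 2181060526) (nat_lit 76) (nat_lit 2668546881) (nat_lit 422) (nat_lit 5) (nat_lit 434) (nat_lit 5) (nat_lit 423) (nat_lit 5) (nat_lit 571) (nat_lit 527) (nat_lit 462))) (XT.nd (nat_lit 78) (nat_lit 912) (nat_lit 0) (XT.lf (nat_lit 0) (nat_lit 3210708545) (nat_lit 912) (nat_lit 2664480043) (nat_lit 988) (nat_lit 2560737052) (nat_lit 410) (nat_lit 5) (nat_lit 422) (nat_lit 5) (nat_lit 423) (nat_lit 5) (nat_lit 572) (nat_lit 527) (nat_lit 461)) (XT.nd (nat_lit 78) (nat_lit 76) (nat_lit 0) (XT.lf (nat_lit 0) (nat_lit 193797344) (nat_lit 836) (nat_lit 8073202702) (nat_lit 912) (nat_lit 242352130) (nat_lit 399) (nat_lit 5) (nat_lit 410) (nat_lit 5) (nat_lit 411) (nat_lit 5) (nat_lit 573)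 (nat_lit 527) (nat_lit 460)) (XT.lf (nat_lit 0) (nat_lit 2113011502) (nat_lit 912) (nat_lit 2860409420) (nat_lit 76) (nat_lit 3610182812) (nat_lit 398) (nat_lit 5) (nat_lit 410) (nat_lit 5) (nat_lit 399) (nat_lit 5) (nat_lit 574) (nat_lit 527) (nat_lit 459)))))) (XT.nd (nat_lit 390) (nat_lit 2964) (nat_lit 0) (XT.nd (nat_lit 156) (nat_lit 1596) (nat_lit 0) (XT.nd (nat_lit 78) (nat_lit 0) (nat_lit 0) (XT.lf (nat_lit 0) (nat_lit 2701163181) (nat_lit 836) (nat_lit 1794796225) (nat_lit 912) (nat_lit 4163675442) (nat_lit 387) (nat_lit 5) (nat_lit 398) (nat_lit 5) (nat_lit 399) (nat_lit 5) (nat_lit 575) (nat_lit 527) (nat_lit 458)) (XT.lf (nat_lit 0) (nat_lit 6921876146) (nat_lit 912) (nat_lit 370493521) (nat_lit 76) (nat_lit 1444911707) (nat_lit 387) (nat_lit 5) (nat_lit 399) (nat_lit 5) (nat_lit 388) (nat_lit 5) (nat_lit 576) (nat_lit 527) (nat_lit 457))) (XT.nd (nat_lit 78) (nat_lit 760) (nat_lit 0) (XT.lf (nat_lit 0) (nat_lit 586192896) (nat_lit 836) (nat_lit 3468702051) (nat_lit 76) (nat_lit 4761232196) (nat_lit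 376) (nat_lit 5) (nat_lit 387) (nat_lit 5) (nat_lit 377) (nat_lit 5) (nat_lit 577) (nat_lit 527) (nat_lit 456)) (XT.nd (nat_lit 78) (nat_lit 0) (nat_lit 0) (XT.lf (nat_lit 0) (nat_lit 2269571946) (nat_lit 760) (nat_lit 726642950) (nat_lit 836) (nat_lit 5900401862) (nat_lit 366) (nat_lit 5) (nat_lit 376) (nat_lit 5) (nat_lit 377) (nat_lit 5) (nat_lit 578) (nat_lit 527) (nat_lit 455)) (XT.lf (nat_lit 0) (nat_lit 5463009032) (nat_lit 836) (nat_lit 862855593) (nat_lit 76) (nat_lit 2652681016) (nat_lit 366) (nat_lit 5) (nat_lit 377) (nat_lit 5) (nat_lit 367) (nat_lit 5) (nat_lit 579) (nat_lit 527) (nat_lit 454))))) (XT.nd (nat_lit 156) (nat_lit 1368) (nat_lit 0) (XT.nd (nat_lit 78) (nat_lit 836) (nat_lit 0) (XT.lf (nat_lit 0) (nat_lit 5041893436) (nat_lit 760) (nat_lit 2943241345) (nat_lit 836) (nat_lit 1076859301) (nat_lit 356) (nat_lit 5) (nat_lit 366) (nat_lit 5) (nat_lit 367) (nat_lit 5) (nat_lit 580) (nat_lit 527) (nat_lit 453)) (XT.lf (nat_lit 0) (nat_lit 1382383901) (nat_lit 836) (nat_lit 7241573030) (nat_lit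 76) (nat_lit 523166398) (nat_lit 345) (nat_lit 5) (nat_lit 356) (nat_lit 5) (nat_lit 346) (nat_lit 5) (nat_lit 581) (nat_lit 527) (nat_lit 452))) (XT.nd (nat_lit 78) (nat_lit 1368) (nat_lit 0) (XT.lf (nat_lit 0) (nat_lit 3892029950) (nat_lit 836) (nat_lit 1292577488) (nat_lit 76) (nat_lit 4048893462) (nat_lit 345) (nat_lit 5) (nat_lit 356) (nat_lit 5) (nat_lit 346) (nat_lit 5) (nat_lit 582) (nat_lit 527) (nat_lit 451)) (XT.nd (nat_lit 78) (nat_lit 684) (nat_lit 0) (XT.lf (nat_lit 0) (nat_lit 4802533253) (nat_lit 684) (nat_lit 1650101544) (nat_lit 760) (nat_lit 2868956734) (nat_lit 336) (nat_lit 5) (nat_lit 345) (nat_lit 5) (nat_lit 346) (nat_lit 5) (nat_lit 583) (nat_lit 527) (nat_lit 450)) (XT.lf (nat_lit 0) (nat_lit 1597820813) (nat_lit 684) (nat_lit 7468343787) (nat_lit 760) (nat_lit 345245925) (nat_lit 327) (nat_lit 5) (nat_lit 336) (nat_lit 5) (nat_lit 337) (nat_lit 5) (nat_lit 584) (nat_lit 527) (nat_lit 449))))))) (XT.nd (nat_lit 780) (nat_lit 4332) (nat_lit 0) (XT.nd (nat_lit 390) (nat_lit 1900)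 (nat_lit 0) (XT.nd (nat_lit 156) (nat_lit 1368) (nat_lit 0) (XT.nd (nat_lit 78) (nat_lit 684) (nat_lit 0) (XT.lf (nat_lit 0) (nat_lit 2211232630) (nat_lit 760) (nat_lit 1666066378) (nat_lit 76) (nat_lit 5625207706) (nat_lit 326) (nat_lit 5) (nat_lit 336) (nat_lit 5) (nat_lit 327) (nat_lit 5) (nat_lit 585) (nat_lit 527) (nat_lit 448)) (XT.lf (nat_lit 0) (nat_lit 4627178790) (nat_lit 684) (nat_lit 187745528) (nat_lit 760) (nat_lit 4780441501) (nat_lit 317) (nat_lit 5) (nat_lit 326) (nat_lit 5) (nat_lit 327) (nat_lit 5) (nat_lit 586) (nat_lit 527) (nat_lit 447))) (XT.nd (nat_lit 78) (nat_lit 684) (nat_lit 0) (XT.lf (nat_lit 0) (nat_lit 1337331241) (nat_lit 684) (nat_lit 6147474150) (nat_lit 760) (nat_lit 2204995151) (nat_lit 308) (nat_lit 5) (nat_lit 317) (nat_lit 5) (nat_lit 318) (nat_lit 5) (nat_lit 587) (nat_lit 527) (nat_lit 446)) (XT.nd (nat_lit 78) (nat_lit 608) (nat_lit 0) (XT.lf (nat_lit 0) (nat_lit 422339450) (nat_lit 760) (nat_lit 1989437469) (nat_lit 76) (nat_lit 7374174699) (nat_lit 307) (nat_lit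 5) (nat_lit 317) (nat_lit 5) (nat_lit 308) (nat_lit 5) (nat_lit 588) (nat_lit 527) (nat_lit 445)) (XT.lf (nat_lit 0) (nat_lit 3083007853) (nat_lit 684) (nat_lit 5383012683) (nat_lit 76) (nat_lit 1417508143) (nat_lit 299) (nat_lit 5) (nat_lit 308) (nat_lit 5) (nat_lit 300) (nat_lit 5) (nat_lit 589) (nat_lit 527) (nat_lit 444))))) (XT.nd (nat_lit 156) (nat_lit 1292) (nat_lit 0) (XT.nd (nat_lit 78) (nat_lit 0) (nat_lit 0) (XT.lf (nat_lit 0) (nat_lit 1127517257) (nat_lit 608) (nat_lit 4678060974) (nat_lit 684) (nat_lit 4177305969) (nat_lit 291) (nat_lit 5) (nat_lit 299) (nat_lit 5) (nat_lit 300) (nat_lit 5) (nat_lit 590) (nat_lit 527) (nat_lit 443)) (XT.lf (nat_lit 0) (nat_lit 7805805034) (nat_lit 608) (nat_lit 785195109) (nat_lit 684) (nat_lit 1493059363) (nat_lit 291) (nat_lit 5) (nat_lit 299) (nat_lit 5) (nat_lit 300) (nat_lit 5) (nat_lit 591) (nat_lit 527) (nat_lit 442))) (XT.nd (nat_lit 78) (nat_lit 608) (nat_lit 0) (XT.lf (nat_lit 0) (nat_lit 1250926043) (nat_lit 684) (nat_lit 5762413275) (nat_lit 76)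 (nat_lit 3173310388) (nat_lit 282) (nat_lit 5) (nat_lit 291) (nat_lit 5) (nat_lit 283) (nat_lit 5) (nat_lit 592) (nat_lit 527) (nat_lit 441)) (XT.nd (nat_lit 78) (nat_lit 0) (nat_lit 0) (XT.lf (nat_lit 0) (nat_lit 962760602) (nat_lit 608) (nat_lit 3066797197) (nat_lit 684) (nat_lit 6261541993) (nat_lit 274) (nat_lit 5) (nat_lit 282) (nat_lit 5) (nat_lit 283) (nat_lit 5) (nat_lit 593) (nat_lit 527) (nat_lit 440)) (XT.lf (nat_lit 0) (nat_lit 6882060441) (nat_lit 684) (nat_lit 2538397630) (nat_lit 76) (nat_lit 976815469) (nat_lit 274) (nat_lit 5) (nat_lit 283) (nat_lit 5) (nat_lit 275) (nat_lit 5) (nat_lit 594) (nat_lit 527) (nat_lit 439)))))) (XT.nd (nat_lit 390) (nat_lit 1976) (nat_lit 0) (XT.nd (nat_lit 156) (nat_lit 1140) (nat_lit 0) (XT.nd (nat_lit 78) (nat_lit 684) (nat_lit 0) (XT.lf (nat_lit 0) (nat_lit 4389701961) (nat_lit 532) (nat_lit 5424397417) (nat_lit 608) (nat_lit 691022273) (nat_lit 267) (nat_lit 5) (nat_lit 274) (nat_lit 5) (nat_lit 275) (nat_lit 5) (nat_lit 595) (nat_lit 527) (nat_lit 438))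 (XT.lf (nat_lit 0) (nat_lit 837620351) (nat_lit 608) (nat_lit 1319693029) (nat_lit 684) (nat_lit 8457602027) (nat_lit 258) (nat_lit 5) (nat_lit 266) (nat_lit 5) (nat_lit 267) (nat_lit 5) (nat_lit 596) (nat_lit 527) (nat_lit 437))) (XT.nd (nat_lit 78) (nat_lit 1140) (nat_lit 0) (XT.lf (nat_lit 0) (nat_lit 5087320088) (nat_lit 684) (nat_lit 2772182982) (nat_lit 76) (nat_lit 2866632050) (nat_lit 258) (nat_lit 5) (nat_lit 267) (nat_lit 5) (nat_lit 259) (nat_lit 5) (nat_lit 597) (nat_lit 527) (nat_lit 436)) (XT.nd (nat_lit 78) (nat_lit 608) (nat_lit 0) (XT.lf (nat_lit 0) (nat_lit 4387269924) (nat_lit 532) (nat_lit 3700414969) (nat_lit 608) (nat_lit 2751659741) (nat_lit 251) (nat_lit 5) (nat_lit 258) (nat_lit 5) (nat_lit 259) (nat_lit 5) (nat_lit 598) (nat_lit 527) (nat_lit 435)) (XT.lf (nat_lit 0) (nat_lit 192543249) (nat_lit 608) (nat_lit 10211663502) (nat_lit 76) (nat_lit 550550261) (nat_lit 243) (nat_lit 5) (nat_lit 251) (nat_lit 5) (nat_lit 244) (nat_lit 5) (nat_lit 599) (nat_lit 527) (nat_lit 434))))) (XT.nd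 (nat_lit 234) (nat_lit 988) (nat_lit 0) (XT.nd (nat_lit 78) (nat_lit 988) (nat_lit 0) (XT.lf (nat_lit 0) (nat_lit 3201764703) (nat_lit 608) (nat_lit 2979887797) (nat_lit 76) (nat_lit 4889602318) (nat_lit 243) (nat_lit 5) (nat_lit 251) (nat_lit 5) (nat_lit 244) (nat_lit 5) (nat_lit 600) (nat_lit 527) (nat_lit 433)) (XT.nd (nat_lit 78) (nat_lit 532) (nat_lit 0) (XT.lf (nat_lit 0) (nat_lit 4420295353) (nat_lit 456) (nat_lit 1854922837) (nat_lit 532) (nat_lit 4914783962) (nat_lit 237) (nat_lit 5) (nat_lit 243) (nat_lit 5) (nat_lit 244) (nat_lit 5) (nat_lit 601) (nat_lit 527) (nat_lit 432)) (XT.lf (nat_lit 0) (nat_lit 655604238) (nat_lit 532) (nat_lit 8771081266) (nat_lit 608) (nat_lit 1884108548) (nat_lit 230) (nat_lit 5) (nat_lit 237) (nat_lit 5) (nat_lit 238) (nat_lit 5) (nat_lit 602) (nat_lit 527) (nat_lit 431)))) (XT.nd (nat_lit 78) (nat_lit 912) (nat_lit 0) (XT.lf (nat_lit 0) (nat_lit 1225006859) (nat_lit 608) (nat_lit 3166829395) (nat_lit 76) (nat_lit 7041336094) (nat_lit 229) (nat_lit 5) (nat_lit 237)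 (nat_lit 5) (nat_lit 230) (nat_lit 5) (nat_lit 603) (nat_lit 527) (nat_lit 430)) (XT.nd (nat_lit 78) (nat_lit 456) (nat_lit 0) (XT.lf (nat_lit 0) (nat_lit 4377032536) (nat_lit 532) (nat_lit 7074539060) (nat_lit 76) (nat_lit 106058895) (nat_lit 223) (nat_lit 5) (nat_lit 230) (nat_lit 5) (nat_lit 224) (nat_lit 5) (nat_lit 604) (nat_lit 527) (nat_lit 429)) (XT.lf (nat_lit 0) (nat_lit 589278689) (nat_lit 456) (nat_lit 7033431132) (nat_lit 532) (nat_lit 4061256229) (nat_lit 217) (nat_lit 5) (nat_lit 223) (nat_lit 5) (nat_lit 224) (nat_lit 5) (nat_lit 605) (nat_lit 527) (nat_lit 428))))))))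
noncomputable def xc84 : XT := (XT.nd (nat_lit 75660) (nat_lit 0) (nat_lit 33136) (XT.nd (nat_lit 780) (nat_lit 836) (nat_lit 0) (XT.nd (nat_lit 390) (nat_lit 1292) (nat_lit 0) (XT.nd (nat_lit 156) (nat_lit 912) (nat_lit 0) (XT.nd (nat_lit 78) (nat_lit 532) (nat_lit 0) (XT.lf (nat_lit 0) (nat_lit 8468484609) (nat_lit 456) (nat_lit 2488843380) (nat_lit 532) (nat_lit 855020248) (nat_lit 217) (nat_lit 5) (nat_lit 223) (nat_lit 5) (nat_lit 224) (nat_lit 5) (nat_lit 606) (nat_lit 527) (nat_lit 427)) (XT.lf (nat_lit 0) (nat_lit 2404384275) (nat_lit 532) (nat_lit 7384187665) (nat_lit 76) (nat_lit 2153998506) (nat_lit 210) (nat_lit 5) (nat_lit 217) (nat_lit 5) (nat_lit 211) (nat_lit 5) (nat_lit 607) (nat_lit 527) (nat_lit 426))) (XT.nd (nat_lit 78) (nat_lit 456) (nat_lit 0) (XT.lf (nat_lit 0) (nat_lit 540242221) (nat_lit 456) (nat_lit 5196906019) (nat_lit 532) (nat_lit 6337743864) (nat_lit 204) (nat_lit 5) (nat_lit 210) (nat_lit 5) (nat_lit 211) (nat_lit 5) (nat_lit 608) (nat_lit 527) (nat_lit 425)) (XT.nd (nat_lit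 78) (nat_lit 456) (nat_lit 0) (XT.lf (nat_lit 0) (nat_lit 8689873871) (nat_lit 456) (nat_lit 473510688) (nat_lit 532) (nat_lit 3045939722) (nat_lit 204) (nat_lit 5) (nat_lit 210) (nat_lit 5) (nat_lit 211) (nat_lit 5) (nat_lit 609) (nat_lit 527) (nat_lit 424)) (XT.lf (nat_lit 0) (nat_lit 343929284) (nat_lit 456) (nat_lit 7692183657) (nat_lit 76) (nat_lit 4309565762) (nat_lit 198) (nat_lit 5) (nat_lit 204) (nat_lit 5) (nat_lit 199) (nat_lit 5) (nat_lit 610) (nat_lit 527) (nat_lit 423))))) (XT.nd (nat_lit 156) (nat_lit 836) (nat_lit 0) (XT.nd (nat_lit 78) (nat_lit 0) (nat_lit 0) (XT.lf (nat_lit 0) (nat_lit 503271073) (nat_lit 456) (nat_lit 3265475923) (nat_lit 532) (nat_lit 8715452220) (nat_lit 192) (nat_lit 5) (nat_lit 198) (nat_lit 5) (nat_lit 199) (nat_lit 5) (nat_lit 611) (nat_lit 527) (nat_lit 422)) (XT.lf (nat_lit 0) (nat_lit 7302286629) (nat_lit 532) (nat_lit 3701623510) (nat_lit 76) (nat_lit 1620775886) (nat_lit 192) (nat_lit 5) (nat_lit 199) (nat_lit 5) (nat_lit 193) (nat_lit 5) (nat_lit 612) (nat_lit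 527) (nat_lit 421))) (XT.nd (nat_lit 78) (nat_lit 456) (nat_lit 0) (XT.lf (nat_lit 0) (nat_lit 4751272614) (nat_lit 380) (nat_lit 6186005513) (nat_lit 456) (nat_lit 1830089210) (nat_lit 187) (nat_lit 5) (nat_lit 192) (nat_lit 5) (nat_lit 193) (nat_lit 5) (nat_lit 613) (nat_lit 527) (nat_lit 420)) (XT.nd (nat_lit 78) (nat_lit 0) (nat_lit 0) (XT.lf (nat_lit 0) (nat_lit 473035966) (nat_lit 380) (nat_lit 1242769374) (nat_lit 456) (nat_lit 11196743303) (nat_lit 181) (nat_lit 5) (nat_lit 186) (nat_lit 5) (nat_lit 187) (nat_lit 5) (nat_lit 614) (nat_lit 527) (nat_lit 419)) (XT.lf (nat_lit 0) (nat_lit 5365471355) (nat_lit 456) (nat_lit 3888988187) (nat_lit 76) (nat_lit 3804785294) (nat_lit 181) (nat_lit 5) (nat_lit 187) (nat_lit 5) (nat_lit 182) (nat_lit 5) (nat_lit 615) (nat_lit 527) (nat_lit 418)))))) (XT.nd (nat_lit 74490) (nat_lit 0) (nat_lit 42940) (XT.nd (nat_lit 156) (nat_lit 76) (nat_lit 0) (XT.nd (nat_lit 78) (nat_lit 380) (nat_lit 0) (XT.lf (nat_lit 0) (nat_lit 4855749400) (nat_lit 380) (nat_lit 4251078810)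 (nat_lit 456) (nat_lit 4101673152) (nat_lit 176) (nat_lit 5) (nat_lit 181) (nat_lit 5) (nat_lit 182) (nat_lit 5) (nat_lit 616) (nat_lit 527) (nat_lit 417)) (XT.lf (nat_lit 0) (nat_lit 435497770) (nat_lit 380) (nat_lit 12501218920) (nat_lit 456) (nat_lit 423752591) (nat_lit 171) (nat_lit 5) (nat_lit 176) (nat_lit 5) (nat_lit 177) (nat_lit 5) (nat_lit 617) (nat_lit 527) (nat_lit 416))) (XT.nd (nat_lit 74178) (nat_lit 0) (nat_lit 44308) (XT.lf (nat_lit 0) (nat_lit 3347794729) (nat_lit 456) (nat_lit 4084197486) (nat_lit 76) (nat_lit 6081778323) (nat_lit 170) (nat_lit 5) (nat_lit 176) (nat_lit 5) (nat_lit 171) (nat_lit 5) (nat_lit 618) (nat_lit 527) (nat_lit 415)) (XT.nd (nat_lit 78) (nat_lit 0) (nat_lit 0) (XT.lf (nat_lit 0) (nat_lit 128309100) (nat_lit 684) (nat_lit 1576765904) (nat_lit 684) (nat_lit 1576765904) (nat_lit 753) (nat_lit 3) (nat_lit 762) (nat_lit 3) (nat_lit 762) (nat_lit 5) (nat_lit 528) (nat_lit 528) (nat_lit 504)) (XT.lf (nat_lit 76) (nat_lit 119705772) (nat_lit 0) (nat_lit 2623832303) (nat_lit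 684) (nat_lit 3835972521) (nat_lit 754) (nat_lit 5) (nat_lit 753) (nat_lit 3) (nat_lit 762) (nat_lit 5) (nat_lit 529) (nat_lit 528) (nat_lit 503))))) (XT.nd (nat_lit 156) (nat_lit 684) (nat_lit 0) (XT.nd (nat_lit 78) (nat_lit 684) (nat_lit 0) (XT.lf (nat_lit 76) (nat_lit 3467487918) (nat_lit 0) (nat_lit 1768506595) (nat_lit 684) (nat_lit 1360548650) (nat_lit 754) (nat_lit 5) (nat_lit 753) (nat_lit 3) (nat_lit 762) (nat_lit 5) (nat_lit 530) (nat_lit 528) (nat_lit 502)) (XT.lf (nat_lit 76) (nat_lit 229897168) (nat_lit 0) (nat_lit 856198565) (nat_lit 760) (nat_lit 5528932836) (nat_lit 745) (nat_lit 5) (nat_lit 744) (nat_lit 5) (nat_lit 754) (nat_lit 5) (nat_lit 531) (nat_lit 528) (nat_lit 501))) (XT.nd (nat_lit 78) (nat_lit 760) (nat_lit 0) (XT.lf (nat_lit 0) (nat_lit 3521822263) (nat_lit 684) (nat_lit 2979762399) (nat_lit 760) (nat_lit 132954805) (nat_lit 745) (nat_lit 5) (nat_lit 754) (nat_lit 5) (nat_lit 755) (nat_lit 5) (nat_lit 532) (nat_lit 528) (nat_lit 500)) (XT.nd (nat_lit 78) (nat_lit 760) (nat_lit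 0) (XT.lf (nat_lit 76) (nat_lit 459650238) (nat_lit 0) (nat_lit 5493238750) (nat_lit 760) (nat_lit 702622014) (nat_lit 746) (nat_lit 5) (nat_lit 745) (nat_lit 5) (nat_lit 755) (nat_lit 5) (nat_lit 533) (nat_lit 528) (nat_lit 499)) (XT.lf (nat_lit 0) (nat_lit 1691335597) (nat_lit 760) (nat_lit 2714805724) (nat_lit 836) (nat_lit 2271361754) (nat_lit 735) (nat_lit 5) (nat_lit 745) (nat_lit 5) (nat_lit 746) (nat_lit 5) (nat_lit 534) (nat_lit 528) (nat_lit 498))))))) (XT.nd (nat_lit 780) (nat_lit 7220) (nat_lit 0) (XT.nd (nat_lit 390) (nat_lit 1748) (nat_lit 0) (XT.nd (nat_lit 156) (nat_lit 836) (nat_lit 0) (XT.nd (nat_lit 78) (nat_lit 0) (nat_lit 0) (XT.lf (nat_lit 76) (nat_lit 807479257) (nat_lit 0) (nat_lit 3261299534) (nat_lit 836) (nat_lit 2632165782) (nat_lit 736) (nat_lit 5) (nat_lit 735) (nat_lit 5) (nat_lit 746) (nat_lit 5) (nat_lit 535) (nat_lit 528) (nat_lit 497)) (XT.lf (nat_lit 76) (nat_lit 4402907419) (nat_lit 0) (nat_lit 2049803961) (nat_lit 836) (nat_lit 272967419) (nat_lit 736) (nat_lit 5) (nat_lit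 735) (nat_lit 5) (nat_lit 746) (nat_lit 5) (nat_lit 536) (nat_lit 528) (nat_lit 496))) (XT.nd (nat_lit 78) (nat_lit 0) (nat_lit 76) (XT.lf (nat_lit 76) (nat_lit 1288165592) (nat_lit 0) (nat_lit 767130389) (nat_lit 912) (nat_lit 4696340077) (nat_lit 725) (nat_lit 5) (nat_lit 724) (nat_lit 5) (nat_lit 736) (nat_lit 5) (nat_lit 537) (nat_lit 528) (nat_lit 495)) (XT.nd (nat_lit 78) (nat_lit 0) (nat_lit 0) (XT.lf (nat_lit 0) (nat_lit 4388254227) (nat_lit 836) (nat_lit 1815714349) (nat_lit 912) (nat_lit 574874660) (nat_lit 725) (nat_lit 5) (nat_lit 736) (nat_lit 5) (nat_lit 737) (nat_lit 5) (nat_lit 538) (nat_lit 528) (nat_lit 494)) (XT.lf (nat_lit 76) (nat_lit 1890101713) (nat_lit 0) (nat_lit 4838825129) (nat_lit 912) (nat_lit 78449112) (nat_lit 726) (nat_lit 5) (nat_lit 725) (nat_lit 5) (nat_lit 737) (nat_lit 5) (nat_lit 539) (nat_lit 528) (nat_lit 493))))) (XT.nd (nat_lit 156) (nat_lit 912) (nat_lit 0) (XT.nd (nat_lit 78) (nat_lit 0) (nat_lit 0) (XT.lf (nat_lit 0) (nat_lit 2206511264) (nat_lit 912) (nat_lit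 1191592567) (nat_lit 988) (nat_lit 3438952255) (nat_lit 713) (nat_lit 5) (nat_lit 725) (nat_lit 5) (nat_lit 726) (nat_lit 5) (nat_lit 540) (nat_lit 528) (nat_lit 492)) (XT.lf (nat_lit 76) (nat_lit 2607854337) (nat_lit 0) (nat_lit 1890507147) (nat_lit 988) (nat_lit 2369715502) (nat_lit 714) (nat_lit 5) (nat_lit 713) (nat_lit 5) (nat_lit 726) (nat_lit 5) (nat_lit 541) (nat_lit 528) (nat_lit 491))) (XT.nd (nat_lit 78) (nat_lit 912) (nat_lit 0) (XT.lf (nat_lit 76) (nat_lit 6465237704) (nat_lit 0) (nat_lit 324965696) (nat_lit 988) (nat_lit 110434123) (nat_lit 714) (nat_lit 5) (nat_lit 713) (nat_lit 5) (nat_lit 726) (nat_lit 5) (nat_lit 542) (nat_lit 528) (nat_lit 490)) (XT.nd (nat_lit 78) (nat_lit 0) (nat_lit 0) (XT.lf (nat_lit 0) (nat_lit 2143227076) (nat_lit 988) (nat_lit 3479955842) (nat_lit 1064) (nat_lit 1310824284) (nat_lit 701) (nat_lit 5) (nat_lit 714) (nat_lit 5) (nat_lit 715) (nat_lit 5) (nat_lit 543) (nat_lit 528) (nat_lit 489)) (XT.lf (nat_lit 76) (nat_lit 426716781) (nat_lit 0) (nat_lit 3969433362)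 (nat_lit 1064) (nat_lit 2572768363) (nat_lit 702) (nat_lit 5) (nat_lit 701) (nat_lit 5) (nat_lit 715) (nat_lit 5) (nat_lit 544) (nat_lit 528) (nat_lit 488)))))) (XT.nd (nat_lit 390) (nat_lit 5092) (nat_lit 0) (XT.nd (nat_lit 156) (nat_lit 1064) (nat_lit 0) (XT.nd (nat_lit 78) (nat_lit 1064) (nat_lit 0) (XT.lf (nat_lit 76) (nat_lit 4423741473) (nat_lit 0) (nat_lit 2242341325) (nat_lit 1064) (nat_lit 339008351) (nat_lit 702) (nat_lit 5) (nat_lit 701) (nat_lit 5) (nat_lit 715) (nat_lit 5) (nat_lit 545) (nat_lit 528) (nat_lit 487)) (XT.lf (nat_lit 76) (nat_lit 1429937289) (nat_lit 0) (nat_lit 442608601) (nat_lit 1140) (nat_lit 5170020468) (nat_lit 688) (nat_lit 5) (nat_lit 687) (nat_lit 5) (nat_lit 702) (nat_lit 5) (nat_lit 546) (nat_lit 528) (nat_lit 486))) (XT.nd (nat_lit 78) (nat_lit 1140) (nat_lit 0) (XT.lf (nat_lit 0) (nat_lit 4100417269) (nat_lit 1064) (nat_lit 1571222876) (nat_lit 76) (nat_lit 1409575613) (nat_lit 688) (nat_lit 5) (nat_lit 702) (nat_lit 5) (nat_lit 689) (nat_lit 5) (nat_lit 547) (nat_lit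 528) (nat_lit 485)) (XT.nd (nat_lit 78) (nat_lit 76) (nat_lit 0) (XT.lf (nat_lit 0) (nat_lit 2546364262) (nat_lit 1064) (nat_lit 3797062495) (nat_lit 1140) (nat_lit 777801748) (nat_lit 674) (nat_lit 5) (nat_lit 688) (nat_lit 5) (nat_lit 689) (nat_lit 5) (nat_lit 548) (nat_lit 528) (nat_lit 484)) (XT.lf (nat_lit 0) (nat_lit 1412126988) (nat_lit 1140) (nat_lit 439365439) (nat_lit 76) (nat_lit 5311117356) (nat_lit 673) (nat_lit 5) (nat_lit 688) (nat_lit 5) (nat_lit 674) (nat_lit 5) (nat_lit 549) (nat_lit 528) (nat_lit 483))))) (XT.nd (nat_lit 234) (nat_lit 2660) (nat_lit 0) (XT.nd (nat_lit 78) (nat_lit 1292) (nat_lit 0) (XT.lf (nat_lit 0) (nat_lit 3613668384) (nat_lit 1216) (nat_lit 3417769497) (nat_lit 76) (nat_lit 173715263) (nat_lit 658) (nat_lit 5) (nat_lit 674) (nat_lit 5) (nat_lit 659) (nat_lit 5) (nat_lit 550) (nat_lit 528) (nat_lit 482)) (XT.nd (nat_lit 78) (nat_lit 76) (nat_lit 0) (XT.lf (nat_lit 0) (nat_lit 818976248) (nat_lit 1216) (nat_lit 5014076046) (nat_lit 1292) (nat_lit 1416020667) (nat_lit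 642) (nat_lit 5) (nat_lit 658) (nat_lit 5) (nat_lit 659) (nat_lit 5) (nat_lit 551) (nat_lit 528) (nat_lit 481)) (XT.lf (nat_lit 0) (nat_lit 769153584) (nat_lit 1292) (nat_lit 2147994175) (nat_lit 76) (nat_lit 4377086264) (nat_lit 641) (nat_lit 5) (nat_lit 658) (nat_lit 5) (nat_lit 642) (nat_lit 5) (nat_lit 552) (nat_lit 528) (nat_lit 480)))) (XT.nd (nat_lit 78) (nat_lit 1368) (nat_lit 0) (XT.lf (nat_lit 0) (nat_lit 2203982153) (nat_lit 1292) (nat_lit 743969839) (nat_lit 1368) (nat_lit 4392783212) (nat_lit 624) (nat_lit 5) (nat_lit 641) (nat_lit 5) (nat_lit 642) (nat_lit 5) (nat_lit 553) (nat_lit 528) (nat_lit 479)) (XT.nd (nat_lit 78) (nat_lit 1368) (nat_lit 0) (XT.lf (nat_lit 0) (nat_lit 5149677856) (nat_lit 1368) (nat_lit 761444998) (nat_lit 76) (nat_lit 1477458208) (nat_lit 624) (nat_lit 5) (nat_lit 642) (nat_lit 5) (nat_lit 625) (nat_lit 5) (nat_lit 554) (nat_lit 528) (nat_lit 478)) (XT.lf (nat_lit 0) (nat_lit 3709778549) (nat_lit 1368) (nat_lit 3670830135) (nat_lit 1444) (nat_lit 57073395) (nat_lit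 606) (nat_lit 5) (nat_lit 624) (nat_lit 5) (nat_lit 625) (nat_lit 5) (nat_lit 555) (nat_lit 528) (nat_lit 477))))))))
noncomputable def xc85 : XT := (XT.nd (nat_lit 1560) (nat_lit 10032) (nat_lit 0) (XT.nd (nat_lit 780) (nat_lit 5776) (nat_lit 0) (XT.nd (nat_lit 390) (nat_lit 5320) (nat_lit 0) (XT.nd (nat_lit 156) (nat_lit 3192) (nat_lit 0) (XT.nd (nat_lit 78) (nat_lit 0) (nat_lit 0) (XT.lf (nat_lit 0) (nat_lit 753185477) (nat_lit 1444) (nat_lit 1353303638) (nat_lit 1520) (nat_lit 5381665314) (nat_lit 586) (nat_lit 5) (nat_lit 605) (nat_lit 5) (nat_lit 606) (nat_lit 5) (nat_lit 556) (nat_lit 528) (nat_lit 476)) (XT.lf (nat_lit 0) (nat_lit 4301475026) (nat_lit 1520) (nat_lit 2208150081) (nat_lit 76) (nat_lit 1030226804) (nat_lit 586) (nat_lit 5) (nat_lit 606) (nat_lit 5) (nat_lit 587) (nat_lit 5) (nat_lit 557) (nat_lit 528) (nat_lit 475))) (XT.nd (nat_lit 78) (nat_lit 1672) (nat_lit 0) (XT.lf (nat_lit 0) (nat_lit 2396041721) (nat_lit 1520) (nat_lit 4126850124) (nat_lit 1596) (nat_lit 1070042398) (nat_lit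 566) (nat_lit 5) (nat_lit 586) (nat_lit 5) (nat_lit 587) (nat_lit 5) (nat_lit 558) (nat_lit 528) (nat_lit 474)) (XT.nd (nat_lit 78) (nat_lit 1596) (nat_lit 0) (XT.lf (nat_lit 0) (nat_lit 1099931819) (nat_lit 1596) (nat_lit 567989534) (nat_lit 76) (nat_lit 5979545166) (nat_lit 565) (nat_lit 5) (nat_lit 586) (nat_lit 5) (nat_lit 566) (nat_lit 5) (nat_lit 559) (nat_lit 528) (nat_lit 473)) (XT.lf (nat_lit 0) (nat_lit 3290902876) (nat_lit 1672) (nat_lit 3543144161) (nat_lit 76) (nat_lit 869063874) (nat_lit 544) (nat_lit 5) (nat_lit 566) (nat_lit 5) (nat_lit 545) (nat_lit 5) (nat_lit 560) (nat_lit 528) (nat_lit 472))))) (XT.nd (nat_lit 156) (nat_lit 3648) (nat_lit 0) (XT.nd (nat_lit 78) (nat_lit 0) (nat_lit 0) (XT.lf (nat_lit 0) (nat_lit 1199194965) (nat_lit 1672) (nat_lit 4308922061) (nat_lit 1748) (nat_lit 2252104100) (nat_lit 522) (nat_lit 5) (nat_lit 544) (nat_lit 5) (nat_lit 545) (nat_lit 5) (nat_lit 561) (nat_lit 528) (nat_lit 471)) (XT.lf (nat_lit 0) (nat_lit 6048793929) (nat_lit 1672) (nat_lit 1704970889)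 (nat_lit 1748) (nat_lit 65028324) (nat_lit 522) (nat_lit 5) (nat_lit 544) (nat_lit 5) (nat_lit 545) (nat_lit 5) (nat_lit 562) (nat_lit 528) (nat_lit 470))) (XT.nd (nat_lit 78) (nat_lit 1824) (nat_lit 0) (XT.lf (nat_lit 0) (nat_lit 2124822221) (nat_lit 1824) (nat_lit 4776951070) (nat_lit 76) (nat_lit 976734639) (nat_lit 498) (nat_lit 5) (nat_lit 522) (nat_lit 5) (nat_lit 499) (nat_lit 5) (nat_lit 563) (nat_lit 528) (nat_lit 469)) (XT.nd (nat_lit 78) (nat_lit 0) (nat_lit 0) (XT.lf (nat_lit 0) (nat_lit 108984590) (nat_lit 1824) (nat_lit 4233964159) (nat_lit 1900) (nat_lit 3596753976) (nat_lit 474) (nat_lit 5) (nat_lit 498) (nat_lit 5) (nat_lit 499) (nat_lit 5) (nat_lit 564) (nat_lit 528) (nat_lit 468)) (XT.lf (nat_lit 0) (nat_lit 5121626994) (nat_lit 1824) (nat_lit 1477785248) (nat_lit 1900) (nat_lit 1402830961) (nat_lit 474) (nat_lit 5) (nat_lit 498) (nat_lit 5) (nat_lit 499) (nat_lit 5) (nat_lit 565) (nat_lit 528) (nat_lit 467)))))) (XT.nd (nat_lit 390) (nat_lit 2660) (nat_lit 0) (XT.nd (nat_lit 156) (nat_lit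 1900) (nat_lit 0) (XT.nd (nat_lit 78) (nat_lit 0) (nat_lit 0) (XT.lf (nat_lit 0) (nat_lit 809233021) (nat_lit 1216) (nat_lit 5919423064) (nat_lit 76) (nat_lit 1337566942) (nat_lit 458) (nat_lit 5) (nat_lit 474) (nat_lit 5) (nat_lit 459) (nat_lit 5) (nat_lit 566) (nat_lit 528) (nat_lit 466)) (XT.lf (nat_lit 0) (nat_lit 3038952720) (nat_lit 1216) (nat_lit 872573103) (nat_lit 76) (nat_lit 4219928407) (nat_lit 458) (nat_lit 5) (nat_lit 474) (nat_lit 5) (nat_lit 459) (nat_lit 5) (nat_lit 567) (nat_lit 528) (nat_lit 465))) (XT.nd (nat_lit 78) (nat_lit 988) (nat_lit 0) (XT.lf (nat_lit 0) (nat_lit 4296182306) (nat_lit 912) (nat_lit 1008640582) (nat_lit 988) (nat_lit 2893337225) (nat_lit 446) (nat_lit 5) (nat_lit 458) (nat_lit 5) (nat_lit 459) (nat_lit 5) (nat_lit 568) (nat_lit 528) (nat_lit 464)) (XT.nd (nat_lit 78) (nat_lit 76) (nat_lit 0) (XT.lf (nat_lit 0) (nat_lit 1282294033) (nat_lit 912) (nat_lit 6324763114) (nat_lit 988) (nat_lit 659323189) (nat_lit 434) (nat_lit 5) (nat_lit 446) (nat_lit 5) (nat_lit 447)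 (nat_lit 5) (nat_lit 569) (nat_lit 528) (nat_lit 463)) (XT.lf (nat_lit 0) (nat_lit 1595557764) (nat_lit 988) (nat_lit 1765770062) (nat_lit 76) (nat_lit 4974479468) (nat_lit 433) (nat_lit 5) (nat_lit 446) (nat_lit 5) (nat_lit 434) (nat_lit 5) (nat_lit 570) (nat_lit 528) (nat_lit 462))))) (XT.nd (nat_lit 156) (nat_lit 912) (nat_lit 0) (XT.nd (nat_lit 78) (nat_lit 912) (nat_lit 0) (XT.lf (nat_lit 0) (nat_lit 3563889873) (nat_lit 836) (nat_lit 311051312) (nat_lit 912) (nat_lit 4531830870) (nat_lit 422) (nat_lit 5) (nat_lit 433) (nat_lit 5) (nat_lit 434) (nat_lit 5) (nat_lit 571) (nat_lit 528) (nat_lit 461)) (XT.lf (nat_lit 0) (nat_lit 497575655) (nat_lit 912) (nat_lit 5701213373) (nat_lit 988) (nat_lit 2280390615) (nat_lit 410) (nat_lit 5) (nat_lit 422) (nat_lit 5) (nat_lit 423) (nat_lit 5) (nat_lit 572) (nat_lit 528) (nat_lit 460))) (XT.nd (nat_lit 78) (nat_lit 836) (nat_lit 0) (XT.lf (nat_lit 0) (nat_lit 16396701) (nat_lit 988) (nat_lit 2580346110) (nat_lit 76) (nat_lit 5956280927) (nat_lit 409) (nat_lit 5)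 (nat_lit 422) (nat_lit 5) (nat_lit 410) (nat_lit 5) (nat_lit 573) (nat_lit 528) (nat_lit 459)) (XT.nd (nat_lit 78) (nat_lit 0) (nat_lit 0) (XT.lf (nat_lit 0) (nat_lit 2317891759) (nat_lit 912) (nat_lit 5715524520) (nat_lit 76) (nat_lit 594841847) (nat_lit 398) (nat_lit 5) (nat_lit 410) (nat_lit 5) (nat_lit 399) (nat_lit 5) (nat_lit 574) (nat_lit 528) (nat_lit 458)) (XT.lf (nat_lit 0) (nat_lit 4666888272) (nat_lit 912) (nat_lit 207091699) (nat_lit 76) (nat_lit 3830988785) (nat_lit 398) (nat_lit 5) (nat_lit 410) (nat_lit 5) (nat_lit 399) (nat_lit 5) (nat_lit 575) (nat_lit 528) (nat_lit 457))))))) (XT.nd (nat_lit 780) (nat_lit 4560) (nat_lit 0) (XT.nd (nat_lit 390) (nat_lit 2280) (nat_lit 0) (XT.nd (nat_lit 156) (nat_lit 1520) (nat_lit 0) (XT.nd (nat_lit 78) (nat_lit 836) (nat_lit 0) (XT.lf (nat_lit 0) (nat_lit 5447879947) (nat_lit 836) (nat_lit 1617850557) (nat_lit 912) (nat_lit 1717426748) (nat_lit 387) (nat_lit 5) (nat_lit 398) (nat_lit 5) (nat_lit 399) (nat_lit 5) (nat_lit 576) (nat_lit 528) (nat_lit 456))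 (XT.lf (nat_lit 0) (nat_lit 636628688) (nat_lit 836) (nat_lit 6527164443) (nat_lit 76) (nat_lit 1699122780) (nat_lit 376) (nat_lit 5) (nat_lit 387) (nat_lit 5) (nat_lit 377) (nat_lit 5) (nat_lit 577) (nat_lit 528) (nat_lit 455))) (XT.nd (nat_lit 78) (nat_lit 1520) (nat_lit 0) (XT.lf (nat_lit 0) (nat_lit 3016111990) (nat_lit 836) (nat_lit 836312567) (nat_lit 76) (nat_lit 5091592194) (nat_lit 376) (nat_lit 5) (nat_lit 387) (nat_lit 5) (nat_lit 377) (nat_lit 5) (nat_lit 578) (nat_lit 528) (nat_lit 454)) (XT.nd (nat_lit 78) (nat_lit 760) (nat_lit 0) (XT.lf (nat_lit 0) (nat_lit 4998952150) (nat_lit 760) (nat_lit 445392922) (nat_lit 836) (nat_lit 3582372226) (nat_lit 366) (nat_lit 5) (nat_lit 376) (nat_lit 5) (nat_lit 377) (nat_lit 5) (nat_lit 579) (nat_lit 528) (nat_lit 453)) (XT.lf (nat_lit 0) (nat_lit 1820131332) (nat_lit 760) (nat_lit 6107216456) (nat_lit 836) (nat_lit 1183600845) (nat_lit 356) (nat_lit 5) (nat_lit 366) (nat_lit 5) (nat_lit 367) (nat_lit 5) (nat_lit 580) (nat_lit 528) (nat_lit 452))))) (XT.nd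 (nat_lit 156) (nat_lit 1444) (nat_lit 0) (XT.nd (nat_lit 78) (nat_lit 760) (nat_lit 0) (XT.lf (nat_lit 0) (nat_lit 1245978947) (nat_lit 836) (nat_lit 1403578322) (nat_lit 76) (nat_lit 6547156156) (nat_lit 355) (nat_lit 5) (nat_lit 366) (nat_lit 5) (nat_lit 356) (nat_lit 5) (nat_lit 581) (nat_lit 528) (nat_lit 451)) (XT.lf (nat_lit 0) (nat_lit 3714069986) (nat_lit 836) (nat_lit 4670617788) (nat_lit 76) (nat_lit 899234730) (nat_lit 345) (nat_lit 5) (nat_lit 356) (nat_lit 5) (nat_lit 346) (nat_lit 5) (nat_lit 582) (nat_lit 528) (nat_lit 450))) (XT.nd (nat_lit 78) (nat_lit 760) (nat_lit 0) (XT.lf (nat_lit 0) (nat_lit 1361969418) (nat_lit 684) (nat_lit 4875605123) (nat_lit 760) (nat_lit 3135181000) (nat_lit 336) (nat_lit 5) (nat_lit 345) (nat_lit 5) (nat_lit 346) (nat_lit 5) (nat_lit 583) (nat_lit 528) (nat_lit 449)) (XT.nd (nat_lit 78) (nat_lit 760) (nat_lit 0) (XT.lf (nat_lit 0) (nat_lit 7543603217) (nat_lit 684) (nat_lit 1269827283) (nat_lit 760) (nat_lit 649897906) (nat_lit 336) (nat_lit 5) (nat_lit 345)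 (nat_lit 5) (nat_lit 346) (nat_lit 5) (nat_lit 584) (nat_lit 528) (nat_lit 448)) (XT.lf (nat_lit 0) (nat_lit 1875093178) (nat_lit 760) (nat_lit 5268626669) (nat_lit 76) (nat_lit 2411454345) (nat_lit 326) (nat_lit 5) (nat_lit 336) (nat_lit 5) (nat_lit 327) (nat_lit 5) (nat_lit 585) (nat_lit 528) (nat_lit 447)))))) (XT.nd (nat_lit 390) (nat_lit 2508) (nat_lit 0) (XT.nd (nat_lit 156) (nat_lit 1368) (nat_lit 0) (XT.nd (nat_lit 78) (nat_lit 0) (nat_lit 0) (XT.lf (nat_lit 0) (nat_lit 959220527) (nat_lit 684) (nat_lit 3481509260) (nat_lit 760) (nat_lit 5208064982) (nat_lit 317) (nat_lit 5) (nat_lit 326) (nat_lit 5) (nat_lit 327) (nat_lit 5) (nat_lit 586) (nat_lit 528) (nat_lit 446)) (XT.lf (nat_lit 0) (nat_lit 7066449984) (nat_lit 760) (nat_lit 2397649938) (nat_lit 76) (nat_lit 280013151) (nat_lit 317) (nat_lit 5) (nat_lit 327) (nat_lit 5) (nat_lit 318) (nat_lit 5) (nat_lit 587) (nat_lit 528) (nat_lit 445))) (XT.nd (nat_lit 78) (nat_lit 684) (nat_lit 0) (XT.lf (nat_lit 0) (nat_lit 4015178393) (nat_lit 684) (nat_lit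 5750722600) (nat_lit 760) (nat_lit 75013140) (nat_lit 308) (nat_lit 5) (nat_lit 317) (nat_lit 5) (nat_lit 318) (nat_lit 5) (nat_lit 588) (nat_lit 528) (nat_lit 444)) (XT.nd (nat_lit 78) (nat_lit 0) (nat_lit 0) (XT.lf (nat_lit 0) (nat_lit 605844407) (nat_lit 608) (nat_lit 1932373844) (nat_lit 684) (nat_lit 7401251442) (nat_lit 299) (nat_lit 5) (nat_lit 307) (nat_lit 5) (nat_lit 308) (nat_lit 5) (nat_lit 589) (nat_lit 528) (nat_lit 443)) (XT.lf (nat_lit 0) (nat_lit 5227311517) (nat_lit 684) (nat_lit 2842641815) (nat_lit 76) (nat_lit 1969541759) (nat_lit 299) (nat_lit 5) (nat_lit 308) (nat_lit 5) (nat_lit 300) (nat_lit 5) (nat_lit 590) (nat_lit 528) (nat_lit 442))))) (XT.nd (nat_lit 234) (nat_lit 1216) (nat_lit 0) (XT.nd (nat_lit 78) (nat_lit 684) (nat_lit 0) (XT.lf (nat_lit 0) (nat_lit 3780677466) (nat_lit 608) (nat_lit 4199899353) (nat_lit 684) (nat_lit 2160737039) (nat_lit 291) (nat_lit 5) (nat_lit 299) (nat_lit 5) (nat_lit 300) (nat_lit 5) (nat_lit 591) (nat_lit 528) (nat_lit 441)) (XT.nd (nat_lit 78) (nat_lit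 0) (nat_lit 0) (XT.lf (nat_lit 0) (nat_lit 296031688) (nat_lit 608) (nat_lit 234876175) (nat_lit 684) (nat_lit 9714305156) (nat_lit 282) (nat_lit 5) (nat_lit 290) (nat_lit 5) (nat_lit 291) (nat_lit 5) (nat_lit 592) (nat_lit 528) (nat_lit 440)) (XT.lf (nat_lit 0) (nat_lit 3288610806) (nat_lit 684) (nat_lit 3252266462) (nat_lit 76) (nat_lit 3809204723) (nat_lit 282) (nat_lit 5) (nat_lit 291) (nat_lit 5) (nat_lit 283) (nat_lit 5) (nat_lit 593) (nat_lit 528) (nat_lit 439)))) (XT.nd (nat_lit 78) (nat_lit 608) (nat_lit 0) (XT.lf (nat_lit 0) (nat_lit 3590138556) (nat_lit 608) (nat_lit 2510146259) (nat_lit 684) (nat_lit 4356787799) (nat_lit 274) (nat_lit 5) (nat_lit 282) (nat_lit 5) (nat_lit 283) (nat_lit 5) (nat_lit 594) (nat_lit 528) (nat_lit 438)) (XT.nd (nat_lit 78) (nat_lit 76) (nat_lit 0) (XT.lf (nat_lit 0) (nat_lit 2990833) (nat_lit 532) (nat_lit 8971777530) (nat_lit 608) (nat_lit 1591303768) (nat_lit 267) (nat_lit 5) (nat_lit 274) (nat_lit 5) (nat_lit 275) (nat_lit 5) (nat_lit 595) (nat_lit 528) (nat_lit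 437)) (XT.lf (nat_lit 0) (nat_lit 1250681728) (nat_lit 608) (nat_lit 3632179173) (nat_lit 76) (nat_lit 5793485327) (nat_lit 266) (nat_lit 5) (nat_lit 274) (nat_lit 5) (nat_lit 267) (nat_lit 5) (nat_lit 596) (nat_lit 528) (nat_lit 436))))))))
noncomputable def xc86 : XT := (XT.nd (nat_lit 1560) (nat_lit 836) (nat_lit 0) (XT.nd (nat_lit 780) (nat_lit 2736) (nat_lit 0) (XT.nd (nat_lit 390) (nat_lit 1976) (nat_lit 0) (XT.nd (nat_lit 156) (nat_lit 1140) (nat_lit 0) (XT.nd (nat_lit 78) (nat_lit 0) (nat_lit 0) (XT.lf (nat_lit 0) (nat_lit 3438233701) (nat_lit 608) (nat_lit 687120035) (nat_lit 684) (nat_lit 6663319179) (nat_lit 258) (nat_lit 5) (nat_lit 266) (nat_lit 5) (nat_lit 267) (nat_lit 5) (nat_lit 597) (nat_lit 528) (nat_lit 435)) (XT.lf (nat_lit 0) (nat_lit 7080412116) (nat_lit 684) (nat_lit 260839099) (nat_lit 76) (nat_lit 3561537618) (nat_lit 258) (nat_lit 5) (nat_lit 267) (nat_lit 5) (nat_lit 259) (nat_lit 5) (nat_lit 598) (nat_lit 528) (nat_lit 434))) (XT.nd (nat_lit 78) (nat_lit 608) (nat_lit 0) (XT.lf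 (nat_lit 0) (nat_lit 7024916105) (nat_lit 532) (nat_lit 3095338551) (nat_lit 608) (nat_lit 898419297) (nat_lit 251) (nat_lit 5) (nat_lit 258) (nat_lit 5) (nat_lit 259) (nat_lit 5) (nat_lit 599) (nat_lit 528) (nat_lit 433)) (XT.nd (nat_lit 78) (nat_lit 0) (nat_lit 0) (XT.lf (nat_lit 0) (nat_lit 2063835465) (nat_lit 608) (nat_lit 7825083610) (nat_lit 76) (nat_lit 1247544600) (nat_lit 243) (nat_lit 5) (nat_lit 251) (nat_lit 5) (nat_lit 244) (nat_lit 5) (nat_lit 600) (nat_lit 528) (nat_lit 432)) (XT.lf (nat_lit 0) (nat_lit 5096624852) (nat_lit 608) (nat_lit 499472649) (nat_lit 76) (nat_lit 5659927045) (nat_lit 243) (nat_lit 5) (nat_lit 251) (nat_lit 5) (nat_lit 244) (nat_lit 5) (nat_lit 601) (nat_lit 528) (nat_lit 431))))) (XT.nd (nat_lit 156) (nat_lit 988) (nat_lit 0) (XT.nd (nat_lit 78) (nat_lit 532) (nat_lit 0) (XT.lf (nat_lit 0) (nat_lit 7032003553) (nat_lit 456) (nat_lit 1180028281) (nat_lit 532) (nat_lit 3165506066) (nat_lit 237) (nat_lit 5) (nat_lit 243) (nat_lit 5) (nat_lit 244) (nat_lit 5) (nat_lit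 602) (nat_lit 528) (nat_lit 430)) (XT.lf (nat_lit 0) (nat_lit 3206851339) (nat_lit 532) (nat_lit 8205172632) (nat_lit 608) (nat_lit 89012505) (nat_lit 230) (nat_lit 5) (nat_lit 237) (nat_lit 5) (nat_lit 238) (nat_lit 5) (nat_lit 603) (nat_lit 528) (nat_lit 429))) (XT.nd (nat_lit 78) (nat_lit 912) (nat_lit 0) (XT.lf (nat_lit 0) (nat_lit 3022782485) (nat_lit 608) (nat_lit 718196510) (nat_lit 76) (nat_lit 7885355378) (nat_lit 229) (nat_lit 5) (nat_lit 237) (nat_lit 5) (nat_lit 230) (nat_lit 5) (nat_lit 604) (nat_lit 528) (nat_lit 428)) (XT.nd (nat_lit 78) (nat_lit 456) (nat_lit 0) (XT.lf (nat_lit 0) (nat_lit 6224089990) (nat_lit 532) (nat_lit 4690266475) (nat_lit 76) (nat_lit 839201092) (nat_lit 223) (nat_lit 5) (nat_lit 230) (nat_lit 5) (nat_lit 224) (nat_lit 5) (nat_lit 605) (nat_lit 528) (nat_lit 427)) (XT.lf (nat_lit 0) (nat_lit 3110210764) (nat_lit 456) (nat_lit 6406260771) (nat_lit 532) (nat_lit 2366313168) (nat_lit 217) (nat_lit 5) (nat_lit 223) (nat_lit 5) (nat_lit 224) (nat_lit 5) (nat_lit 606) (nat_lit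 528) (nat_lit 426)))))) (XT.nd (nat_lit 390) (nat_lit 1292) (nat_lit 0) (XT.nd (nat_lit 156) (nat_lit 912) (nat_lit 0) (XT.nd (nat_lit 78) (nat_lit 456) (nat_lit 0) (XT.lf (nat_lit 0) (nat_lit 857820718) (nat_lit 532) (nat_lit 922259783) (nat_lit 76) (nat_lit 10234224705) (nat_lit 216) (nat_lit 5) (nat_lit 223) (nat_lit 5) (nat_lit 217) (nat_lit 5) (nat_lit 607) (nat_lit 528) (nat_lit 425)) (XT.lf (nat_lit 0) (nat_lit 4158264415) (nat_lit 532) (nat_lit 5036309261) (nat_lit 76) (nat_lit 2952699804) (nat_lit 210) (nat_lit 5) (nat_lit 217) (nat_lit 5) (nat_lit 211) (nat_lit 5) (nat_lit 608) (nat_lit 528) (nat_lit 424))) (XT.nd (nat_lit 78) (nat_lit 456) (nat_lit 0) (XT.lf (nat_lit 0) (nat_lit 3030191051) (nat_lit 456) (nat_lit 4510141944) (nat_lit 532) (nat_lit 4742256226) (nat_lit 204) (nat_lit 5) (nat_lit 210) (nat_lit 5) (nat_lit 211) (nat_lit 5) (nat_lit 609) (nat_lit 528) (nat_lit 423)) (XT.nd (nat_lit 78) (nat_lit 456) (nat_lit 0) (XT.lf (nat_lit 0) (nat_lit 11003884608) (nat_lit 532) (nat_lit 1128065402)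 (nat_lit 76) (nat_lit 288384845) (nat_lit 204) (nat_lit 5) (nat_lit 211) (nat_lit 5) (nat_lit 205) (nat_lit 5) (nat_lit 610) (nat_lit 528) (nat_lit 422)) (XT.lf (nat_lit 0) (nat_lit 2005393391) (nat_lit 456) (nat_lit 5381545778) (nat_lit 76) (nat_lit 5172531349) (nat_lit 198) (nat_lit 5) (nat_lit 204) (nat_lit 5) (nat_lit 199) (nat_lit 5) (nat_lit 611) (nat_lit 528) (nat_lit 421))))) (XT.nd (nat_lit 156) (nat_lit 836) (nat_lit 0) (XT.nd (nat_lit 78) (nat_lit 0) (nat_lit 0) (XT.lf (nat_lit 0) (nat_lit 2961604353) (nat_lit 456) (nat_lit 2520556030) (nat_lit 532) (nat_lit 7218932589) (nat_lit 192) (nat_lit 5) (nat_lit 198) (nat_lit 5) (nat_lit 199) (nat_lit 5) (nat_lit 612) (nat_lit 528) (nat_lit 420)) (XT.lf (nat_lit 0) (nat_lit 9059409806) (nat_lit 532) (nat_lit 1348403489) (nat_lit 76) (nat_lit 2437116019) (nat_lit 192) (nat_lit 5) (nat_lit 199) (nat_lit 5) (nat_lit 193) (nat_lit 5) (nat_lit 613) (nat_lit 528) (nat_lit 419))) (XT.nd (nat_lit 78) (nat_lit 456) (nat_lit 0) (XT.lf (nat_lit 0) (nat_lit 7257581791)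 (nat_lit 380) (nat_lit 5493585243) (nat_lit 456) (nat_lit 239616467) (nat_lit 187) (nat_lit 5) (nat_lit 192) (nat_lit 5) (nat_lit 193) (nat_lit 5) (nat_lit 614) (nat_lit 528) (nat_lit 418)) (XT.nd (nat_lit 78) (nat_lit 0) (nat_lit 0) (XT.lf (nat_lit 0) (nat_lit 2899143264) (nat_lit 380) (nat_lit 440918805) (nat_lit 456) (nat_lit 9798911519) (nat_lit 181) (nat_lit 5) (nat_lit 186) (nat_lit 5) (nat_lit 187) (nat_lit 5) (nat_lit 615) (nat_lit 528) (nat_lit 417)) (XT.lf (nat_lit 0) (nat_lit 7036808376) (nat_lit 456) (nat_lit 1571566888) (nat_lit 76) (nat_lit 4680747235) (nat_lit 181) (nat_lit 5) (nat_lit 187) (nat_lit 5) (nat_lit 182) (nat_lit 5) (nat_lit 616) (nat_lit 528) (nat_lit 416))))))) (XT.nd (nat_lit 74958) (nat_lit 0) (nat_lit 39292) (XT.nd (nat_lit 74568) (nat_lit 0) (nat_lit 42104) (XT.nd (nat_lit 74334) (nat_lit 0) (nat_lit 43624) (XT.nd (nat_lit 78) (nat_lit 456) (nat_lit 0) (XT.lf (nat_lit 0) (nat_lit 7332307550) (nat_lit 380) (nat_lit 3505466534) (nat_lit 456) (nat_lit 2603894960) (nat_lit 176)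 (nat_lit 5) (nat_lit 181) (nat_lit 5) (nat_lit 182) (nat_lit 5) (nat_lit 617) (nat_lit 528) (nat_lit 415)) (XT.lf (nat_lit 0) (nat_lit 1122900297) (nat_lit 456) (nat_lit 10770818224) (nat_lit 76) (nat_lit 1703001943) (nat_lit 170) (nat_lit 5) (nat_lit 176) (nat_lit 5) (nat_lit 171) (nat_lit 5) (nat_lit 618) (nat_lit 528) (nat_lit 414))) (XT.nd (nat_lit 78) (nat_lit 684) (nat_lit 0) (XT.lf (nat_lit 0) (nat_lit 2598326740) (nat_lit 684) (nat_lit 349840889) (nat_lit 684) (nat_lit 349840889) (nat_lit 753) (nat_lit 3) (nat_lit 762) (nat_lit 3) (nat_lit 762) (nat_lit 5) (nat_lit 529) (nat_lit 529) (nat_lit 502)) (XT.nd (nat_lit 78) (nat_lit 0) (nat_lit 0) (XT.lf (nat_lit 0) (nat_lit 1025378534) (nat_lit 684) (nat_lit 3998061731) (nat_lit 760) (nat_lit 1590202500) (nat_lit 744) (nat_lit 5) (nat_lit 753) (nat_lit 3) (nat_lit 754) (nat_lit 5) (nat_lit 530) (nat_lit 529) (nat_lit 501)) (XT.lf (nat_lit 0) (nat_lit 3421377218) (nat_lit 684) (nat_lit 667395311) (nat_lit 760) (nat_lit 2543836487) (nat_lit 744) (nat_lit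 5) (nat_lit 753) (nat_lit 3) (nat_lit 754) (nat_lit 5) (nat_lit 531) (nat_lit 529) (nat_lit 500))))) (XT.nd (nat_lit 156) (nat_lit 760) (nat_lit 0) (XT.nd (nat_lit 78) (nat_lit 760) (nat_lit 0) (XT.lf (nat_lit 76) (nat_lit 2733178324) (nat_lit 0) (nat_lit 3087858633) (nat_lit 760) (nat_lit 831805744) (nat_lit 745) (nat_lit 5) (nat_lit 744) (nat_lit 5) (nat_lit 754) (nat_lit 5) (nat_lit 532) (nat_lit 529) (nat_lit 499)) (XT.lf (nat_lit 0) (nat_lit 1517390102) (nat_lit 760) (nat_lit 506125093) (nat_lit 836) (nat_lit 4650899486) (nat_lit 734) (nat_lit 5) (nat_lit 744) (nat_lit 5) (nat_lit 745) (nat_lit 5) (nat_lit 533) (nat_lit 529) (nat_lit 498))) (XT.nd (nat_lit 78) (nat_lit 760) (nat_lit 0) (XT.lf (nat_lit 76) (nat_lit 2976709605) (nat_lit 0) (nat_lit 884858085) (nat_lit 836) (nat_lit 2835560493) (nat_lit 735) (nat_lit 5) (nat_lit 734) (nat_lit 5) (nat_lit 745) (nat_lit 5) (nat_lit 534) (nat_lit 529) (nat_lit 497)) (XT.nd (nat_lit 78) (nat_lit 836) (nat_lit 0) (XT.lf (nat_lit 0) (nat_lit 6198787550) (nat_lit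 760) (nat_lit 219639720) (nat_lit 836) (nat_lit 302948220) (nat_lit 735) (nat_lit 5) (nat_lit 745) (nat_lit 5) (nat_lit 746) (nat_lit 5) (nat_lit 535) (nat_lit 529) (nat_lit 496)) (XT.lf (nat_lit 0) (nat_lit 1782106777) (nat_lit 836) (nat_lit 3402121529) (nat_lit 912) (nat_lit 1562252531) (nat_lit 724) (nat_lit 5) (nat_lit 735) (nat_lit 5) (nat_lit 736) (nat_lit 5) (nat_lit 536) (nat_lit 529) (nat_lit 495)))))) (XT.nd (nat_lit 390) (nat_lit 1900) (nat_lit 0) (XT.nd (nat_lit 156) (nat_lit 912) (nat_lit 0) (XT.nd (nat_lit 78) (nat_lit 0) (nat_lit 0) (XT.lf (nat_lit 76) (nat_lit 175849506) (nat_lit 0) (nat_lit 3895325036) (nat_lit 912) (nat_lit 2701941684) (nat_lit 725) (nat_lit 5) (nat_lit 724) (nat_lit 5) (nat_lit 736) (nat_lit 5) (nat_lit 537) (nat_lit 529) (nat_lit 494)) (XT.lf (nat_lit 76) (nat_lit 3838174333) (nat_lit 0) (nat_lit 2534232293) (nat_lit 912) (nat_lit 428552539) (nat_lit 725) (nat_lit 5) (nat_lit 724) (nat_lit 5) (nat_lit 736) (nat_lit 5) (nat_lit 538) (nat_lit 529) (nat_lit 493))) (XT.nd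 (nat_lit 78) (nat_lit 0) (nat_lit 76) (XT.lf (nat_lit 76) (nat_lit 707987307) (nat_lit 0) (nat_lit 1106412951) (nat_lit 988) (nat_lit 5015737897) (nat_lit 713) (nat_lit 5) (nat_lit 712) (nat_lit 5) (nat_lit 725) (nat_lit 5) (nat_lit 539) (nat_lit 529) (nat_lit 492)) (XT.nd (nat_lit 78) (nat_lit 0) (nat_lit 0) (XT.lf (nat_lit 0) (nat_lit 4064073031) (nat_lit 912) (nat_lit 2406840174) (nat_lit 988) (nat_lit 389581238) (nat_lit 713) (nat_lit 5) (nat_lit 725) (nat_lit 5) (nat_lit 726) (nat_lit 5) (nat_lit 540) (nat_lit 529) (nat_lit 491)) (XT.lf (nat_lit 76) (nat_lit 1359523647) (nat_lit 0) (nat_lit 4961750335) (nat_lit 988) (nat_lit 570935491) (nat_lit 714) (nat_lit 5) (nat_lit 713) (nat_lit 5) (nat_lit 726) (nat_lit 5) (nat_lit 541) (nat_lit 529) (nat_lit 490))))) (XT.nd (nat_lit 234) (nat_lit 988) (nat_lit 0) (XT.nd (nat_lit 78) (nat_lit 0) (nat_lit 0) (XT.lf (nat_lit 0) (nat_lit 1639897175) (nat_lit 988) (nat_lit 1735776609) (nat_lit 1064) (nat_lit 3549404202) (nat_lit 700) (nat_lit 5) (nat_lit 713) (nat_lit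 5) (nat_lit 714) (nat_lit 5) (nat_lit 542) (nat_lit 529) (nat_lit 489)) (XT.nd (nat_lit 78) (nat_lit 0) (nat_lit 0) (XT.lf (nat_lit 76) (nat_lit 2127622803) (nat_lit 0) (nat_lit 1721404246) (nat_lit 1064) (nat_lit 3110269013) (nat_lit 701) (nat_lit 5) (nat_lit 700) (nat_lit 5) (nat_lit 714) (nat_lit 5) (nat_lit 543) (nat_lit 529) (nat_lit 488)) (XT.lf (nat_lit 76) (nat_lit 6058468859) (nat_lit 0) (nat_lit 4227884) (nat_lit 1064) (nat_lit 932296748) (nat_lit 701) (nat_lit 5) (nat_lit 700) (nat_lit 5) (nat_lit 714) (nat_lit 5) (nat_lit 544) (nat_lit 529) (nat_lit 487)))) (XT.nd (nat_lit 78) (nat_lit 0) (nat_lit 0) (XT.lf (nat_lit 0) (nat_lit 1253051303) (nat_lit 1064) (nat_lit 4008915923) (nat_lit 1140) (nat_lit 1769657786) (nat_lit 687) (nat_lit 5) (nat_lit 701) (nat_lit 5) (nat_lit 702) (nat_lit 5) (nat_lit 545) (nat_lit 529) (nat_lit 486)) (XT.nd (nat_lit 78) (nat_lit 0) (nat_lit 0) (XT.lf (nat_lit 0) (nat_lit 3426254273) (nat_lit 1064) (nat_lit 35543703) (nat_lit 1140) (nat_lit 3607937321) (nat_lit 687)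 (nat_lit 5) (nat_lit 701) (nat_lit 5) (nat_lit 702) (nat_lit 5) (nat_lit 546) (nat_lit 529) (nat_lit 485)) (XT.lf (nat_lit 76) (nat_lit 4036650309) (nat_lit 0) (nat_lit 1583720339) (nat_lit 1140) (nat_lit 1488690125) (nat_lit 688) (nat_lit 5) (nat_lit 687) (nat_lit 5) (nat_lit 702) (nat_lit 5) (nat_lit 547) (nat_lit 529) (nat_lit 484))))))))
noncomputable def xc87 : XT := (XT.nd (nat_lit 1560) (nat_lit 11400) (nat_lit 0) (XT.nd (nat_lit 780) (nat_lit 9728) (nat_lit 0) (XT.nd (nat_lit 390) (nat_lit 4180) (nat_lit 0) (XT.nd (nat_lit 156) (nat_lit 2432) (nat_lit 0) (XT.nd (nat_lit 78) (nat_lit 0) (nat_lit 0) (XT.lf (nat_lit 0) (nat_lit 660718135) (nat_lit 1140) (nat_lit 6135921816) (nat_lit 76) (nat_lit 353226157) (nat_lit 673) (nat_lit 5) (nat_lit 688) (nat_lit 5) (nat_lit 674) (nat_lit 5) (nat_lit 548) (nat_lit 529) (nat_lit 483)) (XT.lf (nat_lit 0) (nat_lit 2816920355) (nat_lit 1140) (nat_lit 2022715825) (nat_lit 76) (nat_lit 2351981637) (nat_lit 673) (nat_lit 5) (nat_lit 688) (nat_lit 5) (nat_lit 674) (nat_lit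 5) (nat_lit 549) (nat_lit 529) (nat_lit 482))) (XT.nd (nat_lit 78) (nat_lit 1292) (nat_lit 0) (XT.lf (nat_lit 0) (nat_lit 2167027718) (nat_lit 1140) (nat_lit 2816698952) (nat_lit 1216) (nat_lit 2251130111) (nat_lit 658) (nat_lit 5) (nat_lit 673) (nat_lit 5) (nat_lit 674) (nat_lit 5) (nat_lit 550) (nat_lit 529) (nat_lit 481)) (XT.nd (nat_lit 78) (nat_lit 1292) (nat_lit 0) (XT.lf (nat_lit 0) (nat_lit 6434061709) (nat_lit 1140) (nat_lit 727484435) (nat_lit 1216) (nat_lit 118062627) (nat_lit 658) (nat_lit 5) (nat_lit 673) (nat_lit 5) (nat_lit 674) (nat_lit 5) (nat_lit 551) (nat_lit 529) (nat_lit 480)) (XT.lf (nat_lit 0) (nat_lit 2017267567) (nat_lit 1292) (nat_lit 3875541879) (nat_lit 76) (nat_lit 1432449117) (nat_lit 641) (nat_lit 5) (nat_lit 658) (nat_lit 5) (nat_lit 642) (nat_lit 5) (nat_lit 552) (nat_lit 529) (nat_lit 479))))) (XT.nd (nat_lit 156) (nat_lit 2888) (nat_lit 0) (XT.nd (nat_lit 78) (nat_lit 0) (nat_lit 0) (XT.lf (nat_lit 0) (nat_lit 436117809) (nat_lit 1292) (nat_lit 3726413015) (nat_lit 1368)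 (nat_lit 3209900456) (nat_lit 624) (nat_lit 5) (nat_lit 641) (nat_lit 5) (nat_lit 642) (nat_lit 5) (nat_lit 553) (nat_lit 529) (nat_lit 478)) (XT.lf (nat_lit 0) (nat_lit 4852168164) (nat_lit 1292) (nat_lit 1480633398) (nat_lit 1368) (nat_lit 1088105495) (nat_lit 624) (nat_lit 5) (nat_lit 641) (nat_lit 5) (nat_lit 642) (nat_lit 5) (nat_lit 554) (nat_lit 529) (nat_lit 477))) (XT.nd (nat_lit 78) (nat_lit 1444) (nat_lit 0) (XT.lf (nat_lit 0) (nat_lit 1036263803) (nat_lit 1444) (nat_lit 5606844550) (nat_lit 76) (nat_lit 827620805) (nat_lit 605) (nat_lit 5) (nat_lit 624) (nat_lit 5) (nat_lit 606) (nat_lit 5) (nat_lit 555) (nat_lit 529) (nat_lit 476)) (XT.nd (nat_lit 78) (nat_lit 1444) (nat_lit 0) (XT.lf (nat_lit 0) (nat_lit 3173075811) (nat_lit 1444) (nat_lit 1153314218) (nat_lit 76) (nat_lit 3195324879) (nat_lit 605) (nat_lit 5) (nat_lit 624) (nat_lit 5) (nat_lit 606) (nat_lit 5) (nat_lit 556) (nat_lit 529) (nat_lit 475)) (XT.lf (nat_lit 0) (nat_lit 3399592486) (nat_lit 1444) (nat_lit 1933294345) (nat_lit 1520)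 (nat_lit 2241229812) (nat_lit 586) (nat_lit 5) (nat_lit 605) (nat_lit 5) (nat_lit 606) (nat_lit 5) (nat_lit 557) (nat_lit 529) (nat_lit 474)))))) (XT.nd (nat_lit 390) (nat_lit 4788) (nat_lit 0) (XT.nd (nat_lit 156) (nat_lit 3344) (nat_lit 0) (XT.nd (nat_lit 78) (nat_lit 76) (nat_lit 0) (XT.lf (nat_lit 0) (nat_lit 398734160) (nat_lit 1520) (nat_lit 7109670957) (nat_lit 1596) (nat_lit 119712568) (nat_lit 566) (nat_lit 5) (nat_lit 586) (nat_lit 5) (nat_lit 587) (nat_lit 5) (nat_lit 558) (nat_lit 529) (nat_lit 473)) (XT.lf (nat_lit 0) (nat_lit 2017573732) (nat_lit 1596) (nat_lit 2624097100) (nat_lit 76) (nat_lit 3041260919) (nat_lit 565) (nat_lit 5) (nat_lit 586) (nat_lit 5) (nat_lit 566) (nat_lit 5) (nat_lit 559) (nat_lit 529) (nat_lit 472))) (XT.nd (nat_lit 78) (nat_lit 1748) (nat_lit 0) (XT.lf (nat_lit 0) (nat_lit 2065034860) (nat_lit 1596) (nat_lit 2104325234) (nat_lit 1672) (nat_lit 3570000442) (nat_lit 544) (nat_lit 5) (nat_lit 565) (nat_lit 5) (nat_lit 566) (nat_lit 5) (nat_lit 560) (nat_lit 529) (nat_lit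 471)) (XT.nd (nat_lit 78) (nat_lit 1748) (nat_lit 0) (XT.lf (nat_lit 0) (nat_lit 6345593043) (nat_lit 1672) (nat_lit 951451580) (nat_lit 76) (nat_lit 500246437) (nat_lit 544) (nat_lit 5) (nat_lit 566) (nat_lit 5) (nat_lit 545) (nat_lit 5) (nat_lit 561) (nat_lit 529) (nat_lit 470)) (XT.lf (nat_lit 0) (nat_lit 700042123) (nat_lit 1748) (nat_lit 3992762195) (nat_lit 76) (nat_lit 3163477742) (nat_lit 521) (nat_lit 5) (nat_lit 544) (nat_lit 5) (nat_lit 522) (nat_lit 5) (nat_lit 562) (nat_lit 529) (nat_lit 469))))) (XT.nd (nat_lit 156) (nat_lit 3040) (nat_lit 0) (XT.nd (nat_lit 78) (nat_lit 0) (nat_lit 0) (XT.lf (nat_lit 0) (nat_lit 837952620) (nat_lit 1748) (nat_lit 2010912106) (nat_lit 1824) (nat_lit 5067927825) (nat_lit 498) (nat_lit 5) (nat_lit 521) (nat_lit 5) (nat_lit 522) (nat_lit 5) (nat_lit 563) (nat_lit 529) (nat_lit 468)) (XT.lf (nat_lit 0) (nat_lit 5034490245) (nat_lit 1824) (nat_lit 2198750585) (nat_lit 76) (nat_lit 745397168) (nat_lit 498) (nat_lit 5) (nat_lit 522) (nat_lit 5) (nat_lit 499) (nat_lit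 5) (nat_lit 564) (nat_lit 529) (nat_lit 467))) (XT.nd (nat_lit 78) (nat_lit 1216) (nat_lit 0) (XT.lf (nat_lit 0) (nat_lit 2767313397) (nat_lit 1824) (nat_lit 4490692337) (nat_lit 1900) (nat_lit 783832320) (nat_lit 474) (nat_lit 5) (nat_lit 498) (nat_lit 5) (nat_lit 499) (nat_lit 5) (nat_lit 565) (nat_lit 529) (nat_lit 466)) (XT.nd (nat_lit 78) (nat_lit 1140) (nat_lit 0) (XT.lf (nat_lit 0) (nat_lit 1379076140) (nat_lit 1900) (nat_lit 287685873) (nat_lit 76) (nat_lit 6439796827) (nat_lit 473) (nat_lit 5) (nat_lit 498) (nat_lit 5) (nat_lit 474) (nat_lit 5) (nat_lit 566) (nat_lit 529) (nat_lit 465)) (XT.lf (nat_lit 0) (nat_lit 3578080004) (nat_lit 1216) (nat_lit 3357934786) (nat_lit 76) (nat_lit 1236390152) (nat_lit 458) (nat_lit 5) (nat_lit 474) (nat_lit 5) (nat_lit 459) (nat_lit 5) (nat_lit 567) (nat_lit 529) (nat_lit 464))))))) (XT.nd (nat_lit 780) (nat_lit 5928) (nat_lit 0) (XT.nd (nat_lit 390) (nat_lit 2736) (nat_lit 0) (XT.nd (nat_lit 156) (nat_lit 1824) (nat_lit 0) (XT.nd (nat_lit 78) (nat_lit 0) (nat_lit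 0) (XT.lf (nat_lit 0) (nat_lit 1760393447) (nat_lit 912) (nat_lit 4049456520) (nat_lit 988) (nat_lit 2429943435) (nat_lit 446) (nat_lit 5) (nat_lit 458) (nat_lit 5) (nat_lit 459) (nat_lit 5) (nat_lit 568) (nat_lit 529) (nat_lit 463)) (XT.lf (nat_lit 0) (nat_lit 6992151022) (nat_lit 912) (nat_lit 1081487557) (nat_lit 988) (nat_lit 235144520) (nat_lit 446) (nat_lit 5) (nat_lit 458) (nat_lit 5) (nat_lit 459) (nat_lit 5) (nat_lit 569) (nat_lit 529) (nat_lit 462))) (XT.nd (nat_lit 78) (nat_lit 836) (nat_lit 0) (XT.lf (nat_lit 0) (nat_lit 1981147841) (nat_lit 988) (nat_lit 4437967896) (nat_lit 76) (nat_lit 1959700287) (nat_lit 433) (nat_lit 5) (nat_lit 446) (nat_lit 5) (nat_lit 434) (nat_lit 5) (nat_lit 570) (nat_lit 529) (nat_lit 461)) (XT.nd (nat_lit 78) (nat_lit 0) (nat_lit 0) (XT.lf (nat_lit 0) (nat_lit 838771802) (nat_lit 836) (nat_lit 3387120833) (nat_lit 912) (nat_lit 4224581450) (nat_lit 422) (nat_lit 5) (nat_lit 433) (nat_lit 5) (nat_lit 434) (nat_lit 5) (nat_lit 571) (nat_lit 529) (nat_lit 460)) (XT.lf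 (nat_lit 0) (nat_lit 6246729184) (nat_lit 836) (nat_lit 264801964) (nat_lit 912) (nat_lit 2012115230) (nat_lit 422) (nat_lit 5) (nat_lit 433) (nat_lit 5) (nat_lit 434) (nat_lit 5) (nat_lit 572) (nat_lit 529) (nat_lit 459))))) (XT.nd (nat_lit 156) (nat_lit 1748) (nat_lit 0) (XT.nd (nat_lit 78) (nat_lit 0) (nat_lit 0) (XT.lf (nat_lit 0) (nat_lit 247735183) (nat_lit 988) (nat_lit 5447294140) (nat_lit 76) (nat_lit 2903095181) (nat_lit 409) (nat_lit 5) (nat_lit 422) (nat_lit 5) (nat_lit 410) (nat_lit 5) (nat_lit 573) (nat_lit 529) (nat_lit 458)) (XT.lf (nat_lit 0) (nat_lit 2510085148) (nat_lit 988) (nat_lit 5639303) (nat_lit 76) (nat_lit 6158417830) (nat_lit 409) (nat_lit 5) (nat_lit 422) (nat_lit 5) (nat_lit 410) (nat_lit 5) (nat_lit 574) (nat_lit 529) (nat_lit 457))) (XT.nd (nat_lit 78) (nat_lit 912) (nat_lit 0) (XT.lf (nat_lit 0) (nat_lit 4826618750) (nat_lit 912) (nat_lit 3172456669) (nat_lit 76) (nat_lit 752427230) (nat_lit 398) (nat_lit 5) (nat_lit 410) (nat_lit 5) (nat_lit 399) (nat_lit 5) (nat_lit 575)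 (nat_lit 529) (nat_lit 456)) (XT.nd (nat_lit 78) (nat_lit 76) (nat_lit 0) (XT.lf (nat_lit 0) (nat_lit 2425854873) (nat_lit 836) (nat_lit 4764208831) (nat_lit 912) (nat_lit 1640335854) (nat_lit 387) (nat_lit 5) (nat_lit 398) (nat_lit 5) (nat_lit 399) (nat_lit 5) (nat_lit 576) (nat_lit 529) (nat_lit 455)) (XT.lf (nat_lit 0) (nat_lit 670610430) (nat_lit 912) (nat_lit 770520294) (nat_lit 76) (nat_lit 7469859898) (nat_lit 386) (nat_lit 5) (nat_lit 398) (nat_lit 5) (nat_lit 387) (nat_lit 5) (nat_lit 577) (nat_lit 529) (nat_lit 454)))))) (XT.nd (nat_lit 390) (nat_lit 2812) (nat_lit 0) (XT.nd (nat_lit 156) (nat_lit 1596) (nat_lit 0) (XT.nd (nat_lit 78) (nat_lit 760) (nat_lit 0) (XT.lf (nat_lit 0) (nat_lit 3020140905) (nat_lit 836) (nat_lit 4008919962) (nat_lit 76) (nat_lit 1963630093) (nat_lit 376) (nat_lit 5) (nat_lit 387) (nat_lit 5) (nat_lit 377) (nat_lit 5) (nat_lit 578) (nat_lit 529) (nat_lit 453)) (XT.lf (nat_lit 0) (nat_lit 1766986279) (nat_lit 760) (nat_lit 3645214165) (nat_lit 836) (nat_lit 3663914967)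 (nat_lit 366) (nat_lit 5) (nat_lit 376) (nat_lit 5) (nat_lit 377) (nat_lit 5) (nat_lit 579) (nat_lit 529) (nat_lit 452))) (XT.nd (nat_lit 78) (nat_lit 1596) (nat_lit 0) (XT.lf (nat_lit 0) (nat_lit 7678697404) (nat_lit 760) (nat_lit 170003502) (nat_lit 836) (nat_lit 1312576309) (nat_lit 366) (nat_lit 5) (nat_lit 376) (nat_lit 5) (nat_lit 377) (nat_lit 5) (nat_lit 580) (nat_lit 529) (nat_lit 451)) (XT.nd (nat_lit 78) (nat_lit 760) (nat_lit 0) (XT.lf (nat_lit 0) (nat_lit 1092844824) (nat_lit 836) (nat_lit 4791743447) (nat_lit 76) (nat_lit 3362987897) (nat_lit 355) (nat_lit 5) (nat_lit 366) (nat_lit 5) (nat_lit 356) (nat_lit 5) (nat_lit 581) (nat_lit 529) (nat_lit 450)) (XT.lf (nat_lit 0) (nat_lit 1169026996) (nat_lit 760) (nat_lit 2348955830) (nat_lit 836) (nat_lit 5817661883) (nat_lit 345) (nat_lit 5) (nat_lit 355) (nat_lit 5) (nat_lit 356) (nat_lit 5) (nat_lit 582) (nat_lit 529) (nat_lit 449))))) (XT.nd (nat_lit 234) (nat_lit 1368) (nat_lit 0) (XT.nd (nat_lit 78) (nat_lit 1444) (nat_lit 0) (XT.lf (nat_lit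 0) (nat_lit 6002921174) (nat_lit 836) (nat_lit 2153700748) (nat_lit 76) (nat_lit 1268627542) (nat_lit 345) (nat_lit 5) (nat_lit 356) (nat_lit 5) (nat_lit 346) (nat_lit 5) (nat_lit 583) (nat_lit 529) (nat_lit 448)) (XT.nd (nat_lit 78) (nat_lit 760) (nat_lit 0) (XT.lf (nat_lit 0) (nat_lit 3982364983) (nat_lit 684) (nat_lit 4567944390) (nat_lit 760) (nat_lit 966082695) (nat_lit 336) (nat_lit 5) (nat_lit 345) (nat_lit 5) (nat_lit 346) (nat_lit 5) (nat_lit 584) (nat_lit 529) (nat_lit 447)) (XT.lf (nat_lit 0) (nat_lit 625450318) (nat_lit 684) (nat_lit 883753204) (nat_lit 760) (nat_lit 8100152794) (nat_lit 326) (nat_lit 5) (nat_lit 335) (nat_lit 5) (nat_lit 336) (nat_lit 5) (nat_lit 585) (nat_lit 529) (nat_lit 446)))) (XT.nd (nat_lit 78) (nat_lit 1368) (nat_lit 0) (XT.lf (nat_lit 0) (nat_lit 4048913285) (nat_lit 760) (nat_lit 2779854219) (nat_lit 76) (nat_lit 2874728288) (nat_lit 326) (nat_lit 5) (nat_lit 336) (nat_lit 5) (nat_lit 327) (nat_lit 5) (nat_lit 586) (nat_lit 529) (nat_lit 445)) (XT.nd (nat_lit 78) (nat_lit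 684) (nat_lit 0) (XT.lf (nat_lit 0) (nat_lit 3555483178) (nat_lit 684) (nat_lit 3085222957) (nat_lit 760) (nat_lit 3158786864) (nat_lit 317) (nat_lit 5) (nat_lit 326) (nat_lit 5) (nat_lit 327) (nat_lit 5) (nat_lit 587) (nat_lit 529) (nat_lit 444)) (XT.lf (nat_lit 0) (nat_lit 121014451) (nat_lit 684) (nat_lit 9160282386) (nat_lit 760) (nat_lit 616174777) (nat_lit 308) (nat_lit 5) (nat_lit 317) (nat_lit 5) (nat_lit 318) (nat_lit 5) (nat_lit 588) (nat_lit 529) (nat_lit 443))))))))
noncomputable def xc88 : XT := (XT.nd (nat_lit 1560) (nat_lit 2584) (nat_lit 0) (XT.nd (nat_lit 780) (nat_lit 3648) (nat_lit 0) (XT.nd (nat_lit 390) (nat_lit 1824) (nat_lit 0) (XT.nd (nat_lit 156) (nat_lit 1292) (nat_lit 0) (XT.nd (nat_lit 78) (nat_lit 608) (nat_lit 0) (XT.lf (nat_lit 0) (nat_lit 1986743485) (nat_lit 760) (nat_lit 3366141063) (nat_lit 76) (nat_lit 4643561444) (nat_lit 307) (nat_lit 5) (nat_lit 317) (nat_lit 5) (nat_lit 308) (nat_lit 5) (nat_lit 589) (nat_lit 529) (nat_lit 442)) (XT.lf (nat_lit 0) (nat_lit 3176629091)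 (nat_lit 608) (nat_lit 1450783154) (nat_lit 684) (nat_lit 5470027964) (nat_lit 299) (nat_lit 5) (nat_lit 307) (nat_lit 5) (nat_lit 308) (nat_lit 5) (nat_lit 590) (nat_lit 529) (nat_lit 441))) (XT.nd (nat_lit 78) (nat_lit 1292) (nat_lit 0) (XT.lf (nat_lit 0) (nat_lit 7333629670) (nat_lit 684) (nat_lit 354289805) (nat_lit 76) (nat_lit 2512280780) (nat_lit 299) (nat_lit 5) (nat_lit 308) (nat_lit 5) (nat_lit 300) (nat_lit 5) (nat_lit 591) (nat_lit 529) (nat_lit 440)) (XT.nd (nat_lit 78) (nat_lit 684) (nat_lit 0) (XT.lf (nat_lit 0) (nat_lit 6384751093) (nat_lit 608) (nat_lit 3734375195) (nat_lit 684) (nat_lit 185386756) (nat_lit 291) (nat_lit 5) (nat_lit 299) (nat_lit 5) (nat_lit 300) (nat_lit 5) (nat_lit 592) (nat_lit 529) (nat_lit 439)) (XT.lf (nat_lit 0) (nat_lit 2513172747) (nat_lit 684) (nat_lit 7572692743) (nat_lit 76) (nat_lit 324772399) (nat_lit 282) (nat_lit 5) (nat_lit 291) (nat_lit 5) (nat_lit 283) (nat_lit 5) (nat_lit 593) (nat_lit 529) (nat_lit 438))))) (XT.nd (nat_lit 156) (nat_lit 1216) (nat_lit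 0) (XT.nd (nat_lit 78) (nat_lit 608) (nat_lit 0) (XT.lf (nat_lit 0) (nat_lit 5288894981) (nat_lit 684) (nat_lit 793864003) (nat_lit 76) (nat_lit 4435588862) (nat_lit 282) (nat_lit 5) (nat_lit 291) (nat_lit 5) (nat_lit 283) (nat_lit 5) (nat_lit 594) (nat_lit 529) (nat_lit 437)) (XT.lf (nat_lit 0) (nat_lit 6168787485) (nat_lit 608) (nat_lit 1966359487) (nat_lit 684) (nat_lit 2492765314) (nat_lit 274) (nat_lit 5) (nat_lit 282) (nat_lit 5) (nat_lit 283) (nat_lit 5) (nat_lit 595) (nat_lit 529) (nat_lit 436))) (XT.nd (nat_lit 78) (nat_lit 608) (nat_lit 0) (XT.lf (nat_lit 0) (nat_lit 306275745) (nat_lit 608) (nat_lit 8213831347) (nat_lit 76) (nat_lit 2219291973) (nat_lit 266) (nat_lit 5) (nat_lit 274) (nat_lit 5) (nat_lit 267) (nat_lit 5) (nat_lit 596) (nat_lit 529) (nat_lit 435)) (XT.nd (nat_lit 78) (nat_lit 608) (nat_lit 0) (XT.lf (nat_lit 0) (nat_lit 3146399235) (nat_lit 608) (nat_lit 1204849087) (nat_lit 76) (nat_lit 6501168676) (nat_lit 266) (nat_lit 5) (nat_lit 274) (nat_lit 5) (nat_lit 267) (nat_lit 5) (nat_lit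 597) (nat_lit 529) (nat_lit 434)) (XT.lf (nat_lit 0) (nat_lit 5990524850) (nat_lit 608) (nat_lit 67484067) (nat_lit 684) (nat_lit 4909393243) (nat_lit 258) (nat_lit 5) (nat_lit 266) (nat_lit 5) (nat_lit 267) (nat_lit 5) (nat_lit 598) (nat_lit 529) (nat_lit 433)))))) (XT.nd (nat_lit 390) (nat_lit 2052) (nat_lit 0) (XT.nd (nat_lit 156) (nat_lit 988) (nat_lit 0) (XT.nd (nat_lit 78) (nat_lit 76) (nat_lit 0) (XT.lf (nat_lit 0) (nat_lit 2230311104) (nat_lit 532) (nat_lit 6824092284) (nat_lit 608) (nat_lit 2029753118) (nat_lit 251) (nat_lit 5) (nat_lit 258) (nat_lit 5) (nat_lit 259) (nat_lit 5) (nat_lit 599) (nat_lit 529) (nat_lit 432)) (XT.lf (nat_lit 0) (nat_lit 905748443) (nat_lit 608) (nat_lit 1592703800) (nat_lit 76) (nat_lit 8704472963) (nat_lit 250) (nat_lit 5) (nat_lit 258) (nat_lit 5) (nat_lit 251) (nat_lit 5) (nat_lit 600) (nat_lit 529) (nat_lit 431))) (XT.nd (nat_lit 78) (nat_lit 456) (nat_lit 0) (XT.lf (nat_lit 0) (nat_lit 3900038502) (nat_lit 608) (nat_lit 5491376553) (nat_lit 76) (nat_lit 1931841257)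 (nat_lit 243) (nat_lit 5) (nat_lit 251) (nat_lit 5) (nat_lit 244) (nat_lit 5) (nat_lit 601) (nat_lit 529) (nat_lit 430)) (XT.nd (nat_lit 78) (nat_lit 0) (nat_lit 0) (XT.lf (nat_lit 0) (nat_lit 1957593191) (nat_lit 456) (nat_lit 5013405844) (nat_lit 532) (nat_lit 4474659804) (nat_lit 237) (nat_lit 5) (nat_lit 243) (nat_lit 5) (nat_lit 244) (nat_lit 5) (nat_lit 602) (nat_lit 529) (nat_lit 429)) (XT.lf (nat_lit 0) (nat_lit 9597963013) (nat_lit 456) (nat_lit 519283390) (nat_lit 532) (nat_lit 1452986146) (nat_lit 237) (nat_lit 5) (nat_lit 243) (nat_lit 5) (nat_lit 244) (nat_lit 5) (nat_lit 603) (nat_lit 529) (nat_lit 428))))) (XT.nd (nat_lit 156) (nat_lit 988) (nat_lit 0) (XT.nd (nat_lit 78) (nat_lit 456) (nat_lit 0) (XT.lf (nat_lit 0) (nat_lit 1648903389) (nat_lit 608) (nat_lit 5996764183) (nat_lit 76) (nat_lit 4050596107) (nat_lit 229) (nat_lit 5) (nat_lit 237) (nat_lit 5) (nat_lit 230) (nat_lit 5) (nat_lit 604) (nat_lit 529) (nat_lit 427)) (XT.lf (nat_lit 0) (nat_lit 1704217312) (nat_lit 456) (nat_lit 3094502772)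 (nat_lit 532) (nat_lit 7025796820) (nat_lit 223) (nat_lit 5) (nat_lit 229) (nat_lit 5) (nat_lit 230) (nat_lit 5) (nat_lit 605) (nat_lit 529) (nat_lit 426))) (XT.nd (nat_lit 78) (nat_lit 988) (nat_lit 0) (XT.lf (nat_lit 0) (nat_lit 8039764412) (nat_lit 532) (nat_lit 2356386909) (nat_lit 76) (nat_lit 1558619695) (nat_lit 223) (nat_lit 5) (nat_lit 230) (nat_lit 5) (nat_lit 224) (nat_lit 5) (nat_lit 606) (nat_lit 529) (nat_lit 425)) (XT.nd (nat_lit 78) (nat_lit 532) (nat_lit 0) (XT.lf (nat_lit 0) (nat_lit 5584128264) (nat_lit 456) (nat_lit 5796363125) (nat_lit 532) (nat_lit 706442022) (nat_lit 217) (nat_lit 5) (nat_lit 223) (nat_lit 5) (nat_lit 224) (nat_lit 5) (nat_lit 607) (nat_lit 529) (nat_lit 424)) (XT.lf (nat_lit 0) (nat_lit 1464915506) (nat_lit 456) (nat_lit 1071344602) (nat_lit 532) (nat_lit 9685073653) (nat_lit 210) (nat_lit 5) (nat_lit 216) (nat_lit 5) (nat_lit 217) (nat_lit 5) (nat_lit 608) (nat_lit 529) (nat_lit 423))))))) (XT.nd (nat_lit 75114) (nat_lit 0) (nat_lit 40736) (XT.nd (nat_lit 390) (nat_lit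 1216) (nat_lit 0) (XT.nd (nat_lit 156) (nat_lit 912) (nat_lit 0) (XT.nd (nat_lit 78) (nat_lit 456) (nat_lit 0) (XT.lf (nat_lit 0) (nat_lit 5880984158) (nat_lit 532) (nat_lit 2738379008) (nat_lit 76) (nat_lit 3738033431) (nat_lit 210) (nat_lit 5) (nat_lit 217) (nat_lit 5) (nat_lit 211) (nat_lit 5) (nat_lit 609) (nat_lit 529) (nat_lit 422)) (XT.lf (nat_lit 0) (nat_lit 5473670676) (nat_lit 456) (nat_lit 3840346518) (nat_lit 532) (nat_lit 3181735611) (nat_lit 204) (nat_lit 5) (nat_lit 210) (nat_lit 5) (nat_lit 211) (nat_lit 5) (nat_lit 610) (nat_lit 529) (nat_lit 421))) (XT.nd (nat_lit 78) (nat_lit 456) (nat_lit 0) (XT.lf (nat_lit 0) (nat_lit 188691909) (nat_lit 456) (nat_lit 11409221904) (nat_lit 76) (nat_lit 1038695436) (nat_lit 198) (nat_lit 5) (nat_lit 204) (nat_lit 5) (nat_lit 199) (nat_lit 5) (nat_lit 611) (nat_lit 529) (nat_lit 420)) (XT.nd (nat_lit 78) (nat_lit 456) (nat_lit 0) (XT.lf (nat_lit 0) (nat_lit 3635837207) (nat_lit 456) (nat_lit 3120393963) (nat_lit 76) (nat_lit 6022593156) (nat_lit 198) (nat_lit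 5) (nat_lit 204) (nat_lit 5) (nat_lit 199) (nat_lit 5) (nat_lit 612) (nat_lit 529) (nat_lit 419)) (XT.lf (nat_lit 0) (nat_lit 5374035073) (nat_lit 456) (nat_lit 1792199934) (nat_lit 532) (nat_lit 5757362879) (nat_lit 192) (nat_lit 5) (nat_lit 198) (nat_lit 5) (nat_lit 199) (nat_lit 5) (nat_lit 613) (nat_lit 529) (nat_lit 418))))) (XT.nd (nat_lit 156) (nat_lit 760) (nat_lit 0) (XT.nd (nat_lit 78) (nat_lit 76) (nat_lit 0) (XT.lf (nat_lit 0) (nat_lit 970354127) (nat_lit 380) (nat_lit 9825061400) (nat_lit 456) (nat_lit 2275288261) (nat_lit 187) (nat_lit 5) (nat_lit 192) (nat_lit 5) (nat_lit 193) (nat_lit 5) (nat_lit 614) (nat_lit 529) (nat_lit 417)) (XT.lf (nat_lit 0) (nat_lit 1302179167) (nat_lit 456) (nat_lit 3508090817) (nat_lit 76) (nat_lit 8409466590) (nat_lit 186) (nat_lit 5) (nat_lit 192) (nat_lit 5) (nat_lit 187) (nat_lit 5) (nat_lit 615) (nat_lit 529) (nat_lit 416))) (XT.nd (nat_lit 78) (nat_lit 380) (nat_lit 0) (XT.lf (nat_lit 0) (nat_lit 4937303704) (nat_lit 456) (nat_lit 8093470602) (nat_lit 76)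 (nat_lit 340343785) (nat_lit 181) (nat_lit 5) (nat_lit 187) (nat_lit 5) (nat_lit 182) (nat_lit 5) (nat_lit 616) (nat_lit 529) (nat_lit 415)) (XT.nd (nat_lit 74412) (nat_lit 0) (nat_lit 43168) (XT.lf (nat_lit 0) (nat_lit 708486184) (nat_lit 380) (nat_lit 7976952817) (nat_lit 456) (nat_lit 4839282412) (nat_lit 176) (nat_lit 5) (nat_lit 181) (nat_lit 5) (nat_lit 182) (nat_lit 5) (nat_lit 617) (nat_lit 529) (nat_lit 414)) (XT.lf (nat_lit 0) (nat_lit 847144846) (nat_lit 0) (nat_lit 847144846) (nat_lit 684) (nat_lit 1621686321) (nat_lit 744) (nat_lit 5) (nat_lit 744) (nat_lit 3) (nat_lit 753) (nat_lit 3) (nat_lit 530) (nat_lit 530) (nat_lit 500)))))) (XT.nd (nat_lit 390) (nat_lit 836) (nat_lit 0) (XT.nd (nat_lit 156) (nat_lit 836) (nat_lit 0) (XT.nd (nat_lit 78) (nat_lit 760) (nat_lit 0) (XT.lf (nat_lit 0) (nat_lit 5034924108) (nat_lit 0) (nat_lit 712584771) (nat_lit 684) (nat_lit 904152234) (nat_lit 744) (nat_lit 5) (nat_lit 744) (nat_lit 3) (nat_lit 753) (nat_lit 3) (nat_lit 531) (nat_lit 530) (nat_lit 499))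 (XT.lf (nat_lit 0) (nat_lit 1414612966) (nat_lit 760) (nat_lit 4922124182) (nat_lit 836) (nat_lit 335793723) (nat_lit 734) (nat_lit 5) (nat_lit 744) (nat_lit 5) (nat_lit 745) (nat_lit 5) (nat_lit 532) (nat_lit 530) (nat_lit 498))) (XT.nd (nat_lit 78) (nat_lit 836) (nat_lit 0) (XT.lf (nat_lit 0) (nat_lit 3723096818) (nat_lit 760) (nat_lit 1530078010) (nat_lit 836) (nat_lit 1441417432) (nat_lit 734) (nat_lit 5) (nat_lit 744) (nat_lit 5) (nat_lit 745) (nat_lit 5) (nat_lit 533) (nat_lit 530) (nat_lit 497)) (XT.nd (nat_lit 78) (nat_lit 836) (nat_lit 0) (XT.lf (nat_lit 76) (nat_lit 1923162286) (nat_lit 0) (nat_lit 4108053446) (nat_lit 836) (nat_lit 686812545) (nat_lit 735) (nat_lit 5) (nat_lit 734) (nat_lit 5) (nat_lit 745) (nat_lit 5) (nat_lit 534) (nat_lit 530) (nat_lit 496)) (XT.lf (nat_lit 0) (nat_lit 1573887472) (nat_lit 836) (nat_lit 1318697977) (nat_lit 912) (nat_lit 3850099163) (nat_lit 723) (nat_lit 5) (nat_lit 734) (nat_lit 5) (nat_lit 735) (nat_lit 5) (nat_lit 535) (nat_lit 530) (nat_lit 495))))) (XT.nd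 (nat_lit 156) (nat_lit 836) (nat_lit 0) (XT.nd (nat_lit 78) (nat_lit 0) (nat_lit 0) (XT.lf (nat_lit 76) (nat_lit 2219754299) (nat_lit 0) (nat_lit 1607961166) (nat_lit 912) (nat_lit 2940888157) (nat_lit 724) (nat_lit 5) (nat_lit 723) (nat_lit 5) (nat_lit 735) (nat_lit 5) (nat_lit 536) (nat_lit 530) (nat_lit 494)) (XT.lf (nat_lit 76) (nat_lit 5815257004) (nat_lit 0) (nat_lit 263820455) (nat_lit 912) (nat_lit 716916905) (nat_lit 724) (nat_lit 5) (nat_lit 723) (nat_lit 5) (nat_lit 735) (nat_lit 5) (nat_lit 537) (nat_lit 530) (nat_lit 493))) (XT.nd (nat_lit 78) (nat_lit 0) (nat_lit 0) (XT.lf (nat_lit 0) (nat_lit 1500272182) (nat_lit 912) (nat_lit 4180302813) (nat_lit 988) (nat_lit 1143777119) (nat_lit 712) (nat_lit 5) (nat_lit 724) (nat_lit 5) (nat_lit 725) (nat_lit 5) (nat_lit 538) (nat_lit 530) (nat_lit 492)) (XT.nd (nat_lit 78) (nat_lit 0) (nat_lit 0) (XT.lf (nat_lit 0) (nat_lit 3705969677) (nat_lit 912) (nat_lit 537814601) (nat_lit 988) (nat_lit 2610325038) (nat_lit 712) (nat_lit 5) (nat_lit 724) (nat_lit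 5) (nat_lit 725) (nat_lit 5) (nat_lit 539) (nat_lit 530) (nat_lit 491)) (XT.lf (nat_lit 76) (nat_lit 3187209965) (nat_lit 0) (nat_lit 2735718724) (nat_lit 988) (nat_lit 962192335) (nat_lit 713) (nat_lit 5) (nat_lit 712) (nat_lit 5) (nat_lit 725) (nat_lit 5) (nat_lit 540) (nat_lit 530) (nat_lit 490))))))))
noncomputable def xc89 : XT := (XT.nd (nat_lit 1560) (nat_lit 15960) (nat_lit 0) (XT.nd (nat_lit 780) (nat_lit 7068) (nat_lit 0) (XT.nd (nat_lit 390) (nat_lit 2128) (nat_lit 0) (XT.nd (nat_lit 156) (nat_lit 988) (nat_lit 0) (XT.nd (nat_lit 78) (nat_lit 0) (nat_lit 76) (XT.lf (nat_lit 76) (nat_lit 36965840) (nat_lit 0) (nat_lit 1164703459) (nat_lit 1064) (nat_lit 5715904930) (nat_lit 700) (nat_lit 5) (nat_lit 699) (nat_lit 5) (nat_lit 713) (nat_lit 5) (nat_lit 541) (nat_lit 530) (nat_lit 489)) (XT.lf (nat_lit 0) (nat_lit 3371662065) (nat_lit 988) (nat_lit 3096463401) (nat_lit 1064) (nat_lit 482911257) (nat_lit 700) (nat_lit 5) (nat_lit 713) (nat_lit 5) (nat_lit 714) (nat_lit 5) (nat_lit 542) (nat_lit 530)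 (nat_lit 488))) (XT.nd (nat_lit 78) (nat_lit 1064) (nat_lit 0) (XT.lf (nat_lit 76) (nat_lit 732343173) (nat_lit 0) (nat_lit 4814105418) (nat_lit 1064) (nat_lit 1439494133) (nat_lit 701) (nat_lit 5) (nat_lit 700) (nat_lit 5) (nat_lit 714) (nat_lit 5) (nat_lit 543) (nat_lit 530) (nat_lit 487)) (XT.nd (nat_lit 78) (nat_lit 0) (nat_lit 0) (XT.lf (nat_lit 0) (nat_lit 703733387) (nat_lit 1064) (nat_lit 2379765957) (nat_lit 1140) (nat_lit 3938547119) (nat_lit 686) (nat_lit 5) (nat_lit 700) (nat_lit 5) (nat_lit 701) (nat_lit 5) (nat_lit 544) (nat_lit 530) (nat_lit 486)) (XT.lf (nat_lit 76) (nat_lit 1549617994) (nat_lit 0) (nat_lit 1281384224) (nat_lit 1140) (nat_lit 4228472740) (nat_lit 687) (nat_lit 5) (nat_lit 686) (nat_lit 5) (nat_lit 701) (nat_lit 5) (nat_lit 545) (nat_lit 530) (nat_lit 485))))) (XT.nd (nat_lit 156) (nat_lit 2204) (nat_lit 0) (XT.nd (nat_lit 78) (nat_lit 0) (nat_lit 0) (XT.lf (nat_lit 0) (nat_lit 4971747342) (nat_lit 1064) (nat_lit 1544792399) (nat_lit 1140) (nat_lit 581695636) (nat_lit 687)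 (nat_lit 5) (nat_lit 701) (nat_lit 5) (nat_lit 702) (nat_lit 5) (nat_lit 546) (nat_lit 530) (nat_lit 484)) (XT.lf (nat_lit 76) (nat_lit 2490826632) (nat_lit 0) (nat_lit 4641335622) (nat_lit 1140) (nat_lit 6073586) (nat_lit 688) (nat_lit 5) (nat_lit 687) (nat_lit 5) (nat_lit 702) (nat_lit 5) (nat_lit 547) (nat_lit 530) (nat_lit 483))) (XT.nd (nat_lit 78) (nat_lit 1064) (nat_lit 0) (XT.lf (nat_lit 0) (nat_lit 2091506101) (nat_lit 1140) (nat_lit 598146086) (nat_lit 1216) (nat_lit 4489845062) (nat_lit 672) (nat_lit 5) (nat_lit 687) (nat_lit 5) (nat_lit 688) (nat_lit 5) (nat_lit 548) (nat_lit 530) (nat_lit 482)) (XT.nd (nat_lit 78) (nat_lit 1064) (nat_lit 0) (XT.lf (nat_lit 76) (nat_lit 3545877174) (nat_lit 0) (nat_lit 661638481) (nat_lit 1216) (nat_lit 3014538058) (nat_lit 673) (nat_lit 5) (nat_lit 672) (nat_lit 5) (nat_lit 688) (nat_lit 5) (nat_lit 549) (nat_lit 530) (nat_lit 481)) (XT.lf (nat_lit 0) (nat_lit 479152766) (nat_lit 1140) (nat_lit 5857302622) (nat_lit 1216) (nat_lit 929595506) (nat_lit 658) (nat_lit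 5) (nat_lit 673) (nat_lit 5) (nat_lit 674) (nat_lit 5) (nat_lit 550) (nat_lit 530) (nat_lit 480)))))) (XT.nd (nat_lit 390) (nat_lit 4408) (nat_lit 0) (XT.nd (nat_lit 156) (nat_lit 1368) (nat_lit 0) (XT.nd (nat_lit 78) (nat_lit 1216) (nat_lit 0) (XT.lf (nat_lit 0) (nat_lit 1165264343) (nat_lit 1216) (nat_lit 2589192933) (nat_lit 76) (nat_lit 3556638660) (nat_lit 657) (nat_lit 5) (nat_lit 673) (nat_lit 5) (nat_lit 658) (nat_lit 5) (nat_lit 551) (nat_lit 530) (nat_lit 479)) (XT.lf (nat_lit 0) (nat_lit 1675081654) (nat_lit 1216) (nat_lit 1580971746) (nat_lit 1292) (nat_lit 4101537685) (nat_lit 641) (nat_lit 5) (nat_lit 657) (nat_lit 5) (nat_lit 658) (nat_lit 5) (nat_lit 552) (nat_lit 530) (nat_lit 478))) (XT.nd (nat_lit 78) (nat_lit 1368) (nat_lit 0) (XT.lf (nat_lit 0) (nat_lit 5366595862) (nat_lit 1292) (nat_lit 1383099672) (nat_lit 76) (nat_lit 655763501) (nat_lit 641) (nat_lit 5) (nat_lit 658) (nat_lit 5) (nat_lit 642) (nat_lit 5) (nat_lit 553) (nat_lit 530) (nat_lit 477)) (XT.nd (nat_lit 78) (nat_lit 0)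 (nat_lit 0) (XT.lf (nat_lit 0) (nat_lit 51233782) (nat_lit 1368) (nat_lit 4456995218) (nat_lit 76) (nat_lit 2946308036) (nat_lit 623) (nat_lit 5) (nat_lit 641) (nat_lit 5) (nat_lit 624) (nat_lit 5) (nat_lit 554) (nat_lit 530) (nat_lit 476)) (XT.lf (nat_lit 0) (nat_lit 2122719740) (nat_lit 1368) (nat_lit 67038161) (nat_lit 76) (nat_lit 5315232964) (nat_lit 623) (nat_lit 5) (nat_lit 641) (nat_lit 5) (nat_lit 624) (nat_lit 5) (nat_lit 555) (nat_lit 530) (nat_lit 475))))) (XT.nd (nat_lit 156) (nat_lit 1596) (nat_lit 0) (XT.nd (nat_lit 78) (nat_lit 1444) (nat_lit 0) (XT.lf (nat_lit 0) (nat_lit 4224172586) (nat_lit 1444) (nat_lit 3122148683) (nat_lit 76) (nat_lit 210363285) (nat_lit 605) (nat_lit 5) (nat_lit 624) (nat_lit 5) (nat_lit 606) (nat_lit 5) (nat_lit 556) (nat_lit 530) (nat_lit 474)) (XT.lf (nat_lit 0) (nat_lit 1387734351) (nat_lit 1444) (nat_lit 4962894937) (nat_lit 1520) (nat_lit 1259124827) (nat_lit 586) (nat_lit 5) (nat_lit 605) (nat_lit 5) (nat_lit 606) (nat_lit 5) (nat_lit 557) (nat_lit 530) (nat_lit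 473))) (XT.nd (nat_lit 78) (nat_lit 1520) (nat_lit 0) (XT.lf (nat_lit 0) (nat_lit 824925109) (nat_lit 1520) (nat_lit 1672953337) (nat_lit 76) (nat_lit 5166288576) (nat_lit 585) (nat_lit 5) (nat_lit 605) (nat_lit 5) (nat_lit 586) (nat_lit 5) (nat_lit 558) (nat_lit 530) (nat_lit 472)) (XT.nd (nat_lit 78) (nat_lit 0) (nat_lit 0) (XT.lf (nat_lit 0) (nat_lit 2913516695) (nat_lit 1596) (nat_lit 4755877516) (nat_lit 76) (nat_lit 50514522) (nat_lit 565) (nat_lit 5) (nat_lit 586) (nat_lit 5) (nat_lit 566) (nat_lit 5) (nat_lit 559) (nat_lit 530) (nat_lit 471)) (XT.lf (nat_lit 0) (nat_lit 5032456641) (nat_lit 1596) (nat_lit 110597786) (nat_lit 76) (nat_lit 2633940703) (nat_lit 565) (nat_lit 5) (nat_lit 586) (nat_lit 5) (nat_lit 566) (nat_lit 5) (nat_lit 560) (nat_lit 530) (nat_lit 470))))))) (XT.nd (nat_lit 780) (nat_lit 5928) (nat_lit 0) (XT.nd (nat_lit 390) (nat_lit 3116) (nat_lit 0) (XT.nd (nat_lit 156) (nat_lit 3572) (nat_lit 0) (XT.nd (nat_lit 78) (nat_lit 1748) (nat_lit 0) (XT.lf (nat_lit 0) (nat_lit 4655435359)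 (nat_lit 1596) (nat_lit 2530069673) (nat_lit 1672) (nat_lit 649884984) (nat_lit 544) (nat_lit 5) (nat_lit 565) (nat_lit 5) (nat_lit 566) (nat_lit 5) (nat_lit 561) (nat_lit 530) (nat_lit 469)) (XT.lf (nat_lit 0) (nat_lit 1441144222) (nat_lit 1748) (nat_lit 6295154920) (nat_lit 76) (nat_lit 158982301) (nat_lit 521) (nat_lit 5) (nat_lit 544) (nat_lit 5) (nat_lit 522) (nat_lit 5) (nat_lit 562) (nat_lit 530) (nat_lit 468))) (XT.nd (nat_lit 78) (nat_lit 3572) (nat_lit 0) (XT.lf (nat_lit 0) (nat_lit 3565889199) (nat_lit 1748) (nat_lit 1492292666) (nat_lit 76) (nat_lit 2898092252) (nat_lit 521) (nat_lit 5) (nat_lit 544) (nat_lit 5) (nat_lit 522) (nat_lit 5) (nat_lit 563) (nat_lit 530) (nat_lit 467)) (XT.nd (nat_lit 78) (nat_lit 1824) (nat_lit 0) (XT.lf (nat_lit 0) (nat_lit 3418060624) (nat_lit 1748) (nat_lit 2300352037) (nat_lit 1824) (nat_lit 2300369563) (nat_lit 498) (nat_lit 5) (nat_lit 521) (nat_lit 5) (nat_lit 522) (nat_lit 5) (nat_lit 564) (nat_lit 530) (nat_lit 466)) (XT.lf (nat_lit 0) (nat_lit 331537520)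 (nat_lit 1824) (nat_lit 7561630903) (nat_lit 1900) (nat_lit 189789660) (nat_lit 474) (nat_lit 5) (nat_lit 498) (nat_lit 5) (nat_lit 499) (nat_lit 5) (nat_lit 565) (nat_lit 530) (nat_lit 465))))) (XT.nd (nat_lit 156) (nat_lit 1900) (nat_lit 0) (XT.nd (nat_lit 78) (nat_lit 1140) (nat_lit 0) (XT.lf (nat_lit 0) (nat_lit 1947444749) (nat_lit 1900) (nat_lit 2785361082) (nat_lit 76) (nat_lit 3415154144) (nat_lit 473) (nat_lit 5) (nat_lit 498) (nat_lit 5) (nat_lit 474) (nat_lit 5) (nat_lit 566) (nat_lit 530) (nat_lit 464)) (XT.lf (nat_lit 0) (nat_lit 2275087936) (nat_lit 1140) (nat_lit 1829152884) (nat_lit 1216) (nat_lit 4110409986) (nat_lit 458) (nat_lit 5) (nat_lit 473) (nat_lit 5) (nat_lit 474) (nat_lit 5) (nat_lit 567) (nat_lit 530) (nat_lit 463))) (XT.nd (nat_lit 78) (nat_lit 1900) (nat_lit 0) (XT.lf (nat_lit 0) (nat_lit 6295414693) (nat_lit 1216) (nat_lit 849279623) (nat_lit 76) (nat_lit 1138157432) (nat_lit 458) (nat_lit 5) (nat_lit 474) (nat_lit 5) (nat_lit 459) (nat_lit 5) (nat_lit 568) (nat_lit 530) (nat_lit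 462)) (XT.nd (nat_lit 78) (nat_lit 912) (nat_lit 0) (XT.lf (nat_lit 0) (nat_lit 181844459) (nat_lit 988) (nat_lit 3999022255) (nat_lit 76) (nat_lit 4171404300) (nat_lit 445) (nat_lit 5) (nat_lit 458) (nat_lit 5) (nat_lit 446) (nat_lit 5) (nat_lit 569) (nat_lit 530) (nat_lit 461)) (XT.lf (nat_lit 0) (nat_lit 1217574332) (nat_lit 912) (nat_lit 1129982371) (nat_lit 988) (nat_lit 6075667153) (nat_lit 433) (nat_lit 5) (nat_lit 445) (nat_lit 5) (nat_lit 446) (nat_lit 5) (nat_lit 570) (nat_lit 530) (nat_lit 460)))))) (XT.nd (nat_lit 390) (nat_lit 3268) (nat_lit 0) (XT.nd (nat_lit 156) (nat_lit 1824) (nat_lit 0) (XT.nd (nat_lit 78) (nat_lit 836) (nat_lit 0) (XT.lf (nat_lit 0) (nat_lit 4562905949) (nat_lit 988) (nat_lit 1949416839) (nat_lit 76) (nat_lit 1983147559) (nat_lit 433) (nat_lit 5) (nat_lit 446) (nat_lit 5) (nat_lit 434) (nat_lit 5) (nat_lit 571) (nat_lit 530) (nat_lit 459)) (XT.lf (nat_lit 0) (nat_lit 3415901663) (nat_lit 836) (nat_lit 3403421707) (nat_lit 912) (nat_lit 1749904199) (nat_lit 422) (nat_lit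 5) (nat_lit 433) (nat_lit 5) (nat_lit 434) (nat_lit 5) (nat_lit 572) (nat_lit 530) (nat_lit 458))) (XT.nd (nat_lit 78) (nat_lit 836) (nat_lit 0) (XT.lf (nat_lit 0) (nat_lit 237111448) (nat_lit 912) (nat_lit 215070794) (nat_lit 988) (nat_lit 8192576393) (nat_lit 409) (nat_lit 5) (nat_lit 421) (nat_lit 5) (nat_lit 422) (nat_lit 5) (nat_lit 573) (nat_lit 530) (nat_lit 457)) (XT.nd (nat_lit 78) (nat_lit 836) (nat_lit 0) (XT.lf (nat_lit 0) (nat_lit 2697160978) (nat_lit 988) (nat_lit 2981422641) (nat_lit 76) (nat_lit 3042540697) (nat_lit 409) (nat_lit 5) (nat_lit 422) (nat_lit 5) (nat_lit 410) (nat_lit 5) (nat_lit 574) (nat_lit 530) (nat_lit 456)) (XT.lf (nat_lit 0) (nat_lit 2552049261) (nat_lit 836) (nat_lit 2421347472) (nat_lit 912) (nat_lit 3825894377) (nat_lit 398) (nat_lit 5) (nat_lit 409) (nat_lit 5) (nat_lit 410) (nat_lit 5) (nat_lit 575) (nat_lit 530) (nat_lit 455))))) (XT.nd (nat_lit 234) (nat_lit 1596) (nat_lit 0) (XT.nd (nat_lit 78) (nat_lit 1672) (nat_lit 0) (XT.lf (nat_lit 0) (nat_lit 7289903487)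 (nat_lit 912) (nat_lit 681716700) (nat_lit 76) (nat_lit 907507057) (nat_lit 398) (nat_lit 5) (nat_lit 410) (nat_lit 5) (nat_lit 399) (nat_lit 5) (nat_lit 576) (nat_lit 530) (nat_lit 454)) (XT.nd (nat_lit 78) (nat_lit 760) (nat_lit 0) (XT.lf (nat_lit 0) (nat_lit 701164587) (nat_lit 912) (nat_lit 3953057850) (nat_lit 76) (nat_lit 4305887426) (nat_lit 386) (nat_lit 5) (nat_lit 398) (nat_lit 5) (nat_lit 387) (nat_lit 5) (nat_lit 577) (nat_lit 530) (nat_lit 453)) (XT.lf (nat_lit 0) (nat_lit 1755439834) (nat_lit 760) (nat_lit 1246219101) (nat_lit 836) (nat_lit 6041132422) (nat_lit 376) (nat_lit 5) (nat_lit 386) (nat_lit 5) (nat_lit 387) (nat_lit 5) (nat_lit 578) (nat_lit 530) (nat_lit 452)))) (XT.nd (nat_lit 78) (nat_lit 1596) (nat_lit 0) (XT.lf (nat_lit 0) (nat_lit 5359263103) (nat_lit 836) (nat_lit 1543166248) (nat_lit 76) (nat_lit 2224475991) (nat_lit 376) (nat_lit 5) (nat_lit 387) (nat_lit 5) (nat_lit 377) (nat_lit 5) (nat_lit 579) (nat_lit 530) (nat_lit 451)) (XT.nd (nat_lit 78) (nat_lit 836) (nat_lit 0)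 (XT.lf (nat_lit 0) (nat_lit 4331508564) (nat_lit 760) (nat_lit 3439395627) (nat_lit 836) (nat_lit 1441660560) (nat_lit 366) (nat_lit 5) (nat_lit 376) (nat_lit 5) (nat_lit 377) (nat_lit 5) (nat_lit 580) (nat_lit 530) (nat_lit 450)) (XT.lf (nat_lit 0) (nat_lit 907084705) (nat_lit 836) (nat_lit 8281800726) (nat_lit 76) (nat_lit 111162812) (nat_lit 355) (nat_lit 5) (nat_lit 366) (nat_lit 5) (nat_lit 356) (nat_lit 5) (nat_lit 581) (nat_lit 530) (nat_lit 449))))))))
noncomputable def xc90 : XT := (XT.nd (nat_lit 1560) (nat_lit 4712) (nat_lit 0) (XT.nd (nat_lit 780) (nat_lit 4256) (nat_lit 0) (XT.nd (nat_lit 390) (nat_lit 2052) (nat_lit 0) (XT.nd (nat_lit 156) (nat_lit 1444) (nat_lit 0) (XT.nd (nat_lit 78) (nat_lit 760) (nat_lit 0) (XT.lf (nat_lit 0) (nat_lit 3310284272) (nat_lit 836) (nat_lit 2352926468) (nat_lit 76) (nat_lit 3725345206) (nat_lit 355) (nat_lit 5) (nat_lit 366) (nat_lit 5) (nat_lit 356) (nat_lit 5) (nat_lit 582) (nat_lit 530) (nat_lit 448)) (XT.lf (nat_lit 0) (nat_lit 3710384043) (nat_lit 760)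 (nat_lit 2046838726) (nat_lit 836) (nat_lit 3721698311) (nat_lit 345) (nat_lit 5) (nat_lit 355) (nat_lit 5) (nat_lit 356) (nat_lit 5) (nat_lit 583) (nat_lit 530) (nat_lit 447))) (XT.nd (nat_lit 78) (nat_lit 760) (nat_lit 0) (XT.lf (nat_lit 0) (nat_lit 316341232) (nat_lit 684) (nat_lit 7937267605) (nat_lit 760) (nat_lit 1317475268) (nat_lit 336) (nat_lit 5) (nat_lit 345) (nat_lit 5) (nat_lit 346) (nat_lit 5) (nat_lit 584) (nat_lit 530) (nat_lit 446)) (XT.nd (nat_lit 78) (nat_lit 684) (nat_lit 0) (XT.lf (nat_lit 0) (nat_lit 1144523866) (nat_lit 760) (nat_lit 3117659573) (nat_lit 76) (nat_lit 5402268820) (nat_lit 335) (nat_lit 5) (nat_lit 345) (nat_lit 5) (nat_lit 336) (nat_lit 5) (nat_lit 585) (nat_lit 530) (nat_lit 445)) (XT.lf (nat_lit 0) (nat_lit 3142026255) (nat_lit 684) (nat_lit 489113970) (nat_lit 760) (nat_lit 6128513734) (nat_lit 326) (nat_lit 5) (nat_lit 335) (nat_lit 5) (nat_lit 336) (nat_lit 5) (nat_lit 586) (nat_lit 530) (nat_lit 444))))) (XT.nd (nat_lit 156) (nat_lit 1368) (nat_lit 0) (XT.nd (nat_lit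 78) (nat_lit 684) (nat_lit 0) (XT.lf (nat_lit 0) (nat_lit 6183253953) (nat_lit 760) (nat_lit 342040131) (nat_lit 76) (nat_lit 3331151013) (nat_lit 326) (nat_lit 5) (nat_lit 336) (nat_lit 5) (nat_lit 327) (nat_lit 5) (nat_lit 587) (nat_lit 530) (nat_lit 443)) (XT.lf (nat_lit 0) (nat_lit 6103599993) (nat_lit 684) (nat_lit 2699103033) (nat_lit 760) (nat_lit 1152143860) (nat_lit 317) (nat_lit 5) (nat_lit 326) (nat_lit 5) (nat_lit 327) (nat_lit 5) (nat_lit 588) (nat_lit 530) (nat_lit 442))) (XT.nd (nat_lit 78) (nat_lit 608) (nat_lit 0) (XT.lf (nat_lit 0) (nat_lit 1401561655) (nat_lit 760) (nat_lit 7442795271) (nat_lit 76) (nat_lit 1210659106) (nat_lit 307) (nat_lit 5) (nat_lit 317) (nat_lit 5) (nat_lit 308) (nat_lit 5) (nat_lit 589) (nat_lit 530) (nat_lit 441)) (XT.nd (nat_lit 78) (nat_lit 608) (nat_lit 0) (XT.lf (nat_lit 0) (nat_lit 4008651943) (nat_lit 760) (nat_lit 957865445) (nat_lit 76) (nat_lit 5190164753) (nat_lit 307) (nat_lit 5) (nat_lit 317) (nat_lit 5) (nat_lit 308) (nat_lit 5) (nat_lit 590) (nat_lit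 530) (nat_lit 440)) (XT.lf (nat_lit 0) (nat_lit 5699473281) (nat_lit 608) (nat_lit 979762132) (nat_lit 684) (nat_lit 3580919770) (nat_lit 299) (nat_lit 5) (nat_lit 307) (nat_lit 5) (nat_lit 308) (nat_lit 5) (nat_lit 591) (nat_lit 530) (nat_lit 439)))))) (XT.nd (nat_lit 390) (nat_lit 2356) (nat_lit 0) (XT.nd (nat_lit 156) (nat_lit 1216) (nat_lit 0) (XT.nd (nat_lit 78) (nat_lit 76) (nat_lit 0) (XT.lf (nat_lit 0) (nat_lit 2112704335) (nat_lit 608) (nat_lit 7305355684) (nat_lit 684) (nat_lit 947341702) (nat_lit 291) (nat_lit 5) (nat_lit 299) (nat_lit 5) (nat_lit 300) (nat_lit 5) (nat_lit 592) (nat_lit 530) (nat_lit 438)) (XT.lf (nat_lit 0) (nat_lit 1728121367) (nat_lit 684) (nat_lit 1541161196) (nat_lit 76) (nat_lit 7203005034) (nat_lit 290) (nat_lit 5) (nat_lit 299) (nat_lit 5) (nat_lit 291) (nat_lit 5) (nat_lit 593) (nat_lit 530) (nat_lit 437))) (XT.nd (nat_lit 78) (nat_lit 608) (nat_lit 0) (XT.lf (nat_lit 0) (nat_lit 4460016554) (nat_lit 684) (nat_lit 5250178178) (nat_lit 76) (nat_lit 870679655) (nat_lit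 282) (nat_lit 5) (nat_lit 291) (nat_lit 5) (nat_lit 283) (nat_lit 5) (nat_lit 594) (nat_lit 530) (nat_lit 436)) (XT.nd (nat_lit 78) (nat_lit 0) (nat_lit 0) (XT.lf (nat_lit 0) (nat_lit 1637189991) (nat_lit 608) (nat_lit 5627505113) (nat_lit 684) (nat_lit 3426575477) (nat_lit 274) (nat_lit 5) (nat_lit 282) (nat_lit 5) (nat_lit 283) (nat_lit 5) (nat_lit 595) (nat_lit 530) (nat_lit 435)) (XT.lf (nat_lit 0) (nat_lit 8701665500) (nat_lit 608) (nat_lit 1434762323) (nat_lit 684) (nat_lit 667228232) (nat_lit 274) (nat_lit 5) (nat_lit 282) (nat_lit 5) (nat_lit 283) (nat_lit 5) (nat_lit 596) (nat_lit 530) (nat_lit 434))))) (XT.nd (nat_lit 156) (nat_lit 1140) (nat_lit 0) (XT.nd (nat_lit 78) (nat_lit 608) (nat_lit 0) (XT.lf (nat_lit 0) (nat_lit 2146424665) (nat_lit 608) (nat_lit 5927153396) (nat_lit 76) (nat_lit 2843887266) (nat_lit 266) (nat_lit 5) (nat_lit 274) (nat_lit 5) (nat_lit 267) (nat_lit 5) (nat_lit 597) (nat_lit 530) (nat_lit 433)) (XT.lf (nat_lit 0) (nat_lit 1189551761) (nat_lit 608) (nat_lit 3825560979)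 (nat_lit 684) (nat_lit 6018196445) (nat_lit 258) (nat_lit 5) (nat_lit 266) (nat_lit 5) (nat_lit 267) (nat_lit 5) (nat_lit 598) (nat_lit 530) (nat_lit 432))) (XT.nd (nat_lit 78) (nat_lit 1140) (nat_lit 0) (XT.lf (nat_lit 0) (nat_lit 7960979407) (nat_lit 684) (nat_lit 2657226713) (nat_lit 76) (nat_lit 532868227) (nat_lit 258) (nat_lit 5) (nat_lit 267) (nat_lit 5) (nat_lit 259) (nat_lit 5) (nat_lit 599) (nat_lit 530) (nat_lit 431)) (XT.nd (nat_lit 78) (nat_lit 608) (nat_lit 0) (XT.lf (nat_lit 0) (nat_lit 4677745784) (nat_lit 532) (nat_lit 6320657434) (nat_lit 608) (nat_lit 272139311) (nat_lit 251) (nat_lit 5) (nat_lit 258) (nat_lit 5) (nat_lit 259) (nat_lit 5) (nat_lit 600) (nat_lit 530) (nat_lit 430)) (XT.lf (nat_lit 0) (nat_lit 764339516) (nat_lit 532) (nat_lit 1904314962) (nat_lit 608) (nat_lit 8723396048) (nat_lit 243) (nat_lit 5) (nat_lit 250) (nat_lit 5) (nat_lit 251) (nat_lit 5) (nat_lit 601) (nat_lit 530) (nat_lit 429))))))) (XT.nd (nat_lit 780) (nat_lit 1748) (nat_lit 0) (XT.nd (nat_lit 390) (nat_lit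 1444) (nat_lit 0) (XT.nd (nat_lit 156) (nat_lit 1064) (nat_lit 0) (XT.nd (nat_lit 78) (nat_lit 456) (nat_lit 0) (XT.lf (nat_lit 0) (nat_lit 5703266422) (nat_lit 608) (nat_lit 3207693194) (nat_lit 76) (nat_lit 2604220648) (nat_lit 243) (nat_lit 5) (nat_lit 251) (nat_lit 5) (nat_lit 244) (nat_lit 5) (nat_lit 602) (nat_lit 530) (nat_lit 428)) (XT.lf (nat_lit 0) (nat_lit 4374509162) (nat_lit 456) (nat_lit 4442747043) (nat_lit 532) (nat_lit 2823143156) (nat_lit 237) (nat_lit 5) (nat_lit 243) (nat_lit 5) (nat_lit 244) (nat_lit 5) (nat_lit 603) (nat_lit 530) (nat_lit 427))) (XT.nd (nat_lit 78) (nat_lit 456) (nat_lit 0) (XT.lf (nat_lit 0) (nat_lit 225046891) (nat_lit 608) (nat_lit 11412775787) (nat_lit 76) (nat_lit 130219344) (nat_lit 229) (nat_lit 5) (nat_lit 237) (nat_lit 5) (nat_lit 230) (nat_lit 5) (nat_lit 604) (nat_lit 530) (nat_lit 426)) (XT.nd (nat_lit 78) (nat_lit 456) (nat_lit 0) (XT.lf (nat_lit 0) (nat_lit 3352878555) (nat_lit 608) (nat_lit 3749614529) (nat_lit 76) (nat_lit 4794242086) (nat_lit 229) (nat_lit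 5) (nat_lit 237) (nat_lit 5) (nat_lit 230) (nat_lit 5) (nat_lit 605) (nat_lit 530) (nat_lit 425)) (XT.lf (nat_lit 0) (nat_lit 4089813669) (nat_lit 456) (nat_lit 2458380842) (nat_lit 532) (nat_lit 5479709554) (nat_lit 223) (nat_lit 5) (nat_lit 229) (nat_lit 5) (nat_lit 230) (nat_lit 5) (nat_lit 606) (nat_lit 530) (nat_lit 424))))) (XT.nd (nat_lit 156) (nat_lit 912) (nat_lit 0) (XT.nd (nat_lit 78) (nat_lit 532) (nat_lit 0) (XT.lf (nat_lit 0) (nat_lit 9826081251) (nat_lit 532) (nat_lit 70099714) (nat_lit 76) (nat_lit 2265142513) (nat_lit 223) (nat_lit 5) (nat_lit 230) (nat_lit 5) (nat_lit 224) (nat_lit 5) (nat_lit 607) (nat_lit 530) (nat_lit 423)) (XT.lf (nat_lit 0) (nat_lit 908263644) (nat_lit 532) (nat_lit 4288567282) (nat_lit 76) (nat_lit 7099515776) (nat_lit 216) (nat_lit 5) (nat_lit 223) (nat_lit 5) (nat_lit 217) (nat_lit 5) (nat_lit 608) (nat_lit 530) (nat_lit 422))) (XT.nd (nat_lit 78) (nat_lit 456) (nat_lit 0) (XT.lf (nat_lit 0) (nat_lit 3818437153) (nat_lit 456) (nat_lit 371270019) (nat_lit 532) (nat_lit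 8243968177) (nat_lit 210) (nat_lit 5) (nat_lit 216) (nat_lit 5) (nat_lit 217) (nat_lit 5) (nat_lit 609) (nat_lit 530) (nat_lit 421)) (XT.nd (nat_lit 78) (nat_lit 456) (nat_lit 0) (XT.lf (nat_lit 0) (nat_lit 7574492398) (nat_lit 532) (nat_lit 487632903) (nat_lit 76) (nat_lit 4510871407) (nat_lit 210) (nat_lit 5) (nat_lit 217) (nat_lit 5) (nat_lit 211) (nat_lit 5) (nat_lit 610) (nat_lit 530) (nat_lit 420)) (XT.lf (nat_lit 0) (nat_lit 7873489921) (nat_lit 456) (nat_lit 3186666842) (nat_lit 532) (nat_lit 1654284453) (nat_lit 204) (nat_lit 5) (nat_lit 210) (nat_lit 5) (nat_lit 211) (nat_lit 5) (nat_lit 611) (nat_lit 530) (nat_lit 419)))))) (XT.nd (nat_lit 390) (nat_lit 380) (nat_lit 0) (XT.nd (nat_lit 156) (nat_lit 912) (nat_lit 0) (XT.nd (nat_lit 78) (nat_lit 0) (nat_lit 0) (XT.lf (nat_lit 0) (nat_lit 1751618638) (nat_lit 456) (nat_lit 9315070332) (nat_lit 76) (nat_lit 1791441090) (nat_lit 198) (nat_lit 5) (nat_lit 204) (nat_lit 5) (nat_lit 199) (nat_lit 5) (nat_lit 612) (nat_lit 530) (nat_lit 418)) (XT.lf (nat_lit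 0) (nat_lit 5237135217) (nat_lit 456) (nat_lit 906001832) (nat_lit 76) (nat_lit 6860664377) (nat_lit 198) (nat_lit 5) (nat_lit 204) (nat_lit 5) (nat_lit 199) (nat_lit 5) (nat_lit 613) (nat_lit 530) (nat_lit 417))) (XT.nd (nat_lit 78) (nat_lit 456) (nat_lit 0) (XT.lf (nat_lit 0) (nat_lit 7743336837) (nat_lit 456) (nat_lit 1079517197) (nat_lit 532) (nat_lit 4328922706) (nat_lit 192) (nat_lit 5) (nat_lit 198) (nat_lit 5) (nat_lit 199) (nat_lit 5) (nat_lit 614) (nat_lit 530) (nat_lit 416)) (XT.nd (nat_lit 78) (nat_lit 76) (nat_lit 0) (XT.lf (nat_lit 0) (nat_lit 3261967718) (nat_lit 380) (nat_lit 9252495319) (nat_lit 456) (nat_lit 787565359) (nat_lit 187) (nat_lit 5) (nat_lit 192) (nat_lit 5) (nat_lit 193) (nat_lit 5) (nat_lit 615) (nat_lit 530) (nat_lit 415)) (XT.lf (nat_lit 0) (nat_lit 2811673826) (nat_lit 456) (nat_lit 1330859263) (nat_lit 76) (nat_lit 9311903549) (nat_lit 186) (nat_lit 5) (nat_lit 192) (nat_lit 5) (nat_lit 187) (nat_lit 5) (nat_lit 616) (nat_lit 530) (nat_lit 414))))) (XT.nd (nat_lit 74646)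 (nat_lit 0) (nat_lit 41116) (XT.nd (nat_lit 74490) (nat_lit 0) (nat_lit 41952) (XT.lf (nat_lit 0) (nat_lit 6509867911) (nat_lit 456) (nat_lit 5998288557) (nat_lit 76) (nat_lit 1100882479) (nat_lit 181) (nat_lit 5) (nat_lit 187) (nat_lit 5) (nat_lit 182) (nat_lit 5) (nat_lit 617) (nat_lit 530) (nat_lit 413)) (XT.nd (nat_lit 78) (nat_lit 0) (nat_lit 0) (XT.lf (nat_lit 0) (nat_lit 692927099) (nat_lit 836) (nat_lit 1321484725) (nat_lit 836) (nat_lit 1321484725) (nat_lit 733) (nat_lit 3) (nat_lit 744) (nat_lit 3) (nat_lit 744) (nat_lit 5) (nat_lit 531) (nat_lit 531) (nat_lit 498)) (XT.lf (nat_lit 76) (nat_lit 691442092) (nat_lit 0) (nat_lit 2962423025) (nat_lit 836) (nat_lit 3039459626) (nat_lit 734) (nat_lit 5) (nat_lit 733) (nat_lit 3) (nat_lit 744) (nat_lit 5) (nat_lit 532) (nat_lit 531) (nat_lit 497)))) (XT.nd (nat_lit 78) (nat_lit 836) (nat_lit 0) (XT.lf (nat_lit 76) (nat_lit 4097871867) (nat_lit 0) (nat_lit 1827892632) (nat_lit 836) (nat_lit 790354663) (nat_lit 734) (nat_lit 5) (nat_lit 733) (nat_lit 3)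 (nat_lit 744) (nat_lit 5) (nat_lit 533) (nat_lit 531) (nat_lit 496)) (XT.nd (nat_lit 78) (nat_lit 0) (nat_lit 76) (XT.lf (nat_lit 76) (nat_lit 803153707) (nat_lit 0) (nat_lit 627638000) (nat_lit 912) (nat_lit 5309449480) (nat_lit 723) (nat_lit 5) (nat_lit 722) (nat_lit 5) (nat_lit 734) (nat_lit 5) (nat_lit 534) (nat_lit 531) (nat_lit 495)) (XT.lf (nat_lit 0) (nat_lit 3650037568) (nat_lit 836) (nat_lit 2477047798) (nat_lit 912) (nat_lit 638373163) (nat_lit 723) (nat_lit 5) (nat_lit 734) (nat_lit 5) (nat_lit 735) (nat_lit 5) (nat_lit 535) (nat_lit 531) (nat_lit 494))))))))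
noncomputable def xc91 : XT := (XT.nd (nat_lit 1560) (nat_lit 17100) (nat_lit 0) (XT.nd (nat_lit 780) (nat_lit 4712) (nat_lit 0) (XT.nd (nat_lit 390) (nat_lit 1064) (nat_lit 0) (XT.nd (nat_lit 156) (nat_lit 912) (nat_lit 0) (XT.nd (nat_lit 78) (nat_lit 912) (nat_lit 0) (XT.lf (nat_lit 76) (nat_lit 1030370066) (nat_lit 0) (nat_lit 4837958082) (nat_lit 912) (nat_lit 923761379) (nat_lit 724) (nat_lit 5) (nat_lit 723) (nat_lit 5) (nat_lit 735) (nat_lit 5) (nat_lit 536) (nat_lit 531) (nat_lit 493)) (XT.lf (nat_lit 0) (nat_lit 1255605628) (nat_lit 912) (nat_lit 2217750537) (nat_lit 988) (nat_lit 3346507493) (nat_lit 711) (nat_lit 5) (nat_lit 723) (nat_lit 5) (nat_lit 724) (nat_lit 5) (nat_lit 537) (nat_lit 531) (nat_lit 492))) (XT.nd (nat_lit 78) (nat_lit 912) (nat_lit 0) (XT.lf (nat_lit 76) (nat_lit 1377957743) (nat_lit 0) (nat_lit 2042627963) (nat_lit 988) (nat_lit 3428399906) (nat_lit 712) (nat_lit 5) (nat_lit 711) (nat_lit 5) (nat_lit 724) (nat_lit 5) (nat_lit 538) (nat_lit 531) (nat_lit 491)) (XT.nd (nat_lit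 78) (nat_lit 912) (nat_lit 0) (XT.lf (nat_lit 76) (nat_lit 5044752391) (nat_lit 0) (nat_lit 545301294) (nat_lit 988) (nat_lit 1289414864) (nat_lit 712) (nat_lit 5) (nat_lit 711) (nat_lit 5) (nat_lit 724) (nat_lit 5) (nat_lit 539) (nat_lit 531) (nat_lit 490)) (XT.lf (nat_lit 0) (nat_lit 846380495) (nat_lit 988) (nat_lit 5055945240) (nat_lit 1064) (nat_lit 1008807078) (nat_lit 699) (nat_lit 5) (nat_lit 712) (nat_lit 5) (nat_lit 713) (nat_lit 5) (nat_lit 540) (nat_lit 531) (nat_lit 489))))) (XT.nd (nat_lit 156) (nat_lit 1064) (nat_lit 0) (XT.nd (nat_lit 78) (nat_lit 0) (nat_lit 0) (XT.lf (nat_lit 0) (nat_lit 2971633238) (nat_lit 988) (nat_lit 1343627489) (nat_lit 1064) (nat_lit 2628721218) (nat_lit 699) (nat_lit 5) (nat_lit 712) (nat_lit 5) (nat_lit 713) (nat_lit 5) (nat_lit 541) (nat_lit 531) (nat_lit 488)) (XT.lf (nat_lit 76) (nat_lit 2443641460) (nat_lit 0) (nat_lit 2660621089) (nat_lit 1064) (nat_lit 1873930215) (nat_lit 700) (nat_lit 5) (nat_lit 699) (nat_lit 5) (nat_lit 713) (nat_lit 5) (nat_lit 542)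 (nat_lit 531) (nat_lit 487))) (XT.nd (nat_lit 78) (nat_lit 0) (nat_lit 76) (XT.lf (nat_lit 0) (nat_lit 221507178) (nat_lit 1064) (nat_lit 721639508) (nat_lit 1140) (nat_lit 6070737663) (nat_lit 685) (nat_lit 5) (nat_lit 699) (nat_lit 5) (nat_lit 700) (nat_lit 5) (nat_lit 543) (nat_lit 531) (nat_lit 486)) (XT.nd (nat_lit 78) (nat_lit 0) (nat_lit 0) (XT.lf (nat_lit 0) (nat_lit 2310384763) (nat_lit 1064) (nat_lit 3890763017) (nat_lit 1140) (nat_lit 849363797) (nat_lit 686) (nat_lit 5) (nat_lit 700) (nat_lit 5) (nat_lit 701) (nat_lit 5) (nat_lit 544) (nat_lit 531) (nat_lit 485)) (XT.lf (nat_lit 76) (nat_lit 2450718) (nat_lit 0) (nat_lit 4401071258) (nat_lit 1140) (nat_lit 2685101704) (nat_lit 687) (nat_lit 5) (nat_lit 686) (nat_lit 5) (nat_lit 701) (nat_lit 5) (nat_lit 545) (nat_lit 531) (nat_lit 484)))))) (XT.nd (nat_lit 390) (nat_lit 2508) (nat_lit 0) (XT.nd (nat_lit 156) (nat_lit 1140) (nat_lit 0) (XT.nd (nat_lit 78) (nat_lit 1140) (nat_lit 0) (XT.lf (nat_lit 76) (nat_lit 3994404814) (nat_lit 0) (nat_lit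 2522318824) (nat_lit 1140) (nat_lit 611212287) (nat_lit 687) (nat_lit 5) (nat_lit 686) (nat_lit 5) (nat_lit 701) (nat_lit 5) (nat_lit 546) (nat_lit 531) (nat_lit 483)) (XT.lf (nat_lit 76) (nat_lit 867910768) (nat_lit 0) (nat_lit 574871017) (nat_lit 1216) (nat_lit 5725892087) (nat_lit 672) (nat_lit 5) (nat_lit 671) (nat_lit 5) (nat_lit 687) (nat_lit 5) (nat_lit 547) (nat_lit 531) (nat_lit 482))) (XT.nd (nat_lit 78) (nat_lit 1216) (nat_lit 0) (XT.lf (nat_lit 0) (nat_lit 3513548055) (nat_lit 1140) (nat_lit 2263990001) (nat_lit 1216) (nat_lit 1432932014) (nat_lit 672) (nat_lit 5) (nat_lit 687) (nat_lit 5) (nat_lit 688) (nat_lit 5) (nat_lit 548) (nat_lit 531) (nat_lit 481)) (XT.nd (nat_lit 78) (nat_lit 1216) (nat_lit 0) (XT.lf (nat_lit 76) (nat_lit 1841818508) (nat_lit 0) (nat_lit 3754124909) (nat_lit 1216) (nat_lit 1657756286) (nat_lit 673) (nat_lit 5) (nat_lit 672) (nat_lit 5) (nat_lit 688) (nat_lit 5) (nat_lit 549) (nat_lit 531) (nat_lit 480)) (XT.lf (nat_lit 0) (nat_lit 386784777) (nat_lit 1216) (nat_lit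 1272339499) (nat_lit 1292) (nat_lit 5639213964) (nat_lit 656) (nat_lit 5) (nat_lit 672) (nat_lit 5) (nat_lit 673) (nat_lit 5) (nat_lit 550) (nat_lit 531) (nat_lit 479))))) (XT.nd (nat_lit 156) (nat_lit 2584) (nat_lit 0) (XT.nd (nat_lit 78) (nat_lit 0) (nat_lit 0) (XT.lf (nat_lit 0) (nat_lit 2428270391) (nat_lit 1216) (nat_lit 4401691039) (nat_lit 76) (nat_lit 514125623) (nat_lit 657) (nat_lit 5) (nat_lit 673) (nat_lit 5) (nat_lit 658) (nat_lit 5) (nat_lit 551) (nat_lit 531) (nat_lit 478)) (XT.lf (nat_lit 0) (nat_lit 4486630570) (nat_lit 1216) (nat_lit 175497586) (nat_lit 76) (nat_lit 2729103440) (nat_lit 657) (nat_lit 5) (nat_lit 673) (nat_lit 5) (nat_lit 658) (nat_lit 5) (nat_lit 552) (nat_lit 531) (nat_lit 477))) (XT.nd (nat_lit 78) (nat_lit 1368) (nat_lit 0) (XT.lf (nat_lit 0) (nat_lit 4157842235) (nat_lit 1216) (nat_lit 2412627525) (nat_lit 1292) (nat_lit 869164653) (nat_lit 641) (nat_lit 5) (nat_lit 657) (nat_lit 5) (nat_lit 658) (nat_lit 5) (nat_lit 553) (nat_lit 531) (nat_lit 476)) (XT.nd (nat_lit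 78) (nat_lit 0) (nat_lit 0) (XT.lf (nat_lit 0) (nat_lit 1065108245) (nat_lit 1292) (nat_lit 91810712) (nat_lit 1368) (nat_lit 6332615789) (nat_lit 623) (nat_lit 5) (nat_lit 640) (nat_lit 5) (nat_lit 641) (nat_lit 5) (nat_lit 554) (nat_lit 531) (nat_lit 475)) (XT.lf (nat_lit 0) (nat_lit 3207191040) (nat_lit 1368) (nat_lit 2050184618) (nat_lit 76) (nat_lit 2283037949) (nat_lit 623) (nat_lit 5) (nat_lit 641) (nat_lit 5) (nat_lit 624) (nat_lit 5) (nat_lit 555) (nat_lit 531) (nat_lit 474))))))) (XT.nd (nat_lit 780) (nat_lit 7524) (nat_lit 0) (XT.nd (nat_lit 390) (nat_lit 5168) (nat_lit 0) (XT.nd (nat_lit 156) (nat_lit 3040) (nat_lit 0) (XT.nd (nat_lit 78) (nat_lit 0) (nat_lit 0) (XT.lf (nat_lit 0) (nat_lit 2410242131) (nat_lit 1368) (nat_lit 2863652052) (nat_lit 1444) (nat_lit 2318908846) (nat_lit 605) (nat_lit 5) (nat_lit 623) (nat_lit 5) (nat_lit 624) (nat_lit 5) (nat_lit 556) (nat_lit 531) (nat_lit 473)) (XT.lf (nat_lit 0) (nat_lit 6955578016) (nat_lit 1368) (nat_lit 399872167) (nat_lit 1444) (nat_lit 291321147)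 (nat_lit 605) (nat_lit 5) (nat_lit 623) (nat_lit 5) (nat_lit 624) (nat_lit 5) (nat_lit 557) (nat_lit 531) (nat_lit 472))) (XT.nd (nat_lit 78) (nat_lit 1520) (nat_lit 0) (XT.lf (nat_lit 0) (nat_lit 1753122384) (nat_lit 1520) (nat_lit 3818299308) (nat_lit 76) (nat_lit 2130175839) (nat_lit 585) (nat_lit 5) (nat_lit 605) (nat_lit 5) (nat_lit 586) (nat_lit 5) (nat_lit 558) (nat_lit 531) (nat_lit 471)) (XT.nd (nat_lit 78) (nat_lit 0) (nat_lit 0) (XT.lf (nat_lit 0) (nat_lit 774154770) (nat_lit 1520) (nat_lit 3033653781) (nat_lit 1596) (nat_lit 3950209484) (nat_lit 565) (nat_lit 5) (nat_lit 585) (nat_lit 5) (nat_lit 586) (nat_lit 5) (nat_lit 559) (nat_lit 531) (nat_lit 470)) (XT.lf (nat_lit 0) (nat_lit 5477818873) (nat_lit 1520) (nat_lit 412855979) (nat_lit 1596) (nat_lit 1925151723) (nat_lit 565) (nat_lit 5) (nat_lit 585) (nat_lit 5) (nat_lit 586) (nat_lit 5) (nat_lit 560) (nat_lit 531) (nat_lit 469))))) (XT.nd (nat_lit 156) (nat_lit 3496) (nat_lit 0) (XT.nd (nat_lit 78) (nat_lit 0) (nat_lit 0) (XT.lf (nat_lit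 0) (nat_lit 130932010) (nat_lit 1672) (nat_lit 5490997124) (nat_lit 76) (nat_lit 2252997894) (nat_lit 543) (nat_lit 5) (nat_lit 565) (nat_lit 5) (nat_lit 544) (nat_lit 5) (nat_lit 561) (nat_lit 531) (nat_lit 468)) (XT.lf (nat_lit 0) (nat_lit 2183451667) (nat_lit 1672) (nat_lit 751327318) (nat_lit 76) (nat_lit 5000555438) (nat_lit 543) (nat_lit 5) (nat_lit 565) (nat_lit 5) (nat_lit 544) (nat_lit 5) (nat_lit 562) (nat_lit 531) (nat_lit 467))) (XT.nd (nat_lit 78) (nat_lit 1824) (nat_lit 0) (XT.lf (nat_lit 0) (nat_lit 4104771893) (nat_lit 1672) (nat_lit 162175846) (nat_lit 1748) (nat_lit 3730204955) (nat_lit 521) (nat_lit 5) (nat_lit 543) (nat_lit 5) (nat_lit 544) (nat_lit 5) (nat_lit 563) (nat_lit 531) (nat_lit 466)) (XT.nd (nat_lit 78) (nat_lit 76) (nat_lit 0) (XT.lf (nat_lit 0) (nat_lit 970720267) (nat_lit 1748) (nat_lit 5413894843) (nat_lit 1824) (nat_lit 1675743419) (nat_lit 498) (nat_lit 5) (nat_lit 521) (nat_lit 5) (nat_lit 522) (nat_lit 5) (nat_lit 564) (nat_lit 531) (nat_lit 465)) (XT.lf (nat_lit 0)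 (nat_lit 405744201) (nat_lit 1824) (nat_lit 2177436227) (nat_lit 76) (nat_lit 5541765866) (nat_lit 497) (nat_lit 5) (nat_lit 521) (nat_lit 5) (nat_lit 498) (nat_lit 5) (nat_lit 565) (nat_lit 531) (nat_lit 464)))))) (XT.nd (nat_lit 390) (nat_lit 3572) (nat_lit 0) (XT.nd (nat_lit 156) (nat_lit 2128) (nat_lit 0) (XT.nd (nat_lit 78) (nat_lit 0) (nat_lit 0) (XT.lf (nat_lit 0) (nat_lit 2491765232) (nat_lit 1900) (nat_lit 5366502750) (nat_lit 76) (nat_lit 332630618) (nat_lit 473) (nat_lit 5) (nat_lit 498) (nat_lit 5) (nat_lit 474) (nat_lit 5) (nat_lit 566) (nat_lit 531) (nat_lit 463)) (XT.lf (nat_lit 0) (nat_lit 4616601269) (nat_lit 1900) (nat_lit 352157186) (nat_lit 76) (nat_lit 3289470736) (nat_lit 473) (nat_lit 5) (nat_lit 498) (nat_lit 5) (nat_lit 474) (nat_lit 5) (nat_lit 567) (nat_lit 531) (nat_lit 462))) (XT.nd (nat_lit 78) (nat_lit 988) (nat_lit 0) (XT.lf (nat_lit 0) (nat_lit 4793126397) (nat_lit 1140) (nat_lit 1987887514) (nat_lit 1216) (nat_lit 1545951997) (nat_lit 458) (nat_lit 5) (nat_lit 473) (nat_lit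 5) (nat_lit 474) (nat_lit 5) (nat_lit 568) (nat_lit 531) (nat_lit 461)) (XT.nd (nat_lit 78) (nat_lit 0) (nat_lit 0) (XT.lf (nat_lit 0) (nat_lit 570017426) (nat_lit 988) (nat_lit 6770187516) (nat_lit 76) (nat_lit 1057073870) (nat_lit 445) (nat_lit 5) (nat_lit 458) (nat_lit 5) (nat_lit 446) (nat_lit 5) (nat_lit 569) (nat_lit 531) (nat_lit 460)) (XT.lf (nat_lit 0) (nat_lit 2711317793) (nat_lit 988) (nat_lit 1585852604) (nat_lit 76) (nat_lit 4171550013) (nat_lit 445) (nat_lit 5) (nat_lit 458) (nat_lit 5) (nat_lit 446) (nat_lit 5) (nat_lit 570) (nat_lit 531) (nat_lit 459))))) (XT.nd (nat_lit 234) (nat_lit 1748) (nat_lit 0) (XT.nd (nat_lit 78) (nat_lit 912) (nat_lit 0) (XT.lf (nat_lit 0) (nat_lit 3718673610) (nat_lit 912) (nat_lit 1168225155) (nat_lit 988) (nat_lit 3654864009) (nat_lit 433) (nat_lit 5) (nat_lit 445) (nat_lit 5) (nat_lit 446) (nat_lit 5) (nat_lit 571) (nat_lit 531) (nat_lit 458)) (XT.nd (nat_lit 78) (nat_lit 76) (nat_lit 0) (XT.lf (nat_lit 0) (nat_lit 495321362) (nat_lit 836) (nat_lit 6605479604)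 (nat_lit 912) (nat_lit 1515569833) (nat_lit 422) (nat_lit 5) (nat_lit 433) (nat_lit 5) (nat_lit 434) (nat_lit 5) (nat_lit 572) (nat_lit 531) (nat_lit 457)) (XT.lf (nat_lit 0) (nat_lit 666039633) (nat_lit 912) (nat_lit 2751537026) (nat_lit 76) (nat_lit 5274643328) (nat_lit 421) (nat_lit 5) (nat_lit 433) (nat_lit 5) (nat_lit 422) (nat_lit 5) (nat_lit 573) (nat_lit 531) (nat_lit 456)))) (XT.nd (nat_lit 78) (nat_lit 836) (nat_lit 0) (XT.lf (nat_lit 0) (nat_lit 2718717236) (nat_lit 912) (nat_lit 138524016) (nat_lit 988) (nat_lit 5912420429) (nat_lit 409) (nat_lit 5) (nat_lit 421) (nat_lit 5) (nat_lit 422) (nat_lit 5) (nat_lit 574) (nat_lit 531) (nat_lit 455)) (XT.nd (nat_lit 78) (nat_lit 836) (nat_lit 0) (XT.lf (nat_lit 0) (nat_lit 5100653497) (nat_lit 988) (nat_lit 566217009) (nat_lit 76) (nat_lit 3181614899) (nat_lit 409) (nat_lit 5) (nat_lit 422) (nat_lit 5) (nat_lit 410) (nat_lit 5) (nat_lit 575) (nat_lit 531) (nat_lit 454)) (XT.lf (nat_lit 0) (nat_lit 5061642528) (nat_lit 836) (nat_lit 2330664397) (nat_lit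 912) (nat_lit 1536512131) (nat_lit 398) (nat_lit 5) (nat_lit 409) (nat_lit 5) (nat_lit 410) (nat_lit 5) (nat_lit 576) (nat_lit 531) (nat_lit 453))))))))
noncomputable def xc92 : XT := (XT.nd (nat_lit 1560) (nat_lit 7068) (nat_lit 0) (XT.nd (nat_lit 780) (nat_lit 4636) (nat_lit 0) (XT.nd (nat_lit 390) (nat_lit 2280) (nat_lit 0) (XT.nd (nat_lit 156) (nat_lit 1596) (nat_lit 0) (XT.nd (nat_lit 78) (nat_lit 0) (nat_lit 0) (XT.lf (nat_lit 0) (nat_lit 701885425) (nat_lit 912) (nat_lit 7232490584) (nat_lit 76) (nat_lit 1076445245) (nat_lit 386) (nat_lit 5) (nat_lit 398) (nat_lit 5) (nat_lit 387) (nat_lit 5) (nat_lit 577) (nat_lit 531) (nat_lit 452)) (XT.lf (nat_lit 0) (nat_lit 2976206327) (nat_lit 912) (nat_lit 1563150746) (nat_lit 76) (nat_lit 4554669569) (nat_lit 386) (nat_lit 5) (nat_lit 398) (nat_lit 5) (nat_lit 387) (nat_lit 5) (nat_lit 578) (nat_lit 531) (nat_lit 451))) (XT.nd (nat_lit 78) (nat_lit 836) (nat_lit 0) (XT.lf (nat_lit 0) (nat_lit 4243273679) (nat_lit 760) (nat_lit 1051027906) (nat_lit 836) (nat_lit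 3884629636) (nat_lit 376) (nat_lit 5) (nat_lit 386) (nat_lit 5) (nat_lit 387) (nat_lit 5) (nat_lit 579) (nat_lit 531) (nat_lit 450)) (XT.nd (nat_lit 78) (nat_lit 76) (nat_lit 0) (XT.lf (nat_lit 0) (nat_lit 884643146) (nat_lit 760) (nat_lit 6777782838) (nat_lit 836) (nat_lit 1603035389) (nat_lit 366) (nat_lit 5) (nat_lit 376) (nat_lit 5) (nat_lit 377) (nat_lit 5) (nat_lit 580) (nat_lit 531) (nat_lit 449)) (XT.lf (nat_lit 0) (nat_lit 726249134) (nat_lit 836) (nat_lit 2509161217) (nat_lit 76) (nat_lit 6117987405) (nat_lit 365) (nat_lit 5) (nat_lit 376) (nat_lit 5) (nat_lit 366) (nat_lit 5) (nat_lit 581) (nat_lit 531) (nat_lit 448))))) (XT.nd (nat_lit 156) (nat_lit 760) (nat_lit 0) (XT.nd (nat_lit 78) (nat_lit 760) (nat_lit 0) (XT.lf (nat_lit 0) (nat_lit 3077758312) (nat_lit 836) (nat_lit 5962483948) (nat_lit 76) (nat_lit 402697392) (nat_lit 355) (nat_lit 5) (nat_lit 366) (nat_lit 5) (nat_lit 356) (nat_lit 5) (nat_lit 582) (nat_lit 531) (nat_lit 447)) (XT.lf (nat_lit 0) (nat_lit 36724884) (nat_lit 760) (nat_lit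 5450328920) (nat_lit 836) (nat_lit 4047004221) (nat_lit 345) (nat_lit 5) (nat_lit 355) (nat_lit 5) (nat_lit 356) (nat_lit 5) (nat_lit 583) (nat_lit 531) (nat_lit 446))) (XT.nd (nat_lit 78) (nat_lit 760) (nat_lit 0) (XT.lf (nat_lit 0) (nat_lit 6204792135) (nat_lit 760) (nat_lit 1752235111) (nat_lit 836) (nat_lit 1669722426) (nat_lit 345) (nat_lit 5) (nat_lit 355) (nat_lit 5) (nat_lit 356) (nat_lit 5) (nat_lit 584) (nat_lit 531) (nat_lit 445)) (XT.nd (nat_lit 78) (nat_lit 0) (nat_lit 0) (XT.lf (nat_lit 0) (nat_lit 749294299) (nat_lit 760) (nat_lit 6959887087) (nat_lit 76) (nat_lit 2011934580) (nat_lit 335) (nat_lit 5) (nat_lit 345) (nat_lit 5) (nat_lit 336) (nat_lit 5) (nat_lit 585) (nat_lit 531) (nat_lit 444)) (XT.lf (nat_lit 0) (nat_lit 3202212941) (nat_lit 760) (nat_lit 757242527) (nat_lit 76) (nat_lit 5857536501) (nat_lit 335) (nat_lit 5) (nat_lit 345) (nat_lit 5) (nat_lit 336) (nat_lit 5) (nat_lit 586) (nat_lit 531) (nat_lit 443)))))) (XT.nd (nat_lit 390) (nat_lit 1900) (nat_lit 0) (XT.nd (nat_lit 156)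 (nat_lit 1368) (nat_lit 0) (XT.nd (nat_lit 78) (nat_lit 684) (nat_lit 0) (XT.lf (nat_lit 0) (nat_lit 5611697740) (nat_lit 684) (nat_lit 102592618) (nat_lit 760) (nat_lit 4200293816) (nat_lit 326) (nat_lit 5) (nat_lit 335) (nat_lit 5) (nat_lit 336) (nat_lit 5) (nat_lit 587) (nat_lit 531) (nat_lit 442)) (XT.lf (nat_lit 0) (nat_lit 2074921006) (nat_lit 684) (nat_lit 6219097628) (nat_lit 760) (nat_lit 1719762082) (nat_lit 317) (nat_lit 5) (nat_lit 326) (nat_lit 5) (nat_lit 327) (nat_lit 5) (nat_lit 588) (nat_lit 531) (nat_lit 441))) (XT.nd (nat_lit 78) (nat_lit 1292) (nat_lit 0) (XT.lf (nat_lit 0) (nat_lit 803579272) (nat_lit 760) (nat_lit 1513678565) (nat_lit 76) (nat_lit 7797522226) (nat_lit 316) (nat_lit 5) (nat_lit 326) (nat_lit 5) (nat_lit 317) (nat_lit 5) (nat_lit 589) (nat_lit 531) (nat_lit 440)) (XT.nd (nat_lit 78) (nat_lit 608) (nat_lit 0) (XT.lf (nat_lit 0) (nat_lit 3372900328) (nat_lit 760) (nat_lit 5164593883) (nat_lit 76) (nat_lit 1679707660) (nat_lit 307) (nat_lit 5) (nat_lit 317) (nat_lit 5) (nat_lit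 308) (nat_lit 5) (nat_lit 590) (nat_lit 531) (nat_lit 439)) (XT.lf (nat_lit 0) (nat_lit 1421082938) (nat_lit 608) (nat_lit 4582172029) (nat_lit 684) (nat_lit 4318224832) (nat_lit 299) (nat_lit 5) (nat_lit 307) (nat_lit 5) (nat_lit 308) (nat_lit 5) (nat_lit 591) (nat_lit 531) (nat_lit 438))))) (XT.nd (nat_lit 156) (nat_lit 1216) (nat_lit 0) (XT.nd (nat_lit 78) (nat_lit 684) (nat_lit 0) (XT.lf (nat_lit 0) (nat_lit 8177276287) (nat_lit 608) (nat_lit 518737723) (nat_lit 684) (nat_lit 1731633942) (nat_lit 299) (nat_lit 5) (nat_lit 307) (nat_lit 5) (nat_lit 308) (nat_lit 5) (nat_lit 592) (nat_lit 531) (nat_lit 437)) (XT.lf (nat_lit 0) (nat_lit 923576522) (nat_lit 684) (nat_lit 6003861599) (nat_lit 76) (nat_lit 3607808617) (nat_lit 290) (nat_lit 5) (nat_lit 299) (nat_lit 5) (nat_lit 291) (nat_lit 5) (nat_lit 593) (nat_lit 531) (nat_lit 436))) (XT.nd (nat_lit 78) (nat_lit 608) (nat_lit 0) (XT.lf (nat_lit 0) (nat_lit 798901104) (nat_lit 608) (nat_lit 2809354011) (nat_lit 684) (nat_lit 7036523032) (nat_lit 282) (nat_lit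 5) (nat_lit 290) (nat_lit 5) (nat_lit 291) (nat_lit 5) (nat_lit 594) (nat_lit 531) (nat_lit 435)) (XT.nd (nat_lit 78) (nat_lit 608) (nat_lit 0) (XT.lf (nat_lit 0) (nat_lit 6372150710) (nat_lit 684) (nat_lit 2977280531) (nat_lit 76) (nat_lit 1406559039) (nat_lit 282) (nat_lit 5) (nat_lit 291) (nat_lit 5) (nat_lit 283) (nat_lit 5) (nat_lit 595) (nat_lit 531) (nat_lit 434)) (XT.lf (nat_lit 0) (nat_lit 4032190915) (nat_lit 608) (nat_lit 5180325457) (nat_lit 684) (nat_lit 1656486998) (nat_lit 274) (nat_lit 5) (nat_lit 282) (nat_lit 5) (nat_lit 283) (nat_lit 5) (nat_lit 596) (nat_lit 531) (nat_lit 433))))))) (XT.nd (nat_lit 780) (nat_lit 3648) (nat_lit 0) (XT.nd (nat_lit 390) (nat_lit 1596) (nat_lit 0) (XT.nd (nat_lit 156) (nat_lit 1216) (nat_lit 0) (XT.nd (nat_lit 78) (nat_lit 0) (nat_lit 0) (XT.lf (nat_lit 0) (nat_lit 202666177) (nat_lit 532) (nat_lit 905930308) (nat_lit 608) (nat_lit 9875575755) (nat_lit 266) (nat_lit 5) (nat_lit 273) (nat_lit 5) (nat_lit 274) (nat_lit 5) (nat_lit 597) (nat_lit 531) (nat_lit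 432)) (XT.lf (nat_lit 0) (nat_lit 3952159199) (nat_lit 608) (nat_lit 3689915439) (nat_lit 76) (nat_lit 3458444225) (nat_lit 266) (nat_lit 5) (nat_lit 274) (nat_lit 5) (nat_lit 267) (nat_lit 5) (nat_lit 598) (nat_lit 531) (nat_lit 431))) (XT.nd (nat_lit 78) (nat_lit 608) (nat_lit 0) (XT.lf (nat_lit 0) (nat_lit 3553625261) (nat_lit 608) (nat_lit 3305225616) (nat_lit 684) (nat_lit 4360216902) (nat_lit 258) (nat_lit 5) (nat_lit 266) (nat_lit 5) (nat_lit 267) (nat_lit 5) (nat_lit 599) (nat_lit 531) (nat_lit 430)) (XT.nd (nat_lit 78) (nat_lit 608) (nat_lit 0) (XT.lf (nat_lit 0) (nat_lit 9833249002) (nat_lit 684) (nat_lit 385552687) (nat_lit 76) (nat_lit 1120995035) (nat_lit 258) (nat_lit 5) (nat_lit 267) (nat_lit 5) (nat_lit 259) (nat_lit 5) (nat_lit 600) (nat_lit 531) (nat_lit 429)) (XT.lf (nat_lit 0) (nat_lit 1431772625) (nat_lit 608) (nat_lit 4390622058) (nat_lit 76) (nat_lit 5639443828) (nat_lit 250) (nat_lit 5) (nat_lit 258) (nat_lit 5) (nat_lit 251) (nat_lit 5) (nat_lit 601) (nat_lit 531) (nat_lit 428)))))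 (XT.nd (nat_lit 156) (nat_lit 1064) (nat_lit 0) (XT.nd (nat_lit 78) (nat_lit 0) (nat_lit 0) (XT.lf (nat_lit 0) (nat_lit 3096511073) (nat_lit 532) (nat_lit 1312828055) (nat_lit 608) (nat_lit 7176770265) (nat_lit 243) (nat_lit 5) (nat_lit 250) (nat_lit 5) (nat_lit 251) (nat_lit 5) (nat_lit 602) (nat_lit 531) (nat_lit 427)) (XT.lf (nat_lit 0) (nat_lit 7475566229) (nat_lit 608) (nat_lit 971279114) (nat_lit 76) (nat_lit 3265438630) (nat_lit 243) (nat_lit 5) (nat_lit 251) (nat_lit 5) (nat_lit 244) (nat_lit 5) (nat_lit 603) (nat_lit 531) (nat_lit 426))) (XT.nd (nat_lit 78) (nat_lit 608) (nat_lit 0) (XT.lf (nat_lit 0) (nat_lit 6747431974) (nat_lit 456) (nat_lit 3886727976) (nat_lit 532) (nat_lit 1206201708) (nat_lit 237) (nat_lit 5) (nat_lit 243) (nat_lit 5) (nat_lit 244) (nat_lit 5) (nat_lit 604) (nat_lit 531) (nat_lit 425)) (XT.nd (nat_lit 78) (nat_lit 0) (nat_lit 0) (XT.lf (nat_lit 0) (nat_lit 1867780278) (nat_lit 608) (nat_lit 9320359795) (nat_lit 76) (nat_lit 782464963) (nat_lit 229) (nat_lit 5) (nat_lit 237)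 (nat_lit 5) (nat_lit 230) (nat_lit 5) (nat_lit 605) (nat_lit 531) (nat_lit 424)) (XT.lf (nat_lit 0) (nat_lit 5026046371) (nat_lit 608) (nat_lit 1549438675) (nat_lit 76) (nat_lit 5527030096) (nat_lit 229) (nat_lit 5) (nat_lit 237) (nat_lit 5) (nat_lit 230) (nat_lit 5) (nat_lit 606) (nat_lit 531) (nat_lit 423)))))) (XT.nd (nat_lit 390) (nat_lit 1748) (nat_lit 0) (XT.nd (nat_lit 156) (nat_lit 988) (nat_lit 0) (XT.nd (nat_lit 78) (nat_lit 456) (nat_lit 0) (XT.lf (nat_lit 0) (nat_lit 6431809876) (nat_lit 456) (nat_lit 1836641129) (nat_lit 532) (nat_lit 3968193400) (nat_lit 223) (nat_lit 5) (nat_lit 229) (nat_lit 5) (nat_lit 230) (nat_lit 5) (nat_lit 607) (nat_lit 531) (nat_lit 422)) (XT.lf (nat_lit 0) (nat_lit 2200159363) (nat_lit 456) (nat_lit 9399128974) (nat_lit 532) (nat_lit 773696638) (nat_lit 217) (nat_lit 5) (nat_lit 223) (nat_lit 5) (nat_lit 224) (nat_lit 5) (nat_lit 608) (nat_lit 531) (nat_lit 421))) (XT.nd (nat_lit 78) (nat_lit 912) (nat_lit 0) (XT.lf (nat_lit 0) (nat_lit 2482930351) (nat_lit 532) (nat_lit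 2125573206) (nat_lit 76) (nat_lit 7902610002) (nat_lit 216) (nat_lit 5) (nat_lit 223) (nat_lit 5) (nat_lit 217) (nat_lit 5) (nat_lit 609) (nat_lit 531) (nat_lit 420)) (XT.nd (nat_lit 78) (nat_lit 456) (nat_lit 0) (XT.lf (nat_lit 0) (nat_lit 5816031356) (nat_lit 532) (nat_lit 6524776684) (nat_lit 76) (nat_lit 310660755) (nat_lit 210) (nat_lit 5) (nat_lit 217) (nat_lit 5) (nat_lit 211) (nat_lit 5) (nat_lit 610) (nat_lit 531) (nat_lit 419)) (XT.lf (nat_lit 0) (nat_lit 1741441535) (nat_lit 456) (nat_lit 7510542187) (nat_lit 532) (nat_lit 3541924008) (nat_lit 204) (nat_lit 5) (nat_lit 210) (nat_lit 5) (nat_lit 211) (nat_lit 5) (nat_lit 611) (nat_lit 531) (nat_lit 418))))) (XT.nd (nat_lit 234) (nat_lit 836) (nat_lit 0) (XT.nd (nat_lit 78) (nat_lit 912) (nat_lit 0) (XT.lf (nat_lit 0) (nat_lit 10232368631) (nat_lit 456) (nat_lit 2548279258) (nat_lit 532) (nat_lit 158068075) (nat_lit 204) (nat_lit 5) (nat_lit 210) (nat_lit 5) (nat_lit 211) (nat_lit 5) (nat_lit 612) (nat_lit 531) (nat_lit 417)) (XT.nd (nat_lit 78)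 (nat_lit 456) (nat_lit 0) (XT.lf (nat_lit 0) (nat_lit 3285260095) (nat_lit 456) (nat_lit 7269214866) (nat_lit 76) (nat_lit 2530818302) (nat_lit 198) (nat_lit 5) (nat_lit 204) (nat_lit 5) (nat_lit 199) (nat_lit 5) (nat_lit 613) (nat_lit 531) (nat_lit 416)) (XT.lf (nat_lit 0) (nat_lit 1281068667) (nat_lit 456) (nat_lit 5538351394) (nat_lit 532) (nat_lit 6414879868) (nat_lit 192) (nat_lit 5) (nat_lit 198) (nat_lit 5) (nat_lit 199) (nat_lit 5) (nat_lit 614) (nat_lit 531) (nat_lit 415)))) (XT.nd (nat_lit 78) (nat_lit 836) (nat_lit 0) (XT.lf (nat_lit 0) (nat_lit 10072195368) (nat_lit 456) (nat_lit 381647010) (nat_lit 532) (nat_lit 2931853112) (nat_lit 192) (nat_lit 5) (nat_lit 198) (nat_lit 5) (nat_lit 199) (nat_lit 5) (nat_lit 615) (nat_lit 531) (nat_lit 414)) (XT.nd (nat_lit 78) (nat_lit 380) (nat_lit 0) (XT.lf (nat_lit 0) (nat_lit 661582775) (nat_lit 456) (nat_lit 8032319394) (nat_lit 76) (nat_lit 4845158690) (nat_lit 186) (nat_lit 5) (nat_lit 192) (nat_lit 5) (nat_lit 187) (nat_lit 5) (nat_lit 616) (nat_lit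 531) (nat_lit 413)) (XT.lf (nat_lit 0) (nat_lit 813314666) (nat_lit 380) (nat_lit 3485720077) (nat_lit 456) (nat_lit 9395843428) (nat_lit 181) (nat_lit 5) (nat_lit 186) (nat_lit 5) (nat_lit 187) (nat_lit 5) (nat_lit 617) (nat_lit 531) (nat_lit 412))))))))
noncomputable def xc93 : XT := (XT.nd (nat_lit 1560) (nat_lit 16948) (nat_lit 0) (XT.nd (nat_lit 780) (nat_lit 3192) (nat_lit 0) (XT.nd (nat_lit 390) (nat_lit 912) (nat_lit 0) (XT.nd (nat_lit 156) (nat_lit 912) (nat_lit 0) (XT.nd (nat_lit 78) (nat_lit 836) (nat_lit 0) (XT.lf (nat_lit 0) (nat_lit 2941842413) (nat_lit 836) (nat_lit 207984181) (nat_lit 836) (nat_lit 207984181) (nat_lit 733) (nat_lit 3) (nat_lit 744) (nat_lit 3) (nat_lit 744) (nat_lit 5) (nat_lit 532) (nat_lit 532) (nat_lit 496)) (XT.lf (nat_lit 0) (nat_lit 1366899551) (nat_lit 836) (nat_lit 3777907165) (nat_lit 912) (nat_lit 1594060164) (nat_lit 722) (nat_lit 5) (nat_lit 733) (nat_lit 3) (nat_lit 734) (nat_lit 5) (nat_lit 533) (nat_lit 532) (nat_lit 495))) (XT.nd (nat_lit 78) (nat_lit 912)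 (nat_lit 0) (XT.lf (nat_lit 0) (nat_lit 3544105365) (nat_lit 836) (nat_lit 387060194) (nat_lit 912) (nat_lit 2832393476) (nat_lit 722) (nat_lit 5) (nat_lit 733) (nat_lit 3) (nat_lit 734) (nat_lit 5) (nat_lit 534) (nat_lit 532) (nat_lit 494)) (XT.nd (nat_lit 78) (nat_lit 912) (nat_lit 0) (XT.lf (nat_lit 76) (nat_lit 3082545758) (nat_lit 0) (nat_lit 2646158940) (nat_lit 912) (nat_lit 1060765851) (nat_lit 723) (nat_lit 5) (nat_lit 722) (nat_lit 5) (nat_lit 734) (nat_lit 5) (nat_lit 535) (nat_lit 532) (nat_lit 493)) (XT.lf (nat_lit 0) (nat_lit 1073122843) (nat_lit 912) (nat_lit 226517464) (nat_lit 988) (nat_lit 5517174358) (nat_lit 710) (nat_lit 5) (nat_lit 722) (nat_lit 5) (nat_lit 723) (nat_lit 5) (nat_lit 536) (nat_lit 532) (nat_lit 492))))) (XT.nd (nat_lit 156) (nat_lit 988) (nat_lit 0) (XT.nd (nat_lit 78) (nat_lit 0) (nat_lit 0) (XT.lf (nat_lit 0) (nat_lit 3203424785) (nat_lit 912) (nat_lit 3515346332) (nat_lit 988) (nat_lit 126437889) (nat_lit 711) (nat_lit 5) (nat_lit 723) (nat_lit 5) (nat_lit 724) (nat_lit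 5) (nat_lit 537) (nat_lit 532) (nat_lit 491)) (XT.lf (nat_lit 76) (nat_lit 47825509) (nat_lit 0) (nat_lit 5285461364) (nat_lit 988) (nat_lit 1541747590) (nat_lit 712) (nat_lit 5) (nat_lit 711) (nat_lit 5) (nat_lit 724) (nat_lit 5) (nat_lit 538) (nat_lit 532) (nat_lit 490))) (XT.nd (nat_lit 78) (nat_lit 0) (nat_lit 0) (XT.lf (nat_lit 0) (nat_lit 563170909) (nat_lit 988) (nat_lit 3210116867) (nat_lit 1064) (nat_lit 3132677844) (nat_lit 698) (nat_lit 5) (nat_lit 711) (nat_lit 5) (nat_lit 712) (nat_lit 5) (nat_lit 539) (nat_lit 532) (nat_lit 489)) (XT.nd (nat_lit 78) (nat_lit 0) (nat_lit 0) (XT.lf (nat_lit 76) (nat_lit 444554120) (nat_lit 0) (nat_lit 2195942351) (nat_lit 1064) (nat_lit 4297798234) (nat_lit 699) (nat_lit 5) (nat_lit 698) (nat_lit 5) (nat_lit 712) (nat_lit 5) (nat_lit 540) (nat_lit 532) (nat_lit 488)) (XT.lf (nat_lit 76) (nat_lit 4185649296) (nat_lit 0) (nat_lit 544130594) (nat_lit 1064) (nat_lit 2242084391) (nat_lit 699) (nat_lit 5) (nat_lit 698) (nat_lit 5) (nat_lit 712) (nat_lit 5) (nat_lit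 541) (nat_lit 532) (nat_lit 487)))))) (XT.nd (nat_lit 390) (nat_lit 1140) (nat_lit 0) (XT.nd (nat_lit 156) (nat_lit 1064) (nat_lit 0) (XT.nd (nat_lit 78) (nat_lit 1064) (nat_lit 0) (XT.lf (nat_lit 76) (nat_lit 970047818) (nat_lit 0) (nat_lit 5854511307) (nat_lit 1064) (nat_lit 182274014) (nat_lit 700) (nat_lit 5) (nat_lit 699) (nat_lit 5) (nat_lit 713) (nat_lit 5) (nat_lit 542) (nat_lit 532) (nat_lit 486)) (XT.lf (nat_lit 0) (nat_lit 1866452155) (nat_lit 1064) (nat_lit 2250296272) (nat_lit 1140) (nat_lit 2926048122) (nat_lit 685) (nat_lit 5) (nat_lit 699) (nat_lit 5) (nat_lit 700) (nat_lit 5) (nat_lit 543) (nat_lit 532) (nat_lit 485))) (XT.nd (nat_lit 78) (nat_lit 1064) (nat_lit 0) (XT.lf (nat_lit 76) (nat_lit 1601138612) (nat_lit 0) (nat_lit 2314402701) (nat_lit 1140) (nat_lit 3164679209) (nat_lit 686) (nat_lit 5) (nat_lit 685) (nat_lit 5) (nat_lit 700) (nat_lit 5) (nat_lit 544) (nat_lit 532) (nat_lit 484)) (XT.nd (nat_lit 78) (nat_lit 1064) (nat_lit 0) (XT.lf (nat_lit 76) (nat_lit 5529730659) (nat_lit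 0) (nat_lit 443168564) (nat_lit 1140) (nat_lit 1146149946) (nat_lit 686) (nat_lit 5) (nat_lit 685) (nat_lit 5) (nat_lit 700) (nat_lit 5) (nat_lit 545) (nat_lit 532) (nat_lit 483)) (XT.lf (nat_lit 0) (nat_lit 878762971) (nat_lit 1140) (nat_lit 4795910118) (nat_lit 1216) (nat_lit 1484304956) (nat_lit 671) (nat_lit 5) (nat_lit 686) (nat_lit 5) (nat_lit 687) (nat_lit 5) (nat_lit 546) (nat_lit 532) (nat_lit 482))))) (XT.nd (nat_lit 156) (nat_lit 1140) (nat_lit 0) (XT.nd (nat_lit 78) (nat_lit 0) (nat_lit 0) (XT.lf (nat_lit 0) (nat_lit 2896158386) (nat_lit 1140) (nat_lit 825287134) (nat_lit 1216) (nat_lit 3478763656) (nat_lit 671) (nat_lit 5) (nat_lit 686) (nat_lit 5) (nat_lit 687) (nat_lit 5) (nat_lit 547) (nat_lit 532) (nat_lit 481)) (XT.lf (nat_lit 76) (nat_lit 3236564328) (nat_lit 0) (nat_lit 1692906358) (nat_lit 1216) (nat_lit 2313284651) (nat_lit 672) (nat_lit 5) (nat_lit 671) (nat_lit 5) (nat_lit 687) (nat_lit 5) (nat_lit 548) (nat_lit 532) (nat_lit 480))) (XT.nd (nat_lit 78) (nat_lit 1216) (nat_lit 0) (XT.lf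 (nat_lit 76) (nat_lit 71840771) (nat_lit 0) (nat_lit 6895433788) (nat_lit 1216) (nat_lit 319603108) (nat_lit 673) (nat_lit 5) (nat_lit 672) (nat_lit 5) (nat_lit 688) (nat_lit 5) (nat_lit 549) (nat_lit 532) (nat_lit 479)) (XT.nd (nat_lit 78) (nat_lit 0) (nat_lit 0) (XT.lf (nat_lit 0) (nat_lit 1685467807) (nat_lit 1216) (nat_lit 3099927807) (nat_lit 1292) (nat_lit 2546386060) (nat_lit 656) (nat_lit 5) (nat_lit 672) (nat_lit 5) (nat_lit 673) (nat_lit 5) (nat_lit 550) (nat_lit 532) (nat_lit 478)) (XT.lf (nat_lit 76) (nat_lit 1078329225) (nat_lit 0) (nat_lit 2611626408) (nat_lit 1292) (nat_lit 3688315627) (nat_lit 657) (nat_lit 5) (nat_lit 656) (nat_lit 5) (nat_lit 673) (nat_lit 5) (nat_lit 551) (nat_lit 532) (nat_lit 477))))))) (XT.nd (nat_lit 780) (nat_lit 8360) (nat_lit 0) (XT.nd (nat_lit 390) (nat_lit 4712) (nat_lit 0) (XT.nd (nat_lit 156) (nat_lit 2660) (nat_lit 0) (XT.nd (nat_lit 78) (nat_lit 1216) (nat_lit 0) (XT.lf (nat_lit 76) (nat_lit 5351196726) (nat_lit 0) (nat_lit 361378459) (nat_lit 1292) (nat_lit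 1713556233) (nat_lit 657) (nat_lit 5) (nat_lit 656) (nat_lit 5) (nat_lit 673) (nat_lit 5) (nat_lit 552) (nat_lit 532) (nat_lit 476)) (XT.lf (nat_lit 0) (nat_lit 281776532) (nat_lit 1292) (nat_lit 5257253910) (nat_lit 76) (nat_lit 1936180407) (nat_lit 640) (nat_lit 5) (nat_lit 657) (nat_lit 5) (nat_lit 641) (nat_lit 5) (nat_lit 553) (nat_lit 532) (nat_lit 475))) (XT.nd (nat_lit 78) (nat_lit 2660) (nat_lit 0) (XT.lf (nat_lit 0) (nat_lit 2268999689) (nat_lit 1292) (nat_lit 945624162) (nat_lit 76) (nat_lit 4310924445) (nat_lit 640) (nat_lit 5) (nat_lit 657) (nat_lit 5) (nat_lit 641) (nat_lit 5) (nat_lit 554) (nat_lit 532) (nat_lit 474)) (XT.nd (nat_lit 78) (nat_lit 1368) (nat_lit 0) (XT.lf (nat_lit 0) (nat_lit 3466694740) (nat_lit 1292) (nat_lit 811091883) (nat_lit 1368) (nat_lit 3299470979) (nat_lit 623) (nat_lit 5) (nat_lit 640) (nat_lit 5) (nat_lit 641) (nat_lit 5) (nat_lit 555) (nat_lit 532) (nat_lit 473)) (XT.lf (nat_lit 0) (nat_lit 311932442) (nat_lit 1368) (nat_lit 5993850395) (nat_lit 1444) (nat_lit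 1324639051) (nat_lit 605) (nat_lit 5) (nat_lit 623) (nat_lit 5) (nat_lit 624) (nat_lit 5) (nat_lit 556) (nat_lit 532) (nat_lit 472))))) (XT.nd (nat_lit 156) (nat_lit 3192) (nat_lit 0) (XT.nd (nat_lit 78) (nat_lit 1444) (nat_lit 0) (XT.lf (nat_lit 0) (nat_lit 674069595) (nat_lit 1444) (nat_lit 2847522576) (nat_lit 76) (nat_lit 4163100629) (nat_lit 604) (nat_lit 5) (nat_lit 623) (nat_lit 5) (nat_lit 605) (nat_lit 5) (nat_lit 557) (nat_lit 532) (nat_lit 471)) (XT.lf (nat_lit 0) (nat_lit 1694957981) (nat_lit 1444) (nat_lit 972144868) (nat_lit 1520) (nat_lit 5073330800) (nat_lit 585) (nat_lit 5) (nat_lit 604) (nat_lit 5) (nat_lit 605) (nat_lit 5) (nat_lit 558) (nat_lit 532) (nat_lit 470))) (XT.nd (nat_lit 78) (nat_lit 3192) (nat_lit 0) (XT.lf (nat_lit 0) (nat_lit 4691477592) (nat_lit 1520) (nat_lit 1472690788) (nat_lit 76) (nat_lit 1633292671) (nat_lit 585) (nat_lit 5) (nat_lit 605) (nat_lit 5) (nat_lit 586) (nat_lit 5) (nat_lit 559) (nat_lit 532) (nat_lit 469)) (XT.nd (nat_lit 78) (nat_lit 1672) (nat_lit 0)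 (XT.lf (nat_lit 0) (nat_lit 3195678329) (nat_lit 1520) (nat_lit 3550273455) (nat_lit 1596) (nat_lit 1109886306) (nat_lit 565) (nat_lit 5) (nat_lit 585) (nat_lit 5) (nat_lit 586) (nat_lit 5) (nat_lit 560) (nat_lit 532) (nat_lit 468)) (XT.lf (nat_lit 0) (nat_lit 24803420) (nat_lit 1596) (nat_lit 862005433) (nat_lit 1672) (nat_lit 7028998382) (nat_lit 543) (nat_lit 5) (nat_lit 564) (nat_lit 5) (nat_lit 565) (nat_lit 5) (nat_lit 561) (nat_lit 532) (nat_lit 467)))))) (XT.nd (nat_lit 390) (nat_lit 3040) (nat_lit 0) (XT.nd (nat_lit 156) (nat_lit 3648) (nat_lit 0) (XT.nd (nat_lit 78) (nat_lit 1672) (nat_lit 0) (XT.lf (nat_lit 0) (nat_lit 2915551166) (nat_lit 1672) (nat_lit 3161677304) (nat_lit 76) (nat_lit 1899462325) (nat_lit 543) (nat_lit 5) (nat_lit 565) (nat_lit 5) (nat_lit 544) (nat_lit 5) (nat_lit 562) (nat_lit 532) (nat_lit 466)) (XT.lf (nat_lit 0) (nat_lit 1646554486) (nat_lit 1672) (nat_lit 3318708223) (nat_lit 1748) (nat_lit 3073922654) (nat_lit 521) (nat_lit 5) (nat_lit 543) (nat_lit 5) (nat_lit 544)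 (nat_lit 5) (nat_lit 563) (nat_lit 532) (nat_lit 465))) (XT.nd (nat_lit 78) (nat_lit 3648) (nat_lit 0) (XT.lf (nat_lit 0) (nat_lit 6562448498) (nat_lit 1672) (nat_lit 479234089) (nat_lit 1748) (nat_lit 1061534158) (nat_lit 521) (nat_lit 5) (nat_lit 543) (nat_lit 5) (nat_lit 544) (nat_lit 5) (nat_lit 564) (nat_lit 532) (nat_lit 464)) (XT.nd (nat_lit 78) (nat_lit 1824) (nat_lit 0) (XT.lf (nat_lit 0) (nat_lit 981147176) (nat_lit 1824) (nat_lit 4769288714) (nat_lit 76) (nat_lit 2417904451) (nat_lit 497) (nat_lit 5) (nat_lit 521) (nat_lit 5) (nat_lit 498) (nat_lit 5) (nat_lit 565) (nat_lit 532) (nat_lit 463)) (XT.lf (nat_lit 0) (nat_lit 184418708) (nat_lit 1824) (nat_lit 2846312485) (nat_lit 1900) (nat_lit 5204290753) (nat_lit 473) (nat_lit 5) (nat_lit 497) (nat_lit 5) (nat_lit 498) (nat_lit 5) (nat_lit 566) (nat_lit 532) (nat_lit 462))))) (XT.nd (nat_lit 234) (nat_lit 1824) (nat_lit 0) (XT.nd (nat_lit 78) (nat_lit 1216) (nat_lit 0) (XT.lf (nat_lit 0) (nat_lit 5120235463) (nat_lit 1900) (nat_lit 3033723866) (nat_lit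 76) (nat_lit 149100395) (nat_lit 473) (nat_lit 5) (nat_lit 498) (nat_lit 5) (nat_lit 474) (nat_lit 5) (nat_lit 567) (nat_lit 532) (nat_lit 461)) (XT.nd (nat_lit 78) (nat_lit 76) (nat_lit 0) (XT.lf (nat_lit 0) (nat_lit 2060081677) (nat_lit 1140) (nat_lit 5190300492) (nat_lit 1216) (nat_lit 1122100130) (nat_lit 458) (nat_lit 5) (nat_lit 473) (nat_lit 5) (nat_lit 474) (nat_lit 5) (nat_lit 568) (nat_lit 532) (nat_lit 460)) (XT.lf (nat_lit 0) (nat_lit 954339211) (nat_lit 1216) (nat_lit 1184310212) (nat_lit 76) (nat_lit 6304770684) (nat_lit 457) (nat_lit 5) (nat_lit 473) (nat_lit 5) (nat_lit 458) (nat_lit 5) (nat_lit 569) (nat_lit 532) (nat_lit 459)))) (XT.nd (nat_lit 78) (nat_lit 912) (nat_lit 0) (XT.lf (nat_lit 0) (nat_lit 3057728014) (nat_lit 988) (nat_lit 4461326467) (nat_lit 76) (nat_lit 996565963) (nat_lit 445) (nat_lit 5) (nat_lit 458) (nat_lit 5) (nat_lit 446) (nat_lit 5) (nat_lit 570) (nat_lit 532) (nat_lit 458)) (XT.nd (nat_lit 78) (nat_lit 0) (nat_lit 0) (XT.lf (nat_lit 0) (nat_lit 789117803) (nat_lit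 912) (nat_lit 4409304958) (nat_lit 988) (nat_lit 3390938270) (nat_lit 433) (nat_lit 5) (nat_lit 445) (nat_lit 5) (nat_lit 446) (nat_lit 5) (nat_lit 571) (nat_lit 532) (nat_lit 457)) (XT.lf (nat_lit 0) (nat_lit 6173619739) (nat_lit 912) (nat_lit 1206625353) (nat_lit 988) (nat_lit 1284366049) (nat_lit 433) (nat_lit 5) (nat_lit 445) (nat_lit 5) (nat_lit 446) (nat_lit 5) (nat_lit 572) (nat_lit 532) (nat_lit 456))))))))
noncomputable def xc94 : XT := (XT.nd (nat_lit 1560) (nat_lit 7296) (nat_lit 0) (XT.nd (nat_lit 780) (nat_lit 5016) (nat_lit 0) (XT.nd (nat_lit 390) (nat_lit 2432) (nat_lit 0) (XT.nd (nat_lit 156) (nat_lit 1824) (nat_lit 0) (XT.nd (nat_lit 78) (nat_lit 0) (nat_lit 0) (XT.lf (nat_lit 0) (nat_lit 854327204) (nat_lit 912) (nat_lit 5829054492) (nat_lit 76) (nat_lit 2057846759) (nat_lit 421) (nat_lit 5) (nat_lit 433) (nat_lit 5) (nat_lit 422) (nat_lit 5) (nat_lit 573) (nat_lit 532) (nat_lit 455)) (XT.lf (nat_lit 0) (nat_lit 3012628979) (nat_lit 912) (nat_lit 410117719) (nat_lit 76) (nat_lit 5396581906)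 (nat_lit 421) (nat_lit 5) (nat_lit 433) (nat_lit 5) (nat_lit 422) (nat_lit 5) (nat_lit 574) (nat_lit 532) (nat_lit 454))) (XT.nd (nat_lit 78) (nat_lit 912) (nat_lit 0) (XT.lf (nat_lit 0) (nat_lit 5153775510) (nat_lit 912) (nat_lit 63585736) (nat_lit 988) (nat_lit 3681565134) (nat_lit 409) (nat_lit 5) (nat_lit 421) (nat_lit 5) (nat_lit 422) (nat_lit 5) (nat_lit 575) (nat_lit 532) (nat_lit 453)) (XT.nd (nat_lit 78) (nat_lit 76) (nat_lit 0) (XT.lf (nat_lit 0) (nat_lit 1825128803) (nat_lit 836) (nat_lit 5647701147) (nat_lit 912) (nat_lit 1507154218) (nat_lit 398) (nat_lit 5) (nat_lit 409) (nat_lit 5) (nat_lit 410) (nat_lit 5) (nat_lit 576) (nat_lit 532) (nat_lit 452)) (XT.lf (nat_lit 0) (nat_lit 697517335) (nat_lit 912) (nat_lit 1541371428) (nat_lit 76) (nat_lit 6823761034) (nat_lit 397) (nat_lit 5) (nat_lit 409) (nat_lit 5) (nat_lit 398) (nat_lit 5) (nat_lit 577) (nat_lit 532) (nat_lit 451))))) (XT.nd (nat_lit 156) (nat_lit 836) (nat_lit 0) (XT.nd (nat_lit 78) (nat_lit 760) (nat_lit 0) (XT.lf (nat_lit 0) (nat_lit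 2932607887) (nat_lit 912) (nat_lit 4956583277) (nat_lit 76) (nat_lit 1257449046) (nat_lit 386) (nat_lit 5) (nat_lit 398) (nat_lit 5) (nat_lit 387) (nat_lit 5) (nat_lit 578) (nat_lit 532) (nat_lit 450)) (XT.lf (nat_lit 0) (nat_lit 789029718) (nat_lit 760) (nat_lit 4425043986) (nat_lit 836) (nat_lit 4018204083) (nat_lit 376) (nat_lit 5) (nat_lit 386) (nat_lit 5) (nat_lit 387) (nat_lit 5) (nat_lit 579) (nat_lit 532) (nat_lit 449))) (XT.nd (nat_lit 78) (nat_lit 836) (nat_lit 0) (XT.lf (nat_lit 0) (nat_lit 6685621898) (nat_lit 760) (nat_lit 860480243) (nat_lit 836) (nat_lit 1773428116) (nat_lit 376) (nat_lit 5) (nat_lit 386) (nat_lit 5) (nat_lit 387) (nat_lit 5) (nat_lit 580) (nat_lit 532) (nat_lit 448)) (XT.nd (nat_lit 78) (nat_lit 0) (nat_lit 0) (XT.lf (nat_lit 0) (nat_lit 521110359) (nat_lit 836) (nat_lit 6126084470) (nat_lit 76) (nat_lit 2761033938) (nat_lit 365) (nat_lit 5) (nat_lit 376) (nat_lit 5) (nat_lit 366) (nat_lit 5) (nat_lit 581) (nat_lit 532) (nat_lit 447)) (XT.lf (nat_lit 0) (nat_lit 2833677918)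 (nat_lit 836) (nat_lit 194899350) (nat_lit 76) (nat_lit 6469972605) (nat_lit 365) (nat_lit 5) (nat_lit 376) (nat_lit 5) (nat_lit 366) (nat_lit 5) (nat_lit 582) (nat_lit 532) (nat_lit 446)))))) (XT.nd (nat_lit 390) (nat_lit 2052) (nat_lit 0) (XT.nd (nat_lit 156) (nat_lit 1444) (nat_lit 0) (XT.nd (nat_lit 78) (nat_lit 760) (nat_lit 0) (XT.lf (nat_lit 0) (nat_lit 5208259953) (nat_lit 836) (nat_lit 3693274579) (nat_lit 76) (nat_lit 688828353) (nat_lit 355) (nat_lit 5) (nat_lit 366) (nat_lit 5) (nat_lit 356) (nat_lit 5) (nat_lit 583) (nat_lit 532) (nat_lit 445)) (XT.lf (nat_lit 0) (nat_lit 2410204882) (nat_lit 760) (nat_lit 5230374332) (nat_lit 836) (nat_lit 2043228765) (nat_lit 345) (nat_lit 5) (nat_lit 355) (nat_lit 5) (nat_lit 356) (nat_lit 5) (nat_lit 584) (nat_lit 532) (nat_lit 444))) (XT.nd (nat_lit 78) (nat_lit 1368) (nat_lit 0) (XT.lf (nat_lit 0) (nat_lit 336253261) (nat_lit 836) (nat_lit 1126259168) (nat_lit 76) (nat_lit 8316599360) (nat_lit 344) (nat_lit 5) (nat_lit 355) (nat_lit 5) (nat_lit 345) (nat_lit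 5) (nat_lit 585) (nat_lit 532) (nat_lit 443)) (XT.nd (nat_lit 78) (nat_lit 684) (nat_lit 0) (XT.lf (nat_lit 0) (nat_lit 2759180770) (nat_lit 760) (nat_lit 4723819890) (nat_lit 76) (nat_lit 2392587296) (nat_lit 335) (nat_lit 5) (nat_lit 345) (nat_lit 5) (nat_lit 336) (nat_lit 5) (nat_lit 586) (nat_lit 532) (nat_lit 442)) (XT.lf (nat_lit 0) (nat_lit 1576986196) (nat_lit 684) (nat_lit 3655294732) (nat_lit 760) (nat_lit 4741679115) (nat_lit 326) (nat_lit 5) (nat_lit 335) (nat_lit 5) (nat_lit 336) (nat_lit 5) (nat_lit 587) (nat_lit 532) (nat_lit 441))))) (XT.nd (nat_lit 156) (nat_lit 1292) (nat_lit 0) (XT.nd (nat_lit 78) (nat_lit 760) (nat_lit 0) (XT.lf (nat_lit 0) (nat_lit 7762825998) (nat_lit 760) (nat_lit 2038667706) (nat_lit 76) (nat_lit 272646873) (nat_lit 326) (nat_lit 5) (nat_lit 336) (nat_lit 5) (nat_lit 327) (nat_lit 5) (nat_lit 588) (nat_lit 532) (nat_lit 440)) (XT.lf (nat_lit 0) (nat_lit 193704867) (nat_lit 760) (nat_lit 5726479933) (nat_lit 76) (nat_lit 4255553858) (nat_lit 316) (nat_lit 5) (nat_lit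 326) (nat_lit 5) (nat_lit 317) (nat_lit 5) (nat_lit 589) (nat_lit 532) (nat_lit 439))) (XT.nd (nat_lit 78) (nat_lit 608) (nat_lit 0) (XT.lf (nat_lit 0) (nat_lit 779772583) (nat_lit 684) (nat_lit 1932054902) (nat_lit 760) (nat_lit 7567357262) (nat_lit 307) (nat_lit 5) (nat_lit 316) (nat_lit 5) (nat_lit 317) (nat_lit 5) (nat_lit 590) (nat_lit 532) (nat_lit 438)) (XT.nd (nat_lit 78) (nat_lit 608) (nat_lit 0) (XT.lf (nat_lit 0) (nat_lit 5308204778) (nat_lit 760) (nat_lit 2935074060) (nat_lit 76) (nat_lit 2140863686) (nat_lit 307) (nat_lit 5) (nat_lit 317) (nat_lit 5) (nat_lit 308) (nat_lit 5) (nat_lit 591) (nat_lit 532) (nat_lit 437)) (XT.lf (nat_lit 0) (nat_lit 3766968852) (nat_lit 608) (nat_lit 4202619733) (nat_lit 684) (nat_lit 2521349894) (nat_lit 299) (nat_lit 5) (nat_lit 307) (nat_lit 5) (nat_lit 308) (nat_lit 5) (nat_lit 592) (nat_lit 532) (nat_lit 436))))))) (XT.nd (nat_lit 780) (nat_lit 3572) (nat_lit 0) (XT.nd (nat_lit 390) (nat_lit 1748) (nat_lit 0) (XT.nd (nat_lit 156) (nat_lit 1292) (nat_lit 0)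 (XT.nd (nat_lit 78) (nat_lit 0) (nat_lit 0) (XT.lf (nat_lit 0) (nat_lit 12535363) (nat_lit 608) (nat_lit 66542748) (nat_lit 684) (nat_lit 10520864783) (nat_lit 290) (nat_lit 5) (nat_lit 298) (nat_lit 5) (nat_lit 299) (nat_lit 5) (nat_lit 593) (nat_lit 532) (nat_lit 435)) (XT.lf (nat_lit 0) (nat_lit 2746346410) (nat_lit 684) (nat_lit 3809813544) (nat_lit 76) (nat_lit 4153662834) (nat_lit 290) (nat_lit 5) (nat_lit 299) (nat_lit 5) (nat_lit 291) (nat_lit 5) (nat_lit 594) (nat_lit 532) (nat_lit 434))) (XT.nd (nat_lit 78) (nat_lit 684) (nat_lit 0) (XT.lf (nat_lit 0) (nat_lit 3113779904) (nat_lit 608) (nat_lit 2350486260) (nat_lit 684) (nat_lit 5357688550) (nat_lit 282) (nat_lit 5) (nat_lit 290) (nat_lit 5) (nat_lit 291) (nat_lit 5) (nat_lit 595) (nat_lit 532) (nat_lit 433)) (XT.nd (nat_lit 78) (nat_lit 684) (nat_lit 0) (XT.lf (nat_lit 0) (nat_lit 8251740808) (nat_lit 684) (nat_lit 751261733) (nat_lit 76) (nat_lit 1933023352) (nat_lit 282) (nat_lit 5) (nat_lit 291) (nat_lit 5) (nat_lit 283) (nat_lit 5) (nat_lit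 596) (nat_lit 532) (nat_lit 432)) (XT.lf (nat_lit 0) (nat_lit 76589559) (nat_lit 684) (nat_lit 4668833680) (nat_lit 76) (nat_lit 6306259017) (nat_lit 273) (nat_lit 5) (nat_lit 282) (nat_lit 5) (nat_lit 274) (nat_lit 5) (nat_lit 597) (nat_lit 532) (nat_lit 431))))) (XT.nd (nat_lit 156) (nat_lit 1216) (nat_lit 0) (XT.nd (nat_lit 78) (nat_lit 0) (nat_lit 0) (XT.lf (nat_lit 0) (nat_lit 2485373986) (nat_lit 532) (nat_lit 370038643) (nat_lit 608) (nat_lit 8313911299) (nat_lit 266) (nat_lit 5) (nat_lit 273) (nat_lit 5) (nat_lit 274) (nat_lit 5) (nat_lit 598) (nat_lit 532) (nat_lit 430)) (XT.lf (nat_lit 0) (nat_lit 5725556516) (nat_lit 608) (nat_lit 1499410572) (nat_lit 76) (nat_lit 4063636960) (nat_lit 266) (nat_lit 5) (nat_lit 274) (nat_lit 5) (nat_lit 267) (nat_lit 5) (nat_lit 599) (nat_lit 532) (nat_lit 429))) (XT.nd (nat_lit 78) (nat_lit 608) (nat_lit 0) (XT.lf (nat_lit 0) (nat_lit 5874104211) (nat_lit 608) (nat_lit 2797659826) (nat_lit 684) (nat_lit 2738133012) (nat_lit 258) (nat_lit 5) (nat_lit 266) (nat_lit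 5) (nat_lit 267) (nat_lit 5) (nat_lit 600) (nat_lit 532) (nat_lit 428)) (XT.nd (nat_lit 78) (nat_lit 0) (nat_lit 0) (XT.lf (nat_lit 0) (nat_lit 153139551) (nat_lit 608) (nat_lit 9668641736) (nat_lit 76) (nat_lit 1711581714) (nat_lit 250) (nat_lit 5) (nat_lit 258) (nat_lit 5) (nat_lit 251) (nat_lit 5) (nat_lit 601) (nat_lit 532) (nat_lit 427)) (XT.lf (nat_lit 0) (nat_lit 3099887301) (nat_lit 608) (nat_lit 2236769394) (nat_lit 76) (nat_lit 6321593793) (nat_lit 250) (nat_lit 5) (nat_lit 258) (nat_lit 5) (nat_lit 251) (nat_lit 5) (nat_lit 602) (nat_lit 532) (nat_lit 426)))))) (XT.nd (nat_lit 390) (nat_lit 1520) (nat_lit 0) (XT.nd (nat_lit 156) (nat_lit 1064) (nat_lit 0) (XT.nd (nat_lit 78) (nat_lit 456) (nat_lit 0) (XT.lf (nat_lit 0) (nat_lit 5385358602) (nat_lit 532) (nat_lit 733958504) (nat_lit 608) (nat_lit 5666044133) (nat_lit 243) (nat_lit 5) (nat_lit 250) (nat_lit 5) (nat_lit 251) (nat_lit 5) (nat_lit 603) (nat_lit 532) (nat_lit 425)) (XT.lf (nat_lit 0) (nat_lit 1236749584) (nat_lit 456) (nat_lit 7990200980)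 (nat_lit 532) (nat_lit 2687507788) (nat_lit 237) (nat_lit 5) (nat_lit 243) (nat_lit 5) (nat_lit 244) (nat_lit 5) (nat_lit 604) (nat_lit 532) (nat_lit 424))) (XT.nd (nat_lit 78) (nat_lit 988) (nat_lit 0) (XT.lf (nat_lit 0) (nat_lit 373139412) (nat_lit 532) (nat_lit 2968986396) (nat_lit 76) (nat_lit 8703423734) (nat_lit 236) (nat_lit 5) (nat_lit 243) (nat_lit 5) (nat_lit 237) (nat_lit 5) (nat_lit 605) (nat_lit 532) (nat_lit 423)) (XT.nd (nat_lit 78) (nat_lit 456) (nat_lit 0) (XT.lf (nat_lit 0) (nat_lit 3479753771) (nat_lit 608) (nat_lit 7276209986) (nat_lit 76) (nat_lit 1422529134) (nat_lit 229) (nat_lit 5) (nat_lit 237) (nat_lit 5) (nat_lit 230) (nat_lit 5) (nat_lit 606) (nat_lit 532) (nat_lit 422)) (XT.lf (nat_lit 0) (nat_lit 614451790) (nat_lit 456) (nat_lit 6059847963) (nat_lit 532) (nat_lit 5639279779) (nat_lit 223) (nat_lit 5) (nat_lit 229) (nat_lit 5) (nat_lit 230) (nat_lit 5) (nat_lit 607) (nat_lit 532) (nat_lit 421))))) (XT.nd (nat_lit 234) (nat_lit 988) (nat_lit 0) (XT.nd (nat_lit 78) (nat_lit 532)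 (nat_lit 0) (XT.lf (nat_lit 0) (nat_lit 8732879689) (nat_lit 456) (nat_lit 1228518772) (nat_lit 532) (nat_lit 2489396614) (nat_lit 223) (nat_lit 5) (nat_lit 229) (nat_lit 5) (nat_lit 230) (nat_lit 5) (nat_lit 608) (nat_lit 532) (nat_lit 420)) (XT.nd (nat_lit 78) (nat_lit 0) (nat_lit 0) (XT.lf (nat_lit 0) (nat_lit 747161340) (nat_lit 532) (nat_lit 8166486324) (nat_lit 76) (nat_lit 3676350391) (nat_lit 216) (nat_lit 5) (nat_lit 223) (nat_lit 5) (nat_lit 217) (nat_lit 5) (nat_lit 609) (nat_lit 532) (nat_lit 419)) (XT.lf (nat_lit 0) (nat_lit 4028649544) (nat_lit 532) (nat_lit 6641551) (nat_lit 76) (nat_lit 8696094641) (nat_lit 216) (nat_lit 5) (nat_lit 223) (nat_lit 5) (nat_lit 217) (nat_lit 5) (nat_lit 610) (nat_lit 532) (nat_lit 418)))) (XT.nd (nat_lit 78) (nat_lit 532) (nat_lit 0) (XT.lf (nat_lit 0) (nat_lit 7417346966) (nat_lit 532) (nat_lit 4482735180) (nat_lit 76) (nat_lit 974687809) (nat_lit 210) (nat_lit 5) (nat_lit 217) (nat_lit 5) (nat_lit 211) (nat_lit 5) (nat_lit 611) (nat_lit 532) (nat_lit 417))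 (XT.nd (nat_lit 78) (nat_lit 76) (nat_lit 0) (XT.lf (nat_lit 0) (nat_lit 3934514397) (nat_lit 456) (nat_lit 6972399187) (nat_lit 532) (nat_lit 2113446737) (nat_lit 204) (nat_lit 5) (nat_lit 210) (nat_lit 5) (nat_lit 211) (nat_lit 5) (nat_lit 612) (nat_lit 532) (nat_lit 416)) (XT.lf (nat_lit 0) (nat_lit 1291524288) (nat_lit 532) (nat_lit 624197036) (nat_lit 76) (nat_lit 11252750428) (nat_lit 203) (nat_lit 5) (nat_lit 210) (nat_lit 5) (nat_lit 204) (nat_lit 5) (nat_lit 613) (nat_lit 532) (nat_lit 415))))))))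
noncomputable def xc95 : XT := (XT.nd (nat_lit 76128) (nat_lit 0) (nat_lit 20596) (XT.nd (nat_lit 75348) (nat_lit 0) (nat_lit 36784) (XT.nd (nat_lit 74958) (nat_lit 0) (nat_lit 38836) (XT.nd (nat_lit 156) (nat_lit 456) (nat_lit 0) (XT.nd (nat_lit 78) (nat_lit 456) (nat_lit 0) (XT.lf (nat_lit 0) (nat_lit 4791381563) (nat_lit 456) (nat_lit 5269119663) (nat_lit 76) (nat_lit 3257663417) (nat_lit 198) (nat_lit 5) (nat_lit 204) (nat_lit 5) (nat_lit 199) (nat_lit 5) (nat_lit 614) (nat_lit 532) (nat_lit 414)) (XT.lf (nat_lit 0) (nat_lit 3438054544) (nat_lit 456) (nat_lit 4943764960) (nat_lit 532) (nat_lit 5088620555) (nat_lit 192) (nat_lit 5) (nat_lit 198) (nat_lit 5) (nat_lit 199) (nat_lit 5) (nat_lit 615) (nat_lit 532) (nat_lit 413))) (XT.nd (nat_lit 78) (nat_lit 456) (nat_lit 0) (XT.lf (nat_lit 0) (nat_lit 12062931630) (nat_lit 532) (nat_lit 1264173300) (nat_lit 76) (nat_lit 298279078) (nat_lit 192) (nat_lit 5) (nat_lit 199) (nat_lit 5) (nat_lit 193) (nat_lit 5) (nat_lit 616) (nat_lit 532) (nat_lit 412)) (XT.nd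 (nat_lit 74646) (nat_lit 0) (nat_lit 40736) (XT.lf (nat_lit 0) (nat_lit 2072703511) (nat_lit 456) (nat_lit 6075196814) (nat_lit 76) (nat_lit 5633959801) (nat_lit 186) (nat_lit 5) (nat_lit 192) (nat_lit 5) (nat_lit 187) (nat_lit 5) (nat_lit 617) (nat_lit 532) (nat_lit 411)) (XT.lf (nat_lit 0) (nat_lit 877708852) (nat_lit 0) (nat_lit 877708852) (nat_lit 836) (nat_lit 1626024910) (nat_lit 722) (nat_lit 5) (nat_lit 722) (nat_lit 3) (nat_lit 733) (nat_lit 3) (nat_lit 533) (nat_lit 533) (nat_lit 494))))) (XT.nd (nat_lit 156) (nat_lit 988) (nat_lit 0) (XT.nd (nat_lit 78) (nat_lit 912) (nat_lit 0) (XT.lf (nat_lit 0) (nat_lit 5165319310) (nat_lit 0) (nat_lit 486680205) (nat_lit 836) (nat_lit 1136299943) (nat_lit 722) (nat_lit 5) (nat_lit 722) (nat_lit 3) (nat_lit 733) (nat_lit 3) (nat_lit 534) (nat_lit 533) (nat_lit 493)) (XT.lf (nat_lit 0) (nat_lit 970098787) (nat_lit 912) (nat_lit 5002465006) (nat_lit 988) (nat_lit 842293215) (nat_lit 710) (nat_lit 5) (nat_lit 722) (nat_lit 5) (nat_lit 723) (nat_lit 5) (nat_lit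 535) (nat_lit 533) (nat_lit 492))) (XT.nd (nat_lit 78) (nat_lit 988) (nat_lit 0) (XT.lf (nat_lit 0) (nat_lit 3063079721) (nat_lit 912) (nat_lit 1543521510) (nat_lit 988) (nat_lit 2236003228) (nat_lit 710) (nat_lit 5) (nat_lit 722) (nat_lit 5) (nat_lit 723) (nat_lit 5) (nat_lit 536) (nat_lit 533) (nat_lit 491)) (XT.nd (nat_lit 78) (nat_lit 988) (nat_lit 0) (XT.lf (nat_lit 76) (nat_lit 1981724066) (nat_lit 0) (nat_lit 3175600952) (nat_lit 988) (nat_lit 1714396060) (nat_lit 711) (nat_lit 5) (nat_lit 710) (nat_lit 5) (nat_lit 723) (nat_lit 5) (nat_lit 537) (nat_lit 533) (nat_lit 490)) (XT.lf (nat_lit 0) (nat_lit 344369592) (nat_lit 988) (nat_lit 1334812867) (nat_lit 1064) (nat_lit 5223039363) (nat_lit 697) (nat_lit 5) (nat_lit 710) (nat_lit 5) (nat_lit 711) (nat_lit 5) (nat_lit 538) (nat_lit 533) (nat_lit 489)))))) (XT.nd (nat_lit 390) (nat_lit 1064) (nat_lit 0) (XT.nd (nat_lit 156) (nat_lit 988) (nat_lit 0) (XT.nd (nat_lit 78) (nat_lit 0) (nat_lit 76) (XT.lf (nat_lit 76) (nat_lit 2281232825) (nat_lit 0) (nat_lit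 103042523) (nat_lit 1064) (nat_lit 4549574357) (nat_lit 698) (nat_lit 5) (nat_lit 697) (nat_lit 5) (nat_lit 711) (nat_lit 5) (nat_lit 539) (nat_lit 533) (nat_lit 488)) (XT.lf (nat_lit 0) (nat_lit 4432830571) (nat_lit 988) (nat_lit 1017853494) (nat_lit 1064) (nat_lit 1516071190) (nat_lit 698) (nat_lit 5) (nat_lit 711) (nat_lit 5) (nat_lit 712) (nat_lit 5) (nat_lit 540) (nat_lit 533) (nat_lit 487))) (XT.nd (nat_lit 78) (nat_lit 1064) (nat_lit 0) (XT.lf (nat_lit 76) (nat_lit 2695065744) (nat_lit 0) (nat_lit 3795536160) (nat_lit 1064) (nat_lit 510354205) (nat_lit 699) (nat_lit 5) (nat_lit 698) (nat_lit 5) (nat_lit 712) (nat_lit 5) (nat_lit 541) (nat_lit 533) (nat_lit 486)) (XT.nd (nat_lit 78) (nat_lit 0) (nat_lit 0) (XT.lf (nat_lit 0) (nat_lit 1490714089) (nat_lit 1064) (nat_lit 579467172) (nat_lit 1140) (nat_lit 4966311913) (nat_lit 684) (nat_lit 5) (nat_lit 698) (nat_lit 5) (nat_lit 699) (nat_lit 5) (nat_lit 542) (nat_lit 533) (nat_lit 485)) (XT.lf (nat_lit 76) (nat_lit 3231396142) (nat_lit 0) (nat_lit 266058497)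 (nat_lit 1140) (nat_lit 3575771155) (nat_lit 685) (nat_lit 5) (nat_lit 684) (nat_lit 5) (nat_lit 699) (nat_lit 5) (nat_lit 543) (nat_lit 533) (nat_lit 484))))) (XT.nd (nat_lit 156) (nat_lit 0) (nat_lit 0) (XT.nd (nat_lit 78) (nat_lit 1140) (nat_lit 0) (XT.lf (nat_lit 0) (nat_lit 5510848196) (nat_lit 1064) (nat_lit 24506422) (nat_lit 1140) (nat_lit 1576010018) (nat_lit 685) (nat_lit 5) (nat_lit 699) (nat_lit 5) (nat_lit 700) (nat_lit 5) (nat_lit 544) (nat_lit 533) (nat_lit 483)) (XT.lf (nat_lit 0) (nat_lit 389007576) (nat_lit 1140) (nat_lit 3264203113) (nat_lit 1216) (nat_lit 3497399693) (nat_lit 670) (nat_lit 5) (nat_lit 685) (nat_lit 5) (nat_lit 686) (nat_lit 5) (nat_lit 545) (nat_lit 533) (nat_lit 482))) (XT.nd (nat_lit 78) (nat_lit 0) (nat_lit 76) (XT.lf (nat_lit 76) (nat_lit 653390432) (nat_lit 0) (nat_lit 1701665317) (nat_lit 1216) (nat_lit 4836212235) (nat_lit 671) (nat_lit 5) (nat_lit 670) (nat_lit 5) (nat_lit 686) (nat_lit 5) (nat_lit 546) (nat_lit 533) (nat_lit 481)) (XT.nd (nat_lit 78) (nat_lit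 0) (nat_lit 0) (XT.lf (nat_lit 0) (nat_lit 4338905327) (nat_lit 1140) (nat_lit 2571370637) (nat_lit 1216) (nat_lit 322894953) (nat_lit 671) (nat_lit 5) (nat_lit 686) (nat_lit 5) (nat_lit 687) (nat_lit 5) (nat_lit 547) (nat_lit 533) (nat_lit 480)) (XT.lf (nat_lit 76) (nat_lit 1452211652) (nat_lit 0) (nat_lit 4886364403) (nat_lit 1216) (nat_lit 937814721) (nat_lit 672) (nat_lit 5) (nat_lit 671) (nat_lit 5) (nat_lit 687) (nat_lit 5) (nat_lit 548) (nat_lit 533) (nat_lit 479))))))) (XT.nd (nat_lit 780) (nat_lit 11172) (nat_lit 0) (XT.nd (nat_lit 390) (nat_lit 2660) (nat_lit 0) (XT.nd (nat_lit 156) (nat_lit 1216) (nat_lit 0) (XT.nd (nat_lit 78) (nat_lit 0) (nat_lit 0) (XT.lf (nat_lit 0) (nat_lit 1017095693) (nat_lit 1216) (nat_lit 1766413249) (nat_lit 1292) (nat_lit 4537366354) (nat_lit 655) (nat_lit 5) (nat_lit 671) (nat_lit 5) (nat_lit 672) (nat_lit 5) (nat_lit 549) (nat_lit 533) (nat_lit 478)) (XT.lf (nat_lit 76) (nat_lit 2367521714) (nat_lit 0) (nat_lit 603108311) (nat_lit 1292) (nat_lit 4396055492) (nat_lit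 656) (nat_lit 5) (nat_lit 655) (nat_lit 5) (nat_lit 672) (nat_lit 5) (nat_lit 550) (nat_lit 533) (nat_lit 477))) (XT.nd (nat_lit 78) (nat_lit 1292) (nat_lit 0) (XT.lf (nat_lit 0) (nat_lit 4943131999) (nat_lit 1216) (nat_lit 846266527) (nat_lit 1292) (nat_lit 1624417096) (nat_lit 656) (nat_lit 5) (nat_lit 672) (nat_lit 5) (nat_lit 673) (nat_lit 5) (nat_lit 551) (nat_lit 533) (nat_lit 476)) (XT.nd (nat_lit 78) (nat_lit 1292) (nat_lit 0) (XT.lf (nat_lit 76) (nat_lit 3400321042) (nat_lit 0) (nat_lit 3539109626) (nat_lit 1292) (nat_lit 522772314) (nat_lit 657) (nat_lit 5) (nat_lit 656) (nat_lit 5) (nat_lit 673) (nat_lit 5) (nat_lit 552) (nat_lit 533) (nat_lit 475)) (XT.lf (nat_lit 76) (nat_lit 194551727) (nat_lit 0) (nat_lit 1215949787) (nat_lit 1368) (nat_lit 6101555859) (nat_lit 640) (nat_lit 5) (nat_lit 639) (nat_lit 5) (nat_lit 657) (nat_lit 5) (nat_lit 553) (nat_lit 533) (nat_lit 474))))) (XT.nd (nat_lit 156) (nat_lit 1444) (nat_lit 0) (XT.nd (nat_lit 78) (nat_lit 1292) (nat_lit 0) (XT.lf (nat_lit 0) (nat_lit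 3369686965) (nat_lit 1292) (nat_lit 3013332515) (nat_lit 76) (nat_lit 1179936835) (nat_lit 640) (nat_lit 5) (nat_lit 657) (nat_lit 5) (nat_lit 641) (nat_lit 5) (nat_lit 554) (nat_lit 533) (nat_lit 473)) (XT.lf (nat_lit 0) (nat_lit 1356257258) (nat_lit 1292) (nat_lit 3988766285) (nat_lit 1368) (nat_lit 2270311809) (nat_lit 623) (nat_lit 5) (nat_lit 640) (nat_lit 5) (nat_lit 641) (nat_lit 5) (nat_lit 555) (nat_lit 533) (nat_lit 472))) (XT.nd (nat_lit 78) (nat_lit 1444) (nat_lit 0) (XT.lf (nat_lit 0) (nat_lit 5823883624) (nat_lit 1292) (nat_lit 1516899415) (nat_lit 1368) (nat_lit 328362047) (nat_lit 623) (nat_lit 5) (nat_lit 640) (nat_lit 5) (nat_lit 641) (nat_lit 5) (nat_lit 556) (nat_lit 533) (nat_lit 471)) (XT.nd (nat_lit 78) (nat_lit 0) (nat_lit 0) (XT.lf (nat_lit 0) (nat_lit 1615936988) (nat_lit 1444) (nat_lit 5080270587) (nat_lit 76) (nat_lit 1027906602) (nat_lit 604) (nat_lit 5) (nat_lit 623) (nat_lit 5) (nat_lit 605) (nat_lit 5) (nat_lit 557) (nat_lit 533) (nat_lit 470)) (XT.lf (nat_lit 0) (nat_lit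 3579069110) (nat_lit 1444) (nat_lit 575241454) (nat_lit 76) (nat_lit 3626143154) (nat_lit 604) (nat_lit 5) (nat_lit 623) (nat_lit 5) (nat_lit 605) (nat_lit 5) (nat_lit 558) (nat_lit 533) (nat_lit 469)))))) (XT.nd (nat_lit 390) (nat_lit 6536) (nat_lit 0) (XT.nd (nat_lit 156) (nat_lit 1672) (nat_lit 0) (XT.nd (nat_lit 78) (nat_lit 1520) (nat_lit 0) (XT.lf (nat_lit 0) (nat_lit 4042764822) (nat_lit 1444) (nat_lit 1527525196) (nat_lit 1520) (nat_lit 2267854836) (nat_lit 585) (nat_lit 5) (nat_lit 604) (nat_lit 5) (nat_lit 605) (nat_lit 5) (nat_lit 559) (nat_lit 533) (nat_lit 468)) (XT.lf (nat_lit 0) (nat_lit 836755883) (nat_lit 1520) (nat_lit 6744538398) (nat_lit 1596) (nat_lit 316097655) (nat_lit 565) (nat_lit 5) (nat_lit 585) (nat_lit 5) (nat_lit 586) (nat_lit 5) (nat_lit 560) (nat_lit 533) (nat_lit 467))) (XT.nd (nat_lit 78) (nat_lit 1596) (nat_lit 0) (XT.lf (nat_lit 0) (nat_lit 1651929028) (nat_lit 1596) (nat_lit 2396506219) (nat_lit 76) (nat_lit 3909188534) (nat_lit 564) (nat_lit 5) (nat_lit 585) (nat_lit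 5) (nat_lit 565) (nat_lit 5) (nat_lit 561) (nat_lit 533) (nat_lit 466)) (XT.nd (nat_lit 78) (nat_lit 0) (nat_lit 0) (XT.lf (nat_lit 0) (nat_lit 2359348707) (nat_lit 1596) (nat_lit 1275218730) (nat_lit 1672) (nat_lit 4384862588) (nat_lit 543) (nat_lit 5) (nat_lit 564) (nat_lit 5) (nat_lit 565) (nat_lit 5) (nat_lit 562) (nat_lit 533) (nat_lit 465)) (XT.lf (nat_lit 0) (nat_lit 5647834235) (nat_lit 1672) (nat_lit 880485856) (nat_lit 76) (nat_lit 1554333994) (nat_lit 543) (nat_lit 5) (nat_lit 565) (nat_lit 5) (nat_lit 544) (nat_lit 5) (nat_lit 563) (nat_lit 533) (nat_lit 464))))) (XT.nd (nat_lit 234) (nat_lit 3040) (nat_lit 0) (XT.nd (nat_lit 78) (nat_lit 1824) (nat_lit 0) (XT.lf (nat_lit 0) (nat_lit 4008486721) (nat_lit 1672) (nat_lit 3692743884) (nat_lit 1748) (nat_lit 445915915) (nat_lit 521) (nat_lit 5) (nat_lit 543) (nat_lit 5) (nat_lit 544) (nat_lit 5) (nat_lit 564) (nat_lit 533) (nat_lit 463)) (XT.nd (nat_lit 78) (nat_lit 0) (nat_lit 0) (XT.lf (nat_lit 0) (nat_lit 763461084) (nat_lit 1748) (nat_lit 775100361)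 (nat_lit 1824) (nat_lit 6674631892) (nat_lit 497) (nat_lit 5) (nat_lit 520) (nat_lit 5) (nat_lit 521) (nat_lit 5) (nat_lit 565) (nat_lit 533) (nat_lit 462)) (XT.lf (nat_lit 0) (nat_lit 3565157120) (nat_lit 1824) (nat_lit 2508806864) (nat_lit 76) (nat_lit 2206371275) (nat_lit 497) (nat_lit 5) (nat_lit 521) (nat_lit 5) (nat_lit 498) (nat_lit 5) (nat_lit 566) (nat_lit 533) (nat_lit 461)))) (XT.nd (nat_lit 78) (nat_lit 1216) (nat_lit 0) (XT.lf (nat_lit 0) (nat_lit 2528475578) (nat_lit 1824) (nat_lit 3092170366) (nat_lit 1900) (nat_lit 2728407941) (nat_lit 473) (nat_lit 5) (nat_lit 497) (nat_lit 5) (nat_lit 498) (nat_lit 5) (nat_lit 567) (nat_lit 533) (nat_lit 460)) (XT.nd (nat_lit 78) (nat_lit 1216) (nat_lit 0) (XT.lf (nat_lit 0) (nat_lit 7670222045) (nat_lit 1824) (nat_lit 31123591) (nat_lit 1900) (nat_lit 718120292) (nat_lit 473) (nat_lit 5) (nat_lit 497) (nat_lit 5) (nat_lit 498) (nat_lit 5) (nat_lit 568) (nat_lit 533) (nat_lit 459)) (XT.lf (nat_lit 0) (nat_lit 1331771979) (nat_lit 1216) (nat_lit 4068503786)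 (nat_lit 76) (nat_lit 3090500998) (nat_lit 457) (nat_lit 5) (nat_lit 473) (nat_lit 5) (nat_lit 458) (nat_lit 5) (nat_lit 569) (nat_lit 533) (nat_lit 458))))))))
noncomputable def xc96 : XT := (XT.nd (nat_lit 1560) (nat_lit 7144) (nat_lit 0) (XT.nd (nat_lit 780) (nat_lit 5244) (nat_lit 0) (XT.nd (nat_lit 390) (nat_lit 2660) (nat_lit 0) (XT.nd (nat_lit 156) (nat_lit 1824) (nat_lit 0) (XT.nd (nat_lit 78) (nat_lit 0) (nat_lit 0) (XT.lf (nat_lit 0) (nat_lit 1123119499) (nat_lit 912) (nat_lit 2270640922) (nat_lit 988) (nat_lit 5170045184) (nat_lit 445) (nat_lit 5) (nat_lit 457) (nat_lit 5) (nat_lit 458) (nat_lit 5) (nat_lit 570) (nat_lit 533) (nat_lit 457)) (XT.lf (nat_lit 0) (nat_lit 5499034669) (nat_lit 988) (nat_lit 2201201979) (nat_lit 76) (nat_lit 938018442) (nat_lit 445) (nat_lit 5) (nat_lit 458) (nat_lit 5) (nat_lit 446) (nat_lit 5) (nat_lit 571) (nat_lit 533) (nat_lit 456))) (XT.nd (nat_lit 78) (nat_lit 912) (nat_lit 0) (XT.lf (nat_lit 0) (nat_lit 3138794921) (nat_lit 912) (nat_lit 4512231934) (nat_lit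 988) (nat_lit 1063075428) (nat_lit 433) (nat_lit 5) (nat_lit 445) (nat_lit 5) (nat_lit 446) (nat_lit 5) (nat_lit 572) (nat_lit 533) (nat_lit 455)) (XT.nd (nat_lit 78) (nat_lit 836) (nat_lit 0) (XT.lf (nat_lit 0) (nat_lit 1025031952) (nat_lit 988) (nat_lit 213299244) (nat_lit 76) (nat_lit 7553313797) (nat_lit 432) (nat_lit 5) (nat_lit 445) (nat_lit 5) (nat_lit 433) (nat_lit 5) (nat_lit 573) (nat_lit 533) (nat_lit 454)) (XT.lf (nat_lit 0) (nat_lit 3158931937) (nat_lit 912) (nat_lit 3596174751) (nat_lit 76) (nat_lit 2115126941) (nat_lit 421) (nat_lit 5) (nat_lit 433) (nat_lit 5) (nat_lit 422) (nat_lit 5) (nat_lit 574) (nat_lit 533) (nat_lit 453))))) (XT.nd (nat_lit 156) (nat_lit 1748) (nat_lit 0) (XT.nd (nat_lit 78) (nat_lit 0) (nat_lit 0) (XT.lf (nat_lit 0) (nat_lit 1910124523) (nat_lit 912) (nat_lit 3417823722) (nat_lit 988) (nat_lit 3622597920) (nat_lit 409) (nat_lit 5) (nat_lit 421) (nat_lit 5) (nat_lit 422) (nat_lit 5) (nat_lit 575) (nat_lit 533) (nat_lit 452)) (XT.lf (nat_lit 0) (nat_lit 7535320155) (nat_lit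 988) (nat_lit 1487541358) (nat_lit 76) (nat_lit 9704811) (nat_lit 409) (nat_lit 5) (nat_lit 422) (nat_lit 5) (nat_lit 410) (nat_lit 5) (nat_lit 576) (nat_lit 533) (nat_lit 451))) (XT.nd (nat_lit 78) (nat_lit 836) (nat_lit 0) (XT.lf (nat_lit 0) (nat_lit 683065651) (nat_lit 912) (nat_lit 4941919305) (nat_lit 76) (nat_lit 3490730723) (nat_lit 397) (nat_lit 5) (nat_lit 409) (nat_lit 5) (nat_lit 398) (nat_lit 5) (nat_lit 577) (nat_lit 533) (nat_lit 450)) (XT.nd (nat_lit 78) (nat_lit 0) (nat_lit 0) (XT.lf (nat_lit 0) (nat_lit 737524907) (nat_lit 836) (nat_lit 2135791103) (nat_lit 912) (nat_lit 6327287294) (nat_lit 386) (nat_lit 5) (nat_lit 397) (nat_lit 5) (nat_lit 398) (nat_lit 5) (nat_lit 578) (nat_lit 533) (nat_lit 449)) (XT.lf (nat_lit 0) (nat_lit 5121868227) (nat_lit 912) (nat_lit 2729151008) (nat_lit 76) (nat_lit 1435880318) (nat_lit 386) (nat_lit 5) (nat_lit 398) (nat_lit 5) (nat_lit 387) (nat_lit 5) (nat_lit 579) (nat_lit 533) (nat_lit 448)))))) (XT.nd (nat_lit 390) (nat_lit 2888) (nat_lit 0) (XT.nd (nat_lit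 156) (nat_lit 1520) (nat_lit 0) (XT.nd (nat_lit 78) (nat_lit 76) (nat_lit 0) (XT.lf (nat_lit 0) (nat_lit 3116067906) (nat_lit 760) (nat_lit 4306125041) (nat_lit 836) (nat_lit 1952593544) (nat_lit 376) (nat_lit 5) (nat_lit 386) (nat_lit 5) (nat_lit 387) (nat_lit 5) (nat_lit 580) (nat_lit 533) (nat_lit 447)) (XT.lf (nat_lit 0) (nat_lit 291131029) (nat_lit 836) (nat_lit 381252408) (nat_lit 76) (nat_lit 8792188482) (nat_lit 375) (nat_lit 5) (nat_lit 386) (nat_lit 5) (nat_lit 376) (nat_lit 5) (nat_lit 581) (nat_lit 533) (nat_lit 446))) (XT.nd (nat_lit 78) (nat_lit 760) (nat_lit 0) (XT.lf (nat_lit 0) (nat_lit 2583399039) (nat_lit 836) (nat_lit 3930522737) (nat_lit 76) (nat_lit 3041377608) (nat_lit 365) (nat_lit 5) (nat_lit 376) (nat_lit 5) (nat_lit 366) (nat_lit 5) (nat_lit 582) (nat_lit 533) (nat_lit 445)) (XT.nd (nat_lit 78) (nat_lit 0) (nat_lit 0) (XT.lf (nat_lit 0) (nat_lit 2101393624) (nat_lit 760) (nat_lit 2814235290) (nat_lit 836) (nat_lit 4732330889) (nat_lit 355) (nat_lit 5) (nat_lit 365) (nat_lit 5)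 (nat_lit 366) (nat_lit 5) (nat_lit 583) (nat_lit 533) (nat_lit 444)) (XT.lf (nat_lit 0) (nat_lit 7301031914) (nat_lit 836) (nat_lit 1471427799) (nat_lit 76) (nat_lit 969883864) (nat_lit 355) (nat_lit 5) (nat_lit 366) (nat_lit 5) (nat_lit 356) (nat_lit 5) (nat_lit 584) (nat_lit 533) (nat_lit 443))))) (XT.nd (nat_lit 156) (nat_lit 1368) (nat_lit 0) (XT.nd (nat_lit 78) (nat_lit 760) (nat_lit 0) (XT.lf (nat_lit 0) (nat_lit 4739017881) (nat_lit 760) (nat_lit 5018794616) (nat_lit 836) (nat_lit 80329845) (nat_lit 345) (nat_lit 5) (nat_lit 355) (nat_lit 5) (nat_lit 356) (nat_lit 5) (nat_lit 585) (nat_lit 533) (nat_lit 442)) (XT.lf (nat_lit 0) (nat_lit 1127712602) (nat_lit 684) (nat_lit 1161297167) (nat_lit 760) (nat_lit 7646712336) (nat_lit 335) (nat_lit 5) (nat_lit 344) (nat_lit 5) (nat_lit 345) (nat_lit 5) (nat_lit 586) (nat_lit 533) (nat_lit 441))) (XT.nd (nat_lit 78) (nat_lit 1368) (nat_lit 0) (XT.lf (nat_lit 0) (nat_lit 4731800551) (nat_lit 760) (nat_lit 2535265781) (nat_lit 76) (nat_lit 2767634376) (nat_lit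 335) (nat_lit 5) (nat_lit 345) (nat_lit 5) (nat_lit 336) (nat_lit 5) (nat_lit 587) (nat_lit 533) (nat_lit 440)) (XT.nd (nat_lit 78) (nat_lit 684) (nat_lit 0) (XT.lf (nat_lit 0) (nat_lit 3876536489) (nat_lit 684) (nat_lit 3354954863) (nat_lit 760) (nat_lit 2904007296) (nat_lit 326) (nat_lit 5) (nat_lit 335) (nat_lit 5) (nat_lit 336) (nat_lit 5) (nat_lit 588) (nat_lit 533) (nat_lit 439)) (XT.lf (nat_lit 0) (nat_lit 181295989) (nat_lit 684) (nat_lit 9597757213) (nat_lit 760) (nat_lit 459302439) (nat_lit 317) (nat_lit 5) (nat_lit 326) (nat_lit 5) (nat_lit 327) (nat_lit 5) (nat_lit 589) (nat_lit 533) (nat_lit 438))))))) (XT.nd (nat_lit 780) (nat_lit 3268) (nat_lit 0) (XT.nd (nat_lit 390) (nat_lit 1824) (nat_lit 0) (XT.nd (nat_lit 156) (nat_lit 1292) (nat_lit 0) (XT.nd (nat_lit 78) (nat_lit 684) (nat_lit 0) (XT.lf (nat_lit 0) (nat_lit 2047690559) (nat_lit 760) (nat_lit 3572874373) (nat_lit 76) (nat_lit 4721639812) (nat_lit 316) (nat_lit 5) (nat_lit 326) (nat_lit 5) (nat_lit 317) (nat_lit 5) (nat_lit 590) (nat_lit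 533) (nat_lit 437)) (XT.lf (nat_lit 0) (nat_lit 3048581251) (nat_lit 684) (nat_lit 1545947034) (nat_lit 760) (nat_lit 5853625325) (nat_lit 307) (nat_lit 5) (nat_lit 316) (nat_lit 5) (nat_lit 317) (nat_lit 5) (nat_lit 591) (nat_lit 533) (nat_lit 436))) (XT.nd (nat_lit 78) (nat_lit 1292) (nat_lit 0) (XT.lf (nat_lit 0) (nat_lit 7209684564) (nat_lit 760) (nat_lit 751549762) (nat_lit 76) (nat_lit 2594640083) (nat_lit 307) (nat_lit 5) (nat_lit 317) (nat_lit 5) (nat_lit 308) (nat_lit 5) (nat_lit 592) (nat_lit 533) (nat_lit 435)) (XT.nd (nat_lit 78) (nat_lit 684) (nat_lit 0) (XT.lf (nat_lit 0) (nat_lit 6069782523) (nat_lit 608) (nat_lit 3833773496) (nat_lit 684) (nat_lit 761665941) (nat_lit 299) (nat_lit 5) (nat_lit 307) (nat_lit 5) (nat_lit 308) (nat_lit 5) (nat_lit 593) (nat_lit 533) (nat_lit 434)) (XT.lf (nat_lit 0) (nat_lit 1849138951) (nat_lit 684) (nat_lit 8529964720) (nat_lit 76) (nat_lit 397426418) (nat_lit 290) (nat_lit 5) (nat_lit 299) (nat_lit 5) (nat_lit 291) (nat_lit 5) (nat_lit 594) (nat_lit 533) (nat_lit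 433))))) (XT.nd (nat_lit 156) (nat_lit 1216) (nat_lit 0) (XT.nd (nat_lit 78) (nat_lit 608) (nat_lit 0) (XT.lf (nat_lit 0) (nat_lit 4535508592) (nat_lit 684) (nat_lit 1661744833) (nat_lit 76) (nat_lit 4692039862) (nat_lit 290) (nat_lit 5) (nat_lit 299) (nat_lit 5) (nat_lit 291) (nat_lit 5) (nat_lit 595) (nat_lit 533) (nat_lit 432)) (XT.lf (nat_lit 0) (nat_lit 5385687162) (nat_lit 608) (nat_lit 1902441360) (nat_lit 684) (nat_lit 3715933302) (nat_lit 282) (nat_lit 5) (nat_lit 290) (nat_lit 5) (nat_lit 291) (nat_lit 5) (nat_lit 596) (nat_lit 533) (nat_lit 431))) (XT.nd (nat_lit 78) (nat_lit 608) (nat_lit 0) (XT.lf (nat_lit 0) (nat_lit 1449537128) (nat_lit 608) (nat_lit 8660758928) (nat_lit 684) (nat_lit 1010540297) (nat_lit 274) (nat_lit 5) (nat_lit 282) (nat_lit 5) (nat_lit 283) (nat_lit 5) (nat_lit 597) (nat_lit 533) (nat_lit 430)) (XT.nd (nat_lit 78) (nat_lit 532) (nat_lit 0) (XT.lf (nat_lit 0) (nat_lit 1754444564) (nat_lit 684) (nat_lit 2557534352) (nat_lit 76) (nat_lit 6927172412) (nat_lit 273) (nat_lit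 5) (nat_lit 282) (nat_lit 5) (nat_lit 274) (nat_lit 5) (nat_lit 598) (nat_lit 533) (nat_lit 429)) (XT.lf (nat_lit 0) (nat_lit 4571201798) (nat_lit 608) (nat_lit 6635273280) (nat_lit 76) (nat_lit 153024348) (nat_lit 266) (nat_lit 5) (nat_lit 274) (nat_lit 5) (nat_lit 267) (nat_lit 5) (nat_lit 599) (nat_lit 533) (nat_lit 428)))))) (XT.nd (nat_lit 390) (nat_lit 1520) (nat_lit 0) (XT.nd (nat_lit 156) (nat_lit 1140) (nat_lit 0) (XT.nd (nat_lit 78) (nat_lit 0) (nat_lit 0) (XT.lf (nat_lit 0) (nat_lit 655576747) (nat_lit 608) (nat_lit 6817307636) (nat_lit 684) (nat_lit 4008798781) (nat_lit 258) (nat_lit 5) (nat_lit 266) (nat_lit 5) (nat_lit 267) (nat_lit 5) (nat_lit 600) (nat_lit 533) (nat_lit 427)) (XT.lf (nat_lit 0) (nat_lit 8153645546) (nat_lit 608) (nat_lit 2302219037) (nat_lit 684) (nat_lit 1149981190) (nat_lit 258) (nat_lit 5) (nat_lit 266) (nat_lit 5) (nat_lit 267) (nat_lit 5) (nat_lit 601) (nat_lit 533) (nat_lit 426))) (XT.nd (nat_lit 78) (nat_lit 532) (nat_lit 0) (XT.lf (nat_lit 0) (nat_lit 1763534914)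 (nat_lit 608) (nat_lit 7664303684) (nat_lit 76) (nat_lit 2304010494) (nat_lit 250) (nat_lit 5) (nat_lit 258) (nat_lit 5) (nat_lit 251) (nat_lit 5) (nat_lit 602) (nat_lit 533) (nat_lit 425)) (XT.nd (nat_lit 78) (nat_lit 532) (nat_lit 0) (XT.lf (nat_lit 0) (nat_lit 4737701294) (nat_lit 608) (nat_lit 126886266) (nat_lit 76) (nat_lit 6995277773) (nat_lit 250) (nat_lit 5) (nat_lit 258) (nat_lit 5) (nat_lit 251) (nat_lit 5) (nat_lit 603) (nat_lit 533) (nat_lit 424)) (XT.lf (nat_lit 0) (nat_lit 7633509169) (nat_lit 532) (nat_lit 167009347) (nat_lit 608) (nat_lit 4189340470) (nat_lit 243) (nat_lit 5) (nat_lit 250) (nat_lit 5) (nat_lit 251) (nat_lit 5) (nat_lit 604) (nat_lit 533) (nat_lit 423))))) (XT.nd (nat_lit 156) (nat_lit 988) (nat_lit 0) (XT.nd (nat_lit 78) (nat_lit 76) (nat_lit 0) (XT.lf (nat_lit 0) (nat_lit 3415098786) (nat_lit 456) (nat_lit 7542325819) (nat_lit 532) (nat_lit 1164371687) (nat_lit 237) (nat_lit 5) (nat_lit 243) (nat_lit 5) (nat_lit 244) (nat_lit 5) (nat_lit 605) (nat_lit 533) (nat_lit 422))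 (XT.lf (nat_lit 0) (nat_lit 1906293484) (nat_lit 532) (nat_lit 896672746) (nat_lit 76) (nat_lit 9452949214) (nat_lit 236) (nat_lit 5) (nat_lit 243) (nat_lit 5) (nat_lit 237) (nat_lit 5) (nat_lit 606) (nat_lit 533) (nat_lit 421))) (XT.nd (nat_lit 78) (nat_lit 456) (nat_lit 0) (XT.lf (nat_lit 0) (nat_lit 5062822401) (nat_lit 608) (nat_lit 5277792428) (nat_lit 76) (nat_lit 2051147797) (nat_lit 229) (nat_lit 5) (nat_lit 237) (nat_lit 5) (nat_lit 230) (nat_lit 5) (nat_lit 607) (nat_lit 533) (nat_lit 420)) (XT.nd (nat_lit 78) (nat_lit 0) (nat_lit 0) (XT.lf (nat_lit 0) (nat_lit 2756577703) (nat_lit 456) (nat_lit 5548833961) (nat_lit 532) (nat_lit 4224456890) (nat_lit 223) (nat_lit 5) (nat_lit 229) (nat_lit 5) (nat_lit 230) (nat_lit 5) (nat_lit 608) (nat_lit 533) (nat_lit 419)) (XT.lf (nat_lit 0) (nat_lit 10995612653) (nat_lit 456) (nat_lit 633274479) (nat_lit 532) (nat_lit 1041529169) (nat_lit 223) (nat_lit 5) (nat_lit 229) (nat_lit 5) (nat_lit 230) (nat_lit 5) (nat_lit 609) (nat_lit 533) (nat_lit 418))))))))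
noncomputable def xc97 : XT := (XT.nd (nat_lit 76284) (nat_lit 0) (nat_lit 23180) (XT.nd (nat_lit 75504) (nat_lit 0) (nat_lit 36328) (XT.nd (nat_lit 390) (nat_lit 456) (nat_lit 0) (XT.nd (nat_lit 156) (nat_lit 912) (nat_lit 0) (XT.nd (nat_lit 78) (nat_lit 456) (nat_lit 0) (XT.lf (nat_lit 0) (nat_lit 2228830631) (nat_lit 532) (nat_lit 6210754169) (nat_lit 76) (nat_lit 4372850379) (nat_lit 216) (nat_lit 5) (nat_lit 223) (nat_lit 5) (nat_lit 217) (nat_lit 5) (nat_lit 610) (nat_lit 533) (nat_lit 417)) (XT.lf (nat_lit 0) (nat_lit 2098256274) (nat_lit 456) (nat_lit 3462556261) (nat_lit 532) (nat_lit 7396141354) (nat_lit 210) (nat_lit 5) (nat_lit 216) (nat_lit 5) (nat_lit 217) (nat_lit 5) (nat_lit 611) (nat_lit 533) (nat_lit 416))) (XT.nd (nat_lit 78) (nat_lit 912) (nat_lit 0) (XT.lf (nat_lit 0) (nat_lit 8993024725) (nat_lit 532) (nat_lit 2484215107) (nat_lit 76) (nat_lit 1626451690) (nat_lit 210) (nat_lit 5) (nat_lit 217) (nat_lit 5) (nat_lit 211) (nat_lit 5) (nat_lit 612) (nat_lit 533) (nat_lit 415)) (XT.nd (nat_lit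 78) (nat_lit 456) (nat_lit 0) (XT.lf (nat_lit 0) (nat_lit 6087641470) (nat_lit 456) (nat_lit 6450222945) (nat_lit 532) (nat_lit 714620178) (nat_lit 204) (nat_lit 5) (nat_lit 210) (nat_lit 5) (nat_lit 211) (nat_lit 5) (nat_lit 613) (nat_lit 533) (nat_lit 414)) (XT.lf (nat_lit 0) (nat_lit 1434448912) (nat_lit 380) (nat_lit 1286528341) (nat_lit 456) (nat_lit 10682765838) (nat_lit 198) (nat_lit 5) (nat_lit 203) (nat_lit 5) (nat_lit 204) (nat_lit 5) (nat_lit 614) (nat_lit 533) (nat_lit 413))))) (XT.nd (nat_lit 74880) (nat_lit 0) (nat_lit 39292) (XT.nd (nat_lit 78) (nat_lit 456) (nat_lit 0) (XT.lf (nat_lit 0) (nat_lit 6271692342) (nat_lit 456) (nat_lit 3312334140) (nat_lit 76) (nat_lit 3972786647) (nat_lit 198) (nat_lit 5) (nat_lit 204) (nat_lit 5) (nat_lit 199) (nat_lit 5) (nat_lit 615) (nat_lit 533) (nat_lit 412)) (XT.lf (nat_lit 0) (nat_lit 5555416657) (nat_lit 456) (nat_lit 4364676533) (nat_lit 532) (nat_lit 3792318274) (nat_lit 192) (nat_lit 5) (nat_lit 198) (nat_lit 5) (nat_lit 199) (nat_lit 5) (nat_lit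 616) (nat_lit 533) (nat_lit 411))) (XT.nd (nat_lit 78) (nat_lit 0) (nat_lit 0) (XT.lf (nat_lit 0) (nat_lit 469537070) (nat_lit 988) (nat_lit 1468766039) (nat_lit 988) (nat_lit 1468766039) (nat_lit 709) (nat_lit 3) (nat_lit 722) (nat_lit 3) (nat_lit 722) (nat_lit 5) (nat_lit 534) (nat_lit 534) (nat_lit 492)) (XT.nd (nat_lit 78) (nat_lit 0) (nat_lit 0) (XT.lf (nat_lit 76) (nat_lit 464598356) (nat_lit 0) (nat_lit 2524652541) (nat_lit 988) (nat_lit 3852124946) (nat_lit 710) (nat_lit 5) (nat_lit 709) (nat_lit 3) (nat_lit 722) (nat_lit 5) (nat_lit 535) (nat_lit 534) (nat_lit 491)) (XT.lf (nat_lit 76) (nat_lit 3946966745) (nat_lit 0) (nat_lit 1099546050) (nat_lit 988) (nat_lit 1823326025) (nat_lit 710) (nat_lit 5) (nat_lit 709) (nat_lit 3) (nat_lit 722) (nat_lit 5) (nat_lit 536) (nat_lit 534) (nat_lit 490)))))) (XT.nd (nat_lit 390) (nat_lit 988) (nat_lit 0) (XT.nd (nat_lit 156) (nat_lit 1064) (nat_lit 0) (XT.nd (nat_lit 78) (nat_lit 0) (nat_lit 0) (XT.lf (nat_lit 0) (nat_lit 196144532) (nat_lit 988) (nat_lit 6324011397)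 (nat_lit 1064) (nat_lit 379618947) (nat_lit 697) (nat_lit 5) (nat_lit 710) (nat_lit 5) (nat_lit 711) (nat_lit 5) (nat_lit 537) (nat_lit 534) (nat_lit 489)) (XT.lf (nat_lit 0) (nat_lit 2206726473) (nat_lit 988) (nat_lit 2794219287) (nat_lit 1064) (nat_lit 1929622301) (nat_lit 697) (nat_lit 5) (nat_lit 710) (nat_lit 5) (nat_lit 711) (nat_lit 5) (nat_lit 538) (nat_lit 534) (nat_lit 488))) (XT.nd (nat_lit 78) (nat_lit 1064) (nat_lit 0) (XT.lf (nat_lit 76) (nat_lit 788264447) (nat_lit 0) (nat_lit 3423479247) (nat_lit 1064) (nat_lit 2751151078) (nat_lit 698) (nat_lit 5) (nat_lit 697) (nat_lit 5) (nat_lit 711) (nat_lit 5) (nat_lit 539) (nat_lit 534) (nat_lit 487)) (XT.nd (nat_lit 78) (nat_lit 1064) (nat_lit 0) (XT.lf (nat_lit 76) (nat_lit 4452217592) (nat_lit 0) (nat_lit 1773315820) (nat_lit 1064) (nat_lit 770963255) (nat_lit 698) (nat_lit 5) (nat_lit 697) (nat_lit 5) (nat_lit 711) (nat_lit 5) (nat_lit 540) (nat_lit 534) (nat_lit 486)) (XT.lf (nat_lit 76) (nat_lit 1137321815) (nat_lit 0) (nat_lit 53088381) (nat_lit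 1140) (nat_lit 5841041043) (nat_lit 684) (nat_lit 5) (nat_lit 683) (nat_lit 5) (nat_lit 698) (nat_lit 5) (nat_lit 541) (nat_lit 534) (nat_lit 485))))) (XT.nd (nat_lit 156) (nat_lit 1064) (nat_lit 0) (XT.nd (nat_lit 78) (nat_lit 0) (nat_lit 0) (XT.lf (nat_lit 0) (nat_lit 3160429418) (nat_lit 1064) (nat_lit 2185075527) (nat_lit 1140) (nat_lit 1721905179) (nat_lit 684) (nat_lit 5) (nat_lit 698) (nat_lit 5) (nat_lit 699) (nat_lit 5) (nat_lit 542) (nat_lit 534) (nat_lit 484)) (XT.lf (nat_lit 76) (nat_lit 1590144412) (nat_lit 0) (nat_lit 3542829262) (nat_lit 1140) (nat_lit 1971853952) (nat_lit 685) (nat_lit 5) (nat_lit 684) (nat_lit 5) (nat_lit 699) (nat_lit 5) (nat_lit 543) (nat_lit 534) (nat_lit 483))) (XT.nd (nat_lit 78) (nat_lit 1064) (nat_lit 0) (XT.lf (nat_lit 76) (nat_lit 5442157161) (nat_lit 0) (nat_lit 1670671897) (nat_lit 1140) (nat_lit 30809112) (nat_lit 685) (nat_lit 5) (nat_lit 684) (nat_lit 5) (nat_lit 699) (nat_lit 5) (nat_lit 544) (nat_lit 534) (nat_lit 482)) (XT.nd (nat_lit 78) (nat_lit 0) (nat_lit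 0) (XT.lf (nat_lit 0) (nat_lit 1893272421) (nat_lit 1140) (nat_lit 5009987842) (nat_lit 1216) (nat_lit 280317834) (nat_lit 670) (nat_lit 5) (nat_lit 685) (nat_lit 5) (nat_lit 686) (nat_lit 5) (nat_lit 545) (nat_lit 534) (nat_lit 481)) (XT.lf (nat_lit 0) (nat_lit 3832624834) (nat_lit 1140) (nat_lit 1115432682) (nat_lit 1216) (nat_lit 2276712983) (nat_lit 670) (nat_lit 5) (nat_lit 685) (nat_lit 5) (nat_lit 686) (nat_lit 5) (nat_lit 546) (nat_lit 534) (nat_lit 480))))))) (XT.nd (nat_lit 780) (nat_lit 9500) (nat_lit 0) (XT.nd (nat_lit 390) (nat_lit 2432) (nat_lit 0) (XT.nd (nat_lit 156) (nat_lit 0) (nat_lit 76) (XT.nd (nat_lit 78) (nat_lit 1216) (nat_lit 0) (XT.lf (nat_lit 76) (nat_lit 2865946585) (nat_lit 0) (nat_lit 2918958568) (nat_lit 1216) (nat_lit 1482400531) (nat_lit 671) (nat_lit 5) (nat_lit 670) (nat_lit 5) (nat_lit 686) (nat_lit 5) (nat_lit 547) (nat_lit 534) (nat_lit 479)) (XT.lf (nat_lit 0) (nat_lit 422897265) (nat_lit 1216) (nat_lit 400593861) (nat_lit 1292) (nat_lit 6487872411) (nat_lit 654) (nat_lit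 5) (nat_lit 670) (nat_lit 5) (nat_lit 671) (nat_lit 5) (nat_lit 548) (nat_lit 534) (nat_lit 478))) (XT.nd (nat_lit 78) (nat_lit 0) (nat_lit 0) (XT.lf (nat_lit 0) (nat_lit 2336072733) (nat_lit 1216) (nat_lit 3675058077) (nat_lit 1292) (nat_lit 1345184993) (nat_lit 655) (nat_lit 5) (nat_lit 671) (nat_lit 5) (nat_lit 672) (nat_lit 5) (nat_lit 549) (nat_lit 534) (nat_lit 477)) (XT.nd (nat_lit 78) (nat_lit 0) (nat_lit 0) (XT.lf (nat_lit 76) (nat_lit 418843791) (nat_lit 0) (nat_lit 3837095725) (nat_lit 1292) (nat_lit 3146860659) (nat_lit 656) (nat_lit 5) (nat_lit 655) (nat_lit 5) (nat_lit 672) (nat_lit 5) (nat_lit 550) (nat_lit 534) (nat_lit 476)) (XT.lf (nat_lit 76) (nat_lit 4615391269) (nat_lit 0) (nat_lit 1581666527) (nat_lit 1292) (nat_lit 1253500945) (nat_lit 656) (nat_lit 5) (nat_lit 655) (nat_lit 5) (nat_lit 672) (nat_lit 5) (nat_lit 551) (nat_lit 534) (nat_lit 475))))) (XT.nd (nat_lit 156) (nat_lit 1292) (nat_lit 0) (XT.nd (nat_lit 78) (nat_lit 0) (nat_lit 0) (XT.lf (nat_lit 0) (nat_lit 641380374) (nat_lit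 1292) (nat_lit 6123383506) (nat_lit 1368) (nat_lit 734971257) (nat_lit 639) (nat_lit 5) (nat_lit 656) (nat_lit 5) (nat_lit 657) (nat_lit 5) (nat_lit 552) (nat_lit 534) (nat_lit 474)) (XT.lf (nat_lit 0) (nat_lit 2546454483) (nat_lit 1292) (nat_lit 1887612924) (nat_lit 1368) (nat_lit 3115881846) (nat_lit 639) (nat_lit 5) (nat_lit 656) (nat_lit 5) (nat_lit 657) (nat_lit 5) (nat_lit 553) (nat_lit 534) (nat_lit 473))) (XT.nd (nat_lit 78) (nat_lit 1292) (nat_lit 0) (XT.lf (nat_lit 76) (nat_lit 2435671266) (nat_lit 0) (nat_lit 2030005915) (nat_lit 1368) (nat_lit 3135970995) (nat_lit 640) (nat_lit 5) (nat_lit 639) (nat_lit 5) (nat_lit 657) (nat_lit 5) (nat_lit 554) (nat_lit 534) (nat_lit 472)) (XT.nd (nat_lit 78) (nat_lit 1368) (nat_lit 0) (XT.lf (nat_lit 0) (nat_lit 6399667115) (nat_lit 1292) (nat_lit 815749806) (nat_lit 76) (nat_lit 439437937) (nat_lit 640) (nat_lit 5) (nat_lit 657) (nat_lit 5) (nat_lit 641) (nat_lit 5) (nat_lit 555) (nat_lit 534) (nat_lit 471)) (XT.lf (nat_lit 0) (nat_lit 653149346) (nat_lit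 1368) (nat_lit 4087073695) (nat_lit 76) (nat_lit 2968845168) (nat_lit 622) (nat_lit 5) (nat_lit 640) (nat_lit 5) (nat_lit 623) (nat_lit 5) (nat_lit 556) (nat_lit 534) (nat_lit 470)))))) (XT.nd (nat_lit 390) (nat_lit 5092) (nat_lit 0) (XT.nd (nat_lit 156) (nat_lit 3040) (nat_lit 0) (XT.nd (nat_lit 78) (nat_lit 0) (nat_lit 0) (XT.lf (nat_lit 0) (nat_lit 362160421) (nat_lit 1368) (nat_lit 2190533093) (nat_lit 1444) (nat_lit 5212110786) (nat_lit 604) (nat_lit 5) (nat_lit 622) (nat_lit 5) (nat_lit 623) (nat_lit 5) (nat_lit 557) (nat_lit 534) (nat_lit 469)) (XT.lf (nat_lit 0) (nat_lit 4483077417) (nat_lit 1444) (nat_lit 2898315633) (nat_lit 76) (nat_lit 440406412) (nat_lit 604) (nat_lit 5) (nat_lit 623) (nat_lit 5) (nat_lit 605) (nat_lit 5) (nat_lit 558) (nat_lit 534) (nat_lit 468))) (XT.nd (nat_lit 78) (nat_lit 1596) (nat_lit 0) (XT.lf (nat_lit 0) (nat_lit 1673993109) (nat_lit 1444) (nat_lit 4766763006) (nat_lit 1520) (nat_lit 1439405972) (nat_lit 585) (nat_lit 5) (nat_lit 604) (nat_lit 5) (nat_lit 605) (nat_lit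 5) (nat_lit 559) (nat_lit 534) (nat_lit 467)) (XT.nd (nat_lit 78) (nat_lit 1520) (nat_lit 0) (XT.lf (nat_lit 0) (nat_lit 474544081) (nat_lit 1520) (nat_lit 1595473505) (nat_lit 76) (nat_lit 5869947422) (nat_lit 584) (nat_lit 5) (nat_lit 604) (nat_lit 5) (nat_lit 585) (nat_lit 5) (nat_lit 560) (nat_lit 534) (nat_lit 466)) (XT.lf (nat_lit 0) (nat_lit 2396677193) (nat_lit 1596) (nat_lit 4896317670) (nat_lit 76) (nat_lit 707996508) (nat_lit 564) (nat_lit 5) (nat_lit 585) (nat_lit 5) (nat_lit 565) (nat_lit 5) (nat_lit 561) (nat_lit 534) (nat_lit 465))))) (XT.nd (nat_lit 234) (nat_lit 1748) (nat_lit 0) (XT.nd (nat_lit 78) (nat_lit 3344) (nat_lit 0) (XT.lf (nat_lit 0) (nat_lit 4346603109) (nat_lit 1596) (nat_lit 186164046) (nat_lit 76) (nat_lit 3530685305) (nat_lit 564) (nat_lit 5) (nat_lit 585) (nat_lit 5) (nat_lit 565) (nat_lit 5) (nat_lit 562) (nat_lit 534) (nat_lit 464)) (XT.nd (nat_lit 78) (nat_lit 1748) (nat_lit 0) (XT.lf (nat_lit 0) (nat_lit 4649950923) (nat_lit 1596) (nat_lit 1681320172) (nat_lit 1672)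 (nat_lit 1795977985) (nat_lit 543) (nat_lit 5) (nat_lit 564) (nat_lit 5) (nat_lit 565) (nat_lit 5) (nat_lit 563) (nat_lit 534) (nat_lit 463)) (XT.lf (nat_lit 0) (nat_lit 145276597) (nat_lit 1748) (nat_lit 6820290625) (nat_lit 76) (nat_lit 1227052184) (nat_lit 520) (nat_lit 5) (nat_lit 543) (nat_lit 5) (nat_lit 521) (nat_lit 5) (nat_lit 564) (nat_lit 534) (nat_lit 462)))) (XT.nd (nat_lit 78) (nat_lit 1748) (nat_lit 0) (XT.lf (nat_lit 0) (nat_lit 2102276818) (nat_lit 1748) (nat_lit 1945929184) (nat_lit 76) (nat_lit 4210835444) (nat_lit 520) (nat_lit 5) (nat_lit 543) (nat_lit 5) (nat_lit 521) (nat_lit 5) (nat_lit 565) (nat_lit 534) (nat_lit 461)) (XT.nd (nat_lit 78) (nat_lit 0) (nat_lit 0) (XT.lf (nat_lit 0) (nat_lit 3036330039) (nat_lit 1748) (nat_lit 1048783822) (nat_lit 1824) (nat_lit 4241945220) (nat_lit 497) (nat_lit 5) (nat_lit 520) (nat_lit 5) (nat_lit 521) (nat_lit 5) (nat_lit 566) (nat_lit 534) (nat_lit 460)) (XT.lf (nat_lit 0) (nat_lit 6101268990) (nat_lit 1824) (nat_lit 294596588) (nat_lit 76) (nat_lit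 2000699331) (nat_lit 497) (nat_lit 5) (nat_lit 521) (nat_lit 5) (nat_lit 498) (nat_lit 5) (nat_lit 567) (nat_lit 534) (nat_lit 459))))))))
noncomputable def xc98 : XT := (XT.nd (nat_lit 1560) (nat_lit 8056) (nat_lit 0) (XT.nd (nat_lit 780) (nat_lit 4712) (nat_lit 0) (XT.nd (nat_lit 390) (nat_lit 2736) (nat_lit 0) (XT.nd (nat_lit 156) (nat_lit 1824) (nat_lit 0) (XT.nd (nat_lit 78) (nat_lit 1216) (nat_lit 0) (XT.lf (nat_lit 0) (nat_lit 4828534223) (nat_lit 1824) (nat_lit 3335608960) (nat_lit 1900) (nat_lit 303190798) (nat_lit 473) (nat_lit 5) (nat_lit 497) (nat_lit 5) (nat_lit 498) (nat_lit 5) (nat_lit 568) (nat_lit 534) (nat_lit 458)) (XT.lf (nat_lit 0) (nat_lit 1497509961) (nat_lit 1140) (nat_lit 188613742) (nat_lit 1216) (nat_lit 6853570448) (nat_lit 457) (nat_lit 5) (nat_lit 472) (nat_lit 5) (nat_lit 473) (nat_lit 5) (nat_lit 569) (nat_lit 534) (nat_lit 457))) (XT.nd (nat_lit 78) (nat_lit 1824) (nat_lit 0) (XT.lf (nat_lit 0) (nat_lit 3724135251) (nat_lit 1216) (nat_lit 1878907193) (nat_lit 76) (nat_lit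 3010160576) (nat_lit 457) (nat_lit 5) (nat_lit 473) (nat_lit 5) (nat_lit 458) (nat_lit 5) (nat_lit 570) (nat_lit 534) (nat_lit 456)) (XT.nd (nat_lit 78) (nat_lit 912) (nat_lit 0) (XT.lf (nat_lit 0) (nat_lit 3401607987) (nat_lit 912) (nat_lit 2394016272) (nat_lit 988) (nat_lit 2892704429) (nat_lit 445) (nat_lit 5) (nat_lit 457) (nat_lit 5) (nat_lit 458) (nat_lit 5) (nat_lit 571) (nat_lit 534) (nat_lit 455)) (XT.lf (nat_lit 0) (nat_lit 13068228) (nat_lit 912) (nat_lit 7883759869) (nat_lit 988) (nat_lit 868364020) (nat_lit 433) (nat_lit 5) (nat_lit 445) (nat_lit 5) (nat_lit 446) (nat_lit 5) (nat_lit 572) (nat_lit 534) (nat_lit 454))))) (XT.nd (nat_lit 156) (nat_lit 1824) (nat_lit 0) (XT.nd (nat_lit 78) (nat_lit 836) (nat_lit 0) (XT.lf (nat_lit 0) (nat_lit 1202338982) (nat_lit 988) (nat_lit 3406237734) (nat_lit 76) (nat_lit 4234430293) (nat_lit 432) (nat_lit 5) (nat_lit 445) (nat_lit 5) (nat_lit 433) (nat_lit 5) (nat_lit 573) (nat_lit 534) (nat_lit 453)) (XT.lf (nat_lit 0) (nat_lit 2038121513) (nat_lit 836)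 (nat_lit 1248540625) (nat_lit 912) (nat_lit 5635925486) (nat_lit 421) (nat_lit 5) (nat_lit 432) (nat_lit 5) (nat_lit 433) (nat_lit 5) (nat_lit 574) (nat_lit 534) (nat_lit 452))) (XT.nd (nat_lit 78) (nat_lit 1824) (nat_lit 0) (XT.lf (nat_lit 0) (nat_lit 5420801646) (nat_lit 912) (nat_lit 1409869843) (nat_lit 76) (nat_lit 2172926641) (nat_lit 421) (nat_lit 5) (nat_lit 433) (nat_lit 5) (nat_lit 422) (nat_lit 5) (nat_lit 575) (nat_lit 534) (nat_lit 451)) (XT.nd (nat_lit 78) (nat_lit 912) (nat_lit 0) (XT.lf (nat_lit 0) (nat_lit 4191698651) (nat_lit 912) (nat_lit 3412953496) (nat_lit 988) (nat_lit 1481436993) (nat_lit 409) (nat_lit 5) (nat_lit 421) (nat_lit 5) (nat_lit 422) (nat_lit 5) (nat_lit 576) (nat_lit 534) (nat_lit 450)) (XT.lf (nat_lit 0) (nat_lit 639849827) (nat_lit 912) (nat_lit 8440840857) (nat_lit 76) (nat_lit 89722523) (nat_lit 397) (nat_lit 5) (nat_lit 409) (nat_lit 5) (nat_lit 398) (nat_lit 5) (nat_lit 577) (nat_lit 534) (nat_lit 449)))))) (XT.nd (nat_lit 390) (nat_lit 2280) (nat_lit 0) (XT.nd (nat_lit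 156) (nat_lit 1596) (nat_lit 0) (XT.nd (nat_lit 78) (nat_lit 836) (nat_lit 0) (XT.lf (nat_lit 0) (nat_lit 2811491501) (nat_lit 912) (nat_lit 2785805737) (nat_lit 76) (nat_lit 3658376167) (nat_lit 397) (nat_lit 5) (nat_lit 409) (nat_lit 5) (nat_lit 398) (nat_lit 5) (nat_lit 578) (nat_lit 534) (nat_lit 448)) (XT.lf (nat_lit 0) (nat_lit 2992392149) (nat_lit 836) (nat_lit 2026233070) (nat_lit 912) (nat_lit 4324173198) (nat_lit 386) (nat_lit 5) (nat_lit 397) (nat_lit 5) (nat_lit 398) (nat_lit 5) (nat_lit 579) (nat_lit 534) (nat_lit 447))) (XT.nd (nat_lit 78) (nat_lit 1596) (nat_lit 0) (XT.lf (nat_lit 0) (nat_lit 7272179662) (nat_lit 912) (nat_lit 547513406) (nat_lit 76) (nat_lit 1611928077) (nat_lit 386) (nat_lit 5) (nat_lit 398) (nat_lit 5) (nat_lit 387) (nat_lit 5) (nat_lit 580) (nat_lit 534) (nat_lit 446)) (XT.nd (nat_lit 78) (nat_lit 760) (nat_lit 0) (XT.lf (nat_lit 0) (nat_lit 70067238) (nat_lit 836) (nat_lit 4122344656) (nat_lit 76) (nat_lit 5329360483) (nat_lit 375) (nat_lit 5) (nat_lit 386) (nat_lit 5)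 (nat_lit 376) (nat_lit 5) (nat_lit 581) (nat_lit 534) (nat_lit 445)) (XT.lf (nat_lit 0) (nat_lit 1839778250) (nat_lit 760) (nat_lit 464798759) (nat_lit 836) (nat_lit 7309078361) (nat_lit 365) (nat_lit 5) (nat_lit 375) (nat_lit 5) (nat_lit 376) (nat_lit 5) (nat_lit 582) (nat_lit 534) (nat_lit 444))))) (XT.nd (nat_lit 156) (nat_lit 1520) (nat_lit 0) (XT.nd (nat_lit 78) (nat_lit 760) (nat_lit 0) (XT.lf (nat_lit 0) (nat_lit 4607257016) (nat_lit 836) (nat_lit 1781063773) (nat_lit 76) (nat_lit 3318586352) (nat_lit 365) (nat_lit 5) (nat_lit 376) (nat_lit 5) (nat_lit 366) (nat_lit 5) (nat_lit 583) (nat_lit 534) (nat_lit 443)) (XT.lf (nat_lit 0) (nat_lit 4356832563) (nat_lit 760) (nat_lit 2604999466) (nat_lit 836) (nat_lit 2840075796) (nat_lit 355) (nat_lit 5) (nat_lit 365) (nat_lit 5) (nat_lit 366) (nat_lit 5) (nat_lit 584) (nat_lit 534) (nat_lit 442))) (XT.nd (nat_lit 78) (nat_lit 760) (nat_lit 0) (XT.lf (nat_lit 0) (nat_lit 715089132) (nat_lit 760) (nat_lit 8647992990) (nat_lit 836) (nat_lit 535735418) (nat_lit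 345) (nat_lit 5) (nat_lit 355) (nat_lit 5) (nat_lit 356) (nat_lit 5) (nat_lit 585) (nat_lit 534) (nat_lit 441)) (XT.nd (nat_lit 78) (nat_lit 684) (nat_lit 0) (XT.lf (nat_lit 0) (nat_lit 1819833840) (nat_lit 836) (nat_lit 2983215356) (nat_lit 76) (nat_lit 5193802434) (nat_lit 344) (nat_lit 5) (nat_lit 355) (nat_lit 5) (nat_lit 345) (nat_lit 5) (nat_lit 586) (nat_lit 534) (nat_lit 440)) (XT.lf (nat_lit 0) (nat_lit 3353038570) (nat_lit 684) (nat_lit 859480378) (nat_lit 760) (nat_lit 5884313719) (nat_lit 335) (nat_lit 5) (nat_lit 344) (nat_lit 5) (nat_lit 345) (nat_lit 5) (nat_lit 587) (nat_lit 534) (nat_lit 439))))))) (XT.nd (nat_lit 780) (nat_lit 4028) (nat_lit 0) (XT.nd (nat_lit 390) (nat_lit 1900) (nat_lit 0) (XT.nd (nat_lit 156) (nat_lit 1444) (nat_lit 0) (XT.nd (nat_lit 78) (nat_lit 684) (nat_lit 0) (XT.lf (nat_lit 0) (nat_lit 6669416343) (nat_lit 760) (nat_lit 391593447) (nat_lit 76) (nat_lit 3137477003) (nat_lit 335) (nat_lit 5) (nat_lit 345) (nat_lit 5) (nat_lit 336) (nat_lit 5) (nat_lit 588) (nat_lit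 534) (nat_lit 438)) (XT.lf (nat_lit 0) (nat_lit 6134008173) (nat_lit 684) (nat_lit 3063109552) (nat_lit 760) (nat_lit 1104623580) (nat_lit 326) (nat_lit 5) (nat_lit 335) (nat_lit 5) (nat_lit 336) (nat_lit 5) (nat_lit 589) (nat_lit 534) (nat_lit 437))) (XT.nd (nat_lit 78) (nat_lit 684) (nat_lit 0) (XT.lf (nat_lit 0) (nat_lit 1351490719) (nat_lit 760) (nat_lit 8031497187) (nat_lit 76) (nat_lit 1023873440) (nat_lit 316) (nat_lit 5) (nat_lit 326) (nat_lit 5) (nat_lit 317) (nat_lit 5) (nat_lit 590) (nat_lit 534) (nat_lit 436)) (XT.nd (nat_lit 78) (nat_lit 684) (nat_lit 0) (XT.lf (nat_lit 0) (nat_lit 3866913877) (nat_lit 760) (nat_lit 1464271154) (nat_lit 76) (nat_lit 5182253765) (nat_lit 316) (nat_lit 5) (nat_lit 326) (nat_lit 5) (nat_lit 317) (nat_lit 5) (nat_lit 591) (nat_lit 534) (nat_lit 435)) (XT.lf (nat_lit 0) (nat_lit 5275271077) (nat_lit 684) (nat_lit 1168610530) (nat_lit 760) (nat_lit 4178042044) (nat_lit 307) (nat_lit 5) (nat_lit 316) (nat_lit 5) (nat_lit 317) (nat_lit 5) (nat_lit 592) (nat_lit 534)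 (nat_lit 434))))) (XT.nd (nat_lit 156) (nat_lit 1216) (nat_lit 0) (XT.nd (nat_lit 78) (nat_lit 76) (nat_lit 0) (XT.lf (nat_lit 0) (nat_lit 1407030114) (nat_lit 608) (nat_lit 7681584906) (nat_lit 684) (nat_lit 1643639223) (nat_lit 299) (nat_lit 5) (nat_lit 307) (nat_lit 5) (nat_lit 308) (nat_lit 5) (nat_lit 593) (nat_lit 534) (nat_lit 433)) (XT.lf (nat_lit 0) (nat_lit 950293970) (nat_lit 684) (nat_lit 2518465996) (nat_lit 76) (nat_lit 7375485983) (nat_lit 298) (nat_lit 5) (nat_lit 307) (nat_lit 5) (nat_lit 299) (nat_lit 5) (nat_lit 594) (nat_lit 534) (nat_lit 432))) (XT.nd (nat_lit 78) (nat_lit 608) (nat_lit 0) (XT.lf (nat_lit 0) (nat_lit 3586352371) (nat_lit 684) (nat_lit 6519912071) (nat_lit 76) (nat_lit 851751194) (nat_lit 290) (nat_lit 5) (nat_lit 299) (nat_lit 5) (nat_lit 291) (nat_lit 5) (nat_lit 595) (nat_lit 534) (nat_lit 431)) (XT.nd (nat_lit 78) (nat_lit 0) (nat_lit 0) (XT.lf (nat_lit 0) (nat_lit 448800429) (nat_lit 608) (nat_lit 5847225029) (nat_lit 684) (nat_lit 4777617911) (nat_lit 282) (nat_lit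 5) (nat_lit 290) (nat_lit 5) (nat_lit 291) (nat_lit 5) (nat_lit 596) (nat_lit 534) (nat_lit 430)) (XT.lf (nat_lit 0) (nat_lit 7617229875) (nat_lit 608) (nat_lit 1464659137) (nat_lit 684) (nat_lit 2109255219) (nat_lit 282) (nat_lit 5) (nat_lit 290) (nat_lit 5) (nat_lit 291) (nat_lit 5) (nat_lit 597) (nat_lit 534) (nat_lit 429)))))) (XT.nd (nat_lit 390) (nat_lit 2128) (nat_lit 0) (XT.nd (nat_lit 156) (nat_lit 1216) (nat_lit 0) (XT.nd (nat_lit 78) (nat_lit 0) (nat_lit 0) (XT.lf (nat_lit 0) (nat_lit 626221513) (nat_lit 684) (nat_lit 7696585829) (nat_lit 76) (nat_lit 2987673138) (nat_lit 273) (nat_lit 5) (nat_lit 282) (nat_lit 5) (nat_lit 274) (nat_lit 5) (nat_lit 598) (nat_lit 534) (nat_lit 428)) (XT.lf (nat_lit 0) (nat_lit 3400762995) (nat_lit 684) (nat_lit 489619293) (nat_lit 76) (nat_lit 7541290845) (nat_lit 273) (nat_lit 5) (nat_lit 282) (nat_lit 5) (nat_lit 274) (nat_lit 5) (nat_lit 599) (nat_lit 534) (nat_lit 427))) (XT.nd (nat_lit 78) (nat_lit 684) (nat_lit 0) (XT.lf (nat_lit 0) (nat_lit 6259253576) (nat_lit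 608) (nat_lit 4634275290) (nat_lit 76) (nat_lit 661192080) (nat_lit 266) (nat_lit 5) (nat_lit 274) (nat_lit 5) (nat_lit 267) (nat_lit 5) (nat_lit 600) (nat_lit 534) (nat_lit 426)) (XT.nd (nat_lit 78) (nat_lit 76) (nat_lit 0) (XT.lf (nat_lit 0) (nat_lit 2788354214) (nat_lit 608) (nat_lit 6413071450) (nat_lit 684) (nat_lit 2478274284) (nat_lit 258) (nat_lit 5) (nat_lit 266) (nat_lit 5) (nat_lit 267) (nat_lit 5) (nat_lit 601) (nat_lit 534) (nat_lit 425)) (XT.lf (nat_lit 0) (nat_lit 400810733) (nat_lit 684) (nat_lit 1414780348) (nat_lit 76) (nat_lit 9991321928) (nat_lit 257) (nat_lit 5) (nat_lit 266) (nat_lit 5) (nat_lit 258) (nat_lit 5) (nat_lit 602) (nat_lit 534) (nat_lit 424))))) (XT.nd (nat_lit 234) (nat_lit 1064) (nat_lit 0) (XT.nd (nat_lit 78) (nat_lit 532) (nat_lit 0) (XT.lf (nat_lit 0) (nat_lit 3343723502) (nat_lit 608) (nat_lit 5705218663) (nat_lit 76) (nat_lit 2886612375) (nat_lit 250) (nat_lit 5) (nat_lit 258) (nat_lit 5) (nat_lit 251) (nat_lit 5) (nat_lit 603) (nat_lit 534) (nat_lit 423)) (XT.nd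 (nat_lit 78) (nat_lit 0) (nat_lit 0) (XT.lf (nat_lit 0) (nat_lit 1967329947) (nat_lit 532) (nat_lit 4392523964) (nat_lit 608) (nat_lit 5706628229) (nat_lit 243) (nat_lit 5) (nat_lit 250) (nat_lit 5) (nat_lit 251) (nat_lit 5) (nat_lit 604) (nat_lit 534) (nat_lit 422)) (XT.lf (nat_lit 0) (nat_lit 9457336921) (nat_lit 608) (nat_lit 2358675524) (nat_lit 76) (nat_lit 383595671) (nat_lit 243) (nat_lit 5) (nat_lit 251) (nat_lit 5) (nat_lit 244) (nat_lit 5) (nat_lit 605) (nat_lit 534) (nat_lit 421)))) (XT.nd (nat_lit 78) (nat_lit 532) (nat_lit 0) (XT.lf (nat_lit 0) (nat_lit 323693010) (nat_lit 532) (nat_lit 6783224916) (nat_lit 76) (nat_lit 5227522347) (nat_lit 236) (nat_lit 5) (nat_lit 243) (nat_lit 5) (nat_lit 237) (nat_lit 5) (nat_lit 606) (nat_lit 534) (nat_lit 420)) (XT.nd (nat_lit 78) (nat_lit 0) (nat_lit 0) (XT.lf (nat_lit 0) (nat_lit 1149385320) (nat_lit 532) (nat_lit 2268943437) (nat_lit 608) (nat_lit 9053196758) (nat_lit 229) (nat_lit 5) (nat_lit 236) (nat_lit 5) (nat_lit 237) (nat_lit 5) (nat_lit 607)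 (nat_lit 534) (nat_lit 419)) (XT.lf (nat_lit 0) (nat_lit 6618782382) (nat_lit 608) (nat_lit 3322658391) (nat_lit 76) (nat_lit 2669033576) (nat_lit 229) (nat_lit 5) (nat_lit 237) (nat_lit 5) (nat_lit 230) (nat_lit 5) (nat_lit 608) (nat_lit 534) (nat_lit 418))))))))
noncomputable def xc99 : XT := (XT.nd (nat_lit 76362) (nat_lit 0) (nat_lit 22724) (XT.nd (nat_lit 75582) (nat_lit 0) (nat_lit 35796) (XT.nd (nat_lit 390) (nat_lit 912) (nat_lit 0) (XT.nd (nat_lit 156) (nat_lit 456) (nat_lit 0) (XT.nd (nat_lit 78) (nat_lit 532) (nat_lit 0) (XT.lf (nat_lit 0) (nat_lit 4858841973) (nat_lit 456) (nat_lit 5052149202) (nat_lit 532) (nat_lit 2840656442) (nat_lit 223) (nat_lit 5) (nat_lit 229) (nat_lit 5) (nat_lit 230) (nat_lit 5) (nat_lit 609) (nat_lit 534) (nat_lit 417)) (XT.lf (nat_lit 0) (nat_lit 328810141) (nat_lit 456) (nat_lit 45518295) (nat_lit 532) (nat_lit 12521151278) (nat_lit 216) (nat_lit 5) (nat_lit 222) (nat_lit 5) (nat_lit 223) (nat_lit 5) (nat_lit 610) (nat_lit 534) (nat_lit 416))) (XT.nd (nat_lit 78)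 (nat_lit 456) (nat_lit 0) (XT.lf (nat_lit 0) (nat_lit 3683178548) (nat_lit 532) (nat_lit 4298193126) (nat_lit 76) (nat_lit 5059089566) (nat_lit 216) (nat_lit 5) (nat_lit 223) (nat_lit 5) (nat_lit 217) (nat_lit 5) (nat_lit 611) (nat_lit 534) (nat_lit 415)) (XT.nd (nat_lit 78) (nat_lit 0) (nat_lit 0) (XT.lf (nat_lit 0) (nat_lit 4163597683) (nat_lit 456) (nat_lit 2903696934) (nat_lit 532) (nat_lit 6120866351) (nat_lit 210) (nat_lit 5) (nat_lit 216) (nat_lit 5) (nat_lit 217) (nat_lit 5) (nat_lit 612) (nat_lit 534) (nat_lit 414)) (XT.lf (nat_lit 0) (nat_lit 10544791043) (nat_lit 532) (nat_lit 526811004) (nat_lit 76) (nat_lit 2266699029) (nat_lit 210) (nat_lit 5) (nat_lit 217) (nat_lit 5) (nat_lit 211) (nat_lit 5) (nat_lit 613) (nat_lit 534) (nat_lit 413))))) (XT.nd (nat_lit 156) (nat_lit 0) (nat_lit 0) (XT.nd (nat_lit 78) (nat_lit 380) (nat_lit 0) (XT.lf (nat_lit 0) (nat_lit 647616929) (nat_lit 532) (nat_lit 5291332074) (nat_lit 76) (nat_lit 7551315396) (nat_lit 203) (nat_lit 5) (nat_lit 210) (nat_lit 5) (nat_lit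 204) (nat_lit 5) (nat_lit 614) (nat_lit 534) (nat_lit 412)) (XT.lf (nat_lit 0) (nat_lit 3461975881) (nat_lit 380) (nat_lit 666565063) (nat_lit 456) (nat_lit 9516189474) (nat_lit 198) (nat_lit 5) (nat_lit 203) (nat_lit 5) (nat_lit 204) (nat_lit 5) (nat_lit 615) (nat_lit 534) (nat_lit 411))) (XT.nd (nat_lit 74880) (nat_lit 0) (nat_lit 37848) (XT.lf (nat_lit 0) (nat_lit 7727848168) (nat_lit 456) (nat_lit 1396489399) (nat_lit 76) (nat_lit 4676973217) (nat_lit 198) (nat_lit 5) (nat_lit 204) (nat_lit 5) (nat_lit 199) (nat_lit 5) (nat_lit 616) (nat_lit 534) (nat_lit 410)) (XT.nd (nat_lit 78) (nat_lit 988) (nat_lit 0) (XT.lf (nat_lit 0) (nat_lit 2503466794) (nat_lit 988) (nat_lit 465582706) (nat_lit 988) (nat_lit 465582706) (nat_lit 709) (nat_lit 3) (nat_lit 722) (nat_lit 3) (nat_lit 722) (nat_lit 5) (nat_lit 535) (nat_lit 535) (nat_lit 490)) (XT.lf (nat_lit 0) (nat_lit 131915385) (nat_lit 988) (nat_lit 4373818157) (nat_lit 1064) (nat_lit 2392620723) (nat_lit 696) (nat_lit 5) (nat_lit 709) (nat_lit 3) (nat_lit 710)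 (nat_lit 5) (nat_lit 536) (nat_lit 535) (nat_lit 489)))))) (XT.nd (nat_lit 390) (nat_lit 1064) (nat_lit 0) (XT.nd (nat_lit 156) (nat_lit 988) (nat_lit 0) (XT.nd (nat_lit 78) (nat_lit 0) (nat_lit 0) (XT.lf (nat_lit 0) (nat_lit 2095531412) (nat_lit 988) (nat_lit 905544589) (nat_lit 1064) (nat_lit 3927617458) (nat_lit 696) (nat_lit 5) (nat_lit 709) (nat_lit 3) (nat_lit 710) (nat_lit 5) (nat_lit 537) (nat_lit 535) (nat_lit 488)) (XT.lf (nat_lit 76) (nat_lit 2640010022) (nat_lit 0) (nat_lit 1424676118) (nat_lit 1064) (nat_lit 2895630106) (nat_lit 697) (nat_lit 5) (nat_lit 696) (nat_lit 5) (nat_lit 710) (nat_lit 5) (nat_lit 538) (nat_lit 535) (nat_lit 487))) (XT.nd (nat_lit 78) (nat_lit 1064) (nat_lit 0) (XT.lf (nat_lit 0) (nat_lit 6030634312) (nat_lit 988) (nat_lit 752618042) (nat_lit 1064) (nat_lit 210173021) (nat_lit 697) (nat_lit 5) (nat_lit 710) (nat_lit 5) (nat_lit 711) (nat_lit 5) (nat_lit 539) (nat_lit 535) (nat_lit 486)) (XT.nd (nat_lit 78) (nat_lit 0) (nat_lit 0) (XT.lf (nat_lit 0) (nat_lit 974601981)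 (nat_lit 1064) (nat_lit 4146309157) (nat_lit 1140) (nat_lit 1906574046) (nat_lit 683) (nat_lit 5) (nat_lit 697) (nat_lit 5) (nat_lit 698) (nat_lit 5) (nat_lit 540) (nat_lit 535) (nat_lit 485)) (XT.lf (nat_lit 0) (nat_lit 2894492402) (nat_lit 1064) (nat_lit 498299890) (nat_lit 1140) (nat_lit 3670175761) (nat_lit 683) (nat_lit 5) (nat_lit 697) (nat_lit 5) (nat_lit 698) (nat_lit 5) (nat_lit 541) (nat_lit 535) (nat_lit 484))))) (XT.nd (nat_lit 156) (nat_lit 1064) (nat_lit 0) (XT.nd (nat_lit 78) (nat_lit 0) (nat_lit 76) (XT.lf (nat_lit 76) (nat_lit 3238065729) (nat_lit 0) (nat_lit 1588233992) (nat_lit 1140) (nat_lit 2273392411) (nat_lit 684) (nat_lit 5) (nat_lit 683) (nat_lit 5) (nat_lit 698) (nat_lit 5) (nat_lit 542) (nat_lit 535) (nat_lit 483)) (XT.lf (nat_lit 0) (nat_lit 6755129214) (nat_lit 1064) (nat_lit 110790863) (nat_lit 1140) (nat_lit 272064794) (nat_lit 684) (nat_lit 5) (nat_lit 698) (nat_lit 5) (nat_lit 699) (nat_lit 5) (nat_lit 543) (nat_lit 535) (nat_lit 482))) (XT.nd (nat_lit 78) (nat_lit 0) (nat_lit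 0) (XT.lf (nat_lit 0) (nat_lit 1514152817) (nat_lit 1140) (nat_lit 3461227396) (nat_lit 1216) (nat_lit 2201685776) (nat_lit 669) (nat_lit 5) (nat_lit 684) (nat_lit 5) (nat_lit 685) (nat_lit 5) (nat_lit 544) (nat_lit 535) (nat_lit 481)) (XT.nd (nat_lit 78) (nat_lit 0) (nat_lit 0) (XT.lf (nat_lit 76) (nat_lit 378173656) (nat_lit 0) (nat_lit 3023724830) (nat_lit 1216) (nat_lit 3815822949) (nat_lit 670) (nat_lit 5) (nat_lit 669) (nat_lit 5) (nat_lit 685) (nat_lit 5) (nat_lit 545) (nat_lit 535) (nat_lit 480)) (XT.lf (nat_lit 76) (nat_lit 4313629356) (nat_lit 0) (nat_lit 992419711) (nat_lit 1216) (nat_lit 1953569674) (nat_lit 670) (nat_lit 5) (nat_lit 669) (nat_lit 5) (nat_lit 685) (nat_lit 5) (nat_lit 546) (nat_lit 535) (nat_lit 479))))))) (XT.nd (nat_lit 780) (nat_lit 9424) (nat_lit 0) (XT.nd (nat_lit 390) (nat_lit 2508) (nat_lit 0) (XT.nd (nat_lit 156) (nat_lit 0) (nat_lit 0) (XT.nd (nat_lit 78) (nat_lit 1216) (nat_lit 0) (XT.lf (nat_lit 76) (nat_lit 1003499802) (nat_lit 0) (nat_lit 6214712279) (nat_lit 1216)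 (nat_lit 84745041) (nat_lit 671) (nat_lit 5) (nat_lit 670) (nat_lit 5) (nat_lit 686) (nat_lit 5) (nat_lit 547) (nat_lit 535) (nat_lit 478)) (XT.lf (nat_lit 0) (nat_lit 1780832562) (nat_lit 1216) (nat_lit 2321867371) (nat_lit 1292) (nat_lit 3244562163) (nat_lit 654) (nat_lit 5) (nat_lit 670) (nat_lit 5) (nat_lit 671) (nat_lit 5) (nat_lit 548) (nat_lit 535) (nat_lit 477))) (XT.nd (nat_lit 78) (nat_lit 0) (nat_lit 76) (XT.lf (nat_lit 76) (nat_lit 1729470388) (nat_lit 0) (nat_lit 1921986550) (nat_lit 1292) (nat_lit 3741609247) (nat_lit 655) (nat_lit 5) (nat_lit 654) (nat_lit 5) (nat_lit 671) (nat_lit 5) (nat_lit 549) (nat_lit 535) (nat_lit 476)) (XT.nd (nat_lit 78) (nat_lit 0) (nat_lit 0) (XT.lf (nat_lit 0) (nat_lit 5535522127) (nat_lit 1216) (nat_lit 1576900322) (nat_lit 1292) (nat_lit 327844926) (nat_lit 655) (nat_lit 5) (nat_lit 671) (nat_lit 5) (nat_lit 672) (nat_lit 5) (nat_lit 550) (nat_lit 535) (nat_lit 475)) (XT.lf (nat_lit 76) (nat_lit 2584592353) (nat_lit 0) (nat_lit 4861382786) (nat_lit 1292) (nat_lit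 42664875) (nat_lit 656) (nat_lit 5) (nat_lit 655) (nat_lit 5) (nat_lit 672) (nat_lit 5) (nat_lit 551) (nat_lit 535) (nat_lit 474))))) (XT.nd (nat_lit 156) (nat_lit 1292) (nat_lit 0) (XT.nd (nat_lit 78) (nat_lit 0) (nat_lit 0) (XT.lf (nat_lit 0) (nat_lit 1802507016) (nat_lit 1292) (nat_lit 727662899) (nat_lit 1368) (nat_lit 5008166588) (nat_lit 638) (nat_lit 5) (nat_lit 655) (nat_lit 5) (nat_lit 656) (nat_lit 5) (nat_lit 552) (nat_lit 535) (nat_lit 473)) (XT.lf (nat_lit 76) (nat_lit 3550632344) (nat_lit 0) (nat_lit 116773875) (nat_lit 1368) (nat_lit 3921948623) (nat_lit 639) (nat_lit 5) (nat_lit 638) (nat_lit 5) (nat_lit 656) (nat_lit 5) (nat_lit 553) (nat_lit 535) (nat_lit 472))) (XT.nd (nat_lit 78) (nat_lit 1368) (nat_lit 0) (XT.lf (nat_lit 76) (nat_lit 242409005) (nat_lit 0) (nat_lit 5309921060) (nat_lit 1368) (nat_lit 2089410388) (nat_lit 640) (nat_lit 5) (nat_lit 639) (nat_lit 5) (nat_lit 657) (nat_lit 5) (nat_lit 554) (nat_lit 535) (nat_lit 471)) (XT.nd (nat_lit 78) (nat_lit 1368) (nat_lit 0) (XT.lf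 (nat_lit 76) (nat_lit 4634738886) (nat_lit 0) (nat_lit 2829676710) (nat_lit 1368) (nat_lit 230970325) (nat_lit 640) (nat_lit 5) (nat_lit 639) (nat_lit 5) (nat_lit 657) (nat_lit 5) (nat_lit 555) (nat_lit 535) (nat_lit 470)) (XT.lf (nat_lit 76) (nat_lit 1343285485) (nat_lit 0) (nat_lit 270337878) (nat_lit 1444) (nat_lit 6136849795) (nat_lit 622) (nat_lit 5) (nat_lit 621) (nat_lit 5) (nat_lit 640) (nat_lit 5) (nat_lit 556) (nat_lit 535) (nat_lit 469)))))) (XT.nd (nat_lit 390) (nat_lit 5092) (nat_lit 0) (XT.nd (nat_lit 156) (nat_lit 3040) (nat_lit 0) (XT.nd (nat_lit 78) (nat_lit 1368) (nat_lit 0) (XT.lf (nat_lit 0) (nat_lit 3490603273) (nat_lit 1368) (nat_lit 1975283080) (nat_lit 76) (nat_lit 2340774836) (nat_lit 622) (nat_lit 5) (nat_lit 640) (nat_lit 5) (nat_lit 623) (nat_lit 5) (nat_lit 557) (nat_lit 535) (nat_lit 468)) (XT.lf (nat_lit 0) (nat_lit 2548504586) (nat_lit 1368) (nat_lit 2838401693) (nat_lit 1444) (nat_lit 2477432336) (nat_lit 604) (nat_lit 5) (nat_lit 622) (nat_lit 5) (nat_lit 623) (nat_lit 5)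 (nat_lit 558) (nat_lit 535) (nat_lit 467))) (XT.nd (nat_lit 78) (nat_lit 3040) (nat_lit 0) (XT.lf (nat_lit 0) (nat_lit 7161341459) (nat_lit 1368) (nat_lit 137029299) (nat_lit 1444) (nat_lit 625255398) (nat_lit 604) (nat_lit 5) (nat_lit 622) (nat_lit 5) (nat_lit 623) (nat_lit 5) (nat_lit 559) (nat_lit 535) (nat_lit 466)) (XT.nd (nat_lit 78) (nat_lit 1520) (nat_lit 0) (XT.lf (nat_lit 0) (nat_lit 1254412346) (nat_lit 1520) (nat_lit 4104293964) (nat_lit 76) (nat_lit 2625089746) (nat_lit 584) (nat_lit 5) (nat_lit 604) (nat_lit 5) (nat_lit 585) (nat_lit 5) (nat_lit 560) (nat_lit 535) (nat_lit 465)) (XT.lf (nat_lit 0) (nat_lit 552873852) (nat_lit 1520) (nat_lit 2585094664) (nat_lit 1596) (nat_lit 4907626036) (nat_lit 564) (nat_lit 5) (nat_lit 584) (nat_lit 5) (nat_lit 585) (nat_lit 5) (nat_lit 561) (nat_lit 535) (nat_lit 464))))) (XT.nd (nat_lit 234) (nat_lit 3420) (nat_lit 0) (XT.nd (nat_lit 78) (nat_lit 1672) (nat_lit 0) (XT.lf (nat_lit 0) (nat_lit 5054057306) (nat_lit 1596) (nat_lit 2780251576) (nat_lit 76)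 (nat_lit 274424086) (nat_lit 564) (nat_lit 5) (nat_lit 585) (nat_lit 5) (nat_lit 565) (nat_lit 5) (nat_lit 562) (nat_lit 535) (nat_lit 463)) (XT.nd (nat_lit 78) (nat_lit 76) (nat_lit 0) (XT.lf (nat_lit 0) (nat_lit 2007015877) (nat_lit 1596) (nat_lit 4997831123) (nat_lit 1672) (nat_lit 1168360726) (nat_lit 543) (nat_lit 5) (nat_lit 564) (nat_lit 5) (nat_lit 565) (nat_lit 5) (nat_lit 563) (nat_lit 535) (nat_lit 462)) (XT.lf (nat_lit 0) (nat_lit 731034312) (nat_lit 1672) (nat_lit 1344824657) (nat_lit 76) (nat_lit 6163310698) (nat_lit 542) (nat_lit 5) (nat_lit 564) (nat_lit 5) (nat_lit 543) (nat_lit 5) (nat_lit 564) (nat_lit 535) (nat_lit 461)))) (XT.nd (nat_lit 78) (nat_lit 1748) (nat_lit 0) (XT.lf (nat_lit 0) (nat_lit 2649305481) (nat_lit 1748) (nat_lit 4728705530) (nat_lit 76) (nat_lit 928355817) (nat_lit 520) (nat_lit 5) (nat_lit 543) (nat_lit 5) (nat_lit 521) (nat_lit 5) (nat_lit 565) (nat_lit 535) (nat_lit 460)) (XT.nd (nat_lit 78) (nat_lit 0) (nat_lit 0) (XT.lf (nat_lit 0) (nat_lit 202107722) (nat_lit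 1748) (nat_lit 4395608568) (nat_lit 1824) (nat_lit 3777357226) (nat_lit 497) (nat_lit 5) (nat_lit 520) (nat_lit 5) (nat_lit 521) (nat_lit 5) (nat_lit 566) (nat_lit 535) (nat_lit 459)) (XT.lf (nat_lit 0) (nat_lit 5266991025) (nat_lit 1748) (nat_lit 1317915451) (nat_lit 1824) (nat_lit 1860252685) (nat_lit 497) (nat_lit 5) (nat_lit 520) (nat_lit 5) (nat_lit 521) (nat_lit 5) (nat_lit 567) (nat_lit 535) (nat_lit 458))))))))
noncomputable def xc100 : XT := (XT.nd (nat_lit 1560) (nat_lit 8740) (nat_lit 0) (XT.nd (nat_lit 780) (nat_lit 4864) (nat_lit 0) (XT.nd (nat_lit 390) (nat_lit 2812) (nat_lit 0) (XT.nd (nat_lit 156) (nat_lit 2052) (nat_lit 0) (XT.nd (nat_lit 78) (nat_lit 0) (nat_lit 0) (XT.lf (nat_lit 0) (nat_lit 86790387) (nat_lit 1900) (nat_lit 6616461026) (nat_lit 76) (nat_lit 1813526852) (nat_lit 472) (nat_lit 5) (nat_lit 497) (nat_lit 5) (nat_lit 473) (nat_lit 5) (nat_lit 568) (nat_lit 535) (nat_lit 457)) (XT.lf (nat_lit 0) (nat_lit 2047033602) (nat_lit 1900) (nat_lit 1516094488) (nat_lit 76) (nat_lit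 5026473362) (nat_lit 472) (nat_lit 5) (nat_lit 497) (nat_lit 5) (nat_lit 473) (nat_lit 5) (nat_lit 569) (nat_lit 535) (nat_lit 456))) (XT.nd (nat_lit 78) (nat_lit 912) (nat_lit 0) (XT.lf (nat_lit 0) (nat_lit 3706502794) (nat_lit 1140) (nat_lit 333601259) (nat_lit 1216) (nat_lit 4623905567) (nat_lit 457) (nat_lit 5) (nat_lit 472) (nat_lit 5) (nat_lit 473) (nat_lit 5) (nat_lit 570) (nat_lit 535) (nat_lit 455)) (XT.nd (nat_lit 78) (nat_lit 0) (nat_lit 0) (XT.lf (nat_lit 0) (nat_lit 269835874) (nat_lit 912) (nat_lit 5804397773) (nat_lit 988) (nat_lit 2665649300) (nat_lit 445) (nat_lit 5) (nat_lit 457) (nat_lit 5) (nat_lit 458) (nat_lit 5) (nat_lit 571) (nat_lit 535) (nat_lit 454)) (XT.lf (nat_lit 0) (nat_lit 5638062003) (nat_lit 912) (nat_lit 2516831749) (nat_lit 988) (nat_lit 662263959) (nat_lit 445) (nat_lit 5) (nat_lit 457) (nat_lit 5) (nat_lit 458) (nat_lit 5) (nat_lit 572) (nat_lit 535) (nat_lit 453))))) (XT.nd (nat_lit 156) (nat_lit 1824) (nat_lit 0) (XT.nd (nat_lit 78) (nat_lit 0) (nat_lit 0) (XT.lf (nat_lit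 0) (nat_lit 1353781935) (nat_lit 988) (nat_lit 6692459200) (nat_lit 76) (nat_lit 849744228) (nat_lit 432) (nat_lit 5) (nat_lit 445) (nat_lit 5) (nat_lit 433) (nat_lit 5) (nat_lit 573) (nat_lit 535) (nat_lit 452)) (XT.lf (nat_lit 0) (nat_lit 3410598223) (nat_lit 988) (nat_lit 1289111104) (nat_lit 76) (nat_lit 4276407223) (nat_lit 432) (nat_lit 5) (nat_lit 445) (nat_lit 5) (nat_lit 433) (nat_lit 5) (nat_lit 574) (nat_lit 535) (nat_lit 451))) (XT.nd (nat_lit 78) (nat_lit 988) (nat_lit 0) (XT.lf (nat_lit 0) (nat_lit 4249758674) (nat_lit 836) (nat_lit 1258116232) (nat_lit 912) (nat_lit 3549989831) (nat_lit 421) (nat_lit 5) (nat_lit 432) (nat_lit 5) (nat_lit 433) (nat_lit 5) (nat_lit 575) (nat_lit 535) (nat_lit 450)) (XT.nd (nat_lit 78) (nat_lit 76) (nat_lit 0) (XT.lf (nat_lit 0) (nat_lit 742205561) (nat_lit 912) (nat_lit 6905144225) (nat_lit 988) (nat_lit 1493893891) (nat_lit 409) (nat_lit 5) (nat_lit 421) (nat_lit 5) (nat_lit 422) (nat_lit 5) (nat_lit 576) (nat_lit 535) (nat_lit 449)) (XT.lf (nat_lit 0) (nat_lit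 608503178) (nat_lit 988) (nat_lit 2798242793) (nat_lit 76) (nat_lit 5819204852) (nat_lit 408) (nat_lit 5) (nat_lit 421) (nat_lit 5) (nat_lit 409) (nat_lit 5) (nat_lit 577) (nat_lit 535) (nat_lit 448)))))) (XT.nd (nat_lit 390) (nat_lit 2356) (nat_lit 0) (XT.nd (nat_lit 156) (nat_lit 1672) (nat_lit 0) (XT.nd (nat_lit 78) (nat_lit 0) (nat_lit 0) (XT.lf (nat_lit 0) (nat_lit 2725945389) (nat_lit 912) (nat_lit 6398920464) (nat_lit 76) (nat_lit 187429551) (nat_lit 397) (nat_lit 5) (nat_lit 409) (nat_lit 5) (nat_lit 398) (nat_lit 5) (nat_lit 578) (nat_lit 535) (nat_lit 447)) (XT.lf (nat_lit 0) (nat_lit 4900366983) (nat_lit 912) (nat_lit 674132430) (nat_lit 76) (nat_lit 3825575629) (nat_lit 397) (nat_lit 5) (nat_lit 409) (nat_lit 5) (nat_lit 398) (nat_lit 5) (nat_lit 579) (nat_lit 535) (nat_lit 446))) (XT.nd (nat_lit 78) (nat_lit 836) (nat_lit 0) (XT.lf (nat_lit 0) (nat_lit 5205370273) (nat_lit 836) (nat_lit 1920396856) (nat_lit 912) (nat_lit 2363694107) (nat_lit 386) (nat_lit 5) (nat_lit 397) (nat_lit 5) (nat_lit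 398) (nat_lit 5) (nat_lit 580) (nat_lit 535) (nat_lit 445)) (XT.nd (nat_lit 78) (nat_lit 76) (nat_lit 0) (XT.lf (nat_lit 0) (nat_lit 1612064288) (nat_lit 760) (nat_lit 7784378182) (nat_lit 836) (nat_lit 184178084) (nat_lit 376) (nat_lit 5) (nat_lit 386) (nat_lit 5) (nat_lit 387) (nat_lit 5) (nat_lit 581) (nat_lit 535) (nat_lit 444)) (XT.lf (nat_lit 0) (nat_lit 2028015935) (nat_lit 836) (nat_lit 2043490878) (nat_lit 76) (nat_lit 5601515633) (nat_lit 375) (nat_lit 5) (nat_lit 386) (nat_lit 5) (nat_lit 376) (nat_lit 5) (nat_lit 582) (nat_lit 535) (nat_lit 443))))) (XT.nd (nat_lit 156) (nat_lit 836) (nat_lit 0) (XT.nd (nat_lit 78) (nat_lit 760) (nat_lit 0) (XT.lf (nat_lit 0) (nat_lit 4023655403) (nat_lit 760) (nat_lit 259137103) (nat_lit 836) (nat_lit 5484440129) (nat_lit 365) (nat_lit 5) (nat_lit 375) (nat_lit 5) (nat_lit 376) (nat_lit 5) (nat_lit 583) (nat_lit 535) (nat_lit 442)) (XT.lf (nat_lit 0) (nat_lit 329183012) (nat_lit 760) (nat_lit 6267963874) (nat_lit 836) (nat_lit 3265891187) (nat_lit 355) (nat_lit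 5) (nat_lit 365) (nat_lit 5) (nat_lit 366) (nat_lit 5) (nat_lit 584) (nat_lit 535) (nat_lit 441))) (XT.nd (nat_lit 78) (nat_lit 836) (nat_lit 0) (XT.lf (nat_lit 0) (nat_lit 6571430832) (nat_lit 760) (nat_lit 2401889411) (nat_lit 836) (nat_lit 987129416) (nat_lit 355) (nat_lit 5) (nat_lit 365) (nat_lit 5) (nat_lit 366) (nat_lit 5) (nat_lit 585) (nat_lit 535) (nat_lit 440)) (XT.nd (nat_lit 78) (nat_lit 0) (nat_lit 0) (XT.lf (nat_lit 0) (nat_lit 1324143793) (nat_lit 836) (nat_lit 7189973091) (nat_lit 76) (nat_lit 1545430124) (nat_lit 344) (nat_lit 5) (nat_lit 355) (nat_lit 5) (nat_lit 345) (nat_lit 5) (nat_lit 586) (nat_lit 535) (nat_lit 439)) (XT.lf (nat_lit 0) (nat_lit 3683119859) (nat_lit 836) (nat_lit 911622831) (nat_lit 76) (nat_lit 5565459853) (nat_lit 344) (nat_lit 5) (nat_lit 355) (nat_lit 5) (nat_lit 345) (nat_lit 5) (nat_lit 587) (nat_lit 535) (nat_lit 438))))))) (XT.nd (nat_lit 780) (nat_lit 4028) (nat_lit 0) (XT.nd (nat_lit 390) (nat_lit 1900) (nat_lit 0) (XT.nd (nat_lit 156) (nat_lit 1444) (nat_lit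 0) (XT.nd (nat_lit 78) (nat_lit 684) (nat_lit 0) (XT.lf (nat_lit 0) (nat_lit 5537334748) (nat_lit 684) (nat_lit 564249059) (nat_lit 760) (nat_lit 4161041840) (nat_lit 335) (nat_lit 5) (nat_lit 344) (nat_lit 5) (nat_lit 345) (nat_lit 5) (nat_lit 588) (nat_lit 535) (nat_lit 437)) (XT.lf (nat_lit 0) (nat_lit 1732463545) (nat_lit 684) (nat_lit 6853004058) (nat_lit 760) (nat_lit 1781289212) (nat_lit 326) (nat_lit 5) (nat_lit 335) (nat_lit 5) (nat_lit 336) (nat_lit 5) (nat_lit 589) (nat_lit 535) (nat_lit 436))) (XT.nd (nat_lit 78) (nat_lit 1368) (nat_lit 0) (XT.lf (nat_lit 0) (nat_lit 649982300) (nat_lit 760) (nat_lit 2125021559) (nat_lit 76) (nat_lit 7697635502) (nat_lit 325) (nat_lit 5) (nat_lit 335) (nat_lit 5) (nat_lit 326) (nat_lit 5) (nat_lit 590) (nat_lit 535) (nat_lit 435)) (XT.nd (nat_lit 78) (nat_lit 684) (nat_lit 0) (XT.lf (nat_lit 0) (nat_lit 3121922011) (nat_lit 760) (nat_lit 6054812713) (nat_lit 76) (nat_lit 1403352043) (nat_lit 316) (nat_lit 5) (nat_lit 326) (nat_lit 5) (nat_lit 317) (nat_lit 5)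 (nat_lit 591) (nat_lit 535) (nat_lit 434)) (XT.lf (nat_lit 0) (nat_lit 609847979) (nat_lit 684) (nat_lit 5047580847) (nat_lit 760) (nat_lit 5031972295) (nat_lit 307) (nat_lit 5) (nat_lit 316) (nat_lit 5) (nat_lit 317) (nat_lit 5) (nat_lit 592) (nat_lit 535) (nat_lit 433))))) (XT.nd (nat_lit 156) (nat_lit 1216) (nat_lit 0) (XT.nd (nat_lit 78) (nat_lit 684) (nat_lit 0) (XT.lf (nat_lit 0) (nat_lit 7462397223) (nat_lit 684) (nat_lit 799580352) (nat_lit 760) (nat_lit 2538558106) (nat_lit 307) (nat_lit 5) (nat_lit 316) (nat_lit 5) (nat_lit 317) (nat_lit 5) (nat_lit 593) (nat_lit 535) (nat_lit 432)) (XT.lf (nat_lit 0) (nat_lit 28813059) (nat_lit 684) (nat_lit 7379433698) (nat_lit 76) (nat_lit 3505163083) (nat_lit 298) (nat_lit 5) (nat_lit 307) (nat_lit 5) (nat_lit 299) (nat_lit 5) (nat_lit 594) (nat_lit 535) (nat_lit 431))) (XT.nd (nat_lit 78) (nat_lit 1216) (nat_lit 0) (XT.lf (nat_lit 0) (nat_lit 2619630546) (nat_lit 684) (nat_lit 489021702) (nat_lit 76) (nat_lit 7919432356) (nat_lit 298) (nat_lit 5) (nat_lit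 307) (nat_lit 5) (nat_lit 299) (nat_lit 5) (nat_lit 595) (nat_lit 535) (nat_lit 430)) (XT.nd (nat_lit 78) (nat_lit 608) (nat_lit 0) (XT.lf (nat_lit 0) (nat_lit 5292288031) (nat_lit 684) (nat_lit 4554335742) (nat_lit 76) (nat_lit 1297829131) (nat_lit 290) (nat_lit 5) (nat_lit 299) (nat_lit 5) (nat_lit 291) (nat_lit 5) (nat_lit 596) (nat_lit 535) (nat_lit 429)) (XT.lf (nat_lit 0) (nat_lit 2539961702) (nat_lit 608) (nat_lit 5497668500) (nat_lit 684) (nat_lit 3225134241) (nat_lit 282) (nat_lit 5) (nat_lit 290) (nat_lit 5) (nat_lit 291) (nat_lit 5) (nat_lit 597) (nat_lit 535) (nat_lit 428)))))) (XT.nd (nat_lit 390) (nat_lit 2204) (nat_lit 0) (XT.nd (nat_lit 156) (nat_lit 1140) (nat_lit 0) (XT.nd (nat_lit 78) (nat_lit 684) (nat_lit 0) (XT.lf (nat_lit 0) (nat_lit 9810932574) (nat_lit 608) (nat_lit 1036598370) (nat_lit 684) (nat_lit 535718726) (nat_lit 282) (nat_lit 5) (nat_lit 290) (nat_lit 5) (nat_lit 291) (nat_lit 5) (nat_lit 598) (nat_lit 535) (nat_lit 427)) (XT.lf (nat_lit 0) (nat_lit 2218382748) (nat_lit 684)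 (nat_lit 5773002109) (nat_lit 76) (nat_lit 3513676586) (nat_lit 273) (nat_lit 5) (nat_lit 282) (nat_lit 5) (nat_lit 274) (nat_lit 5) (nat_lit 599) (nat_lit 535) (nat_lit 426))) (XT.nd (nat_lit 78) (nat_lit 608) (nat_lit 0) (XT.lf (nat_lit 0) (nat_lit 1557798974) (nat_lit 532) (nat_lit 3469757078) (nat_lit 608) (nat_lit 6601539780) (nat_lit 266) (nat_lit 5) (nat_lit 273) (nat_lit 5) (nat_lit 274) (nat_lit 5) (nat_lit 600) (nat_lit 535) (nat_lit 425)) (XT.nd (nat_lit 78) (nat_lit 608) (nat_lit 0) (XT.lf (nat_lit 0) (nat_lit 7919067389) (nat_lit 608) (nat_lit 2676111647) (nat_lit 76) (nat_lit 1159909238) (nat_lit 266) (nat_lit 5) (nat_lit 274) (nat_lit 5) (nat_lit 267) (nat_lit 5) (nat_lit 601) (nat_lit 535) (nat_lit 424)) (XT.lf (nat_lit 0) (nat_lit 4881478019) (nat_lit 608) (nat_lit 6021742011) (nat_lit 684) (nat_lit 979684759) (nat_lit 258) (nat_lit 5) (nat_lit 266) (nat_lit 5) (nat_lit 267) (nat_lit 5) (nat_lit 602) (nat_lit 535) (nat_lit 423))))) (XT.nd (nat_lit 234) (nat_lit 1064) (nat_lit 0) (XT.nd (nat_lit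 78) (nat_lit 532) (nat_lit 0) (XT.lf (nat_lit 0) (nat_lit 581903091) (nat_lit 532) (nat_lit 1328594779) (nat_lit 608) (nat_lit 10102487454) (nat_lit 250) (nat_lit 5) (nat_lit 257) (nat_lit 5) (nat_lit 258) (nat_lit 5) (nat_lit 603) (nat_lit 535) (nat_lit 422)) (XT.nd (nat_lit 78) (nat_lit 532) (nat_lit 0) (XT.lf (nat_lit 0) (nat_lit 4895524816) (nat_lit 608) (nat_lit 3788977885) (nat_lit 76) (nat_lit 3460032502) (nat_lit 250) (nat_lit 5) (nat_lit 258) (nat_lit 5) (nat_lit 251) (nat_lit 5) (nat_lit 604) (nat_lit 535) (nat_lit 421)) (XT.lf (nat_lit 0) (nat_lit 4023664163) (nat_lit 532) (nat_lit 3932293081) (nat_lit 608) (nat_lit 4322445152) (nat_lit 243) (nat_lit 5) (nat_lit 250) (nat_lit 5) (nat_lit 251) (nat_lit 5) (nat_lit 605) (nat_lit 535) (nat_lit 420)))) (XT.nd (nat_lit 78) (nat_lit 1064) (nat_lit 0) (XT.lf (nat_lit 0) (nat_lit 11090076563) (nat_lit 608) (nat_lit 403066194) (nat_lit 76) (nat_lit 921555013) (nat_lit 243) (nat_lit 5) (nat_lit 251) (nat_lit 5) (nat_lit 244) (nat_lit 5) (nat_lit 606) (nat_lit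 535) (nat_lit 419)) (XT.nd (nat_lit 78) (nat_lit 532) (nat_lit 0) (XT.lf (nat_lit 0) (nat_lit 1767859843) (nat_lit 532) (nat_lit 4910147134) (nat_lit 76) (nat_lit 5874338782) (nat_lit 236) (nat_lit 5) (nat_lit 243) (nat_lit 5) (nat_lit 237) (nat_lit 5) (nat_lit 607) (nat_lit 535) (nat_lit 418)) (XT.lf (nat_lit 0) (nat_lit 3167899898) (nat_lit 532) (nat_lit 1741254633) (nat_lit 608) (nat_lit 7783323428) (nat_lit 229) (nat_lit 5) (nat_lit 236) (nat_lit 5) (nat_lit 237) (nat_lit 5) (nat_lit 608) (nat_lit 535) (nat_lit 417))))))))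
noncomputable def xc101 : XT := (XT.nd (nat_lit 76440) (nat_lit 0) (nat_lit 22648) (XT.nd (nat_lit 75660) (nat_lit 0) (nat_lit 34580) (XT.nd (nat_lit 390) (nat_lit 912) (nat_lit 0) (XT.nd (nat_lit 156) (nat_lit 988) (nat_lit 0) (XT.nd (nat_lit 78) (nat_lit 456) (nat_lit 0) (XT.lf (nat_lit 0) (nat_lit 8149373651) (nat_lit 608) (nat_lit 1408440772) (nat_lit 76) (nat_lit 3276876784) (nat_lit 229) (nat_lit 5) (nat_lit 237) (nat_lit 5) (nat_lit 230) (nat_lit 5) (nat_lit 609) (nat_lit 535) (nat_lit 416)) (XT.lf (nat_lit 0) (nat_lit 6923658871) (nat_lit 456) (nat_lit 4569126981) (nat_lit 532) (nat_lit 1486195460) (nat_lit 223) (nat_lit 5) (nat_lit 229) (nat_lit 5) (nat_lit 230) (nat_lit 5) (nat_lit 610) (nat_lit 535) (nat_lit 415))) (XT.nd (nat_lit 78) (nat_lit 456) (nat_lit 0) (XT.lf (nat_lit 0) (nat_lit 1763642289) (nat_lit 532) (nat_lit 10820862180) (nat_lit 76) (nat_lit 541221611) (nat_lit 216) (nat_lit 5) (nat_lit 223) (nat_lit 5) (nat_lit 217) (nat_lit 5) (nat_lit 611) (nat_lit 535) (nat_lit 414)) (XT.nd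 (nat_lit 78) (nat_lit 456) (nat_lit 0) (XT.lf (nat_lit 0) (nat_lit 5111870285) (nat_lit 532) (nat_lit 2426471361) (nat_lit 76) (nat_lit 5735802095) (nat_lit 216) (nat_lit 5) (nat_lit 223) (nat_lit 5) (nat_lit 217) (nat_lit 5) (nat_lit 612) (nat_lit 535) (nat_lit 413)) (XT.lf (nat_lit 0) (nat_lit 6191675753) (nat_lit 456) (nat_lit 2358050713) (nat_lit 532) (nat_lit 4875350354) (nat_lit 210) (nat_lit 5) (nat_lit 216) (nat_lit 5) (nat_lit 217) (nat_lit 5) (nat_lit 613) (nat_lit 535) (nat_lit 412))))) (XT.nd (nat_lit 156) (nat_lit 380) (nat_lit 0) (XT.nd (nat_lit 78) (nat_lit 76) (nat_lit 0) (XT.lf (nat_lit 0) (nat_lit 1410299827) (nat_lit 456) (nat_lit 10673176686) (nat_lit 532) (nat_lit 1495009647) (nat_lit 204) (nat_lit 5) (nat_lit 210) (nat_lit 5) (nat_lit 211) (nat_lit 5) (nat_lit 614) (nat_lit 535) (nat_lit 411)) (XT.lf (nat_lit 0) (nat_lit 1974457860) (nat_lit 532) (nat_lit 3463214724) (nat_lit 76) (nat_lit 8296095162) (nat_lit 203) (nat_lit 5) (nat_lit 210) (nat_lit 5) (nat_lit 204) (nat_lit 5) (nat_lit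 615) (nat_lit 535) (nat_lit 410))) (XT.nd (nat_lit 74958) (nat_lit 0) (nat_lit 37848) (XT.lf (nat_lit 0) (nat_lit 5452436074) (nat_lit 380) (nat_lit 59275600) (nat_lit 456) (nat_lit 8379877662) (nat_lit 198) (nat_lit 5) (nat_lit 203) (nat_lit 5) (nat_lit 204) (nat_lit 5) (nat_lit 616) (nat_lit 535) (nat_lit 409)) (XT.nd (nat_lit 78) (nat_lit 0) (nat_lit 0) (XT.lf (nat_lit 0) (nat_lit 514163723) (nat_lit 0) (nat_lit 514163723) (nat_lit 988) (nat_lit 2435725054) (nat_lit 696) (nat_lit 5) (nat_lit 696) (nat_lit 3) (nat_lit 709) (nat_lit 3) (nat_lit 536) (nat_lit 536) (nat_lit 488)) (XT.lf (nat_lit 0) (nat_lit 3988409031) (nat_lit 988) (nat_lit 2438049500) (nat_lit 1064) (nat_lit 532623960) (nat_lit 696) (nat_lit 5) (nat_lit 709) (nat_lit 3) (nat_lit 710) (nat_lit 5) (nat_lit 537) (nat_lit 536) (nat_lit 487)))))) (XT.nd (nat_lit 390) (nat_lit 2204) (nat_lit 0) (XT.nd (nat_lit 156) (nat_lit 0) (nat_lit 0) (XT.nd (nat_lit 78) (nat_lit 1064) (nat_lit 0) (XT.lf (nat_lit 76) (nat_lit 1074003820) (nat_lit 0) (nat_lit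 4848700912) (nat_lit 1064) (nat_lit 1068698762) (nat_lit 697) (nat_lit 5) (nat_lit 696) (nat_lit 5) (nat_lit 710) (nat_lit 5) (nat_lit 538) (nat_lit 536) (nat_lit 486)) (XT.lf (nat_lit 0) (nat_lit 826962242) (nat_lit 1064) (nat_lit 2367133707) (nat_lit 1140) (nat_lit 3830822351) (nat_lit 682) (nat_lit 5) (nat_lit 696) (nat_lit 5) (nat_lit 697) (nat_lit 5) (nat_lit 539) (nat_lit 536) (nat_lit 485))) (XT.nd (nat_lit 78) (nat_lit 0) (nat_lit 76) (XT.lf (nat_lit 76) (nat_lit 1237137237) (nat_lit 0) (nat_lit 1468708896) (nat_lit 1140) (nat_lit 4353925570) (nat_lit 683) (nat_lit 5) (nat_lit 682) (nat_lit 5) (nat_lit 697) (nat_lit 5) (nat_lit 540) (nat_lit 536) (nat_lit 484)) (XT.nd (nat_lit 78) (nat_lit 0) (nat_lit 0) (XT.lf (nat_lit 0) (nat_lit 4592683604) (nat_lit 1064) (nat_lit 2178491173) (nat_lit 1140) (nat_lit 324741814) (nat_lit 683) (nat_lit 5) (nat_lit 697) (nat_lit 5) (nat_lit 698) (nat_lit 5) (nat_lit 541) (nat_lit 536) (nat_lit 483)) (XT.lf (nat_lit 76) (nat_lit 1522231954) (nat_lit 0) (nat_lit 4968062639)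 (nat_lit 1140) (nat_lit 643030942) (nat_lit 684) (nat_lit 5) (nat_lit 683) (nat_lit 5) (nat_lit 698) (nat_lit 5) (nat_lit 542) (nat_lit 536) (nat_lit 482))))) (XT.nd (nat_lit 156) (nat_lit 1140) (nat_lit 0) (XT.nd (nat_lit 78) (nat_lit 0) (nat_lit 0) (XT.lf (nat_lit 0) (nat_lit 1206502963) (nat_lit 1140) (nat_lit 1879912937) (nat_lit 1216) (nat_lit 4085534113) (nat_lit 668) (nat_lit 5) (nat_lit 683) (nat_lit 5) (nat_lit 684) (nat_lit 5) (nat_lit 543) (nat_lit 536) (nat_lit 481)) (XT.lf (nat_lit 76) (nat_lit 1920366663) (nat_lit 0) (nat_lit 1131295220) (nat_lit 1216) (nat_lit 4160256986) (nat_lit 669) (nat_lit 5) (nat_lit 668) (nat_lit 5) (nat_lit 684) (nat_lit 5) (nat_lit 544) (nat_lit 536) (nat_lit 480))) (XT.nd (nat_lit 78) (nat_lit 1216) (nat_lit 0) (XT.lf (nat_lit 0) (nat_lit 4907628304) (nat_lit 1140) (nat_lit 1463275044) (nat_lit 1216) (nat_lit 882307419) (nat_lit 669) (nat_lit 5) (nat_lit 684) (nat_lit 5) (nat_lit 685) (nat_lit 5) (nat_lit 545) (nat_lit 536) (nat_lit 479)) (XT.nd (nat_lit 78) (nat_lit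 1216) (nat_lit 0) (XT.lf (nat_lit 76) (nat_lit 2439314182) (nat_lit 0) (nat_lit 4341202939) (nat_lit 1216) (nat_lit 515217037) (nat_lit 670) (nat_lit 5) (nat_lit 669) (nat_lit 5) (nat_lit 685) (nat_lit 5) (nat_lit 546) (nat_lit 536) (nat_lit 478)) (XT.lf (nat_lit 0) (nat_lit 1300780451) (nat_lit 1216) (nat_lit 935115216) (nat_lit 1292) (nat_lit 5103703406) (nat_lit 653) (nat_lit 5) (nat_lit 669) (nat_lit 5) (nat_lit 670) (nat_lit 5) (nat_lit 547) (nat_lit 536) (nat_lit 477))))))) (XT.nd (nat_lit 780) (nat_lit 9500) (nat_lit 0) (XT.nd (nat_lit 390) (nat_lit 1216) (nat_lit 0) (XT.nd (nat_lit 156) (nat_lit 1216) (nat_lit 0) (XT.nd (nat_lit 78) (nat_lit 0) (nat_lit 76) (XT.lf (nat_lit 76) (nat_lit 3074911691) (nat_lit 0) (nat_lit 48972864) (nat_lit 1292) (nat_lit 4260836530) (nat_lit 654) (nat_lit 5) (nat_lit 653) (nat_lit 5) (nat_lit 670) (nat_lit 5) (nat_lit 548) (nat_lit 536) (nat_lit 476)) (XT.lf (nat_lit 0) (nat_lit 4962402996) (nat_lit 1216) (nat_lit 294389216) (nat_lit 1292) (nat_lit 2174375865) (nat_lit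 654) (nat_lit 5) (nat_lit 670) (nat_lit 5) (nat_lit 671) (nat_lit 5) (nat_lit 549) (nat_lit 536) (nat_lit 475))) (XT.nd (nat_lit 78) (nat_lit 1292) (nat_lit 0) (XT.lf (nat_lit 76) (nat_lit 3824331117) (nat_lit 0) (nat_lit 2997800023) (nat_lit 1292) (nat_lit 656725640) (nat_lit 655) (nat_lit 5) (nat_lit 654) (nat_lit 5) (nat_lit 671) (nat_lit 5) (nat_lit 550) (nat_lit 536) (nat_lit 474)) (XT.nd (nat_lit 78) (nat_lit 0) (nat_lit 76) (XT.lf (nat_lit 76) (nat_lit 473211497) (nat_lit 0) (nat_lit 667419761) (nat_lit 1368) (nat_lit 6387420682) (nat_lit 638) (nat_lit 5) (nat_lit 637) (nat_lit 5) (nat_lit 655) (nat_lit 5) (nat_lit 551) (nat_lit 536) (nat_lit 473)) (XT.lf (nat_lit 0) (nat_lit 2961277371) (nat_lit 1292) (nat_lit 2888212153) (nat_lit 1368) (nat_lit 1728733413) (nat_lit 638) (nat_lit 5) (nat_lit 655) (nat_lit 5) (nat_lit 656) (nat_lit 5) (nat_lit 552) (nat_lit 536) (nat_lit 472))))) (XT.nd (nat_lit 156) (nat_lit 1292) (nat_lit 0) (XT.nd (nat_lit 78) (nat_lit 0) (nat_lit 0) (XT.lf (nat_lit 76) (nat_lit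 1347648606) (nat_lit 0) (nat_lit 3444976806) (nat_lit 1368) (nat_lit 2837287600) (nat_lit 639) (nat_lit 5) (nat_lit 638) (nat_lit 5) (nat_lit 656) (nat_lit 5) (nat_lit 553) (nat_lit 536) (nat_lit 471)) (XT.lf (nat_lit 76) (nat_lit 5680202272) (nat_lit 0) (nat_lit 961484678) (nat_lit 1368) (nat_lit 1041329618) (nat_lit 639) (nat_lit 5) (nat_lit 638) (nat_lit 5) (nat_lit 656) (nat_lit 5) (nat_lit 554) (nat_lit 536) (nat_lit 470))) (XT.nd (nat_lit 78) (nat_lit 0) (nat_lit 0) (XT.lf (nat_lit 0) (nat_lit 768122953) (nat_lit 1368) (nat_lit 5387028957) (nat_lit 1444) (nat_lit 1582170110) (nat_lit 621) (nat_lit 5) (nat_lit 639) (nat_lit 5) (nat_lit 640) (nat_lit 5) (nat_lit 555) (nat_lit 536) (nat_lit 469)) (XT.nd (nat_lit 78) (nat_lit 0) (nat_lit 0) (XT.lf (nat_lit 0) (nat_lit 2582569184) (nat_lit 1368) (nat_lit 1015965699) (nat_lit 1444) (nat_lit 4194387402) (nat_lit 621) (nat_lit 5) (nat_lit 639) (nat_lit 5) (nat_lit 640) (nat_lit 5) (nat_lit 556) (nat_lit 536) (nat_lit 468)) (XT.lf (nat_lit 76) (nat_lit 3460671363)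 (nat_lit 0) (nat_lit 958669192) (nat_lit 1444) (nat_lit 3430574578) (nat_lit 622) (nat_lit 5) (nat_lit 621) (nat_lit 5) (nat_lit 640) (nat_lit 5) (nat_lit 557) (nat_lit 536) (nat_lit 467)))))) (XT.nd (nat_lit 390) (nat_lit 5168) (nat_lit 0) (XT.nd (nat_lit 156) (nat_lit 2964) (nat_lit 0) (XT.nd (nat_lit 78) (nat_lit 76) (nat_lit 0) (XT.lf (nat_lit 0) (nat_lit 94809262) (nat_lit 1368) (nat_lit 6180938039) (nat_lit 1444) (nat_lit 1632643813) (nat_lit 604) (nat_lit 5) (nat_lit 622) (nat_lit 5) (nat_lit 623) (nat_lit 5) (nat_lit 558) (nat_lit 536) (nat_lit 466)) (XT.lf (nat_lit 0) (nat_lit 199055589) (nat_lit 1444) (nat_lit 3275380002) (nat_lit 76) (nat_lit 4493567131) (nat_lit 603) (nat_lit 5) (nat_lit 622) (nat_lit 5) (nat_lit 604) (nat_lit 5) (nat_lit 559) (nat_lit 536) (nat_lit 465))) (XT.nd (nat_lit 78) (nat_lit 1520) (nat_lit 0) (XT.lf (nat_lit 0) (nat_lit 1332680751) (nat_lit 1444) (nat_lit 686668637) (nat_lit 1520) (nat_lit 6009766109) (nat_lit 584) (nat_lit 5) (nat_lit 603) (nat_lit 5) (nat_lit 604)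 (nat_lit 5) (nat_lit 560) (nat_lit 536) (nat_lit 464)) (XT.nd (nat_lit 78) (nat_lit 1520) (nat_lit 0) (XT.lf (nat_lit 0) (nat_lit 3877876995) (nat_lit 1520) (nat_lit 2055982011) (nat_lit 76) (nat_lit 2157556143) (nat_lit 584) (nat_lit 5) (nat_lit 604) (nat_lit 5) (nat_lit 585) (nat_lit 5) (nat_lit 561) (nat_lit 536) (nat_lit 463)) (XT.lf (nat_lit 0) (nat_lit 2680313386) (nat_lit 1520) (nat_lit 3081583302) (nat_lit 1596) (nat_lit 2393298832) (nat_lit 564) (nat_lit 5) (nat_lit 584) (nat_lit 5) (nat_lit 585) (nat_lit 5) (nat_lit 562) (nat_lit 536) (nat_lit 462))))) (XT.nd (nat_lit 234) (nat_lit 1824) (nat_lit 0) (XT.nd (nat_lit 78) (nat_lit 3344) (nat_lit 0) (XT.lf (nat_lit 0) (nat_lit 7511813751) (nat_lit 1520) (nat_lit 152432976) (nat_lit 1596) (nat_lit 556392904) (nat_lit 564) (nat_lit 5) (nat_lit 584) (nat_lit 5) (nat_lit 585) (nat_lit 5) (nat_lit 563) (nat_lit 536) (nat_lit 461)) (XT.nd (nat_lit 78) (nat_lit 1672) (nat_lit 0) (XT.lf (nat_lit 0) (nat_lit 1313025502) (nat_lit 1672) (nat_lit 4134596267) (nat_lit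 76) (nat_lit 2839339888) (nat_lit 542) (nat_lit 5) (nat_lit 564) (nat_lit 5) (nat_lit 543) (nat_lit 5) (nat_lit 564) (nat_lit 536) (nat_lit 460)) (XT.lf (nat_lit 0) (nat_lit 743105130) (nat_lit 1672) (nat_lit 2447691969) (nat_lit 1748) (nat_lit 5164172239) (nat_lit 520) (nat_lit 5) (nat_lit 542) (nat_lit 5) (nat_lit 543) (nat_lit 5) (nat_lit 565) (nat_lit 536) (nat_lit 459)))) (XT.nd (nat_lit 78) (nat_lit 1824) (nat_lit 0) (XT.lf (nat_lit 0) (nat_lit 5106293276) (nat_lit 1748) (nat_lit 2681804336) (nat_lit 76) (nat_lit 636237225) (nat_lit 520) (nat_lit 5) (nat_lit 543) (nat_lit 5) (nat_lit 521) (nat_lit 5) (nat_lit 566) (nat_lit 536) (nat_lit 458)) (XT.nd (nat_lit 78) (nat_lit 76) (nat_lit 0) (XT.lf (nat_lit 0) (nat_lit 2333536528) (nat_lit 1748) (nat_lit 4726810890) (nat_lit 1824) (nat_lit 1434736293) (nat_lit 497) (nat_lit 5) (nat_lit 520) (nat_lit 5) (nat_lit 521) (nat_lit 5) (nat_lit 567) (nat_lit 536) (nat_lit 457)) (XT.lf (nat_lit 0) (nat_lit 467087925) (nat_lit 1824) (nat_lit 1112571184) (nat_lit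 76) (nat_lit 6987781702) (nat_lit 496) (nat_lit 5) (nat_lit 520) (nat_lit 5) (nat_lit 497) (nat_lit 5) (nat_lit 568) (nat_lit 536) (nat_lit 456))))))))
noncomputable def xc102 : XT := (XT.nd (nat_lit 1560) (nat_lit 8056) (nat_lit 0) (XT.nd (nat_lit 780) (nat_lit 5548) (nat_lit 0) (XT.nd (nat_lit 390) (nat_lit 2736) (nat_lit 0) (XT.nd (nat_lit 156) (nat_lit 988) (nat_lit 0) (XT.nd (nat_lit 78) (nat_lit 1140) (nat_lit 0) (XT.lf (nat_lit 0) (nat_lit 2394636280) (nat_lit 1900) (nat_lit 4598326149) (nat_lit 76) (nat_lit 1647955944) (nat_lit 472) (nat_lit 5) (nat_lit 497) (nat_lit 5) (nat_lit 473) (nat_lit 5) (nat_lit 569) (nat_lit 536) (nat_lit 455)) (XT.lf (nat_lit 0) (nat_lit 569348870) (nat_lit 1140) (nat_lit 3783214235) (nat_lit 1216) (nat_lit 4363466779) (nat_lit 457) (nat_lit 5) (nat_lit 472) (nat_lit 5) (nat_lit 473) (nat_lit 5) (nat_lit 570) (nat_lit 536) (nat_lit 454))) (XT.nd (nat_lit 78) (nat_lit 988) (nat_lit 0) (XT.lf (nat_lit 0) (nat_lit 5875060603) (nat_lit 1140) (nat_lit 476004965) (nat_lit 1216)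 (nat_lit 2441550644) (nat_lit 457) (nat_lit 5) (nat_lit 472) (nat_lit 5) (nat_lit 473) (nat_lit 5) (nat_lit 571) (nat_lit 536) (nat_lit 453)) (XT.nd (nat_lit 78) (nat_lit 76) (nat_lit 0) (XT.lf (nat_lit 0) (nat_lit 2401136371) (nat_lit 912) (nat_lit 5993951563) (nat_lit 988) (nat_lit 475536247) (nat_lit 445) (nat_lit 5) (nat_lit 457) (nat_lit 5) (nat_lit 458) (nat_lit 5) (nat_lit 572) (nat_lit 536) (nat_lit 452)) (XT.lf (nat_lit 0) (nat_lit 1503941463) (nat_lit 988) (nat_lit 1125160009) (nat_lit 76) (nat_lit 6321008933) (nat_lit 444) (nat_lit 5) (nat_lit 457) (nat_lit 5) (nat_lit 445) (nat_lit 5) (nat_lit 573) (nat_lit 536) (nat_lit 451))))) (XT.nd (nat_lit 156) (nat_lit 988) (nat_lit 0) (XT.nd (nat_lit 78) (nat_lit 836) (nat_lit 0) (XT.lf (nat_lit 0) (nat_lit 3522242340) (nat_lit 988) (nat_lit 4683905065) (nat_lit 76) (nat_lit 824864920) (nat_lit 432) (nat_lit 5) (nat_lit 445) (nat_lit 5) (nat_lit 433) (nat_lit 5) (nat_lit 574) (nat_lit 536) (nat_lit 450)) (XT.lf (nat_lit 0) (nat_lit 795940992) (nat_lit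 836) (nat_lit 4787433801) (nat_lit 912) (nat_lit 3530109021) (nat_lit 421) (nat_lit 5) (nat_lit 432) (nat_lit 5) (nat_lit 433) (nat_lit 5) (nat_lit 575) (nat_lit 536) (nat_lit 449))) (XT.nd (nat_lit 78) (nat_lit 988) (nat_lit 0) (XT.lf (nat_lit 0) (nat_lit 6421330867) (nat_lit 836) (nat_lit 1268481165) (nat_lit 912) (nat_lit 1507711884) (nat_lit 421) (nat_lit 5) (nat_lit 432) (nat_lit 5) (nat_lit 433) (nat_lit 5) (nat_lit 576) (nat_lit 536) (nat_lit 448)) (XT.nd (nat_lit 78) (nat_lit 0) (nat_lit 0) (XT.lf (nat_lit 0) (nat_lit 554792196) (nat_lit 988) (nat_lit 6415728810) (nat_lit 76) (nat_lit 2312513727) (nat_lit 408) (nat_lit 5) (nat_lit 421) (nat_lit 5) (nat_lit 409) (nat_lit 5) (nat_lit 577) (nat_lit 536) (nat_lit 447)) (XT.lf (nat_lit 0) (nat_lit 2638888364) (nat_lit 988) (nat_lit 754799088) (nat_lit 76) (nat_lit 5976359167) (nat_lit 408) (nat_lit 5) (nat_lit 421) (nat_lit 5) (nat_lit 409) (nat_lit 5) (nat_lit 578) (nat_lit 536) (nat_lit 446)))))) (XT.nd (nat_lit 390) (nat_lit 3040) (nat_lit 0) (XT.nd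 (nat_lit 156) (nat_lit 836) (nat_lit 0) (XT.nd (nat_lit 78) (nat_lit 836) (nat_lit 0) (XT.lf (nat_lit 0) (nat_lit 4773254151) (nat_lit 912) (nat_lit 4402007283) (nat_lit 76) (nat_lit 283366318) (nat_lit 397) (nat_lit 5) (nat_lit 409) (nat_lit 5) (nat_lit 398) (nat_lit 5) (nat_lit 579) (nat_lit 536) (nat_lit 445)) (XT.lf (nat_lit 0) (nat_lit 1414158917) (nat_lit 836) (nat_lit 5547112607) (nat_lit 912) (nat_lit 2587490446) (nat_lit 386) (nat_lit 5) (nat_lit 397) (nat_lit 5) (nat_lit 398) (nat_lit 5) (nat_lit 580) (nat_lit 536) (nat_lit 444))) (XT.nd (nat_lit 78) (nat_lit 836) (nat_lit 0) (XT.lf (nat_lit 0) (nat_lit 7378999286) (nat_lit 836) (nat_lit 1818127288) (nat_lit 912) (nat_lit 443491484) (nat_lit 386) (nat_lit 5) (nat_lit 397) (nat_lit 5) (nat_lit 398) (nat_lit 5) (nat_lit 581) (nat_lit 536) (nat_lit 443)) (XT.nd (nat_lit 78) (nat_lit 0) (nat_lit 0) (XT.lf (nat_lit 0) (nat_lit 1732785871) (nat_lit 836) (nat_lit 6007785443) (nat_lit 76) (nat_lit 1993269009) (nat_lit 375) (nat_lit 5) (nat_lit 386) (nat_lit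 5) (nat_lit 376) (nat_lit 5) (nat_lit 582) (nat_lit 536) (nat_lit 442)) (XT.lf (nat_lit 0) (nat_lit 3949148488) (nat_lit 836) (nat_lit 6985964) (nat_lit 76) (nat_lit 5872684682) (nat_lit 375) (nat_lit 5) (nat_lit 386) (nat_lit 5) (nat_lit 376) (nat_lit 5) (nat_lit 583) (nat_lit 536) (nat_lit 441))))) (XT.nd (nat_lit 156) (nat_lit 1520) (nat_lit 0) (XT.nd (nat_lit 78) (nat_lit 760) (nat_lit 0) (XT.lf (nat_lit 0) (nat_lit 6167836304) (nat_lit 760) (nat_lit 57709281) (nat_lit 836) (nat_lit 3699838467) (nat_lit 365) (nat_lit 5) (nat_lit 375) (nat_lit 5) (nat_lit 376) (nat_lit 5) (nat_lit 584) (nat_lit 536) (nat_lit 440)) (XT.lf (nat_lit 0) (nat_lit 2421513356) (nat_lit 760) (nat_lit 6143117226) (nat_lit 836) (nat_lit 1458907152) (nat_lit 355) (nat_lit 5) (nat_lit 365) (nat_lit 5) (nat_lit 366) (nat_lit 5) (nat_lit 585) (nat_lit 536) (nat_lit 439))) (XT.nd (nat_lit 78) (nat_lit 1444) (nat_lit 0) (XT.lf (nat_lit 0) (nat_lit 817849267) (nat_lit 836) (nat_lit 1381289806) (nat_lit 76) (nat_lit 7924371673) (nat_lit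 354) (nat_lit 5) (nat_lit 365) (nat_lit 5) (nat_lit 355) (nat_lit 5) (nat_lit 586) (nat_lit 536) (nat_lit 438)) (XT.nd (nat_lit 78) (nat_lit 684) (nat_lit 0) (XT.lf (nat_lit 0) (nat_lit 3141694652) (nat_lit 836) (nat_lit 5244305070) (nat_lit 76) (nat_lit 1838869482) (nat_lit 344) (nat_lit 5) (nat_lit 355) (nat_lit 5) (nat_lit 345) (nat_lit 5) (nat_lit 587) (nat_lit 536) (nat_lit 437)) (XT.lf (nat_lit 0) (nat_lit 1133508411) (nat_lit 684) (nat_lit 4386582336) (nat_lit 760) (nat_lit 4808003221) (nat_lit 335) (nat_lit 5) (nat_lit 344) (nat_lit 5) (nat_lit 345) (nat_lit 5) (nat_lit 588) (nat_lit 536) (nat_lit 436))))))) (XT.nd (nat_lit 780) (nat_lit 4028) (nat_lit 0) (XT.nd (nat_lit 390) (nat_lit 1900) (nat_lit 0) (XT.nd (nat_lit 156) (nat_lit 1444) (nat_lit 0) (XT.nd (nat_lit 78) (nat_lit 684) (nat_lit 0) (XT.lf (nat_lit 0) (nat_lit 7683102018) (nat_lit 684) (nat_lit 275244799) (nat_lit 760) (nat_lit 2474791172) (nat_lit 335) (nat_lit 5) (nat_lit 344) (nat_lit 5) (nat_lit 345) (nat_lit 5) (nat_lit 589) (nat_lit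 536) (nat_lit 435)) (XT.lf (nat_lit 0) (nat_lit 3821319865) (nat_lit 684) (nat_lit 6651822805) (nat_lit 760) (nat_lit 66585314) (nat_lit 326) (nat_lit 5) (nat_lit 335) (nat_lit 5) (nat_lit 336) (nat_lit 5) (nat_lit 590) (nat_lit 536) (nat_lit 434))) (XT.nd (nat_lit 78) (nat_lit 1368) (nat_lit 0) (XT.lf (nat_lit 0) (nat_lit 2356485666) (nat_lit 760) (nat_lit 131044819) (nat_lit 76) (nat_lit 8160648671) (nat_lit 325) (nat_lit 5) (nat_lit 335) (nat_lit 5) (nat_lit 326) (nat_lit 5) (nat_lit 591) (nat_lit 536) (nat_lit 433)) (XT.nd (nat_lit 78) (nat_lit 684) (nat_lit 0) (XT.lf (nat_lit 0) (nat_lit 4860063524) (nat_lit 760) (nat_lit 4121589074) (nat_lit 76) (nat_lit 1776479767) (nat_lit 316) (nat_lit 5) (nat_lit 326) (nat_lit 5) (nat_lit 317) (nat_lit 5) (nat_lit 592) (nat_lit 536) (nat_lit 432)) (XT.lf (nat_lit 0) (nat_lit 2662849571) (nat_lit 684) (nat_lit 4763824239) (nat_lit 760) (nat_lit 3443352154) (nat_lit 307) (nat_lit 5) (nat_lit 316) (nat_lit 5) (nat_lit 317) (nat_lit 5) (nat_lit 593) (nat_lit 536) (nat_lit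 431))))) (XT.nd (nat_lit 156) (nat_lit 1216) (nat_lit 0) (XT.nd (nat_lit 78) (nat_lit 684) (nat_lit 0) (XT.lf (nat_lit 0) (nat_lit 9612434022) (nat_lit 684) (nat_lit 438407033) (nat_lit 760) (nat_lit 933192419) (nat_lit 307) (nat_lit 5) (nat_lit 316) (nat_lit 5) (nat_lit 317) (nat_lit 5) (nat_lit 594) (nat_lit 536) (nat_lit 430)) (XT.lf (nat_lit 0) (nat_lit 1647360591) (nat_lit 684) (nat_lit 5487989418) (nat_lit 76) (nat_lit 3963929731) (nat_lit 298) (nat_lit 5) (nat_lit 307) (nat_lit 5) (nat_lit 299) (nat_lit 5) (nat_lit 595) (nat_lit 536) (nat_lit 429))) (XT.nd (nat_lit 78) (nat_lit 608) (nat_lit 0) (XT.lf (nat_lit 0) (nat_lit 1520187309) (nat_lit 608) (nat_lit 2747952256) (nat_lit 684) (nat_lit 6948546293) (nat_lit 290) (nat_lit 5) (nat_lit 298) (nat_lit 5) (nat_lit 299) (nat_lit 5) (nat_lit 596) (nat_lit 536) (nat_lit 428)) (XT.nd (nat_lit 78) (nat_lit 608) (nat_lit 0) (XT.lf (nat_lit 0) (nat_lit 6968884092) (nat_lit 684) (nat_lit 2630837134) (nat_lit 76) (nat_lit 1736168368) (nat_lit 290) (nat_lit 5)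 (nat_lit 299) (nat_lit 5) (nat_lit 291) (nat_lit 5) (nat_lit 597) (nat_lit 536) (nat_lit 427)) (XT.lf (nat_lit 0) (nat_lit 4592092408) (nat_lit 608) (nat_lit 5159235644) (nat_lit 684) (nat_lit 1705596144) (nat_lit 282) (nat_lit 5) (nat_lit 290) (nat_lit 5) (nat_lit 291) (nat_lit 5) (nat_lit 598) (nat_lit 536) (nat_lit 426)))))) (XT.nd (nat_lit 390) (nat_lit 2128) (nat_lit 0) (XT.nd (nat_lit 156) (nat_lit 1216) (nat_lit 0) (XT.nd (nat_lit 78) (nat_lit 0) (nat_lit 0) (XT.lf (nat_lit 0) (nat_lit 387357139) (nat_lit 608) (nat_lit 608504837) (nat_lit 684) (nat_lit 10584385865) (nat_lit 273) (nat_lit 5) (nat_lit 281) (nat_lit 5) (nat_lit 282) (nat_lit 5) (nat_lit 599) (nat_lit 536) (nat_lit 425)) (XT.lf (nat_lit 0) (nat_lit 3781047984) (nat_lit 684) (nat_lit 3891619171) (nat_lit 76) (nat_lit 4032095047) (nat_lit 273) (nat_lit 5) (nat_lit 282) (nat_lit 5) (nat_lit 274) (nat_lit 5) (nat_lit 600) (nat_lit 536) (nat_lit 424))) (XT.nd (nat_lit 78) (nat_lit 684) (nat_lit 0) (XT.lf (nat_lit 0) (nat_lit 3572660809) (nat_lit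 532) (nat_lit 3056852939) (nat_lit 608) (nat_lit 5202102028) (nat_lit 266) (nat_lit 5) (nat_lit 273) (nat_lit 5) (nat_lit 274) (nat_lit 5) (nat_lit 601) (nat_lit 536) (nat_lit 423)) (XT.nd (nat_lit 78) (nat_lit 684) (nat_lit 0) (XT.lf (nat_lit 0) (nat_lit 9552485974) (nat_lit 608) (nat_lit 758421702) (nat_lit 76) (nat_lit 1649748441) (nat_lit 266) (nat_lit 5) (nat_lit 274) (nat_lit 5) (nat_lit 267) (nat_lit 5) (nat_lit 602) (nat_lit 536) (nat_lit 422)) (XT.lf (nat_lit 0) (nat_lit 482349637) (nat_lit 684) (nat_lit 5157175873) (nat_lit 76) (nat_lit 6451764798) (nat_lit 257) (nat_lit 5) (nat_lit 266) (nat_lit 5) (nat_lit 258) (nat_lit 5) (nat_lit 603) (nat_lit 536) (nat_lit 421))))) (XT.nd (nat_lit 234) (nat_lit 1064) (nat_lit 0) (XT.nd (nat_lit 78) (nat_lit 532) (nat_lit 0) (XT.lf (nat_lit 0) (nat_lit 2558320822) (nat_lit 532) (nat_lit 842871478) (nat_lit 608) (nat_lit 8822971778) (nat_lit 250) (nat_lit 5) (nat_lit 257) (nat_lit 5) (nat_lit 258) (nat_lit 5) (nat_lit 604) (nat_lit 536) (nat_lit 420)) (XT.nd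 (nat_lit 78) (nat_lit 532) (nat_lit 0) (XT.lf (nat_lit 0) (nat_lit 6420700638) (nat_lit 608) (nat_lit 1913253069) (nat_lit 76) (nat_lit 4024896244) (nat_lit 250) (nat_lit 5) (nat_lit 258) (nat_lit 5) (nat_lit 251) (nat_lit 5) (nat_lit 605) (nat_lit 536) (nat_lit 419)) (XT.lf (nat_lit 0) (nat_lit 6042802976) (nat_lit 532) (nat_lit 3484140246) (nat_lit 608) (nat_lit 2968759835) (nat_lit 243) (nat_lit 5) (nat_lit 250) (nat_lit 5) (nat_lit 251) (nat_lit 5) (nat_lit 606) (nat_lit 536) (nat_lit 418)))) (XT.nd (nat_lit 78) (nat_lit 532) (nat_lit 0) (XT.lf (nat_lit 0) (nat_lit 73386681) (nat_lit 532) (nat_lit 11101491594) (nat_lit 76) (nat_lit 1460124411) (nat_lit 236) (nat_lit 5) (nat_lit 243) (nat_lit 5) (nat_lit 237) (nat_lit 5) (nat_lit 607) (nat_lit 536) (nat_lit 417)) (XT.nd (nat_lit 78) (nat_lit 532) (nat_lit 0) (XT.lf (nat_lit 0) (nat_lit 3185082642) (nat_lit 532) (nat_lit 3077609707) (nat_lit 76) (nat_lit 6513034697) (nat_lit 236) (nat_lit 5) (nat_lit 243) (nat_lit 5) (nat_lit 237) (nat_lit 5) (nat_lit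 608) (nat_lit 536) (nat_lit 416)) (XT.lf (nat_lit 0) (nat_lit 5149296026) (nat_lit 532) (nat_lit 1225264969) (nat_lit 608) (nat_lit 6544394294) (nat_lit 229) (nat_lit 5) (nat_lit 236) (nat_lit 5) (nat_lit 237) (nat_lit 5) (nat_lit 609) (nat_lit 536) (nat_lit 415))))))))
noncomputable def xc103 : XT := (XT.nd (nat_lit 76518) (nat_lit 0) (nat_lit 20444) (XT.nd (nat_lit 75738) (nat_lit 0) (nat_lit 34124) (XT.nd (nat_lit 390) (nat_lit 532) (nat_lit 0) (XT.nd (nat_lit 156) (nat_lit 988) (nat_lit 0) (XT.nd (nat_lit 78) (nat_lit 0) (nat_lit 0) (XT.lf (nat_lit 0) (nat_lit 473357507) (nat_lit 456) (nat_lit 9185998172) (nat_lit 532) (nat_lit 3405062244) (nat_lit 223) (nat_lit 5) (nat_lit 229) (nat_lit 5) (nat_lit 230) (nat_lit 5) (nat_lit 610) (nat_lit 536) (nat_lit 414)) (XT.lf (nat_lit 0) (nat_lit 8953366244) (nat_lit 456) (nat_lit 4099124280) (nat_lit 532) (nat_lit 159446752) (nat_lit 223) (nat_lit 5) (nat_lit 229) (nat_lit 5) (nat_lit 230) (nat_lit 5) (nat_lit 611) (nat_lit 536) (nat_lit 413))) (XT.nd (nat_lit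 78) (nat_lit 456) (nat_lit 0) (XT.lf (nat_lit 0) (nat_lit 3127374121) (nat_lit 532) (nat_lit 9117979789) (nat_lit 76) (nat_lit 1116291865) (nat_lit 216) (nat_lit 5) (nat_lit 223) (nat_lit 5) (nat_lit 217) (nat_lit 5) (nat_lit 612) (nat_lit 536) (nat_lit 412)) (XT.nd (nat_lit 78) (nat_lit 456) (nat_lit 0) (XT.lf (nat_lit 0) (nat_lit 6516518462) (nat_lit 532) (nat_lit 593334480) (nat_lit 76) (nat_lit 6403700315) (nat_lit 216) (nat_lit 5) (nat_lit 223) (nat_lit 5) (nat_lit 217) (nat_lit 5) (nat_lit 613) (nat_lit 536) (nat_lit 411)) (XT.lf (nat_lit 0) (nat_lit 8184796193) (nat_lit 456) (nat_lit 1824934759) (nat_lit 532) (nat_lit 3658042556) (nat_lit 210) (nat_lit 5) (nat_lit 216) (nat_lit 5) (nat_lit 217) (nat_lit 5) (nat_lit 614) (nat_lit 536) (nat_lit 410))))) (XT.nd (nat_lit 75114) (nat_lit 0) (nat_lit 36328) (XT.nd (nat_lit 78) (nat_lit 76) (nat_lit 0) (XT.lf (nat_lit 0) (nat_lit 3317387133) (nat_lit 456) (nat_lit 10287386774) (nat_lit 532) (nat_lit 219665251) (nat_lit 204) (nat_lit 5) (nat_lit 210) (nat_lit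 5) (nat_lit 211) (nat_lit 5) (nat_lit 615) (nat_lit 536) (nat_lit 409)) (XT.lf (nat_lit 0) (nat_lit 3276815714) (nat_lit 532) (nat_lit 1673632430) (nat_lit 76) (nat_lit 9032714354) (nat_lit 203) (nat_lit 5) (nat_lit 210) (nat_lit 5) (nat_lit 204) (nat_lit 5) (nat_lit 616) (nat_lit 536) (nat_lit 408))) (XT.nd (nat_lit 78) (nat_lit 1140) (nat_lit 0) (XT.lf (nat_lit 0) (nat_lit 1472095766) (nat_lit 0) (nat_lit 1472095766) (nat_lit 988) (nat_lit 551156776) (nat_lit 696) (nat_lit 5) (nat_lit 696) (nat_lit 3) (nat_lit 709) (nat_lit 3) (nat_lit 537) (nat_lit 537) (nat_lit 486)) (XT.nd (nat_lit 78) (nat_lit 0) (nat_lit 76) (XT.lf (nat_lit 0) (nat_lit 747089519) (nat_lit 1140) (nat_lit 555535659) (nat_lit 1140) (nat_lit 5721131280) (nat_lit 681) (nat_lit 3) (nat_lit 696) (nat_lit 3) (nat_lit 696) (nat_lit 5) (nat_lit 538) (nat_lit 537) (nat_lit 485)) (XT.lf (nat_lit 0) (nat_lit 2592624456) (nat_lit 1064) (nat_lit 4047883640) (nat_lit 1140) (nat_lit 417347569) (nat_lit 682) (nat_lit 5) (nat_lit 696) (nat_lit 5) (nat_lit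 697) (nat_lit 5) (nat_lit 539) (nat_lit 537) (nat_lit 484)))))) (XT.nd (nat_lit 390) (nat_lit 1140) (nat_lit 0) (XT.nd (nat_lit 156) (nat_lit 1140) (nat_lit 0) (XT.nd (nat_lit 78) (nat_lit 0) (nat_lit 0) (XT.lf (nat_lit 0) (nat_lit 4439972756) (nat_lit 1064) (nat_lit 472528781) (nat_lit 1140) (nat_lit 2180839200) (nat_lit 682) (nat_lit 5) (nat_lit 696) (nat_lit 5) (nat_lit 697) (nat_lit 5) (nat_lit 540) (nat_lit 537) (nat_lit 483)) (XT.lf (nat_lit 76) (nat_lit 3191051611) (nat_lit 0) (nat_lit 3107389131) (nat_lit 1140) (nat_lit 831613210) (nat_lit 683) (nat_lit 5) (nat_lit 682) (nat_lit 5) (nat_lit 697) (nat_lit 5) (nat_lit 541) (nat_lit 537) (nat_lit 482))) (XT.nd (nat_lit 78) (nat_lit 0) (nat_lit 76) (XT.lf (nat_lit 0) (nat_lit 970204574) (nat_lit 1140) (nat_lit 265397267) (nat_lit 1216) (nat_lit 5932626276) (nat_lit 667) (nat_lit 5) (nat_lit 682) (nat_lit 5) (nat_lit 683) (nat_lit 5) (nat_lit 542) (nat_lit 537) (nat_lit 481)) (XT.nd (nat_lit 78) (nat_lit 0) (nat_lit 0) (XT.lf (nat_lit 0) (nat_lit 2779133078)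 (nat_lit 1140) (nat_lit 3715242837) (nat_lit 1216) (nat_lit 713037503) (nat_lit 668) (nat_lit 5) (nat_lit 683) (nat_lit 5) (nat_lit 684) (nat_lit 5) (nat_lit 543) (nat_lit 537) (nat_lit 480)) (XT.lf (nat_lit 76) (nat_lit 47637234) (nat_lit 0) (nat_lit 4542542830) (nat_lit 1216) (nat_lit 2657885316) (nat_lit 669) (nat_lit 5) (nat_lit 668) (nat_lit 5) (nat_lit 684) (nat_lit 5) (nat_lit 544) (nat_lit 537) (nat_lit 479))))) (XT.nd (nat_lit 156) (nat_lit 0) (nat_lit 76) (XT.nd (nat_lit 78) (nat_lit 1216) (nat_lit 0) (XT.lf (nat_lit 76) (nat_lit 3910373159) (nat_lit 0) (nat_lit 2508363381) (nat_lit 1216) (nat_lit 871169786) (nat_lit 669) (nat_lit 5) (nat_lit 668) (nat_lit 5) (nat_lit 684) (nat_lit 5) (nat_lit 545) (nat_lit 537) (nat_lit 478)) (XT.lf (nat_lit 76) (nat_lit 492227273) (nat_lit 0) (nat_lit 406700471) (nat_lit 1292) (nat_lit 6434331994) (nat_lit 653) (nat_lit 5) (nat_lit 652) (nat_lit 5) (nat_lit 669) (nat_lit 5) (nat_lit 546) (nat_lit 537) (nat_lit 477))) (XT.nd (nat_lit 78) (nat_lit 0) (nat_lit 0)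 (XT.lf (nat_lit 0) (nat_lit 2684594137) (nat_lit 1216) (nat_lit 2933610452) (nat_lit 1292) (nat_lit 1759325441) (nat_lit 653) (nat_lit 5) (nat_lit 669) (nat_lit 5) (nat_lit 670) (nat_lit 5) (nat_lit 547) (nat_lit 537) (nat_lit 476)) (XT.nd (nat_lit 78) (nat_lit 0) (nat_lit 0) (XT.lf (nat_lit 76) (nat_lit 1036766019) (nat_lit 0) (nat_lit 3437176323) (nat_lit 1292) (nat_lit 2949385602) (nat_lit 654) (nat_lit 5) (nat_lit 653) (nat_lit 5) (nat_lit 670) (nat_lit 5) (nat_lit 548) (nat_lit 537) (nat_lit 475)) (XT.lf (nat_lit 76) (nat_lit 5100389605) (nat_lit 0) (nat_lit 1177562247) (nat_lit 1292) (nat_lit 1192514034) (nat_lit 654) (nat_lit 5) (nat_lit 653) (nat_lit 5) (nat_lit 670) (nat_lit 5) (nat_lit 549) (nat_lit 537) (nat_lit 474))))))) (XT.nd (nat_lit 780) (nat_lit 9956) (nat_lit 0) (XT.nd (nat_lit 390) (nat_lit 1292) (nat_lit 0) (XT.nd (nat_lit 156) (nat_lit 1292) (nat_lit 0) (XT.nd (nat_lit 78) (nat_lit 0) (nat_lit 0) (XT.lf (nat_lit 0) (nat_lit 570029784) (nat_lit 1292) (nat_lit 5807121170) (nat_lit 1368)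 (nat_lit 1141751335) (nat_lit 637) (nat_lit 5) (nat_lit 654) (nat_lit 5) (nat_lit 655) (nat_lit 5) (nat_lit 550) (nat_lit 537) (nat_lit 473)) (XT.lf (nat_lit 0) (nat_lit 2336114294) (nat_lit 1292) (nat_lit 1703056427) (nat_lit 1368) (nat_lit 3529295363) (nat_lit 637) (nat_lit 5) (nat_lit 654) (nat_lit 5) (nat_lit 655) (nat_lit 5) (nat_lit 551) (nat_lit 537) (nat_lit 472))) (XT.nd (nat_lit 78) (nat_lit 1292) (nat_lit 0) (XT.lf (nat_lit 76) (nat_lit 2489595440) (nat_lit 0) (nat_lit 1625299394) (nat_lit 1368) (nat_lit 3504580271) (nat_lit 638) (nat_lit 5) (nat_lit 637) (nat_lit 5) (nat_lit 655) (nat_lit 5) (nat_lit 552) (nat_lit 537) (nat_lit 471)) (XT.nd (nat_lit 78) (nat_lit 1368) (nat_lit 0) (XT.lf (nat_lit 0) (nat_lit 5908070005) (nat_lit 1292) (nat_lit 914417464) (nat_lit 1368) (nat_lit 849441865) (nat_lit 638) (nat_lit 5) (nat_lit 655) (nat_lit 5) (nat_lit 656) (nat_lit 5) (nat_lit 553) (nat_lit 537) (nat_lit 470)) (XT.lf (nat_lit 0) (nat_lit 6912023) (nat_lit 1368) (nat_lit 4332776097) (nat_lit 1444)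 (nat_lit 3385836585) (nat_lit 620) (nat_lit 5) (nat_lit 638) (nat_lit 5) (nat_lit 639) (nat_lit 5) (nat_lit 554) (nat_lit 537) (nat_lit 469))))) (XT.nd (nat_lit 156) (nat_lit 1292) (nat_lit 0) (XT.nd (nat_lit 78) (nat_lit 0) (nat_lit 76) (XT.lf (nat_lit 0) (nat_lit 1758626716) (nat_lit 1368) (nat_lit 19951208) (nat_lit 1444) (nat_lit 6001999283) (nat_lit 620) (nat_lit 5) (nat_lit 638) (nat_lit 5) (nat_lit 639) (nat_lit 5) (nat_lit 555) (nat_lit 537) (nat_lit 468)) (XT.lf (nat_lit 0) (nat_lit 3543357093) (nat_lit 1368) (nat_lit 3431666915) (nat_lit 1444) (nat_lit 861748424) (nat_lit 621) (nat_lit 5) (nat_lit 639) (nat_lit 5) (nat_lit 640) (nat_lit 5) (nat_lit 556) (nat_lit 537) (nat_lit 467))) (XT.nd (nat_lit 78) (nat_lit 1368) (nat_lit 0) (XT.lf (nat_lit 76) (nat_lit 999472881) (nat_lit 0) (nat_lit 4346993478) (nat_lit 1444) (nat_lit 2547972796) (nat_lit 622) (nat_lit 5) (nat_lit 621) (nat_lit 5) (nat_lit 640) (nat_lit 5) (nat_lit 557) (nat_lit 537) (nat_lit 466)) (XT.nd (nat_lit 78) (nat_lit 1368) (nat_lit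 0) (XT.lf (nat_lit 76) (nat_lit 5539227513) (nat_lit 0) (nat_lit 1634248339) (nat_lit 1444) (nat_lit 780027849) (nat_lit 622) (nat_lit 5) (nat_lit 621) (nat_lit 5) (nat_lit 640) (nat_lit 5) (nat_lit 558) (nat_lit 537) (nat_lit 465)) (XT.lf (nat_lit 0) (nat_lit 996636879) (nat_lit 1444) (nat_lit 5870449248) (nat_lit 76) (nat_lit 1146796110) (nat_lit 603) (nat_lit 5) (nat_lit 622) (nat_lit 5) (nat_lit 604) (nat_lit 5) (nat_lit 559) (nat_lit 537) (nat_lit 464)))))) (XT.nd (nat_lit 390) (nat_lit 5320) (nat_lit 0) (XT.nd (nat_lit 156) (nat_lit 3192) (nat_lit 0) (XT.nd (nat_lit 78) (nat_lit 1444) (nat_lit 0) (XT.lf (nat_lit 0) (nat_lit 2791363077) (nat_lit 1444) (nat_lit 1293248356) (nat_lit 76) (nat_lit 3990895516) (nat_lit 603) (nat_lit 5) (nat_lit 622) (nat_lit 5) (nat_lit 604) (nat_lit 5) (nat_lit 560) (nat_lit 537) (nat_lit 463)) (XT.lf (nat_lit 0) (nat_lit 3393502301) (nat_lit 1444) (nat_lit 1217016122) (nat_lit 1520) (nat_lit 3528076196) (nat_lit 584) (nat_lit 5) (nat_lit 603) (nat_lit 5) (nat_lit 604)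 (nat_lit 5) (nat_lit 561) (nat_lit 537) (nat_lit 462))) (XT.nd (nat_lit 78) (nat_lit 3192) (nat_lit 0) (XT.lf (nat_lit 0) (nat_lit 6452912814) (nat_lit 1520) (nat_lit 49429764) (nat_lit 76) (nat_lit 1700865478) (nat_lit 584) (nat_lit 5) (nat_lit 604) (nat_lit 5) (nat_lit 585) (nat_lit 5) (nat_lit 562) (nat_lit 537) (nat_lit 461)) (XT.nd (nat_lit 78) (nat_lit 1596) (nat_lit 0) (XT.lf (nat_lit 0) (nat_lit 68952797) (nat_lit 1596) (nat_lit 3501314594) (nat_lit 76) (nat_lit 4698704508) (nat_lit 563) (nat_lit 5) (nat_lit 584) (nat_lit 5) (nat_lit 564) (nat_lit 5) (nat_lit 563) (nat_lit 537) (nat_lit 460)) (XT.lf (nat_lit 0) (nat_lit 1324738389) (nat_lit 1596) (nat_lit 553296135) (nat_lit 1672) (nat_lit 6458248470) (nat_lit 542) (nat_lit 5) (nat_lit 563) (nat_lit 5) (nat_lit 564) (nat_lit 5) (nat_lit 564) (nat_lit 537) (nat_lit 459))))) (XT.nd (nat_lit 234) (nat_lit 3648) (nat_lit 0) (XT.nd (nat_lit 78) (nat_lit 1672) (nat_lit 0) (XT.lf (nat_lit 0) (nat_lit 3731754022) (nat_lit 1672) (nat_lit 2153483953) (nat_lit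 76) (nat_lit 2519534260) (nat_lit 542) (nat_lit 5) (nat_lit 564) (nat_lit 5) (nat_lit 543) (nat_lit 5) (nat_lit 565) (nat_lit 537) (nat_lit 458)) (XT.nd (nat_lit 78) (nat_lit 0) (nat_lit 0) (XT.lf (nat_lit 0) (nat_lit 2808193813) (nat_lit 1672) (nat_lit 2805287531) (nat_lit 1748) (nat_lit 2861332274) (nat_lit 520) (nat_lit 5) (nat_lit 542) (nat_lit 5) (nat_lit 543) (nat_lit 5) (nat_lit 566) (nat_lit 537) (nat_lit 457)) (XT.lf (nat_lit 0) (nat_lit 7519070510) (nat_lit 1748) (nat_lit 677121214) (nat_lit 76) (nat_lit 350340566) (nat_lit 520) (nat_lit 5) (nat_lit 543) (nat_lit 5) (nat_lit 521) (nat_lit 5) (nat_lit 567) (nat_lit 537) (nat_lit 456)))) (XT.nd (nat_lit 78) (nat_lit 1824) (nat_lit 0) (XT.lf (nat_lit 0) (nat_lit 849546617) (nat_lit 1824) (nat_lit 4199942482) (nat_lit 76) (nat_lit 3569737371) (nat_lit 496) (nat_lit 5) (nat_lit 520) (nat_lit 5) (nat_lit 497) (nat_lit 5) (nat_lit 568) (nat_lit 537) (nat_lit 455)) (XT.nd (nat_lit 78) (nat_lit 0) (nat_lit 0) (XT.lf (nat_lit 0) (nat_lit 911776763) (nat_lit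 1824) (nat_lit 1819381090) (nat_lit 1900) (nat_lit 5962465391) (nat_lit 472) (nat_lit 5) (nat_lit 496) (nat_lit 5) (nat_lit 497) (nat_lit 5) (nat_lit 569) (nat_lit 537) (nat_lit 454)) (XT.lf (nat_lit 0) (nat_lit 4659090025) (nat_lit 1900) (nat_lit 2623333716) (nat_lit 76) (nat_lit 1486911367) (nat_lit 472) (nat_lit 5) (nat_lit 497) (nat_lit 5) (nat_lit 473) (nat_lit 5) (nat_lit 570) (nat_lit 537) (nat_lit 453))))))))
noncomputable def xc104 : XT := (XT.nd (nat_lit 1560) (nat_lit 8056) (nat_lit 0) (XT.nd (nat_lit 780) (nat_lit 4712) (nat_lit 0) (XT.nd (nat_lit 390) (nat_lit 2660) (nat_lit 0) (XT.nd (nat_lit 156) (nat_lit 1900) (nat_lit 0) (XT.nd (nat_lit 78) (nat_lit 0) (nat_lit 0) (XT.lf (nat_lit 0) (nat_lit 2634096389) (nat_lit 1140) (nat_lit 3991948796) (nat_lit 1216) (nat_lit 2220507650) (nat_lit 457) (nat_lit 5) (nat_lit 472) (nat_lit 5) (nat_lit 473) (nat_lit 5) (nat_lit 571) (nat_lit 537) (nat_lit 452)) (XT.lf (nat_lit 0) (nat_lit 8005660385) (nat_lit 1140) (nat_lit 615986120) (nat_lit 1216) (nat_lit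 303883162) (nat_lit 457) (nat_lit 5) (nat_lit 472) (nat_lit 5) (nat_lit 473) (nat_lit 5) (nat_lit 572) (nat_lit 537) (nat_lit 451))) (XT.nd (nat_lit 78) (nat_lit 912) (nat_lit 0) (XT.lf (nat_lit 0) (nat_lit 1649345168) (nat_lit 988) (nat_lit 4524030519) (nat_lit 76) (nat_lit 2832098301) (nat_lit 444) (nat_lit 5) (nat_lit 457) (nat_lit 5) (nat_lit 445) (nat_lit 5) (nat_lit 573) (nat_lit 537) (nat_lit 450)) (XT.nd (nat_lit 78) (nat_lit 0) (nat_lit 0) (XT.lf (nat_lit 0) (nat_lit 895153161) (nat_lit 912) (nat_lit 2730983631) (nat_lit 988) (nat_lit 5461069718) (nat_lit 432) (nat_lit 5) (nat_lit 444) (nat_lit 5) (nat_lit 445) (nat_lit 5) (nat_lit 574) (nat_lit 537) (nat_lit 449)) (XT.lf (nat_lit 0) (nat_lit 5650919372) (nat_lit 988) (nat_lit 2718371980) (nat_lit 76) (nat_lit 801114052) (nat_lit 432) (nat_lit 5) (nat_lit 445) (nat_lit 5) (nat_lit 433) (nat_lit 5) (nat_lit 575) (nat_lit 537) (nat_lit 448))))) (XT.nd (nat_lit 156) (nat_lit 1748) (nat_lit 0) (XT.nd (nat_lit 78) (nat_lit 76) (nat_lit 0) (XT.lf (nat_lit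 0) (nat_lit 2857523557) (nat_lit 836) (nat_lit 4868675230) (nat_lit 912) (nat_lit 1528870276) (nat_lit 421) (nat_lit 5) (nat_lit 432) (nat_lit 5) (nat_lit 433) (nat_lit 5) (nat_lit 576) (nat_lit 537) (nat_lit 447)) (XT.lf (nat_lit 0) (nat_lit 486880091) (nat_lit 912) (nat_lit 789480684) (nat_lit 76) (nat_lit 8065162862) (nat_lit 420) (nat_lit 5) (nat_lit 432) (nat_lit 5) (nat_lit 421) (nat_lit 5) (nat_lit 577) (nat_lit 537) (nat_lit 446))) (XT.nd (nat_lit 78) (nat_lit 836) (nat_lit 0) (XT.lf (nat_lit 0) (nat_lit 2544530317) (nat_lit 988) (nat_lit 4485799700) (nat_lit 76) (nat_lit 2398734803) (nat_lit 408) (nat_lit 5) (nat_lit 421) (nat_lit 5) (nat_lit 409) (nat_lit 5) (nat_lit 578) (nat_lit 537) (nat_lit 445)) (XT.nd (nat_lit 78) (nat_lit 0) (nat_lit 0) (XT.lf (nat_lit 0) (nat_lit 1264576038) (nat_lit 836) (nat_lit 3375145929) (nat_lit 912) (nat_lit 4878707839) (nat_lit 397) (nat_lit 5) (nat_lit 408) (nat_lit 5) (nat_lit 409) (nat_lit 5) (nat_lit 579) (nat_lit 537) (nat_lit 444)) (XT.lf (nat_lit 0) (nat_lit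 6784126631) (nat_lit 912) (nat_lit 2447667969) (nat_lit 76) (nat_lit 377642040) (nat_lit 397) (nat_lit 5) (nat_lit 409) (nat_lit 5) (nat_lit 398) (nat_lit 5) (nat_lit 580) (nat_lit 537) (nat_lit 443)))))) (XT.nd (nat_lit 390) (nat_lit 2280) (nat_lit 0) (XT.nd (nat_lit 156) (nat_lit 1520) (nat_lit 0) (XT.nd (nat_lit 78) (nat_lit 76) (nat_lit 0) (XT.lf (nat_lit 0) (nat_lit 3471384848) (nat_lit 836) (nat_lit 5520135737) (nat_lit 912) (nat_lit 710341721) (nat_lit 386) (nat_lit 5) (nat_lit 397) (nat_lit 5) (nat_lit 398) (nat_lit 5) (nat_lit 581) (nat_lit 537) (nat_lit 442)) (XT.lf (nat_lit 0) (nat_lit 1419846664) (nat_lit 912) (nat_lit 289900426) (nat_lit 76) (nat_lit 8086364250) (nat_lit 385) (nat_lit 5) (nat_lit 397) (nat_lit 5) (nat_lit 386) (nat_lit 5) (nat_lit 582) (nat_lit 537) (nat_lit 441))) (XT.nd (nat_lit 78) (nat_lit 760) (nat_lit 0) (XT.lf (nat_lit 0) (nat_lit 3611139858) (nat_lit 836) (nat_lit 4091299258) (nat_lit 76) (nat_lit 2189152758) (nat_lit 375) (nat_lit 5) (nat_lit 386) (nat_lit 5) (nat_lit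 376) (nat_lit 5) (nat_lit 583) (nat_lit 537) (nat_lit 440)) (XT.nd (nat_lit 78) (nat_lit 0) (nat_lit 0) (XT.lf (nat_lit 0) (nat_lit 2016022554) (nat_lit 760) (nat_lit 3832745582) (nat_lit 836) (nat_lit 4140164362) (nat_lit 365) (nat_lit 5) (nat_lit 375) (nat_lit 5) (nat_lit 376) (nat_lit 5) (nat_lit 584) (nat_lit 537) (nat_lit 439)) (XT.lf (nat_lit 0) (nat_lit 8135947559) (nat_lit 836) (nat_lit 1814285404) (nat_lit 76) (nat_lit 137891649) (nat_lit 365) (nat_lit 5) (nat_lit 376) (nat_lit 5) (nat_lit 366) (nat_lit 5) (nat_lit 585) (nat_lit 537) (nat_lit 438))))) (XT.nd (nat_lit 156) (nat_lit 684) (nat_lit 0) (XT.nd (nat_lit 78) (nat_lit 760) (nat_lit 0) (XT.lf (nat_lit 0) (nat_lit 307427253) (nat_lit 836) (nat_lit 5715999194) (nat_lit 76) (nat_lit 4165207969) (nat_lit 354) (nat_lit 5) (nat_lit 365) (nat_lit 5) (nat_lit 355) (nat_lit 5) (nat_lit 586) (nat_lit 537) (nat_lit 437)) (XT.lf (nat_lit 0) (nat_lit 587419922) (nat_lit 760) (nat_lit 1991772841) (nat_lit 836) (nat_lit 7711842012) (nat_lit 344) (nat_lit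 5) (nat_lit 354) (nat_lit 5) (nat_lit 355) (nat_lit 5) (nat_lit 587) (nat_lit 537) (nat_lit 436))) (XT.nd (nat_lit 78) (nat_lit 684) (nat_lit 0) (XT.lf (nat_lit 0) (nat_lit 4926047175) (nat_lit 836) (nat_lit 3340860258) (nat_lit 76) (nat_lit 2127983238) (nat_lit 344) (nat_lit 5) (nat_lit 355) (nat_lit 5) (nat_lit 345) (nat_lit 5) (nat_lit 588) (nat_lit 537) (nat_lit 435)) (XT.nd (nat_lit 78) (nat_lit 0) (nat_lit 0) (XT.lf (nat_lit 0) (nat_lit 3151296790) (nat_lit 684) (nat_lit 4179912766) (nat_lit 760) (nat_lit 3169387300) (nat_lit 335) (nat_lit 5) (nat_lit 344) (nat_lit 5) (nat_lit 345) (nat_lit 5) (nat_lit 589) (nat_lit 537) (nat_lit 434)) (XT.lf (nat_lit 0) (nat_lit 9784934510) (nat_lit 760) (nat_lit 815698431) (nat_lit 76) (nat_lit 7775615) (nat_lit 335) (nat_lit 5) (nat_lit 345) (nat_lit 5) (nat_lit 336) (nat_lit 5) (nat_lit 590) (nat_lit 537) (nat_lit 433))))))) (XT.nd (nat_lit 780) (nat_lit 3344) (nat_lit 0) (XT.nd (nat_lit 390) (nat_lit 1900) (nat_lit 0) (XT.nd (nat_lit 156) (nat_lit 1368) (nat_lit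 0) (XT.nd (nat_lit 78) (nat_lit 684) (nat_lit 0) (XT.lf (nat_lit 0) (nat_lit 1593271487) (nat_lit 760) (nat_lit 4855789074) (nat_lit 76) (nat_lit 4268222771) (nat_lit 325) (nat_lit 5) (nat_lit 335) (nat_lit 5) (nat_lit 326) (nat_lit 5) (nat_lit 591) (nat_lit 537) (nat_lit 432)) (XT.lf (nat_lit 0) (nat_lit 1847969010) (nat_lit 684) (nat_lit 2195387516) (nat_lit 760) (nat_lit 6784950140) (nat_lit 316) (nat_lit 5) (nat_lit 325) (nat_lit 5) (nat_lit 326) (nat_lit 5) (nat_lit 592) (nat_lit 537) (nat_lit 431))) (XT.nd (nat_lit 78) (nat_lit 1368) (nat_lit 0) (XT.lf (nat_lit 0) (nat_lit 6567898274) (nat_lit 760) (nat_lit 2229472706) (nat_lit 76) (nat_lit 2143670919) (nat_lit 316) (nat_lit 5) (nat_lit 326) (nat_lit 5) (nat_lit 317) (nat_lit 5) (nat_lit 593) (nat_lit 537) (nat_lit 430)) (XT.nd (nat_lit 78) (nat_lit 684) (nat_lit 0) (XT.lf (nat_lit 0) (nat_lit 4677664262) (nat_lit 684) (nat_lit 4489331189) (nat_lit 760) (nat_lit 1888555619) (nat_lit 307) (nat_lit 5) (nat_lit 316) (nat_lit 5) (nat_lit 317) (nat_lit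 5) (nat_lit 594) (nat_lit 537) (nat_lit 429)) (XT.lf (nat_lit 0) (nat_lit 558484254) (nat_lit 608) (nat_lit 76719233) (nat_lit 684) (nat_lit 10537104628) (nat_lit 298) (nat_lit 5) (nat_lit 306) (nat_lit 5) (nat_lit 307) (nat_lit 5) (nat_lit 595) (nat_lit 537) (nat_lit 428))))) (XT.nd (nat_lit 156) (nat_lit 1292) (nat_lit 0) (XT.nd (nat_lit 78) (nat_lit 608) (nat_lit 0) (XT.lf (nat_lit 0) (nat_lit 3235451278) (nat_lit 684) (nat_lit 3637894386) (nat_lit 76) (nat_lit 4416779438) (nat_lit 298) (nat_lit 5) (nat_lit 307) (nat_lit 5) (nat_lit 299) (nat_lit 5) (nat_lit 596) (nat_lit 537) (nat_lit 427)) (XT.lf (nat_lit 0) (nat_lit 3497552094) (nat_lit 608) (nat_lit 2393241691) (nat_lit 684) (nat_lit 5519443332) (nat_lit 290) (nat_lit 5) (nat_lit 298) (nat_lit 5) (nat_lit 299) (nat_lit 5) (nat_lit 597) (nat_lit 537) (nat_lit 426))) (XT.nd (nat_lit 78) (nat_lit 1292) (nat_lit 0) (XT.lf (nat_lit 0) (nat_lit 8618017926) (nat_lit 684) (nat_lit 747097357) (nat_lit 76) (nat_lit 2167261068) (nat_lit 290) (nat_lit 5) (nat_lit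 299) (nat_lit 5) (nat_lit 291) (nat_lit 5) (nat_lit 598) (nat_lit 537) (nat_lit 425)) (XT.nd (nat_lit 78) (nat_lit 684) (nat_lit 0) (XT.lf (nat_lit 0) (nat_lit 6607551589) (nat_lit 608) (nat_lit 4831445514) (nat_lit 684) (nat_lit 217177520) (nat_lit 282) (nat_lit 5) (nat_lit 290) (nat_lit 5) (nat_lit 291) (nat_lit 5) (nat_lit 599) (nat_lit 537) (nat_lit 424)) (XT.lf (nat_lit 0) (nat_lit 2325937419) (nat_lit 608) (nat_lit 175478326) (nat_lit 684) (nat_lit 9280690482) (nat_lit 273) (nat_lit 5) (nat_lit 281) (nat_lit 5) (nat_lit 282) (nat_lit 5) (nat_lit 600) (nat_lit 537) (nat_lit 423)))))) (XT.nd (nat_lit 390) (nat_lit 1596) (nat_lit 0) (XT.nd (nat_lit 156) (nat_lit 1216) (nat_lit 0) (XT.nd (nat_lit 78) (nat_lit 532) (nat_lit 0) (XT.lf (nat_lit 0) (nat_lit 5316009180) (nat_lit 684) (nat_lit 2050148420) (nat_lit 76) (nat_lit 4543479864) (nat_lit 273) (nat_lit 5) (nat_lit 282) (nat_lit 5) (nat_lit 274) (nat_lit 5) (nat_lit 601) (nat_lit 537) (nat_lit 422)) (XT.lf (nat_lit 0) (nat_lit 5550790165) (nat_lit 532)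 (nat_lit 2654418986) (nat_lit 608) (nat_lit 3834144312) (nat_lit 266) (nat_lit 5) (nat_lit 273) (nat_lit 5) (nat_lit 274) (nat_lit 5) (nat_lit 602) (nat_lit 537) (nat_lit 421))) (XT.nd (nat_lit 78) (nat_lit 608) (nat_lit 0) (XT.lf (nat_lit 0) (nat_lit 1135975999) (nat_lit 608) (nat_lit 10032694948) (nat_lit 684) (nat_lit 1002663699) (nat_lit 258) (nat_lit 5) (nat_lit 266) (nat_lit 5) (nat_lit 267) (nat_lit 5) (nat_lit 603) (nat_lit 537) (nat_lit 420)) (XT.nd (nat_lit 78) (nat_lit 532) (nat_lit 0) (XT.lf (nat_lit 0) (nat_lit 1903494492) (nat_lit 684) (nat_lit 3359327989) (nat_lit 76) (nat_lit 7042033027) (nat_lit 257) (nat_lit 5) (nat_lit 266) (nat_lit 5) (nat_lit 258) (nat_lit 5) (nat_lit 604) (nat_lit 537) (nat_lit 419)) (XT.lf (nat_lit 0) (nat_lit 4497972117) (nat_lit 532) (nat_lit 367326758) (nat_lit 608) (nat_lit 7575396780) (nat_lit 250) (nat_lit 5) (nat_lit 257) (nat_lit 5) (nat_lit 258) (nat_lit 5) (nat_lit 605) (nat_lit 537) (nat_lit 418))))) (XT.nd (nat_lit 156) (nat_lit 1064) (nat_lit 0) (XT.nd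 (nat_lit 78) (nat_lit 532) (nat_lit 0) (XT.lf (nat_lit 0) (nat_lit 7920957525) (nat_lit 608) (nat_lit 75793050) (nat_lit 76) (nat_lit 4581810058) (nat_lit 250) (nat_lit 5) (nat_lit 258) (nat_lit 5) (nat_lit 251) (nat_lit 5) (nat_lit 606) (nat_lit 537) (nat_lit 417)) (XT.lf (nat_lit 0) (nat_lit 8027043819) (nat_lit 532) (nat_lit 3047480591) (nat_lit 608) (nat_lit 1643922979) (nat_lit 243) (nat_lit 5) (nat_lit 250) (nat_lit 5) (nat_lit 251) (nat_lit 5) (nat_lit 607) (nat_lit 537) (nat_lit 416))) (XT.nd (nat_lit 78) (nat_lit 532) (nat_lit 0) (XT.lf (nat_lit 0) (nat_lit 1429624613) (nat_lit 532) (nat_lit 9430638710) (nat_lit 76) (nat_lit 2000316251) (nat_lit 236) (nat_lit 5) (nat_lit 243) (nat_lit 5) (nat_lit 237) (nat_lit 5) (nat_lit 608) (nat_lit 537) (nat_lit 415)) (XT.nd (nat_lit 78) (nat_lit 532) (nat_lit 0) (XT.lf (nat_lit 0) (nat_lit 4576990371) (nat_lit 532) (nat_lit 1283394532) (nat_lit 76) (nat_lit 7144265344) (nat_lit 236) (nat_lit 5) (nat_lit 243) (nat_lit 5) (nat_lit 237) (nat_lit 5) (nat_lit 609)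 (nat_lit 537) (nat_lit 414)) (XT.lf (nat_lit 0) (nat_lit 7095840320) (nat_lit 532) (nat_lit 720344320) (nat_lit 608) (nat_lit 5334840424) (nat_lit 229) (nat_lit 5) (nat_lit 236) (nat_lit 5) (nat_lit 237) (nat_lit 5) (nat_lit 610) (nat_lit 537) (nat_lit 413))))))))
noncomputable def xc105 : XT := (XT.nd (nat_lit 76674) (nat_lit 0) (nat_lit 17784) (XT.nd (nat_lit 75894) (nat_lit 0) (nat_lit 32376) (XT.nd (nat_lit 75504) (nat_lit 0) (nat_lit 34732) (XT.nd (nat_lit 156) (nat_lit 912) (nat_lit 0) (XT.nd (nat_lit 78) (nat_lit 76) (nat_lit 0) (XT.lf (nat_lit 0) (nat_lit 2336975830) (nat_lit 456) (nat_lit 8819340449) (nat_lit 532) (nat_lit 2143288374) (nat_lit 223) (nat_lit 5) (nat_lit 229) (nat_lit 5) (nat_lit 230) (nat_lit 5) (nat_lit 611) (nat_lit 537) (nat_lit 412)) (XT.lf (nat_lit 0) (nat_lit 1126196881) (nat_lit 532) (nat_lit 2507766542) (nat_lit 76) (nat_lit 9816474581) (nat_lit 222) (nat_lit 5) (nat_lit 229) (nat_lit 5) (nat_lit 223) (nat_lit 5) (nat_lit 612) (nat_lit 537) (nat_lit 411))) (XT.nd (nat_lit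 78) (nat_lit 456) (nat_lit 0) (XT.lf (nat_lit 0) (nat_lit 4466794909) (nat_lit 532) (nat_lit 7455568494) (nat_lit 76) (nat_lit 1680953170) (nat_lit 216) (nat_lit 5) (nat_lit 223) (nat_lit 5) (nat_lit 217) (nat_lit 5) (nat_lit 613) (nat_lit 537) (nat_lit 410)) (XT.nd (nat_lit 78) (nat_lit 0) (nat_lit 0) (XT.lf (nat_lit 0) (nat_lit 1219390264) (nat_lit 456) (nat_lit 6687212230) (nat_lit 532) (nat_lit 5852002586) (nat_lit 210) (nat_lit 5) (nat_lit 216) (nat_lit 5) (nat_lit 217) (nat_lit 5) (nat_lit 614) (nat_lit 537) (nat_lit 409)) (XT.lf (nat_lit 0) (nat_lit 10145192352) (nat_lit 456) (nat_lit 1303689346) (nat_lit 532) (nat_lit 2467444463) (nat_lit 210) (nat_lit 5) (nat_lit 216) (nat_lit 5) (nat_lit 217) (nat_lit 5) (nat_lit 615) (nat_lit 537) (nat_lit 408))))) (XT.nd (nat_lit 156) (nat_lit 1064) (nat_lit 0) (XT.nd (nat_lit 78) (nat_lit 0) (nat_lit 0) (XT.lf (nat_lit 0) (nat_lit 1279033458) (nat_lit 1140) (nat_lit 1124771647) (nat_lit 1140) (nat_lit 1124771647) (nat_lit 681) (nat_lit 3) (nat_lit 696) (nat_lit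 3) (nat_lit 696) (nat_lit 5) (nat_lit 538) (nat_lit 538) (nat_lit 484)) (XT.lf (nat_lit 76) (nat_lit 1284108473) (nat_lit 0) (nat_lit 3082025376) (nat_lit 1140) (nat_lit 2725869183) (nat_lit 682) (nat_lit 5) (nat_lit 681) (nat_lit 3) (nat_lit 696) (nat_lit 5) (nat_lit 539) (nat_lit 538) (nat_lit 483))) (XT.nd (nat_lit 78) (nat_lit 1064) (nat_lit 0) (XT.lf (nat_lit 76) (nat_lit 4894876413) (nat_lit 0) (nat_lit 1283888613) (nat_lit 1140) (nat_lit 949418360) (nat_lit 682) (nat_lit 5) (nat_lit 681) (nat_lit 3) (nat_lit 696) (nat_lit 5) (nat_lit 540) (nat_lit 538) (nat_lit 482)) (XT.nd (nat_lit 78) (nat_lit 0) (nat_lit 0) (XT.lf (nat_lit 0) (nat_lit 818077011) (nat_lit 1140) (nat_lit 5768170201) (nat_lit 1216) (nat_lit 579393386) (nat_lit 667) (nat_lit 5) (nat_lit 682) (nat_lit 5) (nat_lit 683) (nat_lit 5) (nat_lit 541) (nat_lit 538) (nat_lit 481)) (XT.lf (nat_lit 0) (nat_lit 2586613616) (nat_lit 1140) (nat_lit 2112380499) (nat_lit 1216) (nat_lit 2505161032) (nat_lit 667) (nat_lit 5) (nat_lit 682) (nat_lit 5)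 (nat_lit 683) (nat_lit 5) (nat_lit 542) (nat_lit 538) (nat_lit 480)))))) (XT.nd (nat_lit 390) (nat_lit 1216) (nat_lit 0) (XT.nd (nat_lit 156) (nat_lit 1140) (nat_lit 0) (XT.nd (nat_lit 78) (nat_lit 0) (nat_lit 0) (XT.lf (nat_lit 76) (nat_lit 1613092467) (nat_lit 0) (nat_lit 2743591620) (nat_lit 1216) (nat_lit 2887434390) (nat_lit 668) (nat_lit 5) (nat_lit 667) (nat_lit 5) (nat_lit 683) (nat_lit 5) (nat_lit 543) (nat_lit 538) (nat_lit 479)) (XT.lf (nat_lit 76) (nat_lit 5417282009) (nat_lit 0) (nat_lit 715449244) (nat_lit 1216) (nat_lit 1152740032) (nat_lit 668) (nat_lit 5) (nat_lit 667) (nat_lit 5) (nat_lit 683) (nat_lit 5) (nat_lit 544) (nat_lit 538) (nat_lit 478))) (XT.nd (nat_lit 78) (nat_lit 0) (nat_lit 0) (XT.lf (nat_lit 0) (nat_lit 587320753) (nat_lit 1216) (nat_lit 5370016267) (nat_lit 1292) (nat_lit 1370660506) (nat_lit 652) (nat_lit 5) (nat_lit 668) (nat_lit 5) (nat_lit 669) (nat_lit 5) (nat_lit 545) (nat_lit 538) (nat_lit 477)) (XT.nd (nat_lit 78) (nat_lit 0) (nat_lit 0) (XT.lf (nat_lit 0) (nat_lit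 2321892209) (nat_lit 1216) (nat_lit 1522904933) (nat_lit 1292) (nat_lit 3526923482) (nat_lit 652) (nat_lit 5) (nat_lit 668) (nat_lit 5) (nat_lit 669) (nat_lit 5) (nat_lit 546) (nat_lit 538) (nat_lit 476)) (XT.lf (nat_lit 76) (nat_lit 2407900001) (nat_lit 0) (nat_lit 1657489348) (nat_lit 1292) (nat_lit 3351445738) (nat_lit 653) (nat_lit 5) (nat_lit 652) (nat_lit 5) (nat_lit 669) (nat_lit 5) (nat_lit 547) (nat_lit 538) (nat_lit 475))))) (XT.nd (nat_lit 156) (nat_lit 0) (nat_lit 0) (XT.nd (nat_lit 78) (nat_lit 1292) (nat_lit 0) (XT.lf (nat_lit 0) (nat_lit 5817124168) (nat_lit 1216) (nat_lit 1054060927) (nat_lit 1292) (nat_lit 592200945) (nat_lit 653) (nat_lit 5) (nat_lit 669) (nat_lit 5) (nat_lit 670) (nat_lit 5) (nat_lit 548) (nat_lit 538) (nat_lit 474)) (XT.lf (nat_lit 0) (nat_lit 82238898) (nat_lit 1292) (nat_lit 4528629013) (nat_lit 1368) (nat_lit 2900180850) (nat_lit 636) (nat_lit 5) (nat_lit 653) (nat_lit 5) (nat_lit 654) (nat_lit 5) (nat_lit 549) (nat_lit 538) (nat_lit 473))) (XT.nd (nat_lit 78) (nat_lit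 0) (nat_lit 76) (XT.lf (nat_lit 0) (nat_lit 1790918772) (nat_lit 1292) (nat_lit 482000170) (nat_lit 1368) (nat_lit 5287176573) (nat_lit 636) (nat_lit 5) (nat_lit 653) (nat_lit 5) (nat_lit 654) (nat_lit 5) (nat_lit 550) (nat_lit 538) (nat_lit 472)) (XT.nd (nat_lit 78) (nat_lit 0) (nat_lit 0) (XT.lf (nat_lit 0) (nat_lit 3519851077) (nat_lit 1292) (nat_lit 3942664993) (nat_lit 1368) (nat_lit 147886996) (nat_lit 637) (nat_lit 5) (nat_lit 654) (nat_lit 5) (nat_lit 655) (nat_lit 5) (nat_lit 551) (nat_lit 538) (nat_lit 471)) (XT.lf (nat_lit 76) (nat_lit 207365412) (nat_lit 0) (nat_lit 5057622127) (nat_lit 1368) (nat_lit 2397098127) (nat_lit 638) (nat_lit 5) (nat_lit 637) (nat_lit 5) (nat_lit 655) (nat_lit 5) (nat_lit 552) (nat_lit 538) (nat_lit 470))))))) (XT.nd (nat_lit 780) (nat_lit 10640) (nat_lit 0) (XT.nd (nat_lit 390) (nat_lit 2736) (nat_lit 0) (XT.nd (nat_lit 156) (nat_lit 0) (nat_lit 0) (XT.nd (nat_lit 78) (nat_lit 1292) (nat_lit 0) (XT.lf (nat_lit 76) (nat_lit 4468375924) (nat_lit 0) (nat_lit 2565659321)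 (nat_lit 1368) (nat_lit 680987884) (nat_lit 638) (nat_lit 5) (nat_lit 637) (nat_lit 5) (nat_lit 655) (nat_lit 5) (nat_lit 553) (nat_lit 538) (nat_lit 469)) (XT.lf (nat_lit 0) (nat_lit 1025135179) (nat_lit 1368) (nat_lit 6742846654) (nat_lit 1444) (nat_lit 1505633) (nat_lit 620) (nat_lit 5) (nat_lit 638) (nat_lit 5) (nat_lit 639) (nat_lit 5) (nat_lit 554) (nat_lit 538) (nat_lit 468))) (XT.nd (nat_lit 78) (nat_lit 0) (nat_lit 0) (XT.lf (nat_lit 0) (nat_lit 2758866496) (nat_lit 1368) (nat_lit 2442938333) (nat_lit 1444) (nat_lit 2623095451) (nat_lit 620) (nat_lit 5) (nat_lit 638) (nat_lit 5) (nat_lit 639) (nat_lit 5) (nat_lit 555) (nat_lit 538) (nat_lit 467)) (XT.nd (nat_lit 78) (nat_lit 0) (nat_lit 76) (XT.lf (nat_lit 76) (nat_lit 1942869364) (nat_lit 0) (nat_lit 2561403335) (nat_lit 1444) (nat_lit 3377609924) (nat_lit 621) (nat_lit 5) (nat_lit 620) (nat_lit 5) (nat_lit 639) (nat_lit 5) (nat_lit 556) (nat_lit 538) (nat_lit 466)) (XT.lf (nat_lit 0) (nat_lit 6266926736) (nat_lit 1368) (nat_lit 1517310422) (nat_lit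 1444) (nat_lit 156121909) (nat_lit 621) (nat_lit 5) (nat_lit 639) (nat_lit 5) (nat_lit 640) (nat_lit 5) (nat_lit 557) (nat_lit 538) (nat_lit 465))))) (XT.nd (nat_lit 156) (nat_lit 1368) (nat_lit 0) (XT.nd (nat_lit 78) (nat_lit 0) (nat_lit 0) (XT.lf (nat_lit 0) (nat_lit 66031614) (nat_lit 1444) (nat_lit 5010993688) (nat_lit 1520) (nat_lit 2922931462) (nat_lit 602) (nat_lit 5) (nat_lit 621) (nat_lit 5) (nat_lit 622) (nat_lit 5) (nat_lit 558) (nat_lit 538) (nat_lit 464)) (XT.lf (nat_lit 0) (nat_lit 1794098955) (nat_lit 1444) (nat_lit 491711730) (nat_lit 1520) (nat_lit 5775191255) (nat_lit 602) (nat_lit 5) (nat_lit 621) (nat_lit 5) (nat_lit 622) (nat_lit 5) (nat_lit 559) (nat_lit 538) (nat_lit 463))) (XT.nd (nat_lit 78) (nat_lit 1444) (nat_lit 0) (XT.lf (nat_lit 0) (nat_lit 3554144496) (nat_lit 1444) (nat_lit 3980368777) (nat_lit 76) (nat_lit 588807564) (nat_lit 603) (nat_lit 5) (nat_lit 622) (nat_lit 5) (nat_lit 604) (nat_lit 5) (nat_lit 560) (nat_lit 538) (nat_lit 462)) (XT.nd (nat_lit 78) (nat_lit 0) (nat_lit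 0) (XT.lf (nat_lit 0) (nat_lit 657638643) (nat_lit 1444) (nat_lit 4681640030) (nat_lit 1520) (nat_lit 2847810817) (nat_lit 584) (nat_lit 5) (nat_lit 603) (nat_lit 5) (nat_lit 604) (nat_lit 5) (nat_lit 561) (nat_lit 538) (nat_lit 461)) (XT.lf (nat_lit 0) (nat_lit 5416551061) (nat_lit 1444) (nat_lit 1737909800) (nat_lit 1520) (nat_lit 1097786860) (nat_lit 584) (nat_lit 5) (nat_lit 603) (nat_lit 5) (nat_lit 604) (nat_lit 5) (nat_lit 562) (nat_lit 538) (nat_lit 460)))))) (XT.nd (nat_lit 390) (nat_lit 5776) (nat_lit 0) (XT.nd (nat_lit 156) (nat_lit 3268) (nat_lit 0) (XT.nd (nat_lit 78) (nat_lit 0) (nat_lit 0) (XT.lf (nat_lit 0) (nat_lit 667290571) (nat_lit 1596) (nat_lit 6380091804) (nat_lit 76) (nat_lit 1271457244) (nat_lit 563) (nat_lit 5) (nat_lit 584) (nat_lit 5) (nat_lit 564) (nat_lit 5) (nat_lit 563) (nat_lit 538) (nat_lit 459)) (XT.lf (nat_lit 0) (nat_lit 2452205451) (nat_lit 1596) (nat_lit 1584397861) (nat_lit 76) (nat_lit 4350031257) (nat_lit 563) (nat_lit 5) (nat_lit 584) (nat_lit 5) (nat_lit 564) (nat_lit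 5) (nat_lit 564) (nat_lit 538) (nat_lit 458))) (XT.nd (nat_lit 78) (nat_lit 1672) (nat_lit 0) (XT.lf (nat_lit 0) (nat_lit 3325104187) (nat_lit 1596) (nat_lit 938476901) (nat_lit 1672) (nat_lit 4192390108) (nat_lit 542) (nat_lit 5) (nat_lit 563) (nat_lit 5) (nat_lit 564) (nat_lit 5) (nat_lit 565) (nat_lit 538) (nat_lit 457)) (XT.nd (nat_lit 78) (nat_lit 1672) (nat_lit 0) (XT.lf (nat_lit 0) (nat_lit 6105954664) (nat_lit 1672) (nat_lit 212889426) (nat_lit 76) (nat_lit 2207956063) (nat_lit 542) (nat_lit 5) (nat_lit 564) (nat_lit 5) (nat_lit 543) (nat_lit 5) (nat_lit 566) (nat_lit 538) (nat_lit 456)) (XT.lf (nat_lit 0) (nat_lit 4834971473) (nat_lit 1672) (nat_lit 3158050071) (nat_lit 1748) (nat_lit 605868215) (nat_lit 520) (nat_lit 5) (nat_lit 542) (nat_lit 5) (nat_lit 543) (nat_lit 5) (nat_lit 567) (nat_lit 538) (nat_lit 455))))) (XT.nd (nat_lit 234) (nat_lit 2128) (nat_lit 0) (XT.nd (nat_lit 78) (nat_lit 1824) (nat_lit 0) (XT.lf (nat_lit 0) (nat_lit 1209968214) (nat_lit 1824) (nat_lit 7375920279) (nat_lit 76)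 (nat_lit 86754023) (nat_lit 496) (nat_lit 5) (nat_lit 520) (nat_lit 5) (nat_lit 497) (nat_lit 5) (nat_lit 568) (nat_lit 538) (nat_lit 454)) (XT.nd (nat_lit 78) (nat_lit 1824) (nat_lit 0) (XT.lf (nat_lit 0) (nat_lit 3071251578) (nat_lit 1824) (nat_lit 2289195004) (nat_lit 76) (nat_lit 3386999725) (nat_lit 496) (nat_lit 5) (nat_lit 520) (nat_lit 5) (nat_lit 497) (nat_lit 5) (nat_lit 569) (nat_lit 538) (nat_lit 453)) (XT.lf (nat_lit 0) (nat_lit 2911635295) (nat_lit 1824) (nat_lit 2048496068) (nat_lit 1900) (nat_lit 3863808308) (nat_lit 472) (nat_lit 5) (nat_lit 496) (nat_lit 5) (nat_lit 497) (nat_lit 5) (nat_lit 570) (nat_lit 538) (nat_lit 452)))) (XT.nd (nat_lit 78) (nat_lit 2128) (nat_lit 0) (XT.lf (nat_lit 0) (nat_lit 6882761080) (nat_lit 1900) (nat_lit 689103970) (nat_lit 76) (nat_lit 1330179298) (nat_lit 472) (nat_lit 5) (nat_lit 497) (nat_lit 5) (nat_lit 473) (nat_lit 5) (nat_lit 571) (nat_lit 538) (nat_lit 451)) (XT.nd (nat_lit 78) (nat_lit 988) (nat_lit 0) (XT.lf (nat_lit 0) (nat_lit 4660404366) (nat_lit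 1140) (nat_lit 4199690767) (nat_lit 1216) (nat_lit 121291827) (nat_lit 457) (nat_lit 5) (nat_lit 472) (nat_lit 5) (nat_lit 473) (nat_lit 5) (nat_lit 572) (nat_lit 538) (nat_lit 450)) (XT.lf (nat_lit 0) (nat_lit 1039938846) (nat_lit 912) (nat_lit 734948802) (nat_lit 988) (nat_lit 7287513422) (nat_lit 444) (nat_lit 5) (nat_lit 456) (nat_lit 5) (nat_lit 457) (nat_lit 5) (nat_lit 573) (nat_lit 538) (nat_lit 449))))))))
noncomputable def xc106 : XT := (XT.nd (nat_lit 1560) (nat_lit 7600) (nat_lit 0) (XT.nd (nat_lit 780) (nat_lit 4484) (nat_lit 0) (XT.nd (nat_lit 390) (nat_lit 2508) (nat_lit 0) (XT.nd (nat_lit 156) (nat_lit 1824) (nat_lit 0) (XT.nd (nat_lit 78) (nat_lit 912) (nat_lit 0) (XT.lf (nat_lit 0) (nat_lit 3727728711) (nat_lit 988) (nat_lit 2623259877) (nat_lit 76) (nat_lit 2793624423) (nat_lit 444) (nat_lit 5) (nat_lit 457) (nat_lit 5) (nat_lit 445) (nat_lit 5) (nat_lit 574) (nat_lit 538) (nat_lit 448)) (XT.lf (nat_lit 0) (nat_lit 2891207139) (nat_lit 912) (nat_lit 2825586680) (nat_lit 988) (nat_lit 3511732838)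 (nat_lit 432) (nat_lit 5) (nat_lit 444) (nat_lit 5) (nat_lit 445) (nat_lit 5) (nat_lit 575) (nat_lit 538) (nat_lit 447))) (XT.nd (nat_lit 78) (nat_lit 1824) (nat_lit 0) (XT.lf (nat_lit 0) (nat_lit 7742246281) (nat_lit 988) (nat_lit 793489913) (nat_lit 76) (nat_lit 778451052) (nat_lit 432) (nat_lit 5) (nat_lit 445) (nat_lit 5) (nat_lit 433) (nat_lit 5) (nat_lit 576) (nat_lit 538) (nat_lit 446)) (XT.nd (nat_lit 78) (nat_lit 912) (nat_lit 0) (XT.lf (nat_lit 0) (nat_lit 426276149) (nat_lit 912) (nat_lit 4522968136) (nat_lit 76) (nat_lit 4451765469) (nat_lit 420) (nat_lit 5) (nat_lit 432) (nat_lit 5) (nat_lit 421) (nat_lit 5) (nat_lit 577) (nat_lit 538) (nat_lit 445)) (XT.lf (nat_lit 0) (nat_lit 1163323479) (nat_lit 912) (nat_lit 1267583943) (nat_lit 988) (nat_lit 7058704265) (nat_lit 408) (nat_lit 5) (nat_lit 420) (nat_lit 5) (nat_lit 421) (nat_lit 5) (nat_lit 578) (nat_lit 538) (nat_lit 444))))) (XT.nd (nat_lit 156) (nat_lit 1672) (nat_lit 0) (XT.nd (nat_lit 78) (nat_lit 836) (nat_lit 0) (XT.lf (nat_lit 0)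 (nat_lit 4497230109) (nat_lit 988) (nat_lit 2597196118) (nat_lit 76) (nat_lit 2485128186) (nat_lit 408) (nat_lit 5) (nat_lit 421) (nat_lit 5) (nat_lit 409) (nat_lit 5) (nat_lit 579) (nat_lit 538) (nat_lit 443)) (XT.lf (nat_lit 0) (nat_lit 3255171874) (nat_lit 836) (nat_lit 3354623401) (nat_lit 912) (nat_lit 3061403119) (nat_lit 397) (nat_lit 5) (nat_lit 408) (nat_lit 5) (nat_lit 409) (nat_lit 5) (nat_lit 580) (nat_lit 538) (nat_lit 442))) (XT.nd (nat_lit 78) (nat_lit 1672) (nat_lit 0) (XT.lf (nat_lit 0) (nat_lit 8760838956) (nat_lit 912) (nat_lit 533549953) (nat_lit 76) (nat_lit 470362506) (nat_lit 397) (nat_lit 5) (nat_lit 409) (nat_lit 5) (nat_lit 398) (nat_lit 5) (nat_lit 581) (nat_lit 538) (nat_lit 441)) (XT.nd (nat_lit 78) (nat_lit 760) (nat_lit 0) (XT.lf (nat_lit 0) (nat_lit 1114635576) (nat_lit 912) (nat_lit 4375859529) (nat_lit 76) (nat_lit 4368853610) (nat_lit 385) (nat_lit 5) (nat_lit 397) (nat_lit 5) (nat_lit 386) (nat_lit 5) (nat_lit 582) (nat_lit 538) (nat_lit 440)) (XT.lf (nat_lit 0) (nat_lit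 1661904832) (nat_lit 760) (nat_lit 1590934392) (nat_lit 836) (nat_lit 6703052145) (nat_lit 375) (nat_lit 5) (nat_lit 385) (nat_lit 5) (nat_lit 386) (nat_lit 5) (nat_lit 583) (nat_lit 538) (nat_lit 439)))))) (XT.nd (nat_lit 390) (nat_lit 2128) (nat_lit 0) (XT.nd (nat_lit 156) (nat_lit 1596) (nat_lit 0) (XT.nd (nat_lit 78) (nat_lit 760) (nat_lit 0) (XT.lf (nat_lit 0) (nat_lit 5455467873) (nat_lit 836) (nat_lit 2215568636) (nat_lit 76) (nat_lit 2382895798) (nat_lit 375) (nat_lit 5) (nat_lit 386) (nat_lit 5) (nat_lit 376) (nat_lit 5) (nat_lit 584) (nat_lit 538) (nat_lit 438)) (XT.lf (nat_lit 0) (nat_lit 4001020950) (nat_lit 760) (nat_lit 3714706744) (nat_lit 836) (nat_lit 2437935436) (nat_lit 365) (nat_lit 5) (nat_lit 375) (nat_lit 5) (nat_lit 376) (nat_lit 5) (nat_lit 585) (nat_lit 538) (nat_lit 437))) (XT.nd (nat_lit 78) (nat_lit 836) (nat_lit 0) (XT.lf (nat_lit 0) (nat_lit 90281455) (nat_lit 760) (nat_lit 9925881298) (nat_lit 836) (nat_lit 239327042) (nat_lit 355) (nat_lit 5) (nat_lit 365) (nat_lit 5) (nat_lit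 366) (nat_lit 5) (nat_lit 586) (nat_lit 538) (nat_lit 436)) (XT.nd (nat_lit 78) (nat_lit 760) (nat_lit 0) (XT.lf (nat_lit 0) (nat_lit 2020607751) (nat_lit 836) (nat_lit 3880680543) (nat_lit 76) (nat_lit 4456932627) (nat_lit 354) (nat_lit 5) (nat_lit 365) (nat_lit 5) (nat_lit 355) (nat_lit 5) (nat_lit 587) (nat_lit 538) (nat_lit 435)) (XT.lf (nat_lit 0) (nat_lit 2535980385) (nat_lit 760) (nat_lit 1780932039) (nat_lit 836) (nat_lit 6146175678) (nat_lit 344) (nat_lit 5) (nat_lit 354) (nat_lit 5) (nat_lit 355) (nat_lit 5) (nat_lit 588) (nat_lit 538) (nat_lit 434))))) (XT.nd (nat_lit 156) (nat_lit 1444) (nat_lit 0) (XT.nd (nat_lit 78) (nat_lit 684) (nat_lit 0) (XT.lf (nat_lit 0) (nat_lit 6679238082) (nat_lit 836) (nat_lit 1477332486) (nat_lit 76) (nat_lit 2413080740) (nat_lit 344) (nat_lit 5) (nat_lit 355) (nat_lit 5) (nat_lit 345) (nat_lit 5) (nat_lit 589) (nat_lit 538) (nat_lit 433)) (XT.lf (nat_lit 0) (nat_lit 5131968064) (nat_lit 684) (nat_lit 3980541762) (nat_lit 760) (nat_lit 1565362527) (nat_lit 335) (nat_lit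 5) (nat_lit 344) (nat_lit 5) (nat_lit 345) (nat_lit 5) (nat_lit 590) (nat_lit 538) (nat_lit 432))) (XT.nd (nat_lit 78) (nat_lit 684) (nat_lit 0) (XT.lf (nat_lit 0) (nat_lit 793305372) (nat_lit 760) (nat_lit 9700867610) (nat_lit 76) (nat_lit 294026905) (nat_lit 325) (nat_lit 5) (nat_lit 335) (nat_lit 5) (nat_lit 326) (nat_lit 5) (nat_lit 591) (nat_lit 538) (nat_lit 431)) (XT.nd (nat_lit 78) (nat_lit 684) (nat_lit 0) (XT.lf (nat_lit 0) (nat_lit 3220963295) (nat_lit 760) (nat_lit 3033886933) (nat_lit 76) (nat_lit 4644821799) (nat_lit 325) (nat_lit 5) (nat_lit 335) (nat_lit 5) (nat_lit 326) (nat_lit 5) (nat_lit 592) (nat_lit 538) (nat_lit 430)) (XT.lf (nat_lit 0) (nat_lit 3791321194) (nat_lit 684) (nat_lit 1909815694) (nat_lit 760) (nat_lit 5312157997) (nat_lit 316) (nat_lit 5) (nat_lit 325) (nat_lit 5) (nat_lit 326) (nat_lit 5) (nat_lit 593) (nat_lit 538) (nat_lit 429))))))) (XT.nd (nat_lit 780) (nat_lit 3800) (nat_lit 0) (XT.nd (nat_lit 390) (nat_lit 1824) (nat_lit 0) (XT.nd (nat_lit 156) (nat_lit 1292) (nat_lit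 0) (XT.nd (nat_lit 78) (nat_lit 684) (nat_lit 0) (XT.lf (nat_lit 0) (nat_lit 8247346859) (nat_lit 760) (nat_lit 376188123) (nat_lit 76) (nat_lit 2505327071) (nat_lit 316) (nat_lit 5) (nat_lit 326) (nat_lit 5) (nat_lit 317) (nat_lit 5) (nat_lit 594) (nat_lit 538) (nat_lit 428)) (XT.lf (nat_lit 0) (nat_lit 6656605572) (nat_lit 684) (nat_lit 4223706879) (nat_lit 760) (nat_lit 365711988) (nat_lit 307) (nat_lit 5) (nat_lit 316) (nat_lit 5) (nat_lit 317) (nat_lit 5) (nat_lit 595) (nat_lit 538) (nat_lit 427))) (XT.nd (nat_lit 78) (nat_lit 608) (nat_lit 0) (XT.lf (nat_lit 0) (nat_lit 2172049949) (nat_lit 684) (nat_lit 8904165970) (nat_lit 76) (nat_lit 289018880) (nat_lit 298) (nat_lit 5) (nat_lit 307) (nat_lit 5) (nat_lit 299) (nat_lit 5) (nat_lit 596) (nat_lit 538) (nat_lit 426)) (XT.nd (nat_lit 78) (nat_lit 608) (nat_lit 0) (XT.lf (nat_lit 0) (nat_lit 4794915662) (nat_lit 684) (nat_lit 1826901005) (nat_lit 76) (nat_lit 4864179918) (nat_lit 298) (nat_lit 5) (nat_lit 307) (nat_lit 5) (nat_lit 299) (nat_lit 5) (nat_lit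 597) (nat_lit 538) (nat_lit 425)) (XT.lf (nat_lit 0) (nat_lit 5438861304) (nat_lit 608) (nat_lit 2047344885) (nat_lit 684) (nat_lit 4122648532) (nat_lit 290) (nat_lit 5) (nat_lit 298) (nat_lit 5) (nat_lit 299) (nat_lit 5) (nat_lit 598) (nat_lit 538) (nat_lit 424))))) (XT.nd (nat_lit 156) (nat_lit 1140) (nat_lit 0) (XT.nd (nat_lit 78) (nat_lit 76) (nat_lit 0) (XT.lf (nat_lit 0) (nat_lit 1113732939) (nat_lit 608) (nat_lit 9135006918) (nat_lit 684) (nat_lit 1485082271) (nat_lit 282) (nat_lit 5) (nat_lit 290) (nat_lit 5) (nat_lit 291) (nat_lit 5) (nat_lit 599) (nat_lit 538) (nat_lit 423)) (XT.lf (nat_lit 0) (nat_lit 1225600178) (nat_lit 684) (nat_lit 3280010259) (nat_lit 76) (nat_lit 7354798946) (nat_lit 281) (nat_lit 5) (nat_lit 290) (nat_lit 5) (nat_lit 282) (nat_lit 5) (nat_lit 600) (nat_lit 538) (nat_lit 422))) (XT.nd (nat_lit 78) (nat_lit 532) (nat_lit 0) (XT.lf (nat_lit 0) (nat_lit 3981007674) (nat_lit 684) (nat_lit 7762460337) (nat_lit 76) (nat_lit 245656541) (nat_lit 273) (nat_lit 5) (nat_lit 282) (nat_lit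 5) (nat_lit 274) (nat_lit 5) (nat_lit 601) (nat_lit 538) (nat_lit 421)) (XT.nd (nat_lit 78) (nat_lit 532) (nat_lit 0) (XT.lf (nat_lit 0) (nat_lit 6825001640) (nat_lit 684) (nat_lit 246377134) (nat_lit 76) (nat_lit 5048366105) (nat_lit 273) (nat_lit 5) (nat_lit 282) (nat_lit 5) (nat_lit 274) (nat_lit 5) (nat_lit 602) (nat_lit 538) (nat_lit 420)) (XT.lf (nat_lit 0) (nat_lit 7494443550) (nat_lit 532) (nat_lit 2261937381) (nat_lit 608) (nat_lit 2495986985) (nat_lit 266) (nat_lit 5) (nat_lit 273) (nat_lit 5) (nat_lit 274) (nat_lit 5) (nat_lit 603) (nat_lit 538) (nat_lit 419)))))) (XT.nd (nat_lit 390) (nat_lit 2052) (nat_lit 0) (XT.nd (nat_lit 156) (nat_lit 1064) (nat_lit 0) (XT.nd (nat_lit 78) (nat_lit 0) (nat_lit 0) (XT.lf (nat_lit 0) (nat_lit 374517576) (nat_lit 684) (nat_lit 9385708603) (nat_lit 76) (nat_lit 2626961485) (nat_lit 257) (nat_lit 5) (nat_lit 266) (nat_lit 5) (nat_lit 258) (nat_lit 5) (nat_lit 604) (nat_lit 538) (nat_lit 418)) (XT.lf (nat_lit 0) (nat_lit 3298252061) (nat_lit 684) (nat_lit 1599340959)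 (nat_lit 76) (nat_lit 7626196383) (nat_lit 257) (nat_lit 5) (nat_lit 266) (nat_lit 5) (nat_lit 258) (nat_lit 5) (nat_lit 605) (nat_lit 538) (nat_lit 417))) (XT.nd (nat_lit 78) (nat_lit 532) (nat_lit 0) (XT.lf (nat_lit 0) (nat_lit 6305116219) (nat_lit 608) (nat_lit 6260199224) (nat_lit 76) (nat_lit 97315015) (nat_lit 250) (nat_lit 5) (nat_lit 258) (nat_lit 5) (nat_lit 251) (nat_lit 5) (nat_lit 606) (nat_lit 538) (nat_lit 416)) (XT.nd (nat_lit 78) (nat_lit 0) (nat_lit 0) (XT.lf (nat_lit 0) (nat_lit 1748511521) (nat_lit 532) (nat_lit 7660790193) (nat_lit 608) (nat_lit 3394203314) (nat_lit 243) (nat_lit 5) (nat_lit 250) (nat_lit 5) (nat_lit 251) (nat_lit 5) (nat_lit 607) (nat_lit 538) (nat_lit 415)) (XT.lf (nat_lit 0) (nat_lit 9978611977) (nat_lit 532) (nat_lit 2621749637) (nat_lit 608) (nat_lit 346340027) (nat_lit 243) (nat_lit 5) (nat_lit 250) (nat_lit 5) (nat_lit 251) (nat_lit 5) (nat_lit 608) (nat_lit 538) (nat_lit 414))))) (XT.nd (nat_lit 234) (nat_lit 988) (nat_lit 0) (XT.nd (nat_lit 78) (nat_lit 532)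 (nat_lit 0) (XT.lf (nat_lit 0) (nat_lit 2760379926) (nat_lit 532) (nat_lit 7799871711) (nat_lit 76) (nat_lit 2531469589) (nat_lit 236) (nat_lit 5) (nat_lit 243) (nat_lit 5) (nat_lit 237) (nat_lit 5) (nat_lit 609) (nat_lit 538) (nat_lit 413)) (XT.nd (nat_lit 78) (nat_lit 0) (nat_lit 0) (XT.lf (nat_lit 0) (nat_lit 480950994) (nat_lit 532) (nat_lit 5467332053) (nat_lit 608) (nat_lit 7290838989) (nat_lit 229) (nat_lit 5) (nat_lit 236) (nat_lit 5) (nat_lit 237) (nat_lit 5) (nat_lit 610) (nat_lit 538) (nat_lit 412)) (XT.lf (nat_lit 0) (nat_lit 9009727880) (nat_lit 532) (nat_lit 225883513) (nat_lit 608) (nat_lit 4153146464) (nat_lit 229) (nat_lit 5) (nat_lit 236) (nat_lit 5) (nat_lit 237) (nat_lit 5) (nat_lit 611) (nat_lit 538) (nat_lit 411)))) (XT.nd (nat_lit 78) (nat_lit 532) (nat_lit 0) (XT.lf (nat_lit 0) (nat_lit 4165867569) (nat_lit 456) (nat_lit 8466721407) (nat_lit 532) (nat_lit 907919697) (nat_lit 223) (nat_lit 5) (nat_lit 229) (nat_lit 5) (nat_lit 230) (nat_lit 5) (nat_lit 612) (nat_lit 538) (nat_lit 410))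 (XT.nd (nat_lit 78) (nat_lit 456) (nat_lit 0) (XT.lf (nat_lit 0) (nat_lit 2385456279) (nat_lit 532) (nat_lit 794254081) (nat_lit 76) (nat_lit 10514977529) (nat_lit 222) (nat_lit 5) (nat_lit 229) (nat_lit 5) (nat_lit 223) (nat_lit 5) (nat_lit 613) (nat_lit 538) (nat_lit 409)) (XT.lf (nat_lit 0) (nat_lit 5783421565) (nat_lit 532) (nat_lit 5831543676) (nat_lit 76) (nat_lit 2235848155) (nat_lit 216) (nat_lit 5) (nat_lit 223) (nat_lit 5) (nat_lit 217) (nat_lit 5) (nat_lit 614) (nat_lit 538) (nat_lit 408))))))))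
noncomputable def xc107 : XT := (XT.nd (nat_lit 76752) (nat_lit 0) (nat_lit 15960) (XT.nd (nat_lit 75972) (nat_lit 0) (nat_lit 31084) (XT.nd (nat_lit 75582) (nat_lit 0) (nat_lit 33516) (XT.nd (nat_lit 75348) (nat_lit 0) (nat_lit 34656) (XT.nd (nat_lit 75270) (nat_lit 0) (nat_lit 35796) (XT.lf (nat_lit 0) (nat_lit 3005248888) (nat_lit 456) (nat_lit 6274148526) (nat_lit 532) (nat_lit 4730063281) (nat_lit 210) (nat_lit 5) (nat_lit 216) (nat_lit 5) (nat_lit 217) (nat_lit 5) (nat_lit 615) (nat_lit 538) (nat_lit 407)) (XT.lf (nat_lit 0) (nat_lit 3067244155) (nat_lit 1140) (nat_lit 248289858) (nat_lit 1140) (nat_lit 248289858) (nat_lit 681) (nat_lit 3) (nat_lit 696) (nat_lit 3) (nat_lit 696) (nat_lit 5) (nat_lit 539) (nat_lit 539) (nat_lit 482))) (XT.nd (nat_lit 78) (nat_lit 0) (nat_lit 0) (XT.lf (nat_lit 0) (nat_lit 746916819) (nat_lit 1140) (nat_lit 4073345085) (nat_lit 1216) (nat_lit 2343987414) (nat_lit 666) (nat_lit 5) (nat_lit 681) (nat_lit 3) (nat_lit 682) (nat_lit 5) (nat_lit 540) (nat_lit 539) (nat_lit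 481)) (XT.nd (nat_lit 78) (nat_lit 0) (nat_lit 0) (XT.lf (nat_lit 0) (nat_lit 2466684411) (nat_lit 1140) (nat_lit 474964739) (nat_lit 1216) (nat_lit 4260640500) (nat_lit 666) (nat_lit 5) (nat_lit 681) (nat_lit 3) (nat_lit 682) (nat_lit 5) (nat_lit 541) (nat_lit 539) (nat_lit 480)) (XT.lf (nat_lit 76) (nat_lit 3214285904) (nat_lit 0) (nat_lit 983137987) (nat_lit 1216) (nat_lit 3044137118) (nat_lit 667) (nat_lit 5) (nat_lit 666) (nat_lit 5) (nat_lit 682) (nat_lit 5) (nat_lit 542) (nat_lit 539) (nat_lit 479))))) (XT.nd (nat_lit 156) (nat_lit 0) (nat_lit 0) (XT.nd (nat_lit 78) (nat_lit 1216) (nat_lit 0) (XT.lf (nat_lit 0) (nat_lit 5929132316) (nat_lit 1140) (nat_lit 328508812) (nat_lit 1216) (nat_lit 1024651302) (nat_lit 667) (nat_lit 5) (nat_lit 682) (nat_lit 5) (nat_lit 683) (nat_lit 5) (nat_lit 543) (nat_lit 539) (nat_lit 478)) (XT.lf (nat_lit 0) (nat_lit 353052945) (nat_lit 1216) (nat_lit 3866975560) (nat_lit 1292) (nat_lit 3104037554) (nat_lit 651) (nat_lit 5) (nat_lit 667) (nat_lit 5) (nat_lit 668) (nat_lit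 5) (nat_lit 544) (nat_lit 539) (nat_lit 477))) (XT.nd (nat_lit 78) (nat_lit 0) (nat_lit 76) (XT.lf (nat_lit 0) (nat_lit 2035321435) (nat_lit 1216) (nat_lit 76792661) (nat_lit 1292) (nat_lit 5255182797) (nat_lit 651) (nat_lit 5) (nat_lit 667) (nat_lit 5) (nat_lit 668) (nat_lit 5) (nat_lit 545) (nat_lit 539) (nat_lit 476)) (XT.nd (nat_lit 78) (nat_lit 0) (nat_lit 0) (XT.lf (nat_lit 0) (nat_lit 3735176318) (nat_lit 1216) (nat_lit 3596583688) (nat_lit 1292) (nat_lit 79955103) (nat_lit 652) (nat_lit 5) (nat_lit 668) (nat_lit 5) (nat_lit 669) (nat_lit 5) (nat_lit 546) (nat_lit 539) (nat_lit 475)) (XT.lf (nat_lit 76) (nat_lit 294452593) (nat_lit 0) (nat_lit 5150406055) (nat_lit 1292) (nat_lit 2012647990) (nat_lit 653) (nat_lit 5) (nat_lit 652) (nat_lit 5) (nat_lit 669) (nat_lit 5) (nat_lit 547) (nat_lit 539) (nat_lit 474)))))) (XT.nd (nat_lit 390) (nat_lit 1216) (nat_lit 0) (XT.nd (nat_lit 156) (nat_lit 0) (nat_lit 76) (XT.nd (nat_lit 78) (nat_lit 1292) (nat_lit 0) (XT.lf (nat_lit 76) (nat_lit 4287880553) (nat_lit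 0) (nat_lit 2885040200) (nat_lit 1292) (nat_lit 331611046) (nat_lit 653) (nat_lit 5) (nat_lit 652) (nat_lit 5) (nat_lit 669) (nat_lit 5) (nat_lit 548) (nat_lit 539) (nat_lit 473)) (XT.lf (nat_lit 76) (nat_lit 785772543) (nat_lit 0) (nat_lit 544810562) (nat_lit 1368) (nat_lit 6222422724) (nat_lit 636) (nat_lit 5) (nat_lit 635) (nat_lit 5) (nat_lit 653) (nat_lit 5) (nat_lit 549) (nat_lit 539) (nat_lit 472))) (XT.nd (nat_lit 78) (nat_lit 0) (nat_lit 0) (XT.lf (nat_lit 0) (nat_lit 3016560392) (nat_lit 1292) (nat_lit 2729417091) (nat_lit 1368) (nat_lit 1856529864) (nat_lit 636) (nat_lit 5) (nat_lit 653) (nat_lit 5) (nat_lit 654) (nat_lit 5) (nat_lit 550) (nat_lit 539) (nat_lit 471)) (XT.nd (nat_lit 78) (nat_lit 0) (nat_lit 0) (XT.lf (nat_lit 76) (nat_lit 1379177896) (nat_lit 0) (nat_lit 3331687040) (nat_lit 1368) (nat_lit 2942643214) (nat_lit 637) (nat_lit 5) (nat_lit 636) (nat_lit 5) (nat_lit 654) (nat_lit 5) (nat_lit 551) (nat_lit 539) (nat_lit 470)) (XT.lf (nat_lit 76) (nat_lit 5582645974) (nat_lit 0) (nat_lit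 837357042) (nat_lit 1368) (nat_lit 1285908385) (nat_lit 637) (nat_lit 5) (nat_lit 636) (nat_lit 5) (nat_lit 654) (nat_lit 5) (nat_lit 552) (nat_lit 539) (nat_lit 469))))) (XT.nd (nat_lit 156) (nat_lit 0) (nat_lit 0) (XT.nd (nat_lit 78) (nat_lit 0) (nat_lit 0) (XT.lf (nat_lit 0) (nat_lit 386765095) (nat_lit 1368) (nat_lit 5659466958) (nat_lit 1444) (nat_lit 1713317497) (nat_lit 619) (nat_lit 5) (nat_lit 637) (nat_lit 5) (nat_lit 638) (nat_lit 5) (nat_lit 553) (nat_lit 539) (nat_lit 468)) (XT.lf (nat_lit 0) (nat_lit 2059343482) (nat_lit 1368) (nat_lit 1416410610) (nat_lit 1444) (nat_lit 4338664279) (nat_lit 619) (nat_lit 5) (nat_lit 637) (nat_lit 5) (nat_lit 638) (nat_lit 5) (nat_lit 554) (nat_lit 539) (nat_lit 467))) (XT.nd (nat_lit 78) (nat_lit 0) (nat_lit 76) (XT.lf (nat_lit 76) (nat_lit 2925405070) (nat_lit 0) (nat_lit 823438171) (nat_lit 1444) (nat_lit 4121873207) (nat_lit 620) (nat_lit 5) (nat_lit 619) (nat_lit 5) (nat_lit 638) (nat_lit 5) (nat_lit 555) (nat_lit 539) (nat_lit 466)) (XT.nd (nat_lit 78)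 (nat_lit 0) (nat_lit 0) (XT.lf (nat_lit 0) (nat_lit 5459003681) (nat_lit 1368) (nat_lit 592053457) (nat_lit 1444) (nat_lit 1877347186) (nat_lit 620) (nat_lit 5) (nat_lit 638) (nat_lit 5) (nat_lit 639) (nat_lit 5) (nat_lit 556) (nat_lit 539) (nat_lit 465)) (XT.lf (nat_lit 76) (nat_lit 3868972080) (nat_lit 0) (nat_lit 3330737217) (nat_lit 1444) (nat_lit 787611048) (nat_lit 621) (nat_lit 5) (nat_lit 620) (nat_lit 5) (nat_lit 639) (nat_lit 5) (nat_lit 557) (nat_lit 539) (nat_lit 464))))))) (XT.nd (nat_lit 780) (nat_lit 7600) (nat_lit 0) (XT.nd (nat_lit 390) (nat_lit 4864) (nat_lit 0) (XT.nd (nat_lit 156) (nat_lit 1292) (nat_lit 0) (XT.nd (nat_lit 78) (nat_lit 0) (nat_lit 76) (XT.lf (nat_lit 76) (nat_lit 353618734) (nat_lit 0) (nat_lit 534379315) (nat_lit 1520) (nat_lit 7159850293) (nat_lit 602) (nat_lit 5) (nat_lit 601) (nat_lit 5) (nat_lit 621) (nat_lit 5) (nat_lit 558) (nat_lit 539) (nat_lit 463)) (XT.lf (nat_lit 0) (nat_lit 2596070435) (nat_lit 1444) (nat_lit 3184072155) (nat_lit 1520) (nat_lit 2329151398)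 (nat_lit 602) (nat_lit 5) (nat_lit 621) (nat_lit 5) (nat_lit 622) (nat_lit 5) (nat_lit 559) (nat_lit 539) (nat_lit 462))) (XT.nd (nat_lit 78) (nat_lit 1368) (nat_lit 0) (XT.lf (nat_lit 76) (nat_lit 1406251598) (nat_lit 0) (nat_lit 2911995133) (nat_lit 1520) (nat_lit 3854124100) (nat_lit 603) (nat_lit 5) (nat_lit 602) (nat_lit 5) (nat_lit 622) (nat_lit 5) (nat_lit 560) (nat_lit 539) (nat_lit 461)) (XT.nd (nat_lit 78) (nat_lit 1444) (nat_lit 0) (XT.lf (nat_lit 0) (nat_lit 6064265139) (nat_lit 1444) (nat_lit 2130439958) (nat_lit 76) (nat_lit 42217253) (nat_lit 603) (nat_lit 5) (nat_lit 622) (nat_lit 5) (nat_lit 604) (nat_lit 5) (nat_lit 561) (nat_lit 539) (nat_lit 460)) (XT.lf (nat_lit 0) (nat_lit 2587633293) (nat_lit 1444) (nat_lit 5262089846) (nat_lit 1520) (nat_lit 452952464) (nat_lit 584) (nat_lit 5) (nat_lit 603) (nat_lit 5) (nat_lit 604) (nat_lit 5) (nat_lit 562) (nat_lit 539) (nat_lit 459))))) (XT.nd (nat_lit 156) (nat_lit 3268) (nat_lit 0) (XT.nd (nat_lit 78) (nat_lit 1520) (nat_lit 0) (XT.lf (nat_lit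 0) (nat_lit 1267157322) (nat_lit 1520) (nat_lit 974278965) (nat_lit 76) (nat_lit 6128478210) (nat_lit 583) (nat_lit 5) (nat_lit 603) (nat_lit 5) (nat_lit 584) (nat_lit 5) (nat_lit 563) (nat_lit 539) (nat_lit 458)) (XT.lf (nat_lit 0) (nat_lit 3015806577) (nat_lit 1596) (nat_lit 4559710283) (nat_lit 76) (nat_lit 862918407) (nat_lit 563) (nat_lit 5) (nat_lit 584) (nat_lit 5) (nat_lit 564) (nat_lit 5) (nat_lit 564) (nat_lit 539) (nat_lit 457))) (XT.nd (nat_lit 78) (nat_lit 1672) (nat_lit 0) (XT.lf (nat_lit 0) (nat_lit 297604927) (nat_lit 1596) (nat_lit 4494959425) (nat_lit 1672) (nat_lit 3715900398) (nat_lit 542) (nat_lit 5) (nat_lit 563) (nat_lit 5) (nat_lit 564) (nat_lit 5) (nat_lit 565) (nat_lit 539) (nat_lit 456)) (XT.nd (nat_lit 78) (nat_lit 1672) (nat_lit 0) (XT.lf (nat_lit 0) (nat_lit 5288829484) (nat_lit 1596) (nat_lit 1316833948) (nat_lit 1672) (nat_lit 1974216253) (nat_lit 542) (nat_lit 5) (nat_lit 563) (nat_lit 5) (nat_lit 564) (nat_lit 5) (nat_lit 566) (nat_lit 539) (nat_lit 455)) (XT.lf (nat_lit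 0) (nat_lit 1711941310) (nat_lit 1672) (nat_lit 6737518134) (nat_lit 1748) (nat_lit 203375743) (nat_lit 520) (nat_lit 5) (nat_lit 542) (nat_lit 5) (nat_lit 543) (nat_lit 5) (nat_lit 567) (nat_lit 539) (nat_lit 454)))))) (XT.nd (nat_lit 390) (nat_lit 2736) (nat_lit 0) (XT.nd (nat_lit 156) (nat_lit 3040) (nat_lit 0) (XT.nd (nat_lit 78) (nat_lit 1748) (nat_lit 0) (XT.lf (nat_lit 0) (nat_lit 1583851967) (nat_lit 1748) (nat_lit 1911867868) (nat_lit 76) (nat_lit 5231282903) (nat_lit 519) (nat_lit 5) (nat_lit 542) (nat_lit 5) (nat_lit 520) (nat_lit 5) (nat_lit 568) (nat_lit 539) (nat_lit 453)) (XT.lf (nat_lit 0) (nat_lit 3233913504) (nat_lit 1748) (nat_lit 162795392) (nat_lit 1824) (nat_lit 5406066613) (nat_lit 496) (nat_lit 5) (nat_lit 519) (nat_lit 5) (nat_lit 520) (nat_lit 5) (nat_lit 569) (nat_lit 539) (nat_lit 452))) (XT.nd (nat_lit 78) (nat_lit 3040) (nat_lit 0) (XT.lf (nat_lit 0) (nat_lit 5251778906) (nat_lit 1824) (nat_lit 417691006) (nat_lit 76) (nat_lit 3210475597) (nat_lit 496) (nat_lit 5) (nat_lit 520)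 (nat_lit 5) (nat_lit 497) (nat_lit 5) (nat_lit 570) (nat_lit 539) (nat_lit 451)) (XT.nd (nat_lit 78) (nat_lit 1216) (nat_lit 0) (XT.lf (nat_lit 0) (nat_lit 4874542162) (nat_lit 1824) (nat_lit 2274709507) (nat_lit 1900) (nat_lit 1809302091) (nat_lit 472) (nat_lit 5) (nat_lit 496) (nat_lit 5) (nat_lit 497) (nat_lit 5) (nat_lit 571) (nat_lit 539) (nat_lit 450)) (XT.lf (nat_lit 0) (nat_lit 36720429) (nat_lit 1216) (nat_lit 7816447337) (nat_lit 76) (nat_lit 1185733621) (nat_lit 456) (nat_lit 5) (nat_lit 472) (nat_lit 5) (nat_lit 457) (nat_lit 5) (nat_lit 572) (nat_lit 539) (nat_lit 449))))) (XT.nd (nat_lit 234) (nat_lit 1824) (nat_lit 0) (XT.nd (nat_lit 78) (nat_lit 912) (nat_lit 0) (XT.lf (nat_lit 0) (nat_lit 1911268944) (nat_lit 1216) (nat_lit 2482526383) (nat_lit 76) (nat_lit 4726505633) (nat_lit 456) (nat_lit 5) (nat_lit 472) (nat_lit 5) (nat_lit 457) (nat_lit 5) (nat_lit 573) (nat_lit 539) (nat_lit 448)) (XT.nd (nat_lit 78) (nat_lit 0) (nat_lit 0) (XT.lf (nat_lit 0) (nat_lit 2972151856) (nat_lit 912) (nat_lit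 844137860) (nat_lit 988) (nat_lit 5387179992) (nat_lit 444) (nat_lit 5) (nat_lit 456) (nat_lit 5) (nat_lit 457) (nat_lit 5) (nat_lit 574) (nat_lit 539) (nat_lit 447)) (XT.lf (nat_lit 0) (nat_lit 5768254680) (nat_lit 988) (nat_lit 761796536) (nat_lit 76) (nat_lit 2758074532) (nat_lit 444) (nat_lit 5) (nat_lit 457) (nat_lit 5) (nat_lit 445) (nat_lit 5) (nat_lit 575) (nat_lit 539) (nat_lit 446)))) (XT.nd (nat_lit 78) (nat_lit 912) (nat_lit 0) (XT.lf (nat_lit 0) (nat_lit 4850368185) (nat_lit 912) (nat_lit 2920529186) (nat_lit 988) (nat_lit 1603345548) (nat_lit 432) (nat_lit 5) (nat_lit 444) (nat_lit 5) (nat_lit 445) (nat_lit 5) (nat_lit 576) (nat_lit 539) (nat_lit 445)) (XT.nd (nat_lit 78) (nat_lit 0) (nat_lit 0) (XT.lf (nat_lit 0) (nat_lit 339025491) (nat_lit 912) (nat_lit 8356911115) (nat_lit 76) (nat_lit 766258427) (nat_lit 420) (nat_lit 5) (nat_lit 432) (nat_lit 5) (nat_lit 421) (nat_lit 5) (nat_lit 577) (nat_lit 539) (nat_lit 444)) (XT.lf (nat_lit 0) (nat_lit 2323759183) (nat_lit 912) (nat_lit 2698391635)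 (nat_lit 76) (nat_lit 4529044462) (nat_lit 420) (nat_lit 5) (nat_lit 432) (nat_lit 5) (nat_lit 421) (nat_lit 5) (nat_lit 578) (nat_lit 539) (nat_lit 443))))))))
noncomputable def xc108 : XT := (XT.nd (nat_lit 1560) (nat_lit 6232) (nat_lit 0) (XT.nd (nat_lit 780) (nat_lit 4256) (nat_lit 0) (XT.nd (nat_lit 390) (nat_lit 2356) (nat_lit 0) (XT.nd (nat_lit 156) (nat_lit 1748) (nat_lit 0) (XT.nd (nat_lit 78) (nat_lit 0) (nat_lit 0) (XT.lf (nat_lit 0) (nat_lit 3089026892) (nat_lit 912) (nat_lit 1254769689) (nat_lit 988) (nat_lit 5298267488) (nat_lit 408) (nat_lit 5) (nat_lit 420) (nat_lit 5) (nat_lit 421) (nat_lit 5) (nat_lit 579) (nat_lit 539) (nat_lit 442)) (XT.lf (nat_lit 0) (nat_lit 6415134329) (nat_lit 988) (nat_lit 747641025) (nat_lit 76) (nat_lit 2571757592) (nat_lit 408) (nat_lit 5) (nat_lit 421) (nat_lit 5) (nat_lit 409) (nat_lit 5) (nat_lit 580) (nat_lit 539) (nat_lit 441))) (XT.nd (nat_lit 78) (nat_lit 912) (nat_lit 0) (XT.lf (nat_lit 0) (nat_lit 5209264465) (nat_lit 836) (nat_lit 3337108558) (nat_lit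 912) (nat_lit 1282109385) (nat_lit 397) (nat_lit 5) (nat_lit 408) (nat_lit 5) (nat_lit 409) (nat_lit 5) (nat_lit 581) (nat_lit 539) (nat_lit 440)) (XT.nd (nat_lit 78) (nat_lit 0) (nat_lit 0) (XT.lf (nat_lit 0) (nat_lit 779640440) (nat_lit 912) (nat_lit 8569092189) (nat_lit 76) (nat_lit 575592470) (nat_lit 385) (nat_lit 5) (nat_lit 397) (nat_lit 5) (nat_lit 386) (nat_lit 5) (nat_lit 582) (nat_lit 539) (nat_lit 439)) (XT.lf (nat_lit 0) (nat_lit 2895561071) (nat_lit 912) (nat_lit 2565526635) (nat_lit 76) (nat_lit 4560226029) (nat_lit 385) (nat_lit 5) (nat_lit 397) (nat_lit 5) (nat_lit 386) (nat_lit 5) (nat_lit 583) (nat_lit 539) (nat_lit 438))))) (XT.nd (nat_lit 156) (nat_lit 1596) (nat_lit 0) (XT.nd (nat_lit 78) (nat_lit 0) (nat_lit 0) (XT.lf (nat_lit 0) (nat_lit 3580507158) (nat_lit 760) (nat_lit 1473779673) (nat_lit 836) (nat_lit 5065946215) (nat_lit 375) (nat_lit 5) (nat_lit 385) (nat_lit 5) (nat_lit 386) (nat_lit 5) (nat_lit 584) (nat_lit 539) (nat_lit 437)) (XT.lf (nat_lit 0) (nat_lit 7267869443) (nat_lit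 836) (nat_lit 378337711) (nat_lit 76) (nat_lit 2574690570) (nat_lit 375) (nat_lit 5) (nat_lit 386) (nat_lit 5) (nat_lit 376) (nat_lit 5) (nat_lit 585) (nat_lit 539) (nat_lit 436))) (XT.nd (nat_lit 78) (nat_lit 836) (nat_lit 0) (XT.lf (nat_lit 0) (nat_lit 5950205100) (nat_lit 760) (nat_lit 3601867325) (nat_lit 836) (nat_lit 770976909) (nat_lit 365) (nat_lit 5) (nat_lit 375) (nat_lit 5) (nat_lit 376) (nat_lit 5) (nat_lit 586) (nat_lit 539) (nat_lit 435)) (XT.nd (nat_lit 78) (nat_lit 0) (nat_lit 0) (XT.lf (nat_lit 0) (nat_lit 1432648747) (nat_lit 836) (nat_lit 8455517134) (nat_lit 76) (nat_lit 538949543) (nat_lit 354) (nat_lit 5) (nat_lit 365) (nat_lit 5) (nat_lit 355) (nat_lit 5) (nat_lit 587) (nat_lit 539) (nat_lit 434)) (XT.lf (nat_lit 0) (nat_lit 3701765727) (nat_lit 836) (nat_lit 2084362363) (nat_lit 76) (nat_lit 4746398556) (nat_lit 354) (nat_lit 5) (nat_lit 365) (nat_lit 5) (nat_lit 355) (nat_lit 5) (nat_lit 588) (nat_lit 539) (nat_lit 433)))))) (XT.nd (nat_lit 390) (nat_lit 2052) (nat_lit 0) (XT.nd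 (nat_lit 156) (nat_lit 760) (nat_lit 0) (XT.nd (nat_lit 78) (nat_lit 684) (nat_lit 0) (XT.lf (nat_lit 0) (nat_lit 4448303285) (nat_lit 760) (nat_lit 1575608485) (nat_lit 836) (nat_lit 4615981954) (nat_lit 344) (nat_lit 5) (nat_lit 354) (nat_lit 5) (nat_lit 355) (nat_lit 5) (nat_lit 589) (nat_lit 539) (nat_lit 432)) (XT.lf (nat_lit 0) (nat_lit 353139683) (nat_lit 684) (nat_lit 8052393089) (nat_lit 760) (nat_lit 2343615287) (nat_lit 335) (nat_lit 5) (nat_lit 344) (nat_lit 5) (nat_lit 345) (nat_lit 5) (nat_lit 590) (nat_lit 539) (nat_lit 431))) (XT.nd (nat_lit 78) (nat_lit 684) (nat_lit 0) (XT.lf (nat_lit 0) (nat_lit 5916454) (nat_lit 760) (nat_lit 3782215222) (nat_lit 76) (nat_lit 7071832102) (nat_lit 334) (nat_lit 5) (nat_lit 344) (nat_lit 5) (nat_lit 335) (nat_lit 5) (nat_lit 591) (nat_lit 539) (nat_lit 430)) (XT.nd (nat_lit 78) (nat_lit 0) (nat_lit 0) (XT.lf (nat_lit 0) (nat_lit 2373707145) (nat_lit 760) (nat_lit 8013494843) (nat_lit 76) (nat_lit 585431535) (nat_lit 325) (nat_lit 5) (nat_lit 335) (nat_lit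 5) (nat_lit 326) (nat_lit 5) (nat_lit 592) (nat_lit 539) (nat_lit 429)) (XT.lf (nat_lit 0) (nat_lit 4819241057) (nat_lit 760) (nat_lit 1250064555) (nat_lit 76) (nat_lit 5017643815) (nat_lit 325) (nat_lit 5) (nat_lit 335) (nat_lit 5) (nat_lit 326) (nat_lit 5) (nat_lit 593) (nat_lit 539) (nat_lit 428))))) (XT.nd (nat_lit 156) (nat_lit 684) (nat_lit 0) (XT.nd (nat_lit 78) (nat_lit 684) (nat_lit 0) (XT.lf (nat_lit 0) (nat_lit 5699512866) (nat_lit 684) (nat_lit 1631326528) (nat_lit 760) (nat_lit 3872369682) (nat_lit 316) (nat_lit 5) (nat_lit 325) (nat_lit 5) (nat_lit 326) (nat_lit 5) (nat_lit 594) (nat_lit 539) (nat_lit 427)) (XT.lf (nat_lit 0) (nat_lit 1459608416) (nat_lit 684) (nat_lit 8450138499) (nat_lit 760) (nat_lit 1411705953) (nat_lit 307) (nat_lit 5) (nat_lit 316) (nat_lit 5) (nat_lit 317) (nat_lit 5) (nat_lit 595) (nat_lit 539) (nat_lit 426))) (XT.nd (nat_lit 78) (nat_lit 608) (nat_lit 0) (XT.lf (nat_lit 0) (nat_lit 1112207291) (nat_lit 760) (nat_lit 2846900335) (nat_lit 76) (nat_lit 7482243005) (nat_lit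 306) (nat_lit 5) (nat_lit 316) (nat_lit 5) (nat_lit 307) (nat_lit 5) (nat_lit 596) (nat_lit 539) (nat_lit 425)) (XT.nd (nat_lit 78) (nat_lit 0) (nat_lit 0) (XT.lf (nat_lit 0) (nat_lit 3680937378) (nat_lit 684) (nat_lit 7235434320) (nat_lit 76) (nat_lit 646823661) (nat_lit 298) (nat_lit 5) (nat_lit 307) (nat_lit 5) (nat_lit 299) (nat_lit 5) (nat_lit 597) (nat_lit 539) (nat_lit 424)) (XT.lf (nat_lit 0) (nat_lit 6327526161) (nat_lit 684) (nat_lit 52836114) (nat_lit 76) (nat_lit 5306585480) (nat_lit 298) (nat_lit 5) (nat_lit 307) (nat_lit 5) (nat_lit 299) (nat_lit 5) (nat_lit 598) (nat_lit 539) (nat_lit 423))))))) (XT.nd (nat_lit 780) (nat_lit 2052) (nat_lit 0) (XT.nd (nat_lit 390) (nat_lit 1748) (nat_lit 0) (XT.nd (nat_lit 156) (nat_lit 1216) (nat_lit 0) (XT.nd (nat_lit 78) (nat_lit 608) (nat_lit 0) (XT.lf (nat_lit 0) (nat_lit 7346329580) (nat_lit 608) (nat_lit 1709820387) (nat_lit 684) (nat_lit 2756443615) (nat_lit 290) (nat_lit 5) (nat_lit 298) (nat_lit 5) (nat_lit 299) (nat_lit 5) (nat_lit 599) (nat_lit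 539) (nat_lit 422)) (XT.lf (nat_lit 0) (nat_lit 2948675173) (nat_lit 608) (nat_lit 8911589837) (nat_lit 684) (nat_lit 80069377) (nat_lit 282) (nat_lit 5) (nat_lit 290) (nat_lit 5) (nat_lit 291) (nat_lit 5) (nat_lit 600) (nat_lit 539) (nat_lit 421))) (XT.nd (nat_lit 78) (nat_lit 1140) (nat_lit 0) (XT.lf (nat_lit 0) (nat_lit 2638247476) (nat_lit 684) (nat_lit 1550005915) (nat_lit 76) (nat_lit 7881569586) (nat_lit 281) (nat_lit 5) (nat_lit 290) (nat_lit 5) (nat_lit 282) (nat_lit 5) (nat_lit 601) (nat_lit 539) (nat_lit 420)) (XT.nd (nat_lit 78) (nat_lit 532) (nat_lit 0) (XT.lf (nat_lit 0) (nat_lit 5435796726) (nat_lit 684) (nat_lit 6109107334) (nat_lit 76) (nat_lit 656468342) (nat_lit 273) (nat_lit 5) (nat_lit 282) (nat_lit 5) (nat_lit 274) (nat_lit 5) (nat_lit 602) (nat_lit 539) (nat_lit 419)) (XT.lf (nat_lit 0) (nat_lit 1542059126) (nat_lit 532) (nat_lit 6777659419) (nat_lit 608) (nat_lit 4015226244) (nat_lit 266) (nat_lit 5) (nat_lit 273) (nat_lit 5) (nat_lit 274) (nat_lit 5) (nat_lit 603) (nat_lit 539) (nat_lit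 418))))) (XT.nd (nat_lit 156) (nat_lit 1064) (nat_lit 0) (XT.nd (nat_lit 78) (nat_lit 684) (nat_lit 0) (XT.lf (nat_lit 0) (nat_lit 9405806452) (nat_lit 532) (nat_lit 1878908170) (nat_lit 608) (nat_lit 1186006483) (nat_lit 266) (nat_lit 5) (nat_lit 273) (nat_lit 5) (nat_lit 274) (nat_lit 5) (nat_lit 604) (nat_lit 539) (nat_lit 417)) (XT.lf (nat_lit 0) (nat_lit 1712093888) (nat_lit 684) (nat_lit 7782076119) (nat_lit 76) (nat_lit 3114130808) (nat_lit 257) (nat_lit 5) (nat_lit 266) (nat_lit 5) (nat_lit 258) (nat_lit 5) (nat_lit 605) (nat_lit 539) (nat_lit 416))) (XT.nd (nat_lit 78) (nat_lit 532) (nat_lit 0) (XT.lf (nat_lit 0) (nat_lit 126554213) (nat_lit 532) (nat_lit 4542490406) (nat_lit 608) (nat_lit 8079095706) (nat_lit 250) (nat_lit 5) (nat_lit 257) (nat_lit 5) (nat_lit 258) (nat_lit 5) (nat_lit 606) (nat_lit 539) (nat_lit 415)) (XT.nd (nat_lit 78) (nat_lit 532) (nat_lit 0) (XT.lf (nat_lit 0) (nat_lit 7723936723) (nat_lit 608) (nat_lit 4617865572) (nat_lit 76) (nat_lit 548198648) (nat_lit 250) (nat_lit 5)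 (nat_lit 258) (nat_lit 5) (nat_lit 251) (nat_lit 5) (nat_lit 607) (nat_lit 539) (nat_lit 414)) (XT.lf (nat_lit 0) (nat_lit 3539390851) (nat_lit 532) (nat_lit 7336868188) (nat_lit 608) (nat_lit 2157713448) (nat_lit 243) (nat_lit 5) (nat_lit 250) (nat_lit 5) (nat_lit 251) (nat_lit 5) (nat_lit 608) (nat_lit 539) (nat_lit 413)))))) (XT.nd (nat_lit 390) (nat_lit 456) (nat_lit 0) (XT.nd (nat_lit 156) (nat_lit 1064) (nat_lit 0) (XT.nd (nat_lit 78) (nat_lit 456) (nat_lit 0) (XT.lf (nat_lit 0) (nat_lit 913392637) (nat_lit 608) (nat_lit 1286880481) (nat_lit 76) (nat_lit 10980141744) (nat_lit 242) (nat_lit 5) (nat_lit 250) (nat_lit 5) (nat_lit 243) (nat_lit 5) (nat_lit 609) (nat_lit 539) (nat_lit 412)) (XT.lf (nat_lit 0) (nat_lit 4067185775) (nat_lit 532) (nat_lit 6207138106) (nat_lit 76) (nat_lit 3054174157) (nat_lit 236) (nat_lit 5) (nat_lit 243) (nat_lit 5) (nat_lit 237) (nat_lit 5) (nat_lit 610) (nat_lit 539) (nat_lit 411))) (XT.nd (nat_lit 78) (nat_lit 532) (nat_lit 0) (XT.lf (nat_lit 0) (nat_lit 2227796244) (nat_lit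 532) (nat_lit 5077788798) (nat_lit 608) (nat_lit 6173527564) (nat_lit 229) (nat_lit 5) (nat_lit 236) (nat_lit 5) (nat_lit 237) (nat_lit 5) (nat_lit 611) (nat_lit 539) (nat_lit 410)) (XT.nd (nat_lit 78) (nat_lit 532) (nat_lit 0) (XT.lf (nat_lit 0) (nat_lit 10636058545) (nat_lit 608) (nat_lit 2740821546) (nat_lit 76) (nat_lit 255313573) (nat_lit 229) (nat_lit 5) (nat_lit 237) (nat_lit 5) (nat_lit 230) (nat_lit 5) (nat_lit 612) (nat_lit 539) (nat_lit 409)) (XT.lf (nat_lit 0) (nat_lit 298553333) (nat_lit 532) (nat_lit 7827035143) (nat_lit 76) (nat_lit 5661577217) (nat_lit 222) (nat_lit 5) (nat_lit 229) (nat_lit 5) (nat_lit 223) (nat_lit 5) (nat_lit 613) (nat_lit 539) (nat_lit 408))))) (XT.nd (nat_lit 75504) (nat_lit 0) (nat_lit 32984) (XT.nd (nat_lit 78) (nat_lit 0) (nat_lit 0) (XT.lf (nat_lit 0) (nat_lit 896805019) (nat_lit 456) (nat_lit 2730894553) (nat_lit 532) (nat_lit 10316968162) (nat_lit 216) (nat_lit 5) (nat_lit 222) (nat_lit 5) (nat_lit 223) (nat_lit 5) (nat_lit 614) (nat_lit 539) (nat_lit 407)) (XT.nd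 (nat_lit 75348) (nat_lit 0) (nat_lit 34200) (XT.lf (nat_lit 0) (nat_lit 7078723559) (nat_lit 532) (nat_lit 4243891400) (nat_lit 76) (nat_lit 2781599260) (nat_lit 216) (nat_lit 5) (nat_lit 223) (nat_lit 5) (nat_lit 217) (nat_lit 5) (nat_lit 615) (nat_lit 539) (nat_lit 406)) (XT.lf (nat_lit 0) (nat_lit 606794677) (nat_lit 0) (nat_lit 606794677) (nat_lit 1140) (nat_lit 2387239941) (nat_lit 666) (nat_lit 5) (nat_lit 666) (nat_lit 3) (nat_lit 681) (nat_lit 3) (nat_lit 540) (nat_lit 540) (nat_lit 480)))) (XT.nd (nat_lit 78) (nat_lit 1216) (nat_lit 0) (XT.lf (nat_lit 0) (nat_lit 4117139774) (nat_lit 1140) (nat_lit 2393320972) (nat_lit 1216) (nat_lit 729835173) (nat_lit 666) (nat_lit 5) (nat_lit 681) (nat_lit 3) (nat_lit 682) (nat_lit 5) (nat_lit 541) (nat_lit 540) (nat_lit 479)) (XT.nd (nat_lit 78) (nat_lit 1216) (nat_lit 0) (XT.lf (nat_lit 76) (nat_lit 1258999952) (nat_lit 0) (nat_lit 4554687134) (nat_lit 1216) (nat_lit 1466564886) (nat_lit 667) (nat_lit 5) (nat_lit 666) (nat_lit 5) (nat_lit 682) (nat_lit 5) (nat_lit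 542) (nat_lit 540) (nat_lit 478)) (XT.lf (nat_lit 0) (nat_lit 193393827) (nat_lit 1216) (nat_lit 2328652274) (nat_lit 1292) (nat_lit 4799470470) (nat_lit 650) (nat_lit 5) (nat_lit 666) (nat_lit 5) (nat_lit 667) (nat_lit 5) (nat_lit 543) (nat_lit 540) (nat_lit 477))))))))
noncomputable def xc109 : XT := (XT.nd (nat_lit 1560) (nat_lit 14972) (nat_lit 0) (XT.nd (nat_lit 780) (nat_lit 2736) (nat_lit 0) (XT.nd (nat_lit 390) (nat_lit 1292) (nat_lit 0) (XT.nd (nat_lit 156) (nat_lit 1140) (nat_lit 0) (XT.nd (nat_lit 78) (nat_lit 0) (nat_lit 76) (XT.lf (nat_lit 76) (nat_lit 1423997933) (nat_lit 0) (nat_lit 410019184) (nat_lit 1292) (nat_lit 5530055029) (nat_lit 651) (nat_lit 5) (nat_lit 650) (nat_lit 5) (nat_lit 667) (nat_lit 5) (nat_lit 544) (nat_lit 540) (nat_lit 476)) (XT.lf (nat_lit 0) (nat_lit 3493148816) (nat_lit 1216) (nat_lit 2158897071) (nat_lit 1292) (nat_lit 1755720614) (nat_lit 651) (nat_lit 5) (nat_lit 667) (nat_lit 5) (nat_lit 668) (nat_lit 5) (nat_lit 545) (nat_lit 540) (nat_lit 475))) (XT.nd (nat_lit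 78) (nat_lit 1216) (nat_lit 0) (XT.lf (nat_lit 76) (nat_lit 1694302369) (nat_lit 0) (nat_lit 3464328785) (nat_lit 1292) (nat_lit 2294241783) (nat_lit 652) (nat_lit 5) (nat_lit 651) (nat_lit 5) (nat_lit 668) (nat_lit 5) (nat_lit 546) (nat_lit 540) (nat_lit 474)) (XT.nd (nat_lit 78) (nat_lit 1216) (nat_lit 0) (XT.lf (nat_lit 76) (nat_lit 5630875272) (nat_lit 0) (nat_lit 1201133336) (nat_lit 1292) (nat_lit 667382711) (nat_lit 652) (nat_lit 5) (nat_lit 651) (nat_lit 5) (nat_lit 668) (nat_lit 5) (nat_lit 547) (nat_lit 540) (nat_lit 473)) (XT.lf (nat_lit 0) (nat_lit 960669131) (nat_lit 1292) (nat_lit 5457279884) (nat_lit 1368) (nat_lit 1129130380) (nat_lit 635) (nat_lit 5) (nat_lit 652) (nat_lit 5) (nat_lit 653) (nat_lit 5) (nat_lit 548) (nat_lit 540) (nat_lit 472))))) (XT.nd (nat_lit 156) (nat_lit 1292) (nat_lit 0) (XT.nd (nat_lit 78) (nat_lit 0) (nat_lit 0) (XT.lf (nat_lit 0) (nat_lit 2594277085) (nat_lit 1292) (nat_lit 1479075969) (nat_lit 1368) (nat_lit 3522642764) (nat_lit 635) (nat_lit 5) (nat_lit 652) (nat_lit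 5) (nat_lit 653) (nat_lit 5) (nat_lit 549) (nat_lit 540) (nat_lit 471)) (XT.lf (nat_lit 76) (nat_lit 2589359985) (nat_lit 0) (nat_lit 1650113649) (nat_lit 1368) (nat_lit 3406840014) (nat_lit 636) (nat_lit 5) (nat_lit 635) (nat_lit 5) (nat_lit 653) (nat_lit 5) (nat_lit 550) (nat_lit 540) (nat_lit 470))) (XT.nd (nat_lit 78) (nat_lit 1368) (nat_lit 0) (XT.lf (nat_lit 0) (nat_lit 5895688905) (nat_lit 1292) (nat_lit 967603566) (nat_lit 1368) (nat_lit 834784449) (nat_lit 636) (nat_lit 5) (nat_lit 653) (nat_lit 5) (nat_lit 654) (nat_lit 5) (nat_lit 551) (nat_lit 540) (nat_lit 469)) (XT.nd (nat_lit 78) (nat_lit 1368) (nat_lit 0) (XT.lf (nat_lit 76) (nat_lit 3211213308) (nat_lit 0) (nat_lit 4369111394) (nat_lit 1368) (nat_lit 170646185) (nat_lit 637) (nat_lit 5) (nat_lit 636) (nat_lit 5) (nat_lit 654) (nat_lit 5) (nat_lit 552) (nat_lit 540) (nat_lit 468)) (XT.lf (nat_lit 0) (nat_lit 1444519574) (nat_lit 1368) (nat_lit 351646625) (nat_lit 1444) (nat_lit 6009156278) (nat_lit 618) (nat_lit 5) (nat_lit 636) (nat_lit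 5) (nat_lit 637) (nat_lit 5) (nat_lit 553) (nat_lit 540) (nat_lit 467)))))) (XT.nd (nat_lit 390) (nat_lit 1444) (nat_lit 0) (XT.nd (nat_lit 156) (nat_lit 1368) (nat_lit 0) (XT.nd (nat_lit 78) (nat_lit 0) (nat_lit 0) (XT.lf (nat_lit 0) (nat_lit 3085521201) (nat_lit 1368) (nat_lit 3919068369) (nat_lit 1444) (nat_lit 856233894) (nat_lit 619) (nat_lit 5) (nat_lit 637) (nat_lit 5) (nat_lit 638) (nat_lit 5) (nat_lit 554) (nat_lit 540) (nat_lit 466)) (XT.lf (nat_lit 76) (nat_lit 377454629) (nat_lit 0) (nat_lit 4363782099) (nat_lit 1444) (nat_lit 3176561118) (nat_lit 620) (nat_lit 5) (nat_lit 619) (nat_lit 5) (nat_lit 638) (nat_lit 5) (nat_lit 555) (nat_lit 540) (nat_lit 465))) (XT.nd (nat_lit 78) (nat_lit 1368) (nat_lit 0) (XT.lf (nat_lit 76) (nat_lit 4789200691) (nat_lit 0) (nat_lit 1632865725) (nat_lit 1444) (nat_lit 1554006528) (nat_lit 620) (nat_lit 5) (nat_lit 619) (nat_lit 5) (nat_lit 638) (nat_lit 5) (nat_lit 556) (nat_lit 540) (nat_lit 464)) (XT.nd (nat_lit 78) (nat_lit 0) (nat_lit 0) (XT.lf (nat_lit 0)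 (nat_lit 81517793) (nat_lit 1444) (nat_lit 6798091220) (nat_lit 1520) (nat_lit 1156255730) (nat_lit 601) (nat_lit 5) (nat_lit 620) (nat_lit 5) (nat_lit 621) (nat_lit 5) (nat_lit 557) (nat_lit 540) (nat_lit 463)) (XT.lf (nat_lit 0) (nat_lit 1728027285) (nat_lit 1444) (nat_lit 2347949596) (nat_lit 1520) (nat_lit 4020689556) (nat_lit 601) (nat_lit 5) (nat_lit 620) (nat_lit 5) (nat_lit 621) (nat_lit 5) (nat_lit 558) (nat_lit 540) (nat_lit 462))))) (XT.nd (nat_lit 156) (nat_lit 1444) (nat_lit 0) (XT.nd (nat_lit 78) (nat_lit 0) (nat_lit 76) (XT.lf (nat_lit 76) (nat_lit 2196085844) (nat_lit 0) (nat_lit 1193014550) (nat_lit 1520) (nat_lit 4769952235) (nat_lit 602) (nat_lit 5) (nat_lit 601) (nat_lit 5) (nat_lit 621) (nat_lit 5) (nat_lit 559) (nat_lit 540) (nat_lit 461)) (XT.lf (nat_lit 0) (nat_lit 5078516823) (nat_lit 1444) (nat_lit 1395445440) (nat_lit 1520) (nat_lit 1748822956) (nat_lit 602) (nat_lit 5) (nat_lit 621) (nat_lit 5) (nat_lit 622) (nat_lit 5) (nat_lit 560) (nat_lit 540) (nat_lit 460))) (XT.nd (nat_lit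 78) (nat_lit 1520) (nat_lit 0) (XT.lf (nat_lit 76) (nat_lit 3274498549) (nat_lit 0) (nat_lit 3524928035) (nat_lit 1520) (nat_lit 1488412866) (nat_lit 603) (nat_lit 5) (nat_lit 602) (nat_lit 5) (nat_lit 622) (nat_lit 5) (nat_lit 561) (nat_lit 540) (nat_lit 459)) (XT.nd (nat_lit 78) (nat_lit 0) (nat_lit 76) (XT.lf (nat_lit 0) (nat_lit 176155464) (nat_lit 1520) (nat_lit 322845241) (nat_lit 1596) (nat_lit 7855604544) (nat_lit 582) (nat_lit 5) (nat_lit 602) (nat_lit 5) (nat_lit 603) (nat_lit 5) (nat_lit 562) (nat_lit 540) (nat_lit 458)) (XT.lf (nat_lit 0) (nat_lit 1869748138) (nat_lit 1520) (nat_lit 3952949828) (nat_lit 76) (nat_lit 2599499397) (nat_lit 583) (nat_lit 5) (nat_lit 603) (nat_lit 5) (nat_lit 584) (nat_lit 5) (nat_lit 563) (nat_lit 540) (nat_lit 457))))))) (XT.nd (nat_lit 780) (nat_lit 5396) (nat_lit 0) (XT.nd (nat_lit 390) (nat_lit 4788) (nat_lit 0) (XT.nd (nat_lit 156) (nat_lit 3344) (nat_lit 0) (XT.nd (nat_lit 78) (nat_lit 0) (nat_lit 0) (XT.lf (nat_lit 0) (nat_lit 854097533) (nat_lit 1520) (nat_lit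 2724046625) (nat_lit 1596) (nat_lit 4913379539) (nat_lit 563) (nat_lit 5) (nat_lit 583) (nat_lit 5) (nat_lit 584) (nat_lit 5) (nat_lit 564) (nat_lit 540) (nat_lit 456)) (XT.lf (nat_lit 0) (nat_lit 5320615398) (nat_lit 1596) (nat_lit 2778563700) (nat_lit 76) (nat_lit 463060300) (nat_lit 563) (nat_lit 5) (nat_lit 584) (nat_lit 5) (nat_lit 564) (nat_lit 5) (nat_lit 565) (nat_lit 540) (nat_lit 455))) (XT.nd (nat_lit 78) (nat_lit 1748) (nat_lit 0) (XT.lf (nat_lit 0) (nat_lit 2163579784) (nat_lit 1596) (nat_lit 4937395386) (nat_lit 1672) (nat_lit 1533334428) (nat_lit 542) (nat_lit 5) (nat_lit 563) (nat_lit 5) (nat_lit 564) (nat_lit 5) (nat_lit 566) (nat_lit 540) (nat_lit 454)) (XT.nd (nat_lit 78) (nat_lit 1672) (nat_lit 0) (XT.lf (nat_lit 0) (nat_lit 196321758) (nat_lit 1672) (nat_lit 1491155733) (nat_lit 76) (nat_lit 7020518615) (nat_lit 541) (nat_lit 5) (nat_lit 563) (nat_lit 5) (nat_lit 542) (nat_lit 5) (nat_lit 567) (nat_lit 540) (nat_lit 453)) (XT.lf (nat_lit 0) (nat_lit 1945995589) (nat_lit 1748) (nat_lit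 5192760571) (nat_lit 76) (nat_lit 1644079273) (nat_lit 519) (nat_lit 5) (nat_lit 542) (nat_lit 5) (nat_lit 520) (nat_lit 5) (nat_lit 568) (nat_lit 540) (nat_lit 452))))) (XT.nd (nat_lit 156) (nat_lit 3040) (nat_lit 0) (XT.nd (nat_lit 78) (nat_lit 1748) (nat_lit 0) (XT.lf (nat_lit 0) (nat_lit 3724076253) (nat_lit 1748) (nat_lit 101473535) (nat_lit 76) (nat_lit 5033754383) (nat_lit 519) (nat_lit 5) (nat_lit 542) (nat_lit 5) (nat_lit 520) (nat_lit 5) (nat_lit 569) (nat_lit 540) (nat_lit 451)) (XT.lf (nat_lit 0) (nat_lit 5135061414) (nat_lit 1748) (nat_lit 408708421) (nat_lit 1824) (nat_lit 3393412298) (nat_lit 496) (nat_lit 5) (nat_lit 519) (nat_lit 5) (nat_lit 520) (nat_lit 5) (nat_lit 570) (nat_lit 540) (nat_lit 450))) (XT.nd (nat_lit 78) (nat_lit 1216) (nat_lit 0) (XT.lf (nat_lit 0) (nat_lit 1435620870) (nat_lit 1824) (nat_lit 5967329589) (nat_lit 1900) (nat_lit 1613606193) (nat_lit 472) (nat_lit 5) (nat_lit 496) (nat_lit 5) (nat_lit 497) (nat_lit 5) (nat_lit 571) (nat_lit 540) (nat_lit 449)) (XT.nd (nat_lit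 78) (nat_lit 1140) (nat_lit 0) (XT.lf (nat_lit 0) (nat_lit 200845411) (nat_lit 1900) (nat_lit 2296060793) (nat_lit 76) (nat_lit 6600553157) (nat_lit 471) (nat_lit 5) (nat_lit 496) (nat_lit 5) (nat_lit 472) (nat_lit 5) (nat_lit 572) (nat_lit 540) (nat_lit 448)) (XT.lf (nat_lit 0) (nat_lit 2030948984) (nat_lit 1216) (nat_lit 6086430592) (nat_lit 76) (nat_lit 1062368659) (nat_lit 456) (nat_lit 5) (nat_lit 472) (nat_lit 5) (nat_lit 457) (nat_lit 5) (nat_lit 573) (nat_lit 540) (nat_lit 447)))))) (XT.nd (nat_lit 390) (nat_lit 2660) (nat_lit 0) (XT.nd (nat_lit 156) (nat_lit 1824) (nat_lit 0) (XT.nd (nat_lit 78) (nat_lit 912) (nat_lit 0) (XT.lf (nat_lit 0) (nat_lit 3903900348) (nat_lit 1216) (nat_lit 682818389) (nat_lit 76) (nat_lit 4676840026) (nat_lit 456) (nat_lit 5) (nat_lit 472) (nat_lit 5) (nat_lit 457) (nat_lit 5) (nat_lit 574) (nat_lit 540) (nat_lit 446)) (XT.lf (nat_lit 0) (nat_lit 4868786582) (nat_lit 912) (nat_lit 951841533) (nat_lit 988) (nat_lit 3528291817) (nat_lit 444) (nat_lit 5) (nat_lit 456) (nat_lit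 5) (nat_lit 457) (nat_lit 5) (nat_lit 575) (nat_lit 540) (nat_lit 445))) (XT.nd (nat_lit 78) (nat_lit 912) (nat_lit 0) (XT.lf (nat_lit 0) (nat_lit 1076696968) (nat_lit 912) (nat_lit 6703543766) (nat_lit 988) (nat_lit 1655657349) (nat_lit 432) (nat_lit 5) (nat_lit 444) (nat_lit 5) (nat_lit 445) (nat_lit 5) (nat_lit 576) (nat_lit 540) (nat_lit 444)) (XT.nd (nat_lit 78) (nat_lit 836) (nat_lit 0) (XT.lf (nat_lit 0) (nat_lit 262883601) (nat_lit 988) (nat_lit 2751230540) (nat_lit 76) (nat_lit 6510233534) (nat_lit 431) (nat_lit 5) (nat_lit 444) (nat_lit 5) (nat_lit 432) (nat_lit 5) (nat_lit 577) (nat_lit 540) (nat_lit 443)) (XT.lf (nat_lit 0) (nat_lit 2197725130) (nat_lit 912) (nat_lit 6646563196) (nat_lit 76) (nat_lit 770057794) (nat_lit 420) (nat_lit 5) (nat_lit 432) (nat_lit 5) (nat_lit 421) (nat_lit 5) (nat_lit 578) (nat_lit 540) (nat_lit 442))))) (XT.nd (nat_lit 234) (nat_lit 912) (nat_lit 0) (XT.nd (nat_lit 78) (nat_lit 1748) (nat_lit 0) (XT.lf (nat_lit 0) (nat_lit 4185841355) (nat_lit 912) (nat_lit 911686780)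 (nat_lit 76) (nat_lit 4608325546) (nat_lit 420) (nat_lit 5) (nat_lit 432) (nat_lit 5) (nat_lit 421) (nat_lit 5) (nat_lit 579) (nat_lit 540) (nat_lit 441)) (XT.nd (nat_lit 78) (nat_lit 836) (nat_lit 0) (XT.lf (nat_lit 0) (nat_lit 4979370428) (nat_lit 912) (nat_lit 1243181180) (nat_lit 988) (nat_lit 3576463843) (nat_lit 408) (nat_lit 5) (nat_lit 420) (nat_lit 5) (nat_lit 421) (nat_lit 5) (nat_lit 580) (nat_lit 540) (nat_lit 440)) (XT.lf (nat_lit 0) (nat_lit 1079221833) (nat_lit 836) (nat_lit 7228199924) (nat_lit 912) (nat_lit 1586470863) (nat_lit 397) (nat_lit 5) (nat_lit 408) (nat_lit 5) (nat_lit 409) (nat_lit 5) (nat_lit 581) (nat_lit 540) (nat_lit 439)))) (XT.nd (nat_lit 78) (nat_lit 836) (nat_lit 0) (XT.lf (nat_lit 0) (nat_lit 455250479) (nat_lit 912) (nat_lit 2864223374) (nat_lit 76) (nat_lit 6670781707) (nat_lit 396) (nat_lit 5) (nat_lit 408) (nat_lit 5) (nat_lit 397) (nat_lit 5) (nat_lit 582) (nat_lit 540) (nat_lit 438)) (XT.nd (nat_lit 78) (nat_lit 0) (nat_lit 0) (XT.lf (nat_lit 0) (nat_lit 2519383037)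 (nat_lit 912) (nat_lit 6879836694) (nat_lit 76) (nat_lit 689060542) (nat_lit 385) (nat_lit 5) (nat_lit 397) (nat_lit 5) (nat_lit 386) (nat_lit 5) (nat_lit 583) (nat_lit 540) (nat_lit 437)) (XT.lf (nat_lit 0) (nat_lit 4643815222) (nat_lit 912) (nat_lit 792682914) (nat_lit 76) (nat_lit 4751387630) (nat_lit 385) (nat_lit 5) (nat_lit 397) (nat_lit 5) (nat_lit 386) (nat_lit 5) (nat_lit 584) (nat_lit 540) (nat_lit 436))))))))
noncomputable def xc110 : XT := (XT.nd (nat_lit 1560) (nat_lit 3800) (nat_lit 0) (XT.nd (nat_lit 780) (nat_lit 3800) (nat_lit 0) (XT.nd (nat_lit 390) (nat_lit 2888) (nat_lit 0) (XT.nd (nat_lit 156) (nat_lit 836) (nat_lit 0) (XT.nd (nat_lit 78) (nat_lit 760) (nat_lit 0) (XT.lf (nat_lit 0) (nat_lit 5464270540) (nat_lit 760) (nat_lit 1360066679) (nat_lit 836) (nat_lit 3464874740) (nat_lit 375) (nat_lit 5) (nat_lit 385) (nat_lit 5) (nat_lit 386) (nat_lit 5) (nat_lit 585) (nat_lit 540) (nat_lit 435)) (XT.lf (nat_lit 0) (nat_lit 1441480528) (nat_lit 760) (nat_lit 7618256651) (nat_lit 836) (nat_lit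 1332602747) (nat_lit 365) (nat_lit 5) (nat_lit 375) (nat_lit 5) (nat_lit 376) (nat_lit 5) (nat_lit 586) (nat_lit 540) (nat_lit 434))) (XT.nd (nat_lit 78) (nat_lit 760) (nat_lit 0) (XT.lf (nat_lit 0) (nat_lit 851382966) (nat_lit 836) (nat_lit 2636941548) (nat_lit 76) (nat_lit 7008694833) (nat_lit 364) (nat_lit 5) (nat_lit 375) (nat_lit 5) (nat_lit 365) (nat_lit 5) (nat_lit 587) (nat_lit 540) (nat_lit 433)) (XT.nd (nat_lit 78) (nat_lit 0) (nat_lit 0) (XT.lf (nat_lit 0) (nat_lit 3069876056) (nat_lit 836) (nat_lit 6787439446) (nat_lit 76) (nat_lit 746127824) (nat_lit 354) (nat_lit 5) (nat_lit 365) (nat_lit 5) (nat_lit 355) (nat_lit 5) (nat_lit 588) (nat_lit 540) (nat_lit 432)) (XT.lf (nat_lit 0) (nat_lit 5352834703) (nat_lit 836) (nat_lit 324884875) (nat_lit 76) (nat_lit 5033874851) (nat_lit 354) (nat_lit 5) (nat_lit 365) (nat_lit 5) (nat_lit 355) (nat_lit 5) (nat_lit 589) (nat_lit 540) (nat_lit 431))))) (XT.nd (nat_lit 156) (nat_lit 1444) (nat_lit 0) (XT.nd (nat_lit 78) (nat_lit 684) (nat_lit 0) (XT.lf (nat_lit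 0) (nat_lit 6326584318) (nat_lit 760) (nat_lit 1375534540) (nat_lit 836) (nat_lit 3119376912) (nat_lit 344) (nat_lit 5) (nat_lit 354) (nat_lit 5) (nat_lit 355) (nat_lit 5) (nat_lit 590) (nat_lit 540) (nat_lit 430)) (XT.lf (nat_lit 0) (nat_lit 2167242509) (nat_lit 684) (nat_lit 7946792698) (nat_lit 760) (nat_lit 819247535) (nat_lit 335) (nat_lit 5) (nat_lit 344) (nat_lit 5) (nat_lit 345) (nat_lit 5) (nat_lit 591) (nat_lit 540) (nat_lit 429))) (XT.nd (nat_lit 78) (nat_lit 1368) (nat_lit 0) (XT.lf (nat_lit 0) (nat_lit 1526263178) (nat_lit 760) (nat_lit 2066009744) (nat_lit 76) (nat_lit 7454446692) (nat_lit 334) (nat_lit 5) (nat_lit 344) (nat_lit 5) (nat_lit 335) (nat_lit 5) (nat_lit 592) (nat_lit 540) (nat_lit 428)) (XT.nd (nat_lit 78) (nat_lit 684) (nat_lit 0) (XT.lf (nat_lit 0) (nat_lit 3924964126) (nat_lit 760) (nat_lit 6365431291) (nat_lit 76) (nat_lit 871577009) (nat_lit 325) (nat_lit 5) (nat_lit 335) (nat_lit 5) (nat_lit 326) (nat_lit 5) (nat_lit 593) (nat_lit 540) (nat_lit 427)) (XT.lf (nat_lit 0) (nat_lit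 504425717) (nat_lit 684) (nat_lit 5888772127) (nat_lit 760) (nat_lit 4885901769) (nat_lit 316) (nat_lit 5) (nat_lit 325) (nat_lit 5) (nat_lit 326) (nat_lit 5) (nat_lit 594) (nat_lit 540) (nat_lit 426)))))) (XT.nd (nat_lit 390) (nat_lit 1824) (nat_lit 0) (XT.nd (nat_lit 156) (nat_lit 1216) (nat_lit 0) (XT.nd (nat_lit 78) (nat_lit 760) (nat_lit 0) (XT.lf (nat_lit 0) (nat_lit 7574715396) (nat_lit 684) (nat_lit 1359564863) (nat_lit 760) (nat_lit 2463819888) (nat_lit 316) (nat_lit 5) (nat_lit 325) (nat_lit 5) (nat_lit 326) (nat_lit 5) (nat_lit 595) (nat_lit 540) (nat_lit 425)) (XT.lf (nat_lit 0) (nat_lit 30259916) (nat_lit 760) (nat_lit 8253766632) (nat_lit 76) (nat_lit 3234980853) (nat_lit 306) (nat_lit 5) (nat_lit 316) (nat_lit 5) (nat_lit 307) (nat_lit 5) (nat_lit 596) (nat_lit 540) (nat_lit 424))) (XT.nd (nat_lit 78) (nat_lit 1216) (nat_lit 0) (XT.lf (nat_lit 0) (nat_lit 2557309198) (nat_lit 760) (nat_lit 1143087691) (nat_lit 76) (nat_lit 7941289082) (nat_lit 306) (nat_lit 5) (nat_lit 316) (nat_lit 5) (nat_lit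 307) (nat_lit 5) (nat_lit 597) (nat_lit 540) (nat_lit 423)) (XT.nd (nat_lit 78) (nat_lit 608) (nat_lit 0) (XT.lf (nat_lit 0) (nat_lit 5163097484) (nat_lit 684) (nat_lit 5605042113) (nat_lit 76) (nat_lit 998115001) (nat_lit 298) (nat_lit 5) (nat_lit 307) (nat_lit 5) (nat_lit 299) (nat_lit 5) (nat_lit 598) (nat_lit 540) (nat_lit 422)) (XT.lf (nat_lit 0) (nat_lit 1708813554) (nat_lit 608) (nat_lit 6137280782) (nat_lit 684) (nat_lit 4046718844) (nat_lit 290) (nat_lit 5) (nat_lit 298) (nat_lit 5) (nat_lit 299) (nat_lit 5) (nat_lit 599) (nat_lit 540) (nat_lit 421))))) (XT.nd (nat_lit 156) (nat_lit 1140) (nat_lit 0) (XT.nd (nat_lit 78) (nat_lit 684) (nat_lit 0) (XT.lf (nat_lit 0) (nat_lit 9222101856) (nat_lit 608) (nat_lit 1380241905) (nat_lit 684) (nat_lit 1419167750) (nat_lit 290) (nat_lit 5) (nat_lit 298) (nat_lit 5) (nat_lit 299) (nat_lit 5) (nat_lit 600) (nat_lit 540) (nat_lit 420)) (XT.lf (nat_lit 0) (nat_lit 1280317317) (nat_lit 684) (nat_lit 7410565520) (nat_lit 76) (nat_lit 3461019241) (nat_lit 281) (nat_lit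 5) (nat_lit 290) (nat_lit 5) (nat_lit 282) (nat_lit 5) (nat_lit 601) (nat_lit 540) (nat_lit 419))) (XT.nd (nat_lit 78) (nat_lit 532) (nat_lit 0) (XT.lf (nat_lit 0) (nat_lit 146798289) (nat_lit 608) (nat_lit 3879399558) (nat_lit 684) (nat_lit 8258287231) (nat_lit 273) (nat_lit 5) (nat_lit 281) (nat_lit 5) (nat_lit 282) (nat_lit 5) (nat_lit 602) (nat_lit 540) (nat_lit 418)) (XT.nd (nat_lit 78) (nat_lit 532) (nat_lit 0) (XT.lf (nat_lit 0) (nat_lit 6866282074) (nat_lit 684) (nat_lit 4492917499) (nat_lit 76) (nat_lit 1059734840) (nat_lit 273) (nat_lit 5) (nat_lit 282) (nat_lit 5) (nat_lit 274) (nat_lit 5) (nat_lit 603) (nat_lit 540) (nat_lit 417)) (XT.lf (nat_lit 0) (nat_lit 3299835633) (nat_lit 532) (nat_lit 6493342059) (nat_lit 608) (nat_lit 2762295237) (nat_lit 266) (nat_lit 5) (nat_lit 273) (nat_lit 5) (nat_lit 274) (nat_lit 5) (nat_lit 604) (nat_lit 540) (nat_lit 416))))))) (XT.nd (nat_lit 780) (nat_lit 456) (nat_lit 0) (XT.nd (nat_lit 390) (nat_lit 1596) (nat_lit 0) (XT.nd (nat_lit 156) (nat_lit 1064) (nat_lit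 0) (XT.nd (nat_lit 78) (nat_lit 608) (nat_lit 0) (XT.lf (nat_lit 0) (nat_lit 96090059) (nat_lit 608) (nat_lit 1408113667) (nat_lit 76) (nat_lit 11190261553) (nat_lit 265) (nat_lit 5) (nat_lit 273) (nat_lit 5) (nat_lit 266) (nat_lit 5) (nat_lit 605) (nat_lit 540) (nat_lit 415)) (XT.lf (nat_lit 0) (nat_lit 3024772867) (nat_lit 684) (nat_lit 6215931160) (nat_lit 76) (nat_lit 3594166302) (nat_lit 257) (nat_lit 5) (nat_lit 266) (nat_lit 5) (nat_lit 258) (nat_lit 5) (nat_lit 606) (nat_lit 540) (nat_lit 414))) (XT.nd (nat_lit 78) (nat_lit 532) (nat_lit 0) (XT.lf (nat_lit 0) (nat_lit 1839544237) (nat_lit 532) (nat_lit 4187356416) (nat_lit 608) (nat_lit 6950885759) (nat_lit 250) (nat_lit 5) (nat_lit 257) (nat_lit 5) (nat_lit 258) (nat_lit 5) (nat_lit 607) (nat_lit 540) (nat_lit 413)) (XT.nd (nat_lit 78) (nat_lit 532) (nat_lit 0) (XT.lf (nat_lit 0) (nat_lit 9120935814) (nat_lit 608) (nat_lit 3011320887) (nat_lit 76) (nat_lit 990667171) (nat_lit 250) (nat_lit 5) (nat_lit 258) (nat_lit 5) (nat_lit 251) (nat_lit 5) (nat_lit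 608) (nat_lit 540) (nat_lit 412)) (XT.lf (nat_lit 0) (nat_lit 5297903677) (nat_lit 532) (nat_lit 7024995585) (nat_lit 608) (nat_lit 947144213) (nat_lit 243) (nat_lit 5) (nat_lit 250) (nat_lit 5) (nat_lit 251) (nat_lit 5) (nat_lit 609) (nat_lit 540) (nat_lit 411))))) (XT.nd (nat_lit 156) (nat_lit 1064) (nat_lit 0) (XT.nd (nat_lit 78) (nat_lit 0) (nat_lit 0) (XT.lf (nat_lit 0) (nat_lit 362919572) (nat_lit 456) (nat_lit 1784117521) (nat_lit 532) (nat_lit 11272653390) (nat_lit 236) (nat_lit 5) (nat_lit 242) (nat_lit 5) (nat_lit 243) (nat_lit 5) (nat_lit 610) (nat_lit 540) (nat_lit 410)) (XT.lf (nat_lit 0) (nat_lit 5351526656) (nat_lit 532) (nat_lit 4650455187) (nat_lit 76) (nat_lit 3569001562) (nat_lit 236) (nat_lit 5) (nat_lit 243) (nat_lit 5) (nat_lit 237) (nat_lit 5) (nat_lit 611) (nat_lit 540) (nat_lit 409))) (XT.nd (nat_lit 78) (nat_lit 532) (nat_lit 0) (XT.lf (nat_lit 0) (nat_lit 3942119786) (nat_lit 532) (nat_lit 4699827181) (nat_lit 608) (nat_lit 5082918718) (nat_lit 229) (nat_lit 5) (nat_lit 236) (nat_lit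 5) (nat_lit 237) (nat_lit 5) (nat_lit 612) (nat_lit 540) (nat_lit 408)) (XT.nd (nat_lit 78) (nat_lit 532) (nat_lit 0) (XT.lf (nat_lit 0) (nat_lit 12018744000) (nat_lit 608) (nat_lit 1138301267) (nat_lit 76) (nat_lit 724369292) (nat_lit 229) (nat_lit 5) (nat_lit 237) (nat_lit 5) (nat_lit 230) (nat_lit 5) (nat_lit 613) (nat_lit 540) (nat_lit 407)) (XT.lf (nat_lit 0) (nat_lit 1469927846) (nat_lit 532) (nat_lit 6321632294) (nat_lit 76) (nat_lit 6248018024) (nat_lit 222) (nat_lit 5) (nat_lit 229) (nat_lit 5) (nat_lit 223) (nat_lit 5) (nat_lit 614) (nat_lit 540) (nat_lit 406)))))) (XT.nd (nat_lit 75738) (nat_lit 0) (nat_lit 31768) (XT.nd (nat_lit 75504) (nat_lit 0) (nat_lit 32908) (XT.nd (nat_lit 75426) (nat_lit 0) (nat_lit 34200) (XT.lf (nat_lit 0) (nat_lit 2565750832) (nat_lit 456) (nat_lit 2287774579) (nat_lit 532) (nat_lit 9346947913) (nat_lit 216) (nat_lit 5) (nat_lit 222) (nat_lit 5) (nat_lit 223) (nat_lit 5) (nat_lit 615) (nat_lit 540) (nat_lit 405)) (XT.lf (nat_lit 0) (nat_lit 1443982644) (nat_lit 0) (nat_lit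 1443982644) (nat_lit 1140) (nat_lit 751813464) (nat_lit 666) (nat_lit 5) (nat_lit 666) (nat_lit 3) (nat_lit 681) (nat_lit 3) (nat_lit 541) (nat_lit 541) (nat_lit 478))) (XT.nd (nat_lit 78) (nat_lit 0) (nat_lit 76) (XT.lf (nat_lit 0) (nat_lit 108282025) (nat_lit 1292) (nat_lit 754415523) (nat_lit 1292) (nat_lit 6457650486) (nat_lit 649) (nat_lit 3) (nat_lit 666) (nat_lit 3) (nat_lit 666) (nat_lit 5) (nat_lit 542) (nat_lit 541) (nat_lit 477)) (XT.nd (nat_lit 78) (nat_lit 0) (nat_lit 0) (XT.lf (nat_lit 0) (nat_lit 1717537267) (nat_lit 1216) (nat_lit 4407446588) (nat_lit 1292) (nat_lit 1237068525) (nat_lit 650) (nat_lit 5) (nat_lit 666) (nat_lit 5) (nat_lit 667) (nat_lit 5) (nat_lit 543) (nat_lit 541) (nat_lit 476)) (XT.lf (nat_lit 0) (nat_lit 3328452395) (nat_lit 1216) (nat_lit 684521277) (nat_lit 1292) (nat_lit 3392229232) (nat_lit 650) (nat_lit 5) (nat_lit 666) (nat_lit 5) (nat_lit 667) (nat_lit 5) (nat_lit 544) (nat_lit 541) (nat_lit 475))))) (XT.nd (nat_lit 234) (nat_lit 0) (nat_lit 0) (XT.nd (nat_lit 78)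 (nat_lit 1216) (nat_lit 0) (XT.lf (nat_lit 76) (nat_lit 3132058881) (nat_lit 0) (nat_lit 1819338327) (nat_lit 1292) (nat_lit 2498224557) (nat_lit 651) (nat_lit 5) (nat_lit 650) (nat_lit 5) (nat_lit 667) (nat_lit 5) (nat_lit 545) (nat_lit 541) (nat_lit 474)) (XT.nd (nat_lit 78) (nat_lit 1292) (nat_lit 0) (XT.lf (nat_lit 0) (nat_lit 6574387043) (nat_lit 1216) (nat_lit 485986968) (nat_lit 1292) (nat_lit 435204796) (nat_lit 651) (nat_lit 5) (nat_lit 667) (nat_lit 5) (nat_lit 668) (nat_lit 5) (nat_lit 546) (nat_lit 541) (nat_lit 473)) (XT.lf (nat_lit 0) (nat_lit 673698835) (nat_lit 1292) (nat_lit 4113995018) (nat_lit 1368) (nat_lit 2754766699) (nat_lit 634) (nat_lit 5) (nat_lit 651) (nat_lit 5) (nat_lit 652) (nat_lit 5) (nat_lit 547) (nat_lit 541) (nat_lit 472)))) (XT.nd (nat_lit 78) (nat_lit 0) (nat_lit 0) (XT.lf (nat_lit 0) (nat_lit 2252838979) (nat_lit 1292) (nat_lit 191120235) (nat_lit 1368) (nat_lit 5146906642) (nat_lit 634) (nat_lit 5) (nat_lit 651) (nat_lit 5) (nat_lit 652) (nat_lit 5) (nat_lit 548) (nat_lit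 541) (nat_lit 471)) (XT.nd (nat_lit 78) (nat_lit 0) (nat_lit 76) (XT.lf (nat_lit 76) (nat_lit 3838418203) (nat_lit 0) (nat_lit 12214430) (nat_lit 1368) (nat_lit 3789866627) (nat_lit 635) (nat_lit 5) (nat_lit 634) (nat_lit 5) (nat_lit 652) (nat_lit 5) (nat_lit 549) (nat_lit 541) (nat_lit 470)) (XT.lf (nat_lit 76) (nat_lit 224108924) (nat_lit 0) (nat_lit 5237891918) (nat_lit 1368) (nat_lit 2229493499) (nat_lit 636) (nat_lit 5) (nat_lit 635) (nat_lit 5) (nat_lit 653) (nat_lit 5) (nat_lit 550) (nat_lit 541) (nat_lit 469))))))))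
noncomputable def xc111 : XT := (XT.nd (nat_lit 1560) (nat_lit 11552) (nat_lit 0) (XT.nd (nat_lit 780) (nat_lit 7904) (nat_lit 0) (XT.nd (nat_lit 390) (nat_lit 1292) (nat_lit 0) (XT.nd (nat_lit 156) (nat_lit 0) (nat_lit 76) (XT.nd (nat_lit 78) (nat_lit 1368) (nat_lit 0) (XT.lf (nat_lit 76) (nat_lit 4359593927) (nat_lit 0) (nat_lit 2735025645) (nat_lit 1368) (nat_lit 649110643) (nat_lit 636) (nat_lit 5) (nat_lit 635) (nat_lit 5) (nat_lit 653) (nat_lit 5) (nat_lit 551) (nat_lit 541) (nat_lit 468)) (XT.lf (nat_lit 76) (nat_lit 761796084) (nat_lit 0) (nat_lit 157308687) (nat_lit 1444) (nat_lit 6878405238) (nat_lit 618) (nat_lit 5) (nat_lit 617) (nat_lit 5) (nat_lit 636) (nat_lit 5) (nat_lit 552) (nat_lit 541) (nat_lit 467))) (XT.nd (nat_lit 78) (nat_lit 0) (nat_lit 0) (XT.lf (nat_lit 0) (nat_lit 2513462835) (nat_lit 1368) (nat_lit 2859257759) (nat_lit 1444) (nat_lit 2479490870) (nat_lit 618) (nat_lit 5) (nat_lit 636) (nat_lit 5) (nat_lit 637) (nat_lit 5) (nat_lit 553) (nat_lit 541) (nat_lit 466)) (XT.nd (nat_lit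 78) (nat_lit 0) (nat_lit 76) (XT.lf (nat_lit 76) (nat_lit 1395072823) (nat_lit 0) (nat_lit 2719982261) (nat_lit 1444) (nat_lit 3793446176) (nat_lit 619) (nat_lit 5) (nat_lit 618) (nat_lit 5) (nat_lit 637) (nat_lit 5) (nat_lit 554) (nat_lit 541) (nat_lit 465)) (XT.lf (nat_lit 0) (nat_lit 5733756812) (nat_lit 1368) (nat_lit 2215838887) (nat_lit 1444) (nat_lit 16620824) (nat_lit 619) (nat_lit 5) (nat_lit 637) (nat_lit 5) (nat_lit 638) (nat_lit 5) (nat_lit 555) (nat_lit 541) (nat_lit 464))))) (XT.nd (nat_lit 156) (nat_lit 0) (nat_lit 76) (XT.nd (nat_lit 78) (nat_lit 1444) (nat_lit 0) (XT.lf (nat_lit 76) (nat_lit 2154893447) (nat_lit 0) (nat_lit 5228468321) (nat_lit 1444) (nat_lit 641754944) (nat_lit 620) (nat_lit 5) (nat_lit 619) (nat_lit 5) (nat_lit 638) (nat_lit 5) (nat_lit 556) (nat_lit 541) (nat_lit 463)) (XT.lf (nat_lit 0) (nat_lit 949682169) (nat_lit 1444) (nat_lit 1471635239) (nat_lit 1520) (nat_lit 5664115674) (nat_lit 600) (nat_lit 5) (nat_lit 619) (nat_lit 5) (nat_lit 620) (nat_lit 5) (nat_lit 557)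 (nat_lit 541) (nat_lit 462))) (XT.nd (nat_lit 78) (nat_lit 0) (nat_lit 0) (XT.lf (nat_lit 0) (nat_lit 2554573934) (nat_lit 1444) (nat_lit 5122729841) (nat_lit 1520) (nat_lit 469763916) (nat_lit 601) (nat_lit 5) (nat_lit 620) (nat_lit 5) (nat_lit 621) (nat_lit 5) (nat_lit 558) (nat_lit 541) (nat_lit 461)) (XT.nd (nat_lit 78) (nat_lit 0) (nat_lit 0) (XT.lf (nat_lit 0) (nat_lit 4185554286) (nat_lit 1444) (nat_lit 619101526) (nat_lit 1520) (nat_lit 3405400477) (nat_lit 601) (nat_lit 5) (nat_lit 620) (nat_lit 5) (nat_lit 621) (nat_lit 5) (nat_lit 559) (nat_lit 541) (nat_lit 460)) (XT.lf (nat_lit 76) (nat_lit 4004131682) (nat_lit 0) (nat_lit 1839661894) (nat_lit 1520) (nat_lit 2430619385) (nat_lit 602) (nat_lit 5) (nat_lit 601) (nat_lit 5) (nat_lit 621) (nat_lit 5) (nat_lit 560) (nat_lit 541) (nat_lit 459)))))) (XT.nd (nat_lit 390) (nat_lit 5092) (nat_lit 0) (XT.nd (nat_lit 156) (nat_lit 1444) (nat_lit 0) (XT.nd (nat_lit 78) (nat_lit 1520) (nat_lit 0) (XT.lf (nat_lit 76) (nat_lit 361771117) (nat_lit 0) (nat_lit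 7156809632) (nat_lit 1520) (nat_lit 821809422) (nat_lit 603) (nat_lit 5) (nat_lit 602) (nat_lit 5) (nat_lit 622) (nat_lit 5) (nat_lit 561) (nat_lit 541) (nat_lit 458)) (XT.lf (nat_lit 0) (nat_lit 818873535) (nat_lit 1520) (nat_lit 3304211581) (nat_lit 1596) (nat_lit 4284287655) (nat_lit 582) (nat_lit 5) (nat_lit 602) (nat_lit 5) (nat_lit 603) (nat_lit 5) (nat_lit 562) (nat_lit 541) (nat_lit 457))) (XT.nd (nat_lit 78) (nat_lit 1444) (nat_lit 0) (XT.lf (nat_lit 76) (nat_lit 1454021628) (nat_lit 0) (nat_lit 1006806674) (nat_lit 1596) (nat_lit 6015169841) (nat_lit 583) (nat_lit 5) (nat_lit 582) (nat_lit 5) (nat_lit 603) (nat_lit 5) (nat_lit 563) (nat_lit 541) (nat_lit 456)) (XT.nd (nat_lit 78) (nat_lit 1520) (nat_lit 0) (XT.lf (nat_lit 0) (nat_lit 4142533613) (nat_lit 1520) (nat_lit 2231361339) (nat_lit 76) (nat_lit 2171963827) (nat_lit 583) (nat_lit 5) (nat_lit 603) (nat_lit 5) (nat_lit 584) (nat_lit 5) (nat_lit 564) (nat_lit 541) (nat_lit 455)) (XT.lf (nat_lit 0) (nat_lit 2659980604) (nat_lit 1520) (nat_lit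 3192899846) (nat_lit 1596) (nat_lit 2764336997) (nat_lit 563) (nat_lit 5) (nat_lit 583) (nat_lit 5) (nat_lit 584) (nat_lit 5) (nat_lit 565) (nat_lit 541) (nat_lit 454))))) (XT.nd (nat_lit 156) (nat_lit 3420) (nat_lit 0) (XT.nd (nat_lit 78) (nat_lit 1672) (nat_lit 0) (XT.lf (nat_lit 0) (nat_lit 7584364009) (nat_lit 1596) (nat_lit 1034499460) (nat_lit 76) (nat_lit 71402171) (nat_lit 563) (nat_lit 5) (nat_lit 584) (nat_lit 5) (nat_lit 564) (nat_lit 5) (nat_lit 566) (nat_lit 541) (nat_lit 453)) (XT.lf (nat_lit 0) (nat_lit 597307403) (nat_lit 1672) (nat_lit 4773674983) (nat_lit 76) (nat_lit 3393331536) (nat_lit 541) (nat_lit 5) (nat_lit 563) (nat_lit 5) (nat_lit 542) (nat_lit 5) (nat_lit 567) (nat_lit 541) (nat_lit 452))) (XT.nd (nat_lit 78) (nat_lit 1748) (nat_lit 0) (XT.lf (nat_lit 0) (nat_lit 263173598) (nat_lit 1672) (nat_lit 2037603258) (nat_lit 1748) (nat_lit 6539300922) (nat_lit 519) (nat_lit 5) (nat_lit 541) (nat_lit 5) (nat_lit 542) (nat_lit 5) (nat_lit 568) (nat_lit 541) (nat_lit 451)) (XT.nd (nat_lit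 78) (nat_lit 1748) (nat_lit 0) (XT.lf (nat_lit 0) (nat_lit 4052118683) (nat_lit 1748) (nat_lit 3484231771) (nat_lit 76) (nat_lit 1380731272) (nat_lit 519) (nat_lit 5) (nat_lit 542) (nat_lit 5) (nat_lit 520) (nat_lit 5) (nat_lit 569) (nat_lit 541) (nat_lit 450)) (XT.lf (nat_lit 0) (nat_lit 1695581924) (nat_lit 1748) (nat_lit 4140654483) (nat_lit 1824) (nat_lit 3159435225) (nat_lit 496) (nat_lit 5) (nat_lit 519) (nat_lit 5) (nat_lit 520) (nat_lit 5) (nat_lit 570) (nat_lit 541) (nat_lit 449))))))) (XT.nd (nat_lit 780) (nat_lit 4864) (nat_lit 0) (XT.nd (nat_lit 390) (nat_lit 2736) (nat_lit 0) (XT.nd (nat_lit 156) (nat_lit 2052) (nat_lit 0) (XT.nd (nat_lit 78) (nat_lit 1900) (nat_lit 0) (XT.lf (nat_lit 0) (nat_lit 7002919929) (nat_lit 1748) (nat_lit 650117040) (nat_lit 1824) (nat_lit 1422857200) (nat_lit 496) (nat_lit 5) (nat_lit 519) (nat_lit 5) (nat_lit 520) (nat_lit 5) (nat_lit 571) (nat_lit 541) (nat_lit 448)) (XT.lf (nat_lit 0) (nat_lit 358187708) (nat_lit 1900) (nat_lit 5900643948) (nat_lit 76) (nat_lit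 2898558953) (nat_lit 471) (nat_lit 5) (nat_lit 496) (nat_lit 5) (nat_lit 472) (nat_lit 5) (nat_lit 572) (nat_lit 541) (nat_lit 447))) (XT.nd (nat_lit 78) (nat_lit 2052) (nat_lit 0) (XT.lf (nat_lit 0) (nat_lit 2148470197) (nat_lit 1900) (nat_lit 556467876) (nat_lit 76) (nat_lit 6535538222) (nat_lit 471) (nat_lit 5) (nat_lit 496) (nat_lit 5) (nat_lit 472) (nat_lit 5) (nat_lit 573) (nat_lit 541) (nat_lit 446)) (XT.nd (nat_lit 78) (nat_lit 912) (nat_lit 0) (XT.lf (nat_lit 0) (nat_lit 3987652302) (nat_lit 1216) (nat_lit 4395062614) (nat_lit 76) (nat_lit 942247679) (nat_lit 456) (nat_lit 5) (nat_lit 472) (nat_lit 5) (nat_lit 457) (nat_lit 5) (nat_lit 574) (nat_lit 541) (nat_lit 445)) (XT.lf (nat_lit 0) (nat_lit 1095437782) (nat_lit 912) (nat_lit 4772166939) (nat_lit 988) (nat_lit 3543454928) (nat_lit 444) (nat_lit 5) (nat_lit 456) (nat_lit 5) (nat_lit 457) (nat_lit 5) (nat_lit 575) (nat_lit 541) (nat_lit 444))))) (XT.nd (nat_lit 156) (nat_lit 1748) (nat_lit 0) (XT.nd (nat_lit 78) (nat_lit 988) (nat_lit 0) (XT.lf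 (nat_lit 0) (nat_lit 6732013611) (nat_lit 912) (nat_lit 1058172594) (nat_lit 988) (nat_lit 1708592587) (nat_lit 444) (nat_lit 5) (nat_lit 456) (nat_lit 5) (nat_lit 457) (nat_lit 5) (nat_lit 576) (nat_lit 541) (nat_lit 443)) (XT.lf (nat_lit 0) (nat_lit 173424437) (nat_lit 988) (nat_lit 6699240610) (nat_lit 76) (nat_lit 2715314931) (nat_lit 431) (nat_lit 5) (nat_lit 444) (nat_lit 5) (nat_lit 432) (nat_lit 5) (nat_lit 577) (nat_lit 541) (nat_lit 442))) (XT.nd (nat_lit 78) (nat_lit 1748) (nat_lit 0) (XT.lf (nat_lit 0) (nat_lit 2072108336) (nat_lit 988) (nat_lit 1025686613) (nat_lit 76) (nat_lit 6580906975) (nat_lit 431) (nat_lit 5) (nat_lit 444) (nat_lit 5) (nat_lit 432) (nat_lit 5) (nat_lit 578) (nat_lit 541) (nat_lit 441)) (XT.nd (nat_lit 78) (nat_lit 912) (nat_lit 0) (XT.lf (nat_lit 0) (nat_lit 4021686484) (nat_lit 912) (nat_lit 4974913394) (nat_lit 76) (nat_lit 774380710) (nat_lit 420) (nat_lit 5) (nat_lit 432) (nat_lit 5) (nat_lit 421) (nat_lit 5) (nat_lit 579) (nat_lit 541) (nat_lit 440)) (XT.lf (nat_lit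 0) (nat_lit 850430151) (nat_lit 912) (nat_lit 5169754344) (nat_lit 988) (nat_lit 3844722443) (nat_lit 408) (nat_lit 5) (nat_lit 420) (nat_lit 5) (nat_lit 421) (nat_lit 5) (nat_lit 580) (nat_lit 541) (nat_lit 439)))))) (XT.nd (nat_lit 390) (nat_lit 2356) (nat_lit 0) (XT.nd (nat_lit 156) (nat_lit 1596) (nat_lit 0) (XT.nd (nat_lit 78) (nat_lit 912) (nat_lit 0) (XT.lf (nat_lit 0) (nat_lit 6836515505) (nat_lit 912) (nat_lit 1232785382) (nat_lit 988) (nat_lit 1891198624) (nat_lit 408) (nat_lit 5) (nat_lit 420) (nat_lit 5) (nat_lit 421) (nat_lit 5) (nat_lit 581) (nat_lit 541) (nat_lit 438)) (XT.lf (nat_lit 0) (nat_lit 114640996) (nat_lit 912) (nat_lit 7177626265) (nat_lit 76) (nat_lit 2765432641) (nat_lit 396) (nat_lit 5) (nat_lit 408) (nat_lit 5) (nat_lit 397) (nat_lit 5) (nat_lit 582) (nat_lit 541) (nat_lit 437))) (XT.nd (nat_lit 78) (nat_lit 1596) (nat_lit 0) (XT.lf (nat_lit 0) (nat_lit 2142412635) (nat_lit 912) (nat_lit 1154025971) (nat_lit 76) (nat_lit 6860013537) (nat_lit 396) (nat_lit 5) (nat_lit 408) (nat_lit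 5) (nat_lit 397) (nat_lit 5) (nat_lit 583) (nat_lit 541) (nat_lit 436)) (XT.nd (nat_lit 78) (nat_lit 760) (nat_lit 0) (XT.lf (nat_lit 0) (nat_lit 4226969648) (nat_lit 912) (nat_lit 5229046905) (nat_lit 76) (nat_lit 800838890) (nat_lit 385) (nat_lit 5) (nat_lit 397) (nat_lit 5) (nat_lit 386) (nat_lit 5) (nat_lit 584) (nat_lit 541) (nat_lit 435)) (XT.lf (nat_lit 0) (nat_lit 957339223) (nat_lit 760) (nat_lit 5410272837) (nat_lit 836) (nat_lit 3991367466) (nat_lit 375) (nat_lit 5) (nat_lit 385) (nat_lit 5) (nat_lit 386) (nat_lit 5) (nat_lit 585) (nat_lit 541) (nat_lit 434))))) (XT.nd (nat_lit 234) (nat_lit 1520) (nat_lit 0) (XT.nd (nat_lit 78) (nat_lit 836) (nat_lit 0) (XT.lf (nat_lit 0) (nat_lit 7315341070) (nat_lit 760) (nat_lit 1249639613) (nat_lit 836) (nat_lit 1897887729) (nat_lit 375) (nat_lit 5) (nat_lit 385) (nat_lit 5) (nat_lit 386) (nat_lit 5) (nat_lit 586) (nat_lit 541) (nat_lit 433)) (XT.nd (nat_lit 78) (nat_lit 0) (nat_lit 0) (XT.lf (nat_lit 0) (nat_lit 254126659) (nat_lit 836) (nat_lit 7338449674)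 (nat_lit 76) (nat_lit 2975832886) (nat_lit 364) (nat_lit 5) (nat_lit 375) (nat_lit 5) (nat_lit 365) (nat_lit 5) (nat_lit 587) (nat_lit 541) (nat_lit 432)) (XT.lf (nat_lit 0) (nat_lit 2432679832) (nat_lit 836) (nat_lit 942031625) (nat_lit 76) (nat_lit 7300920816) (nat_lit 364) (nat_lit 5) (nat_lit 375) (nat_lit 5) (nat_lit 365) (nat_lit 5) (nat_lit 588) (nat_lit 541) (nat_lit 431)))) (XT.nd (nat_lit 78) (nat_lit 760) (nat_lit 0) (XT.lf (nat_lit 0) (nat_lit 4677385010) (nat_lit 836) (nat_lit 5157340456) (nat_lit 76) (nat_lit 949823248) (nat_lit 354) (nat_lit 5) (nat_lit 365) (nat_lit 5) (nat_lit 355) (nat_lit 5) (nat_lit 589) (nat_lit 541) (nat_lit 430)) (XT.nd (nat_lit 78) (nat_lit 0) (nat_lit 0) (XT.lf (nat_lit 0) (nat_lit 1418443887) (nat_lit 760) (nat_lit 5566452510) (nat_lit 836) (nat_lit 3910389378) (nat_lit 344) (nat_lit 5) (nat_lit 354) (nat_lit 5) (nat_lit 355) (nat_lit 5) (nat_lit 590) (nat_lit 541) (nat_lit 429)) (XT.lf (nat_lit 0) (nat_lit 8172949691) (nat_lit 760) (nat_lit 1180451887) (nat_lit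 836) (nat_lit 1654539652) (nat_lit 344) (nat_lit 5) (nat_lit 354) (nat_lit 5) (nat_lit 355) (nat_lit 5) (nat_lit 591) (nat_lit 541) (nat_lit 428))))))))
noncomputable def xc112 : XT := (XT.nd (nat_lit 1560) (nat_lit 988) (nat_lit 0) (XT.nd (nat_lit 780) (nat_lit 4104) (nat_lit 0) (XT.nd (nat_lit 390) (nat_lit 1976) (nat_lit 0) (XT.nd (nat_lit 156) (nat_lit 1368) (nat_lit 0) (XT.nd (nat_lit 78) (nat_lit 0) (nat_lit 0) (XT.lf (nat_lit 0) (nat_lit 665746978) (nat_lit 760) (nat_lit 7179220085) (nat_lit 76) (nat_lit 3277243334) (nat_lit 334) (nat_lit 5) (nat_lit 344) (nat_lit 5) (nat_lit 335) (nat_lit 5) (nat_lit 592) (nat_lit 541) (nat_lit 427)) (XT.lf (nat_lit 0) (nat_lit 3017984514) (nat_lit 760) (nat_lit 385059867) (nat_lit 76) (nat_lit 7835348340) (nat_lit 334) (nat_lit 5) (nat_lit 344) (nat_lit 5) (nat_lit 335) (nat_lit 5) (nat_lit 593) (nat_lit 541) (nat_lit 426))) (XT.nd (nat_lit 78) (nat_lit 684) (nat_lit 0) (XT.lf (nat_lit 0) (nat_lit 5448852527) (nat_lit 760) (nat_lit 4754626261) (nat_lit 76) (nat_lit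 1152788675) (nat_lit 325) (nat_lit 5) (nat_lit 335) (nat_lit 5) (nat_lit 326) (nat_lit 5) (nat_lit 594) (nat_lit 541) (nat_lit 425)) (XT.nd (nat_lit 78) (nat_lit 0) (nat_lit 0) (XT.lf (nat_lit 0) (nat_lit 2241192930) (nat_lit 684) (nat_lit 5708127770) (nat_lit 760) (nat_lit 3526759816) (nat_lit 316) (nat_lit 5) (nat_lit 325) (nat_lit 5) (nat_lit 326) (nat_lit 5) (nat_lit 595) (nat_lit 541) (nat_lit 424)) (XT.lf (nat_lit 0) (nat_lit 9419031957) (nat_lit 684) (nat_lit 1094187729) (nat_lit 760) (nat_lit 1084802179) (nat_lit 316) (nat_lit 5) (nat_lit 325) (nat_lit 5) (nat_lit 326) (nat_lit 5) (nat_lit 596) (nat_lit 541) (nat_lit 423))))) (XT.nd (nat_lit 156) (nat_lit 608) (nat_lit 0) (XT.nd (nat_lit 78) (nat_lit 608) (nat_lit 0) (XT.lf (nat_lit 0) (nat_lit 1425823704) (nat_lit 760) (nat_lit 6692615837) (nat_lit 76) (nat_lit 3603014996) (nat_lit 306) (nat_lit 5) (nat_lit 316) (nat_lit 5) (nat_lit 307) (nat_lit 5) (nat_lit 597) (nat_lit 541) (nat_lit 422)) (XT.lf (nat_lit 0) (nat_lit 533425077) (nat_lit 608) (nat_lit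 3446100114) (nat_lit 684) (nat_lit 7867539926) (nat_lit 298) (nat_lit 5) (nat_lit 306) (nat_lit 5) (nat_lit 307) (nat_lit 5) (nat_lit 598) (nat_lit 541) (nat_lit 421))) (XT.nd (nat_lit 78) (nat_lit 608) (nat_lit 0) (XT.lf (nat_lit 0) (nat_lit 6620205415) (nat_lit 684) (nat_lit 4010971393) (nat_lit 76) (nat_lit 1343293436) (nat_lit 298) (nat_lit 5) (nat_lit 307) (nat_lit 5) (nat_lit 299) (nat_lit 5) (nat_lit 599) (nat_lit 541) (nat_lit 420)) (XT.nd (nat_lit 78) (nat_lit 0) (nat_lit 0) (XT.lf (nat_lit 0) (nat_lit 3437936574) (nat_lit 608) (nat_lit 5903384349) (nat_lit 684) (nat_lit 2762550538) (nat_lit 290) (nat_lit 5) (nat_lit 298) (nat_lit 5) (nat_lit 299) (nat_lit 5) (nat_lit 600) (nat_lit 541) (nat_lit 419)) (XT.lf (nat_lit 0) (nat_lit 11068256392) (nat_lit 608) (nat_lit 1058197675) (nat_lit 684) (nat_lit 109215142) (nat_lit 290) (nat_lit 5) (nat_lit 298) (nat_lit 5) (nat_lit 299) (nat_lit 5) (nat_lit 601) (nat_lit 541) (nat_lit 418)))))) (XT.nd (nat_lit 390) (nat_lit 1596) (nat_lit 0) (XT.nd (nat_lit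 156) (nat_lit 1216) (nat_lit 0) (XT.nd (nat_lit 78) (nat_lit 608) (nat_lit 0) (XT.lf (nat_lit 0) (nat_lit 2613994555) (nat_lit 684) (nat_lit 5866738559) (nat_lit 76) (nat_lit 3888015538) (nat_lit 281) (nat_lit 5) (nat_lit 290) (nat_lit 5) (nat_lit 282) (nat_lit 5) (nat_lit 602) (nat_lit 541) (nat_lit 417)) (XT.lf (nat_lit 0) (nat_lit 1830640696) (nat_lit 608) (nat_lit 3569417110) (nat_lit 684) (nat_lit 7104220793) (nat_lit 273) (nat_lit 5) (nat_lit 281) (nat_lit 5) (nat_lit 282) (nat_lit 5) (nat_lit 603) (nat_lit 541) (nat_lit 416))) (XT.nd (nat_lit 78) (nat_lit 1216) (nat_lit 0) (XT.lf (nat_lit 0) (nat_lit 8274051213) (nat_lit 684) (nat_lit 2911906970) (nat_lit 76) (nat_lit 1455917166) (nat_lit 273) (nat_lit 5) (nat_lit 282) (nat_lit 5) (nat_lit 274) (nat_lit 5) (nat_lit 604) (nat_lit 541) (nat_lit 415)) (XT.nd (nat_lit 78) (nat_lit 684) (nat_lit 0) (XT.lf (nat_lit 0) (nat_lit 5025708666) (nat_lit 532) (nat_lit 6219642438) (nat_lit 608) (nat_lit 1536076771) (nat_lit 266) (nat_lit 5) (nat_lit 273) (nat_lit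 5) (nat_lit 274) (nat_lit 5) (nat_lit 605) (nat_lit 541) (nat_lit 414)) (XT.lf (nat_lit 0) (nat_lit 210316433) (nat_lit 608) (nat_lit 1128921465) (nat_lit 684) (nat_lit 11584264949) (nat_lit 257) (nat_lit 5) (nat_lit 265) (nat_lit 5) (nat_lit 266) (nat_lit 5) (nat_lit 606) (nat_lit 541) (nat_lit 413))))) (XT.nd (nat_lit 156) (nat_lit 1064) (nat_lit 0) (XT.nd (nat_lit 78) (nat_lit 532) (nat_lit 0) (XT.lf (nat_lit 0) (nat_lit 4314062155) (nat_lit 684) (nat_lit 4685322369) (nat_lit 76) (nat_lit 4067580652) (nat_lit 257) (nat_lit 5) (nat_lit 266) (nat_lit 5) (nat_lit 258) (nat_lit 5) (nat_lit 607) (nat_lit 541) (nat_lit 412)) (XT.lf (nat_lit 0) (nat_lit 3520374855) (nat_lit 532) (nat_lit 3842437841) (nat_lit 608) (nat_lit 5850195803) (nat_lit 250) (nat_lit 5) (nat_lit 257) (nat_lit 5) (nat_lit 258) (nat_lit 5) (nat_lit 608) (nat_lit 541) (nat_lit 411))) (XT.nd (nat_lit 78) (nat_lit 1064) (nat_lit 0) (XT.lf (nat_lit 0) (nat_lit 10497626307) (nat_lit 608) (nat_lit 1438615744) (nat_lit 76) (nat_lit 1425229216)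 (nat_lit 250) (nat_lit 5) (nat_lit 258) (nat_lit 5) (nat_lit 251) (nat_lit 5) (nat_lit 609) (nat_lit 541) (nat_lit 410)) (XT.nd (nat_lit 78) (nat_lit 456) (nat_lit 0) (XT.lf (nat_lit 0) (nat_lit 235818884) (nat_lit 608) (nat_lit 6487292560) (nat_lit 76) (nat_lit 6788648988) (nat_lit 242) (nat_lit 5) (nat_lit 250) (nat_lit 5) (nat_lit 243) (nat_lit 5) (nat_lit 610) (nat_lit 541) (nat_lit 409)) (XT.lf (nat_lit 0) (nat_lit 1997419088) (nat_lit 456) (nat_lit 1369041107) (nat_lit 532) (nat_lit 10298070282) (nat_lit 236) (nat_lit 5) (nat_lit 242) (nat_lit 5) (nat_lit 243) (nat_lit 5) (nat_lit 611) (nat_lit 541) (nat_lit 408))))))) (XT.nd (nat_lit 76284) (nat_lit 0) (nat_lit 28576) (XT.nd (nat_lit 75894) (nat_lit 0) (nat_lit 31160) (XT.nd (nat_lit 156) (nat_lit 456) (nat_lit 0) (XT.nd (nat_lit 78) (nat_lit 532) (nat_lit 0) (XT.lf (nat_lit 0) (nat_lit 6614840509) (nat_lit 532) (nat_lit 3127907119) (nat_lit 76) (nat_lit 4076506085) (nat_lit 236) (nat_lit 5) (nat_lit 243) (nat_lit 5) (nat_lit 237) (nat_lit 5) (nat_lit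 612) (nat_lit 541) (nat_lit 407)) (XT.lf (nat_lit 0) (nat_lit 5625890688) (nat_lit 532) (nat_lit 4332926577) (nat_lit 608) (nat_lit 4017641878) (nat_lit 229) (nat_lit 5) (nat_lit 236) (nat_lit 5) (nat_lit 237) (nat_lit 5) (nat_lit 613) (nat_lit 541) (nat_lit 406))) (XT.nd (nat_lit 75582) (nat_lit 0) (nat_lit 32376) (XT.lf (nat_lit 0) (nat_lit 437652910) (nat_lit 456) (nat_lit 12948840648) (nat_lit 532) (nat_lit 749979025) (nat_lit 223) (nat_lit 5) (nat_lit 229) (nat_lit 5) (nat_lit 230) (nat_lit 5) (nat_lit 614) (nat_lit 541) (nat_lit 405)) (XT.nd (nat_lit 78) (nat_lit 0) (nat_lit 0) (XT.lf (nat_lit 0) (nat_lit 839801431) (nat_lit 1292) (nat_lit 1420439652) (nat_lit 1292) (nat_lit 1420439652) (nat_lit 649) (nat_lit 3) (nat_lit 666) (nat_lit 3) (nat_lit 666) (nat_lit 5) (nat_lit 542) (nat_lit 542) (nat_lit 476)) (XT.lf (nat_lit 76) (nat_lit 838142439) (nat_lit 0) (nat_lit 2408323067) (nat_lit 1292) (nat_lit 4157448947) (nat_lit 650) (nat_lit 5) (nat_lit 649) (nat_lit 3) (nat_lit 666) (nat_lit 5) (nat_lit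 543) (nat_lit 542) (nat_lit 475))))) (XT.nd (nat_lit 156) (nat_lit 1216) (nat_lit 0) (XT.nd (nat_lit 78) (nat_lit 0) (nat_lit 76) (XT.lf (nat_lit 76) (nat_lit 4608314900) (nat_lit 0) (nat_lit 214762286) (nat_lit 1292) (nat_lit 2624674630) (nat_lit 650) (nat_lit 5) (nat_lit 649) (nat_lit 3) (nat_lit 666) (nat_lit 5) (nat_lit 544) (nat_lit 542) (nat_lit 474)) (XT.lf (nat_lit 76) (nat_lit 939157459) (nat_lit 0) (nat_lit 5471564356) (nat_lit 1292) (nat_lit 1082155621) (nat_lit 651) (nat_lit 5) (nat_lit 650) (nat_lit 5) (nat_lit 667) (nat_lit 5) (nat_lit 545) (nat_lit 542) (nat_lit 473))) (XT.nd (nat_lit 78) (nat_lit 0) (nat_lit 0) (XT.lf (nat_lit 0) (nat_lit 466024850) (nat_lit 1292) (nat_lit 2733284582) (nat_lit 1368) (nat_lit 4339908749) (nat_lit 633) (nat_lit 5) (nat_lit 650) (nat_lit 5) (nat_lit 651) (nat_lit 5) (nat_lit 546) (nat_lit 542) (nat_lit 472)) (XT.nd (nat_lit 78) (nat_lit 0) (nat_lit 76) (XT.lf (nat_lit 76) (nat_lit 1150069043) (nat_lit 0) (nat_lit 849512802) (nat_lit 1368) (nat_lit 5587384212)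 (nat_lit 634) (nat_lit 5) (nat_lit 633) (nat_lit 5) (nat_lit 651) (nat_lit 5) (nat_lit 547) (nat_lit 542) (nat_lit 471)) (XT.lf (nat_lit 0) (nat_lit 3554468345) (nat_lit 1292) (nat_lit 2519464742) (nat_lit 1368) (nat_lit 1561924045) (nat_lit 634) (nat_lit 5) (nat_lit 651) (nat_lit 5) (nat_lit 652) (nat_lit 5) (nat_lit 548) (nat_lit 542) (nat_lit 470)))))) (XT.nd (nat_lit 390) (nat_lit 1368) (nat_lit 0) (XT.nd (nat_lit 156) (nat_lit 1292) (nat_lit 0) (XT.nd (nat_lit 78) (nat_lit 0) (nat_lit 0) (XT.lf (nat_lit 76) (nat_lit 1468245205) (nat_lit 0) (nat_lit 3650257427) (nat_lit 1368) (nat_lit 2567663775) (nat_lit 635) (nat_lit 5) (nat_lit 634) (nat_lit 5) (nat_lit 652) (nat_lit 5) (nat_lit 549) (nat_lit 542) (nat_lit 469)) (XT.lf (nat_lit 76) (nat_lit 5548302774) (nat_lit 0) (nat_lit 1145900739) (nat_lit 1368) (nat_lit 1043671992) (nat_lit 635) (nat_lit 5) (nat_lit 634) (nat_lit 5) (nat_lit 652) (nat_lit 5) (nat_lit 550) (nat_lit 542) (nat_lit 468))) (XT.nd (nat_lit 78) (nat_lit 0) (nat_lit 0) (XT.lf (nat_lit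 0) (nat_lit 489863631) (nat_lit 1368) (nat_lit 5880782924) (nat_lit 1444) (nat_lit 1420191937) (nat_lit 617) (nat_lit 5) (nat_lit 635) (nat_lit 5) (nat_lit 636) (nat_lit 5) (nat_lit 551) (nat_lit 542) (nat_lit 467)) (XT.nd (nat_lit 78) (nat_lit 0) (nat_lit 0) (XT.lf (nat_lit 0) (nat_lit 2027102363) (nat_lit 1368) (nat_lit 1760083656) (nat_lit 1444) (nat_lit 4057797879) (nat_lit 617) (nat_lit 5) (nat_lit 635) (nat_lit 5) (nat_lit 636) (nat_lit 5) (nat_lit 552) (nat_lit 542) (nat_lit 466)) (XT.lf (nat_lit 76) (nat_lit 2453367061) (nat_lit 0) (nat_lit 1122956384) (nat_lit 1444) (nat_lit 4324265268) (nat_lit 618) (nat_lit 5) (nat_lit 617) (nat_lit 5) (nat_lit 636) (nat_lit 5) (nat_lit 553) (nat_lit 542) (nat_lit 465))))) (XT.nd (nat_lit 156) (nat_lit 1444) (nat_lit 0) (XT.nd (nat_lit 78) (nat_lit 0) (nat_lit 0) (XT.lf (nat_lit 0) (nat_lit 5144700111) (nat_lit 1368) (nat_lit 1215015709) (nat_lit 1444) (nat_lit 1597827607) (nat_lit 618) (nat_lit 5) (nat_lit 636) (nat_lit 5) (nat_lit 637) (nat_lit 5) (nat_lit 554)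 (nat_lit 542) (nat_lit 464)) (XT.lf (nat_lit 76) (nat_lit 3113207885) (nat_lit 0) (nat_lit 3625483221) (nat_lit 1444) (nat_lit 1277062395) (nat_lit 619) (nat_lit 5) (nat_lit 618) (nat_lit 5) (nat_lit 637) (nat_lit 5) (nat_lit 555) (nat_lit 542) (nat_lit 463))) (XT.nd (nat_lit 78) (nat_lit 0) (nat_lit 76) (XT.lf (nat_lit 0) (nat_lit 260736497) (nat_lit 1444) (nat_lit 554748337) (nat_lit 1520) (nat_lit 7260104548) (nat_lit 599) (nat_lit 5) (nat_lit 618) (nat_lit 5) (nat_lit 619) (nat_lit 5) (nat_lit 556) (nat_lit 542) (nat_lit 462)) (XT.nd (nat_lit 78) (nat_lit 0) (nat_lit 0) (XT.lf (nat_lit 0) (nat_lit 1818681425) (nat_lit 1444) (nat_lit 4249374732) (nat_lit 1520) (nat_lit 2068268330) (nat_lit 600) (nat_lit 5) (nat_lit 619) (nat_lit 5) (nat_lit 620) (nat_lit 5) (nat_lit 557) (nat_lit 542) (nat_lit 461)) (XT.lf (nat_lit 76) (nat_lit 201578705) (nat_lit 0) (nat_lit 3184765108) (nat_lit 1520) (nat_lit 4812360421) (nat_lit 601) (nat_lit 5) (nat_lit 600) (nat_lit 5) (nat_lit 620) (nat_lit 5) (nat_lit 558) (nat_lit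 542) (nat_lit 460))))))))
noncomputable def xc113 : XT := (XT.nd (nat_lit 1560) (nat_lit 10108) (nat_lit 0) (XT.nd (nat_lit 780) (nat_lit 8360) (nat_lit 0) (XT.nd (nat_lit 390) (nat_lit 3116) (nat_lit 0) (XT.nd (nat_lit 156) (nat_lit 1368) (nat_lit 0) (XT.nd (nat_lit 78) (nat_lit 0) (nat_lit 76) (XT.lf (nat_lit 76) (nat_lit 4776858697) (nat_lit 0) (nat_lit 205598910) (nat_lit 1520) (nat_lit 3279933096) (nat_lit 601) (nat_lit 5) (nat_lit 600) (nat_lit 5) (nat_lit 620) (nat_lit 5) (nat_lit 559) (nat_lit 542) (nat_lit 459)) (XT.lf (nat_lit 76) (nat_lit 1089657811) (nat_lit 0) (nat_lit 5515562057) (nat_lit 1520) (nat_lit 1722237575) (nat_lit 602) (nat_lit 5) (nat_lit 601) (nat_lit 5) (nat_lit 621) (nat_lit 5) (nat_lit 560) (nat_lit 542) (nat_lit 458))) (XT.nd (nat_lit 78) (nat_lit 1444) (nat_lit 0) (XT.lf (nat_lit 76) (nat_lit 5779835347) (nat_lit 0) (nat_lit 2475058604) (nat_lit 1520) (nat_lit 139043484) (nat_lit 602) (nat_lit 5) (nat_lit 601) (nat_lit 5) (nat_lit 621) (nat_lit 5) (nat_lit 561) (nat_lit 542)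 (nat_lit 457)) (XT.nd (nat_lit 78) (nat_lit 0) (nat_lit 0) (XT.lf (nat_lit 0) (nat_lit 1444457387) (nat_lit 1520) (nat_lit 6368494970) (nat_lit 1596) (nat_lit 648844066) (nat_lit 582) (nat_lit 5) (nat_lit 602) (nat_lit 5) (nat_lit 603) (nat_lit 5) (nat_lit 562) (nat_lit 542) (nat_lit 456)) (XT.lf (nat_lit 0) (nat_lit 3062416944) (nat_lit 1520) (nat_lit 1640635010) (nat_lit 1596) (nat_lit 3827850233) (nat_lit 582) (nat_lit 5) (nat_lit 602) (nat_lit 5) (nat_lit 603) (nat_lit 5) (nat_lit 563) (nat_lit 542) (nat_lit 455))))) (XT.nd (nat_lit 156) (nat_lit 3116) (nat_lit 0) (XT.nd (nat_lit 78) (nat_lit 0) (nat_lit 76) (XT.lf (nat_lit 76) (nat_lit 3201383516) (nat_lit 0) (nat_lit 1503313593) (nat_lit 1596) (nat_lit 3896854696) (nat_lit 583) (nat_lit 5) (nat_lit 582) (nat_lit 5) (nat_lit 603) (nat_lit 5) (nat_lit 564) (nat_lit 542) (nat_lit 454)) (XT.lf (nat_lit 0) (nat_lit 6373971859) (nat_lit 1520) (nat_lit 545262417) (nat_lit 76) (nat_lit 1754498108) (nat_lit 583) (nat_lit 5) (nat_lit 603) (nat_lit 5) (nat_lit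 584) (nat_lit 5) (nat_lit 565) (nat_lit 542) (nat_lit 453))) (XT.nd (nat_lit 78) (nat_lit 1672) (nat_lit 0) (XT.lf (nat_lit 0) (nat_lit 4432520009) (nat_lit 1520) (nat_lit 3655039550) (nat_lit 1596) (nat_lit 659579395) (nat_lit 563) (nat_lit 5) (nat_lit 583) (nat_lit 5) (nat_lit 584) (nat_lit 5) (nat_lit 566) (nat_lit 542) (nat_lit 452)) (XT.nd (nat_lit 78) (nat_lit 0) (nat_lit 0) (XT.lf (nat_lit 0) (nat_lit 674937465) (nat_lit 1596) (nat_lit 305653511) (nat_lit 1672) (nat_lit 7841682447) (nat_lit 541) (nat_lit 5) (nat_lit 562) (nat_lit 5) (nat_lit 563) (nat_lit 5) (nat_lit 567) (nat_lit 542) (nat_lit 451)) (XT.lf (nat_lit 0) (nat_lit 2666920184) (nat_lit 1672) (nat_lit 3123363309) (nat_lit 76) (nat_lit 3108097024) (nat_lit 541) (nat_lit 5) (nat_lit 563) (nat_lit 5) (nat_lit 542) (nat_lit 5) (nat_lit 568) (nat_lit 542) (nat_lit 450)))))) (XT.nd (nat_lit 390) (nat_lit 3040) (nat_lit 0) (XT.nd (nat_lit 156) (nat_lit 3648) (nat_lit 0) (XT.nd (nat_lit 78) (nat_lit 0) (nat_lit 0) (XT.lf (nat_lit 0) (nat_lit 2002736815)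 (nat_lit 1672) (nat_lit 2372636031) (nat_lit 1748) (nat_lit 4600869829) (nat_lit 519) (nat_lit 5) (nat_lit 541) (nat_lit 5) (nat_lit 542) (nat_lit 5) (nat_lit 569) (nat_lit 542) (nat_lit 449)) (XT.lf (nat_lit 0) (nat_lit 6120092221) (nat_lit 1748) (nat_lit 1811909476) (nat_lit 76) (nat_lit 1123619267) (nat_lit 519) (nat_lit 5) (nat_lit 542) (nat_lit 5) (nat_lit 520) (nat_lit 5) (nat_lit 570) (nat_lit 542) (nat_lit 448))) (XT.nd (nat_lit 78) (nat_lit 1900) (nat_lit 0) (XT.lf (nat_lit 0) (nat_lit 3460039921) (nat_lit 1748) (nat_lit 4452128798) (nat_lit 1824) (nat_lit 1224169670) (nat_lit 496) (nat_lit 5) (nat_lit 519) (nat_lit 5) (nat_lit 520) (nat_lit 5) (nat_lit 571) (nat_lit 542) (nat_lit 447)) (XT.nd (nat_lit 78) (nat_lit 1824) (nat_lit 0) (XT.lf (nat_lit 0) (nat_lit 501292622) (nat_lit 1824) (nat_lit 382640493) (nat_lit 76) (nat_lit 8334935845) (nat_lit 495) (nat_lit 5) (nat_lit 519) (nat_lit 5) (nat_lit 496) (nat_lit 5) (nat_lit 572) (nat_lit 542) (nat_lit 446)) (XT.lf (nat_lit 0) (nat_lit 2270849381)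 (nat_lit 1900) (nat_lit 4268152775) (nat_lit 76) (nat_lit 2763367389) (nat_lit 471) (nat_lit 5) (nat_lit 496) (nat_lit 5) (nat_lit 472) (nat_lit 5) (nat_lit 573) (nat_lit 542) (nat_lit 445))))) (XT.nd (nat_lit 156) (nat_lit 1900) (nat_lit 0) (XT.nd (nat_lit 78) (nat_lit 0) (nat_lit 0) (XT.lf (nat_lit 0) (nat_lit 1163847275) (nat_lit 1140) (nat_lit 2903284009) (nat_lit 1216) (nat_lit 5320582942) (nat_lit 456) (nat_lit 5) (nat_lit 471) (nat_lit 5) (nat_lit 472) (nat_lit 5) (nat_lit 574) (nat_lit 542) (nat_lit 444)) (XT.lf (nat_lit 0) (nat_lit 5909085797) (nat_lit 1216) (nat_lit 2740272027) (nat_lit 76) (nat_lit 825213785) (nat_lit 456) (nat_lit 5) (nat_lit 472) (nat_lit 5) (nat_lit 457) (nat_lit 5) (nat_lit 575) (nat_lit 542) (nat_lit 443))) (XT.nd (nat_lit 78) (nat_lit 988) (nat_lit 0) (XT.lf (nat_lit 0) (nat_lit 2848573299) (nat_lit 912) (nat_lit 4953192856) (nat_lit 988) (nat_lit 1761122981) (nat_lit 444) (nat_lit 5) (nat_lit 456) (nat_lit 5) (nat_lit 457) (nat_lit 5) (nat_lit 576) (nat_lit 542) (nat_lit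 442)) (XT.nd (nat_lit 78) (nat_lit 912) (nat_lit 0) (XT.lf (nat_lit 0) (nat_lit 73127505) (nat_lit 988) (nat_lit 1089622305) (nat_lit 76) (nat_lit 8490316792) (nat_lit 443) (nat_lit 5) (nat_lit 456) (nat_lit 5) (nat_lit 444) (nat_lit 5) (nat_lit 577) (nat_lit 542) (nat_lit 441)) (XT.lf (nat_lit 0) (nat_lit 1945488085) (nat_lit 988) (nat_lit 5087569993) (nat_lit 76) (nat_lit 2711257279) (nat_lit 431) (nat_lit 5) (nat_lit 444) (nat_lit 5) (nat_lit 432) (nat_lit 5) (nat_lit 578) (nat_lit 542) (nat_lit 440))))))) (XT.nd (nat_lit 780) (nat_lit 5016) (nat_lit 0) (XT.nd (nat_lit 390) (nat_lit 2432) (nat_lit 0) (XT.nd (nat_lit 156) (nat_lit 1824) (nat_lit 0) (XT.nd (nat_lit 78) (nat_lit 0) (nat_lit 0) (XT.lf (nat_lit 0) (nat_lit 674067056) (nat_lit 836) (nat_lit 3177776760) (nat_lit 912) (nat_lit 5985614989) (nat_lit 420) (nat_lit 5) (nat_lit 431) (nat_lit 5) (nat_lit 432) (nat_lit 5) (nat_lit 579) (nat_lit 542) (nat_lit 439)) (XT.lf (nat_lit 0) (nat_lit 5813007230) (nat_lit 912) (nat_lit 3339904679) (nat_lit 76)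 (nat_lit 779220266) (nat_lit 420) (nat_lit 5) (nat_lit 432) (nat_lit 5) (nat_lit 421) (nat_lit 5) (nat_lit 580) (nat_lit 542) (nat_lit 438))) (XT.nd (nat_lit 78) (nat_lit 912) (nat_lit 0) (XT.lf (nat_lit 0) (nat_lit 2590534507) (nat_lit 912) (nat_lit 5238581370) (nat_lit 988) (nat_lit 2199269346) (nat_lit 408) (nat_lit 5) (nat_lit 420) (nat_lit 5) (nat_lit 421) (nat_lit 5) (nat_lit 581) (nat_lit 542) (nat_lit 437)) (XT.nd (nat_lit 78) (nat_lit 912) (nat_lit 0) (XT.lf (nat_lit 0) (nat_lit 8662555378) (nat_lit 912) (nat_lit 1223550833) (nat_lit 988) (nat_lit 240446571) (nat_lit 408) (nat_lit 5) (nat_lit 420) (nat_lit 5) (nat_lit 421) (nat_lit 5) (nat_lit 582) (nat_lit 542) (nat_lit 436)) (XT.lf (nat_lit 0) (nat_lit 1762087881) (nat_lit 912) (nat_lit 5588353427) (nat_lit 76) (nat_lit 2875463054) (nat_lit 396) (nat_lit 5) (nat_lit 408) (nat_lit 5) (nat_lit 397) (nat_lit 5) (nat_lit 583) (nat_lit 542) (nat_lit 435))))) (XT.nd (nat_lit 156) (nat_lit 1596) (nat_lit 0) (XT.nd (nat_lit 78) (nat_lit 0) (nat_lit 0)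 (XT.lf (nat_lit 0) (nat_lit 528675580) (nat_lit 836) (nat_lit 3272913963) (nat_lit 912) (nat_lit 6525619526) (nat_lit 385) (nat_lit 5) (nat_lit 396) (nat_lit 5) (nat_lit 397) (nat_lit 5) (nat_lit 584) (nat_lit 542) (nat_lit 434)) (XT.lf (nat_lit 0) (nat_lit 5904356936) (nat_lit 912) (nat_lit 3614686549) (nat_lit 76) (nat_lit 911047458) (nat_lit 385) (nat_lit 5) (nat_lit 397) (nat_lit 5) (nat_lit 386) (nat_lit 5) (nat_lit 585) (nat_lit 542) (nat_lit 433))) (XT.nd (nat_lit 78) (nat_lit 836) (nat_lit 0) (XT.lf (nat_lit 0) (nat_lit 2684118478) (nat_lit 760) (nat_lit 5383548489) (nat_lit 836) (nat_lit 2466994319) (nat_lit 375) (nat_lit 5) (nat_lit 385) (nat_lit 5) (nat_lit 386) (nat_lit 5) (nat_lit 586) (nat_lit 542) (nat_lit 432)) (XT.nd (nat_lit 78) (nat_lit 836) (nat_lit 0) (XT.lf (nat_lit 0) (nat_lit 9135797372) (nat_lit 760) (nat_lit 1142348283) (nat_lit 836) (nat_lit 363099899) (nat_lit 375) (nat_lit 5) (nat_lit 385) (nat_lit 5) (nat_lit 386) (nat_lit 5) (nat_lit 587) (nat_lit 542) (nat_lit 431)) (XT.lf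 (nat_lit 0) (nat_lit 1792806454) (nat_lit 836) (nat_lit 5771837536) (nat_lit 76) (nat_lit 3184420217) (nat_lit 364) (nat_lit 5) (nat_lit 375) (nat_lit 5) (nat_lit 365) (nat_lit 5) (nat_lit 588) (nat_lit 542) (nat_lit 430)))))) (XT.nd (nat_lit 390) (nat_lit 2736) (nat_lit 0) (XT.nd (nat_lit 156) (nat_lit 1520) (nat_lit 0) (XT.nd (nat_lit 78) (nat_lit 0) (nat_lit 0) (XT.lf (nat_lit 0) (nat_lit 728467142) (nat_lit 760) (nat_lit 3261122705) (nat_lit 836) (nat_lit 6869349500) (nat_lit 354) (nat_lit 5) (nat_lit 364) (nat_lit 5) (nat_lit 365) (nat_lit 5) (nat_lit 589) (nat_lit 542) (nat_lit 429)) (XT.lf (nat_lit 0) (nat_lit 6257006752) (nat_lit 836) (nat_lit 3563209506) (nat_lit 76) (nat_lit 1150262299) (nat_lit 354) (nat_lit 5) (nat_lit 365) (nat_lit 5) (nat_lit 355) (nat_lit 5) (nat_lit 590) (nat_lit 542) (nat_lit 428))) (XT.nd (nat_lit 78) (nat_lit 760) (nat_lit 0) (XT.lf (nat_lit 0) (nat_lit 3132924222) (nat_lit 760) (nat_lit 5459552792) (nat_lit 836) (nat_lit 2491317951) (nat_lit 344) (nat_lit 5) (nat_lit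 354) (nat_lit 5) (nat_lit 355) (nat_lit 5) (nat_lit 591) (nat_lit 542) (nat_lit 427)) (XT.nd (nat_lit 78) (nat_lit 760) (nat_lit 0) (XT.lf (nat_lit 0) (nat_lit 9989459133) (nat_lit 760) (nat_lit 990111151) (nat_lit 836) (nat_lit 219709646) (nat_lit 344) (nat_lit 5) (nat_lit 354) (nat_lit 5) (nat_lit 355) (nat_lit 5) (nat_lit 592) (nat_lit 542) (nat_lit 426)) (XT.lf (nat_lit 0) (nat_lit 2111607087) (nat_lit 760) (nat_lit 5634304416) (nat_lit 76) (nat_lit 3570055568) (nat_lit 334) (nat_lit 5) (nat_lit 344) (nat_lit 5) (nat_lit 335) (nat_lit 5) (nat_lit 593) (nat_lit 542) (nat_lit 425))))) (XT.nd (nat_lit 234) (nat_lit 1368) (nat_lit 0) (XT.nd (nat_lit 78) (nat_lit 684) (nat_lit 0) (XT.lf (nat_lit 0) (nat_lit 1279410864) (nat_lit 684) (nat_lit 3211696172) (nat_lit 760) (nat_lit 6943762371) (nat_lit 325) (nat_lit 5) (nat_lit 334) (nat_lit 5) (nat_lit 335) (nat_lit 5) (nat_lit 594) (nat_lit 542) (nat_lit 424)) (XT.nd (nat_lit 78) (nat_lit 684) (nat_lit 0) (XT.lf (nat_lit 0) (nat_lit 6947092474) (nat_lit 760)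 (nat_lit 3179098201) (nat_lit 76) (nat_lit 1429381670) (nat_lit 325) (nat_lit 5) (nat_lit 335) (nat_lit 5) (nat_lit 326) (nat_lit 5) (nat_lit 595) (nat_lit 542) (nat_lit 423)) (XT.lf (nat_lit 0) (nat_lit 3945646448) (nat_lit 684) (nat_lit 5535458530) (nat_lit 760) (nat_lit 2197006673) (nat_lit 316) (nat_lit 5) (nat_lit 325) (nat_lit 5) (nat_lit 326) (nat_lit 5) (nat_lit 596) (nat_lit 542) (nat_lit 422)))) (XT.nd (nat_lit 78) (nat_lit 1292) (nat_lit 0) (XT.lf (nat_lit 0) (nat_lit 262840470) (nat_lit 760) (nat_lit 570259573) (nat_lit 76) (nat_lit 10969896230) (nat_lit 315) (nat_lit 5) (nat_lit 325) (nat_lit 5) (nat_lit 316) (nat_lit 5) (nat_lit 597) (nat_lit 542) (nat_lit 421)) (XT.nd (nat_lit 78) (nat_lit 608) (nat_lit 0) (XT.lf (nat_lit 0) (nat_lit 2795130825) (nat_lit 760) (nat_lit 5167273490) (nat_lit 76) (nat_lit 3966630973) (nat_lit 306) (nat_lit 5) (nat_lit 316) (nat_lit 5) (nat_lit 307) (nat_lit 5) (nat_lit 598) (nat_lit 542) (nat_lit 420)) (XT.lf (nat_lit 0) (nat_lit 2192372488) (nat_lit 608) (nat_lit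 3191945562) (nat_lit 684) (nat_lit 6673152434) (nat_lit 298) (nat_lit 5) (nat_lit 306) (nat_lit 5) (nat_lit 307) (nat_lit 5) (nat_lit 599) (nat_lit 542) (nat_lit 419))))))))
noncomputable def xc114 : XT := (XT.nd (nat_lit 77142) (nat_lit 0) (nat_lit 23712) (XT.nd (nat_lit 780) (nat_lit 1596) (nat_lit 0) (XT.nd (nat_lit 390) (nat_lit 1748) (nat_lit 0) (XT.nd (nat_lit 156) (nat_lit 1292) (nat_lit 0) (XT.nd (nat_lit 78) (nat_lit 608) (nat_lit 0) (XT.lf (nat_lit 0) (nat_lit 8053884016) (nat_lit 684) (nat_lit 2451271980) (nat_lit 76) (nat_lit 1682746901) (nat_lit 298) (nat_lit 5) (nat_lit 307) (nat_lit 5) (nat_lit 299) (nat_lit 5) (nat_lit 600) (nat_lit 542) (nat_lit 418)) (XT.lf (nat_lit 0) (nat_lit 5135825207) (nat_lit 608) (nat_lit 5678658832) (nat_lit 684) (nat_lit 1505707467) (nat_lit 290) (nat_lit 5) (nat_lit 298) (nat_lit 5) (nat_lit 299) (nat_lit 5) (nat_lit 601) (nat_lit 542) (nat_lit 417))) (XT.nd (nat_lit 78) (nat_lit 608) (nat_lit 0) (XT.lf (nat_lit 0) (nat_lit 429684159) (nat_lit 608) (nat_lit 732663029)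 (nat_lit 684) (nat_lit 11292574698) (nat_lit 281) (nat_lit 5) (nat_lit 289) (nat_lit 5) (nat_lit 290) (nat_lit 5) (nat_lit 602) (nat_lit 542) (nat_lit 416)) (XT.nd (nat_lit 78) (nat_lit 608) (nat_lit 0) (XT.lf (nat_lit 0) (nat_lit 3923551350) (nat_lit 684) (nat_lit 4357738967) (nat_lit 76) (nat_lit 4309658887) (nat_lit 281) (nat_lit 5) (nat_lit 290) (nat_lit 5) (nat_lit 282) (nat_lit 5) (nat_lit 603) (nat_lit 542) (nat_lit 415)) (XT.lf (nat_lit 0) (nat_lit 3482888305) (nat_lit 608) (nat_lit 3268284846) (nat_lit 684) (nat_lit 5978300420) (nat_lit 273) (nat_lit 5) (nat_lit 281) (nat_lit 5) (nat_lit 282) (nat_lit 5) (nat_lit 604) (nat_lit 542) (nat_lit 414))))) (XT.nd (nat_lit 156) (nat_lit 1216) (nat_lit 0) (XT.nd (nat_lit 78) (nat_lit 532) (nat_lit 0) (XT.lf (nat_lit 0) (nat_lit 9660642864) (nat_lit 684) (nat_lit 1364158105) (nat_lit 76) (nat_lit 1845461913) (nat_lit 273) (nat_lit 5) (nat_lit 282) (nat_lit 5) (nat_lit 274) (nat_lit 5) (nat_lit 605) (nat_lit 542) (nat_lit 413)) (XT.lf (nat_lit 0) (nat_lit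 6721644140) (nat_lit 532) (nat_lit 5956139801) (nat_lit 608) (nat_lit 335094758) (nat_lit 266) (nat_lit 5) (nat_lit 273) (nat_lit 5) (nat_lit 274) (nat_lit 5) (nat_lit 606) (nat_lit 542) (nat_lit 412))) (XT.nd (nat_lit 78) (nat_lit 532) (nat_lit 0) (XT.lf (nat_lit 0) (nat_lit 1815522114) (nat_lit 608) (nat_lit 752610522) (nat_lit 684) (nat_lit 10589771908) (nat_lit 257) (nat_lit 5) (nat_lit 265) (nat_lit 5) (nat_lit 266) (nat_lit 5) (nat_lit 607) (nat_lit 542) (nat_lit 411)) (XT.nd (nat_lit 78) (nat_lit 532) (nat_lit 0) (XT.lf (nat_lit 0) (nat_lit 5581421666) (nat_lit 684) (nat_lit 3188364250) (nat_lit 76) (nat_lit 4534871350) (nat_lit 257) (nat_lit 5) (nat_lit 266) (nat_lit 5) (nat_lit 258) (nat_lit 5) (nat_lit 608) (nat_lit 542) (nat_lit 410)) (XT.lf (nat_lit 0) (nat_lit 5170982020) (nat_lit 532) (nat_lit 3507266506) (nat_lit 608) (nat_lit 4775631408) (nat_lit 250) (nat_lit 5) (nat_lit 257) (nat_lit 5) (nat_lit 258) (nat_lit 5) (nat_lit 609) (nat_lit 542) (nat_lit 409)))))) (XT.nd (nat_lit 75972) (nat_lit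 0) (nat_lit 30628) (XT.nd (nat_lit 156) (nat_lit 988) (nat_lit 0) (XT.nd (nat_lit 78) (nat_lit 76) (nat_lit 0) (XT.lf (nat_lit 0) (nat_lit 103492096) (nat_lit 532) (nat_lit 11752655424) (nat_lit 608) (nat_lit 1749557147) (nat_lit 243) (nat_lit 5) (nat_lit 250) (nat_lit 5) (nat_lit 251) (nat_lit 5) (nat_lit 610) (nat_lit 542) (nat_lit 408)) (XT.lf (nat_lit 0) (nat_lit 1383591372) (nat_lit 608) (nat_lit 5042627073) (nat_lit 76) (nat_lit 7332892379) (nat_lit 242) (nat_lit 5) (nat_lit 250) (nat_lit 5) (nat_lit 243) (nat_lit 5) (nat_lit 611) (nat_lit 542) (nat_lit 407))) (XT.nd (nat_lit 78) (nat_lit 532) (nat_lit 0) (XT.lf (nat_lit 0) (nat_lit 3601420839) (nat_lit 456) (nat_lit 963166677) (nat_lit 532) (nat_lit 9350594379) (nat_lit 236) (nat_lit 5) (nat_lit 242) (nat_lit 5) (nat_lit 243) (nat_lit 5) (nat_lit 612) (nat_lit 542) (nat_lit 406)) (XT.nd (nat_lit 78) (nat_lit 532) (nat_lit 0) (XT.lf (nat_lit 0) (nat_lit 7858520748) (nat_lit 532) (nat_lit 1637642144) (nat_lit 76) (nat_lit 4577225453) (nat_lit 236) (nat_lit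 5) (nat_lit 243) (nat_lit 5) (nat_lit 237) (nat_lit 5) (nat_lit 613) (nat_lit 542) (nat_lit 405)) (XT.lf (nat_lit 0) (nat_lit 7281015678) (nat_lit 532) (nat_lit 3976585158) (nat_lit 608) (nat_lit 2976373018) (nat_lit 229) (nat_lit 5) (nat_lit 236) (nat_lit 5) (nat_lit 237) (nat_lit 5) (nat_lit 614) (nat_lit 542) (nat_lit 404))))) (XT.nd (nat_lit 156) (nat_lit 1292) (nat_lit 0) (XT.nd (nat_lit 78) (nat_lit 0) (nat_lit 0) (XT.lf (nat_lit 0) (nat_lit 2391193569) (nat_lit 1292) (nat_lit 666174972) (nat_lit 1292) (nat_lit 666174972) (nat_lit 649) (nat_lit 3) (nat_lit 666) (nat_lit 3) (nat_lit 666) (nat_lit 5) (nat_lit 543) (nat_lit 543) (nat_lit 474)) (XT.lf (nat_lit 76) (nat_lit 2409953899) (nat_lit 0) (nat_lit 3920549304) (nat_lit 1292) (nat_lit 1160991853) (nat_lit 650) (nat_lit 5) (nat_lit 649) (nat_lit 3) (nat_lit 666) (nat_lit 5) (nat_lit 544) (nat_lit 543) (nat_lit 473))) (XT.nd (nat_lit 78) (nat_lit 0) (nat_lit 76) (XT.lf (nat_lit 0) (nat_lit 337567423) (nat_lit 1292) (nat_lit 1314577575) (nat_lit 1368)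 (nat_lit 5885205981) (nat_lit 632) (nat_lit 5) (nat_lit 649) (nat_lit 3) (nat_lit 650) (nat_lit 5) (nat_lit 545) (nat_lit 543) (nat_lit 472)) (XT.nd (nat_lit 78) (nat_lit 0) (nat_lit 0) (XT.lf (nat_lit 0) (nat_lit 1833024786) (nat_lit 1292) (nat_lit 5055975797) (nat_lit 1368) (nat_lit 695321940) (nat_lit 633) (nat_lit 5) (nat_lit 650) (nat_lit 5) (nat_lit 651) (nat_lit 5) (nat_lit 546) (nat_lit 543) (nat_lit 471)) (XT.lf (nat_lit 0) (nat_lit 3340391426) (nat_lit 1292) (nat_lit 1198095384) (nat_lit 1368) (nat_lit 3094108092) (nat_lit 633) (nat_lit 5) (nat_lit 650) (nat_lit 5) (nat_lit 651) (nat_lit 5) (nat_lit 547) (nat_lit 543) (nat_lit 470))))))) (XT.nd (nat_lit 780) (nat_lit 4408) (nat_lit 0) (XT.nd (nat_lit 390) (nat_lit 1292) (nat_lit 0) (XT.nd (nat_lit 156) (nat_lit 1292) (nat_lit 0) (XT.nd (nat_lit 78) (nat_lit 0) (nat_lit 76) (XT.lf (nat_lit 76) (nat_lit 2752465741) (nat_lit 0) (nat_lit 2106230928) (nat_lit 1368) (nat_lit 2823521617) (nat_lit 634) (nat_lit 5) (nat_lit 633) (nat_lit 5) (nat_lit 651)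 (nat_lit 5) (nat_lit 548) (nat_lit 543) (nat_lit 469)) (XT.lf (nat_lit 0) (nat_lit 6381512664) (nat_lit 1292) (nat_lit 958156443) (nat_lit 1368) (nat_lit 393683490) (nat_lit 634) (nat_lit 5) (nat_lit 651) (nat_lit 5) (nat_lit 652) (nat_lit 5) (nat_lit 549) (nat_lit 543) (nat_lit 468))) (XT.nd (nat_lit 78) (nat_lit 0) (nat_lit 0) (XT.lf (nat_lit 0) (nat_lit 145705392) (nat_lit 1368) (nat_lit 4687797091) (nat_lit 1444) (nat_lit 2952021276) (nat_lit 616) (nat_lit 5) (nat_lit 634) (nat_lit 5) (nat_lit 635) (nat_lit 5) (nat_lit 550) (nat_lit 543) (nat_lit 467)) (XT.nd (nat_lit 78) (nat_lit 0) (nat_lit 76) (XT.lf (nat_lit 0) (nat_lit 1626253099) (nat_lit 1368) (nat_lit 621081725) (nat_lit 1444) (nat_lit 5591803029) (nat_lit 616) (nat_lit 5) (nat_lit 634) (nat_lit 5) (nat_lit 635) (nat_lit 5) (nat_lit 551) (nat_lit 543) (nat_lit 466)) (XT.lf (nat_lit 0) (nat_lit 3127613603) (nat_lit 1368) (nat_lit 4344048963) (nat_lit 1444) (nat_lit 422338877) (nat_lit 617) (nat_lit 5) (nat_lit 635) (nat_lit 5) (nat_lit 636) (nat_lit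 5) (nat_lit 552) (nat_lit 543) (nat_lit 465))))) (XT.nd (nat_lit 156) (nat_lit 1368) (nat_lit 0) (XT.nd (nat_lit 78) (nat_lit 0) (nat_lit 0) (XT.lf (nat_lit 0) (nat_lit 4644068625) (nat_lit 1368) (nat_lit 173373938) (nat_lit 1444) (nat_lit 3132819623) (nat_lit 617) (nat_lit 5) (nat_lit 635) (nat_lit 5) (nat_lit 636) (nat_lit 5) (nat_lit 553) (nat_lit 543) (nat_lit 464)) (XT.lf (nat_lit 76) (nat_lit 4113675324) (nat_lit 0) (nat_lit 2070541927) (nat_lit 1444) (nat_lit 1823564804) (nat_lit 618) (nat_lit 5) (nat_lit 617) (nat_lit 5) (nat_lit 636) (nat_lit 5) (nat_lit 554) (nat_lit 543) (nat_lit 463))) (XT.nd (nat_lit 78) (nat_lit 1444) (nat_lit 0) (XT.lf (nat_lit 76) (nat_lit 401305889) (nat_lit 0) (nat_lit 7329639654) (nat_lit 1444) (nat_lit 335992425) (nat_lit 619) (nat_lit 5) (nat_lit 618) (nat_lit 5) (nat_lit 637) (nat_lit 5) (nat_lit 555) (nat_lit 543) (nat_lit 462)) (XT.nd (nat_lit 78) (nat_lit 0) (nat_lit 0) (XT.lf (nat_lit 0) (nat_lit 1173394928) (nat_lit 1444) (nat_lit 3334775874) (nat_lit 1520) (nat_lit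 3618802791) (nat_lit 599) (nat_lit 5) (nat_lit 618) (nat_lit 5) (nat_lit 619) (nat_lit 5) (nat_lit 556) (nat_lit 543) (nat_lit 461)) (XT.lf (nat_lit 76) (nat_lit 1073096518) (nat_lit 0) (nat_lit 1610522640) (nat_lit 1520) (nat_lit 5505044504) (nat_lit 600) (nat_lit 5) (nat_lit 599) (nat_lit 5) (nat_lit 619) (nat_lit 5) (nat_lit 557) (nat_lit 543) (nat_lit 460)))))) (XT.nd (nat_lit 390) (nat_lit 3040) (nat_lit 0) (XT.nd (nat_lit 156) (nat_lit 1444) (nat_lit 0) (XT.nd (nat_lit 78) (nat_lit 0) (nat_lit 0) (XT.lf (nat_lit 0) (nat_lit 4224034680) (nat_lit 1444) (nat_lit 2667692708) (nat_lit 1520) (nat_lit 1359861498) (nat_lit 600) (nat_lit 5) (nat_lit 619) (nat_lit 5) (nat_lit 620) (nat_lit 5) (nat_lit 558) (nat_lit 543) (nat_lit 459)) (XT.lf (nat_lit 76) (nat_lit 1861314866) (nat_lit 0) (nat_lit 3926034801) (nat_lit 1520) (nat_lit 2528582192) (nat_lit 601) (nat_lit 5) (nat_lit 600) (nat_lit 5) (nat_lit 620) (nat_lit 5) (nat_lit 559) (nat_lit 543) (nat_lit 458))) (XT.nd (nat_lit 78) (nat_lit 1444) (nat_lit 0)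 (XT.lf (nat_lit 76) (nat_lit 6495635662) (nat_lit 0) (nat_lit 873999506) (nat_lit 1520) (nat_lit 1012173485) (nat_lit 601) (nat_lit 5) (nat_lit 600) (nat_lit 5) (nat_lit 620) (nat_lit 5) (nat_lit 560) (nat_lit 543) (nat_lit 457)) (XT.nd (nat_lit 78) (nat_lit 0) (nat_lit 0) (XT.lf (nat_lit 0) (nat_lit 530568934) (nat_lit 1520) (nat_lit 5678610116) (nat_lit 1596) (nat_lit 2239695196) (nat_lit 581) (nat_lit 5) (nat_lit 601) (nat_lit 5) (nat_lit 602) (nat_lit 5) (nat_lit 561) (nat_lit 543) (nat_lit 456)) (XT.lf (nat_lit 0) (nat_lit 2079851440) (nat_lit 1520) (nat_lit 1006110407) (nat_lit 1596) (nat_lit 5431401717) (nat_lit 581) (nat_lit 5) (nat_lit 601) (nat_lit 5) (nat_lit 602) (nat_lit 5) (nat_lit 562) (nat_lit 543) (nat_lit 455))))) (XT.nd (nat_lit 234) (nat_lit 3116) (nat_lit 0) (XT.nd (nat_lit 78) (nat_lit 0) (nat_lit 0) (XT.lf (nat_lit 0) (nat_lit 3656842552) (nat_lit 1520) (nat_lit 4800118984) (nat_lit 1596) (nat_lit 130327639) (nat_lit 582) (nat_lit 5) (nat_lit 602) (nat_lit 5) (nat_lit 603) (nat_lit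 5) (nat_lit 563) (nat_lit 543) (nat_lit 454)) (XT.nd (nat_lit 78) (nat_lit 0) (nat_lit 0) (XT.lf (nat_lit 0) (nat_lit 5264347653) (nat_lit 1520) (nat_lit 10951744) (nat_lit 1596) (nat_lit 3383335367) (nat_lit 582) (nat_lit 5) (nat_lit 602) (nat_lit 5) (nat_lit 603) (nat_lit 5) (nat_lit 564) (nat_lit 543) (nat_lit 453)) (XT.lf (nat_lit 76) (nat_lit 4916969679) (nat_lit 0) (nat_lit 1991252591) (nat_lit 1596) (nat_lit 1823101535) (nat_lit 583) (nat_lit 5) (nat_lit 582) (nat_lit 5) (nat_lit 603) (nat_lit 5) (nat_lit 565) (nat_lit 543) (nat_lit 452)))) (XT.nd (nat_lit 78) (nat_lit 1672) (nat_lit 0) (XT.lf (nat_lit 0) (nat_lit 1122068406) (nat_lit 1520) (nat_lit 7451823402) (nat_lit 1596) (nat_lit 231797382) (nat_lit 563) (nat_lit 5) (nat_lit 583) (nat_lit 5) (nat_lit 584) (nat_lit 5) (nat_lit 566) (nat_lit 543) (nat_lit 451)) (XT.nd (nat_lit 78) (nat_lit 1596) (nat_lit 0) (XT.lf (nat_lit 0) (nat_lit 1384990410) (nat_lit 1596) (nat_lit 2716671860) (nat_lit 76) (nat_lit 4779461717) (nat_lit 562) (nat_lit 5) (nat_lit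 583) (nat_lit 5) (nat_lit 563) (nat_lit 5) (nat_lit 567) (nat_lit 543) (nat_lit 450)) (XT.lf (nat_lit 0) (nat_lit 2357255818) (nat_lit 1596) (nat_lit 662544690) (nat_lit 1672) (nat_lit 5938461380) (nat_lit 541) (nat_lit 5) (nat_lit 562) (nat_lit 5) (nat_lit 563) (nat_lit 5) (nat_lit 568) (nat_lit 543) (nat_lit 449))))))))
noncomputable def xc115 : XT := (XT.nd (nat_lit 1560) (nat_lit 8132) (nat_lit 0) (XT.nd (nat_lit 780) (nat_lit 5092) (nat_lit 0) (XT.nd (nat_lit 390) (nat_lit 3040) (nat_lit 0) (XT.nd (nat_lit 156) (nat_lit 3648) (nat_lit 0) (XT.nd (nat_lit 78) (nat_lit 1672) (nat_lit 0) (XT.lf (nat_lit 0) (nat_lit 4698023517) (nat_lit 1672) (nat_lit 1507836367) (nat_lit 76) (nat_lit 2830869170) (nat_lit 541) (nat_lit 5) (nat_lit 563) (nat_lit 5) (nat_lit 542) (nat_lit 5) (nat_lit 569) (nat_lit 543) (nat_lit 448)) (XT.lf (nat_lit 0) (nat_lit 3709746324) (nat_lit 1672) (nat_lit 2702942180) (nat_lit 1748) (nat_lit 2704020337) (nat_lit 519) (nat_lit 5) (nat_lit 541) (nat_lit 5) (nat_lit 542) (nat_lit 5) (nat_lit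 570) (nat_lit 543) (nat_lit 447))) (XT.nd (nat_lit 78) (nat_lit 3648) (nat_lit 0) (XT.lf (nat_lit 0) (nat_lit 8152270270) (nat_lit 1748) (nat_lit 173784987) (nat_lit 76) (nat_lit 872421304) (nat_lit 519) (nat_lit 5) (nat_lit 542) (nat_lit 5) (nat_lit 520) (nat_lit 5) (nat_lit 571) (nat_lit 543) (nat_lit 446)) (XT.nd (nat_lit 78) (nat_lit 1824) (nat_lit 0) (XT.lf (nat_lit 0) (nat_lit 663382772) (nat_lit 1824) (nat_lit 4093118985) (nat_lit 76) (nat_lit 4524753434) (nat_lit 495) (nat_lit 5) (nat_lit 519) (nat_lit 5) (nat_lit 496) (nat_lit 5) (nat_lit 572) (nat_lit 543) (nat_lit 445)) (XT.lf (nat_lit 0) (nat_lit 1282009073) (nat_lit 1824) (nat_lit 1096122787) (nat_lit 1900) (nat_lit 6987720449) (nat_lit 471) (nat_lit 5) (nat_lit 495) (nat_lit 5) (nat_lit 496) (nat_lit 5) (nat_lit 573) (nat_lit 543) (nat_lit 444))))) (XT.nd (nat_lit 156) (nat_lit 1900) (nat_lit 0) (XT.nd (nat_lit 78) (nat_lit 1140) (nat_lit 0) (XT.lf (nat_lit 0) (nat_lit 4147771482) (nat_lit 1900) (nat_lit 2670985984) (nat_lit 76) (nat_lit 2632972738)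 (nat_lit 471) (nat_lit 5) (nat_lit 496) (nat_lit 5) (nat_lit 472) (nat_lit 5) (nat_lit 574) (nat_lit 543) (nat_lit 443)) (XT.lf (nat_lit 0) (nat_lit 2858584791) (nat_lit 1140) (nat_lit 3096334597) (nat_lit 1216) (nat_lit 3584364693) (nat_lit 456) (nat_lit 5) (nat_lit 471) (nat_lit 5) (nat_lit 472) (nat_lit 5) (nat_lit 575) (nat_lit 543) (nat_lit 442))) (XT.nd (nat_lit 78) (nat_lit 1900) (nat_lit 0) (XT.lf (nat_lit 0) (nat_lit 7797433265) (nat_lit 1216) (nat_lit 1120056476) (nat_lit 76) (nat_lit 711115554) (nat_lit 456) (nat_lit 5) (nat_lit 472) (nat_lit 5) (nat_lit 457) (nat_lit 5) (nat_lit 576) (nat_lit 543) (nat_lit 441)) (XT.nd (nat_lit 78) (nat_lit 988) (nat_lit 0) (XT.lf (nat_lit 0) (nat_lit 4569545882) (nat_lit 912) (nat_lit 5134516015) (nat_lit 988) (nat_lit 15106450) (nat_lit 444) (nat_lit 5) (nat_lit 456) (nat_lit 5) (nat_lit 457) (nat_lit 5) (nat_lit 577) (nat_lit 543) (nat_lit 440)) (XT.lf (nat_lit 0) (nat_lit 550128422) (nat_lit 912) (nat_lit 1251442961) (nat_lit 988) (nat_lit 8009965633) (nat_lit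 431) (nat_lit 5) (nat_lit 443) (nat_lit 5) (nat_lit 444) (nat_lit 5) (nat_lit 578) (nat_lit 543) (nat_lit 439)))))) (XT.nd (nat_lit 390) (nat_lit 2432) (nat_lit 0) (XT.nd (nat_lit 156) (nat_lit 1824) (nat_lit 0) (XT.nd (nat_lit 78) (nat_lit 836) (nat_lit 0) (XT.lf (nat_lit 0) (nat_lit 3684316301) (nat_lit 988) (nat_lit 3511451892) (nat_lit 76) (nat_lit 2709384817) (nat_lit 431) (nat_lit 5) (nat_lit 444) (nat_lit 5) (nat_lit 432) (nat_lit 5) (nat_lit 579) (nat_lit 543) (nat_lit 438)) (XT.lf (nat_lit 0) (nat_lit 2354379283) (nat_lit 836) (nat_lit 3251910301) (nat_lit 912) (nat_lit 4394320920) (nat_lit 420) (nat_lit 5) (nat_lit 431) (nat_lit 5) (nat_lit 432) (nat_lit 5) (nat_lit 580) (nat_lit 543) (nat_lit 437))) (XT.nd (nat_lit 78) (nat_lit 1824) (nat_lit 0) (XT.lf (nat_lit 0) (nat_lit 7573718563) (nat_lit 912) (nat_lit 1739548809) (nat_lit 76) (nat_lit 784570090) (nat_lit 420) (nat_lit 5) (nat_lit 432) (nat_lit 5) (nat_lit 421) (nat_lit 5) (nat_lit 581) (nat_lit 543) (nat_lit 436)) (XT.nd (nat_lit 78) (nat_lit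 912) (nat_lit 0) (XT.lf (nat_lit 0) (nat_lit 4298531043) (nat_lit 912) (nat_lit 5310127257) (nat_lit 988) (nat_lit 587788042) (nat_lit 408) (nat_lit 5) (nat_lit 420) (nat_lit 5) (nat_lit 421) (nat_lit 5) (nat_lit 582) (nat_lit 543) (nat_lit 435)) (XT.lf (nat_lit 0) (nat_lit 155396238) (nat_lit 836) (nat_lit 1205294301) (nat_lit 912) (nat_lit 8936325011) (nat_lit 396) (nat_lit 5) (nat_lit 407) (nat_lit 5) (nat_lit 408) (nat_lit 5) (nat_lit 583) (nat_lit 543) (nat_lit 434))))) (XT.nd (nat_lit 156) (nat_lit 1596) (nat_lit 0) (XT.nd (nat_lit 78) (nat_lit 836) (nat_lit 0) (XT.lf (nat_lit 0) (nat_lit 3378600367) (nat_lit 912) (nat_lit 4034582853) (nat_lit 76) (nat_lit 2985569163) (nat_lit 396) (nat_lit 5) (nat_lit 408) (nat_lit 5) (nat_lit 397) (nat_lit 5) (nat_lit 584) (nat_lit 543) (nat_lit 433)) (XT.lf (nat_lit 0) (nat_lit 2193829249) (nat_lit 836) (nat_lit 3244800135) (nat_lit 912) (nat_lit 5063859927) (nat_lit 385) (nat_lit 5) (nat_lit 396) (nat_lit 5) (nat_lit 397) (nat_lit 5) (nat_lit 585) (nat_lit 543)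 (nat_lit 432))) (XT.nd (nat_lit 78) (nat_lit 1596) (nat_lit 0) (XT.lf (nat_lit 0) (nat_lit 7553439745) (nat_lit 912) (nat_lit 2034787571) (nat_lit 76) (nat_lit 1019802614) (nat_lit 385) (nat_lit 5) (nat_lit 397) (nat_lit 5) (nat_lit 386) (nat_lit 5) (nat_lit 586) (nat_lit 543) (nat_lit 431)) (XT.nd (nat_lit 78) (nat_lit 836) (nat_lit 0) (XT.lf (nat_lit 0) (nat_lit 4379123868) (nat_lit 760) (nat_lit 5361529144) (nat_lit 836) (nat_lit 974426770) (nat_lit 375) (nat_lit 5) (nat_lit 385) (nat_lit 5) (nat_lit 386) (nat_lit 5) (nat_lit 587) (nat_lit 543) (nat_lit 430)) (XT.lf (nat_lit 0) (nat_lit 97127871) (nat_lit 760) (nat_lit 1029846292) (nat_lit 836) (nat_lit 9697254379) (nat_lit 364) (nat_lit 5) (nat_lit 374) (nat_lit 5) (nat_lit 375) (nat_lit 5) (nat_lit 588) (nat_lit 543) (nat_lit 429))))))) (XT.nd (nat_lit 780) (nat_lit 3724) (nat_lit 0) (XT.nd (nat_lit 390) (nat_lit 2128) (nat_lit 0) (XT.nd (nat_lit 156) (nat_lit 1520) (nat_lit 0) (XT.nd (nat_lit 78) (nat_lit 760) (nat_lit 0) (XT.lf (nat_lit 0) (nat_lit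 3302708393) (nat_lit 836) (nat_lit 4240425833) (nat_lit 76) (nat_lit 3391390699) (nat_lit 364) (nat_lit 5) (nat_lit 375) (nat_lit 5) (nat_lit 365) (nat_lit 5) (nat_lit 589) (nat_lit 543) (nat_lit 428)) (XT.lf (nat_lit 0) (nat_lit 2379050409) (nat_lit 760) (nat_lit 3146096274) (nat_lit 836) (nat_lit 5521817278) (nat_lit 354) (nat_lit 5) (nat_lit 364) (nat_lit 5) (nat_lit 365) (nat_lit 5) (nat_lit 590) (nat_lit 543) (nat_lit 427))) (XT.nd (nat_lit 78) (nat_lit 1520) (nat_lit 0) (XT.lf (nat_lit 0) (nat_lit 7810514862) (nat_lit 836) (nat_lit 2003103302) (nat_lit 76) (nat_lit 1347664495) (nat_lit 354) (nat_lit 5) (nat_lit 365) (nat_lit 5) (nat_lit 355) (nat_lit 5) (nat_lit 591) (nat_lit 543) (nat_lit 426)) (XT.nd (nat_lit 78) (nat_lit 760) (nat_lit 0) (XT.lf (nat_lit 0) (nat_lit 4816220400) (nat_lit 760) (nat_lit 5358989168) (nat_lit 836) (nat_lit 1102006272) (nat_lit 344) (nat_lit 5) (nat_lit 354) (nat_lit 5) (nat_lit 355) (nat_lit 5) (nat_lit 592) (nat_lit 543) (nat_lit 425)) (XT.lf (nat_lit 0) (nat_lit 379820086)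 (nat_lit 684) (nat_lit 793896460) (nat_lit 760) (nat_lit 10221644547) (nat_lit 334) (nat_lit 5) (nat_lit 343) (nat_lit 5) (nat_lit 344) (nat_lit 5) (nat_lit 593) (nat_lit 543) (nat_lit 424))))) (XT.nd (nat_lit 156) (nat_lit 1444) (nat_lit 0) (XT.nd (nat_lit 78) (nat_lit 684) (nat_lit 0) (XT.lf (nat_lit 0) (nat_lit 3530756924) (nat_lit 760) (nat_lit 4124056950) (nat_lit 76) (nat_lit 3859898977) (nat_lit 334) (nat_lit 5) (nat_lit 344) (nat_lit 5) (nat_lit 335) (nat_lit 5) (nat_lit 594) (nat_lit 543) (nat_lit 423)) (XT.lf (nat_lit 0) (nat_lit 2917255441) (nat_lit 684) (nat_lit 3024060882) (nat_lit 760) (nat_lit 5695008212) (nat_lit 325) (nat_lit 5) (nat_lit 334) (nat_lit 5) (nat_lit 335) (nat_lit 5) (nat_lit 595) (nat_lit 543) (nat_lit 422))) (XT.nd (nat_lit 78) (nat_lit 1444) (nat_lit 0) (XT.lf (nat_lit 0) (nat_lit 8421350449) (nat_lit 760) (nat_lit 1636931813) (nat_lit 76) (nat_lit 1701661367) (nat_lit 325) (nat_lit 5) (nat_lit 335) (nat_lit 5) (nat_lit 326) (nat_lit 5) (nat_lit 596) (nat_lit 543) (nat_lit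 421)) (XT.nd (nat_lit 78) (nat_lit 760) (nat_lit 0) (XT.lf (nat_lit 0) (nat_lit 5619743595) (nat_lit 684) (nat_lit 5370473933) (nat_lit 760) (nat_lit 895033370) (nat_lit 316) (nat_lit 5) (nat_lit 325) (nat_lit 5) (nat_lit 326) (nat_lit 5) (nat_lit 597) (nat_lit 543) (nat_lit 420)) (XT.lf (nat_lit 0) (nat_lit 1012862879) (nat_lit 684) (nat_lit 564027773) (nat_lit 760) (nat_lit 10435957790) (nat_lit 306) (nat_lit 5) (nat_lit 315) (nat_lit 5) (nat_lit 316) (nat_lit 5) (nat_lit 598) (nat_lit 543) (nat_lit 419)))))) (XT.nd (nat_lit 390) (nat_lit 1824) (nat_lit 0) (XT.nd (nat_lit 156) (nat_lit 1292) (nat_lit 0) (XT.nd (nat_lit 78) (nat_lit 608) (nat_lit 0) (XT.lf (nat_lit 0) (nat_lit 4139759554) (nat_lit 760) (nat_lit 3675852847) (nat_lit 76) (nat_lit 4326197807) (nat_lit 306) (nat_lit 5) (nat_lit 316) (nat_lit 5) (nat_lit 307) (nat_lit 5) (nat_lit 599) (nat_lit 543) (nat_lit 418)) (XT.lf (nat_lit 0) (nat_lit 3820494168) (nat_lit 608) (nat_lit 2945253374) (nat_lit 684) (nat_lit 5507366838) (nat_lit 298) (nat_lit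 5) (nat_lit 306) (nat_lit 5) (nat_lit 307) (nat_lit 5) (nat_lit 600) (nat_lit 543) (nat_lit 417))) (XT.nd (nat_lit 78) (nat_lit 1292) (nat_lit 0) (XT.lf (nat_lit 0) (nat_lit 9465706113) (nat_lit 684) (nat_lit 924058626) (nat_lit 76) (nat_lit 2016851277) (nat_lit 298) (nat_lit 5) (nat_lit 307) (nat_lit 5) (nat_lit 299) (nat_lit 5) (nat_lit 601) (nat_lit 543) (nat_lit 416)) (XT.nd (nat_lit 78) (nat_lit 684) (nat_lit 0) (XT.lf (nat_lit 0) (nat_lit 6804410513) (nat_lit 608) (nat_lit 5462749883) (nat_lit 684) (nat_lit 274677747) (nat_lit 290) (nat_lit 5) (nat_lit 298) (nat_lit 5) (nat_lit 299) (nat_lit 5) (nat_lit 602) (nat_lit 543) (nat_lit 415)) (XT.lf (nat_lit 0) (nat_lit 2010304880) (nat_lit 608) (nat_lit 405695640) (nat_lit 684) (nat_lit 10263383360) (nat_lit 281) (nat_lit 5) (nat_lit 289) (nat_lit 5) (nat_lit 290) (nat_lit 5) (nat_lit 603) (nat_lit 543) (nat_lit 414))))) (XT.nd (nat_lit 234) (nat_lit 684) (nat_lit 0) (XT.nd (nat_lit 78) (nat_lit 1140) (nat_lit 0) (XT.lf (nat_lit 0) (nat_lit 5210477687)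 (nat_lit 684) (nat_lit 2881711928) (nat_lit 76) (nat_lit 4726381705) (nat_lit 281) (nat_lit 5) (nat_lit 290) (nat_lit 5) (nat_lit 282) (nat_lit 5) (nat_lit 604) (nat_lit 543) (nat_lit 413)) (XT.nd (nat_lit 78) (nat_lit 532) (nat_lit 0) (XT.lf (nat_lit 0) (nat_lit 5105443798) (nat_lit 608) (nat_lit 2975595366) (nat_lit 684) (nat_lit 4879099811) (nat_lit 273) (nat_lit 5) (nat_lit 281) (nat_lit 5) (nat_lit 282) (nat_lit 5) (nat_lit 605) (nat_lit 543) (nat_lit 412)) (XT.lf (nat_lit 0) (nat_lit 154205740) (nat_lit 532) (nat_lit 10874344601) (nat_lit 608) (nat_lit 2075597224) (nat_lit 266) (nat_lit 5) (nat_lit 273) (nat_lit 5) (nat_lit 274) (nat_lit 5) (nat_lit 606) (nat_lit 543) (nat_lit 411)))) (XT.nd (nat_lit 78) (nat_lit 608) (nat_lit 0) (XT.lf (nat_lit 0) (nat_lit 831034335) (nat_lit 608) (nat_lit 4865818553) (nat_lit 76) (nat_lit 7552935156) (nat_lit 265) (nat_lit 5) (nat_lit 273) (nat_lit 5) (nat_lit 266) (nat_lit 5) (nat_lit 607) (nat_lit 543) (nat_lit 410)) (XT.nd (nat_lit 78) (nat_lit 0) (nat_lit 0)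 (XT.lf (nat_lit 0) (nat_lit 3390663153) (nat_lit 608) (nat_lit 384262721) (nat_lit 684) (nat_lit 9623003007) (nat_lit 257) (nat_lit 5) (nat_lit 265) (nat_lit 5) (nat_lit 266) (nat_lit 5) (nat_lit 608) (nat_lit 543) (nat_lit 409)) (XT.lf (nat_lit 0) (nat_lit 6828265660) (nat_lit 684) (nat_lit 1723234413) (nat_lit 76) (nat_lit 4996521377) (nat_lit 257) (nat_lit 5) (nat_lit 266) (nat_lit 5) (nat_lit 258) (nat_lit 5) (nat_lit 609) (nat_lit 543) (nat_lit 408))))))))
noncomputable def xc116 : XT := (XT.nd (nat_lit 77220) (nat_lit 0) (nat_lit 14820) (XT.nd (nat_lit 76440) (nat_lit 0) (nat_lit 27512) (XT.nd (nat_lit 76050) (nat_lit 0) (nat_lit 30096) (XT.nd (nat_lit 156) (nat_lit 532) (nat_lit 0) (XT.nd (nat_lit 78) (nat_lit 532) (nat_lit 0) (XT.lf (nat_lit 0) (nat_lit 6793240249) (nat_lit 532) (nat_lit 3181390986) (nat_lit 608) (nat_lit 3725845775) (nat_lit 250) (nat_lit 5) (nat_lit 257) (nat_lit 5) (nat_lit 258) (nat_lit 5) (nat_lit 610) (nat_lit 543) (nat_lit 407)) (XT.lf (nat_lit 0) (nat_lit 1634186478) (nat_lit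 532) (nat_lit 11572331356) (nat_lit 608) (nat_lit 649012286) (nat_lit 243) (nat_lit 5) (nat_lit 250) (nat_lit 5) (nat_lit 251) (nat_lit 5) (nat_lit 611) (nat_lit 543) (nat_lit 406))) (XT.nd (nat_lit 78) (nat_lit 456) (nat_lit 0) (XT.lf (nat_lit 0) (nat_lit 2509933048) (nat_lit 608) (nat_lit 3630204587) (nat_lit 76) (nat_lit 7872159235) (nat_lit 242) (nat_lit 5) (nat_lit 250) (nat_lit 5) (nat_lit 243) (nat_lit 5) (nat_lit 612) (nat_lit 543) (nat_lit 405)) (XT.nd (nat_lit 78) (nat_lit 0) (nat_lit 0) (XT.lf (nat_lit 0) (nat_lit 5176768526) (nat_lit 456) (nat_lit 565998589) (nat_lit 532) (nat_lit 8428958335) (nat_lit 236) (nat_lit 5) (nat_lit 242) (nat_lit 5) (nat_lit 243) (nat_lit 5) (nat_lit 613) (nat_lit 543) (nat_lit 404)) (XT.lf (nat_lit 0) (nat_lit 9083918219) (nat_lit 532) (nat_lit 177869883) (nat_lit 76) (nat_lit 5071681579) (nat_lit 236) (nat_lit 5) (nat_lit 243) (nat_lit 5) (nat_lit 237) (nat_lit 5) (nat_lit 614) (nat_lit 543) (nat_lit 403))))) (XT.nd (nat_lit 156) (nat_lit 0) (nat_lit 0) (XT.nd (nat_lit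 78) (nat_lit 0) (nat_lit 0) (XT.lf (nat_lit 0) (nat_lit 72304002) (nat_lit 0) (nat_lit 72304002) (nat_lit 1292) (nat_lit 3623811704) (nat_lit 632) (nat_lit 5) (nat_lit 632) (nat_lit 3) (nat_lit 649) (nat_lit 3) (nat_lit 544) (nat_lit 544) (nat_lit 472)) (XT.lf (nat_lit 0) (nat_lit 1752519463) (nat_lit 1292) (nat_lit 3641889050) (nat_lit 1368) (nat_lit 2188537364) (nat_lit 632) (nat_lit 5) (nat_lit 649) (nat_lit 3) (nat_lit 650) (nat_lit 5) (nat_lit 545) (nat_lit 544) (nat_lit 471))) (XT.nd (nat_lit 78) (nat_lit 0) (nat_lit 0) (XT.lf (nat_lit 76) (nat_lit 164816236) (nat_lit 0) (nat_lit 3044494205) (nat_lit 1368) (nat_lit 4421381004) (nat_lit 633) (nat_lit 5) (nat_lit 632) (nat_lit 5) (nat_lit 650) (nat_lit 5) (nat_lit 546) (nat_lit 544) (nat_lit 470)) (XT.nd (nat_lit 78) (nat_lit 0) (nat_lit 76) (XT.lf (nat_lit 76) (nat_lit 4077305121) (nat_lit 0) (nat_lit 605178083) (nat_lit 1368) (nat_lit 2997165182) (nat_lit 633) (nat_lit 5) (nat_lit 632) (nat_lit 5) (nat_lit 650) (nat_lit 5) (nat_lit 547) (nat_lit 544)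 (nat_lit 469)) (XT.lf (nat_lit 76) (nat_lit 310128991) (nat_lit 0) (nat_lit 5852876675) (nat_lit 1368) (nat_lit 1567022430) (nat_lit 634) (nat_lit 5) (nat_lit 633) (nat_lit 5) (nat_lit 651) (nat_lit 5) (nat_lit 548) (nat_lit 544) (nat_lit 468)))))) (XT.nd (nat_lit 390) (nat_lit 1292) (nat_lit 0) (XT.nd (nat_lit 156) (nat_lit 0) (nat_lit 76) (XT.nd (nat_lit 78) (nat_lit 1368) (nat_lit 0) (XT.lf (nat_lit 76) (nat_lit 4325580529) (nat_lit 0) (nat_lit 3339943272) (nat_lit 1368) (nat_lit 116045222) (nat_lit 634) (nat_lit 5) (nat_lit 633) (nat_lit 5) (nat_lit 651) (nat_lit 5) (nat_lit 549) (nat_lit 544) (nat_lit 467)) (XT.lf (nat_lit 76) (nat_lit 565645901) (nat_lit 0) (nat_lit 748787720) (nat_lit 1444) (nat_lit 6520163898) (nat_lit 616) (nat_lit 5) (nat_lit 615) (nat_lit 5) (nat_lit 634) (nat_lit 5) (nat_lit 550) (nat_lit 544) (nat_lit 466))) (XT.nd (nat_lit 78) (nat_lit 0) (nat_lit 0) (XT.lf (nat_lit 0) (nat_lit 2772969331) (nat_lit 1368) (nat_lit 3207660164) (nat_lit 1444) (nat_lit 1908022978) (nat_lit 616)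 (nat_lit 5) (nat_lit 634) (nat_lit 5) (nat_lit 635) (nat_lit 5) (nat_lit 551) (nat_lit 544) (nat_lit 465)) (XT.nd (nat_lit 78) (nat_lit 0) (nat_lit 0) (XT.lf (nat_lit 76) (nat_lit 921616023) (nat_lit 0) (nat_lit 3316037871) (nat_lit 1444) (nat_lit 3706596295) (nat_lit 617) (nat_lit 5) (nat_lit 616) (nat_lit 5) (nat_lit 635) (nat_lit 5) (nat_lit 552) (nat_lit 544) (nat_lit 464)) (XT.lf (nat_lit 76) (nat_lit 5156723025) (nat_lit 0) (nat_lit 563004340) (nat_lit 1444) (nat_lit 2281471793) (nat_lit 617) (nat_lit 5) (nat_lit 616) (nat_lit 5) (nat_lit 635) (nat_lit 5) (nat_lit 553) (nat_lit 544) (nat_lit 463))))) (XT.nd (nat_lit 156) (nat_lit 0) (nat_lit 0) (XT.nd (nat_lit 78) (nat_lit 1444) (nat_lit 0) (XT.lf (nat_lit 76) (nat_lit 1400456416) (nat_lit 0) (nat_lit 5821964796) (nat_lit 1444) (nat_lit 837047494) (nat_lit 618) (nat_lit 5) (nat_lit 617) (nat_lit 5) (nat_lit 636) (nat_lit 5) (nat_lit 554) (nat_lit 544) (nat_lit 462)) (XT.lf (nat_lit 0) (nat_lit 618466991) (nat_lit 1444) (nat_lit 2378538165) (nat_lit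 1520) (nat_lit 5122006073) (nat_lit 598) (nat_lit 5) (nat_lit 617) (nat_lit 5) (nat_lit 618) (nat_lit 5) (nat_lit 555) (nat_lit 544) (nat_lit 461))) (XT.nd (nat_lit 78) (nat_lit 0) (nat_lit 76) (XT.lf (nat_lit 76) (nat_lit 1987603642) (nat_lit 0) (nat_lit 85434189) (nat_lit 1520) (nat_lit 6106974143) (nat_lit 599) (nat_lit 5) (nat_lit 598) (nat_lit 5) (nat_lit 618) (nat_lit 5) (nat_lit 556) (nat_lit 544) (nat_lit 460)) (XT.nd (nat_lit 78) (nat_lit 0) (nat_lit 0) (XT.lf (nat_lit 0) (nat_lit 3560294863) (nat_lit 1444) (nat_lit 1808465540) (nat_lit 1520) (nat_lit 2873401523) (nat_lit 599) (nat_lit 5) (nat_lit 618) (nat_lit 5) (nat_lit 619) (nat_lit 5) (nat_lit 557) (nat_lit 544) (nat_lit 459)) (XT.lf (nat_lit 76) (nat_lit 2677083998) (nat_lit 0) (nat_lit 2387572580) (nat_lit 1520) (nat_lit 3241152175) (nat_lit 600) (nat_lit 5) (nat_lit 599) (nat_lit 5) (nat_lit 619) (nat_lit 5) (nat_lit 558) (nat_lit 544) (nat_lit 458))))))) (XT.nd (nat_lit 780) (nat_lit 9880) (nat_lit 0) (XT.nd (nat_lit 390) (nat_lit 1444)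 (nat_lit 0) (XT.nd (nat_lit 156) (nat_lit 1520) (nat_lit 0) (XT.nd (nat_lit 78) (nat_lit 0) (nat_lit 0) (XT.lf (nat_lit 0) (nat_lit 6585504633) (nat_lit 1444) (nat_lit 1119095853) (nat_lit 1520) (nat_lit 666401097) (nat_lit 600) (nat_lit 5) (nat_lit 619) (nat_lit 5) (nat_lit 620) (nat_lit 5) (nat_lit 559) (nat_lit 544) (nat_lit 457)) (XT.lf (nat_lit 76) (nat_lit 3489952724) (nat_lit 0) (nat_lit 4655818848) (nat_lit 1520) (nat_lit 291547686) (nat_lit 601) (nat_lit 5) (nat_lit 600) (nat_lit 5) (nat_lit 620) (nat_lit 5) (nat_lit 560) (nat_lit 544) (nat_lit 456))) (XT.nd (nat_lit 78) (nat_lit 0) (nat_lit 76) (XT.lf (nat_lit 0) (nat_lit 1194460421) (nat_lit 1520) (nat_lit 327497099) (nat_lit 1596) (nat_lit 6983279907) (nat_lit 580) (nat_lit 5) (nat_lit 600) (nat_lit 5) (nat_lit 601) (nat_lit 5) (nat_lit 561) (nat_lit 544) (nat_lit 455)) (XT.nd (nat_lit 78) (nat_lit 0) (nat_lit 0) (XT.lf (nat_lit 0) (nat_lit 2717470256) (nat_lit 1520) (nat_lit 4165365746) (nat_lit 1596) (nat_lit 1691416675) (nat_lit 581) (nat_lit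 5) (nat_lit 601) (nat_lit 5) (nat_lit 602) (nat_lit 5) (nat_lit 562) (nat_lit 544) (nat_lit 454)) (XT.lf (nat_lit 76) (nat_lit 576243125) (nat_lit 0) (nat_lit 3682564288) (nat_lit 1596) (nat_lit 4386084424) (nat_lit 582) (nat_lit 5) (nat_lit 581) (nat_lit 5) (nat_lit 602) (nat_lit 5) (nat_lit 563) (nat_lit 544) (nat_lit 453))))) (XT.nd (nat_lit 156) (nat_lit 1520) (nat_lit 0) (XT.nd (nat_lit 78) (nat_lit 0) (nat_lit 76) (XT.lf (nat_lit 76) (nat_lit 5448230980) (nat_lit 0) (nat_lit 382942949) (nat_lit 1596) (nat_lit 2885766728) (nat_lit 582) (nat_lit 5) (nat_lit 581) (nat_lit 5) (nat_lit 602) (nat_lit 5) (nat_lit 564) (nat_lit 544) (nat_lit 452)) (XT.lf (nat_lit 76) (nat_lit 1607855759) (nat_lit 0) (nat_lit 5829775177) (nat_lit 1596) (nat_lit 1352747565) (nat_lit 583) (nat_lit 5) (nat_lit 582) (nat_lit 5) (nat_lit 603) (nat_lit 5) (nat_lit 565) (nat_lit 544) (nat_lit 451))) (XT.nd (nat_lit 78) (nat_lit 0) (nat_lit 76) (XT.lf (nat_lit 0) (nat_lit 205838449) (nat_lit 1596) (nat_lit 2263950879) (nat_lit 1672)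 (nat_lit 6395515803) (nat_lit 561) (nat_lit 5) (nat_lit 582) (nat_lit 5) (nat_lit 583) (nat_lit 5) (nat_lit 566) (nat_lit 544) (nat_lit 450)) (XT.nd (nat_lit 78) (nat_lit 0) (nat_lit 0) (XT.lf (nat_lit 0) (nat_lit 1775430163) (nat_lit 1596) (nat_lit 6188825384) (nat_lit 76) (nat_lit 977337827) (nat_lit 562) (nat_lit 5) (nat_lit 583) (nat_lit 5) (nat_lit 563) (nat_lit 5) (nat_lit 567) (nat_lit 544) (nat_lit 449)) (XT.lf (nat_lit 0) (nat_lit 3382065344) (nat_lit 1596) (nat_lit 1156365361) (nat_lit 76) (nat_lit 4480864485) (nat_lit 562) (nat_lit 5) (nat_lit 583) (nat_lit 5) (nat_lit 563) (nat_lit 5) (nat_lit 568) (nat_lit 544) (nat_lit 448)))))) (XT.nd (nat_lit 390) (nat_lit 4864) (nat_lit 0) (XT.nd (nat_lit 156) (nat_lit 1824) (nat_lit 0) (XT.nd (nat_lit 78) (nat_lit 1672) (nat_lit 0) (XT.lf (nat_lit 0) (nat_lit 4008418240) (nat_lit 1596) (nat_lit 1012952551) (nat_lit 1672) (nat_lit 4077170326) (nat_lit 541) (nat_lit 5) (nat_lit 562) (nat_lit 5) (nat_lit 563) (nat_lit 5) (nat_lit 569) (nat_lit 544) (nat_lit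 447)) (XT.lf (nat_lit 0) (nat_lit 75837170) (nat_lit 1672) (nat_lit 6617605110) (nat_lit 1748) (nat_lit 2485930893) (nat_lit 519) (nat_lit 5) (nat_lit 541) (nat_lit 5) (nat_lit 542) (nat_lit 5) (nat_lit 570) (nat_lit 544) (nat_lit 446))) (XT.nd (nat_lit 78) (nat_lit 1824) (nat_lit 0) (XT.lf (nat_lit 0) (nat_lit 5386166137) (nat_lit 1672) (nat_lit 3028870909) (nat_lit 1748) (nat_lit 846463980) (nat_lit 519) (nat_lit 5) (nat_lit 541) (nat_lit 5) (nat_lit 542) (nat_lit 5) (nat_lit 571) (nat_lit 544) (nat_lit 445)) (XT.nd (nat_lit 78) (nat_lit 0) (nat_lit 0) (XT.lf (nat_lit 0) (nat_lit 804181010) (nat_lit 1824) (nat_lit 7899660968) (nat_lit 76) (nat_lit 641538607) (nat_lit 495) (nat_lit 5) (nat_lit 519) (nat_lit 5) (nat_lit 496) (nat_lit 5) (nat_lit 572) (nat_lit 544) (nat_lit 444)) (XT.lf (nat_lit 0) (nat_lit 2498699185) (nat_lit 1824) (nat_lit 2551953328) (nat_lit 76) (nat_lit 4379730177) (nat_lit 495) (nat_lit 5) (nat_lit 519) (nat_lit 5) (nat_lit 496) (nat_lit 5) (nat_lit 573) (nat_lit 544) (nat_lit 443)))))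 (XT.nd (nat_lit 234) (nat_lit 1900) (nat_lit 0) (XT.nd (nat_lit 78) (nat_lit 1140) (nat_lit 0) (XT.lf (nat_lit 0) (nat_lit 2919999475) (nat_lit 1824) (nat_lit 1302485780) (nat_lit 1900) (nat_lit 5294692765) (nat_lit 471) (nat_lit 5) (nat_lit 495) (nat_lit 5) (nat_lit 496) (nat_lit 5) (nat_lit 574) (nat_lit 544) (nat_lit 442)) (XT.nd (nat_lit 78) (nat_lit 1140) (nat_lit 0) (XT.lf (nat_lit 0) (nat_lit 5991112449) (nat_lit 1900) (nat_lit 1107210542) (nat_lit 76) (nat_lit 2507179676) (nat_lit 471) (nat_lit 5) (nat_lit 496) (nat_lit 5) (nat_lit 472) (nat_lit 5) (nat_lit 575) (nat_lit 544) (nat_lit 441)) (XT.lf (nat_lit 0) (nat_lit 4522312207) (nat_lit 1140) (nat_lit 3288004569) (nat_lit 1216) (nat_lit 1884973644) (nat_lit 456) (nat_lit 5) (nat_lit 471) (nat_lit 5) (nat_lit 472) (nat_lit 5) (nat_lit 576) (nat_lit 544) (nat_lit 440)))) (XT.nd (nat_lit 78) (nat_lit 988) (nat_lit 0) (XT.lf (nat_lit 0) (nat_lit 473733377) (nat_lit 912) (nat_lit 9184152402) (nat_lit 988) (nat_lit 129149228) (nat_lit 444) (nat_lit 5)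 (nat_lit 456) (nat_lit 5) (nat_lit 457) (nat_lit 5) (nat_lit 577) (nat_lit 544) (nat_lit 439)) (XT.nd (nat_lit 78) (nat_lit 912) (nat_lit 0) (XT.lf (nat_lit 0) (nat_lit 1674410693) (nat_lit 988) (nat_lit 3630624539) (nat_lit 76) (nat_lit 4574675854) (nat_lit 443) (nat_lit 5) (nat_lit 456) (nat_lit 5) (nat_lit 444) (nat_lit 5) (nat_lit 578) (nat_lit 544) (nat_lit 438)) (XT.lf (nat_lit 0) (nat_lit 2172350992) (nat_lit 912) (nat_lit 1332200365) (nat_lit 988) (nat_lit 6469828129) (nat_lit 431) (nat_lit 5) (nat_lit 443) (nat_lit 5) (nat_lit 444) (nat_lit 5) (nat_lit 579) (nat_lit 544) (nat_lit 437))))))))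
noncomputable def xc117 : XT := (XT.nd (nat_lit 1560) (nat_lit 4864) (nat_lit 0) (XT.nd (nat_lit 780) (nat_lit 4408) (nat_lit 0) (XT.nd (nat_lit 390) (nat_lit 2432) (nat_lit 0) (XT.nd (nat_lit 156) (nat_lit 1824) (nat_lit 0) (XT.nd (nat_lit 78) (nat_lit 836) (nat_lit 0) (XT.lf (nat_lit 0) (nat_lit 5391911176) (nat_lit 988) (nat_lit 1968965146) (nat_lit 76) (nat_lit 2709653244) (nat_lit 431) (nat_lit 5) (nat_lit 444) (nat_lit 5) (nat_lit 432) (nat_lit 5) (nat_lit 580) (nat_lit 544) (nat_lit 436)) (XT.lf (nat_lit 0) (nat_lit 4003572680) (nat_lit 836) (nat_lit 3327115755) (nat_lit 912) (nat_lit 2837641433) (nat_lit 420) (nat_lit 5) (nat_lit 431) (nat_lit 5) (nat_lit 432) (nat_lit 5) (nat_lit 581) (nat_lit 544) (nat_lit 435))) (XT.nd (nat_lit 78) (nat_lit 1824) (nat_lit 0) (XT.lf (nat_lit 0) (nat_lit 9305788079) (nat_lit 912) (nat_lit 171923442) (nat_lit 76) (nat_lit 790424332) (nat_lit 420) (nat_lit 5) (nat_lit 432) (nat_lit 5) (nat_lit 421) (nat_lit 5) (nat_lit 582) (nat_lit 544) (nat_lit 434)) (XT.nd (nat_lit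 78) (nat_lit 836) (nat_lit 0) (XT.lf (nat_lit 0) (nat_lit 978633574) (nat_lit 988) (nat_lit 4399193536) (nat_lit 76) (nat_lit 4991175074) (nat_lit 407) (nat_lit 5) (nat_lit 420) (nat_lit 5) (nat_lit 408) (nat_lit 5) (nat_lit 583) (nat_lit 544) (nat_lit 433)) (XT.lf (nat_lit 0) (nat_lit 1760681152) (nat_lit 836) (nat_lit 1177149371) (nat_lit 912) (nat_lit 7534083039) (nat_lit 396) (nat_lit 5) (nat_lit 407) (nat_lit 5) (nat_lit 408) (nat_lit 5) (nat_lit 584) (nat_lit 544) (nat_lit 432))))) (XT.nd (nat_lit 156) (nat_lit 1596) (nat_lit 0) (XT.nd (nat_lit 78) (nat_lit 836) (nat_lit 0) (XT.lf (nat_lit 0) (nat_lit 4966040432) (nat_lit 912) (nat_lit 2514411725) (nat_lit 76) (nat_lit 3095834995) (nat_lit 396) (nat_lit 5) (nat_lit 408) (nat_lit 5) (nat_lit 397) (nat_lit 5) (nat_lit 585) (nat_lit 544) (nat_lit 431)) (XT.lf (nat_lit 0) (nat_lit 3828036628) (nat_lit 836) (nat_lit 3219757550) (nat_lit 912) (nat_lit 3634694999) (nat_lit 385) (nat_lit 5) (nat_lit 396) (nat_lit 5) (nat_lit 397) (nat_lit 5) (nat_lit 586)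 (nat_lit 544) (nat_lit 430))) (XT.nd (nat_lit 78) (nat_lit 1596) (nat_lit 0) (XT.lf (nat_lit 0) (nat_lit 9176053782) (nat_lit 912) (nat_lit 487447270) (nat_lit 76) (nat_lit 1127217320) (nat_lit 385) (nat_lit 5) (nat_lit 397) (nat_lit 5) (nat_lit 386) (nat_lit 5) (nat_lit 587) (nat_lit 544) (nat_lit 429)) (XT.nd (nat_lit 78) (nat_lit 760) (nat_lit 0) (XT.lf (nat_lit 0) (nat_lit 481716229) (nat_lit 836) (nat_lit 4859156646) (nat_lit 76) (nat_lit 5559345993) (nat_lit 374) (nat_lit 5) (nat_lit 385) (nat_lit 5) (nat_lit 375) (nat_lit 5) (nat_lit 588) (nat_lit 544) (nat_lit 428)) (XT.lf (nat_lit 0) (nat_lit 1685628650) (nat_lit 760) (nat_lit 908103786) (nat_lit 836) (nat_lit 8418057429) (nat_lit 364) (nat_lit 5) (nat_lit 374) (nat_lit 5) (nat_lit 375) (nat_lit 5) (nat_lit 589) (nat_lit 544) (nat_lit 427)))))) (XT.nd (nat_lit 390) (nat_lit 2128) (nat_lit 0) (XT.nd (nat_lit 156) (nat_lit 1520) (nat_lit 0) (XT.nd (nat_lit 78) (nat_lit 760) (nat_lit 0) (XT.lf (nat_lit 0) (nat_lit 4785569377) (nat_lit 836) (nat_lit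 2742335029) (nat_lit 76) (nat_lit 3596936772) (nat_lit 364) (nat_lit 5) (nat_lit 375) (nat_lit 5) (nat_lit 365) (nat_lit 5) (nat_lit 590) (nat_lit 544) (nat_lit 426)) (XT.lf (nat_lit 0) (nat_lit 3999116927) (nat_lit 760) (nat_lit 3035768598) (nat_lit 836) (nat_lit 4204995634) (nat_lit 354) (nat_lit 5) (nat_lit 364) (nat_lit 5) (nat_lit 365) (nat_lit 5) (nat_lit 591) (nat_lit 544) (nat_lit 425))) (XT.nd (nat_lit 78) (nat_lit 1520) (nat_lit 0) (XT.lf (nat_lit 0) (nat_lit 9339627865) (nat_lit 836) (nat_lit 475143075) (nat_lit 76) (nat_lit 1542242688) (nat_lit 354) (nat_lit 5) (nat_lit 365) (nat_lit 5) (nat_lit 355) (nat_lit 5) (nat_lit 592) (nat_lit 544) (nat_lit 424)) (XT.nd (nat_lit 78) (nat_lit 684) (nat_lit 0) (XT.lf (nat_lit 0) (nat_lit 255808594) (nat_lit 836) (nat_lit 5007034097) (nat_lit 76) (nat_lit 6212725961) (nat_lit 343) (nat_lit 5) (nat_lit 354) (nat_lit 5) (nat_lit 344) (nat_lit 5) (nat_lit 593) (nat_lit 544) (nat_lit 423)) (XT.lf (nat_lit 0) (nat_lit 1952932033) (nat_lit 684) (nat_lit 592769211)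 (nat_lit 760) (nat_lit 9050562347) (nat_lit 334) (nat_lit 5) (nat_lit 343) (nat_lit 5) (nat_lit 344) (nat_lit 5) (nat_lit 594) (nat_lit 544) (nat_lit 422))))) (XT.nd (nat_lit 156) (nat_lit 1444) (nat_lit 0) (XT.nd (nat_lit 78) (nat_lit 684) (nat_lit 0) (XT.lf (nat_lit 0) (nat_lit 4924822364) (nat_lit 760) (nat_lit 2646625022) (nat_lit 76) (nat_lit 4147056875) (nat_lit 334) (nat_lit 5) (nat_lit 344) (nat_lit 5) (nat_lit 335) (nat_lit 5) (nat_lit 595) (nat_lit 544) (nat_lit 421)) (XT.lf (nat_lit 0) (nat_lit 4525251031) (nat_lit 684) (nat_lit 2842453274) (nat_lit 760) (nat_lit 4475162311) (nat_lit 325) (nat_lit 5) (nat_lit 334) (nat_lit 5) (nat_lit 335) (nat_lit 5) (nat_lit 596) (nat_lit 544) (nat_lit 420))) (XT.nd (nat_lit 78) (nat_lit 1444) (nat_lit 0) (XT.lf (nat_lit 0) (nat_lit 9873241631) (nat_lit 760) (nat_lit 126275264) (nat_lit 76) (nat_lit 1969923797) (nat_lit 325) (nat_lit 5) (nat_lit 335) (nat_lit 5) (nat_lit 326) (nat_lit 5) (nat_lit 597) (nat_lit 544) (nat_lit 419)) (XT.nd (nat_lit 78) (nat_lit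 684) (nat_lit 0) (XT.lf (nat_lit 0) (nat_lit 375722781) (nat_lit 760) (nat_lit 4834651090) (nat_lit 76) (nat_lit 6887135657) (nat_lit 315) (nat_lit 5) (nat_lit 325) (nat_lit 5) (nat_lit 316) (nat_lit 5) (nat_lit 598) (nat_lit 544) (nat_lit 418)) (XT.lf (nat_lit 0) (nat_lit 2573160182) (nat_lit 684) (nat_lit 296917760) (nat_lit 760) (nat_lit 9357763829) (nat_lit 306) (nat_lit 5) (nat_lit 315) (nat_lit 5) (nat_lit 316) (nat_lit 5) (nat_lit 599) (nat_lit 544) (nat_lit 417))))))) (XT.nd (nat_lit 780) (nat_lit 1140) (nat_lit 0) (XT.nd (nat_lit 390) (nat_lit 1824) (nat_lit 0) (XT.nd (nat_lit 156) (nat_lit 1292) (nat_lit 0) (XT.nd (nat_lit 78) (nat_lit 608) (nat_lit 0) (XT.lf (nat_lit 0) (nat_lit 5461238051) (nat_lit 760) (nat_lit 2216530503) (nat_lit 76) (nat_lit 4682074142) (nat_lit 306) (nat_lit 5) (nat_lit 316) (nat_lit 5) (nat_lit 307) (nat_lit 5) (nat_lit 600) (nat_lit 544) (nat_lit 416)) (XT.lf (nat_lit 0) (nat_lit 5419658983) (nat_lit 608) (nat_lit 2705685644) (nat_lit 684) (nat_lit 4368716938) (nat_lit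 298) (nat_lit 5) (nat_lit 306) (nat_lit 5) (nat_lit 307) (nat_lit 5) (nat_lit 601) (nat_lit 544) (nat_lit 415))) (XT.nd (nat_lit 78) (nat_lit 684) (nat_lit 0) (XT.lf (nat_lit 0) (nat_lit 580099835) (nat_lit 608) (nat_lit 10280863280) (nat_lit 684) (nat_lit 1769637481) (nat_lit 290) (nat_lit 5) (nat_lit 298) (nat_lit 5) (nat_lit 299) (nat_lit 5) (nat_lit 602) (nat_lit 544) (nat_lit 414)) (XT.nd (nat_lit 78) (nat_lit 608) (nat_lit 0) (XT.lf (nat_lit 0) (nat_lit 919777455) (nat_lit 684) (nat_lit 4329367301) (nat_lit 76) (nat_lit 7519613284) (nat_lit 289) (nat_lit 5) (nat_lit 298) (nat_lit 5) (nat_lit 290) (nat_lit 5) (nat_lit 603) (nat_lit 544) (nat_lit 413)) (XT.lf (nat_lit 0) (nat_lit 3561494290) (nat_lit 608) (nat_lit 85454450) (nat_lit 684) (nat_lit 9262343037) (nat_lit 281) (nat_lit 5) (nat_lit 289) (nat_lit 5) (nat_lit 290) (nat_lit 5) (nat_lit 604) (nat_lit 544) (nat_lit 412))))) (XT.nd (nat_lit 156) (nat_lit 1216) (nat_lit 0) (XT.nd (nat_lit 78) (nat_lit 608) (nat_lit 0) (XT.lf (nat_lit 0) (nat_lit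 6476216759) (nat_lit 684) (nat_lit 1436864604) (nat_lit 76) (nat_lit 5138604111) (nat_lit 281) (nat_lit 5) (nat_lit 290) (nat_lit 5) (nat_lit 282) (nat_lit 5) (nat_lit 605) (nat_lit 544) (nat_lit 411)) (XT.lf (nat_lit 0) (nat_lit 6700149489) (nat_lit 608) (nat_lit 2690955816) (nat_lit 684) (nat_lit 3805241382) (nat_lit 273) (nat_lit 5) (nat_lit 281) (nat_lit 5) (nat_lit 282) (nat_lit 5) (nat_lit 606) (nat_lit 544) (nat_lit 410))) (XT.nd (nat_lit 78) (nat_lit 684) (nat_lit 0) (XT.lf (nat_lit 0) (nat_lit 1660690979) (nat_lit 532) (nat_lit 10726308913) (nat_lit 608) (nat_lit 956447406) (nat_lit 266) (nat_lit 5) (nat_lit 273) (nat_lit 5) (nat_lit 274) (nat_lit 5) (nat_lit 607) (nat_lit 544) (nat_lit 409)) (XT.nd (nat_lit 78) (nat_lit 608) (nat_lit 0) (XT.lf (nat_lit 0) (nat_lit 1970634899) (nat_lit 608) (nat_lit 3474263791) (nat_lit 76) (nat_lit 8047400866) (nat_lit 265) (nat_lit 5) (nat_lit 273) (nat_lit 5) (nat_lit 266) (nat_lit 5) (nat_lit 608) (nat_lit 544) (nat_lit 408)) (XT.lf (nat_lit 0) (nat_lit 4937552344)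 (nat_lit 608) (nat_lit 23435853) (nat_lit 684) (nat_lit 8682663817) (nat_lit 257) (nat_lit 5) (nat_lit 265) (nat_lit 5) (nat_lit 266) (nat_lit 5) (nat_lit 609) (nat_lit 544) (nat_lit 407)))))) (XT.nd (nat_lit 76206) (nat_lit 0) (nat_lit 28348) (XT.nd (nat_lit 156) (nat_lit 608) (nat_lit 0) (XT.nd (nat_lit 78) (nat_lit 532) (nat_lit 0) (XT.lf (nat_lit 0) (nat_lit 8055964729) (nat_lit 684) (nat_lit 288170918) (nat_lit 76) (nat_lit 5452999863) (nat_lit 257) (nat_lit 5) (nat_lit 266) (nat_lit 5) (nat_lit 258) (nat_lit 5) (nat_lit 610) (nat_lit 544) (nat_lit 406)) (XT.lf (nat_lit 0) (nat_lit 8388965289) (nat_lit 532) (nat_lit 2864375929) (nat_lit 608) (nat_lit 2699537756) (nat_lit 250) (nat_lit 5) (nat_lit 257) (nat_lit 5) (nat_lit 258) (nat_lit 5) (nat_lit 611) (nat_lit 544) (nat_lit 405))) (XT.nd (nat_lit 78) (nat_lit 0) (nat_lit 0) (XT.lf (nat_lit 0) (nat_lit 423816921) (nat_lit 608) (nat_lit 10977869453) (nat_lit 76) (nat_lit 2709475437) (nat_lit 242) (nat_lit 5) (nat_lit 250) (nat_lit 5) (nat_lit 243) (nat_lit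 5) (nat_lit 612) (nat_lit 544) (nat_lit 404)) (XT.nd (nat_lit 75894) (nat_lit 0) (nat_lit 29640) (XT.lf (nat_lit 0) (nat_lit 3616138868) (nat_lit 608) (nat_lit 2248295965) (nat_lit 76) (nat_lit 8406965942) (nat_lit 242) (nat_lit 5) (nat_lit 250) (nat_lit 5) (nat_lit 243) (nat_lit 5) (nat_lit 613) (nat_lit 544) (nat_lit 403)) (XT.lf (nat_lit 0) (nat_lit 792062355) (nat_lit 0) (nat_lit 792062355) (nat_lit 1292) (nat_lit 2230877541) (nat_lit 632) (nat_lit 5) (nat_lit 632) (nat_lit 3) (nat_lit 649) (nat_lit 3) (nat_lit 545) (nat_lit 545) (nat_lit 470))))) (XT.nd (nat_lit 234) (nat_lit 1292) (nat_lit 0) (XT.nd (nat_lit 78) (nat_lit 0) (nat_lit 0) (XT.lf (nat_lit 0) (nat_lit 4595336101) (nat_lit 1292) (nat_lit 2240683921) (nat_lit 1368) (nat_lit 842324820) (nat_lit 632) (nat_lit 5) (nat_lit 649) (nat_lit 3) (nat_lit 650) (nat_lit 5) (nat_lit 546) (nat_lit 545) (nat_lit 469)) (XT.nd (nat_lit 78) (nat_lit 0) (nat_lit 0) (XT.lf (nat_lit 76) (nat_lit 1632457820) (nat_lit 0) (nat_lit 4403258339) (nat_lit 1368) (nat_lit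 1692242148) (nat_lit 633) (nat_lit 5) (nat_lit 632) (nat_lit 5) (nat_lit 650) (nat_lit 5) (nat_lit 547) (nat_lit 545) (nat_lit 468)) (XT.lf (nat_lit 76) (nat_lit 5594483830) (nat_lit 0) (nat_lit 1889707380) (nat_lit 1368) (nat_lit 294788412) (nat_lit 633) (nat_lit 5) (nat_lit 632) (nat_lit 5) (nat_lit 650) (nat_lit 5) (nat_lit 548) (nat_lit 545) (nat_lit 467)))) (XT.nd (nat_lit 78) (nat_lit 0) (nat_lit 0) (XT.lf (nat_lit 0) (nat_lit 1096812847) (nat_lit 1368) (nat_lit 6033984430) (nat_lit 1444) (nat_lit 700458015) (nat_lit 615) (nat_lit 5) (nat_lit 633) (nat_lit 5) (nat_lit 634) (nat_lit 5) (nat_lit 549) (nat_lit 545) (nat_lit 466)) (XT.nd (nat_lit 78) (nat_lit 0) (nat_lit 0) (XT.lf (nat_lit 0) (nat_lit 2504963628) (nat_lit 1368) (nat_lit 2030285806) (nat_lit 1444) (nat_lit 3349436027) (nat_lit 615) (nat_lit 5) (nat_lit 633) (nat_lit 5) (nat_lit 634) (nat_lit 5) (nat_lit 550) (nat_lit 545) (nat_lit 465)) (XT.lf (nat_lit 76) (nat_lit 2061183463) (nat_lit 0) (nat_lit 1859545364) (nat_lit 1444) (nat_lit 4018867605)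 (nat_lit 616) (nat_lit 5) (nat_lit 615) (nat_lit 5) (nat_lit 634) (nat_lit 5) (nat_lit 551) (nat_lit 545) (nat_lit 464))))))))
noncomputable def xc118 : XT := (XT.nd (nat_lit 1560) (nat_lit 12540) (nat_lit 0) (XT.nd (nat_lit 780) (nat_lit 4560) (nat_lit 0) (XT.nd (nat_lit 390) (nat_lit 1368) (nat_lit 0) (XT.nd (nat_lit 156) (nat_lit 1444) (nat_lit 0) (XT.nd (nat_lit 78) (nat_lit 0) (nat_lit 0) (XT.lf (nat_lit 0) (nat_lit 5350871846) (nat_lit 1368) (nat_lit 1759036676) (nat_lit 1444) (nat_lit 885977052) (nat_lit 616) (nat_lit 5) (nat_lit 634) (nat_lit 5) (nat_lit 635) (nat_lit 5) (nat_lit 552) (nat_lit 545) (nat_lit 463)) (XT.lf (nat_lit 76) (nat_lit 2442872556) (nat_lit 0) (nat_lit 4362275207) (nat_lit 1444) (nat_lit 1248243315) (nat_lit 617) (nat_lit 5) (nat_lit 616) (nat_lit 5) (nat_lit 635) (nat_lit 5) (nat_lit 553) (nat_lit 545) (nat_lit 462))) (XT.nd (nat_lit 78) (nat_lit 0) (nat_lit 76) (XT.lf (nat_lit 0) (nat_lit 153684720) (nat_lit 1444) (nat_lit 1380250929) (nat_lit 1520) (nat_lit 6578498530) (nat_lit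 597) (nat_lit 5) (nat_lit 616) (nat_lit 5) (nat_lit 617) (nat_lit 5) (nat_lit 554) (nat_lit 545) (nat_lit 461)) (XT.nd (nat_lit 78) (nat_lit 0) (nat_lit 0) (XT.lf (nat_lit 0) (nat_lit 1563397755) (nat_lit 1444) (nat_lit 5236282399) (nat_lit 1520) (nat_lit 1372884873) (nat_lit 598) (nat_lit 5) (nat_lit 617) (nat_lit 5) (nat_lit 618) (nat_lit 5) (nat_lit 555) (nat_lit 545) (nat_lit 460)) (XT.lf (nat_lit 0) (nat_lit 2989648695) (nat_lit 1444) (nat_lit 906141499) (nat_lit 1520) (nat_lit 4338342514) (nat_lit 598) (nat_lit 5) (nat_lit 617) (nat_lit 5) (nat_lit 618) (nat_lit 5) (nat_lit 556) (nat_lit 545) (nat_lit 459))))) (XT.nd (nat_lit 156) (nat_lit 1444) (nat_lit 0) (XT.nd (nat_lit 78) (nat_lit 0) (nat_lit 76) (XT.lf (nat_lit 76) (nat_lit 3537323358) (nat_lit 0) (nat_lit 899540083) (nat_lit 1520) (nat_lit 3860220594) (nat_lit 599) (nat_lit 5) (nat_lit 598) (nat_lit 5) (nat_lit 618) (nat_lit 5) (nat_lit 557) (nat_lit 545) (nat_lit 458)) (XT.lf (nat_lit 0) (nat_lit 5903157850) (nat_lit 1444) (nat_lit 313487358)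 (nat_lit 1520) (nat_lit 2144847520) (nat_lit 599) (nat_lit 5) (nat_lit 618) (nat_lit 5) (nat_lit 619) (nat_lit 5) (nat_lit 558) (nat_lit 545) (nat_lit 457))) (XT.nd (nat_lit 78) (nat_lit 1520) (nat_lit 0) (XT.lf (nat_lit 76) (nat_lit 4251699833) (nat_lit 0) (nat_lit 3151240494) (nat_lit 1520) (nat_lit 1024167050) (nat_lit 600) (nat_lit 5) (nat_lit 599) (nat_lit 5) (nat_lit 619) (nat_lit 5) (nat_lit 559) (nat_lit 545) (nat_lit 456)) (XT.nd (nat_lit 78) (nat_lit 0) (nat_lit 76) (XT.lf (nat_lit 76) (nat_lit 400767797) (nat_lit 0) (nat_lit 7738599) (nat_lit 1596) (nat_lit 8085960431) (nat_lit 580) (nat_lit 5) (nat_lit 579) (nat_lit 5) (nat_lit 600) (nat_lit 5) (nat_lit 560) (nat_lit 545) (nat_lit 455)) (XT.lf (nat_lit 0) (nat_lit 1876459811) (nat_lit 1520) (nat_lit 3485857382) (nat_lit 1596) (nat_lit 3200315044) (nat_lit 580) (nat_lit 5) (nat_lit 600) (nat_lit 5) (nat_lit 601) (nat_lit 5) (nat_lit 561) (nat_lit 545) (nat_lit 454)))))) (XT.nd (nat_lit 390) (nat_lit 3192) (nat_lit 0) (XT.nd (nat_lit 156) (nat_lit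 1444) (nat_lit 0) (XT.nd (nat_lit 78) (nat_lit 0) (nat_lit 76) (XT.lf (nat_lit 76) (nat_lit 1209785894) (nat_lit 0) (nat_lit 2143808935) (nat_lit 1596) (nat_lit 5278970623) (nat_lit 581) (nat_lit 5) (nat_lit 580) (nat_lit 5) (nat_lit 601) (nat_lit 5) (nat_lit 562) (nat_lit 545) (nat_lit 453)) (XT.lf (nat_lit 0) (nat_lit 4863601614) (nat_lit 1520) (nat_lit 2685027758) (nat_lit 1596) (nat_lit 1155202308) (nat_lit 581) (nat_lit 5) (nat_lit 601) (nat_lit 5) (nat_lit 602) (nat_lit 5) (nat_lit 563) (nat_lit 545) (nat_lit 452))) (XT.nd (nat_lit 78) (nat_lit 1520) (nat_lit 0) (XT.lf (nat_lit 76) (nat_lit 2141126150) (nat_lit 0) (nat_lit 4263709462) (nat_lit 1596) (nat_lit 2371667989) (nat_lit 582) (nat_lit 5) (nat_lit 581) (nat_lit 5) (nat_lit 602) (nat_lit 5) (nat_lit 564) (nat_lit 545) (nat_lit 451)) (XT.nd (nat_lit 78) (nat_lit 1520) (nat_lit 0) (XT.lf (nat_lit 76) (nat_lit 7080095759) (nat_lit 0) (nat_lit 888144836) (nat_lit 1596) (nat_lit 882562333) (nat_lit 582) (nat_lit 5) (nat_lit 581) (nat_lit 5) (nat_lit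 602) (nat_lit 5) (nat_lit 565) (nat_lit 545) (nat_lit 450)) (XT.lf (nat_lit 0) (nat_lit 639287473) (nat_lit 1596) (nat_lit 5734256948) (nat_lit 1672) (nat_lit 2552735900) (nat_lit 561) (nat_lit 5) (nat_lit 582) (nat_lit 5) (nat_lit 583) (nat_lit 5) (nat_lit 566) (nat_lit 545) (nat_lit 449))))) (XT.nd (nat_lit 156) (nat_lit 3192) (nat_lit 0) (XT.nd (nat_lit 78) (nat_lit 0) (nat_lit 76) (XT.lf (nat_lit 0) (nat_lit 2171713681) (nat_lit 1596) (nat_lit 757310626) (nat_lit 1672) (nat_lit 6074287983) (nat_lit 561) (nat_lit 5) (nat_lit 582) (nat_lit 5) (nat_lit 583) (nat_lit 5) (nat_lit 567) (nat_lit 545) (nat_lit 448)) (XT.lf (nat_lit 0) (nat_lit 3741698694) (nat_lit 1596) (nat_lit 4729621562) (nat_lit 76) (nat_lit 610427263) (nat_lit 562) (nat_lit 5) (nat_lit 583) (nat_lit 5) (nat_lit 563) (nat_lit 5) (nat_lit 568) (nat_lit 545) (nat_lit 447))) (XT.nd (nat_lit 78) (nat_lit 1672) (nat_lit 0) (XT.lf (nat_lit 0) (nat_lit 377398479) (nat_lit 1596) (nat_lit 4967660382) (nat_lit 1672) (nat_lit 3816653891) (nat_lit 541)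 (nat_lit 5) (nat_lit 562) (nat_lit 5) (nat_lit 563) (nat_lit 5) (nat_lit 569) (nat_lit 545) (nat_lit 446)) (XT.nd (nat_lit 78) (nat_lit 1672) (nat_lit 0) (XT.lf (nat_lit 0) (nat_lit 5630317963) (nat_lit 1596) (nat_lit 1357276353) (nat_lit 1672) (nat_lit 2255541606) (nat_lit 541) (nat_lit 5) (nat_lit 562) (nat_lit 5) (nat_lit 563) (nat_lit 5) (nat_lit 570) (nat_lit 545) (nat_lit 445)) (XT.lf (nat_lit 0) (nat_lit 1648162626) (nat_lit 1672) (nat_lit 7016496315) (nat_lit 1748) (nat_lit 661495821) (nat_lit 519) (nat_lit 5) (nat_lit 541) (nat_lit 5) (nat_lit 542) (nat_lit 5) (nat_lit 571) (nat_lit 545) (nat_lit 444))))))) (XT.nd (nat_lit 780) (nat_lit 5852) (nat_lit 0) (XT.nd (nat_lit 390) (nat_lit 1900) (nat_lit 0) (XT.nd (nat_lit 156) (nat_lit 2964) (nat_lit 0) (XT.nd (nat_lit 78) (nat_lit 1748) (nat_lit 0) (XT.lf (nat_lit 0) (nat_lit 961237971) (nat_lit 1748) (nat_lit 2383072790) (nat_lit 76) (nat_lit 6066209618) (nat_lit 518) (nat_lit 5) (nat_lit 541) (nat_lit 5) (nat_lit 519) (nat_lit 5) (nat_lit 572) (nat_lit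 545) (nat_lit 443)) (XT.lf (nat_lit 0) (nat_lit 2606586941) (nat_lit 1824) (nat_lit 6466450230) (nat_lit 76) (nat_lit 423469060) (nat_lit 495) (nat_lit 5) (nat_lit 519) (nat_lit 5) (nat_lit 496) (nat_lit 5) (nat_lit 573) (nat_lit 545) (nat_lit 442))) (XT.nd (nat_lit 78) (nat_lit 2964) (nat_lit 0) (XT.lf (nat_lit 0) (nat_lit 4299969553) (nat_lit 1824) (nat_lit 1042988515) (nat_lit 76) (nat_lit 4240951918) (nat_lit 495) (nat_lit 5) (nat_lit 519) (nat_lit 5) (nat_lit 496) (nat_lit 5) (nat_lit 574) (nat_lit 545) (nat_lit 441)) (XT.nd (nat_lit 78) (nat_lit 1140) (nat_lit 0) (XT.lf (nat_lit 0) (nat_lit 4528140161) (nat_lit 1824) (nat_lit 1505813983) (nat_lit 1900) (nat_lit 3638973690) (nat_lit 471) (nat_lit 5) (nat_lit 495) (nat_lit 5) (nat_lit 496) (nat_lit 5) (nat_lit 575) (nat_lit 545) (nat_lit 440)) (XT.lf (nat_lit 0) (nat_lit 430691343) (nat_lit 1140) (nat_lit 7375067310) (nat_lit 1216) (nat_lit 1957905272) (nat_lit 456) (nat_lit 5) (nat_lit 471) (nat_lit 5) (nat_lit 472) (nat_lit 5) (nat_lit 576) (nat_lit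 545) (nat_lit 439))))) (XT.nd (nat_lit 156) (nat_lit 912) (nat_lit 0) (XT.nd (nat_lit 78) (nat_lit 988) (nat_lit 0) (XT.lf (nat_lit 0) (nat_lit 6156929655) (nat_lit 1140) (nat_lit 3478469850) (nat_lit 1216) (nat_lit 220367905) (nat_lit 456) (nat_lit 5) (nat_lit 471) (nat_lit 5) (nat_lit 472) (nat_lit 5) (nat_lit 577) (nat_lit 545) (nat_lit 438)) (XT.lf (nat_lit 0) (nat_lit 1526482916) (nat_lit 988) (nat_lit 7908623808) (nat_lit 76) (nat_lit 514507041) (nat_lit 443) (nat_lit 5) (nat_lit 456) (nat_lit 5) (nat_lit 444) (nat_lit 5) (nat_lit 578) (nat_lit 545) (nat_lit 437))) (XT.nd (nat_lit 78) (nat_lit 912) (nat_lit 0) (XT.lf (nat_lit 0) (nat_lit 3331906198) (nat_lit 988) (nat_lit 2144326674) (nat_lit 76) (nat_lit 4568543956) (nat_lit 443) (nat_lit 5) (nat_lit 456) (nat_lit 5) (nat_lit 444) (nat_lit 5) (nat_lit 579) (nat_lit 545) (nat_lit 436)) (XT.nd (nat_lit 78) (nat_lit 0) (nat_lit 0) (XT.lf (nat_lit 0) (nat_lit 3764452378) (nat_lit 912) (nat_lit 1412408909) (nat_lit 988) (nat_lit 4964914026) (nat_lit 431)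 (nat_lit 5) (nat_lit 443) (nat_lit 5) (nat_lit 444) (nat_lit 5) (nat_lit 580) (nat_lit 545) (nat_lit 435)) (XT.lf (nat_lit 0) (nat_lit 7070211288) (nat_lit 988) (nat_lit 458252385) (nat_lit 76) (nat_lit 2712020791) (nat_lit 431) (nat_lit 5) (nat_lit 444) (nat_lit 5) (nat_lit 432) (nat_lit 5) (nat_lit 581) (nat_lit 545) (nat_lit 434)))))) (XT.nd (nat_lit 390) (nat_lit 3192) (nat_lit 0) (XT.nd (nat_lit 156) (nat_lit 836) (nat_lit 0) (XT.nd (nat_lit 78) (nat_lit 988) (nat_lit 0) (XT.lf (nat_lit 0) (nat_lit 5623538224) (nat_lit 836) (nat_lit 3403430512) (nat_lit 912) (nat_lit 1313688854) (nat_lit 420) (nat_lit 5) (nat_lit 431) (nat_lit 5) (nat_lit 432) (nat_lit 5) (nat_lit 582) (nat_lit 545) (nat_lit 433)) (XT.lf (nat_lit 0) (nat_lit 569641500) (nat_lit 988) (nat_lit 9063669069) (nat_lit 76) (nat_lit 809504438) (nat_lit 407) (nat_lit 5) (nat_lit 420) (nat_lit 5) (nat_lit 408) (nat_lit 5) (nat_lit 583) (nat_lit 545) (nat_lit 432))) (XT.nd (nat_lit 78) (nat_lit 836) (nat_lit 0) (XT.lf (nat_lit 0) (nat_lit 2507543281)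 (nat_lit 988) (nat_lit 2937016476) (nat_lit 76) (nat_lit 5101592811) (nat_lit 407) (nat_lit 5) (nat_lit 420) (nat_lit 5) (nat_lit 408) (nat_lit 5) (nat_lit 584) (nat_lit 545) (nat_lit 431)) (XT.nd (nat_lit 78) (nat_lit 0) (nat_lit 0) (XT.lf (nat_lit 0) (nat_lit 3335857279) (nat_lit 836) (nat_lit 1150470505) (nat_lit 912) (nat_lit 6165187159) (nat_lit 396) (nat_lit 5) (nat_lit 407) (nat_lit 5) (nat_lit 408) (nat_lit 5) (nat_lit 585) (nat_lit 545) (nat_lit 430)) (XT.lf (nat_lit 0) (nat_lit 6526210970) (nat_lit 912) (nat_lit 1026000626) (nat_lit 76) (nat_lit 3206343052) (nat_lit 396) (nat_lit 5) (nat_lit 408) (nat_lit 5) (nat_lit 397) (nat_lit 5) (nat_lit 586) (nat_lit 545) (nat_lit 429))))) (XT.nd (nat_lit 234) (nat_lit 1520) (nat_lit 0) (XT.nd (nat_lit 78) (nat_lit 836) (nat_lit 0) (XT.lf (nat_lit 0) (nat_lit 5433173672) (nat_lit 836) (nat_lit 3197706538) (nat_lit 912) (nat_lit 2236375705) (nat_lit 385) (nat_lit 5) (nat_lit 396) (nat_lit 5) (nat_lit 397) (nat_lit 5) (nat_lit 587) (nat_lit 545) (nat_lit 428))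 (XT.nd (nat_lit 78) (nat_lit 76) (nat_lit 0) (XT.lf (nat_lit 0) (nat_lit 1042851648) (nat_lit 760) (nat_lit 9737897441) (nat_lit 836) (nat_lit 197320516) (nat_lit 375) (nat_lit 5) (nat_lit 385) (nat_lit 5) (nat_lit 386) (nat_lit 5) (nat_lit 588) (nat_lit 545) (nat_lit 427)) (XT.lf (nat_lit 0) (nat_lit 1897152320) (nat_lit 836) (nat_lit 3421290538) (nat_lit 76) (nat_lit 5771626242) (nat_lit 374) (nat_lit 5) (nat_lit 385) (nat_lit 5) (nat_lit 375) (nat_lit 5) (nat_lit 589) (nat_lit 545) (nat_lit 426)))) (XT.nd (nat_lit 78) (nat_lit 760) (nat_lit 0) (XT.lf (nat_lit 0) (nat_lit 3244291456) (nat_lit 760) (nat_lit 789453643) (nat_lit 836) (nat_lit 7170480440) (nat_lit 364) (nat_lit 5) (nat_lit 374) (nat_lit 5) (nat_lit 375) (nat_lit 5) (nat_lit 590) (nat_lit 545) (nat_lit 425)) (XT.nd (nat_lit 78) (nat_lit 760) (nat_lit 0) (XT.lf (nat_lit 0) (nat_lit 6243071244) (nat_lit 836) (nat_lit 1275748318) (nat_lit 76) (nat_lit 3801245999) (nat_lit 364) (nat_lit 5) (nat_lit 375) (nat_lit 5) (nat_lit 365) (nat_lit 5) (nat_lit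 591) (nat_lit 545) (nat_lit 424)) (XT.lf (nat_lit 0) (nat_lit 5590523247) (nat_lit 760) (nat_lit 2929961862) (nat_lit 836) (nat_lit 2917259725) (nat_lit 354) (nat_lit 5) (nat_lit 364) (nat_lit 5) (nat_lit 365) (nat_lit 5) (nat_lit 592) (nat_lit 545) (nat_lit 423))))))))
noncomputable def xc119 : XT := (XT.nd (nat_lit 1560) (nat_lit 608) (nat_lit 0) (XT.nd (nat_lit 780) (nat_lit 3648) (nat_lit 0) (XT.nd (nat_lit 390) (nat_lit 2052) (nat_lit 0) (XT.nd (nat_lit 156) (nat_lit 1368) (nat_lit 0) (XT.nd (nat_lit 78) (nat_lit 76) (nat_lit 0) (XT.lf (nat_lit 0) (nat_lit 1036076469) (nat_lit 760) (nat_lit 9816662069) (nat_lit 836) (nat_lit 704853793) (nat_lit 344) (nat_lit 5) (nat_lit 354) (nat_lit 5) (nat_lit 355) (nat_lit 5) (nat_lit 593) (nat_lit 545) (nat_lit 422)) (XT.lf (nat_lit 0) (nat_lit 1573028689) (nat_lit 836) (nat_lit 3592485047) (nat_lit 76) (nat_lit 6513290371) (nat_lit 343) (nat_lit 5) (nat_lit 354) (nat_lit 5) (nat_lit 344) (nat_lit 5) (nat_lit 594) (nat_lit 545) (nat_lit 421))) (XT.nd (nat_lit 78)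 (nat_lit 684) (nat_lit 0) (XT.lf (nat_lit 0) (nat_lit 3496715342) (nat_lit 684) (nat_lit 396045992) (nat_lit 760) (nat_lit 7909471429) (nat_lit 334) (nat_lit 5) (nat_lit 343) (nat_lit 5) (nat_lit 344) (nat_lit 5) (nat_lit 595) (nat_lit 545) (nat_lit 420)) (XT.nd (nat_lit 78) (nat_lit 684) (nat_lit 0) (XT.lf (nat_lit 0) (nat_lit 6295377926) (nat_lit 760) (nat_lit 1200217781) (nat_lit 76) (nat_lit 4431804930) (nat_lit 334) (nat_lit 5) (nat_lit 344) (nat_lit 5) (nat_lit 335) (nat_lit 5) (nat_lit 596) (nat_lit 545) (nat_lit 419)) (XT.lf (nat_lit 0) (nat_lit 6105231716) (nat_lit 684) (nat_lit 2666614118) (nat_lit 760) (nat_lit 3282710477) (nat_lit 325) (nat_lit 5) (nat_lit 334) (nat_lit 5) (nat_lit 335) (nat_lit 5) (nat_lit 597) (nat_lit 545) (nat_lit 418))))) (XT.nd (nat_lit 156) (nat_lit 1292) (nat_lit 0) (XT.nd (nat_lit 78) (nat_lit 76) (nat_lit 0) (XT.lf (nat_lit 0) (nat_lit 1372665252) (nat_lit 684) (nat_lit 9940579160) (nat_lit 760) (nat_lit 870703072) (nat_lit 316) (nat_lit 5) (nat_lit 325) (nat_lit 5)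 (nat_lit 326) (nat_lit 5) (nat_lit 598) (nat_lit 545) (nat_lit 417)) (XT.lf (nat_lit 0) (nat_lit 1610345585) (nat_lit 760) (nat_lit 3441302795) (nat_lit 76) (nat_lit 7263239123) (nat_lit 315) (nat_lit 5) (nat_lit 325) (nat_lit 5) (nat_lit 316) (nat_lit 5) (nat_lit 599) (nat_lit 545) (nat_lit 416))) (XT.nd (nat_lit 78) (nat_lit 608) (nat_lit 0) (XT.lf (nat_lit 0) (nat_lit 4104861799) (nat_lit 684) (nat_lit 35275792) (nat_lit 760) (nat_lit 8307978394) (nat_lit 306) (nat_lit 5) (nat_lit 315) (nat_lit 5) (nat_lit 316) (nat_lit 5) (nat_lit 600) (nat_lit 545) (nat_lit 415)) (XT.nd (nat_lit 78) (nat_lit 608) (nat_lit 0) (XT.lf (nat_lit 0) (nat_lit 6761046536) (nat_lit 760) (nat_lit 787543734) (nat_lit 76) (nat_lit 5034608723) (nat_lit 306) (nat_lit 5) (nat_lit 316) (nat_lit 5) (nat_lit 307) (nat_lit 5) (nat_lit 601) (nat_lit 545) (nat_lit 414)) (XT.lf (nat_lit 0) (nat_lit 6991676664) (nat_lit 608) (nat_lit 2472916622) (nat_lit 684) (nat_lit 3255786359) (nat_lit 298) (nat_lit 5) (nat_lit 306) (nat_lit 5) (nat_lit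 307) (nat_lit 5) (nat_lit 602) (nat_lit 545) (nat_lit 413)))))) (XT.nd (nat_lit 390) (nat_lit 1748) (nat_lit 0) (XT.nd (nat_lit 156) (nat_lit 1216) (nat_lit 0) (XT.nd (nat_lit 78) (nat_lit 76) (nat_lit 0) (XT.lf (nat_lit 0) (nat_lit 2067254976) (nat_lit 608) (nat_lit 10176002180) (nat_lit 684) (nat_lit 616626195) (nat_lit 290) (nat_lit 5) (nat_lit 298) (nat_lit 5) (nat_lit 299) (nat_lit 5) (nat_lit 603) (nat_lit 545) (nat_lit 412)) (XT.lf (nat_lit 0) (nat_lit 2087994478) (nat_lit 684) (nat_lit 2954026711) (nat_lit 76) (nat_lit 7959088899) (nat_lit 289) (nat_lit 5) (nat_lit 298) (nat_lit 5) (nat_lit 290) (nat_lit 5) (nat_lit 604) (nat_lit 545) (nat_lit 411))) (XT.nd (nat_lit 78) (nat_lit 608) (nat_lit 0) (XT.lf (nat_lit 0) (nat_lit 4858076220) (nat_lit 684) (nat_lit 8061166374) (nat_lit 76) (nat_lit 225445088) (nat_lit 281) (nat_lit 5) (nat_lit 290) (nat_lit 5) (nat_lit 282) (nat_lit 5) (nat_lit 605) (nat_lit 545) (nat_lit 410)) (XT.nd (nat_lit 78) (nat_lit 608) (nat_lit 0) (XT.lf (nat_lit 0) (nat_lit 7722167005)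 (nat_lit 684) (nat_lit 21463524) (nat_lit 76) (nat_lit 5546734490) (nat_lit 281) (nat_lit 5) (nat_lit 290) (nat_lit 5) (nat_lit 282) (nat_lit 5) (nat_lit 606) (nat_lit 545) (nat_lit 409)) (XT.lf (nat_lit 0) (nat_lit 8268789941) (nat_lit 608) (nat_lit 2413987294) (nat_lit 684) (nat_lit 2755394245) (nat_lit 273) (nat_lit 5) (nat_lit 281) (nat_lit 5) (nat_lit 282) (nat_lit 5) (nat_lit 607) (nat_lit 545) (nat_lit 408))))) (XT.nd (nat_lit 156) (nat_lit 1140) (nat_lit 0) (XT.nd (nat_lit 78) (nat_lit 0) (nat_lit 0) (XT.lf (nat_lit 0) (nat_lit 138179169) (nat_lit 608) (nat_lit 10450399775) (nat_lit 76) (nat_lit 2999820600) (nat_lit 265) (nat_lit 5) (nat_lit 273) (nat_lit 5) (nat_lit 266) (nat_lit 5) (nat_lit 608) (nat_lit 545) (nat_lit 407)) (XT.lf (nat_lit 0) (nat_lit 3089420797) (nat_lit 608) (nat_lit 2112692614) (nat_lit 76) (nat_lit 8538420978) (nat_lit 265) (nat_lit 5) (nat_lit 273) (nat_lit 5) (nat_lit 266) (nat_lit 5) (nat_lit 609) (nat_lit 545) (nat_lit 406))) (XT.nd (nat_lit 78) (nat_lit 532) (nat_lit 0)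 (XT.lf (nat_lit 0) (nat_lit 6129791734) (nat_lit 684) (nat_lit 7439352554) (nat_lit 76) (nat_lit 325965862) (nat_lit 257) (nat_lit 5) (nat_lit 266) (nat_lit 5) (nat_lit 258) (nat_lit 5) (nat_lit 610) (nat_lit 545) (nat_lit 405)) (XT.nd (nat_lit 78) (nat_lit 0) (nat_lit 0) (XT.lf (nat_lit 0) (nat_lit 1133394955) (nat_lit 532) (nat_lit 8139811523) (nat_lit 608) (nat_lit 4778726519) (nat_lit 250) (nat_lit 5) (nat_lit 257) (nat_lit 5) (nat_lit 258) (nat_lit 5) (nat_lit 611) (nat_lit 545) (nat_lit 404)) (XT.lf (nat_lit 0) (nat_lit 9959916677) (nat_lit 532) (nat_lit 2555801397) (nat_lit 608) (nat_lit 1695449951) (nat_lit 250) (nat_lit 5) (nat_lit 257) (nat_lit 5) (nat_lit 258) (nat_lit 5) (nat_lit 612) (nat_lit 545) (nat_lit 403))))))) (XT.nd (nat_lit 76674) (nat_lit 0) (nat_lit 25612) (XT.nd (nat_lit 76284) (nat_lit 0) (nat_lit 26980) (XT.nd (nat_lit 76050) (nat_lit 0) (nat_lit 28272) (XT.nd (nat_lit 75972) (nat_lit 0) (nat_lit 29640) (XT.lf (nat_lit 0) (nat_lit 1467594395) (nat_lit 608) (nat_lit 9771433986)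 (nat_lit 76) (nat_lit 3133629183) (nat_lit 242) (nat_lit 5) (nat_lit 250) (nat_lit 5) (nat_lit 243) (nat_lit 5) (nat_lit 613) (nat_lit 545) (nat_lit 402)) (XT.lf (nat_lit 0) (nat_lit 1498322934) (nat_lit 0) (nat_lit 1498322934) (nat_lit 1292) (nat_lit 866988366) (nat_lit 632) (nat_lit 5) (nat_lit 632) (nat_lit 3) (nat_lit 649) (nat_lit 3) (nat_lit 546) (nat_lit 546) (nat_lit 468))) (XT.nd (nat_lit 78) (nat_lit 1368) (nat_lit 0) (XT.lf (nat_lit 0) (nat_lit 6905943028) (nat_lit 0) (nat_lit 483174145) (nat_lit 1292) (nat_lit 388656513) (nat_lit 632) (nat_lit 5) (nat_lit 632) (nat_lit 3) (nat_lit 649) (nat_lit 3) (nat_lit 547) (nat_lit 546) (nat_lit 467)) (XT.nd (nat_lit 78) (nat_lit 0) (nat_lit 0) (XT.lf (nat_lit 0) (nat_lit 969189920) (nat_lit 1368) (nat_lit 4763106022) (nat_lit 1444) (nat_lit 2096896230) (nat_lit 614) (nat_lit 5) (nat_lit 632) (nat_lit 5) (nat_lit 633) (nat_lit 5) (nat_lit 548) (nat_lit 546) (nat_lit 466)) (XT.lf (nat_lit 0) (nat_lit 2323493631) (nat_lit 1368) (nat_lit 811431924) (nat_lit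 1444) (nat_lit 4747173254) (nat_lit 614) (nat_lit 5) (nat_lit 632) (nat_lit 5) (nat_lit 633) (nat_lit 5) (nat_lit 549) (nat_lit 546) (nat_lit 465))))) (XT.nd (nat_lit 156) (nat_lit 1292) (nat_lit 0) (XT.nd (nat_lit 78) (nat_lit 0) (nat_lit 76) (XT.lf (nat_lit 76) (nat_lit 3243504369) (nat_lit 0) (nat_lit 448526831) (nat_lit 1444) (nat_lit 4244290649) (nat_lit 615) (nat_lit 5) (nat_lit 614) (nat_lit 5) (nat_lit 633) (nat_lit 5) (nat_lit 550) (nat_lit 546) (nat_lit 464)) (XT.lf (nat_lit 0) (nat_lit 5075033453) (nat_lit 1368) (nat_lit 634853511) (nat_lit 1444) (nat_lit 2282001710) (nat_lit 615) (nat_lit 5) (nat_lit 633) (nat_lit 5) (nat_lit 634) (nat_lit 5) (nat_lit 551) (nat_lit 546) (nat_lit 463))) (XT.nd (nat_lit 78) (nat_lit 1368) (nat_lit 0) (XT.lf (nat_lit 76) (nat_lit 3528997525) (nat_lit 0) (nat_lit 2949967615) (nat_lit 1444) (nat_lit 1569737487) (nat_lit 616) (nat_lit 5) (nat_lit 615) (nat_lit 5) (nat_lit 634) (nat_lit 5) (nat_lit 552) (nat_lit 546) (nat_lit 462)) (XT.nd (nat_lit 78) (nat_lit 1368)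 (nat_lit 0) (XT.lf (nat_lit 76) (nat_lit 7766268188) (nat_lit 0) (nat_lit 116873502) (nat_lit 1444) (nat_lit 224069000) (nat_lit 616) (nat_lit 5) (nat_lit 615) (nat_lit 5) (nat_lit 634) (nat_lit 5) (nat_lit 553) (nat_lit 546) (nat_lit 461)) (XT.lf (nat_lit 0) (nat_lit 1145711347) (nat_lit 1444) (nat_lit 4237986261) (nat_lit 1520) (nat_lit 2782798050) (nat_lit 597) (nat_lit 5) (nat_lit 616) (nat_lit 5) (nat_lit 617) (nat_lit 5) (nat_lit 554) (nat_lit 546) (nat_lit 460)))))) (XT.nd (nat_lit 390) (nat_lit 1368) (nat_lit 0) (XT.nd (nat_lit 156) (nat_lit 0) (nat_lit 76) (XT.nd (nat_lit 78) (nat_lit 0) (nat_lit 76) (XT.lf (nat_lit 76) (nat_lit 40196849) (nat_lit 0) (nat_lit 2471941349) (nat_lit 1520) (nat_lit 5715354571) (nat_lit 598) (nat_lit 5) (nat_lit 597) (nat_lit 5) (nat_lit 617) (nat_lit 5) (nat_lit 555) (nat_lit 546) (nat_lit 459)) (XT.lf (nat_lit 0) (nat_lit 3907226852) (nat_lit 1444) (nat_lit 3850843900) (nat_lit 1520) (nat_lit 531613471) (nat_lit 598) (nat_lit 5) (nat_lit 617) (nat_lit 5) (nat_lit 618)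 (nat_lit 5) (nat_lit 556) (nat_lit 546) (nat_lit 458))) (XT.nd (nat_lit 78) (nat_lit 0) (nat_lit 0) (XT.lf (nat_lit 76) (nat_lit 543813118) (nat_lit 0) (nat_lit 4776376152) (nat_lit 1520) (nat_lit 3033131846) (nat_lit 599) (nat_lit 5) (nat_lit 598) (nat_lit 5) (nat_lit 618) (nat_lit 5) (nat_lit 557) (nat_lit 546) (nat_lit 457)) (XT.nd (nat_lit 78) (nat_lit 0) (nat_lit 76) (XT.lf (nat_lit 76) (nat_lit 5059403585) (nat_lit 0) (nat_lit 1698381720) (nat_lit 1520) (nat_lit 1660518979) (nat_lit 599) (nat_lit 5) (nat_lit 598) (nat_lit 5) (nat_lit 618) (nat_lit 5) (nat_lit 558) (nat_lit 546) (nat_lit 456)) (XT.lf (nat_lit 76) (nat_lit 1167242661) (nat_lit 0) (nat_lit 7045002735) (nat_lit 1520) (nat_lit 272580482) (nat_lit 600) (nat_lit 5) (nat_lit 599) (nat_lit 5) (nat_lit 619) (nat_lit 5) (nat_lit 559) (nat_lit 546) (nat_lit 455))))) (XT.nd (nat_lit 234) (nat_lit 0) (nat_lit 76) (XT.nd (nat_lit 78) (nat_lit 0) (nat_lit 0) (XT.lf (nat_lit 0) (nat_lit 1133488913) (nat_lit 1520) (nat_lit 2761286636) (nat_lit 1596)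 (nat_lit 4657647599) (nat_lit 579) (nat_lit 5) (nat_lit 599) (nat_lit 5) (nat_lit 600) (nat_lit 5) (nat_lit 560) (nat_lit 546) (nat_lit 454)) (XT.nd (nat_lit 78) (nat_lit 0) (nat_lit 76) (XT.lf (nat_lit 76) (nat_lit 1889821449) (nat_lit 0) (nat_lit 658469515) (nat_lit 1596) (nat_lit 6073361091) (nat_lit 580) (nat_lit 5) (nat_lit 579) (nat_lit 5) (nat_lit 600) (nat_lit 5) (nat_lit 561) (nat_lit 546) (nat_lit 453)) (XT.lf (nat_lit 0) (nat_lit 3999665936) (nat_lit 1520) (nat_lit 2057568279) (nat_lit 1596) (nat_lit 2634866716) (nat_lit 580) (nat_lit 5) (nat_lit 600) (nat_lit 5) (nat_lit 601) (nat_lit 5) (nat_lit 562) (nat_lit 546) (nat_lit 452)))) (XT.nd (nat_lit 78) (nat_lit 0) (nat_lit 76) (XT.lf (nat_lit 76) (nat_lit 2722132559) (nat_lit 0) (nat_lit 2752977533) (nat_lit 1596) (nat_lit 3288948771) (nat_lit 581) (nat_lit 5) (nat_lit 580) (nat_lit 5) (nat_lit 601) (nat_lit 5) (nat_lit 563) (nat_lit 546) (nat_lit 451)) (XT.nd (nat_lit 78) (nat_lit 0) (nat_lit 0) (XT.lf (nat_lit 0) (nat_lit 6971429156) (nat_lit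 1520) (nat_lit 1235801263) (nat_lit 1596) (nat_lit 630399106) (nat_lit 581) (nat_lit 5) (nat_lit 601) (nat_lit 5) (nat_lit 602) (nat_lit 5) (nat_lit 564) (nat_lit 546) (nat_lit 450)) (XT.lf (nat_lit 76) (nat_lit 3676988045) (nat_lit 0) (nat_lit 4836770934) (nat_lit 1596) (nat_lit 398591810) (nat_lit 582) (nat_lit 5) (nat_lit 581) (nat_lit 5) (nat_lit 602) (nat_lit 5) (nat_lit 565) (nat_lit 546) (nat_lit 449))))))))
noncomputable def xc120 : XT := (XT.nd (nat_lit 1560) (nat_lit 9576) (nat_lit 0) (XT.nd (nat_lit 780) (nat_lit 4864) (nat_lit 0) (XT.nd (nat_lit 390) (nat_lit 5320) (nat_lit 0) (XT.nd (nat_lit 156) (nat_lit 1444) (nat_lit 0) (XT.nd (nat_lit 78) (nat_lit 0) (nat_lit 76) (XT.lf (nat_lit 0) (nat_lit 1066504835) (nat_lit 1596) (nat_lit 310468915) (nat_lit 1672) (nat_lit 7611800120) (nat_lit 560) (nat_lit 5) (nat_lit 581) (nat_lit 5) (nat_lit 582) (nat_lit 5) (nat_lit 566) (nat_lit 546) (nat_lit 448)) (XT.lf (nat_lit 0) (nat_lit 2575365834) (nat_lit 1596) (nat_lit 4327452606) (nat_lit 1672) (nat_lit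 2163459112) (nat_lit 561) (nat_lit 5) (nat_lit 582) (nat_lit 5) (nat_lit 583) (nat_lit 5) (nat_lit 567) (nat_lit 546) (nat_lit 447))) (XT.nd (nat_lit 78) (nat_lit 1520) (nat_lit 0) (XT.lf (nat_lit 76) (nat_lit 728757298) (nat_lit 0) (nat_lit 3376703223) (nat_lit 1672) (nat_lit 5040050466) (nat_lit 562) (nat_lit 5) (nat_lit 561) (nat_lit 5) (nat_lit 583) (nat_lit 5) (nat_lit 568) (nat_lit 546) (nat_lit 446)) (XT.nd (nat_lit 78) (nat_lit 1596) (nat_lit 0) (XT.lf (nat_lit 0) (nat_lit 5672318835) (nat_lit 1596) (nat_lit 3302702719) (nat_lit 76) (nat_lit 251185097) (nat_lit 562) (nat_lit 5) (nat_lit 583) (nat_lit 5) (nat_lit 563) (nat_lit 5) (nat_lit 569) (nat_lit 546) (nat_lit 445)) (XT.lf (nat_lit 0) (nat_lit 1896447781) (nat_lit 1596) (nat_lit 5384724130) (nat_lit 1672) (nat_lit 2027131942) (nat_lit 541) (nat_lit 5) (nat_lit 562) (nat_lit 5) (nat_lit 563) (nat_lit 5) (nat_lit 570) (nat_lit 546) (nat_lit 444))))) (XT.nd (nat_lit 156) (nat_lit 3572) (nat_lit 0) (XT.nd (nat_lit 78) (nat_lit 1748) (nat_lit 0)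 (XT.lf (nat_lit 0) (nat_lit 7224788373) (nat_lit 1596) (nat_lit 1695902801) (nat_lit 1672) (nat_lit 471382804) (nat_lit 541) (nat_lit 5) (nat_lit 562) (nat_lit 5) (nat_lit 563) (nat_lit 5) (nat_lit 571) (nat_lit 546) (nat_lit 443)) (XT.lf (nat_lit 0) (nat_lit 1111876032) (nat_lit 1748) (nat_lit 6293678001) (nat_lit 76) (nat_lit 2071600869) (nat_lit 518) (nat_lit 5) (nat_lit 541) (nat_lit 5) (nat_lit 519) (nat_lit 5) (nat_lit 572) (nat_lit 546) (nat_lit 442))) (XT.nd (nat_lit 78) (nat_lit 3572) (nat_lit 0) (XT.lf (nat_lit 0) (nat_lit 2723357457) (nat_lit 1748) (nat_lit 927309528) (nat_lit 76) (nat_lit 5913151476) (nat_lit 518) (nat_lit 5) (nat_lit 541) (nat_lit 5) (nat_lit 519) (nat_lit 5) (nat_lit 573) (nat_lit 546) (nat_lit 441)) (XT.nd (nat_lit 78) (nat_lit 1824) (nat_lit 0) (XT.lf (nat_lit 0) (nat_lit 4375675919) (nat_lit 1824) (nat_lit 5066363666) (nat_lit 76) (nat_lit 210004263) (nat_lit 495) (nat_lit 5) (nat_lit 519) (nat_lit 5) (nat_lit 496) (nat_lit 5) (nat_lit 574) (nat_lit 546) (nat_lit 440)) (XT.lf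 (nat_lit 0) (nat_lit 441367354) (nat_lit 1824) (nat_lit 5630758650) (nat_lit 1900) (nat_lit 3669686724) (nat_lit 471) (nat_lit 5) (nat_lit 495) (nat_lit 5) (nat_lit 496) (nat_lit 5) (nat_lit 575) (nat_lit 546) (nat_lit 439)))))) (XT.nd (nat_lit 390) (nat_lit 2736) (nat_lit 0) (XT.nd (nat_lit 156) (nat_lit 988) (nat_lit 0) (XT.nd (nat_lit 78) (nat_lit 1140) (nat_lit 0) (XT.lf (nat_lit 0) (nat_lit 6108265341) (nat_lit 1824) (nat_lit 1706324810) (nat_lit 1900) (nat_lit 2018545811) (nat_lit 471) (nat_lit 5) (nat_lit 495) (nat_lit 5) (nat_lit 496) (nat_lit 5) (nat_lit 576) (nat_lit 546) (nat_lit 438)) (XT.lf (nat_lit 0) (nat_lit 1953198506) (nat_lit 1140) (nat_lit 7644828646) (nat_lit 1216) (nat_lit 328136699) (nat_lit 456) (nat_lit 5) (nat_lit 471) (nat_lit 5) (nat_lit 472) (nat_lit 5) (nat_lit 577) (nat_lit 546) (nat_lit 437))) (XT.nd (nat_lit 78) (nat_lit 912) (nat_lit 0) (XT.lf (nat_lit 0) (nat_lit 1392916237) (nat_lit 1216) (nat_lit 2265638543) (nat_lit 76) (nat_lit 6362013962) (nat_lit 455) (nat_lit 5)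 (nat_lit 471) (nat_lit 5) (nat_lit 456) (nat_lit 5) (nat_lit 578) (nat_lit 546) (nat_lit 436)) (XT.nd (nat_lit 78) (nat_lit 0) (nat_lit 0) (XT.lf (nat_lit 0) (nat_lit 3149176586) (nat_lit 988) (nat_lit 6538452799) (nat_lit 76) (nat_lit 429085990) (nat_lit 443) (nat_lit 5) (nat_lit 456) (nat_lit 5) (nat_lit 444) (nat_lit 5) (nat_lit 579) (nat_lit 546) (nat_lit 435)) (XT.lf (nat_lit 0) (nat_lit 4959489431) (nat_lit 988) (nat_lit 688837242) (nat_lit 76) (nat_lit 4566080334) (nat_lit 443) (nat_lit 5) (nat_lit 456) (nat_lit 5) (nat_lit 444) (nat_lit 5) (nat_lit 580) (nat_lit 546) (nat_lit 434))))) (XT.nd (nat_lit 156) (nat_lit 988) (nat_lit 0) (XT.nd (nat_lit 78) (nat_lit 836) (nat_lit 0) (XT.lf (nat_lit 0) (nat_lit 5328259655) (nat_lit 912) (nat_lit 1492141648) (nat_lit 988) (nat_lit 3493363915) (nat_lit 431) (nat_lit 5) (nat_lit 443) (nat_lit 5) (nat_lit 444) (nat_lit 5) (nat_lit 581) (nat_lit 546) (nat_lit 433)) (XT.lf (nat_lit 0) (nat_lit 1036070923) (nat_lit 836) (nat_lit 7691750389) (nat_lit 912) (nat_lit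 1687104073) (nat_lit 420) (nat_lit 5) (nat_lit 431) (nat_lit 5) (nat_lit 432) (nat_lit 5) (nat_lit 582) (nat_lit 546) (nat_lit 432))) (XT.nd (nat_lit 78) (nat_lit 912) (nat_lit 0) (XT.lf (nat_lit 0) (nat_lit 177009693) (nat_lit 912) (nat_lit 3302694567) (nat_lit 76) (nat_lit 7037909593) (nat_lit 419) (nat_lit 5) (nat_lit 431) (nat_lit 5) (nat_lit 420) (nat_lit 5) (nat_lit 583) (nat_lit 546) (nat_lit 431)) (XT.nd (nat_lit 78) (nat_lit 0) (nat_lit 0) (XT.lf (nat_lit 0) (nat_lit 2060776523) (nat_lit 988) (nat_lit 7725176832) (nat_lit 76) (nat_lit 836081033) (nat_lit 407) (nat_lit 5) (nat_lit 420) (nat_lit 5) (nat_lit 408) (nat_lit 5) (nat_lit 584) (nat_lit 546) (nat_lit 430)) (XT.lf (nat_lit 0) (nat_lit 4008421786) (nat_lit 988) (nat_lit 1505790513) (nat_lit 76) (nat_lit 5213807516) (nat_lit 407) (nat_lit 5) (nat_lit 420) (nat_lit 5) (nat_lit 408) (nat_lit 5) (nat_lit 585) (nat_lit 546) (nat_lit 429))))))) (XT.nd (nat_lit 780) (nat_lit 4712) (nat_lit 0) (XT.nd (nat_lit 390) (nat_lit 2356) (nat_lit 0) (XT.nd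 (nat_lit 156) (nat_lit 836) (nat_lit 0) (XT.nd (nat_lit 78) (nat_lit 836) (nat_lit 0) (XT.lf (nat_lit 0) (nat_lit 4882738307) (nat_lit 836) (nat_lit 1125208237) (nat_lit 912) (nat_lit 4827920411) (nat_lit 396) (nat_lit 5) (nat_lit 407) (nat_lit 5) (nat_lit 408) (nat_lit 5) (nat_lit 586) (nat_lit 546) (nat_lit 428)) (XT.lf (nat_lit 0) (nat_lit 438175878) (nat_lit 836) (nat_lit 7625527393) (nat_lit 912) (nat_lit 2881843459) (nat_lit 385) (nat_lit 5) (nat_lit 396) (nat_lit 5) (nat_lit 397) (nat_lit 5) (nat_lit 587) (nat_lit 546) (nat_lit 427))) (XT.nd (nat_lit 78) (nat_lit 836) (nat_lit 0) (XT.lf (nat_lit 0) (nat_lit 7011056975) (nat_lit 836) (nat_lit 3178571316) (nat_lit 912) (nat_lit 867211261) (nat_lit 385) (nat_lit 5) (nat_lit 396) (nat_lit 5) (nat_lit 397) (nat_lit 5) (nat_lit 588) (nat_lit 546) (nat_lit 426)) (XT.nd (nat_lit 78) (nat_lit 0) (nat_lit 0) (XT.lf (nat_lit 0) (nat_lit 1179609750) (nat_lit 836) (nat_lit 8627665323) (nat_lit 76) (nat_lit 1362779957) (nat_lit 374) (nat_lit 5) (nat_lit 385) (nat_lit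 5) (nat_lit 375) (nat_lit 5) (nat_lit 589) (nat_lit 546) (nat_lit 425)) (XT.lf (nat_lit 0) (nat_lit 3286308136) (nat_lit 836) (nat_lit 2014274941) (nat_lit 76) (nat_lit 5984226519) (nat_lit 374) (nat_lit 5) (nat_lit 385) (nat_lit 5) (nat_lit 375) (nat_lit 5) (nat_lit 590) (nat_lit 546) (nat_lit 424))))) (XT.nd (nat_lit 156) (nat_lit 836) (nat_lit 0) (XT.nd (nat_lit 78) (nat_lit 760) (nat_lit 0) (XT.lf (nat_lit 0) (nat_lit 4774911841) (nat_lit 760) (nat_lit 673743083) (nat_lit 836) (nat_lit 5952934516) (nat_lit 364) (nat_lit 5) (nat_lit 374) (nat_lit 5) (nat_lit 375) (nat_lit 5) (nat_lit 591) (nat_lit 546) (nat_lit 423)) (XT.lf (nat_lit 0) (nat_lit 163231827) (nat_lit 760) (nat_lit 7514671147) (nat_lit 836) (nat_lit 3842329284) (nat_lit 354) (nat_lit 5) (nat_lit 364) (nat_lit 5) (nat_lit 365) (nat_lit 5) (nat_lit 592) (nat_lit 546) (nat_lit 422))) (XT.nd (nat_lit 78) (nat_lit 836) (nat_lit 0) (XT.lf (nat_lit 0) (nat_lit 7155067258) (nat_lit 760) (nat_lit 2828505247) (nat_lit 836) (nat_lit 1657039154) (nat_lit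 354) (nat_lit 5) (nat_lit 364) (nat_lit 5) (nat_lit 365) (nat_lit 5) (nat_lit 593) (nat_lit 546) (nat_lit 421)) (XT.nd (nat_lit 78) (nat_lit 0) (nat_lit 0) (XT.lf (nat_lit 0) (nat_lit 576854696) (nat_lit 836) (nat_lit 9242288340) (nat_lit 76) (nat_lit 1943933795) (nat_lit 343) (nat_lit 5) (nat_lit 354) (nat_lit 5) (nat_lit 344) (nat_lit 5) (nat_lit 594) (nat_lit 546) (nat_lit 420)) (XT.lf (nat_lit 0) (nat_lit 2865642591) (nat_lit 836) (nat_lit 2208462264) (nat_lit 76) (nat_lit 6813019740) (nat_lit 343) (nat_lit 5) (nat_lit 354) (nat_lit 5) (nat_lit 344) (nat_lit 5) (nat_lit 595) (nat_lit 546) (nat_lit 419)))))) (XT.nd (nat_lit 390) (nat_lit 2584) (nat_lit 0) (XT.nd (nat_lit 156) (nat_lit 760) (nat_lit 0) (XT.nd (nat_lit 78) (nat_lit 684) (nat_lit 0) (XT.lf (nat_lit 0) (nat_lit 5012944024) (nat_lit 684) (nat_lit 203487671) (nat_lit 760) (nat_lit 6796897532) (nat_lit 334) (nat_lit 5) (nat_lit 343) (nat_lit 5) (nat_lit 344) (nat_lit 5) (nat_lit 596) (nat_lit 546) (nat_lit 418)) (XT.lf (nat_lit 0) (nat_lit 219778853)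 (nat_lit 684) (nat_lit 7425597090) (nat_lit 760) (nat_lit 4496059635) (nat_lit 325) (nat_lit 5) (nat_lit 334) (nat_lit 5) (nat_lit 335) (nat_lit 5) (nat_lit 597) (nat_lit 546) (nat_lit 417))) (XT.nd (nat_lit 78) (nat_lit 760) (nat_lit 0) (XT.lf (nat_lit 0) (nat_lit 7658973858) (nat_lit 684) (nat_lit 2496293746) (nat_lit 760) (nat_lit 2116189485) (nat_lit 325) (nat_lit 5) (nat_lit 334) (nat_lit 5) (nat_lit 335) (nat_lit 5) (nat_lit 598) (nat_lit 546) (nat_lit 416)) (XT.nd (nat_lit 78) (nat_lit 0) (nat_lit 0) (XT.lf (nat_lit 0) (nat_lit 326578082) (nat_lit 760) (nat_lit 9560916811) (nat_lit 76) (nat_lit 2516156457) (nat_lit 315) (nat_lit 5) (nat_lit 325) (nat_lit 5) (nat_lit 316) (nat_lit 5) (nat_lit 599) (nat_lit 546) (nat_lit 415)) (XT.lf (nat_lit 0) (nat_lit 2822010732) (nat_lit 760) (nat_lit 2077947655) (nat_lit 76) (nat_lit 7637608819) (nat_lit 315) (nat_lit 5) (nat_lit 325) (nat_lit 5) (nat_lit 316) (nat_lit 5) (nat_lit 600) (nat_lit 546) (nat_lit 414))))) (XT.nd (nat_lit 234) (nat_lit 1292) (nat_lit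 0) (XT.nd (nat_lit 78) (nat_lit 608) (nat_lit 0) (XT.lf (nat_lit 0) (nat_lit 5389945673) (nat_lit 760) (nat_lit 7065456852) (nat_lit 76) (nat_lit 218307355) (nat_lit 306) (nat_lit 5) (nat_lit 316) (nat_lit 5) (nat_lit 307) (nat_lit 5) (nat_lit 601) (nat_lit 546) (nat_lit 413)) (XT.nd (nat_lit 78) (nat_lit 0) (nat_lit 0) (XT.lf (nat_lit 0) (nat_lit 620956009) (nat_lit 608) (nat_lit 7423695023) (nat_lit 684) (nat_lit 4767216509) (nat_lit 298) (nat_lit 5) (nat_lit 306) (nat_lit 5) (nat_lit 307) (nat_lit 5) (nat_lit 602) (nat_lit 546) (nat_lit 412)) (XT.lf (nat_lit 0) (nat_lit 8538300375) (nat_lit 608) (nat_lit 2246632226) (nat_lit 684) (nat_lit 2167206471) (nat_lit 298) (nat_lit 5) (nat_lit 306) (nat_lit 5) (nat_lit 307) (nat_lit 5) (nat_lit 603) (nat_lit 546) (nat_lit 411)))) (XT.nd (nat_lit 78) (nat_lit 608) (nat_lit 0) (XT.lf (nat_lit 0) (nat_lit 506566141) (nat_lit 684) (nat_lit 9571134644) (nat_lit 76) (nat_lit 3016890227) (nat_lit 289) (nat_lit 5) (nat_lit 298) (nat_lit 5) (nat_lit 290) (nat_lit 5) (nat_lit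 604) (nat_lit 546) (nat_lit 410)) (XT.nd (nat_lit 78) (nat_lit 608) (nat_lit 0) (XT.lf (nat_lit 0) (nat_lit 3234926872) (nat_lit 684) (nat_lit 1607947754) (nat_lit 76) (nat_lit 8396128568) (nat_lit 289) (nat_lit 5) (nat_lit 298) (nat_lit 5) (nat_lit 290) (nat_lit 5) (nat_lit 605) (nat_lit 546) (nat_lit 409)) (XT.lf (nat_lit 0) (nat_lit 6049772951) (nat_lit 684) (nat_lit 6806567768) (nat_lit 76) (nat_lit 529324869) (nat_lit 281) (nat_lit 5) (nat_lit 290) (nat_lit 5) (nat_lit 282) (nat_lit 5) (nat_lit 606) (nat_lit 546) (nat_lit 408))))))))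
noncomputable def xc121 : XT := (XT.nd (nat_lit 77532) (nat_lit 0) (nat_lit 14668) (XT.nd (nat_lit 76752) (nat_lit 0) (nat_lit 24928) (XT.nd (nat_lit 390) (nat_lit 532) (nat_lit 0) (XT.nd (nat_lit 156) (nat_lit 1216) (nat_lit 0) (XT.nd (nat_lit 78) (nat_lit 0) (nat_lit 0) (XT.lf (nat_lit 0) (nat_lit 1384323576) (nat_lit 608) (nat_lit 7574348447) (nat_lit 684) (nat_lit 4575834411) (nat_lit 273) (nat_lit 5) (nat_lit 281) (nat_lit 5) (nat_lit 282) (nat_lit 5) (nat_lit 607) (nat_lit 546) (nat_lit 407)) (XT.lf (nat_lit 0) (nat_lit 9813094481) (nat_lit 608) (nat_lit 2144324290) (nat_lit 684) (nat_lit 1728272252) (nat_lit 273) (nat_lit 5) (nat_lit 281) (nat_lit 5) (nat_lit 282) (nat_lit 5) (nat_lit 608) (nat_lit 546) (nat_lit 406))) (XT.nd (nat_lit 78) (nat_lit 608) (nat_lit 0) (XT.lf (nat_lit 0) (nat_lit 1199151772) (nat_lit 608) (nat_lit 9256411249) (nat_lit 76) (nat_lit 3383417105) (nat_lit 265) (nat_lit 5) (nat_lit 273) (nat_lit 5) (nat_lit 266) (nat_lit 5) (nat_lit 609) (nat_lit 546) (nat_lit 405)) (XT.nd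 (nat_lit 78) (nat_lit 608) (nat_lit 0) (XT.lf (nat_lit 0) (nat_lit 4188669037) (nat_lit 608) (nat_lit 779459680) (nat_lit 76) (nat_lit 9026444391) (nat_lit 265) (nat_lit 5) (nat_lit 273) (nat_lit 5) (nat_lit 266) (nat_lit 5) (nat_lit 610) (nat_lit 546) (nat_lit 404)) (XT.lf (nat_lit 0) (nat_lit 7280587277) (nat_lit 684) (nat_lit 6203370376) (nat_lit 76) (nat_lit 668468378) (nat_lit 257) (nat_lit 5) (nat_lit 266) (nat_lit 5) (nat_lit 258) (nat_lit 5) (nat_lit 611) (nat_lit 546) (nat_lit 403))))) (XT.nd (nat_lit 76128) (nat_lit 0) (nat_lit 27588) (XT.nd (nat_lit 78) (nat_lit 0) (nat_lit 0) (XT.lf (nat_lit 0) (nat_lit 2531721758) (nat_lit 532) (nat_lit 7943919469) (nat_lit 608) (nat_lit 3836969128) (nat_lit 250) (nat_lit 5) (nat_lit 257) (nat_lit 5) (nat_lit 258) (nat_lit 5) (nat_lit 612) (nat_lit 546) (nat_lit 402)) (XT.lf (nat_lit 0) (nat_lit 11507800212) (nat_lit 532) (nat_lit 2255262243) (nat_lit 608) (nat_lit 712366870) (nat_lit 250) (nat_lit 5) (nat_lit 257) (nat_lit 5) (nat_lit 258) (nat_lit 5) (nat_lit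 613) (nat_lit 546) (nat_lit 401))) (XT.nd (nat_lit 78) (nat_lit 0) (nat_lit 0) (XT.lf (nat_lit 0) (nat_lit 463327185) (nat_lit 1444) (nat_lit 1725462547) (nat_lit 1444) (nat_lit 1725462547) (nat_lit 613) (nat_lit 3) (nat_lit 632) (nat_lit 3) (nat_lit 632) (nat_lit 5) (nat_lit 547) (nat_lit 547) (nat_lit 466)) (XT.nd (nat_lit 78) (nat_lit 0) (nat_lit 76) (XT.lf (nat_lit 76) (nat_lit 455383628) (nat_lit 0) (nat_lit 1776062618) (nat_lit 1444) (nat_lit 5649386093) (nat_lit 614) (nat_lit 5) (nat_lit 613) (nat_lit 3) (nat_lit 632) (nat_lit 5) (nat_lit 548) (nat_lit 547) (nat_lit 465)) (XT.lf (nat_lit 0) (nat_lit 3557430860) (nat_lit 1368) (nat_lit 3471307806) (nat_lit 1444) (nat_lit 905567299) (nat_lit 614) (nat_lit 5) (nat_lit 632) (nat_lit 5) (nat_lit 633) (nat_lit 5) (nat_lit 549) (nat_lit 547) (nat_lit 464)))))) (XT.nd (nat_lit 390) (nat_lit 1368) (nat_lit 0) (XT.nd (nat_lit 156) (nat_lit 1368) (nat_lit 0) (XT.nd (nat_lit 78) (nat_lit 0) (nat_lit 0) (XT.lf (nat_lit 76) (nat_lit 539275202) (nat_lit 0) (nat_lit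 4352677027) (nat_lit 1444) (nat_lit 3097257696) (nat_lit 615) (nat_lit 5) (nat_lit 614) (nat_lit 5) (nat_lit 633) (nat_lit 5) (nat_lit 550) (nat_lit 547) (nat_lit 463)) (XT.lf (nat_lit 76) (nat_lit 4659291063) (nat_lit 0) (nat_lit 1584457096) (nat_lit 1444) (nat_lit 1801653302) (nat_lit 615) (nat_lit 5) (nat_lit 614) (nat_lit 5) (nat_lit 633) (nat_lit 5) (nat_lit 551) (nat_lit 547) (nat_lit 462))) (XT.nd (nat_lit 78) (nat_lit 1444) (nat_lit 0) (XT.lf (nat_lit 76) (nat_lit 742461843) (nat_lit 0) (nat_lit 6861009858) (nat_lit 1444) (nat_lit 499628448) (nat_lit 616) (nat_lit 5) (nat_lit 615) (nat_lit 5) (nat_lit 634) (nat_lit 5) (nat_lit 552) (nat_lit 547) (nat_lit 461)) (XT.nd (nat_lit 78) (nat_lit 0) (nat_lit 0) (XT.lf (nat_lit 0) (nat_lit 819263789) (nat_lit 1444) (nat_lit 3196538573) (nat_lit 1520) (nat_lit 4146010143) (nat_lit 596) (nat_lit 5) (nat_lit 615) (nat_lit 5) (nat_lit 616) (nat_lit 5) (nat_lit 553) (nat_lit 547) (nat_lit 460)) (XT.lf (nat_lit 76) (nat_lit 1043054372) (nat_lit 0) (nat_lit 1090514819)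 (nat_lit 1520) (nat_lit 6088550451) (nat_lit 597) (nat_lit 5) (nat_lit 596) (nat_lit 5) (nat_lit 616) (nat_lit 5) (nat_lit 554) (nat_lit 547) (nat_lit 459))))) (XT.nd (nat_lit 156) (nat_lit 1444) (nat_lit 0) (XT.nd (nat_lit 78) (nat_lit 0) (nat_lit 0) (XT.lf (nat_lit 0) (nat_lit 3477565574) (nat_lit 1444) (nat_lit 2903603233) (nat_lit 1520) (nat_lit 1902397083) (nat_lit 597) (nat_lit 5) (nat_lit 616) (nat_lit 5) (nat_lit 617) (nat_lit 5) (nat_lit 555) (nat_lit 547) (nat_lit 458)) (XT.lf (nat_lit 76) (nat_lit 1450807073) (nat_lit 0) (nat_lit 3384393953) (nat_lit 1520) (nat_lit 3511305902) (nat_lit 598) (nat_lit 5) (nat_lit 597) (nat_lit 5) (nat_lit 617) (nat_lit 5) (nat_lit 556) (nat_lit 547) (nat_lit 457))) (XT.nd (nat_lit 78) (nat_lit 1444) (nat_lit 0) (XT.lf (nat_lit 76) (nat_lit 5913418912) (nat_lit 0) (nat_lit 296640035) (nat_lit 1520) (nat_lit 2200847470) (nat_lit 598) (nat_lit 5) (nat_lit 597) (nat_lit 5) (nat_lit 617) (nat_lit 5) (nat_lit 557) (nat_lit 547) (nat_lit 456)) (XT.nd (nat_lit 78) (nat_lit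 1520) (nat_lit 0) (XT.lf (nat_lit 76) (nat_lit 1977565615) (nat_lit 0) (nat_lit 5637443710) (nat_lit 1520) (nat_lit 861533671) (nat_lit 599) (nat_lit 5) (nat_lit 598) (nat_lit 5) (nat_lit 618) (nat_lit 5) (nat_lit 558) (nat_lit 547) (nat_lit 455)) (XT.lf (nat_lit 0) (nat_lit 488272744) (nat_lit 1520) (nat_lit 1991329489) (nat_lit 1596) (nat_lit 6064019045) (nat_lit 578) (nat_lit 5) (nat_lit 598) (nat_lit 5) (nat_lit 599) (nat_lit 5) (nat_lit 559) (nat_lit 547) (nat_lit 454))))))) (XT.nd (nat_lit 780) (nat_lit 8892) (nat_lit 0) (XT.nd (nat_lit 390) (nat_lit 1444) (nat_lit 0) (XT.nd (nat_lit 156) (nat_lit 0) (nat_lit 0) (XT.nd (nat_lit 78) (nat_lit 0) (nat_lit 0) (XT.lf (nat_lit 0) (nat_lit 1847612905) (nat_lit 1520) (nat_lit 6000515501) (nat_lit 1596) (nat_lit 763918302) (nat_lit 579) (nat_lit 5) (nat_lit 599) (nat_lit 5) (nat_lit 600) (nat_lit 5) (nat_lit 560) (nat_lit 547) (nat_lit 453)) (XT.lf (nat_lit 0) (nat_lit 3236549433) (nat_lit 1520) (nat_lit 1383557259) (nat_lit 1596) (nat_lit 4061686693) (nat_lit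 579) (nat_lit 5) (nat_lit 599) (nat_lit 5) (nat_lit 600) (nat_lit 5) (nat_lit 561) (nat_lit 547) (nat_lit 452))) (XT.nd (nat_lit 78) (nat_lit 0) (nat_lit 76) (XT.lf (nat_lit 76) (nat_lit 3351145651) (nat_lit 0) (nat_lit 1296952385) (nat_lit 1596) (nat_lit 4104941204) (nat_lit 580) (nat_lit 5) (nat_lit 579) (nat_lit 5) (nat_lit 600) (nat_lit 5) (nat_lit 562) (nat_lit 547) (nat_lit 451)) (XT.nd (nat_lit 78) (nat_lit 0) (nat_lit 0) (XT.lf (nat_lit 0) (nat_lit 6084346807) (nat_lit 1520) (nat_lit 658882802) (nat_lit 1596) (nat_lit 2082551912) (nat_lit 580) (nat_lit 5) (nat_lit 600) (nat_lit 5) (nat_lit 601) (nat_lit 5) (nat_lit 563) (nat_lit 547) (nat_lit 450)) (XT.lf (nat_lit 76) (nat_lit 4206939441) (nat_lit 0) (nat_lit 3352339678) (nat_lit 1596) (nat_lit 1340501233) (nat_lit 581) (nat_lit 5) (nat_lit 580) (nat_lit 5) (nat_lit 601) (nat_lit 5) (nat_lit 564) (nat_lit 547) (nat_lit 449))))) (XT.nd (nat_lit 156) (nat_lit 0) (nat_lit 0) (XT.nd (nat_lit 78) (nat_lit 0) (nat_lit 0) (XT.lf (nat_lit 0) (nat_lit 68004843)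 (nat_lit 1596) (nat_lit 8789595396) (nat_lit 1672) (nat_lit 118033998) (nat_lit 560) (nat_lit 5) (nat_lit 581) (nat_lit 5) (nat_lit 582) (nat_lit 5) (nat_lit 565) (nat_lit 547) (nat_lit 448)) (XT.lf (nat_lit 0) (nat_lit 1515348854) (nat_lit 1596) (nat_lit 3876834618) (nat_lit 1672) (nat_lit 3660072996) (nat_lit 560) (nat_lit 5) (nat_lit 581) (nat_lit 5) (nat_lit 582) (nat_lit 5) (nat_lit 566) (nat_lit 547) (nat_lit 447))) (XT.nd (nat_lit 78) (nat_lit 0) (nat_lit 76) (XT.lf (nat_lit 76) (nat_lit 1130099737) (nat_lit 0) (nat_lit 1844072891) (nat_lit 1672) (nat_lit 6156588668) (nat_lit 561) (nat_lit 5) (nat_lit 560) (nat_lit 5) (nat_lit 582) (nat_lit 5) (nat_lit 567) (nat_lit 547) (nat_lit 446)) (XT.nd (nat_lit 78) (nat_lit 0) (nat_lit 0) (XT.lf (nat_lit 0) (nat_lit 4475481965) (nat_lit 1596) (nat_lit 2951593468) (nat_lit 1672) (nat_lit 1783495398) (nat_lit 561) (nat_lit 5) (nat_lit 582) (nat_lit 5) (nat_lit 583) (nat_lit 5) (nat_lit 568) (nat_lit 547) (nat_lit 445)) (XT.lf (nat_lit 76) (nat_lit 2196119527)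 (nat_lit 0) (nat_lit 3813244245) (nat_lit 1672) (nat_lit 3282562637) (nat_lit 562) (nat_lit 5) (nat_lit 561) (nat_lit 5) (nat_lit 583) (nat_lit 5) (nat_lit 569) (nat_lit 547) (nat_lit 444)))))) (XT.nd (nat_lit 390) (nat_lit 3952) (nat_lit 0) (XT.nd (nat_lit 156) (nat_lit 3496) (nat_lit 0) (XT.nd (nat_lit 78) (nat_lit 1520) (nat_lit 0) (XT.lf (nat_lit 76) (nat_lit 7467994369) (nat_lit 0) (nat_lit 102157846) (nat_lit 1672) (nat_lit 1804833066) (nat_lit 562) (nat_lit 5) (nat_lit 561) (nat_lit 5) (nat_lit 583) (nat_lit 5) (nat_lit 570) (nat_lit 547) (nat_lit 443)) (XT.lf (nat_lit 0) (nat_lit 3387184629) (nat_lit 1596) (nat_lit 5797792065) (nat_lit 1672) (nat_lit 274272979) (nat_lit 541) (nat_lit 5) (nat_lit 562) (nat_lit 5) (nat_lit 563) (nat_lit 5) (nat_lit 571) (nat_lit 547) (nat_lit 442))) (XT.nd (nat_lit 78) (nat_lit 3420) (nat_lit 0) (XT.lf (nat_lit 0) (nat_lit 1260672726) (nat_lit 1672) (nat_lit 760074091) (nat_lit 76) (nat_lit 7524473100) (nat_lit 540) (nat_lit 5) (nat_lit 562) (nat_lit 5) (nat_lit 541)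 (nat_lit 5) (nat_lit 572) (nat_lit 547) (nat_lit 441)) (XT.nd (nat_lit 78) (nat_lit 1748) (nat_lit 0) (XT.lf (nat_lit 0) (nat_lit 2842833873) (nat_lit 1748) (nat_lit 4945605760) (nat_lit 76) (nat_lit 1844030598) (nat_lit 518) (nat_lit 5) (nat_lit 541) (nat_lit 5) (nat_lit 519) (nat_lit 5) (nat_lit 573) (nat_lit 547) (nat_lit 440)) (XT.lf (nat_lit 0) (nat_lit 505823145) (nat_lit 1748) (nat_lit 3950501601) (nat_lit 1824) (nat_lit 5265147765) (nat_lit 495) (nat_lit 5) (nat_lit 518) (nat_lit 5) (nat_lit 519) (nat_lit 5) (nat_lit 574) (nat_lit 547) (nat_lit 439))))) (XT.nd (nat_lit 234) (nat_lit 2128) (nat_lit 0) (XT.nd (nat_lit 78) (nat_lit 1824) (nat_lit 0) (XT.lf (nat_lit 0) (nat_lit 6113475134) (nat_lit 1824) (nat_lit 3697664442) (nat_lit 76) (nat_lit 888144) (nat_lit 495) (nat_lit 5) (nat_lit 519) (nat_lit 5) (nat_lit 496) (nat_lit 5) (nat_lit 575) (nat_lit 547) (nat_lit 438)) (XT.nd (nat_lit 78) (nat_lit 0) (nat_lit 0) (XT.lf (nat_lit 0) (nat_lit 1910549972) (nat_lit 1824) (nat_lit 5910427301) (nat_lit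 1900) (nat_lit 2083073250) (nat_lit 471) (nat_lit 5) (nat_lit 495) (nat_lit 5) (nat_lit 496) (nat_lit 5) (nat_lit 576) (nat_lit 547) (nat_lit 437)) (XT.lf (nat_lit 0) (nat_lit 7662151501) (nat_lit 1824) (nat_lit 1904229226) (nat_lit 1900) (nat_lit 431458679) (nat_lit 471) (nat_lit 5) (nat_lit 495) (nat_lit 5) (nat_lit 496) (nat_lit 5) (nat_lit 577) (nat_lit 547) (nat_lit 436)))) (XT.nd (nat_lit 78) (nat_lit 912) (nat_lit 0) (XT.lf (nat_lit 0) (nat_lit 1252772105) (nat_lit 1216) (nat_lit 6654058839) (nat_lit 76) (nat_lit 2186190624) (nat_lit 455) (nat_lit 5) (nat_lit 471) (nat_lit 5) (nat_lit 456) (nat_lit 5) (nat_lit 578) (nat_lit 547) (nat_lit 435)) (XT.nd (nat_lit 78) (nat_lit 912) (nat_lit 0) (XT.lf (nat_lit 0) (nat_lit 2972815637) (nat_lit 1216) (nat_lit 863703546) (nat_lit 76) (nat_lit 6353373658) (nat_lit 455) (nat_lit 5) (nat_lit 471) (nat_lit 5) (nat_lit 456) (nat_lit 5) (nat_lit 579) (nat_lit 547) (nat_lit 434)) (XT.lf (nat_lit 0) (nat_lit 4742498460) (nat_lit 988) (nat_lit 5200225809) (nat_lit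 76) (nat_lit 345673101) (nat_lit 443) (nat_lit 5) (nat_lit 456) (nat_lit 5) (nat_lit 444) (nat_lit 5) (nat_lit 580) (nat_lit 547) (nat_lit 433))))))))
noncomputable def xc122 : XT := (XT.nd (nat_lit 1560) (nat_lit 4408) (nat_lit 0) (XT.nd (nat_lit 780) (nat_lit 4484) (nat_lit 0) (XT.nd (nat_lit 390) (nat_lit 2508) (nat_lit 0) (XT.nd (nat_lit 156) (nat_lit 1824) (nat_lit 0) (XT.nd (nat_lit 78) (nat_lit 0) (nat_lit 0) (XT.lf (nat_lit 0) (nat_lit 747380240) (nat_lit 912) (nat_lit 5816483176) (nat_lit 988) (nat_lit 3824683396) (nat_lit 431) (nat_lit 5) (nat_lit 443) (nat_lit 5) (nat_lit 444) (nat_lit 5) (nat_lit 581) (nat_lit 547) (nat_lit 432)) (XT.lf (nat_lit 0) (nat_lit 6865542101) (nat_lit 912) (nat_lit 1571469833) (nat_lit 988) (nat_lit 2053380760) (nat_lit 431) (nat_lit 5) (nat_lit 443) (nat_lit 5) (nat_lit 444) (nat_lit 5) (nat_lit 582) (nat_lit 547) (nat_lit 431))) (XT.nd (nat_lit 78) (nat_lit 988) (nat_lit 0) (XT.lf (nat_lit 0) (nat_lit 2507868936) (nat_lit 836) (nat_lit 7854794187) (nat_lit 912) (nat_lit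 231312144) (nat_lit 420) (nat_lit 5) (nat_lit 431) (nat_lit 5) (nat_lit 432) (nat_lit 5) (nat_lit 583) (nat_lit 547) (nat_lit 430)) (XT.nd (nat_lit 78) (nat_lit 912) (nat_lit 0) (XT.lf (nat_lit 0) (nat_lit 1621724890) (nat_lit 912) (nat_lit 1926930638) (nat_lit 76) (nat_lit 7150445850) (nat_lit 419) (nat_lit 5) (nat_lit 431) (nat_lit 5) (nat_lit 420) (nat_lit 5) (nat_lit 584) (nat_lit 547) (nat_lit 429)) (XT.lf (nat_lit 0) (nat_lit 3524274053) (nat_lit 988) (nat_lit 6418929102) (nat_lit 76) (nat_lit 862785839) (nat_lit 407) (nat_lit 5) (nat_lit 420) (nat_lit 5) (nat_lit 408) (nat_lit 5) (nat_lit 585) (nat_lit 547) (nat_lit 428))))) (XT.nd (nat_lit 156) (nat_lit 1672) (nat_lit 0) (XT.nd (nat_lit 78) (nat_lit 836) (nat_lit 0) (XT.lf (nat_lit 0) (nat_lit 5482984339) (nat_lit 988) (nat_lit 103797238) (nat_lit 76) (nat_lit 5327871103) (nat_lit 407) (nat_lit 5) (nat_lit 420) (nat_lit 5) (nat_lit 408) (nat_lit 5) (nat_lit 586) (nat_lit 547) (nat_lit 427)) (XT.lf (nat_lit 0) (nat_lit 6403080388) (nat_lit 836) (nat_lit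 1101315173) (nat_lit 912) (nat_lit 3520624059) (nat_lit 396) (nat_lit 5) (nat_lit 407) (nat_lit 5) (nat_lit 408) (nat_lit 5) (nat_lit 587) (nat_lit 547) (nat_lit 426))) (XT.nd (nat_lit 78) (nat_lit 836) (nat_lit 0) (XT.lf (nat_lit 0) (nat_lit 1887350994) (nat_lit 836) (nat_lit 7696577791) (nat_lit 912) (nat_lit 1553311741) (nat_lit 385) (nat_lit 5) (nat_lit 396) (nat_lit 5) (nat_lit 397) (nat_lit 5) (nat_lit 588) (nat_lit 547) (nat_lit 425)) (XT.nd (nat_lit 78) (nat_lit 760) (nat_lit 0) (XT.lf (nat_lit 0) (nat_lit 468211046) (nat_lit 912) (nat_lit 2690926862) (nat_lit 76) (nat_lit 8092093359) (nat_lit 384) (nat_lit 5) (nat_lit 396) (nat_lit 5) (nat_lit 385) (nat_lit 5) (nat_lit 589) (nat_lit 547) (nat_lit 424)) (XT.lf (nat_lit 0) (nat_lit 2527920347) (nat_lit 836) (nat_lit 7353707445) (nat_lit 76) (nat_lit 1485298058) (nat_lit 374) (nat_lit 5) (nat_lit 385) (nat_lit 5) (nat_lit 375) (nat_lit 5) (nat_lit 590) (nat_lit 547) (nat_lit 423)))))) (XT.nd (nat_lit 390) (nat_lit 2128) (nat_lit 0) (XT.nd (nat_lit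 156) (nat_lit 1596) (nat_lit 0) (XT.nd (nat_lit 78) (nat_lit 760) (nat_lit 0) (XT.lf (nat_lit 0) (nat_lit 4650777830) (nat_lit 836) (nat_lit 636412221) (nat_lit 76) (nat_lit 6197305659) (nat_lit 374) (nat_lit 5) (nat_lit 385) (nat_lit 5) (nat_lit 375) (nat_lit 5) (nat_lit 591) (nat_lit 547) (nat_lit 422)) (XT.lf (nat_lit 0) (nat_lit 6279228375) (nat_lit 760) (nat_lit 560824603) (nat_lit 836) (nat_lit 4763885234) (nat_lit 364) (nat_lit 5) (nat_lit 374) (nat_lit 5) (nat_lit 375) (nat_lit 5) (nat_lit 592) (nat_lit 547) (nat_lit 421))) (XT.nd (nat_lit 78) (nat_lit 836) (nat_lit 0) (XT.lf (nat_lit 0) (nat_lit 1590745038) (nat_lit 760) (nat_lit 7508047068) (nat_lit 836) (nat_lit 2626464336) (nat_lit 354) (nat_lit 5) (nat_lit 364) (nat_lit 5) (nat_lit 365) (nat_lit 5) (nat_lit 593) (nat_lit 547) (nat_lit 420)) (XT.nd (nat_lit 78) (nat_lit 836) (nat_lit 0) (XT.lf (nat_lit 0) (nat_lit 8694490735) (nat_lit 760) (nat_lit 2731234664) (nat_lit 836) (nat_lit 422815687) (nat_lit 354) (nat_lit 5) (nat_lit 364) (nat_lit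 5) (nat_lit 365) (nat_lit 5) (nat_lit 594) (nat_lit 547) (nat_lit 419)) (XT.lf (nat_lit 0) (nat_lit 1824816622) (nat_lit 836) (nat_lit 7999808142) (nat_lit 76) (nat_lit 2148953218) (nat_lit 343) (nat_lit 5) (nat_lit 354) (nat_lit 5) (nat_lit 344) (nat_lit 5) (nat_lit 595) (nat_lit 547) (nat_lit 418))))) (XT.nd (nat_lit 156) (nat_lit 1444) (nat_lit 0) (XT.nd (nat_lit 78) (nat_lit 684) (nat_lit 0) (XT.lf (nat_lit 0) (nat_lit 4135136651) (nat_lit 836) (nat_lit 853292328) (nat_lit 76) (nat_lit 7112163221) (nat_lit 343) (nat_lit 5) (nat_lit 354) (nat_lit 5) (nat_lit 344) (nat_lit 5) (nat_lit 596) (nat_lit 547) (nat_lit 417)) (XT.lf (nat_lit 0) (nat_lit 6503335907) (nat_lit 684) (nat_lit 14863037) (nat_lit 760) (nat_lit 5711417446) (nat_lit 334) (nat_lit 5) (nat_lit 343) (nat_lit 5) (nat_lit 344) (nat_lit 5) (nat_lit 597) (nat_lit 547) (nat_lit 416))) (XT.nd (nat_lit 78) (nat_lit 760) (nat_lit 0) (XT.lf (nat_lit 0) (nat_lit 1627740615) (nat_lit 684) (nat_lit 7354841723) (nat_lit 760) (nat_lit 3377965924) (nat_lit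 325) (nat_lit 5) (nat_lit 334) (nat_lit 5) (nat_lit 335) (nat_lit 5) (nat_lit 598) (nat_lit 547) (nat_lit 415)) (XT.nd (nat_lit 78) (nat_lit 760) (nat_lit 0) (XT.lf (nat_lit 0) (nat_lit 9188198615) (nat_lit 684) (nat_lit 2331251672) (nat_lit 760) (nat_lit 974184937) (nat_lit 325) (nat_lit 5) (nat_lit 334) (nat_lit 5) (nat_lit 335) (nat_lit 5) (nat_lit 599) (nat_lit 547) (nat_lit 414)) (XT.lf (nat_lit 0) (nat_lit 1489441247) (nat_lit 760) (nat_lit 8348035935) (nat_lit 76) (nat_lit 2791092246) (nat_lit 315) (nat_lit 5) (nat_lit 325) (nat_lit 5) (nat_lit 316) (nat_lit 5) (nat_lit 600) (nat_lit 547) (nat_lit 413))))))) (XT.nd (nat_lit 780) (nat_lit 608) (nat_lit 0) (XT.nd (nat_lit 390) (nat_lit 1824) (nat_lit 0) (XT.nd (nat_lit 156) (nat_lit 1292) (nat_lit 0) (XT.nd (nat_lit 78) (nat_lit 684) (nat_lit 0) (XT.lf (nat_lit 0) (nat_lit 4012109382) (nat_lit 760) (nat_lit 742938753) (nat_lit 76) (nat_lit 8010569486) (nat_lit 315) (nat_lit 5) (nat_lit 325) (nat_lit 5) (nat_lit 316) (nat_lit 5) (nat_lit 601) (nat_lit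 547) (nat_lit 412)) (XT.lf (nat_lit 0) (nat_lit 6619658221) (nat_lit 760) (nat_lit 5818426118) (nat_lit 76) (nat_lit 466634250) (nat_lit 306) (nat_lit 5) (nat_lit 316) (nat_lit 5) (nat_lit 307) (nat_lit 5) (nat_lit 602) (nat_lit 547) (nat_lit 411))) (XT.nd (nat_lit 78) (nat_lit 684) (nat_lit 0) (XT.lf (nat_lit 0) (nat_lit 2012581186) (nat_lit 608) (nat_lit 7301832915) (nat_lit 684) (nat_lit 3731486707) (nat_lit 298) (nat_lit 5) (nat_lit 306) (nat_lit 5) (nat_lit 307) (nat_lit 5) (nat_lit 603) (nat_lit 547) (nat_lit 410)) (XT.nd (nat_lit 78) (nat_lit 684) (nat_lit 0) (XT.lf (nat_lit 0) (nat_lit 10061229184) (nat_lit 608) (nat_lit 2026529568) (nat_lit 684) (nat_lit 1101654392) (nat_lit 298) (nat_lit 5) (nat_lit 306) (nat_lit 5) (nat_lit 307) (nat_lit 5) (nat_lit 604) (nat_lit 547) (nat_lit 409)) (XT.lf (nat_lit 0) (nat_lit 1600199919) (nat_lit 684) (nat_lit 8384949992) (nat_lit 76) (nat_lit 3349637728) (nat_lit 289) (nat_lit 5) (nat_lit 298) (nat_lit 5) (nat_lit 290) (nat_lit 5) (nat_lit 605) (nat_lit 547)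 (nat_lit 408))))) (XT.nd (nat_lit 156) (nat_lit 1216) (nat_lit 0) (XT.nd (nat_lit 78) (nat_lit 608) (nat_lit 0) (XT.lf (nat_lit 0) (nat_lit 4361882718) (nat_lit 684) (nat_lit 289511272) (nat_lit 76) (nat_lit 8831119470) (nat_lit 289) (nat_lit 5) (nat_lit 298) (nat_lit 5) (nat_lit 290) (nat_lit 5) (nat_lit 606) (nat_lit 547) (nat_lit 407)) (XT.lf (nat_lit 0) (nat_lit 7222801481) (nat_lit 684) (nat_lit 5581855280) (nat_lit 76) (nat_lit 827657309) (nat_lit 281) (nat_lit 5) (nat_lit 290) (nat_lit 5) (nat_lit 282) (nat_lit 5) (nat_lit 607) (nat_lit 547) (nat_lit 406))) (XT.nd (nat_lit 78) (nat_lit 608) (nat_lit 0) (XT.lf (nat_lit 0) (nat_lit 2763900970) (nat_lit 608) (nat_lit 7414126837) (nat_lit 684) (nat_lit 3606341415) (nat_lit 273) (nat_lit 5) (nat_lit 281) (nat_lit 5) (nat_lit 282) (nat_lit 5) (nat_lit 608) (nat_lit 547) (nat_lit 405)) (XT.nd (nat_lit 78) (nat_lit 608) (nat_lit 0) (XT.lf (nat_lit 0) (nat_lit 11334739628) (nat_lit 608) (nat_lit 1881614130) (nat_lit 684) (nat_lit 722632124) (nat_lit 273) (nat_lit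 5) (nat_lit 281) (nat_lit 5) (nat_lit 282) (nat_lit 5) (nat_lit 609) (nat_lit 547) (nat_lit 404)) (XT.lf (nat_lit 0) (nat_lit 2240252281) (nat_lit 608) (nat_lit 8093023016) (nat_lit 76) (nat_lit 3762119754) (nat_lit 265) (nat_lit 5) (nat_lit 273) (nat_lit 5) (nat_lit 266) (nat_lit 5) (nat_lit 610) (nat_lit 547) (nat_lit 403)))))) (XT.nd (nat_lit 76518) (nat_lit 0) (nat_lit 25688) (XT.nd (nat_lit 76284) (nat_lit 0) (nat_lit 27056) (XT.nd (nat_lit 78) (nat_lit 0) (nat_lit 0) (XT.lf (nat_lit 0) (nat_lit 534029983) (nat_lit 608) (nat_lit 4739053705) (nat_lit 684) (nat_lit 8981346167) (nat_lit 257) (nat_lit 5) (nat_lit 265) (nat_lit 5) (nat_lit 266) (nat_lit 5) (nat_lit 611) (nat_lit 547) (nat_lit 402)) (XT.lf (nat_lit 0) (nat_lit 8414472483) (nat_lit 684) (nat_lit 4996440832) (nat_lit 76) (nat_lit 1004774307) (nat_lit 257) (nat_lit 5) (nat_lit 266) (nat_lit 5) (nat_lit 258) (nat_lit 5) (nat_lit 612) (nat_lit 547) (nat_lit 401))) (XT.nd (nat_lit 78) (nat_lit 0) (nat_lit 0) (XT.lf (nat_lit 0) (nat_lit 1756770196)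 (nat_lit 1444) (nat_lit 1105018573) (nat_lit 1444) (nat_lit 1105018573) (nat_lit 613) (nat_lit 3) (nat_lit 632) (nat_lit 3) (nat_lit 632) (nat_lit 5) (nat_lit 548) (nat_lit 548) (nat_lit 464)) (XT.nd (nat_lit 78) (nat_lit 0) (nat_lit 0) (XT.lf (nat_lit 76) (nat_lit 1765779945) (nat_lit 0) (nat_lit 3036737128) (nat_lit 1444) (nat_lit 3185311991) (nat_lit 614) (nat_lit 5) (nat_lit 613) (nat_lit 3) (nat_lit 632) (nat_lit 5) (nat_lit 549) (nat_lit 548) (nat_lit 463)) (XT.lf (nat_lit 76) (nat_lit 5834229673) (nat_lit 0) (nat_lit 265176795) (nat_lit 1444) (nat_lit 1944079778) (nat_lit 614) (nat_lit 5) (nat_lit 613) (nat_lit 3) (nat_lit 632) (nat_lit 5) (nat_lit 550) (nat_lit 548) (nat_lit 462))))) (XT.nd (nat_lit 234) (nat_lit 0) (nat_lit 76) (XT.nd (nat_lit 78) (nat_lit 1444) (nat_lit 0) (XT.lf (nat_lit 76) (nat_lit 1874488753) (nat_lit 0) (nat_lit 5544593046) (nat_lit 1444) (nat_lit 681238967) (nat_lit 615) (nat_lit 5) (nat_lit 614) (nat_lit 5) (nat_lit 633) (nat_lit 5) (nat_lit 551) (nat_lit 548) (nat_lit 461))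 (XT.nd (nat_lit 78) (nat_lit 0) (nat_lit 76) (XT.lf (nat_lit 0) (nat_lit 583929867) (nat_lit 1444) (nat_lit 2111496402) (nat_lit 1520) (nat_lit 5463087410) (nat_lit 595) (nat_lit 5) (nat_lit 614) (nat_lit 5) (nat_lit 615) (nat_lit 5) (nat_lit 552) (nat_lit 548) (nat_lit 460)) (XT.lf (nat_lit 0) (nat_lit 1849412646) (nat_lit 1444) (nat_lit 6128890295) (nat_lit 1520) (nat_lit 239795890) (nat_lit 596) (nat_lit 5) (nat_lit 615) (nat_lit 5) (nat_lit 616) (nat_lit 5) (nat_lit 553) (nat_lit 548) (nat_lit 459)))) (XT.nd (nat_lit 78) (nat_lit 0) (nat_lit 0) (XT.lf (nat_lit 0) (nat_lit 3141874449) (nat_lit 1444) (nat_lit 1911790934) (nat_lit 1520) (nat_lit 3225177985) (nat_lit 596) (nat_lit 5) (nat_lit 615) (nat_lit 5) (nat_lit 616) (nat_lit 5) (nat_lit 554) (nat_lit 548) (nat_lit 458)) (XT.nd (nat_lit 78) (nat_lit 0) (nat_lit 76) (XT.lf (nat_lit 76) (nat_lit 2403720987) (nat_lit 0) (nat_lit 2042223773) (nat_lit 1520) (nat_lit 3895143896) (nat_lit 597) (nat_lit 5) (nat_lit 596) (nat_lit 5) (nat_lit 616) (nat_lit 5)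 (nat_lit 555) (nat_lit 548) (nat_lit 457)) (XT.lf (nat_lit 0) (nat_lit 5766397930) (nat_lit 1444) (nat_lit 1597639588) (nat_lit 1520) (nat_lit 1040736329) (nat_lit 597) (nat_lit 5) (nat_lit 616) (nat_lit 5) (nat_lit 617) (nat_lit 5) (nat_lit 556) (nat_lit 548) (nat_lit 456))))))))
noncomputable def xc123 : XT := (XT.nd (nat_lit 1560) (nat_lit 12236) (nat_lit 0) (XT.nd (nat_lit 780) (nat_lit 4864) (nat_lit 0) (XT.nd (nat_lit 390) (nat_lit 1444) (nat_lit 0) (XT.nd (nat_lit 156) (nat_lit 1444) (nat_lit 0) (XT.nd (nat_lit 78) (nat_lit 0) (nat_lit 0) (XT.lf (nat_lit 76) (nat_lit 2834885005) (nat_lit 0) (nat_lit 4281583731) (nat_lit 1520) (nat_lit 1353200840) (nat_lit 598) (nat_lit 5) (nat_lit 597) (nat_lit 5) (nat_lit 617) (nat_lit 5) (nat_lit 557) (nat_lit 548) (nat_lit 455)) (XT.lf (nat_lit 76) (nat_lit 7360179242) (nat_lit 0) (nat_lit 1115809992) (nat_lit 1520) (nat_lit 60226008) (nat_lit 598) (nat_lit 5) (nat_lit 597) (nat_lit 5) (nat_lit 617) (nat_lit 5) (nat_lit 558) (nat_lit 548) (nat_lit 454))) (XT.nd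 (nat_lit 78) (nat_lit 0) (nat_lit 0) (XT.lf (nat_lit 0) (nat_lit 1250200551) (nat_lit 1520) (nat_lit 5227415712) (nat_lit 1596) (nat_lit 2126151089) (nat_lit 578) (nat_lit 5) (nat_lit 598) (nat_lit 5) (nat_lit 599) (nat_lit 5) (nat_lit 559) (nat_lit 548) (nat_lit 453)) (XT.nd (nat_lit 78) (nat_lit 0) (nat_lit 76) (XT.lf (nat_lit 0) (nat_lit 2573959517) (nat_lit 1520) (nat_lit 662689710) (nat_lit 1596) (nat_lit 5436255639) (nat_lit 578) (nat_lit 5) (nat_lit 598) (nat_lit 5) (nat_lit 599) (nat_lit 5) (nat_lit 560) (nat_lit 548) (nat_lit 452)) (XT.lf (nat_lit 0) (nat_lit 3924163930) (nat_lit 1520) (nat_lit 4715667861) (nat_lit 1596) (nat_lit 103594846) (nat_lit 579) (nat_lit 5) (nat_lit 599) (nat_lit 5) (nat_lit 600) (nat_lit 5) (nat_lit 561) (nat_lit 548) (nat_lit 451))))) (XT.nd (nat_lit 156) (nat_lit 1520) (nat_lit 0) (XT.nd (nat_lit 78) (nat_lit 0) (nat_lit 0) (XT.lf (nat_lit 0) (nat_lit 5300887056) (nat_lit 1520) (nat_lit 33916688) (nat_lit 1596) (nat_lit 3480565699) (nat_lit 579) (nat_lit 5) (nat_lit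 599) (nat_lit 5) (nat_lit 600) (nat_lit 5) (nat_lit 562) (nat_lit 548) (nat_lit 450)) (XT.lf (nat_lit 76) (nat_lit 4786419019) (nat_lit 0) (nat_lit 1923923227) (nat_lit 1596) (nat_lit 2178305783) (nat_lit 580) (nat_lit 5) (nat_lit 579) (nat_lit 5) (nat_lit 600) (nat_lit 5) (nat_lit 563) (nat_lit 548) (nat_lit 449))) (XT.nd (nat_lit 78) (nat_lit 1596) (nat_lit 0) (XT.lf (nat_lit 76) (nat_lit 721326085) (nat_lit 0) (nat_lit 7416234076) (nat_lit 1596) (nat_lit 826041413) (nat_lit 581) (nat_lit 5) (nat_lit 580) (nat_lit 5) (nat_lit 601) (nat_lit 5) (nat_lit 564) (nat_lit 548) (nat_lit 448)) (XT.nd (nat_lit 78) (nat_lit 0) (nat_lit 0) (XT.lf (nat_lit 0) (nat_lit 561241777) (nat_lit 1596) (nat_lit 3377545129) (nat_lit 1672) (nat_lit 5100891671) (nat_lit 559) (nat_lit 5) (nat_lit 580) (nat_lit 5) (nat_lit 581) (nat_lit 5) (nat_lit 565) (nat_lit 548) (nat_lit 447)) (XT.lf (nat_lit 76) (nat_lit 1581630304) (nat_lit 0) (nat_lit 369131623) (nat_lit 1672) (nat_lit 7166695758) (nat_lit 560) (nat_lit 5) (nat_lit 559)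 (nat_lit 5) (nat_lit 581) (nat_lit 5) (nat_lit 566) (nat_lit 548) (nat_lit 446)))))) (XT.nd (nat_lit 390) (nat_lit 4940) (nat_lit 0) (XT.nd (nat_lit 156) (nat_lit 0) (nat_lit 76) (XT.nd (nat_lit 78) (nat_lit 0) (nat_lit 0) (XT.lf (nat_lit 0) (nat_lit 3387813027) (nat_lit 1596) (nat_lit 2550492320) (nat_lit 1672) (nat_lit 3258093011) (nat_lit 560) (nat_lit 5) (nat_lit 581) (nat_lit 5) (nat_lit 582) (nat_lit 5) (nat_lit 567) (nat_lit 548) (nat_lit 445)) (XT.lf (nat_lit 76) (nat_lit 2547344676) (nat_lit 0) (nat_lit 2301402818) (nat_lit 1672) (nat_lit 4428268282) (nat_lit 561) (nat_lit 5) (nat_lit 560) (nat_lit 5) (nat_lit 582) (nat_lit 5) (nat_lit 568) (nat_lit 548) (nat_lit 444))) (XT.nd (nat_lit 78) (nat_lit 0) (nat_lit 0) (XT.lf (nat_lit 0) (nat_lit 6341816686) (nat_lit 1596) (nat_lit 1605004239) (nat_lit 1672) (nat_lit 1412367059) (nat_lit 561) (nat_lit 5) (nat_lit 582) (nat_lit 5) (nat_lit 583) (nat_lit 5) (nat_lit 569) (nat_lit 548) (nat_lit 443)) (XT.nd (nat_lit 78) (nat_lit 0) (nat_lit 0) (XT.lf (nat_lit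 76) (nat_lit 3636415509) (nat_lit 0) (nat_lit 4244187096) (nat_lit 1672) (nat_lit 1562084672) (nat_lit 562) (nat_lit 5) (nat_lit 561) (nat_lit 5) (nat_lit 583) (nat_lit 5) (nat_lit 570) (nat_lit 548) (nat_lit 442)) (XT.lf (nat_lit 76) (nat_lit 8986347973) (nat_lit 0) (nat_lit 451924500) (nat_lit 1672) (nat_lit 89822651) (nat_lit 562) (nat_lit 5) (nat_lit 561) (nat_lit 5) (nat_lit 583) (nat_lit 5) (nat_lit 571) (nat_lit 548) (nat_lit 441))))) (XT.nd (nat_lit 156) (nat_lit 1748) (nat_lit 0) (XT.nd (nat_lit 78) (nat_lit 1672) (nat_lit 0) (XT.lf (nat_lit 0) (nat_lit 1425064831) (nat_lit 1672) (nat_lit 4772635570) (nat_lit 76) (nat_lit 3416694147) (nat_lit 540) (nat_lit 5) (nat_lit 562) (nat_lit 5) (nat_lit 541) (nat_lit 5) (nat_lit 572) (nat_lit 548) (nat_lit 440)) (XT.lf (nat_lit 0) (nat_lit 624139936) (nat_lit 1672) (nat_lit 2333596798) (nat_lit 1748) (nat_lit 6744898254) (nat_lit 518) (nat_lit 5) (nat_lit 540) (nat_lit 5) (nat_lit 541) (nat_lit 5) (nat_lit 573) (nat_lit 548) (nat_lit 439))) (XT.nd (nat_lit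 78) (nat_lit 1748) (nat_lit 0) (XT.lf (nat_lit 0) (nat_lit 4542059178) (nat_lit 1748) (nat_lit 3627807186) (nat_lit 76) (nat_lit 1622354608) (nat_lit 518) (nat_lit 5) (nat_lit 541) (nat_lit 5) (nat_lit 519) (nat_lit 5) (nat_lit 574) (nat_lit 548) (nat_lit 438)) (XT.nd (nat_lit 78) (nat_lit 0) (nat_lit 0) (XT.lf (nat_lit 0) (nat_lit 1923329832) (nat_lit 1748) (nat_lit 4241424441) (nat_lit 1824) (nat_lit 3718711342) (nat_lit 495) (nat_lit 5) (nat_lit 518) (nat_lit 5) (nat_lit 519) (nat_lit 5) (nat_lit 575) (nat_lit 548) (nat_lit 437)) (XT.lf (nat_lit 0) (nat_lit 7616450961) (nat_lit 1748) (nat_lit 206839707) (nat_lit 1824) (nat_lit 2153177386) (nat_lit 495) (nat_lit 5) (nat_lit 518) (nat_lit 5) (nat_lit 519) (nat_lit 5) (nat_lit 576) (nat_lit 548) (nat_lit 436))))))) (XT.nd (nat_lit 780) (nat_lit 5548) (nat_lit 0) (XT.nd (nat_lit 390) (nat_lit 2736) (nat_lit 0) (XT.nd (nat_lit 156) (nat_lit 2052) (nat_lit 0) (XT.nd (nat_lit 78) (nat_lit 76) (nat_lit 0) (XT.lf (nat_lit 0) (nat_lit 3352408867) (nat_lit 1824)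 (nat_lit 6189202434) (nat_lit 1900) (nat_lit 529187609) (nat_lit 471) (nat_lit 5) (nat_lit 495) (nat_lit 5) (nat_lit 496) (nat_lit 5) (nat_lit 577) (nat_lit 548) (nat_lit 435)) (XT.lf (nat_lit 0) (nat_lit 1109430271) (nat_lit 1900) (nat_lit 982856901) (nat_lit 76) (nat_lit 8074644787) (nat_lit 470) (nat_lit 5) (nat_lit 495) (nat_lit 5) (nat_lit 471) (nat_lit 5) (nat_lit 578) (nat_lit 548) (nat_lit 434))) (XT.nd (nat_lit 78) (nat_lit 912) (nat_lit 0) (XT.lf (nat_lit 0) (nat_lit 2799436444) (nat_lit 1216) (nat_lit 5368269655) (nat_lit 76) (nat_lit 2096698178) (nat_lit 455) (nat_lit 5) (nat_lit 471) (nat_lit 5) (nat_lit 456) (nat_lit 5) (nat_lit 579) (nat_lit 548) (nat_lit 433)) (XT.nd (nat_lit 78) (nat_lit 0) (nat_lit 0) (XT.lf (nat_lit 0) (nat_lit 516850341) (nat_lit 912) (nat_lit 4010550771) (nat_lit 988) (nat_lit 5836342349) (nat_lit 443) (nat_lit 5) (nat_lit 455) (nat_lit 5) (nat_lit 456) (nat_lit 5) (nat_lit 580) (nat_lit 548) (nat_lit 432)) (XT.lf (nat_lit 0) (nat_lit 6308261869) (nat_lit 988) (nat_lit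 3892277187) (nat_lit 76) (nat_lit 264164217) (nat_lit 443) (nat_lit 5) (nat_lit 456) (nat_lit 5) (nat_lit 444) (nat_lit 5) (nat_lit 581) (nat_lit 548) (nat_lit 431))))) (XT.nd (nat_lit 156) (nat_lit 1824) (nat_lit 0) (XT.nd (nat_lit 78) (nat_lit 0) (nat_lit 0) (XT.lf (nat_lit 0) (nat_lit 2164991818) (nat_lit 912) (nat_lit 5981327891) (nat_lit 988) (nat_lit 2420931541) (nat_lit 431) (nat_lit 5) (nat_lit 443) (nat_lit 5) (nat_lit 444) (nat_lit 5) (nat_lit 582) (nat_lit 548) (nat_lit 430)) (XT.lf (nat_lit 0) (nat_lit 8378013701) (nat_lit 912) (nat_lit 1650463005) (nat_lit 988) (nat_lit 643227275) (nat_lit 431) (nat_lit 5) (nat_lit 443) (nat_lit 5) (nat_lit 444) (nat_lit 5) (nat_lit 583) (nat_lit 548) (nat_lit 429))) (XT.nd (nat_lit 78) (nat_lit 912) (nat_lit 0) (XT.lf (nat_lit 0) (nat_lit 1180072656) (nat_lit 912) (nat_lit 6832749707) (nat_lit 76) (nat_lit 2764764271) (nat_lit 419) (nat_lit 5) (nat_lit 431) (nat_lit 5) (nat_lit 420) (nat_lit 5) (nat_lit 584) (nat_lit 548) (nat_lit 428)) (XT.nd (nat_lit 78)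 (nat_lit 912) (nat_lit 0) (XT.lf (nat_lit 0) (nat_lit 3039371810) (nat_lit 912) (nat_lit 579638973) (nat_lit 76) (nat_lit 7266328725) (nat_lit 419) (nat_lit 5) (nat_lit 431) (nat_lit 5) (nat_lit 420) (nat_lit 5) (nat_lit 585) (nat_lit 548) (nat_lit 427)) (XT.lf (nat_lit 0) (nat_lit 4961812590) (nat_lit 988) (nat_lit 5143279169) (nat_lit 76) (nat_lit 889637081) (nat_lit 407) (nat_lit 5) (nat_lit 420) (nat_lit 5) (nat_lit 408) (nat_lit 5) (nat_lit 586) (nat_lit 548) (nat_lit 426)))))) (XT.nd (nat_lit 390) (nat_lit 3040) (nat_lit 0) (XT.nd (nat_lit 156) (nat_lit 1672) (nat_lit 0) (XT.nd (nat_lit 78) (nat_lit 0) (nat_lit 0) (XT.lf (nat_lit 0) (nat_lit 1287511303) (nat_lit 836) (nat_lit 5653740194) (nat_lit 912) (nat_lit 4164683978) (nat_lit 396) (nat_lit 5) (nat_lit 407) (nat_lit 5) (nat_lit 408) (nat_lit 5) (nat_lit 587) (nat_lit 548) (nat_lit 425)) (XT.lf (nat_lit 0) (nat_lit 7898584629) (nat_lit 836) (nat_lit 1078745907) (nat_lit 912) (nat_lit 2241695172) (nat_lit 396) (nat_lit 5) (nat_lit 407) (nat_lit 5)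 (nat_lit 408) (nat_lit 5) (nat_lit 588) (nat_lit 548) (nat_lit 424))) (XT.nd (nat_lit 78) (nat_lit 836) (nat_lit 0) (XT.lf (nat_lit 0) (nat_lit 3309576674) (nat_lit 836) (nat_lit 7772212394) (nat_lit 912) (nat_lit 252036005) (nat_lit 385) (nat_lit 5) (nat_lit 396) (nat_lit 5) (nat_lit 397) (nat_lit 5) (nat_lit 589) (nat_lit 548) (nat_lit 423)) (XT.nd (nat_lit 78) (nat_lit 760) (nat_lit 0) (XT.lf (nat_lit 0) (nat_lit 1766661606) (nat_lit 912) (nat_lit 1370246893) (nat_lit 76) (nat_lit 8313530458) (nat_lit 384) (nat_lit 5) (nat_lit 396) (nat_lit 5) (nat_lit 385) (nat_lit 5) (nat_lit 590) (nat_lit 548) (nat_lit 422)) (XT.lf (nat_lit 0) (nat_lit 3851756726) (nat_lit 836) (nat_lit 6110440203) (nat_lit 76) (nat_lit 1606567362) (nat_lit 374) (nat_lit 5) (nat_lit 385) (nat_lit 5) (nat_lit 375) (nat_lit 5) (nat_lit 591) (nat_lit 548) (nat_lit 421))))) (XT.nd (nat_lit 234) (nat_lit 1520) (nat_lit 0) (XT.nd (nat_lit 78) (nat_lit 760) (nat_lit 0) (XT.lf (nat_lit 0) (nat_lit 723427208) (nat_lit 760) (nat_lit 5273374885)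 (nat_lit 836) (nat_lit 5692289516) (nat_lit 364) (nat_lit 5) (nat_lit 374) (nat_lit 5) (nat_lit 375) (nat_lit 5) (nat_lit 592) (nat_lit 548) (nat_lit 420)) (XT.nd (nat_lit 78) (nat_lit 760) (nat_lit 0) (XT.lf (nat_lit 0) (nat_lit 7758925108) (nat_lit 760) (nat_lit 450555760) (nat_lit 836) (nat_lit 3601850395) (nat_lit 364) (nat_lit 5) (nat_lit 374) (nat_lit 5) (nat_lit 375) (nat_lit 5) (nat_lit 593) (nat_lit 548) (nat_lit 419)) (XT.lf (nat_lit 0) (nat_lit 2991503206) (nat_lit 760) (nat_lit 7507383805) (nat_lit 836) (nat_lit 1436479652) (nat_lit 354) (nat_lit 5) (nat_lit 364) (nat_lit 5) (nat_lit 365) (nat_lit 5) (nat_lit 594) (nat_lit 548) (nat_lit 418)))) (XT.nd (nat_lit 78) (nat_lit 1444) (nat_lit 0) (XT.lf (nat_lit 0) (nat_lit 776558890) (nat_lit 836) (nat_lit 1856222481) (nat_lit 76) (nat_lit 9428711781) (nat_lit 353) (nat_lit 5) (nat_lit 364) (nat_lit 5) (nat_lit 354) (nat_lit 5) (nat_lit 595) (nat_lit 548) (nat_lit 417)) (XT.nd (nat_lit 78) (nat_lit 684) (nat_lit 0) (XT.lf (nat_lit 0) (nat_lit 3049725903)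 (nat_lit 836) (nat_lit 6787903147) (nat_lit 76) (nat_lit 2351621582) (nat_lit 343) (nat_lit 5) (nat_lit 354) (nat_lit 5) (nat_lit 344) (nat_lit 5) (nat_lit 596) (nat_lit 548) (nat_lit 416)) (XT.lf (nat_lit 0) (nat_lit 480950715) (nat_lit 684) (nat_lit 4905122054) (nat_lit 760) (nat_lit 6933136558) (nat_lit 334) (nat_lit 5) (nat_lit 343) (nat_lit 5) (nat_lit 344) (nat_lit 5) (nat_lit 597) (nat_lit 548) (nat_lit 415))))))))
noncomputable def xc124 : XT := (XT.nd (nat_lit 77766) (nat_lit 0) (nat_lit 19836) (XT.nd (nat_lit 780) (nat_lit 1824) (nat_lit 0) (XT.nd (nat_lit 390) (nat_lit 1900) (nat_lit 0) (XT.nd (nat_lit 156) (nat_lit 1444) (nat_lit 0) (XT.nd (nat_lit 78) (nat_lit 684) (nat_lit 0) (XT.lf (nat_lit 0) (nat_lit 7800607624) (nat_lit 760) (nat_lit 4482709464) (nat_lit 76) (nat_lit 167821275) (nat_lit 334) (nat_lit 5) (nat_lit 344) (nat_lit 5) (nat_lit 335) (nat_lit 5) (nat_lit 598) (nat_lit 548) (nat_lit 414)) (XT.lf (nat_lit 0) (nat_lit 3009359426) (nat_lit 684) (nat_lit 7291185667) (nat_lit 760) (nat_lit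 2284419030) (nat_lit 325) (nat_lit 5) (nat_lit 334) (nat_lit 5) (nat_lit 335) (nat_lit 5) (nat_lit 599) (nat_lit 548) (nat_lit 413))) (XT.nd (nat_lit 78) (nat_lit 1368) (nat_lit 0) (XT.lf (nat_lit 0) (nat_lit 142773404) (nat_lit 760) (nat_lit 2027524735) (nat_lit 76) (nat_lit 10550842862) (nat_lit 324) (nat_lit 5) (nat_lit 334) (nat_lit 5) (nat_lit 325) (nat_lit 5) (nat_lit 600) (nat_lit 548) (nat_lit 412)) (XT.nd (nat_lit 78) (nat_lit 684) (nat_lit 0) (XT.lf (nat_lit 0) (nat_lit 2630659910) (nat_lit 760) (nat_lit 7165420326) (nat_lit 76) (nat_lit 3062804768) (nat_lit 315) (nat_lit 5) (nat_lit 325) (nat_lit 5) (nat_lit 316) (nat_lit 5) (nat_lit 601) (nat_lit 548) (nat_lit 411)) (XT.lf (nat_lit 0) (nat_lit 572829277) (nat_lit 684) (nat_lit 4612878575) (nat_lit 760) (nat_lit 7813328312) (nat_lit 306) (nat_lit 5) (nat_lit 315) (nat_lit 5) (nat_lit 316) (nat_lit 5) (nat_lit 602) (nat_lit 548) (nat_lit 410))))) (XT.nd (nat_lit 156) (nat_lit 1292) (nat_lit 0) (XT.nd (nat_lit 78) (nat_lit 608) (nat_lit 0) (XT.lf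 (nat_lit 0) (nat_lit 7830399746) (nat_lit 760) (nat_lit 4600365697) (nat_lit 76) (nat_lit 710454390) (nat_lit 306) (nat_lit 5) (nat_lit 316) (nat_lit 5) (nat_lit 307) (nat_lit 5) (nat_lit 603) (nat_lit 548) (nat_lit 409)) (XT.lf (nat_lit 0) (nat_lit 3378482615) (nat_lit 608) (nat_lit 7188031041) (nat_lit 684) (nat_lit 2718963296) (nat_lit 298) (nat_lit 5) (nat_lit 306) (nat_lit 5) (nat_lit 307) (nat_lit 5) (nat_lit 604) (nat_lit 548) (nat_lit 408))) (XT.nd (nat_lit 78) (nat_lit 1292) (nat_lit 0) (XT.lf (nat_lit 0) (nat_lit 11562110439) (nat_lit 608) (nat_lit 1812316500) (nat_lit 684) (nat_lit 57851063) (nat_lit 298) (nat_lit 5) (nat_lit 306) (nat_lit 5) (nat_lit 307) (nat_lit 5) (nat_lit 605) (nat_lit 548) (nat_lit 407)) (XT.nd (nat_lit 78) (nat_lit 608) (nat_lit 0) (XT.lf (nat_lit 0) (nat_lit 2673632652) (nat_lit 684) (nat_lit 7228535819) (nat_lit 76) (nat_lit 3678462179) (nat_lit 289) (nat_lit 5) (nat_lit 298) (nat_lit 5) (nat_lit 290) (nat_lit 5) (nat_lit 606) (nat_lit 548) (nat_lit 406)) (XT.lf (nat_lit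 0) (nat_lit 1016176002) (nat_lit 608) (nat_lit 4460550622) (nat_lit 684) (nat_lit 8254861287) (nat_lit 281) (nat_lit 5) (nat_lit 289) (nat_lit 5) (nat_lit 290) (nat_lit 5) (nat_lit 607) (nat_lit 548) (nat_lit 405)))))) (XT.nd (nat_lit 76596) (nat_lit 0) (nat_lit 25612) (XT.nd (nat_lit 156) (nat_lit 1216) (nat_lit 0) (XT.nd (nat_lit 78) (nat_lit 608) (nat_lit 0) (XT.lf (nat_lit 0) (nat_lit 8378438855) (nat_lit 684) (nat_lit 4385491768) (nat_lit 76) (nat_lit 1120782873) (nat_lit 281) (nat_lit 5) (nat_lit 290) (nat_lit 5) (nat_lit 282) (nat_lit 5) (nat_lit 608) (nat_lit 548) (nat_lit 404)) (XT.lf (nat_lit 0) (nat_lit 4118574340) (nat_lit 608) (nat_lit 7262804819) (nat_lit 684) (nat_lit 2658658858) (nat_lit 273) (nat_lit 5) (nat_lit 281) (nat_lit 5) (nat_lit 282) (nat_lit 5) (nat_lit 609) (nat_lit 548) (nat_lit 403))) (XT.nd (nat_lit 78) (nat_lit 1140) (nat_lit 0) (XT.lf (nat_lit 0) (nat_lit 259282626) (nat_lit 684) (nat_lit 1364493908) (nat_lit 76) (nat_lit 12574328881) (nat_lit 272) (nat_lit 5) (nat_lit 281)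 (nat_lit 5) (nat_lit 273) (nat_lit 5) (nat_lit 610) (nat_lit 548) (nat_lit 402)) (XT.nd (nat_lit 78) (nat_lit 608) (nat_lit 0) (XT.lf (nat_lit 0) (nat_lit 3262678890) (nat_lit 608) (nat_lit 6958731557) (nat_lit 76) (nat_lit 4136318614) (nat_lit 265) (nat_lit 5) (nat_lit 273) (nat_lit 5) (nat_lit 266) (nat_lit 5) (nat_lit 611) (nat_lit 548) (nat_lit 401)) (XT.lf (nat_lit 0) (nat_lit 1832335187) (nat_lit 608) (nat_lit 4513022800) (nat_lit 684) (nat_lit 8174803173) (nat_lit 257) (nat_lit 5) (nat_lit 265) (nat_lit 5) (nat_lit 266) (nat_lit 5) (nat_lit 612) (nat_lit 548) (nat_lit 400))))) (XT.nd (nat_lit 156) (nat_lit 1444) (nat_lit 0) (XT.nd (nat_lit 78) (nat_lit 0) (nat_lit 0) (XT.lf (nat_lit 0) (nat_lit 3026215929) (nat_lit 1444) (nat_lit 497598351) (nat_lit 1444) (nat_lit 497598351) (nat_lit 613) (nat_lit 3) (nat_lit 632) (nat_lit 3) (nat_lit 632) (nat_lit 5) (nat_lit 549) (nat_lit 549) (nat_lit 462)) (XT.lf (nat_lit 76) (nat_lit 3051853564) (nat_lit 0) (nat_lit 4275050934) (nat_lit 1444) (nat_lit 772026857)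 (nat_lit 614) (nat_lit 5) (nat_lit 613) (nat_lit 3) (nat_lit 632) (nat_lit 5) (nat_lit 550) (nat_lit 549) (nat_lit 461))) (XT.nd (nat_lit 78) (nat_lit 0) (nat_lit 76) (XT.lf (nat_lit 0) (nat_lit 439619232) (nat_lit 1444) (nat_lit 982400300) (nat_lit 1520) (nat_lit 6734578311) (nat_lit 594) (nat_lit 5) (nat_lit 613) (nat_lit 3) (nat_lit 614) (nat_lit 5) (nat_lit 551) (nat_lit 549) (nat_lit 460)) (XT.nd (nat_lit 78) (nat_lit 0) (nat_lit 0) (XT.lf (nat_lit 0) (nat_lit 1664754072) (nat_lit 1444) (nat_lit 5041518780) (nat_lit 1520) (nat_lit 1509051970) (nat_lit 595) (nat_lit 5) (nat_lit 614) (nat_lit 5) (nat_lit 615) (nat_lit 5) (nat_lit 552) (nat_lit 549) (nat_lit 459)) (XT.lf (nat_lit 0) (nat_lit 2900024696) (nat_lit 1444) (nat_lit 874982842) (nat_lit 1520) (nat_lit 4500507208) (nat_lit 595) (nat_lit 5) (nat_lit 614) (nat_lit 5) (nat_lit 615) (nat_lit 5) (nat_lit 553) (nat_lit 549) (nat_lit 458))))))) (XT.nd (nat_lit 780) (nat_lit 4484) (nat_lit 0) (XT.nd (nat_lit 390) (nat_lit 0) (nat_lit 0) (XT.nd (nat_lit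 156) (nat_lit 1368) (nat_lit 0) (XT.nd (nat_lit 78) (nat_lit 0) (nat_lit 76) (XT.lf (nat_lit 76) (nat_lit 3402964749) (nat_lit 0) (nat_lit 749306422) (nat_lit 1520) (nat_lit 4184792936) (nat_lit 596) (nat_lit 5) (nat_lit 595) (nat_lit 5) (nat_lit 615) (nat_lit 5) (nat_lit 554) (nat_lit 549) (nat_lit 457)) (XT.lf (nat_lit 0) (nat_lit 5421383780) (nat_lit 1444) (nat_lit 653719168) (nat_lit 1520) (nat_lit 2324906110) (nat_lit 596) (nat_lit 5) (nat_lit 615) (nat_lit 5) (nat_lit 616) (nat_lit 5) (nat_lit 555) (nat_lit 549) (nat_lit 456))) (XT.nd (nat_lit 78) (nat_lit 1444) (nat_lit 0) (XT.lf (nat_lit 76) (nat_lit 3739574652) (nat_lit 0) (nat_lit 2976857808) (nat_lit 1520) (nat_lit 1747770377) (nat_lit 597) (nat_lit 5) (nat_lit 596) (nat_lit 5) (nat_lit 616) (nat_lit 5) (nat_lit 556) (nat_lit 549) (nat_lit 455)) (XT.nd (nat_lit 78) (nat_lit 1520) (nat_lit 0) (XT.lf (nat_lit 0) (nat_lit 8014829546) (nat_lit 1444) (nat_lit 318523838) (nat_lit 1520) (nat_lit 196779145) (nat_lit 597) (nat_lit 5) (nat_lit 616) (nat_lit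 5) (nat_lit 617) (nat_lit 5) (nat_lit 557) (nat_lit 549) (nat_lit 454)) (XT.lf (nat_lit 0) (nat_lit 751549805) (nat_lit 1520) (nat_lit 4407913635) (nat_lit 1596) (nat_lit 3437432695) (nat_lit 577) (nat_lit 5) (nat_lit 597) (nat_lit 5) (nat_lit 598) (nat_lit 5) (nat_lit 558) (nat_lit 549) (nat_lit 453))))) (XT.nd (nat_lit 156) (nat_lit 0) (nat_lit 76) (XT.nd (nat_lit 78) (nat_lit 0) (nat_lit 76) (XT.lf (nat_lit 76) (nat_lit 106757002) (nat_lit 0) (nat_lit 1905578181) (nat_lit 1596) (nat_lit 6653082728) (nat_lit 578) (nat_lit 5) (nat_lit 577) (nat_lit 5) (nat_lit 598) (nat_lit 5) (nat_lit 559) (nat_lit 549) (nat_lit 452)) (XT.lf (nat_lit 0) (nat_lit 3310421539) (nat_lit 1520) (nat_lit 3990330332) (nat_lit 1596) (nat_lit 1434317458) (nat_lit 578) (nat_lit 5) (nat_lit 598) (nat_lit 5) (nat_lit 599) (nat_lit 5) (nat_lit 560) (nat_lit 549) (nat_lit 451))) (XT.nd (nat_lit 78) (nat_lit 0) (nat_lit 0) (XT.lf (nat_lit 76) (nat_lit 647880719) (nat_lit 0) (nat_lit 3977075222) (nat_lit 1596) (nat_lit 4181349001) (nat_lit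 579) (nat_lit 5) (nat_lit 578) (nat_lit 5) (nat_lit 599) (nat_lit 5) (nat_lit 561) (nat_lit 549) (nat_lit 450)) (XT.nd (nat_lit 78) (nat_lit 0) (nat_lit 76) (XT.lf (nat_lit 76) (nat_lit 5415696715) (nat_lit 0) (nat_lit 550926131) (nat_lit 1596) (nat_lit 2912326460) (nat_lit 579) (nat_lit 5) (nat_lit 578) (nat_lit 5) (nat_lit 599) (nat_lit 5) (nat_lit 562) (nat_lit 549) (nat_lit 449)) (XT.lf (nat_lit 76) (nat_lit 1306367242) (nat_lit 0) (nat_lit 6030978828) (nat_lit 1596) (nat_lit 1615656886) (nat_lit 580) (nat_lit 5) (nat_lit 579) (nat_lit 5) (nat_lit 600) (nat_lit 5) (nat_lit 563) (nat_lit 549) (nat_lit 448)))))) (XT.nd (nat_lit 390) (nat_lit 3116) (nat_lit 0) (XT.nd (nat_lit 156) (nat_lit 0) (nat_lit 0) (XT.nd (nat_lit 78) (nat_lit 1520) (nat_lit 0) (XT.lf (nat_lit 76) (nat_lit 6197267022) (nat_lit 0) (nat_lit 2540094690) (nat_lit 1596) (nat_lit 291139252) (nat_lit 580) (nat_lit 5) (nat_lit 579) (nat_lit 5) (nat_lit 600) (nat_lit 5) (nat_lit 564) (nat_lit 549) (nat_lit 447)) (XT.lf (nat_lit 0) (nat_lit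 1041645468) (nat_lit 1596) (nat_lit 7028831791) (nat_lit 1672) (nat_lit 1034981311) (nat_lit 559) (nat_lit 5) (nat_lit 580) (nat_lit 5) (nat_lit 581) (nat_lit 5) (nat_lit 565) (nat_lit 549) (nat_lit 446))) (XT.nd (nat_lit 78) (nat_lit 0) (nat_lit 0) (XT.lf (nat_lit 0) (nat_lit 2408895392) (nat_lit 1596) (nat_lit 2099195311) (nat_lit 1672) (nat_lit 4675592774) (nat_lit 559) (nat_lit 5) (nat_lit 580) (nat_lit 5) (nat_lit 581) (nat_lit 5) (nat_lit 566) (nat_lit 549) (nat_lit 445)) (XT.nd (nat_lit 78) (nat_lit 0) (nat_lit 76) (XT.lf (nat_lit 76) (nat_lit 2950309020) (nat_lit 0) (nat_lit 848569507) (nat_lit 1672) (nat_lit 5464687367) (nat_lit 560) (nat_lit 5) (nat_lit 559) (nat_lit 5) (nat_lit 581) (nat_lit 5) (nat_lit 567) (nat_lit 549) (nat_lit 444)) (XT.lf (nat_lit 0) (nat_lit 5226193274) (nat_lit 1596) (nat_lit 1252137509) (nat_lit 1672) (nat_lit 2866525300) (nat_lit 560) (nat_lit 5) (nat_lit 581) (nat_lit 5) (nat_lit 582) (nat_lit 5) (nat_lit 568) (nat_lit 549) (nat_lit 443))))) (XT.nd (nat_lit 234) (nat_lit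 1596) (nat_lit 0) (XT.nd (nat_lit 78) (nat_lit 1596) (nat_lit 0) (XT.lf (nat_lit 76) (nat_lit 3938778828) (nat_lit 0) (nat_lit 2751552818) (nat_lit 1672) (nat_lit 2737275632) (nat_lit 561) (nat_lit 5) (nat_lit 560) (nat_lit 5) (nat_lit 582) (nat_lit 5) (nat_lit 569) (nat_lit 549) (nat_lit 442)) (XT.nd (nat_lit 78) (nat_lit 1672) (nat_lit 0) (XT.lf (nat_lit 0) (nat_lit 8176481817) (nat_lit 1596) (nat_lit 286065206) (nat_lit 1672) (nat_lit 1049612625) (nat_lit 561) (nat_lit 5) (nat_lit 582) (nat_lit 5) (nat_lit 583) (nat_lit 5) (nat_lit 570) (nat_lit 549) (nat_lit 441)) (XT.lf (nat_lit 0) (nat_lit 121826270) (nat_lit 1672) (nat_lit 4547332438) (nat_lit 1748) (nat_lit 4928650732) (nat_lit 539) (nat_lit 5) (nat_lit 561) (nat_lit 5) (nat_lit 562) (nat_lit 5) (nat_lit 571) (nat_lit 549) (nat_lit 440)))) (XT.nd (nat_lit 78) (nat_lit 1596) (nat_lit 0) (XT.lf (nat_lit 76) (nat_lit 796418551) (nat_lit 0) (nat_lit 779369993) (nat_lit 1748) (nat_lit 8109503940) (nat_lit 540) (nat_lit 5) (nat_lit 539) (nat_lit 5) (nat_lit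 562) (nat_lit 5) (nat_lit 572) (nat_lit 549) (nat_lit 439)) (XT.nd (nat_lit 78) (nat_lit 1672) (nat_lit 0) (XT.lf (nat_lit 0) (nat_lit 3088662425) (nat_lit 1672) (nat_lit 3504137494) (nat_lit 76) (nat_lit 3181129302) (nat_lit 540) (nat_lit 5) (nat_lit 562) (nat_lit 5) (nat_lit 541) (nat_lit 5) (nat_lit 573) (nat_lit 549) (nat_lit 438)) (XT.lf (nat_lit 0) (nat_lit 1991600161) (nat_lit 1672) (nat_lit 2637124305) (nat_lit 1748) (nat_lit 5235676275) (nat_lit 518) (nat_lit 5) (nat_lit 540) (nat_lit 5) (nat_lit 541) (nat_lit 5) (nat_lit 574) (nat_lit 549) (nat_lit 437))))))))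
noncomputable def xc125 : XT := (XT.nd (nat_lit 1560) (nat_lit 7524) (nat_lit 0) (XT.nd (nat_lit 780) (nat_lit 5016) (nat_lit 0) (XT.nd (nat_lit 390) (nat_lit 1900) (nat_lit 0) (XT.nd (nat_lit 156) (nat_lit 3040) (nat_lit 0) (XT.nd (nat_lit 78) (nat_lit 1748) (nat_lit 0) (XT.lf (nat_lit 0) (nat_lit 6211493814) (nat_lit 1748) (nat_lit 2338665243) (nat_lit 76) (nat_lit 1406285166) (nat_lit 518) (nat_lit 5) (nat_lit 541) (nat_lit 5) (nat_lit 519) (nat_lit 5) (nat_lit 575) (nat_lit 549) (nat_lit 436)) (XT.lf (nat_lit 0) (nat_lit 3314535975) (nat_lit 1748) (nat_lit 4529936905) (nat_lit 1824) (nat_lit 2205485244) (nat_lit 495) (nat_lit 5) (nat_lit 518) (nat_lit 5) (nat_lit 519) (nat_lit 5) (nat_lit 576) (nat_lit 549) (nat_lit 435))) (XT.nd (nat_lit 78) (nat_lit 3040) (nat_lit 0) (XT.lf (nat_lit 0) (nat_lit 9094995222) (nat_lit 1748) (nat_lit 410666673) (nat_lit 1824) (nat_lit 639770027) (nat_lit 495) (nat_lit 5) (nat_lit 518) (nat_lit 5) (nat_lit 519) (nat_lit 5) (nat_lit 577) (nat_lit 549) (nat_lit 434)) (XT.nd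 (nat_lit 78) (nat_lit 1140) (nat_lit 0) (XT.lf (nat_lit 0) (nat_lit 980784594) (nat_lit 1900) (nat_lit 5479951899) (nat_lit 76) (nat_lit 3781233406) (nat_lit 470) (nat_lit 5) (nat_lit 495) (nat_lit 5) (nat_lit 471) (nat_lit 5) (nat_lit 578) (nat_lit 549) (nat_lit 433)) (XT.lf (nat_lit 0) (nat_lit 344455906) (nat_lit 1140) (nat_lit 2273200149) (nat_lit 1216) (nat_lit 7722849148) (nat_lit 455) (nat_lit 5) (nat_lit 470) (nat_lit 5) (nat_lit 471) (nat_lit 5) (nat_lit 579) (nat_lit 549) (nat_lit 432))))) (XT.nd (nat_lit 156) (nat_lit 988) (nat_lit 0) (XT.nd (nat_lit 78) (nat_lit 912) (nat_lit 0) (XT.lf (nat_lit 0) (nat_lit 4317948142) (nat_lit 1216) (nat_lit 4111861152) (nat_lit 76) (nat_lit 2010588832) (nat_lit 455) (nat_lit 5) (nat_lit 471) (nat_lit 5) (nat_lit 456) (nat_lit 5) (nat_lit 580) (nat_lit 549) (nat_lit 431)) (XT.lf (nat_lit 0) (nat_lit 1881989047) (nat_lit 912) (nat_lit 4178602407) (nat_lit 988) (nat_lit 4481531113) (nat_lit 443) (nat_lit 5) (nat_lit 455) (nat_lit 5) (nat_lit 456) (nat_lit 5) (nat_lit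 581) (nat_lit 549) (nat_lit 430))) (XT.nd (nat_lit 78) (nat_lit 988) (nat_lit 0) (XT.lf (nat_lit 0) (nat_lit 7848223184) (nat_lit 988) (nat_lit 2612997454) (nat_lit 76) (nat_lit 184458703) (nat_lit 443) (nat_lit 5) (nat_lit 456) (nat_lit 5) (nat_lit 444) (nat_lit 5) (nat_lit 582) (nat_lit 549) (nat_lit 429)) (XT.nd (nat_lit 78) (nat_lit 76) (nat_lit 0) (XT.lf (nat_lit 0) (nat_lit 3556488476) (nat_lit 912) (nat_lit 6147585602) (nat_lit 988) (nat_lit 1046584386) (nat_lit 431) (nat_lit 5) (nat_lit 443) (nat_lit 5) (nat_lit 444) (nat_lit 5) (nat_lit 583) (nat_lit 549) (nat_lit 428)) (XT.lf (nat_lit 0) (nat_lit 729087408) (nat_lit 988) (nat_lit 995209113) (nat_lit 76) (nat_lit 9133355596) (nat_lit 430) (nat_lit 5) (nat_lit 443) (nat_lit 5) (nat_lit 431) (nat_lit 5) (nat_lit 584) (nat_lit 549) (nat_lit 427)))))) (XT.nd (nat_lit 390) (nat_lit 2432) (nat_lit 0) (XT.nd (nat_lit 156) (nat_lit 836) (nat_lit 0) (XT.nd (nat_lit 78) (nat_lit 912) (nat_lit 0) (XT.lf (nat_lit 0) (nat_lit 2561725503) (nat_lit 912) (nat_lit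 5610747566) (nat_lit 76) (nat_lit 2793465397) (nat_lit 419) (nat_lit 5) (nat_lit 431) (nat_lit 5) (nat_lit 420) (nat_lit 5) (nat_lit 585) (nat_lit 549) (nat_lit 426)) (XT.lf (nat_lit 0) (nat_lit 750629689) (nat_lit 912) (nat_lit 3685826078) (nat_lit 988) (nat_lit 6639826491) (nat_lit 407) (nat_lit 5) (nat_lit 419) (nat_lit 5) (nat_lit 420) (nat_lit 5) (nat_lit 586) (nat_lit 549) (nat_lit 425))) (XT.nd (nat_lit 78) (nat_lit 836) (nat_lit 0) (XT.lf (nat_lit 0) (nat_lit 6375017561) (nat_lit 988) (nat_lit 3896636375) (nat_lit 76) (nat_lit 916652743) (nat_lit 407) (nat_lit 5) (nat_lit 420) (nat_lit 5) (nat_lit 408) (nat_lit 5) (nat_lit 587) (nat_lit 549) (nat_lit 424)) (XT.nd (nat_lit 78) (nat_lit 0) (nat_lit 0) (XT.lf (nat_lit 0) (nat_lit 2653891561) (nat_lit 836) (nat_lit 5723093853) (nat_lit 912) (nat_lit 2925093963) (nat_lit 396) (nat_lit 5) (nat_lit 407) (nat_lit 5) (nat_lit 408) (nat_lit 5) (nat_lit 588) (nat_lit 549) (nat_lit 423)) (XT.lf (nat_lit 0) (nat_lit 9370899490) (nat_lit 836) (nat_lit 1057456957)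 (nat_lit 912) (nat_lit 989584277) (nat_lit 396) (nat_lit 5) (nat_lit 407) (nat_lit 5) (nat_lit 408) (nat_lit 5) (nat_lit 589) (nat_lit 549) (nat_lit 422))))) (XT.nd (nat_lit 156) (nat_lit 1520) (nat_lit 0) (XT.nd (nat_lit 78) (nat_lit 0) (nat_lit 0) (XT.lf (nat_lit 0) (nat_lit 1010105019) (nat_lit 912) (nat_lit 6835516700) (nat_lit 76) (nat_lit 3689602518) (nat_lit 384) (nat_lit 5) (nat_lit 396) (nat_lit 5) (nat_lit 385) (nat_lit 5) (nat_lit 590) (nat_lit 549) (nat_lit 421)) (XT.lf (nat_lit 0) (nat_lit 3041024385) (nat_lit 912) (nat_lit 76526777) (nat_lit 76) (nat_lit 8537082144) (nat_lit 384) (nat_lit 5) (nat_lit 396) (nat_lit 5) (nat_lit 385) (nat_lit 5) (nat_lit 591) (nat_lit 549) (nat_lit 420))) (XT.nd (nat_lit 78) (nat_lit 760) (nat_lit 0) (XT.lf (nat_lit 0) (nat_lit 5152626897) (nat_lit 836) (nat_lit 4896296266) (nat_lit 76) (nat_lit 1726706535) (nat_lit 374) (nat_lit 5) (nat_lit 385) (nat_lit 5) (nat_lit 375) (nat_lit 5) (nat_lit 592) (nat_lit 549) (nat_lit 419)) (XT.nd (nat_lit 78) (nat_lit 0) (nat_lit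 0) (XT.lf (nat_lit 0) (nat_lit 2065456698) (nat_lit 760) (nat_lit 5259739114) (nat_lit 836) (nat_lit 4573475949) (nat_lit 364) (nat_lit 5) (nat_lit 374) (nat_lit 5) (nat_lit 375) (nat_lit 5) (nat_lit 593) (nat_lit 549) (nat_lit 418)) (XT.lf (nat_lit 0) (nat_lit 9215633950) (nat_lit 760) (nat_lit 342798964) (nat_lit 836) (nat_lit 2465397836) (nat_lit 364) (nat_lit 5) (nat_lit 374) (nat_lit 5) (nat_lit 375) (nat_lit 5) (nat_lit 594) (nat_lit 549) (nat_lit 417))))))) (XT.nd (nat_lit 780) (nat_lit 3116) (nat_lit 0) (XT.nd (nat_lit 390) (nat_lit 2128) (nat_lit 0) (XT.nd (nat_lit 156) (nat_lit 1444) (nat_lit 0) (XT.nd (nat_lit 78) (nat_lit 76) (nat_lit 0) (XT.lf (nat_lit 0) (nat_lit 4367118801) (nat_lit 760) (nat_lit 7512563965) (nat_lit 836) (nat_lit 270943607) (nat_lit 354) (nat_lit 5) (nat_lit 364) (nat_lit 5) (nat_lit 365) (nat_lit 5) (nat_lit 595) (nat_lit 549) (nat_lit 416)) (XT.lf (nat_lit 0) (nat_lit 1947582843) (nat_lit 836) (nat_lit 587975176) (nat_lit 76) (nat_lit 9744025092) (nat_lit 353) (nat_lit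 5) (nat_lit 364) (nat_lit 5) (nat_lit 354) (nat_lit 5) (nat_lit 596) (nat_lit 549) (nat_lit 415))) (XT.nd (nat_lit 78) (nat_lit 684) (nat_lit 0) (XT.lf (nat_lit 0) (nat_lit 4252985847) (nat_lit 836) (nat_lit 5605032646) (nat_lit 76) (nat_lit 2552142383) (nat_lit 343) (nat_lit 5) (nat_lit 354) (nat_lit 5) (nat_lit 344) (nat_lit 5) (nat_lit 597) (nat_lit 549) (nat_lit 414)) (XT.nd (nat_lit 78) (nat_lit 0) (nat_lit 0) (XT.lf (nat_lit 0) (nat_lit 1800523105) (nat_lit 684) (nat_lit 4821644269) (nat_lit 760) (nat_lit 5920829793) (nat_lit 334) (nat_lit 5) (nat_lit 343) (nat_lit 5) (nat_lit 344) (nat_lit 5) (nat_lit 598) (nat_lit 549) (nat_lit 413)) (XT.lf (nat_lit 0) (nat_lit 9064023786) (nat_lit 760) (nat_lit 3267098180) (nat_lit 76) (nat_lit 346862767) (nat_lit 334) (nat_lit 5) (nat_lit 344) (nat_lit 5) (nat_lit 335) (nat_lit 5) (nat_lit 599) (nat_lit 549) (nat_lit 412))))) (XT.nd (nat_lit 156) (nat_lit 1368) (nat_lit 0) (XT.nd (nat_lit 78) (nat_lit 76) (nat_lit 0) (XT.lf (nat_lit 0) (nat_lit 4366224815) (nat_lit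 684) (nat_lit 7234440280) (nat_lit 760) (nat_lit 1214088367) (nat_lit 325) (nat_lit 5) (nat_lit 334) (nat_lit 5) (nat_lit 335) (nat_lit 5) (nat_lit 600) (nat_lit 549) (nat_lit 411)) (XT.lf (nat_lit 0) (nat_lit 1225415395) (nat_lit 760) (nat_lit 782445614) (nat_lit 76) (nat_lit 10946080398) (nat_lit 324) (nat_lit 5) (nat_lit 334) (nat_lit 5) (nat_lit 325) (nat_lit 5) (nat_lit 601) (nat_lit 549) (nat_lit 410))) (XT.nd (nat_lit 78) (nat_lit 684) (nat_lit 0) (XT.lf (nat_lit 0) (nat_lit 3751544771) (nat_lit 760) (nat_lit 6011558097) (nat_lit 76) (nat_lit 3331568243) (nat_lit 315) (nat_lit 5) (nat_lit 325) (nat_lit 5) (nat_lit 316) (nat_lit 5) (nat_lit 602) (nat_lit 549) (nat_lit 409)) (XT.nd (nat_lit 78) (nat_lit 0) (nat_lit 0) (XT.lf (nat_lit 0) (nat_lit 1872922480) (nat_lit 684) (nat_lit 4472191372) (nat_lit 760) (nat_lit 6892763551) (nat_lit 306) (nat_lit 5) (nat_lit 315) (nat_lit 5) (nat_lit 316) (nat_lit 5) (nat_lit 603) (nat_lit 549) (nat_lit 408)) (XT.lf (nat_lit 0) (nat_lit 9023482521) (nat_lit 760) (nat_lit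 3409761571) (nat_lit 76) (nat_lit 950045499) (nat_lit 306) (nat_lit 5) (nat_lit 316) (nat_lit 5) (nat_lit 307) (nat_lit 5) (nat_lit 604) (nat_lit 549) (nat_lit 407)))))) (XT.nd (nat_lit 390) (nat_lit 1216) (nat_lit 0) (XT.nd (nat_lit 156) (nat_lit 1216) (nat_lit 0) (XT.nd (nat_lit 78) (nat_lit 76) (nat_lit 0) (XT.lf (nat_lit 0) (nat_lit 4720225475) (nat_lit 608) (nat_lit 7082042977) (nat_lit 684) (nat_lit 1728404898) (nat_lit 298) (nat_lit 5) (nat_lit 306) (nat_lit 5) (nat_lit 307) (nat_lit 5) (nat_lit 605) (nat_lit 549) (nat_lit 406)) (XT.lf (nat_lit 0) (nat_lit 952778678) (nat_lit 684) (nat_lit 644538854) (nat_lit 76) (nat_lit 12083369742) (nat_lit 297) (nat_lit 5) (nat_lit 306) (nat_lit 5) (nat_lit 298) (nat_lit 5) (nat_lit 606) (nat_lit 549) (nat_lit 405))) (XT.nd (nat_lit 78) (nat_lit 608) (nat_lit 0) (XT.lf (nat_lit 0) (nat_lit 3728094092) (nat_lit 684) (nat_lit 6100410290) (nat_lit 76) (nat_lit 4003695875) (nat_lit 289) (nat_lit 5) (nat_lit 298) (nat_lit 5) (nat_lit 290) (nat_lit 5) (nat_lit 607)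 (nat_lit 549) (nat_lit 404)) (XT.nd (nat_lit 78) (nat_lit 0) (nat_lit 0) (XT.lf (nat_lit 0) (nat_lit 2300822765) (nat_lit 608) (nat_lit 4275008772) (nat_lit 684) (nat_lit 7410573950) (nat_lit 281) (nat_lit 5) (nat_lit 289) (nat_lit 5) (nat_lit 290) (nat_lit 5) (nat_lit 608) (nat_lit 549) (nat_lit 403)) (XT.lf (nat_lit 0) (nat_lit 9517923572) (nat_lit 684) (nat_lit 3215992244) (nat_lit 76) (nat_lit 1409031303) (nat_lit 281) (nat_lit 5) (nat_lit 290) (nat_lit 5) (nat_lit 282) (nat_lit 5) (nat_lit 609) (nat_lit 549) (nat_lit 402))))) (XT.nd (nat_lit 76518) (nat_lit 0) (nat_lit 25004) (XT.nd (nat_lit 78) (nat_lit 608) (nat_lit 0) (XT.lf (nat_lit 0) (nat_lit 5449884072) (nat_lit 608) (nat_lit 7120090370) (nat_lit 684) (nat_lit 1731623091) (nat_lit 273) (nat_lit 5) (nat_lit 281) (nat_lit 5) (nat_lit 282) (nat_lit 5) (nat_lit 610) (nat_lit 549) (nat_lit 401)) (XT.nd (nat_lit 78) (nat_lit 532) (nat_lit 0) (XT.lf (nat_lit 0) (nat_lit 1212853893) (nat_lit 684) (nat_lit 154709941) (nat_lit 76) (nat_lit 13095514937)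 (nat_lit 272) (nat_lit 5) (nat_lit 281) (nat_lit 5) (nat_lit 273) (nat_lit 5) (nat_lit 611) (nat_lit 549) (nat_lit 400)) (XT.lf (nat_lit 0) (nat_lit 4267591794) (nat_lit 608) (nat_lit 5852085427) (nat_lit 76) (nat_lit 4506392608) (nat_lit 265) (nat_lit 5) (nat_lit 273) (nat_lit 5) (nat_lit 266) (nat_lit 5) (nat_lit 612) (nat_lit 549) (nat_lit 399)))) (XT.nd (nat_lit 78) (nat_lit 0) (nat_lit 0) (XT.lf (nat_lit 0) (nat_lit 96883608) (nat_lit 0) (nat_lit 96883608) (nat_lit 1444) (nat_lit 3884252315) (nat_lit 594) (nat_lit 5) (nat_lit 594) (nat_lit 3) (nat_lit 613) (nat_lit 3) (nat_lit 550) (nat_lit 550) (nat_lit 460)) (XT.nd (nat_lit 78) (nat_lit 0) (nat_lit 0) (XT.lf (nat_lit 0) (nat_lit 1572442451) (nat_lit 1444) (nat_lit 3909409818) (nat_lit 1520) (nat_lit 2732085829) (nat_lit 594) (nat_lit 5) (nat_lit 613) (nat_lit 3) (nat_lit 614) (nat_lit 5) (nat_lit 551) (nat_lit 550) (nat_lit 459)) (XT.lf (nat_lit 76) (nat_lit 210016658) (nat_lit 0) (nat_lit 2543270359) (nat_lit 1520) (nat_lit 5520264394) (nat_lit 595)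 (nat_lit 5) (nat_lit 594) (nat_lit 5) (nat_lit 614) (nat_lit 5) (nat_lit 552) (nat_lit 550) (nat_lit 458))))))))
noncomputable def xc126 : XT := (XT.nd (nat_lit 1560) (nat_lit 12540) (nat_lit 0) (XT.nd (nat_lit 780) (nat_lit 2812) (nat_lit 0) (XT.nd (nat_lit 390) (nat_lit 0) (nat_lit 0) (XT.nd (nat_lit 156) (nat_lit 1444) (nat_lit 0) (XT.nd (nat_lit 78) (nat_lit 0) (nat_lit 0) (XT.lf (nat_lit 0) (nat_lit 3957280754) (nat_lit 1444) (nat_lit 3888679069) (nat_lit 1520) (nat_lit 488407569) (nat_lit 595) (nat_lit 5) (nat_lit 614) (nat_lit 5) (nat_lit 615) (nat_lit 5) (nat_lit 553) (nat_lit 550) (nat_lit 457)) (XT.lf (nat_lit 76) (nat_lit 341079134) (nat_lit 0) (nat_lit 4834093509) (nat_lit 1520) (nat_lit 3221431709) (nat_lit 596) (nat_lit 5) (nat_lit 595) (nat_lit 5) (nat_lit 615) (nat_lit 5) (nat_lit 554) (nat_lit 550) (nat_lit 456))) (XT.nd (nat_lit 78) (nat_lit 1444) (nat_lit 0) (XT.lf (nat_lit 76) (nat_lit 4692026256) (nat_lit 0) (nat_lit 1722720778) (nat_lit 1520) (nat_lit 2045393531) (nat_lit 596) (nat_lit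 5) (nat_lit 595) (nat_lit 5) (nat_lit 615) (nat_lit 5) (nat_lit 555) (nat_lit 550) (nat_lit 455)) (XT.nd (nat_lit 78) (nat_lit 1520) (nat_lit 0) (XT.lf (nat_lit 76) (nat_lit 586873784) (nat_lit 0) (nat_lit 7077343817) (nat_lit 1520) (nat_lit 861028793) (nat_lit 597) (nat_lit 5) (nat_lit 596) (nat_lit 5) (nat_lit 616) (nat_lit 5) (nat_lit 556) (nat_lit 550) (nat_lit 454)) (XT.lf (nat_lit 0) (nat_lit 351469571) (nat_lit 1520) (nat_lit 3541649469) (nat_lit 1596) (nat_lit 4698311235) (nat_lit 576) (nat_lit 5) (nat_lit 596) (nat_lit 5) (nat_lit 597) (nat_lit 5) (nat_lit 557) (nat_lit 550) (nat_lit 453))))) (XT.nd (nat_lit 156) (nat_lit 0) (nat_lit 76) (XT.nd (nat_lit 78) (nat_lit 0) (nat_lit 76) (XT.lf (nat_lit 76) (nat_lit 933161240) (nat_lit 0) (nat_lit 622278703) (nat_lit 1596) (nat_lit 7103809966) (nat_lit 577) (nat_lit 5) (nat_lit 576) (nat_lit 5) (nat_lit 597) (nat_lit 5) (nat_lit 558) (nat_lit 550) (nat_lit 452)) (XT.lf (nat_lit 0) (nat_lit 2798215020) (nat_lit 1520) (nat_lit 3217135890) (nat_lit 1596)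 (nat_lit 2712781433) (nat_lit 577) (nat_lit 5) (nat_lit 597) (nat_lit 5) (nat_lit 598) (nat_lit 5) (nat_lit 559) (nat_lit 550) (nat_lit 451))) (XT.nd (nat_lit 78) (nat_lit 0) (nat_lit 76) (XT.lf (nat_lit 76) (nat_lit 1379414107) (nat_lit 0) (nat_lit 2673215105) (nat_lit 1596) (nat_lit 4746028434) (nat_lit 578) (nat_lit 5) (nat_lit 577) (nat_lit 5) (nat_lit 598) (nat_lit 5) (nat_lit 560) (nat_lit 550) (nat_lit 450)) (XT.nd (nat_lit 78) (nat_lit 0) (nat_lit 0) (XT.lf (nat_lit 0) (nat_lit 5332816992) (nat_lit 1520) (nat_lit 2780600515) (nat_lit 1596) (nat_lit 757163117) (nat_lit 578) (nat_lit 5) (nat_lit 598) (nat_lit 5) (nat_lit 599) (nat_lit 5) (nat_lit 561) (nat_lit 550) (nat_lit 449)) (XT.lf (nat_lit 76) (nat_lit 1941890964) (nat_lit 0) (nat_lit 4701711953) (nat_lit 1596) (nat_lit 2300240117) (nat_lit 579) (nat_lit 5) (nat_lit 578) (nat_lit 5) (nat_lit 599) (nat_lit 5) (nat_lit 562) (nat_lit 550) (nat_lit 448)))))) (XT.nd (nat_lit 390) (nat_lit 1444) (nat_lit 0) (XT.nd (nat_lit 156) (nat_lit 0) (nat_lit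 0) (XT.nd (nat_lit 78) (nat_lit 1520) (nat_lit 0) (XT.lf (nat_lit 76) (nat_lit 6779944601) (nat_lit 0) (nat_lit 1194390954) (nat_lit 1596) (nat_lit 1044361358) (nat_lit 579) (nat_lit 5) (nat_lit 578) (nat_lit 5) (nat_lit 599) (nat_lit 5) (nat_lit 563) (nat_lit 550) (nat_lit 447)) (XT.lf (nat_lit 0) (nat_lit 241693144) (nat_lit 1596) (nat_lit 6474649056) (nat_lit 1672) (nat_lit 2378512518) (nat_lit 558) (nat_lit 5) (nat_lit 579) (nat_lit 5) (nat_lit 580) (nat_lit 5) (nat_lit 564) (nat_lit 550) (nat_lit 446))) (XT.nd (nat_lit 78) (nat_lit 0) (nat_lit 76) (XT.lf (nat_lit 0) (nat_lit 1538353992) (nat_lit 1596) (nat_lit 1597479901) (nat_lit 1672) (nat_lit 6036587129) (nat_lit 558) (nat_lit 5) (nat_lit 579) (nat_lit 5) (nat_lit 580) (nat_lit 5) (nat_lit 565) (nat_lit 550) (nat_lit 445)) (XT.nd (nat_lit 78) (nat_lit 0) (nat_lit 0) (XT.lf (nat_lit 0) (nat_lit 2862898750) (nat_lit 1596) (nat_lit 5849897916) (nat_lit 1672) (nat_lit 538703751) (nat_lit 559) (nat_lit 5) (nat_lit 580) (nat_lit 5) (nat_lit 581) (nat_lit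 5) (nat_lit 566) (nat_lit 550) (nat_lit 444)) (XT.lf (nat_lit 0) (nat_lit 4222191311) (nat_lit 1596) (nat_lit 847541461) (nat_lit 1672) (nat_lit 4262264251) (nat_lit 559) (nat_lit 5) (nat_lit 580) (nat_lit 5) (nat_lit 581) (nat_lit 5) (nat_lit 567) (nat_lit 550) (nat_lit 443))))) (XT.nd (nat_lit 156) (nat_lit 1520) (nat_lit 0) (XT.nd (nat_lit 78) (nat_lit 0) (nat_lit 76) (XT.lf (nat_lit 76) (nat_lit 4294442181) (nat_lit 0) (nat_lit 1319265668) (nat_lit 1672) (nat_lit 3800295698) (nat_lit 560) (nat_lit 5) (nat_lit 559) (nat_lit 5) (nat_lit 581) (nat_lit 5) (nat_lit 568) (nat_lit 550) (nat_lit 442)) (XT.lf (nat_lit 76) (nat_lit 20049881) (nat_lit 0) (nat_lit 7012665934) (nat_lit 1672) (nat_lit 2464941897) (nat_lit 561) (nat_lit 5) (nat_lit 560) (nat_lit 5) (nat_lit 582) (nat_lit 5) (nat_lit 569) (nat_lit 550) (nat_lit 441))) (XT.nd (nat_lit 78) (nat_lit 1596) (nat_lit 0) (XT.lf (nat_lit 76) (nat_lit 5305988909) (nat_lit 0) (nat_lit 3195013269) (nat_lit 1672) (nat_lit 1081565537) (nat_lit 561) (nat_lit 5) (nat_lit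 560) (nat_lit 5) (nat_lit 582) (nat_lit 5) (nat_lit 570) (nat_lit 550) (nat_lit 440)) (XT.nd (nat_lit 78) (nat_lit 0) (nat_lit 0) (XT.lf (nat_lit 0) (nat_lit 314579429) (nat_lit 1672) (nat_lit 8651286552) (nat_lit 1748) (nat_lit 703479398) (nat_lit 539) (nat_lit 5) (nat_lit 561) (nat_lit 5) (nat_lit 562) (nat_lit 5) (nat_lit 571) (nat_lit 550) (nat_lit 439)) (XT.lf (nat_lit 0) (nat_lit 1752728650) (nat_lit 1672) (nat_lit 3326552987) (nat_lit 1748) (nat_lit 4677863384) (nat_lit 539) (nat_lit 5) (nat_lit 561) (nat_lit 5) (nat_lit 562) (nat_lit 5) (nat_lit 572) (nat_lit 550) (nat_lit 438))))))) (XT.nd (nat_lit 780) (nat_lit 5244) (nat_lit 0) (XT.nd (nat_lit 390) (nat_lit 3952) (nat_lit 0) (XT.nd (nat_lit 156) (nat_lit 3344) (nat_lit 0) (XT.nd (nat_lit 78) (nat_lit 0) (nat_lit 76) (XT.lf (nat_lit 76) (nat_lit 2115443246) (nat_lit 0) (nat_lit 1096856787) (nat_lit 1748) (nat_lit 6634548103) (nat_lit 540) (nat_lit 5) (nat_lit 539) (nat_lit 5) (nat_lit 562) (nat_lit 5) (nat_lit 573) (nat_lit 550) (nat_lit 437))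 (XT.lf (nat_lit 0) (nat_lit 4722039189) (nat_lit 1672) (nat_lit 2263233329) (nat_lit 76) (nat_lit 2952653919) (nat_lit 540) (nat_lit 5) (nat_lit 562) (nat_lit 5) (nat_lit 541) (nat_lit 5) (nat_lit 574) (nat_lit 550) (nat_lit 436))) (XT.nd (nat_lit 78) (nat_lit 1748) (nat_lit 0) (XT.lf (nat_lit 0) (nat_lit 3333794166) (nat_lit 1672) (nat_lit 2936748348) (nat_lit 1748) (nat_lit 3760113039) (nat_lit 518) (nat_lit 5) (nat_lit 540) (nat_lit 5) (nat_lit 541) (nat_lit 5) (nat_lit 575) (nat_lit 550) (nat_lit 435)) (XT.nd (nat_lit 78) (nat_lit 1748) (nat_lit 0) (XT.lf (nat_lit 0) (nat_lit 7853018435) (nat_lit 1748) (nat_lit 1076616857) (nat_lit 76) (nat_lit 1195544535) (nat_lit 518) (nat_lit 5) (nat_lit 541) (nat_lit 5) (nat_lit 519) (nat_lit 5) (nat_lit 576) (nat_lit 550) (nat_lit 434)) (XT.lf (nat_lit 0) (nat_lit 4681037716) (nat_lit 1748) (nat_lit 4816310321) (nat_lit 1824) (nat_lit 723643080) (nat_lit 495) (nat_lit 5) (nat_lit 518) (nat_lit 5) (nat_lit 519) (nat_lit 5) (nat_lit 577) (nat_lit 550) (nat_lit 433)))))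 (XT.nd (nat_lit 156) (nat_lit 2052) (nat_lit 0) (XT.nd (nat_lit 78) (nat_lit 0) (nat_lit 0) (XT.lf (nat_lit 0) (nat_lit 230192527) (nat_lit 1824) (nat_lit 603705646) (nat_lit 1900) (nat_lit 9484924372) (nat_lit 470) (nat_lit 5) (nat_lit 494) (nat_lit 5) (nat_lit 495) (nat_lit 5) (nat_lit 578) (nat_lit 550) (nat_lit 432)) (XT.lf (nat_lit 0) (nat_lit 2455106897) (nat_lit 1900) (nat_lit 4273421187) (nat_lit 76) (nat_lit 3689143305) (nat_lit 470) (nat_lit 5) (nat_lit 495) (nat_lit 5) (nat_lit 471) (nat_lit 5) (nat_lit 579) (nat_lit 550) (nat_lit 431))) (XT.nd (nat_lit 78) (nat_lit 912) (nat_lit 0) (XT.lf (nat_lit 0) (nat_lit 1658816026) (nat_lit 1140) (nat_lit 2445865070) (nat_lit 1216) (nat_lit 6413897854) (nat_lit 455) (nat_lit 5) (nat_lit 470) (nat_lit 5) (nat_lit 471) (nat_lit 5) (nat_lit 580) (nat_lit 550) (nat_lit 430)) (XT.nd (nat_lit 78) (nat_lit 912) (nat_lit 0) (XT.lf (nat_lit 0) (nat_lit 5810038524) (nat_lit 1216) (nat_lit 2883281482) (nat_lit 76) (nat_lit 1927729377) (nat_lit 455) (nat_lit 5) (nat_lit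 471) (nat_lit 5) (nat_lit 456) (nat_lit 5) (nat_lit 581) (nat_lit 550) (nat_lit 429)) (XT.lf (nat_lit 0) (nat_lit 3221821925) (nat_lit 912) (nat_lit 4346604117) (nat_lit 988) (nat_lit 3156765269) (nat_lit 443) (nat_lit 5) (nat_lit 455) (nat_lit 5) (nat_lit 456) (nat_lit 5) (nat_lit 582) (nat_lit 550) (nat_lit 428)))))) (XT.nd (nat_lit 390) (nat_lit 2508) (nat_lit 0) (XT.nd (nat_lit 156) (nat_lit 1748) (nat_lit 0) (XT.nd (nat_lit 78) (nat_lit 988) (nat_lit 0) (XT.lf (nat_lit 0) (nat_lit 9364084301) (nat_lit 988) (nat_lit 1360830954) (nat_lit 76) (nat_lit 106459297) (nat_lit 443) (nat_lit 5) (nat_lit 456) (nat_lit 5) (nat_lit 444) (nat_lit 5) (nat_lit 583) (nat_lit 550) (nat_lit 427)) (XT.lf (nat_lit 0) (nat_lit 296067401) (nat_lit 988) (nat_lit 6017303552) (nat_lit 76) (nat_lit 4625408772) (nat_lit 430) (nat_lit 5) (nat_lit 443) (nat_lit 5) (nat_lit 431) (nat_lit 5) (nat_lit 584) (nat_lit 550) (nat_lit 426))) (XT.nd (nat_lit 78) (nat_lit 912) (nat_lit 0) (XT.lf (nat_lit 0) (nat_lit 276571650) (nat_lit 836)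 (nat_lit 1792013594) (nat_lit 912) (nat_lit 8979683484) (nat_lit 419) (nat_lit 5) (nat_lit 430) (nat_lit 5) (nat_lit 431) (nat_lit 5) (nat_lit 585) (nat_lit 550) (nat_lit 425)) (XT.nd (nat_lit 78) (nat_lit 912) (nat_lit 0) (XT.lf (nat_lit 0) (nat_lit 3918276616) (nat_lit 912) (nat_lit 4417063696) (nat_lit 76) (nat_lit 2823773230) (nat_lit 419) (nat_lit 5) (nat_lit 431) (nat_lit 5) (nat_lit 420) (nat_lit 5) (nat_lit 586) (nat_lit 550) (nat_lit 424)) (XT.lf (nat_lit 0) (nat_lit 2062949665) (nat_lit 912) (nat_lit 3750380356) (nat_lit 988) (nat_lit 5458678348) (nat_lit 407) (nat_lit 5) (nat_lit 419) (nat_lit 5) (nat_lit 420) (nat_lit 5) (nat_lit 587) (nat_lit 550) (nat_lit 423))))) (XT.nd (nat_lit 234) (nat_lit 1596) (nat_lit 0) (XT.nd (nat_lit 78) (nat_lit 912) (nat_lit 0) (XT.lf (nat_lit 0) (nat_lit 7765463625) (nat_lit 988) (nat_lit 2677463781) (nat_lit 76) (nat_lit 943850580) (nat_lit 407) (nat_lit 5) (nat_lit 420) (nat_lit 5) (nat_lit 408) (nat_lit 5) (nat_lit 588) (nat_lit 550) (nat_lit 422)) (XT.nd (nat_lit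 78) (nat_lit 76) (nat_lit 0) (XT.lf (nat_lit 0) (nat_lit 3995541126) (nat_lit 836) (nat_lit 5795532330) (nat_lit 912) (nat_lit 1712081334) (nat_lit 396) (nat_lit 5) (nat_lit 407) (nat_lit 5) (nat_lit 408) (nat_lit 5) (nat_lit 589) (nat_lit 550) (nat_lit 421)) (XT.lf (nat_lit 0) (nat_lit 234095877) (nat_lit 912) (nat_lit 801739901) (nat_lit 76) (nat_lit 10585956318) (nat_lit 395) (nat_lit 5) (nat_lit 407) (nat_lit 5) (nat_lit 396) (nat_lit 5) (nat_lit 590) (nat_lit 550) (nat_lit 420)))) (XT.nd (nat_lit 78) (nat_lit 760) (nat_lit 0) (XT.lf (nat_lit 0) (nat_lit 2245041968) (nat_lit 912) (nat_lit 5677006392) (nat_lit 76) (nat_lit 3819552486) (nat_lit 384) (nat_lit 5) (nat_lit 396) (nat_lit 5) (nat_lit 385) (nat_lit 5) (nat_lit 591) (nat_lit 550) (nat_lit 419)) (XT.nd (nat_lit 78) (nat_lit 0) (nat_lit 0) (XT.lf (nat_lit 0) (nat_lit 1207604799) (nat_lit 760) (nat_lit 3092997163) (nat_lit 836) (nat_lit 7563116341) (nat_lit 374) (nat_lit 5) (nat_lit 384) (nat_lit 5) (nat_lit 385) (nat_lit 5) (nat_lit 592) (nat_lit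 550) (nat_lit 418)) (XT.lf (nat_lit 0) (nat_lit 6431991466) (nat_lit 836) (nat_lit 3709761656) (nat_lit 76) (nat_lit 1845831042) (nat_lit 374) (nat_lit 5) (nat_lit 385) (nat_lit 5) (nat_lit 375) (nat_lit 5) (nat_lit 593) (nat_lit 550) (nat_lit 417))))))))
noncomputable def xc127 : XT := (XT.nd (nat_lit 78000) (nat_lit 0) (nat_lit 20140) (XT.nd (nat_lit 780) (nat_lit 3192) (nat_lit 0) (XT.nd (nat_lit 390) (nat_lit 2128) (nat_lit 0) (XT.nd (nat_lit 156) (nat_lit 1596) (nat_lit 0) (XT.nd (nat_lit 78) (nat_lit 0) (nat_lit 0) (XT.lf (nat_lit 0) (nat_lit 3382775969) (nat_lit 760) (nat_lit 5250455552) (nat_lit 836) (nat_lit 3480151776) (nat_lit 364) (nat_lit 5) (nat_lit 374) (nat_lit 5) (nat_lit 375) (nat_lit 5) (nat_lit 594) (nat_lit 550) (nat_lit 416)) (XT.lf (nat_lit 0) (nat_lit 10650936959) (nat_lit 760) (nat_lit 237421273) (nat_lit 836) (nat_lit 1353143350) (nat_lit 364) (nat_lit 5) (nat_lit 374) (nat_lit 5) (nat_lit 375) (nat_lit 5) (nat_lit 595) (nat_lit 550) (nat_lit 415))) (XT.nd (nat_lit 78) (nat_lit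 760) (nat_lit 0) (XT.lf (nat_lit 0) (nat_lit 860098117) (nat_lit 836) (nat_lit 6657607165) (nat_lit 76) (nat_lit 4853283323) (nat_lit 353) (nat_lit 5) (nat_lit 364) (nat_lit 5) (nat_lit 354) (nat_lit 5) (nat_lit 596) (nat_lit 550) (nat_lit 414)) (XT.nd (nat_lit 78) (nat_lit 0) (nat_lit 0) (XT.lf (nat_lit 0) (nat_lit 663651811) (nat_lit 760) (nat_lit 2437815137) (nat_lit 836) (nat_lit 9401380293) (nat_lit 343) (nat_lit 5) (nat_lit 353) (nat_lit 5) (nat_lit 354) (nat_lit 5) (nat_lit 597) (nat_lit 550) (nat_lit 413)) (XT.lf (nat_lit 0) (nat_lit 5435955431) (nat_lit 836) (nat_lit 4449708689) (nat_lit 76) (nat_lit 2750713460) (nat_lit 343) (nat_lit 5) (nat_lit 354) (nat_lit 5) (nat_lit 344) (nat_lit 5) (nat_lit 598) (nat_lit 550) (nat_lit 412))))) (XT.nd (nat_lit 156) (nat_lit 1444) (nat_lit 0) (XT.nd (nat_lit 78) (nat_lit 0) (nat_lit 0) (XT.lf (nat_lit 0) (nat_lit 3095619857) (nat_lit 684) (nat_lit 4743547911) (nat_lit 760) (nat_lit 4932970440) (nat_lit 334) (nat_lit 5) (nat_lit 343) (nat_lit 5) (nat_lit 344)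 (nat_lit 5) (nat_lit 599) (nat_lit 550) (nat_lit 411)) (XT.lf (nat_lit 0) (nat_lit 10309706424) (nat_lit 760) (nat_lit 2077859720) (nat_lit 76) (nat_lit 522663024) (nat_lit 334) (nat_lit 5) (nat_lit 344) (nat_lit 5) (nat_lit 335) (nat_lit 5) (nat_lit 600) (nat_lit 550) (nat_lit 410))) (XT.nd (nat_lit 78) (nat_lit 760) (nat_lit 0) (XT.lf (nat_lit 0) (nat_lit 5699875917) (nat_lit 684) (nat_lit 7184425991) (nat_lit 760) (nat_lit 165687470) (nat_lit 325) (nat_lit 5) (nat_lit 334) (nat_lit 5) (nat_lit 335) (nat_lit 5) (nat_lit 601) (nat_lit 550) (nat_lit 409)) (XT.nd (nat_lit 78) (nat_lit 0) (nat_lit 0) (XT.lf (nat_lit 0) (nat_lit 443428163) (nat_lit 684) (nat_lit 1847231665) (nat_lit 760) (nat_lit 10901520038) (nat_lit 315) (nat_lit 5) (nat_lit 324) (nat_lit 5) (nat_lit 325) (nat_lit 5) (nat_lit 602) (nat_lit 550) (nat_lit 408)) (XT.lf (nat_lit 0) (nat_lit 4853365038) (nat_lit 760) (nat_lit 4884989341) (nat_lit 76) (nat_lit 3597649222) (nat_lit 315) (nat_lit 5) (nat_lit 325) (nat_lit 5) (nat_lit 316) (nat_lit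 5) (nat_lit 603) (nat_lit 550) (nat_lit 407)))))) (XT.nd (nat_lit 390) (nat_lit 1216) (nat_lit 0) (XT.nd (nat_lit 156) (nat_lit 1292) (nat_lit 0) (XT.nd (nat_lit 78) (nat_lit 0) (nat_lit 0) (XT.lf (nat_lit 0) (nat_lit 3148978217) (nat_lit 684) (nat_lit 4337735955) (nat_lit 760) (nat_lit 5995602168) (nat_lit 306) (nat_lit 5) (nat_lit 315) (nat_lit 5) (nat_lit 316) (nat_lit 5) (nat_lit 604) (nat_lit 550) (nat_lit 406)) (XT.lf (nat_lit 0) (nat_lit 10200179372) (nat_lit 760) (nat_lit 2245150727) (nat_lit 76) (nat_lit 1185676572) (nat_lit 306) (nat_lit 5) (nat_lit 316) (nat_lit 5) (nat_lit 307) (nat_lit 5) (nat_lit 605) (nat_lit 550) (nat_lit 405))) (XT.nd (nat_lit 78) (nat_lit 684) (nat_lit 0) (XT.lf (nat_lit 0) (nat_lit 6039325493) (nat_lit 608) (nat_lit 6983633197) (nat_lit 684) (nat_lit 758611535) (nat_lit 298) (nat_lit 5) (nat_lit 306) (nat_lit 5) (nat_lit 307) (nat_lit 5) (nat_lit 606) (nat_lit 550) (nat_lit 404)) (XT.nd (nat_lit 78) (nat_lit 0) (nat_lit 0) (XT.lf (nat_lit 0) (nat_lit 563580573) (nat_lit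 608) (nat_lit 1383666816) (nat_lit 684) (nat_lit 11987522593) (nat_lit 289) (nat_lit 5) (nat_lit 297) (nat_lit 5) (nat_lit 298) (nat_lit 5) (nat_lit 607) (nat_lit 550) (nat_lit 403)) (XT.lf (nat_lit 0) (nat_lit 4764775147) (nat_lit 684) (nat_lit 4999142598) (nat_lit 76) (nat_lit 4325661808) (nat_lit 289) (nat_lit 5) (nat_lit 298) (nat_lit 5) (nat_lit 290) (nat_lit 5) (nat_lit 608) (nat_lit 550) (nat_lit 402))))) (XT.nd (nat_lit 156) (nat_lit 608) (nat_lit 0) (XT.nd (nat_lit 78) (nat_lit 0) (nat_lit 0) (XT.lf (nat_lit 0) (nat_lit 3562067251) (nat_lit 608) (nat_lit 4096425074) (nat_lit 684) (nat_lit 6588596499) (nat_lit 281) (nat_lit 5) (nat_lit 289) (nat_lit 5) (nat_lit 290) (nat_lit 5) (nat_lit 609) (nat_lit 550) (nat_lit 401)) (XT.lf (nat_lit 0) (nat_lit 10642457303) (nat_lit 684) (nat_lit 2071921702) (nat_lit 76) (nat_lit 1692722092) (nat_lit 281) (nat_lit 5) (nat_lit 290) (nat_lit 5) (nat_lit 282) (nat_lit 5) (nat_lit 610) (nat_lit 550) (nat_lit 400))) (XT.nd (nat_lit 76518) (nat_lit 0) (nat_lit 24396)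 (XT.lf (nat_lit 0) (nat_lit 6759322205) (nat_lit 608) (nat_lit 6985703880) (nat_lit 684) (nat_lit 824109317) (nat_lit 273) (nat_lit 5) (nat_lit 281) (nat_lit 5) (nat_lit 282) (nat_lit 5) (nat_lit 611) (nat_lit 550) (nat_lit 399)) (XT.nd (nat_lit 78) (nat_lit 0) (nat_lit 0) (XT.lf (nat_lit 0) (nat_lit 676574819) (nat_lit 0) (nat_lit 676574819) (nat_lit 1444) (nat_lit 2783279703) (nat_lit 594) (nat_lit 5) (nat_lit 594) (nat_lit 3) (nat_lit 613) (nat_lit 3) (nat_lit 551) (nat_lit 551) (nat_lit 458)) (XT.lf (nat_lit 0) (nat_lit 3862236235) (nat_lit 1444) (nat_lit 2801999428) (nat_lit 1520) (nat_lit 1668735004) (nat_lit 594) (nat_lit 5) (nat_lit 613) (nat_lit 3) (nat_lit 614) (nat_lit 5) (nat_lit 552) (nat_lit 551) (nat_lit 457))))))) (XT.nd (nat_lit 780) (nat_lit 2812) (nat_lit 0) (XT.nd (nat_lit 390) (nat_lit 0) (nat_lit 76) (XT.nd (nat_lit 156) (nat_lit 1444) (nat_lit 0) (XT.nd (nat_lit 78) (nat_lit 0) (nat_lit 0) (XT.lf (nat_lit 76) (nat_lit 1392015587) (nat_lit 0) (nat_lit 3638047882) (nat_lit 1520) (nat_lit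 3364447016) (nat_lit 595) (nat_lit 5) (nat_lit 594) (nat_lit 5) (nat_lit 614) (nat_lit 5) (nat_lit 553) (nat_lit 551) (nat_lit 456)) (XT.lf (nat_lit 76) (nat_lit 5692649616) (nat_lit 0) (nat_lit 518647036) (nat_lit 1520) (nat_lit 2246184465) (nat_lit 595) (nat_lit 5) (nat_lit 594) (nat_lit 5) (nat_lit 614) (nat_lit 5) (nat_lit 554) (nat_lit 551) (nat_lit 455))) (XT.nd (nat_lit 78) (nat_lit 1520) (nat_lit 0) (XT.lf (nat_lit 76) (nat_lit 1544961710) (nat_lit 0) (nat_lit 5870410896) (nat_lit 1520) (nat_lit 1106355182) (nat_lit 596) (nat_lit 5) (nat_lit 595) (nat_lit 5) (nat_lit 615) (nat_lit 5) (nat_lit 555) (nat_lit 551) (nat_lit 454)) (XT.nd (nat_lit 78) (nat_lit 0) (nat_lit 76) (XT.lf (nat_lit 0) (nat_lit 49806462) (nat_lit 1520) (nat_lit 2628245795) (nat_lit 1596) (nat_lit 5909315300) (nat_lit 575) (nat_lit 5) (nat_lit 595) (nat_lit 5) (nat_lit 596) (nat_lit 5) (nat_lit 556) (nat_lit 551) (nat_lit 453)) (XT.lf (nat_lit 0) (nat_lit 1202695094) (nat_lit 1520) (nat_lit 6850362746) (nat_lit 1596) (nat_lit 601348593)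 (nat_lit 576) (nat_lit 5) (nat_lit 596) (nat_lit 5) (nat_lit 597) (nat_lit 5) (nat_lit 557) (nat_lit 551) (nat_lit 452))))) (XT.nd (nat_lit 156) (nat_lit 0) (nat_lit 76) (XT.nd (nat_lit 78) (nat_lit 0) (nat_lit 0) (XT.lf (nat_lit 0) (nat_lit 2387348047) (nat_lit 1520) (nat_lit 2395742125) (nat_lit 1596) (nat_lit 3939522695) (nat_lit 576) (nat_lit 5) (nat_lit 596) (nat_lit 5) (nat_lit 597) (nat_lit 5) (nat_lit 558) (nat_lit 551) (nat_lit 451)) (XT.lf (nat_lit 76) (nat_lit 2160559927) (nat_lit 0) (nat_lit 1422904457) (nat_lit 1596) (nat_lit 5208964533) (nat_lit 577) (nat_lit 5) (nat_lit 576) (nat_lit 5) (nat_lit 597) (nat_lit 5) (nat_lit 559) (nat_lit 551) (nat_lit 450))) (XT.nd (nat_lit 78) (nat_lit 0) (nat_lit 0) (XT.lf (nat_lit 0) (nat_lit 4806922706) (nat_lit 1520) (nat_lit 2052205234) (nat_lit 1596) (nat_lit 2004445831) (nat_lit 577) (nat_lit 5) (nat_lit 597) (nat_lit 5) (nat_lit 598) (nat_lit 5) (nat_lit 560) (nat_lit 551) (nat_lit 449)) (XT.nd (nat_lit 78) (nat_lit 0) (nat_lit 76) (XT.lf (nat_lit 76)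 (nat_lit 2628188438) (nat_lit 0) (nat_lit 3427876408) (nat_lit 1596) (nat_lit 2880053242) (nat_lit 578) (nat_lit 5) (nat_lit 577) (nat_lit 5) (nat_lit 598) (nat_lit 5) (nat_lit 561) (nat_lit 551) (nat_lit 448)) (XT.lf (nat_lit 0) (nat_lit 7319699228) (nat_lit 1520) (nat_lit 1596750373) (nat_lit 1596) (nat_lit 93874344) (nat_lit 578) (nat_lit 5) (nat_lit 598) (nat_lit 5) (nat_lit 599) (nat_lit 5) (nat_lit 562) (nat_lit 551) (nat_lit 447)))))) (XT.nd (nat_lit 390) (nat_lit 1444) (nat_lit 0) (XT.nd (nat_lit 156) (nat_lit 0) (nat_lit 76) (XT.nd (nat_lit 78) (nat_lit 1596) (nat_lit 0) (XT.lf (nat_lit 76) (nat_lit 3212036579) (nat_lit 0) (nat_lit 5415791584) (nat_lit 1596) (nat_lit 457802144) (nat_lit 579) (nat_lit 5) (nat_lit 578) (nat_lit 5) (nat_lit 599) (nat_lit 5) (nat_lit 563) (nat_lit 551) (nat_lit 446)) (XT.lf (nat_lit 0) (nat_lit 775855193) (nat_lit 1596) (nat_lit 1045104823) (nat_lit 1672) (nat_lit 7341646409) (nat_lit 557) (nat_lit 5) (nat_lit 578) (nat_lit 5) (nat_lit 579) (nat_lit 5) (nat_lit 564)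 (nat_lit 551) (nat_lit 445))) (XT.nd (nat_lit 78) (nat_lit 0) (nat_lit 0) (XT.lf (nat_lit 0) (nat_lit 2042038104) (nat_lit 1596) (nat_lit 5340955130) (nat_lit 1672) (nat_lit 1857789439) (nat_lit 558) (nat_lit 5) (nat_lit 579) (nat_lit 5) (nat_lit 580) (nat_lit 5) (nat_lit 565) (nat_lit 551) (nat_lit 444)) (XT.nd (nat_lit 78) (nat_lit 0) (nat_lit 76) (XT.lf (nat_lit 0) (nat_lit 3329426070) (nat_lit 1596) (nat_lit 391010962) (nat_lit 1672) (nat_lit 5600168549) (nat_lit 558) (nat_lit 5) (nat_lit 579) (nat_lit 5) (nat_lit 580) (nat_lit 5) (nat_lit 566) (nat_lit 551) (nat_lit 443)) (XT.lf (nat_lit 0) (nat_lit 4650664579) (nat_lit 1596) (nat_lit 4698623565) (nat_lit 1672) (nat_lit 52575494) (nat_lit 559) (nat_lit 5) (nat_lit 580) (nat_lit 5) (nat_lit 581) (nat_lit 5) (nat_lit 567) (nat_lit 551) (nat_lit 442))))) (XT.nd (nat_lit 234) (nat_lit 1596) (nat_lit 0) (XT.nd (nat_lit 78) (nat_lit 0) (nat_lit 0) (XT.lf (nat_lit 76) (nat_lit 383947473) (nat_lit 0) (nat_lit 5621756834) (nat_lit 1672) (nat_lit 3478895755)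 (nat_lit 560) (nat_lit 5) (nat_lit 559) (nat_lit 5) (nat_lit 581) (nat_lit 5) (nat_lit 568) (nat_lit 551) (nat_lit 441)) (XT.nd (nat_lit 78) (nat_lit 0) (nat_lit 76) (XT.lf (nat_lit 76) (nat_lit 5615554958) (nat_lit 0) (nat_lit 1781757066) (nat_lit 1672) (nat_lit 2171490563) (nat_lit 560) (nat_lit 5) (nat_lit 559) (nat_lit 5) (nat_lit 581) (nat_lit 5) (nat_lit 569) (nat_lit 551) (nat_lit 440)) (XT.lf (nat_lit 76) (nat_lit 1283621962) (nat_lit 0) (nat_lit 7533732386) (nat_lit 1672) (nat_lit 837323472) (nat_lit 561) (nat_lit 5) (nat_lit 560) (nat_lit 5) (nat_lit 582) (nat_lit 5) (nat_lit 570) (nat_lit 551) (nat_lit 439)))) (XT.nd (nat_lit 78) (nat_lit 0) (nat_lit 76) (XT.lf (nat_lit 0) (nat_lit 533746475) (nat_lit 1672) (nat_lit 3094931548) (nat_lit 1748) (nat_lit 6113183515) (nat_lit 538) (nat_lit 5) (nat_lit 560) (nat_lit 5) (nat_lit 561) (nat_lit 5) (nat_lit 571) (nat_lit 551) (nat_lit 438)) (XT.nd (nat_lit 78) (nat_lit 0) (nat_lit 0) (XT.lf (nat_lit 0) (nat_lit 1917406169) (nat_lit 1672) (nat_lit 7538306303)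 (nat_lit 1748) (nat_lit 375038827) (nat_lit 539) (nat_lit 5) (nat_lit 561) (nat_lit 5) (nat_lit 562) (nat_lit 5) (nat_lit 572) (nat_lit 551) (nat_lit 437)) (XT.lf (nat_lit 0) (nat_lit 3353013764) (nat_lit 1672) (nat_lit 2132293870) (nat_lit 1748) (nat_lit 4435626378) (nat_lit 539) (nat_lit 5) (nat_lit 561) (nat_lit 5) (nat_lit 562) (nat_lit 5) (nat_lit 573) (nat_lit 551) (nat_lit 436))))))))
noncomputable def xc128 : XT := (XT.nd (nat_lit 1560) (nat_lit 7068) (nat_lit 0) (XT.nd (nat_lit 780) (nat_lit 5244) (nat_lit 0) (XT.nd (nat_lit 390) (nat_lit 3876) (nat_lit 0) (XT.nd (nat_lit 156) (nat_lit 3420) (nat_lit 0) (XT.nd (nat_lit 78) (nat_lit 0) (nat_lit 76) (XT.lf (nat_lit 76) (nat_lit 3410247615) (nat_lit 0) (nat_lit 1408970196) (nat_lit 1748) (nat_lit 5193665519) (nat_lit 540) (nat_lit 5) (nat_lit 539) (nat_lit 5) (nat_lit 562) (nat_lit 5) (nat_lit 574) (nat_lit 551) (nat_lit 435)) (XT.lf (nat_lit 0) (nat_lit 6327056208) (nat_lit 1672) (nat_lit 1048418299) (nat_lit 76) (nat_lit 2730951547) (nat_lit 540)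 (nat_lit 5) (nat_lit 562) (nat_lit 5) (nat_lit 541) (nat_lit 5) (nat_lit 575) (nat_lit 551) (nat_lit 434))) (XT.nd (nat_lit 78) (nat_lit 1824) (nat_lit 0) (XT.lf (nat_lit 0) (nat_lit 4652259747) (nat_lit 1672) (nat_lit 3232778160) (nat_lit 1748) (nat_lit 2316402610) (nat_lit 518) (nat_lit 5) (nat_lit 540) (nat_lit 5) (nat_lit 541) (nat_lit 5) (nat_lit 576) (nat_lit 551) (nat_lit 433)) (XT.nd (nat_lit 78) (nat_lit 76) (nat_lit 0) (XT.lf (nat_lit 0) (nat_lit 161973667) (nat_lit 1748) (nat_lit 9307533116) (nat_lit 1824) (nat_lit 828942536) (nat_lit 495) (nat_lit 5) (nat_lit 518) (nat_lit 5) (nat_lit 519) (nat_lit 5) (nat_lit 577) (nat_lit 551) (nat_lit 432)) (XT.lf (nat_lit 0) (nat_lit 719025881) (nat_lit 1824) (nat_lit 4376958113) (nat_lit 76) (nat_lit 5300529790) (nat_lit 494) (nat_lit 5) (nat_lit 518) (nat_lit 5) (nat_lit 495) (nat_lit 5) (nat_lit 578) (nat_lit 551) (nat_lit 431))))) (XT.nd (nat_lit 156) (nat_lit 2052) (nat_lit 0) (XT.nd (nat_lit 78) (nat_lit 0) (nat_lit 0) (XT.lf (nat_lit 0) (nat_lit 1495449698)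 (nat_lit 1824) (nat_lit 782391141) (nat_lit 1900) (nat_lit 8218769944) (nat_lit 470) (nat_lit 5) (nat_lit 494) (nat_lit 5) (nat_lit 495) (nat_lit 5) (nat_lit 579) (nat_lit 551) (nat_lit 430)) (XT.lf (nat_lit 0) (nat_lit 3902427615) (nat_lit 1900) (nat_lit 3093866783) (nat_lit 76) (nat_lit 3601723971) (nat_lit 470) (nat_lit 5) (nat_lit 495) (nat_lit 5) (nat_lit 471) (nat_lit 5) (nat_lit 580) (nat_lit 551) (nat_lit 429))) (XT.nd (nat_lit 78) (nat_lit 912) (nat_lit 0) (XT.lf (nat_lit 0) (nat_lit 2948692656) (nat_lit 1140) (nat_lit 2617043924) (nat_lit 1216) (nat_lit 5135593461) (nat_lit 455) (nat_lit 5) (nat_lit 470) (nat_lit 5) (nat_lit 471) (nat_lit 5) (nat_lit 581) (nat_lit 551) (nat_lit 428)) (XT.nd (nat_lit 78) (nat_lit 912) (nat_lit 0) (XT.lf (nat_lit 0) (nat_lit 7277384449) (nat_lit 1216) (nat_lit 1681030836) (nat_lit 76) (nat_lit 1847991739) (nat_lit 455) (nat_lit 5) (nat_lit 471) (nat_lit 5) (nat_lit 456) (nat_lit 5) (nat_lit 582) (nat_lit 551) (nat_lit 427)) (XT.lf (nat_lit 0) (nat_lit 4537885716)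 (nat_lit 912) (nat_lit 4514687355) (nat_lit 988) (nat_lit 1860426846) (nat_lit 443) (nat_lit 5) (nat_lit 455) (nat_lit 5) (nat_lit 456) (nat_lit 5) (nat_lit 583) (nat_lit 551) (nat_lit 426)))))) (XT.nd (nat_lit 390) (nat_lit 2508) (nat_lit 0) (XT.nd (nat_lit 156) (nat_lit 1748) (nat_lit 0) (XT.nd (nat_lit 78) (nat_lit 988) (nat_lit 0) (XT.lf (nat_lit 0) (nat_lit 10857495027) (nat_lit 988) (nat_lit 134273593) (nat_lit 76) (nat_lit 30071970) (nat_lit 443) (nat_lit 5) (nat_lit 456) (nat_lit 5) (nat_lit 444) (nat_lit 5) (nat_lit 584) (nat_lit 551) (nat_lit 425)) (XT.lf (nat_lit 0) (nat_lit 1599165614) (nat_lit 988) (nat_lit 4874847996) (nat_lit 76) (nat_lit 4657560809) (nat_lit 430) (nat_lit 5) (nat_lit 443) (nat_lit 5) (nat_lit 431) (nat_lit 5) (nat_lit 585) (nat_lit 551) (nat_lit 424))) (XT.nd (nat_lit 78) (nat_lit 912) (nat_lit 0) (XT.lf (nat_lit 0) (nat_lit 1536596805) (nat_lit 836) (nat_lit 1853247174) (nat_lit 912) (nat_lit 7853755753) (nat_lit 419) (nat_lit 5) (nat_lit 430) (nat_lit 5) (nat_lit 431) (nat_lit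 5) (nat_lit 586) (nat_lit 551) (nat_lit 423)) (XT.nd (nat_lit 78) (nat_lit 912) (nat_lit 0) (XT.lf (nat_lit 0) (nat_lit 5251271717) (nat_lit 912) (nat_lit 3250215790) (nat_lit 76) (nat_lit 2855679802) (nat_lit 419) (nat_lit 5) (nat_lit 431) (nat_lit 5) (nat_lit 420) (nat_lit 5) (nat_lit 587) (nat_lit 551) (nat_lit 422)) (XT.lf (nat_lit 0) (nat_lit 3351140014) (nat_lit 912) (nat_lit 3816581502) (nat_lit 988) (nat_lit 4304929316) (nat_lit 407) (nat_lit 5) (nat_lit 419) (nat_lit 5) (nat_lit 420) (nat_lit 5) (nat_lit 588) (nat_lit 551) (nat_lit 421))))) (XT.nd (nat_lit 156) (nat_lit 1672) (nat_lit 0) (XT.nd (nat_lit 78) (nat_lit 836) (nat_lit 0) (XT.lf (nat_lit 0) (nat_lit 9134676890) (nat_lit 988) (nat_lit 1484275915) (nat_lit 76) (nat_lit 971248144) (nat_lit 407) (nat_lit 5) (nat_lit 420) (nat_lit 5) (nat_lit 408) (nat_lit 5) (nat_lit 589) (nat_lit 551) (nat_lit 420)) (XT.lf (nat_lit 0) (nat_lit 5313986872) (nat_lit 836) (nat_lit 5871051396) (nat_lit 912) (nat_lit 524182910) (nat_lit 396) (nat_lit 5) (nat_lit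 407) (nat_lit 5) (nat_lit 408) (nat_lit 5) (nat_lit 590) (nat_lit 551) (nat_lit 419))) (XT.nd (nat_lit 78) (nat_lit 760) (nat_lit 0) (XT.lf (nat_lit 0) (nat_lit 417700266) (nat_lit 836) (nat_lit 1006251734) (nat_lit 912) (nat_lit 10406539927) (nat_lit 384) (nat_lit 5) (nat_lit 395) (nat_lit 5) (nat_lit 396) (nat_lit 5) (nat_lit 591) (nat_lit 551) (nat_lit 418)) (XT.nd (nat_lit 78) (nat_lit 760) (nat_lit 0) (XT.lf (nat_lit 0) (nat_lit 3457508022) (nat_lit 912) (nat_lit 4545620875) (nat_lit 76) (nat_lit 3949920774) (nat_lit 384) (nat_lit 5) (nat_lit 396) (nat_lit 5) (nat_lit 385) (nat_lit 5) (nat_lit 592) (nat_lit 551) (nat_lit 417)) (XT.lf (nat_lit 0) (nat_lit 2468492240) (nat_lit 760) (nat_lit 3070823247) (nat_lit 836) (nat_lit 6538591889) (nat_lit 374) (nat_lit 5) (nat_lit 384) (nat_lit 5) (nat_lit 385) (nat_lit 5) (nat_lit 593) (nat_lit 551) (nat_lit 416))))))) (XT.nd (nat_lit 780) (nat_lit 2584) (nat_lit 0) (XT.nd (nat_lit 390) (nat_lit 2128) (nat_lit 0) (XT.nd (nat_lit 156) (nat_lit 1596) (nat_lit 0)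 (XT.nd (nat_lit 78) (nat_lit 760) (nat_lit 0) (XT.lf (nat_lit 0) (nat_lit 7691265696) (nat_lit 836) (nat_lit 2549373521) (nat_lit 76) (nat_lit 1964053290) (nat_lit 374) (nat_lit 5) (nat_lit 385) (nat_lit 5) (nat_lit 375) (nat_lit 5) (nat_lit 594) (nat_lit 551) (nat_lit 415)) (XT.lf (nat_lit 0) (nat_lit 4676892597) (nat_lit 760) (nat_lit 5245431653) (nat_lit 836) (nat_lit 2410968102) (nat_lit 364) (nat_lit 5) (nat_lit 374) (nat_lit 5) (nat_lit 375) (nat_lit 5) (nat_lit 595) (nat_lit 551) (nat_lit 414))) (XT.nd (nat_lit 78) (nat_lit 1596) (nat_lit 0) (XT.lf (nat_lit 0) (nat_lit 12066368550) (nat_lit 760) (nat_lit 134294198) (nat_lit 836) (nat_lit 263748659) (nat_lit 364) (nat_lit 5) (nat_lit 374) (nat_lit 5) (nat_lit 375) (nat_lit 5) (nat_lit 596) (nat_lit 551) (nat_lit 413)) (XT.nd (nat_lit 78) (nat_lit 760) (nat_lit 0) (XT.lf (nat_lit 0) (nat_lit 1966146728) (nat_lit 836) (nat_lit 5560678349) (nat_lit 76) (nat_lit 5069778051) (nat_lit 353) (nat_lit 5) (nat_lit 364) (nat_lit 5) (nat_lit 354) (nat_lit 5) (nat_lit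 597) (nat_lit 551) (nat_lit 412)) (XT.lf (nat_lit 0) (nat_lit 1898913169) (nat_lit 760) (nat_lit 2340013791) (nat_lit 836) (nat_lit 8492440852) (nat_lit 343) (nat_lit 5) (nat_lit 353) (nat_lit 5) (nat_lit 354) (nat_lit 5) (nat_lit 598) (nat_lit 551) (nat_lit 411))))) (XT.nd (nat_lit 156) (nat_lit 1444) (nat_lit 0) (XT.nd (nat_lit 78) (nat_lit 684) (nat_lit 0) (XT.lf (nat_lit 0) (nat_lit 6599951228) (nat_lit 836) (nat_lit 3320493895) (nat_lit 76) (nat_lit 2947527257) (nat_lit 343) (nat_lit 5) (nat_lit 354) (nat_lit 5) (nat_lit 344) (nat_lit 5) (nat_lit 599) (nat_lit 551) (nat_lit 410)) (XT.lf (nat_lit 0) (nat_lit 4367726689) (nat_lit 684) (nat_lit 4670666808) (nat_lit 760) (nat_lit 3968311945) (nat_lit 334) (nat_lit 5) (nat_lit 343) (nat_lit 5) (nat_lit 344) (nat_lit 5) (nat_lit 600) (nat_lit 551) (nat_lit 409))) (XT.nd (nat_lit 78) (nat_lit 1444) (nat_lit 0) (XT.lf (nat_lit 0) (nat_lit 11538970682) (nat_lit 760) (nat_lit 913553378) (nat_lit 76) (nat_lit 695422130) (nat_lit 334) (nat_lit 5) (nat_lit 344)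 (nat_lit 5) (nat_lit 335) (nat_lit 5) (nat_lit 601) (nat_lit 551) (nat_lit 408)) (XT.nd (nat_lit 78) (nat_lit 684) (nat_lit 0) (XT.lf (nat_lit 0) (nat_lit 850722218) (nat_lit 760) (nat_lit 6284540963) (nat_lit 76) (nat_lit 6155372647) (nat_lit 324) (nat_lit 5) (nat_lit 334) (nat_lit 5) (nat_lit 325) (nat_lit 5) (nat_lit 602) (nat_lit 551) (nat_lit 407)) (XT.lf (nat_lit 0) (nat_lit 1655803979) (nat_lit 684) (nat_lit 1686038853) (nat_lit 760) (nat_lit 10094048584) (nat_lit 315) (nat_lit 5) (nat_lit 324) (nat_lit 5) (nat_lit 325) (nat_lit 5) (nat_lit 603) (nat_lit 551) (nat_lit 406)))))) (XT.nd (nat_lit 390) (nat_lit 608) (nat_lit 0) (XT.nd (nat_lit 156) (nat_lit 1292) (nat_lit 0) (XT.nd (nat_lit 78) (nat_lit 684) (nat_lit 0) (XT.lf (nat_lit 0) (nat_lit 5937350228) (nat_lit 760) (nat_lit 3784303970) (nat_lit 76) (nat_lit 3861306949) (nat_lit 315) (nat_lit 5) (nat_lit 325) (nat_lit 5) (nat_lit 316) (nat_lit 5) (nat_lit 604) (nat_lit 551) (nat_lit 405)) (XT.lf (nat_lit 0) (nat_lit 4402458826) (nat_lit 684) (nat_lit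 4209285710) (nat_lit 760) (nat_lit 5120688516) (nat_lit 306) (nat_lit 5) (nat_lit 315) (nat_lit 5) (nat_lit 316) (nat_lit 5) (nat_lit 605) (nat_lit 551) (nat_lit 404))) (XT.nd (nat_lit 78) (nat_lit 1292) (nat_lit 0) (XT.lf (nat_lit 0) (nat_lit 11361725444) (nat_lit 760) (nat_lit 1105119029) (nat_lit 76) (nat_lit 1417608253) (nat_lit 306) (nat_lit 5) (nat_lit 316) (nat_lit 5) (nat_lit 307) (nat_lit 5) (nat_lit 606) (nat_lit 551) (nat_lit 403)) (XT.nd (nat_lit 78) (nat_lit 608) (nat_lit 0) (XT.lf (nat_lit 0) (nat_lit 189064546) (nat_lit 684) (nat_lit 6702243412) (nat_lit 76) (nat_lit 7146917823) (nat_lit 297) (nat_lit 5) (nat_lit 306) (nat_lit 5) (nat_lit 298) (nat_lit 5) (nat_lit 607) (nat_lit 551) (nat_lit 402)) (XT.lf (nat_lit 0) (nat_lit 1756846704) (nat_lit 608) (nat_lit 1171039532) (nat_lit 684) (nat_lit 11266723378) (nat_lit 289) (nat_lit 5) (nat_lit 297) (nat_lit 5) (nat_lit 298) (nat_lit 5) (nat_lit 608) (nat_lit 551) (nat_lit 401))))) (XT.nd (nat_lit 156) (nat_lit 0) (nat_lit 0) (XT.nd (nat_lit 78)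 (nat_lit 608) (nat_lit 0) (XT.lf (nat_lit 0) (nat_lit 5784829562) (nat_lit 684) (nat_lit 3923350845) (nat_lit 76) (nat_lit 4644674097) (nat_lit 289) (nat_lit 5) (nat_lit 298) (nat_lit 5) (nat_lit 290) (nat_lit 5) (nat_lit 609) (nat_lit 551) (nat_lit 400)) (XT.lf (nat_lit 0) (nat_lit 4801347841) (nat_lit 608) (nat_lit 3924524401) (nat_lit 684) (nat_lit 5787853118) (nat_lit 281) (nat_lit 5) (nat_lit 289) (nat_lit 5) (nat_lit 290) (nat_lit 5) (nat_lit 610) (nat_lit 551) (nat_lit 399))) (XT.nd (nat_lit 76596) (nat_lit 0) (nat_lit 23788) (XT.lf (nat_lit 0) (nat_lit 11753206545) (nat_lit 684) (nat_lit 951893019) (nat_lit 76) (nat_lit 1972164925) (nat_lit 281) (nat_lit 5) (nat_lit 290) (nat_lit 5) (nat_lit 282) (nat_lit 5) (nat_lit 611) (nat_lit 551) (nat_lit 398)) (XT.nd (nat_lit 78) (nat_lit 0) (nat_lit 0) (XT.lf (nat_lit 0) (nat_lit 1245424979) (nat_lit 0) (nat_lit 1245424979) (nat_lit 1444) (nat_lit 1706056353) (nat_lit 594) (nat_lit 5) (nat_lit 594) (nat_lit 3) (nat_lit 613) (nat_lit 3) (nat_lit 552) (nat_lit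 552) (nat_lit 456)) (XT.lf (nat_lit 0) (nat_lit 6110131608) (nat_lit 1444) (nat_lit 1718479068) (nat_lit 1520) (nat_lit 627530175) (nat_lit 594) (nat_lit 5) (nat_lit 613) (nat_lit 3) (nat_lit 614) (nat_lit 5) (nat_lit 553) (nat_lit 552) (nat_lit 455))))))))
noncomputable def xc129 : XT := (XT.nd (nat_lit 1560) (nat_lit 12464) (nat_lit 0) (XT.nd (nat_lit 780) (nat_lit 1368) (nat_lit 0) (XT.nd (nat_lit 390) (nat_lit 1444) (nat_lit 0) (XT.nd (nat_lit 156) (nat_lit 1444) (nat_lit 0) (XT.nd (nat_lit 78) (nat_lit 0) (nat_lit 0) (XT.lf (nat_lit 76) (nat_lit 2551919139) (nat_lit 0) (nat_lit 4714184576) (nat_lit 1520) (nat_lit 1253513479) (nat_lit 595) (nat_lit 5) (nat_lit 594) (nat_lit 5) (nat_lit 614) (nat_lit 5) (nat_lit 554) (nat_lit 552) (nat_lit 454)) (XT.lf (nat_lit 76) (nat_lit 6916368531) (nat_lit 0) (nat_lit 1512721679) (nat_lit 1520) (nat_lit 155595922) (nat_lit 595) (nat_lit 5) (nat_lit 594) (nat_lit 5) (nat_lit 614) (nat_lit 5) (nat_lit 555) (nat_lit 552) (nat_lit 453))) (XT.nd (nat_lit 78) (nat_lit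 0) (nat_lit 0) (XT.lf (nat_lit 0) (nat_lit 953715654) (nat_lit 1520) (nat_lit 5930851850) (nat_lit 1596) (nat_lit 1766323011) (nat_lit 575) (nat_lit 5) (nat_lit 595) (nat_lit 5) (nat_lit 596) (nat_lit 5) (nat_lit 556) (nat_lit 552) (nat_lit 452)) (XT.nd (nat_lit 78) (nat_lit 0) (nat_lit 0) (XT.lf (nat_lit 0) (nat_lit 2077663074) (nat_lit 1520) (nat_lit 1525788461) (nat_lit 1596) (nat_lit 5115057132) (nat_lit 575) (nat_lit 5) (nat_lit 595) (nat_lit 5) (nat_lit 596) (nat_lit 5) (nat_lit 557) (nat_lit 552) (nat_lit 451)) (XT.lf (nat_lit 76) (nat_lit 2991664053) (nat_lit 0) (nat_lit 225617531) (nat_lit 1596) (nat_lit 5570334648) (nat_lit 576) (nat_lit 5) (nat_lit 575) (nat_lit 5) (nat_lit 596) (nat_lit 5) (nat_lit 558) (nat_lit 552) (nat_lit 450))))) (XT.nd (nat_lit 156) (nat_lit 1520) (nat_lit 0) (XT.nd (nat_lit 78) (nat_lit 0) (nat_lit 0) (XT.lf (nat_lit 0) (nat_lit 4385161410) (nat_lit 1520) (nat_lit 1274164145) (nat_lit 1596) (nat_lit 3198671892) (nat_lit 576) (nat_lit 5) (nat_lit 596) (nat_lit 5) (nat_lit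 597) (nat_lit 5) (nat_lit 559) (nat_lit 552) (nat_lit 449)) (XT.lf (nat_lit 76) (nat_lit 3365569917) (nat_lit 0) (nat_lit 2208936729) (nat_lit 1596) (nat_lit 3355318341) (nat_lit 577) (nat_lit 5) (nat_lit 576) (nat_lit 5) (nat_lit 597) (nat_lit 5) (nat_lit 560) (nat_lit 552) (nat_lit 448))) (XT.nd (nat_lit 78) (nat_lit 1596) (nat_lit 0) (XT.lf (nat_lit 0) (nat_lit 6779977141) (nat_lit 1520) (nat_lit 911710148) (nat_lit 1596) (nat_lit 1311555865) (nat_lit 577) (nat_lit 5) (nat_lit 597) (nat_lit 5) (nat_lit 598) (nat_lit 5) (nat_lit 561) (nat_lit 552) (nat_lit 447)) (XT.nd (nat_lit 78) (nat_lit 1596) (nat_lit 0) (XT.lf (nat_lit 76) (nat_lit 3854518113) (nat_lit 0) (nat_lit 4170402603) (nat_lit 1596) (nat_lit 1052902519) (nat_lit 578) (nat_lit 5) (nat_lit 577) (nat_lit 5) (nat_lit 598) (nat_lit 5) (nat_lit 562) (nat_lit 552) (nat_lit 446)) (XT.lf (nat_lit 0) (nat_lit 121106669) (nat_lit 1596) (nat_lit 441809913) (nat_lit 1672) (nat_lit 8591319119) (nat_lit 556) (nat_lit 5) (nat_lit 577) (nat_lit 5) (nat_lit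 578) (nat_lit 5) (nat_lit 563) (nat_lit 552) (nat_lit 445)))))) (XT.nd (nat_lit 390) (nat_lit 1444) (nat_lit 0) (XT.nd (nat_lit 156) (nat_lit 0) (nat_lit 76) (XT.nd (nat_lit 78) (nat_lit 0) (nat_lit 0) (XT.lf (nat_lit 0) (nat_lit 1330472771) (nat_lit 1596) (nat_lit 4780674746) (nat_lit 1672) (nat_lit 3120370981) (nat_lit 557) (nat_lit 5) (nat_lit 578) (nat_lit 5) (nat_lit 579) (nat_lit 5) (nat_lit 564) (nat_lit 552) (nat_lit 444)) (XT.lf (nat_lit 76) (nat_lit 119242312) (nat_lit 0) (nat_lit 2429087241) (nat_lit 1672) (nat_lit 6762332093) (nat_lit 558) (nat_lit 5) (nat_lit 557) (nat_lit 5) (nat_lit 579) (nat_lit 5) (nat_lit 565) (nat_lit 552) (nat_lit 443))) (XT.nd (nat_lit 78) (nat_lit 0) (nat_lit 0) (XT.lf (nat_lit 0) (nat_lit 3808668080) (nat_lit 1596) (nat_lit 4233638412) (nat_lit 1672) (nat_lit 1348719421) (nat_lit 558) (nat_lit 5) (nat_lit 579) (nat_lit 5) (nat_lit 580) (nat_lit 5) (nat_lit 566) (nat_lit 552) (nat_lit 442)) (XT.nd (nat_lit 78) (nat_lit 0) (nat_lit 0) (XT.lf (nat_lit 76) (nat_lit 802016646)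 (nat_lit 0) (nat_lit 4291155378) (nat_lit 1672) (nat_lit 4379847001) (nat_lit 559) (nat_lit 5) (nat_lit 558) (nat_lit 5) (nat_lit 580) (nat_lit 5) (nat_lit 567) (nat_lit 552) (nat_lit 441)) (XT.lf (nat_lit 76) (nat_lit 5980162863) (nat_lit 0) (nat_lit 429614475) (nat_lit 1672) (nat_lit 3146747154) (nat_lit 559) (nat_lit 5) (nat_lit 558) (nat_lit 5) (nat_lit 580) (nat_lit 5) (nat_lit 568) (nat_lit 552) (nat_lit 440))))) (XT.nd (nat_lit 156) (nat_lit 1596) (nat_lit 0) (XT.nd (nat_lit 78) (nat_lit 0) (nat_lit 0) (XT.lf (nat_lit 76) (nat_lit 1602630279) (nat_lit 0) (nat_lit 6161746956) (nat_lit 1672) (nat_lit 1877090288) (nat_lit 560) (nat_lit 5) (nat_lit 559) (nat_lit 5) (nat_lit 581) (nat_lit 5) (nat_lit 569) (nat_lit 552) (nat_lit 439)) (XT.lf (nat_lit 76) (nat_lit 6915124741) (nat_lit 0) (nat_lit 2236563762) (nat_lit 1672) (nat_lit 576309215) (nat_lit 560) (nat_lit 5) (nat_lit 559) (nat_lit 5) (nat_lit 581) (nat_lit 5) (nat_lit 570) (nat_lit 552) (nat_lit 438))) (XT.nd (nat_lit 78) (nat_lit 0) (nat_lit 0)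 (XT.lf (nat_lit 0) (nat_lit 747792807) (nat_lit 1672) (nat_lit 7297621837) (nat_lit 1748) (nat_lit 1770604121) (nat_lit 538) (nat_lit 5) (nat_lit 560) (nat_lit 5) (nat_lit 561) (nat_lit 5) (nat_lit 571) (nat_lit 552) (nat_lit 437)) (XT.nd (nat_lit 78) (nat_lit 0) (nat_lit 76) (XT.lf (nat_lit 0) (nat_lit 2103893432) (nat_lit 1672) (nat_lit 1945741993) (nat_lit 1748) (nat_lit 5855824604) (nat_lit 538) (nat_lit 5) (nat_lit 560) (nat_lit 5) (nat_lit 561) (nat_lit 5) (nat_lit 572) (nat_lit 552) (nat_lit 436)) (XT.lf (nat_lit 0) (nat_lit 3490294038) (nat_lit 1672) (nat_lit 6453003628) (nat_lit 1748) (nat_lit 53329531) (nat_lit 539) (nat_lit 5) (nat_lit 561) (nat_lit 5) (nat_lit 562) (nat_lit 5) (nat_lit 573) (nat_lit 552) (nat_lit 435))))))) (XT.nd (nat_lit 780) (nat_lit 6156) (nat_lit 0) (XT.nd (nat_lit 390) (nat_lit 2964) (nat_lit 0) (XT.nd (nat_lit 156) (nat_lit 3420) (nat_lit 0) (XT.nd (nat_lit 78) (nat_lit 0) (nat_lit 0) (XT.lf (nat_lit 0) (nat_lit 4924524770) (nat_lit 1672) (nat_lit 963107590) (nat_lit 1748)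 (nat_lit 4201583932) (nat_lit 539) (nat_lit 5) (nat_lit 561) (nat_lit 5) (nat_lit 562) (nat_lit 5) (nat_lit 574) (nat_lit 552) (nat_lit 434)) (XT.lf (nat_lit 76) (nat_lit 4682312145) (nat_lit 0) (nat_lit 1716057974) (nat_lit 1748) (nat_lit 3785069063) (nat_lit 540) (nat_lit 5) (nat_lit 539) (nat_lit 5) (nat_lit 562) (nat_lit 5) (nat_lit 575) (nat_lit 552) (nat_lit 433))) (XT.nd (nat_lit 78) (nat_lit 1824) (nat_lit 0) (XT.lf (nat_lit 0) (nat_lit 143646549) (nat_lit 1672) (nat_lit 7762802150) (nat_lit 1748) (nat_lit 2373003304) (nat_lit 518) (nat_lit 5) (nat_lit 540) (nat_lit 5) (nat_lit 541) (nat_lit 5) (nat_lit 576) (nat_lit 552) (nat_lit 432)) (XT.nd (nat_lit 78) (nat_lit 1824) (nat_lit 0) (XT.lf (nat_lit 0) (nat_lit 5948486120) (nat_lit 1672) (nat_lit 3525514120) (nat_lit 1748) (nat_lit 902799204) (nat_lit 518) (nat_lit 5) (nat_lit 540) (nat_lit 5) (nat_lit 541) (nat_lit 5) (nat_lit 577) (nat_lit 552) (nat_lit 431)) (XT.lf (nat_lit 0) (nat_lit 584647483) (nat_lit 1824) (nat_lit 9089595854) (nat_lit 76)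 (nat_lit 801860250) (nat_lit 494) (nat_lit 5) (nat_lit 518) (nat_lit 5) (nat_lit 495) (nat_lit 5) (nat_lit 578) (nat_lit 552) (nat_lit 430))))) (XT.nd (nat_lit 156) (nat_lit 1140) (nat_lit 0) (XT.nd (nat_lit 78) (nat_lit 1824) (nat_lit 0) (XT.lf (nat_lit 0) (nat_lit 2124661012) (nat_lit 1824) (nat_lit 3244772152) (nat_lit 76) (nat_lit 5207143727) (nat_lit 494) (nat_lit 5) (nat_lit 518) (nat_lit 5) (nat_lit 495) (nat_lit 5) (nat_lit 579) (nat_lit 552) (nat_lit 429)) (XT.lf (nat_lit 0) (nat_lit 2737059308) (nat_lit 1824) (nat_lit 958180623) (nat_lit 1900) (nat_lit 6983824971) (nat_lit 470) (nat_lit 5) (nat_lit 494) (nat_lit 5) (nat_lit 495) (nat_lit 5) (nat_lit 580) (nat_lit 552) (nat_lit 428))) (XT.nd (nat_lit 78) (nat_lit 1140) (nat_lit 0) (XT.lf (nat_lit 0) (nat_lit 5324400215) (nat_lit 1900) (nat_lit 1939843669) (nat_lit 76) (nat_lit 3518815928) (nat_lit 470) (nat_lit 5) (nat_lit 495) (nat_lit 5) (nat_lit 471) (nat_lit 5) (nat_lit 581) (nat_lit 552) (nat_lit 427)) (XT.nd (nat_lit 78) (nat_lit 0) (nat_lit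 0) (XT.lf (nat_lit 0) (nat_lit 4215567613) (nat_lit 1140) (nat_lit 2786898790) (nat_lit 1216) (nat_lit 3886342287) (nat_lit 455) (nat_lit 5) (nat_lit 470) (nat_lit 5) (nat_lit 471) (nat_lit 5) (nat_lit 582) (nat_lit 552) (nat_lit 426)) (XT.lf (nat_lit 0) (nat_lit 8721610681) (nat_lit 1216) (nat_lit 503659262) (nat_lit 76) (nat_lit 1771252780) (nat_lit 455) (nat_lit 5) (nat_lit 471) (nat_lit 5) (nat_lit 456) (nat_lit 5) (nat_lit 583) (nat_lit 552) (nat_lit 425)))))) (XT.nd (nat_lit 390) (nat_lit 3420) (nat_lit 0) (XT.nd (nat_lit 156) (nat_lit 836) (nat_lit 0) (XT.nd (nat_lit 78) (nat_lit 988) (nat_lit 0) (XT.lf (nat_lit 0) (nat_lit 5831668568) (nat_lit 912) (nat_lit 4682981059) (nat_lit 988) (nat_lit 590951677) (nat_lit 443) (nat_lit 5) (nat_lit 455) (nat_lit 5) (nat_lit 456) (nat_lit 5) (nat_lit 584) (nat_lit 552) (nat_lit 424)) (XT.lf (nat_lit 0) (nat_lit 1074701761) (nat_lit 912) (nat_lit 30899927) (nat_lit 988) (nat_lit 10111240138) (nat_lit 430) (nat_lit 5) (nat_lit 442) (nat_lit 5) (nat_lit 443) (nat_lit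 5) (nat_lit 585) (nat_lit 552) (nat_lit 423))) (XT.nd (nat_lit 78) (nat_lit 836) (nat_lit 0) (XT.lf (nat_lit 0) (nat_lit 2877954833) (nat_lit 988) (nat_lit 3758579455) (nat_lit 76) (nat_lit 4692699590) (nat_lit 430) (nat_lit 5) (nat_lit 443) (nat_lit 5) (nat_lit 431) (nat_lit 5) (nat_lit 586) (nat_lit 552) (nat_lit 422)) (XT.nd (nat_lit 78) (nat_lit 0) (nat_lit 0) (XT.lf (nat_lit 0) (nat_lit 2773108943) (nat_lit 836) (nat_lit 1914719372) (nat_lit 912) (nat_lit 6756004454) (nat_lit 419) (nat_lit 5) (nat_lit 430) (nat_lit 5) (nat_lit 431) (nat_lit 5) (nat_lit 587) (nat_lit 552) (nat_lit 421)) (XT.lf (nat_lit 0) (nat_lit 6562207924) (nat_lit 912) (nat_lit 2108771452) (nat_lit 76) (nat_lit 2889178546) (nat_lit 419) (nat_lit 5) (nat_lit 431) (nat_lit 5) (nat_lit 420) (nat_lit 5) (nat_lit 588) (nat_lit 552) (nat_lit 420))))) (XT.nd (nat_lit 234) (nat_lit 1596) (nat_lit 0) (XT.nd (nat_lit 78) (nat_lit 912) (nat_lit 0) (XT.lf (nat_lit 0) (nat_lit 4616674306) (nat_lit 912) (nat_lit 3884448636) (nat_lit 988) (nat_lit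 3177146126) (nat_lit 407) (nat_lit 5) (nat_lit 419) (nat_lit 5) (nat_lit 420) (nat_lit 5) (nat_lit 589) (nat_lit 552) (nat_lit 419)) (XT.nd (nat_lit 78) (nat_lit 912) (nat_lit 0) (XT.lf (nat_lit 0) (nat_lit 10484137048) (nat_lit 988) (nat_lit 315636615) (nat_lit 76) (nat_lit 998862796) (nat_lit 407) (nat_lit 5) (nat_lit 420) (nat_lit 5) (nat_lit 408) (nat_lit 5) (nat_lit 590) (nat_lit 552) (nat_lit 418)) (XT.lf (nat_lit 0) (nat_lit 631622365) (nat_lit 912) (nat_lit 5313788414) (nat_lit 76) (nat_lit 5974846829) (nat_lit 395) (nat_lit 5) (nat_lit 407) (nat_lit 5) (nat_lit 396) (nat_lit 5) (nat_lit 591) (nat_lit 552) (nat_lit 417)))) (XT.nd (nat_lit 78) (nat_lit 760) (nat_lit 0) (XT.lf (nat_lit 0) (nat_lit 1624000024) (nat_lit 836) (nat_lit 972754645) (nat_lit 912) (nat_lit 9447429361) (nat_lit 384) (nat_lit 5) (nat_lit 395) (nat_lit 5) (nat_lit 396) (nat_lit 5) (nat_lit 592) (nat_lit 552) (nat_lit 416)) (XT.nd (nat_lit 78) (nat_lit 760) (nat_lit 0) (XT.lf (nat_lit 0) (nat_lit 4648885417) (nat_lit 912) (nat_lit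 3439949627) (nat_lit 76) (nat_lit 4080800425) (nat_lit 384) (nat_lit 5) (nat_lit 396) (nat_lit 5) (nat_lit 385) (nat_lit 5) (nat_lit 593) (nat_lit 552) (nat_lit 415)) (XT.lf (nat_lit 0) (nat_lit 3706573489) (nat_lit 760) (nat_lit 3051468989) (nat_lit 836) (nat_lit 5539234182) (nat_lit 374) (nat_lit 5) (nat_lit 384) (nat_lit 5) (nat_lit 385) (nat_lit 5) (nat_lit 594) (nat_lit 552) (nat_lit 414))))))))
noncomputable def xc130 : XT := (XT.nd (nat_lit 78156) (nat_lit 0) (nat_lit 19456) (XT.nd (nat_lit 780) (nat_lit 2584) (nat_lit 0) (XT.nd (nat_lit 390) (nat_lit 2128) (nat_lit 0) (XT.nd (nat_lit 156) (nat_lit 1596) (nat_lit 0) (XT.nd (nat_lit 78) (nat_lit 760) (nat_lit 0) (XT.lf (nat_lit 0) (nat_lit 8931821499) (nat_lit 836) (nat_lit 1413718001) (nat_lit 76) (nat_lit 2081482788) (nat_lit 374) (nat_lit 5) (nat_lit 385) (nat_lit 5) (nat_lit 375) (nat_lit 5) (nat_lit 595) (nat_lit 552) (nat_lit 413)) (XT.lf (nat_lit 0) (nat_lit 5949266578) (nat_lit 760) (nat_lit 5244579991) (nat_lit 836) (nat_lit 1364621231) (nat_lit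 364) (nat_lit 5) (nat_lit 374) (nat_lit 5) (nat_lit 375) (nat_lit 5) (nat_lit 596) (nat_lit 552) (nat_lit 412))) (XT.nd (nat_lit 78) (nat_lit 760) (nat_lit 0) (XT.lf (nat_lit 0) (nat_lit 775740349) (nat_lit 760) (nat_lit 22831129) (nat_lit 836) (nat_lit 11893853993) (nat_lit 353) (nat_lit 5) (nat_lit 363) (nat_lit 5) (nat_lit 364) (nat_lit 5) (nat_lit 597) (nat_lit 552) (nat_lit 411)) (XT.nd (nat_lit 78) (nat_lit 760) (nat_lit 0) (XT.lf (nat_lit 0) (nat_lit 3052035069) (nat_lit 836) (nat_lit 4489576499) (nat_lit 76) (nat_lit 5285965098) (nat_lit 353) (nat_lit 5) (nat_lit 364) (nat_lit 5) (nat_lit 354) (nat_lit 5) (nat_lit 598) (nat_lit 552) (nat_lit 410)) (XT.lf (nat_lit 0) (nat_lit 3111428458) (nat_lit 760) (nat_lit 2245947431) (nat_lit 836) (nat_lit 7607919188) (nat_lit 343) (nat_lit 5) (nat_lit 353) (nat_lit 5) (nat_lit 354) (nat_lit 5) (nat_lit 599) (nat_lit 552) (nat_lit 409))))) (XT.nd (nat_lit 156) (nat_lit 1444) (nat_lit 0) (XT.nd (nat_lit 78) (nat_lit 684) (nat_lit 0) (XT.lf (nat_lit 0) (nat_lit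 7746249261) (nat_lit 836) (nat_lit 2215999345) (nat_lit 76) (nat_lit 3142771082) (nat_lit 343) (nat_lit 5) (nat_lit 354) (nat_lit 5) (nat_lit 344) (nat_lit 5) (nat_lit 600) (nat_lit 552) (nat_lit 408)) (XT.lf (nat_lit 0) (nat_lit 5618282333) (nat_lit 684) (nat_lit 4602842101) (nat_lit 760) (nat_lit 3025650209) (nat_lit 334) (nat_lit 5) (nat_lit 343) (nat_lit 5) (nat_lit 344) (nat_lit 5) (nat_lit 601) (nat_lit 552) (nat_lit 407))) (XT.nd (nat_lit 78) (nat_lit 760) (nat_lit 0) (XT.lf (nat_lit 0) (nat_lit 230233494) (nat_lit 684) (nat_lit 12524354499) (nat_lit 760) (nat_lit 636595219) (nat_lit 325) (nat_lit 5) (nat_lit 334) (nat_lit 5) (nat_lit 335) (nat_lit 5) (nat_lit 602) (nat_lit 552) (nat_lit 406)) (XT.nd (nat_lit 78) (nat_lit 684) (nat_lit 0) (XT.lf (nat_lit 0) (nat_lit 1845732584) (nat_lit 760) (nat_lit 5245797430) (nat_lit 76) (nat_lit 6445334445) (nat_lit 324) (nat_lit 5) (nat_lit 334) (nat_lit 5) (nat_lit 325) (nat_lit 5) (nat_lit 603) (nat_lit 552) (nat_lit 405)) (XT.lf (nat_lit 0) (nat_lit 2845693659)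 (nat_lit 684) (nat_lit 1529316102) (nat_lit 760) (nat_lit 9310249188) (nat_lit 315) (nat_lit 5) (nat_lit 324) (nat_lit 5) (nat_lit 325) (nat_lit 5) (nat_lit 604) (nat_lit 552) (nat_lit 404)))))) (XT.nd (nat_lit 390) (nat_lit 608) (nat_lit 0) (XT.nd (nat_lit 156) (nat_lit 1292) (nat_lit 0) (XT.nd (nat_lit 78) (nat_lit 684) (nat_lit 0) (XT.lf (nat_lit 0) (nat_lit 7004691898) (nat_lit 760) (nat_lit 2708139648) (nat_lit 76) (nat_lit 4122793702) (nat_lit 315) (nat_lit 5) (nat_lit 325) (nat_lit 5) (nat_lit 316) (nat_lit 5) (nat_lit 605) (nat_lit 552) (nat_lit 403)) (XT.lf (nat_lit 0) (nat_lit 5634780441) (nat_lit 684) (nat_lit 4086623131) (nat_lit 760) (nat_lit 4266906884) (nat_lit 306) (nat_lit 5) (nat_lit 315) (nat_lit 5) (nat_lit 316) (nat_lit 5) (nat_lit 606) (nat_lit 552) (nat_lit 402))) (XT.nd (nat_lit 78) (nat_lit 684) (nat_lit 0) (XT.lf (nat_lit 0) (nat_lit 11856341) (nat_lit 608) (nat_lit 12497540533) (nat_lit 684) (nat_lit 1634313841) (nat_lit 298) (nat_lit 5) (nat_lit 306) (nat_lit 5) (nat_lit 307)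 (nat_lit 5) (nat_lit 607) (nat_lit 552) (nat_lit 401)) (XT.nd (nat_lit 78) (nat_lit 608) (nat_lit 0) (XT.lf (nat_lit 0) (nat_lit 1108551335) (nat_lit 684) (nat_lit 5692668232) (nat_lit 76) (nat_lit 7499435160) (nat_lit 297) (nat_lit 5) (nat_lit 306) (nat_lit 5) (nat_lit 298) (nat_lit 5) (nat_lit 608) (nat_lit 552) (nat_lit 400)) (XT.lf (nat_lit 0) (nat_lit 2928079871) (nat_lit 608) (nat_lit 963490869) (nat_lit 684) (nat_lit 10568807492) (nat_lit 289) (nat_lit 5) (nat_lit 297) (nat_lit 5) (nat_lit 298) (nat_lit 5) (nat_lit 609) (nat_lit 552) (nat_lit 399))))) (XT.nd (nat_lit 76752) (nat_lit 0) (nat_lit 22268) (XT.nd (nat_lit 78) (nat_lit 608) (nat_lit 0) (XT.lf (nat_lit 0) (nat_lit 6789375550) (nat_lit 684) (nat_lit 2871700019) (nat_lit 76) (nat_lit 4961038411) (nat_lit 289) (nat_lit 5) (nat_lit 298) (nat_lit 5) (nat_lit 290) (nat_lit 5) (nat_lit 610) (nat_lit 552) (nat_lit 398)) (XT.lf (nat_lit 0) (nat_lit 6020057656) (nat_lit 608) (nat_lit 3759042211) (nat_lit 684) (nat_lit 5007305575) (nat_lit 281) (nat_lit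 5) (nat_lit 289) (nat_lit 5) (nat_lit 290) (nat_lit 5) (nat_lit 611) (nat_lit 552) (nat_lit 397))) (XT.nd (nat_lit 78) (nat_lit 1520) (nat_lit 0) (XT.lf (nat_lit 0) (nat_lit 1804088442) (nat_lit 0) (nat_lit 1804088442) (nat_lit 1444) (nat_lit 651279994) (nat_lit 594) (nat_lit 5) (nat_lit 594) (nat_lit 3) (nat_lit 613) (nat_lit 3) (nat_lit 553) (nat_lit 553) (nat_lit 454)) (XT.nd (nat_lit 78) (nat_lit 1520) (nat_lit 0) (XT.lf (nat_lit 0) (nat_lit 7923288657) (nat_lit 0) (nat_lit 397991244) (nat_lit 1444) (nat_lit 262131597) (nat_lit 594) (nat_lit 5) (nat_lit 594) (nat_lit 3) (nat_lit 613) (nat_lit 3) (nat_lit 554) (nat_lit 553) (nat_lit 453)) (XT.lf (nat_lit 0) (nat_lit 804366092) (nat_lit 1520) (nat_lit 4963117887) (nat_lit 1596) (nat_lit 2881297554) (nat_lit 574) (nat_lit 5) (nat_lit 594) (nat_lit 5) (nat_lit 595) (nat_lit 5) (nat_lit 555) (nat_lit 553) (nat_lit 452))))))) (XT.nd (nat_lit 780) (nat_lit 1444) (nat_lit 0) (XT.nd (nat_lit 390) (nat_lit 1368) (nat_lit 0) (XT.nd (nat_lit 156) (nat_lit 0) (nat_lit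 76) (XT.nd (nat_lit 78) (nat_lit 0) (nat_lit 76) (XT.lf (nat_lit 0) (nat_lit 1869041274) (nat_lit 1520) (nat_lit 606895953) (nat_lit 1596) (nat_lit 6239880852) (nat_lit 574) (nat_lit 5) (nat_lit 594) (nat_lit 5) (nat_lit 595) (nat_lit 5) (nat_lit 556) (nat_lit 553) (nat_lit 451)) (XT.lf (nat_lit 0) (nat_lit 2959908087) (nat_lit 1520) (nat_lit 4917094133) (nat_lit 1596) (nat_lit 907096065) (nat_lit 575) (nat_lit 5) (nat_lit 595) (nat_lit 5) (nat_lit 596) (nat_lit 5) (nat_lit 557) (nat_lit 553) (nat_lit 450))) (XT.nd (nat_lit 78) (nat_lit 0) (nat_lit 0) (XT.lf (nat_lit 0) (nat_lit 4067371355) (nat_lit 1520) (nat_lit 446132903) (nat_lit 1596) (nat_lit 4340345131) (nat_lit 575) (nat_lit 5) (nat_lit 595) (nat_lit 5) (nat_lit 596) (nat_lit 5) (nat_lit 558) (nat_lit 553) (nat_lit 449)) (XT.nd (nat_lit 78) (nat_lit 0) (nat_lit 76) (XT.lf (nat_lit 76) (nat_lit 4154364903) (nat_lit 0) (nat_lit 1044378763) (nat_lit 1596) (nat_lit 3726217513) (nat_lit 576) (nat_lit 5) (nat_lit 575) (nat_lit 5) (nat_lit 596) (nat_lit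 5) (nat_lit 559) (nat_lit 553) (nat_lit 448)) (XT.lf (nat_lit 0) (nat_lit 6347207585) (nat_lit 1520) (nat_lit 175567436) (nat_lit 1596) (nat_lit 2474831741) (nat_lit 576) (nat_lit 5) (nat_lit 596) (nat_lit 5) (nat_lit 597) (nat_lit 5) (nat_lit 560) (nat_lit 553) (nat_lit 447))))) (XT.nd (nat_lit 156) (nat_lit 1520) (nat_lit 0) (XT.nd (nat_lit 78) (nat_lit 0) (nat_lit 76) (XT.lf (nat_lit 76) (nat_lit 4549566044) (nat_lit 0) (nat_lit 2981272118) (nat_lit 1596) (nat_lit 1540623974) (nat_lit 577) (nat_lit 5) (nat_lit 576) (nat_lit 5) (nat_lit 597) (nat_lit 5) (nat_lit 561) (nat_lit 553) (nat_lit 446)) (XT.lf (nat_lit 76) (nat_lit 208448066) (nat_lit 0) (nat_lit 8512515046) (nat_lit 1596) (nat_lit 426175879) (nat_lit 578) (nat_lit 5) (nat_lit 577) (nat_lit 5) (nat_lit 598) (nat_lit 5) (nat_lit 562) (nat_lit 553) (nat_lit 445))) (XT.nd (nat_lit 78) (nat_lit 0) (nat_lit 0) (XT.lf (nat_lit 0) (nat_lit 727930200) (nat_lit 1596) (nat_lit 4168793302) (nat_lit 1672) (nat_lit 4326980626) (nat_lit 556) (nat_lit 5) (nat_lit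 577) (nat_lit 5) (nat_lit 578) (nat_lit 5) (nat_lit 563) (nat_lit 553) (nat_lit 444)) (XT.nd (nat_lit 78) (nat_lit 0) (nat_lit 76) (XT.lf (nat_lit 76) (nat_lit 687791116) (nat_lit 0) (nat_lit 1192953854) (nat_lit 1672) (nat_lit 7421373359) (nat_lit 557) (nat_lit 5) (nat_lit 556) (nat_lit 5) (nat_lit 578) (nat_lit 5) (nat_lit 564) (nat_lit 553) (nat_lit 443)) (XT.lf (nat_lit 0) (nat_lit 3078830321) (nat_lit 1596) (nat_lit 3715812410) (nat_lit 1672) (nat_lit 2587014546) (nat_lit 557) (nat_lit 5) (nat_lit 578) (nat_lit 5) (nat_lit 579) (nat_lit 5) (nat_lit 565) (nat_lit 553) (nat_lit 442)))))) (XT.nd (nat_lit 390) (nat_lit 1520) (nat_lit 0) (XT.nd (nat_lit 156) (nat_lit 0) (nat_lit 76) (XT.nd (nat_lit 78) (nat_lit 0) (nat_lit 76) (XT.lf (nat_lit 76) (nat_lit 1274468280) (nat_lit 0) (nat_lit 3020301202) (nat_lit 1672) (nat_lit 5168140412) (nat_lit 558) (nat_lit 5) (nat_lit 557) (nat_lit 5) (nat_lit 579) (nat_lit 5) (nat_lit 566) (nat_lit 553) (nat_lit 441)) (XT.lf (nat_lit 0) (nat_lit 5543616156) (nat_lit 1596)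 (nat_lit 3151321734) (nat_lit 1672) (nat_lit 850678616) (nat_lit 558) (nat_lit 5) (nat_lit 579) (nat_lit 5) (nat_lit 580) (nat_lit 5) (nat_lit 567) (nat_lit 553) (nat_lit 440))) (XT.nd (nat_lit 78) (nat_lit 0) (nat_lit 0) (XT.lf (nat_lit 76) (nat_lit 1977368863) (nat_lit 0) (nat_lit 4851443343) (nat_lit 1672) (nat_lit 2800938301) (nat_lit 559) (nat_lit 5) (nat_lit 558) (nat_lit 5) (nat_lit 580) (nat_lit 5) (nat_lit 568) (nat_lit 553) (nat_lit 439)) (XT.nd (nat_lit 78) (nat_lit 0) (nat_lit 76) (XT.lf (nat_lit 76) (nat_lit 7236346399) (nat_lit 0) (nat_lit 903368390) (nat_lit 1672) (nat_lit 1575853038) (nat_lit 559) (nat_lit 5) (nat_lit 558) (nat_lit 5) (nat_lit 580) (nat_lit 5) (nat_lit 569) (nat_lit 553) (nat_lit 438)) (XT.lf (nat_lit 76) (nat_lit 2798661986) (nat_lit 0) (nat_lit 6695934399) (nat_lit 1672) (nat_lit 308150566) (nat_lit 560) (nat_lit 5) (nat_lit 559) (nat_lit 5) (nat_lit 581) (nat_lit 5) (nat_lit 570) (nat_lit 553) (nat_lit 437))))) (XT.nd (nat_lit 234) (nat_lit 0) (nat_lit 76) (XT.nd (nat_lit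 78) (nat_lit 0) (nat_lit 76) (XT.lf (nat_lit 0) (nat_lit 974199886) (nat_lit 1672) (nat_lit 1703452369) (nat_lit 1748) (nat_lit 7213845936) (nat_lit 537) (nat_lit 5) (nat_lit 559) (nat_lit 5) (nat_lit 560) (nat_lit 5) (nat_lit 571) (nat_lit 553) (nat_lit 436)) (XT.nd (nat_lit 78) (nat_lit 0) (nat_lit 0) (XT.lf (nat_lit 0) (nat_lit 2291642808) (nat_lit 1672) (nat_lit 6256232915) (nat_lit 1748) (nat_lit 1433837201) (nat_lit 538) (nat_lit 5) (nat_lit 560) (nat_lit 5) (nat_lit 561) (nat_lit 5) (nat_lit 572) (nat_lit 553) (nat_lit 435)) (XT.lf (nat_lit 0) (nat_lit 3644887129) (nat_lit 1672) (nat_lit 820596678) (nat_lit 1748) (nat_lit 5608059721) (nat_lit 538) (nat_lit 5) (nat_lit 560) (nat_lit 5) (nat_lit 561) (nat_lit 5) (nat_lit 573) (nat_lit 553) (nat_lit 434)))) (XT.nd (nat_lit 78) (nat_lit 0) (nat_lit 76) (XT.lf (nat_lit 76) (nat_lit 4771262932) (nat_lit 0) (nat_lit 265512567) (nat_lit 1748) (nat_lit 5130204275) (nat_lit 539) (nat_lit 5) (nat_lit 538) (nat_lit 5) (nat_lit 561) (nat_lit 5) (nat_lit 574) (nat_lit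 553) (nat_lit 433)) (XT.nd (nat_lit 78) (nat_lit 0) (nat_lit 0) (XT.lf (nat_lit 76) (nat_lit 184829569) (nat_lit 0) (nat_lit 6285416808) (nat_lit 1748) (nat_lit 3791764074) (nat_lit 540) (nat_lit 5) (nat_lit 539) (nat_lit 5) (nat_lit 562) (nat_lit 5) (nat_lit 575) (nat_lit 553) (nat_lit 432)) (XT.lf (nat_lit 76) (nat_lit 5933070631) (nat_lit 0) (nat_lit 2018457155) (nat_lit 1748) (nat_lit 2407031722) (nat_lit 540) (nat_lit 5) (nat_lit 539) (nat_lit 5) (nat_lit 562) (nat_lit 5) (nat_lit 576) (nat_lit 553) (nat_lit 431))))))))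
noncomputable def xc131 : XT := (XT.nd (nat_lit 1560) (nat_lit 6460) (nat_lit 0) (XT.nd (nat_lit 780) (nat_lit 4256) (nat_lit 0) (XT.nd (nat_lit 390) (nat_lit 3040) (nat_lit 0) (XT.nd (nat_lit 156) (nat_lit 3572) (nat_lit 0) (XT.nd (nat_lit 78) (nat_lit 76) (nat_lit 0) (XT.lf (nat_lit 0) (nat_lit 1326108871) (nat_lit 1672) (nat_lit 8141666426) (nat_lit 1748) (nat_lit 989158018) (nat_lit 518) (nat_lit 5) (nat_lit 540) (nat_lit 5) (nat_lit 541) (nat_lit 5) (nat_lit 577) (nat_lit 553) (nat_lit 430)) (XT.lf (nat_lit 0) (nat_lit 476058781) (nat_lit 1748) (nat_lit 3335994773) (nat_lit 76) (nat_lit 6744662642) (nat_lit 517) (nat_lit 5) (nat_lit 540) (nat_lit 5) (nat_lit 518) (nat_lit 5) (nat_lit 578) (nat_lit 553) (nat_lit 429))) (XT.nd (nat_lit 78) (nat_lit 1824) (nat_lit 0) (XT.lf (nat_lit 0) (nat_lit 1960315544) (nat_lit 1824) (nat_lit 8075578827) (nat_lit 76) (nat_lit 622410534) (nat_lit 494) (nat_lit 5) (nat_lit 518) (nat_lit 5) (nat_lit 495) (nat_lit 5) (nat_lit 579) (nat_lit 553) (nat_lit 428)) (XT.nd (nat_lit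 78) (nat_lit 1824) (nat_lit 0) (XT.lf (nat_lit 0) (nat_lit 3504384733) (nat_lit 1824) (nat_lit 2137305885) (nat_lit 76) (nat_lit 5119632758) (nat_lit 494) (nat_lit 5) (nat_lit 518) (nat_lit 5) (nat_lit 495) (nat_lit 5) (nat_lit 580) (nat_lit 553) (nat_lit 427)) (XT.lf (nat_lit 0) (nat_lit 3956449298) (nat_lit 1824) (nat_lit 1131267400) (nat_lit 1900) (nat_lit 5778518414) (nat_lit 470) (nat_lit 5) (nat_lit 494) (nat_lit 5) (nat_lit 495) (nat_lit 5) (nat_lit 581) (nat_lit 553) (nat_lit 426))))) (XT.nd (nat_lit 156) (nat_lit 1900) (nat_lit 0) (XT.nd (nat_lit 78) (nat_lit 1140) (nat_lit 0) (XT.lf (nat_lit 0) (nat_lit 6722626059) (nat_lit 1900) (nat_lit 809954989) (nat_lit 76) (nat_lit 3440266331) (nat_lit 470) (nat_lit 5) (nat_lit 495) (nat_lit 5) (nat_lit 471) (nat_lit 5) (nat_lit 582) (nat_lit 553) (nat_lit 425)) (XT.lf (nat_lit 0) (nat_lit 5460875798) (nat_lit 1140) (nat_lit 2955587541) (nat_lit 1216) (nat_lit 2664604462) (nat_lit 455) (nat_lit 5) (nat_lit 470) (nat_lit 5) (nat_lit 471) (nat_lit 5) (nat_lit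 583) (nat_lit 553) (nat_lit 424))) (XT.nd (nat_lit 78) (nat_lit 988) (nat_lit 0) (XT.lf (nat_lit 0) (nat_lit 658876727) (nat_lit 912) (nat_lit 9489693303) (nat_lit 988) (nat_lit 1042795242) (nat_lit 443) (nat_lit 5) (nat_lit 455) (nat_lit 5) (nat_lit 456) (nat_lit 5) (nat_lit 584) (nat_lit 553) (nat_lit 423)) (XT.nd (nat_lit 78) (nat_lit 912) (nat_lit 0) (XT.lf (nat_lit 0) (nat_lit 644606394) (nat_lit 988) (nat_lit 4202679761) (nat_lit 76) (nat_lit 6455680102) (nat_lit 442) (nat_lit 5) (nat_lit 455) (nat_lit 5) (nat_lit 443) (nat_lit 5) (nat_lit 585) (nat_lit 553) (nat_lit 422)) (XT.lf (nat_lit 0) (nat_lit 2261297931) (nat_lit 912) (nat_lit 89148700) (nat_lit 988) (nat_lit 9066242166) (nat_lit 430) (nat_lit 5) (nat_lit 442) (nat_lit 5) (nat_lit 443) (nat_lit 5) (nat_lit 586) (nat_lit 553) (nat_lit 421)))))) (XT.nd (nat_lit 390) (nat_lit 1672) (nat_lit 0) (XT.nd (nat_lit 156) (nat_lit 1748) (nat_lit 0) (XT.nd (nat_lit 78) (nat_lit 836) (nat_lit 0) (XT.lf (nat_lit 0) (nat_lit 4133904843) (nat_lit 988) (nat_lit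 2667117536) (nat_lit 76) (nat_lit 4730793840) (nat_lit 430) (nat_lit 5) (nat_lit 443) (nat_lit 5) (nat_lit 431) (nat_lit 5) (nat_lit 587) (nat_lit 553) (nat_lit 420)) (XT.lf (nat_lit 0) (nat_lit 3987529409) (nat_lit 836) (nat_lit 1976473251) (nat_lit 912) (nat_lit 5685024568) (nat_lit 419) (nat_lit 5) (nat_lit 430) (nat_lit 5) (nat_lit 431) (nat_lit 5) (nat_lit 588) (nat_lit 553) (nat_lit 419))) (XT.nd (nat_lit 78) (nat_lit 1748) (nat_lit 0) (XT.lf (nat_lit 0) (nat_lit 7852535871) (nat_lit 912) (nat_lit 991346099) (nat_lit 76) (nat_lit 2924264258) (nat_lit 419) (nat_lit 5) (nat_lit 431) (nat_lit 5) (nat_lit 420) (nat_lit 5) (nat_lit 589) (nat_lit 553) (nat_lit 418)) (XT.nd (nat_lit 78) (nat_lit 836) (nat_lit 0) (XT.lf (nat_lit 0) (nat_lit 5860979622) (nat_lit 912) (nat_lit 3954001799) (nat_lit 988) (nat_lit 2073943781) (nat_lit 407) (nat_lit 5) (nat_lit 419) (nat_lit 5) (nat_lit 420) (nat_lit 5) (nat_lit 590) (nat_lit 553) (nat_lit 417)) (XT.lf (nat_lit 0) (nat_lit 840871235) (nat_lit 836) (nat_lit 10979867698)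 (nat_lit 912) (nat_lit 191299984) (nat_lit 396) (nat_lit 5) (nat_lit 407) (nat_lit 5) (nat_lit 408) (nat_lit 5) (nat_lit 591) (nat_lit 553) (nat_lit 416))))) (XT.nd (nat_lit 156) (nat_lit 760) (nat_lit 0) (XT.nd (nat_lit 78) (nat_lit 836) (nat_lit 0) (XT.lf (nat_lit 0) (nat_lit 1758515371) (nat_lit 912) (nat_lit 4261010771) (nat_lit 76) (nat_lit 6116820755) (nat_lit 395) (nat_lit 5) (nat_lit 407) (nat_lit 5) (nat_lit 396) (nat_lit 5) (nat_lit 592) (nat_lit 553) (nat_lit 415)) (XT.lf (nat_lit 0) (nat_lit 2807908084) (nat_lit 836) (nat_lit 940669826) (nat_lit 912) (nat_lit 8514461988) (nat_lit 384) (nat_lit 5) (nat_lit 395) (nat_lit 5) (nat_lit 396) (nat_lit 5) (nat_lit 593) (nat_lit 553) (nat_lit 414))) (XT.nd (nat_lit 78) (nat_lit 760) (nat_lit 0) (XT.lf (nat_lit 0) (nat_lit 5820512909) (nat_lit 912) (nat_lit 2358629757) (nat_lit 76) (nat_lit 4212283057) (nat_lit 384) (nat_lit 5) (nat_lit 396) (nat_lit 5) (nat_lit 385) (nat_lit 5) (nat_lit 594) (nat_lit 553) (nat_lit 413)) (XT.nd (nat_lit 78) (nat_lit 0)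 (nat_lit 0) (XT.lf (nat_lit 0) (nat_lit 4923257251) (nat_lit 760) (nat_lit 3034864072) (nat_lit 836) (nat_lit 4563773628) (nat_lit 374) (nat_lit 5) (nat_lit 384) (nat_lit 5) (nat_lit 385) (nat_lit 5) (nat_lit 595) (nat_lit 553) (nat_lit 412)) (XT.lf (nat_lit 0) (nat_lit 10154989348) (nat_lit 836) (nat_lit 301428165) (nat_lit 76) (nat_lit 2198226276) (nat_lit 374) (nat_lit 5) (nat_lit 385) (nat_lit 5) (nat_lit 375) (nat_lit 5) (nat_lit 596) (nat_lit 553) (nat_lit 411))))))) (XT.nd (nat_lit 780) (nat_lit 1976) (nat_lit 0) (XT.nd (nat_lit 390) (nat_lit 2128) (nat_lit 0) (XT.nd (nat_lit 156) (nat_lit 760) (nat_lit 0) (XT.nd (nat_lit 78) (nat_lit 836) (nat_lit 0) (XT.lf (nat_lit 0) (nat_lit 7201312394) (nat_lit 760) (nat_lit 5247818097) (nat_lit 836) (nat_lit 339850763) (nat_lit 364) (nat_lit 5) (nat_lit 374) (nat_lit 5) (nat_lit 375) (nat_lit 5) (nat_lit 597) (nat_lit 553) (nat_lit 410)) (XT.lf (nat_lit 0) (nat_lit 1840436224) (nat_lit 836) (nat_lit 10995734864) (nat_lit 76) (nat_lit 89558343) (nat_lit 353)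 (nat_lit 5) (nat_lit 364) (nat_lit 5) (nat_lit 354) (nat_lit 5) (nat_lit 598) (nat_lit 553) (nat_lit 409))) (XT.nd (nat_lit 78) (nat_lit 760) (nat_lit 0) (XT.lf (nat_lit 0) (nat_lit 4119001767) (nat_lit 836) (nat_lit 3442963361) (nat_lit 76) (nat_lit 5502018392) (nat_lit 353) (nat_lit 5) (nat_lit 364) (nat_lit 5) (nat_lit 354) (nat_lit 5) (nat_lit 599) (nat_lit 553) (nat_lit 408)) (XT.nd (nat_lit 78) (nat_lit 0) (nat_lit 0) (XT.lf (nat_lit 0) (nat_lit 4302585349) (nat_lit 760) (nat_lit 2155469766) (nat_lit 836) (nat_lit 6746649583) (nat_lit 343) (nat_lit 5) (nat_lit 353) (nat_lit 5) (nat_lit 354) (nat_lit 5) (nat_lit 600) (nat_lit 553) (nat_lit 407)) (XT.lf (nat_lit 0) (nat_lit 8876086789) (nat_lit 836) (nat_lit 1134882549) (nat_lit 76) (nat_lit 3336627349) (nat_lit 343) (nat_lit 5) (nat_lit 354) (nat_lit 5) (nat_lit 344) (nat_lit 5) (nat_lit 601) (nat_lit 553) (nat_lit 406))))) (XT.nd (nat_lit 156) (nat_lit 684) (nat_lit 0) (XT.nd (nat_lit 78) (nat_lit 760) (nat_lit 0) (XT.lf (nat_lit 0) (nat_lit 6848680573)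 (nat_lit 684) (nat_lit 4539921969) (nat_lit 760) (nat_lit 2103821831) (nat_lit 334) (nat_lit 5) (nat_lit 343) (nat_lit 5) (nat_lit 344) (nat_lit 5) (nat_lit 602) (nat_lit 553) (nat_lit 405)) (XT.lf (nat_lit 0) (nat_lit 318008449) (nat_lit 760) (nat_lit 12278350544) (nat_lit 76) (nat_lit 1043532115) (nat_lit 324) (nat_lit 5) (nat_lit 334) (nat_lit 5) (nat_lit 325) (nat_lit 5) (nat_lit 603) (nat_lit 553) (nat_lit 404))) (XT.nd (nat_lit 78) (nat_lit 684) (nat_lit 0) (XT.lf (nat_lit 0) (nat_lit 2822666383) (nat_lit 760) (nat_lit 4231495432) (nat_lit 76) (nat_lit 6734616321) (nat_lit 324) (nat_lit 5) (nat_lit 334) (nat_lit 5) (nat_lit 325) (nat_lit 5) (nat_lit 604) (nat_lit 553) (nat_lit 403)) (XT.nd (nat_lit 78) (nat_lit 0) (nat_lit 0) (XT.lf (nat_lit 0) (nat_lit 4014462203) (nat_lit 684) (nat_lit 1376854051) (nat_lit 760) (nat_lit 8549048974) (nat_lit 315) (nat_lit 5) (nat_lit 324) (nat_lit 5) (nat_lit 325) (nat_lit 5) (nat_lit 605) (nat_lit 553) (nat_lit 402)) (XT.lf (nat_lit 0) (nat_lit 8056545314) (nat_lit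 760) (nat_lit 1655179795) (nat_lit 76) (nat_lit 4382355126) (nat_lit 315) (nat_lit 5) (nat_lit 325) (nat_lit 5) (nat_lit 316) (nat_lit 5) (nat_lit 606) (nat_lit 553) (nat_lit 401)))))) (XT.nd (nat_lit 77142) (nat_lit 0) (nat_lit 21584) (XT.nd (nat_lit 156) (nat_lit 684) (nat_lit 0) (XT.nd (nat_lit 78) (nat_lit 608) (nat_lit 0) (XT.lf (nat_lit 0) (nat_lit 6847314995) (nat_lit 684) (nat_lit 3969539471) (nat_lit 760) (nat_lit 3433179853) (nat_lit 306) (nat_lit 5) (nat_lit 315) (nat_lit 5) (nat_lit 316) (nat_lit 5) (nat_lit 607) (nat_lit 553) (nat_lit 400)) (XT.lf (nat_lit 0) (nat_lit 1121337923) (nat_lit 608) (nat_lit 12530070084) (nat_lit 684) (nat_lit 757318998) (nat_lit 298) (nat_lit 5) (nat_lit 306) (nat_lit 5) (nat_lit 307) (nat_lit 5) (nat_lit 608) (nat_lit 553) (nat_lit 399))) (XT.nd (nat_lit 78) (nat_lit 608) (nat_lit 0) (XT.lf (nat_lit 0) (nat_lit 2010869898) (nat_lit 684) (nat_lit 4707309708) (nat_lit 76) (nat_lit 7850864637) (nat_lit 297) (nat_lit 5) (nat_lit 306) (nat_lit 5) (nat_lit 298) (nat_lit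 5) (nat_lit 609) (nat_lit 553) (nat_lit 398)) (XT.nd (nat_lit 76830) (nat_lit 0) (nat_lit 21584) (XT.lf (nat_lit 0) (nat_lit 4078621699) (nat_lit 608) (nat_lit 760760057) (nat_lit 684) (nat_lit 9892784226) (nat_lit 289) (nat_lit 5) (nat_lit 297) (nat_lit 5) (nat_lit 298) (nat_lit 5) (nat_lit 610) (nat_lit 553) (nat_lit 397)) (XT.lf (nat_lit 0) (nat_lit 377294627) (nat_lit 1596) (nat_lit 1973372345) (nat_lit 1596) (nat_lit 1973372345) (nat_lit 573) (nat_lit 3) (nat_lit 594) (nat_lit 3) (nat_lit 594) (nat_lit 5) (nat_lit 554) (nat_lit 554) (nat_lit 452))))) (XT.nd (nat_lit 234) (nat_lit 0) (nat_lit 152) (XT.nd (nat_lit 78) (nat_lit 0) (nat_lit 76) (XT.lf (nat_lit 76) (nat_lit 366134847) (nat_lit 0) (nat_lit 1397644843) (nat_lit 1596) (nat_lit 6950712782) (nat_lit 574) (nat_lit 5) (nat_lit 573) (nat_lit 3) (nat_lit 594) (nat_lit 5) (nat_lit 555) (nat_lit 554) (nat_lit 451)) (XT.nd (nat_lit 78) (nat_lit 0) (nat_lit 0) (XT.lf (nat_lit 0) (nat_lit 2806402075) (nat_lit 1520) (nat_lit 3990068908) (nat_lit 1596)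 (nat_lit 1985499532) (nat_lit 574) (nat_lit 5) (nat_lit 594) (nat_lit 5) (nat_lit 595) (nat_lit 5) (nat_lit 556) (nat_lit 554) (nat_lit 450)) (XT.lf (nat_lit 76) (nat_lit 437996150) (nat_lit 0) (nat_lit 3418278201) (nat_lit 1596) (nat_lit 4994796694) (nat_lit 575) (nat_lit 5) (nat_lit 574) (nat_lit 5) (nat_lit 595) (nat_lit 5) (nat_lit 557) (nat_lit 554) (nat_lit 449)))) (XT.nd (nat_lit 78) (nat_lit 0) (nat_lit 0) (XT.lf (nat_lit 0) (nat_lit 4929062150) (nat_lit 1520) (nat_lit 3927032753) (nat_lit 1596) (nat_lit 65421180) (nat_lit 575) (nat_lit 5) (nat_lit 595) (nat_lit 5) (nat_lit 596) (nat_lit 5) (nat_lit 558) (nat_lit 554) (nat_lit 448)) (XT.nd (nat_lit 78) (nat_lit 0) (nat_lit 0) (XT.lf (nat_lit 76) (nat_lit 620139704) (nat_lit 0) (nat_lit 5405111223) (nat_lit 1596) (nat_lit 2968081034) (nat_lit 576) (nat_lit 5) (nat_lit 575) (nat_lit 5) (nat_lit 596) (nat_lit 5) (nat_lit 559) (nat_lit 554) (nat_lit 447)) (XT.lf (nat_lit 76) (nat_lit 5297494078) (nat_lit 0) (nat_lit 1847896942) (nat_lit 1596) (nat_lit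 1921153409) (nat_lit 576) (nat_lit 5) (nat_lit 575) (nat_lit 5) (nat_lit 596) (nat_lit 5) (nat_lit 560) (nat_lit 554) (nat_lit 446))))))))
noncomputable def xc132 : XT := (XT.nd (nat_lit 1560) (nat_lit 11476) (nat_lit 0) (XT.nd (nat_lit 780) (nat_lit 4636) (nat_lit 0) (XT.nd (nat_lit 390) (nat_lit 0) (nat_lit 152) (XT.nd (nat_lit 156) (nat_lit 0) (nat_lit 0) (XT.nd (nat_lit 78) (nat_lit 1596) (nat_lit 0) (XT.lf (nat_lit 76) (nat_lit 913330300) (nat_lit 0) (nat_lit 7368311308) (nat_lit 1596) (nat_lit 859706195) (nat_lit 577) (nat_lit 5) (nat_lit 576) (nat_lit 5) (nat_lit 597) (nat_lit 5) (nat_lit 561) (nat_lit 554) (nat_lit 445)) (XT.lf (nat_lit 0) (nat_lit 234179540) (nat_lit 1596) (nat_lit 3505027996) (nat_lit 1672) (nat_lit 5478128855) (nat_lit 555) (nat_lit 5) (nat_lit 576) (nat_lit 5) (nat_lit 577) (nat_lit 5) (nat_lit 562) (nat_lit 554) (nat_lit 444))) (XT.nd (nat_lit 78) (nat_lit 0) (nat_lit 76) (XT.lf (nat_lit 76) (nat_lit 1309706152) (nat_lit 0) (nat_lit 14137976) (nat_lit 1672) (nat_lit 7971179480)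 (nat_lit 556) (nat_lit 5) (nat_lit 555) (nat_lit 5) (nat_lit 577) (nat_lit 5) (nat_lit 563) (nat_lit 554) (nat_lit 443)) (XT.nd (nat_lit 78) (nat_lit 0) (nat_lit 0) (XT.lf (nat_lit 0) (nat_lit 2460871718) (nat_lit 1596) (nat_lit 3144897870) (nat_lit 1672) (nat_lit 3767984335) (nat_lit 556) (nat_lit 5) (nat_lit 577) (nat_lit 5) (nat_lit 578) (nat_lit 5) (nat_lit 564) (nat_lit 554) (nat_lit 442)) (XT.lf (nat_lit 76) (nat_lit 1801533556) (nat_lit 0) (nat_lit 1808657288) (nat_lit 1672) (nat_lit 5844077714) (nat_lit 557) (nat_lit 5) (nat_lit 556) (nat_lit 5) (nat_lit 578) (nat_lit 5) (nat_lit 565) (nat_lit 554) (nat_lit 441))))) (XT.nd (nat_lit 156) (nat_lit 0) (nat_lit 76) (XT.nd (nat_lit 78) (nat_lit 0) (nat_lit 0) (XT.lf (nat_lit 0) (nat_lit 4795297445) (nat_lit 1596) (nat_lit 2674715518) (nat_lit 1672) (nat_lit 2066125218) (nat_lit 557) (nat_lit 5) (nat_lit 578) (nat_lit 5) (nat_lit 579) (nat_lit 5) (nat_lit 566) (nat_lit 554) (nat_lit 440)) (XT.lf (nat_lit 76) (nat_lit 2408032541) (nat_lit 0) (nat_lit 3602268371)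 (nat_lit 1672) (nat_lit 3609221095) (nat_lit 558) (nat_lit 5) (nat_lit 557) (nat_lit 5) (nat_lit 579) (nat_lit 5) (nat_lit 567) (nat_lit 554) (nat_lit 439))) (XT.nd (nat_lit 78) (nat_lit 0) (nat_lit 0) (XT.lf (nat_lit 0) (nat_lit 7248850950) (nat_lit 1596) (nat_lit 2092674344) (nat_lit 1672) (nat_lit 363063976) (nat_lit 558) (nat_lit 5) (nat_lit 579) (nat_lit 5) (nat_lit 580) (nat_lit 5) (nat_lit 568) (nat_lit 554) (nat_lit 438)) (XT.nd (nat_lit 78) (nat_lit 0) (nat_lit 0) (XT.lf (nat_lit 76) (nat_lit 3131210632) (nat_lit 0) (nat_lit 5404513019) (nat_lit 1672) (nat_lit 1255163872) (nat_lit 559) (nat_lit 5) (nat_lit 558) (nat_lit 5) (nat_lit 580) (nat_lit 5) (nat_lit 569) (nat_lit 554) (nat_lit 437)) (XT.lf (nat_lit 76) (nat_lit 8473518809) (nat_lit 0) (nat_lit 1368534590) (nat_lit 1672) (nat_lit 36984613) (nat_lit 559) (nat_lit 5) (nat_lit 558) (nat_lit 5) (nat_lit 580) (nat_lit 5) (nat_lit 570) (nat_lit 554) (nat_lit 436)))))) (XT.nd (nat_lit 390) (nat_lit 3268) (nat_lit 0) (XT.nd (nat_lit 156) (nat_lit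 0) (nat_lit 76) (XT.nd (nat_lit 78) (nat_lit 0) (nat_lit 0) (XT.lf (nat_lit 0) (nat_lit 1213657446) (nat_lit 1672) (nat_lit 6003046078) (nat_lit 1748) (nat_lit 2751613872) (nat_lit 537) (nat_lit 5) (nat_lit 559) (nat_lit 5) (nat_lit 560) (nat_lit 5) (nat_lit 571) (nat_lit 554) (nat_lit 435)) (XT.lf (nat_lit 0) (nat_lit 2487653241) (nat_lit 1672) (nat_lit 620776461) (nat_lit 1748) (nat_lit 6950971680) (nat_lit 537) (nat_lit 5) (nat_lit 559) (nat_lit 5) (nat_lit 560) (nat_lit 5) (nat_lit 572) (nat_lit 554) (nat_lit 434))) (XT.nd (nat_lit 78) (nat_lit 0) (nat_lit 0) (XT.lf (nat_lit 0) (nat_lit 3807000987) (nat_lit 1672) (nat_lit 5240122127) (nat_lit 1748) (nat_lit 1104787107) (nat_lit 538) (nat_lit 5) (nat_lit 560) (nat_lit 5) (nat_lit 561) (nat_lit 5) (nat_lit 573) (nat_lit 554) (nat_lit 433)) (XT.nd (nat_lit 78) (nat_lit 0) (nat_lit 0) (XT.lf (nat_lit 76) (nat_lit 285595302) (nat_lit 0) (nat_lit 4874754943) (nat_lit 1748) (nat_lit 5085767301) (nat_lit 539) (nat_lit 5) (nat_lit 538) (nat_lit 5) (nat_lit 561)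 (nat_lit 5) (nat_lit 574) (nat_lit 554) (nat_lit 432)) (XT.lf (nat_lit 76) (nat_lit 5978185562) (nat_lit 0) (nat_lit 579003888) (nat_lit 1748) (nat_lit 3784691698) (nat_lit 539) (nat_lit 5) (nat_lit 538) (nat_lit 5) (nat_lit 561) (nat_lit 5) (nat_lit 575) (nat_lit 554) (nat_lit 431))))) (XT.nd (nat_lit 156) (nat_lit 3420) (nat_lit 0) (XT.nd (nat_lit 78) (nat_lit 0) (nat_lit 0) (XT.lf (nat_lit 76) (nat_lit 1322949928) (nat_lit 0) (nat_lit 6673946734) (nat_lit 1748) (nat_lit 2442365314) (nat_lit 540) (nat_lit 5) (nat_lit 539) (nat_lit 5) (nat_lit 562) (nat_lit 5) (nat_lit 576) (nat_lit 554) (nat_lit 430)) (XT.lf (nat_lit 76) (nat_lit 7163912208) (nat_lit 0) (nat_lit 2316494524) (nat_lit 1748) (nat_lit 1057884080) (nat_lit 540) (nat_lit 5) (nat_lit 539) (nat_lit 5) (nat_lit 562) (nat_lit 5) (nat_lit 577) (nat_lit 554) (nat_lit 429))) (XT.nd (nat_lit 78) (nat_lit 1748) (nat_lit 0) (XT.lf (nat_lit 0) (nat_lit 361974391) (nat_lit 1748) (nat_lit 8155021576) (nat_lit 76) (nat_lit 2122012114) (nat_lit 517) (nat_lit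 5) (nat_lit 540) (nat_lit 5) (nat_lit 518) (nat_lit 5) (nat_lit 578) (nat_lit 554) (nat_lit 428)) (XT.nd (nat_lit 78) (nat_lit 1748) (nat_lit 0) (XT.lf (nat_lit 0) (nat_lit 1816641845) (nat_lit 1748) (nat_lit 2273431686) (nat_lit 76) (nat_lit 6651115309) (nat_lit 517) (nat_lit 5) (nat_lit 540) (nat_lit 5) (nat_lit 518) (nat_lit 5) (nat_lit 579) (nat_lit 554) (nat_lit 427)) (XT.lf (nat_lit 0) (nat_lit 3310532150) (nat_lit 1824) (nat_lit 7087716178) (nat_lit 76) (nat_lit 446962819) (nat_lit 494) (nat_lit 5) (nat_lit 518) (nat_lit 5) (nat_lit 495) (nat_lit 5) (nat_lit 580) (nat_lit 554) (nat_lit 426))))))) (XT.nd (nat_lit 780) (nat_lit 4864) (nat_lit 0) (XT.nd (nat_lit 390) (nat_lit 2660) (nat_lit 0) (XT.nd (nat_lit 156) (nat_lit 2128) (nat_lit 0) (XT.nd (nat_lit 78) (nat_lit 1824) (nat_lit 0) (XT.lf (nat_lit 0) (nat_lit 4859776639) (nat_lit 1824) (nat_lit 1053214527) (nat_lit 76) (nat_lit 5037813721) (nat_lit 494) (nat_lit 5) (nat_lit 518) (nat_lit 5) (nat_lit 495) (nat_lit 5) (nat_lit 581) (nat_lit 554) (nat_lit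 425)) (XT.lf (nat_lit 0) (nat_lit 5155002356) (nat_lit 1824) (nat_lit 1301838887) (nat_lit 1900) (nat_lit 4601333056) (nat_lit 470) (nat_lit 5) (nat_lit 494) (nat_lit 5) (nat_lit 495) (nat_lit 5) (nat_lit 582) (nat_lit 554) (nat_lit 424))) (XT.nd (nat_lit 78) (nat_lit 988) (nat_lit 0) (XT.lf (nat_lit 0) (nat_lit 301098946) (nat_lit 1140) (nat_lit 7799512653) (nat_lit 1216) (nat_lit 3066784705) (nat_lit 455) (nat_lit 5) (nat_lit 470) (nat_lit 5) (nat_lit 471) (nat_lit 5) (nat_lit 583) (nat_lit 554) (nat_lit 423)) (XT.nd (nat_lit 78) (nat_lit 988) (nat_lit 0) (XT.lf (nat_lit 0) (nat_lit 6686007225) (nat_lit 1140) (nat_lit 3123264052) (nat_lit 1216) (nat_lit 1468891678) (nat_lit 455) (nat_lit 5) (nat_lit 470) (nat_lit 5) (nat_lit 471) (nat_lit 5) (nat_lit 584) (nat_lit 554) (nat_lit 422)) (XT.lf (nat_lit 0) (nat_lit 165467121) (nat_lit 988) (nat_lit 9586410777) (nat_lit 76) (nat_lit 1639114223) (nat_lit 442) (nat_lit 5) (nat_lit 455) (nat_lit 5) (nat_lit 443) (nat_lit 5) (nat_lit 585) (nat_lit 554) (nat_lit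 421))))) (XT.nd (nat_lit 156) (nat_lit 1748) (nat_lit 0) (XT.nd (nat_lit 78) (nat_lit 912) (nat_lit 0) (XT.lf (nat_lit 0) (nat_lit 1848839985) (nat_lit 988) (nat_lit 3159457268) (nat_lit 76) (nat_lit 6496866982) (nat_lit 442) (nat_lit 5) (nat_lit 455) (nat_lit 5) (nat_lit 443) (nat_lit 5) (nat_lit 586) (nat_lit 554) (nat_lit 420)) (XT.lf (nat_lit 0) (nat_lit 3426383688) (nat_lit 912) (nat_lit 146324576) (nat_lit 988) (nat_lit 8048775414) (nat_lit 430) (nat_lit 5) (nat_lit 442) (nat_lit 5) (nat_lit 443) (nat_lit 5) (nat_lit 587) (nat_lit 554) (nat_lit 419))) (XT.nd (nat_lit 78) (nat_lit 1748) (nat_lit 0) (XT.lf (nat_lit 0) (nat_lit 5368438874) (nat_lit 988) (nat_lit 1599128180) (nat_lit 76) (nat_lit 4771815194) (nat_lit 430) (nat_lit 5) (nat_lit 443) (nat_lit 5) (nat_lit 431) (nat_lit 5) (nat_lit 588) (nat_lit 554) (nat_lit 418)) (XT.nd (nat_lit 78) (nat_lit 912) (nat_lit 0) (XT.lf (nat_lit 0) (nat_lit 5181234522) (nat_lit 836) (nat_lit 2038551247) (nat_lit 912) (nat_lit 4639459417) (nat_lit 419) (nat_lit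 5) (nat_lit 430) (nat_lit 5) (nat_lit 431) (nat_lit 5) (nat_lit 589) (nat_lit 554) (nat_lit 417)) (XT.lf (nat_lit 0) (nat_lit 104773168) (nat_lit 912) (nat_lit 9019568829) (nat_lit 988) (nat_lit 2856840158) (nat_lit 407) (nat_lit 5) (nat_lit 419) (nat_lit 5) (nat_lit 420) (nat_lit 5) (nat_lit 590) (nat_lit 554) (nat_lit 416)))))) (XT.nd (nat_lit 390) (nat_lit 3116) (nat_lit 0) (XT.nd (nat_lit 156) (nat_lit 836) (nat_lit 0) (XT.nd (nat_lit 78) (nat_lit 912) (nat_lit 0) (XT.lf (nat_lit 0) (nat_lit 7085438574) (nat_lit 912) (nat_lit 4025261949) (nat_lit 988) (nat_lit 993983530) (nat_lit 407) (nat_lit 5) (nat_lit 419) (nat_lit 5) (nat_lit 420) (nat_lit 5) (nat_lit 591) (nat_lit 554) (nat_lit 415)) (XT.lf (nat_lit 0) (nat_lit 899845440) (nat_lit 912) (nat_lit 10256997275) (nat_lit 76) (nat_lit 1073584021) (nat_lit 395) (nat_lit 5) (nat_lit 407) (nat_lit 5) (nat_lit 396) (nat_lit 5) (nat_lit 592) (nat_lit 554) (nat_lit 414))) (XT.nd (nat_lit 78) (nat_lit 836) (nat_lit 0) (XT.lf (nat_lit 0) (nat_lit 2864678142)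 (nat_lit 912) (nat_lit 3232185033) (nat_lit 76) (nat_lit 6260761351) (nat_lit 395) (nat_lit 5) (nat_lit 407) (nat_lit 5) (nat_lit 396) (nat_lit 5) (nat_lit 593) (nat_lit 554) (nat_lit 413)) (XT.nd (nat_lit 78) (nat_lit 0) (nat_lit 0) (XT.lf (nat_lit 0) (nat_lit 3970782950) (nat_lit 836) (nat_lit 909944668) (nat_lit 912) (nat_lit 7606400632) (nat_lit 384) (nat_lit 5) (nat_lit 395) (nat_lit 5) (nat_lit 396) (nat_lit 5) (nat_lit 594) (nat_lit 554) (nat_lit 412)) (XT.lf (nat_lit 0) (nat_lit 6973687664) (nat_lit 912) (nat_lit 1300344006) (nat_lit 76) (nat_lit 4344458961) (nat_lit 384) (nat_lit 5) (nat_lit 396) (nat_lit 5) (nat_lit 385) (nat_lit 5) (nat_lit 595) (nat_lit 554) (nat_lit 411))))) (XT.nd (nat_lit 234) (nat_lit 1520) (nat_lit 0) (XT.nd (nat_lit 78) (nat_lit 836) (nat_lit 0) (XT.lf (nat_lit 0) (nat_lit 6119907990) (nat_lit 760) (nat_lit 3020941691) (nat_lit 836) (nat_lit 3610984090) (nat_lit 374) (nat_lit 5) (nat_lit 384) (nat_lit 5) (nat_lit 385) (nat_lit 5) (nat_lit 596) (nat_lit 554) (nat_lit 410))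 (XT.nd (nat_lit 78) (nat_lit 76) (nat_lit 0) (XT.lf (nat_lit 0) (nat_lit 799300946) (nat_lit 760) (nat_lit 10567948772) (nat_lit 836) (nat_lit 1520276518) (nat_lit 364) (nat_lit 5) (nat_lit 374) (nat_lit 5) (nat_lit 375) (nat_lit 5) (nat_lit 597) (nat_lit 554) (nat_lit 409)) (XT.lf (nat_lit 0) (nat_lit 655846376) (nat_lit 836) (nat_lit 4594820844) (nat_lit 76) (nat_lit 7774153557) (nat_lit 363) (nat_lit 5) (nat_lit 374) (nat_lit 5) (nat_lit 364) (nat_lit 5) (nat_lit 598) (nat_lit 554) (nat_lit 408)))) (XT.nd (nat_lit 78) (nat_lit 760) (nat_lit 0) (XT.lf (nat_lit 0) (nat_lit 2863446905) (nat_lit 836) (nat_lit 10101527338) (nat_lit 76) (nat_lit 199520090) (nat_lit 353) (nat_lit 5) (nat_lit 364) (nat_lit 5) (nat_lit 354) (nat_lit 5) (nat_lit 599) (nat_lit 554) (nat_lit 407)) (XT.nd (nat_lit 78) (nat_lit 760) (nat_lit 0) (XT.lf (nat_lit 0) (nat_lit 5168246466) (nat_lit 836) (nat_lit 2419545938) (nat_lit 76) (nat_lit 5718108349) (nat_lit 353) (nat_lit 5) (nat_lit 364) (nat_lit 5) (nat_lit 354) (nat_lit 5) (nat_lit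 600) (nat_lit 554) (nat_lit 406)) (XT.lf (nat_lit 0) (nat_lit 5473727715) (nat_lit 760) (nat_lit 2068440164) (nat_lit 836) (nat_lit 5907507229) (nat_lit 343) (nat_lit 5) (nat_lit 353) (nat_lit 5) (nat_lit 354) (nat_lit 5) (nat_lit 601) (nat_lit 554) (nat_lit 405))))))))
noncomputable def xc133 : XT := (XT.nd (nat_lit 78390) (nat_lit 0) (nat_lit 11020) (XT.nd (nat_lit 77610) (nat_lit 0) (nat_lit 19608) (XT.nd (nat_lit 390) (nat_lit 1368) (nat_lit 0) (XT.nd (nat_lit 156) (nat_lit 1444) (nat_lit 0) (XT.nd (nat_lit 78) (nat_lit 684) (nat_lit 0) (XT.lf (nat_lit 0) (nat_lit 9990664025) (nat_lit 836) (nat_lit 75845500) (nat_lit 76) (nat_lit 3529273819) (nat_lit 343) (nat_lit 5) (nat_lit 354) (nat_lit 5) (nat_lit 344) (nat_lit 5) (nat_lit 602) (nat_lit 554) (nat_lit 404)) (XT.lf (nat_lit 0) (nat_lit 8060272209) (nat_lit 684) (nat_lit 4481761379) (nat_lit 760) (nat_lit 1201702398) (nat_lit 334) (nat_lit 5) (nat_lit 343) (nat_lit 5) (nat_lit 344) (nat_lit 5) (nat_lit 603) (nat_lit 554) (nat_lit 403))) (XT.nd (nat_lit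 78) (nat_lit 684) (nat_lit 0) (XT.lf (nat_lit 0) (nat_lit 1245956018) (nat_lit 760) (nat_lit 11426645057) (nat_lit 76) (nat_lit 1221633333) (nat_lit 324) (nat_lit 5) (nat_lit 334) (nat_lit 5) (nat_lit 325) (nat_lit 5) (nat_lit 604) (nat_lit 554) (nat_lit 402)) (XT.nd (nat_lit 78) (nat_lit 684) (nat_lit 0) (XT.lf (nat_lit 0) (nat_lit 3782636770) (nat_lit 760) (nat_lit 3240367990) (nat_lit 76) (nat_lit 7023456270) (nat_lit 324) (nat_lit 5) (nat_lit 334) (nat_lit 5) (nat_lit 325) (nat_lit 5) (nat_lit 605) (nat_lit 554) (nat_lit 401)) (XT.lf (nat_lit 0) (nat_lit 5163431447) (nat_lit 684) (nat_lit 1228450750) (nat_lit 760) (nat_lit 7809413654) (nat_lit 315) (nat_lit 5) (nat_lit 324) (nat_lit 5) (nat_lit 325) (nat_lit 5) (nat_lit 606) (nat_lit 554) (nat_lit 400))))) (XT.nd (nat_lit 156) (nat_lit 684) (nat_lit 0) (XT.nd (nat_lit 78) (nat_lit 684) (nat_lit 0) (XT.lf (nat_lit 0) (nat_lit 9094031062) (nat_lit 760) (nat_lit 624151665) (nat_lit 76) (nat_lit 4640230554) (nat_lit 315) (nat_lit 5) (nat_lit 325) (nat_lit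 5) (nat_lit 316) (nat_lit 5) (nat_lit 607) (nat_lit 554) (nat_lit 399)) (XT.lf (nat_lit 0) (nat_lit 8041392153) (nat_lit 684) (nat_lit 3857834411) (nat_lit 760) (nat_lit 2618466702) (nat_lit 306) (nat_lit 5) (nat_lit 315) (nat_lit 5) (nat_lit 316) (nat_lit 5) (nat_lit 608) (nat_lit 554) (nat_lit 398))) (XT.nd (nat_lit 78) (nat_lit 0) (nat_lit 0) (XT.lf (nat_lit 0) (nat_lit 100555385) (nat_lit 684) (nat_lit 12470462792) (nat_lit 76) (nat_lit 2108705657) (nat_lit 297) (nat_lit 5) (nat_lit 306) (nat_lit 5) (nat_lit 298) (nat_lit 5) (nat_lit 609) (nat_lit 554) (nat_lit 397)) (XT.nd (nat_lit 76908) (nat_lit 0) (nat_lit 20976) (XT.lf (nat_lit 0) (nat_lit 2897057632) (nat_lit 684) (nat_lit 3744927751) (nat_lit 76) (nat_lit 8201500512) (nat_lit 297) (nat_lit 5) (nat_lit 306) (nat_lit 5) (nat_lit 298) (nat_lit 5) (nat_lit 610) (nat_lit 554) (nat_lit 396)) (XT.lf (nat_lit 0) (nat_lit 1377619966) (nat_lit 1596) (nat_lit 1506505355) (nat_lit 1596) (nat_lit 1506505355) (nat_lit 573) (nat_lit 3) (nat_lit 594) (nat_lit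 3) (nat_lit 594) (nat_lit 5) (nat_lit 555) (nat_lit 555) (nat_lit 450)))))) (XT.nd (nat_lit 390) (nat_lit 1368) (nat_lit 0) (XT.nd (nat_lit 156) (nat_lit 0) (nat_lit 76) (XT.nd (nat_lit 78) (nat_lit 0) (nat_lit 76) (XT.lf (nat_lit 76) (nat_lit 1379464122) (nat_lit 0) (nat_lit 2372749188) (nat_lit 1596) (nat_lit 5097439500) (nat_lit 574) (nat_lit 5) (nat_lit 573) (nat_lit 3) (nat_lit 594) (nat_lit 5) (nat_lit 556) (nat_lit 555) (nat_lit 449)) (XT.lf (nat_lit 0) (nat_lit 4771361969) (nat_lit 1520) (nat_lit 3039198106) (nat_lit 1596) (nat_lit 1108808163) (nat_lit 574) (nat_lit 5) (nat_lit 594) (nat_lit 5) (nat_lit 595) (nat_lit 5) (nat_lit 557) (nat_lit 555) (nat_lit 448))) (XT.nd (nat_lit 78) (nat_lit 0) (nat_lit 0) (XT.lf (nat_lit 76) (nat_lit 1470647515) (nat_lit 0) (nat_lit 4340803883) (nat_lit 1596) (nat_lit 3179016263) (nat_lit 575) (nat_lit 5) (nat_lit 574) (nat_lit 5) (nat_lit 595) (nat_lit 5) (nat_lit 558) (nat_lit 555) (nat_lit 447)) (XT.nd (nat_lit 78) (nat_lit 0) (nat_lit 76) (XT.lf (nat_lit 76)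 (nat_lit 6098635928) (nat_lit 0) (nat_lit 769795474) (nat_lit 1596) (nat_lit 2194636720) (nat_lit 575) (nat_lit 5) (nat_lit 574) (nat_lit 5) (nat_lit 595) (nat_lit 5) (nat_lit 559) (nat_lit 555) (nat_lit 446)) (XT.lf (nat_lit 76) (nat_lit 1671799240) (nat_lit 0) (nat_lit 6280498353) (nat_lit 1596) (nat_lit 1184708876) (nat_lit 576) (nat_lit 5) (nat_lit 575) (nat_lit 5) (nat_lit 596) (nat_lit 5) (nat_lit 560) (nat_lit 555) (nat_lit 445))))) (XT.nd (nat_lit 156) (nat_lit 0) (nat_lit 0) (XT.nd (nat_lit 78) (nat_lit 1520) (nat_lit 0) (XT.lf (nat_lit 76) (nat_lit 6422323119) (nat_lit 0) (nat_lit 2637094985) (nat_lit 1596) (nat_lit 152974733) (nat_lit 576) (nat_lit 5) (nat_lit 575) (nat_lit 5) (nat_lit 596) (nat_lit 5) (nat_lit 561) (nat_lit 555) (nat_lit 444)) (XT.lf (nat_lit 0) (nat_lit 884606585) (nat_lit 1596) (nat_lit 7311293051) (nat_lit 1672) (nat_lit 1093331105) (nat_lit 555) (nat_lit 5) (nat_lit 576) (nat_lit 5) (nat_lit 577) (nat_lit 5) (nat_lit 562) (nat_lit 555) (nat_lit 443))) (XT.nd (nat_lit 78)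 (nat_lit 0) (nat_lit 0) (XT.lf (nat_lit 0) (nat_lit 1954555483) (nat_lit 1596) (nat_lit 2520627199) (nat_lit 1672) (nat_lit 4892129960) (nat_lit 555) (nat_lit 5) (nat_lit 576) (nat_lit 5) (nat_lit 577) (nat_lit 5) (nat_lit 563) (nat_lit 555) (nat_lit 442)) (XT.nd (nat_lit 78) (nat_lit 0) (nat_lit 76) (XT.lf (nat_lit 76) (nat_lit 2383464122) (nat_lit 0) (nat_lit 655709693) (nat_lit 1672) (nat_lit 6407917689) (nat_lit 556) (nat_lit 5) (nat_lit 555) (nat_lit 5) (nat_lit 577) (nat_lit 5) (nat_lit 564) (nat_lit 555) (nat_lit 441)) (XT.lf (nat_lit 0) (nat_lit 4161745163) (nat_lit 1596) (nat_lit 2143521224) (nat_lit 1672) (nat_lit 3222875063) (nat_lit 556) (nat_lit 5) (nat_lit 577) (nat_lit 5) (nat_lit 578) (nat_lit 5) (nat_lit 565) (nat_lit 555) (nat_lit 440))))))) (XT.nd (nat_lit 780) (nat_lit 7144) (nat_lit 0) (XT.nd (nat_lit 390) (nat_lit 0) (nat_lit 0) (XT.nd (nat_lit 156) (nat_lit 1520) (nat_lit 0) (XT.nd (nat_lit 78) (nat_lit 0) (nat_lit 76) (XT.lf (nat_lit 76) (nat_lit 2894837024) (nat_lit 0) (nat_lit 2413692752)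 (nat_lit 1672) (nat_lit 4302248087) (nat_lit 557) (nat_lit 5) (nat_lit 556) (nat_lit 5) (nat_lit 578) (nat_lit 5) (nat_lit 566) (nat_lit 555) (nat_lit 439)) (XT.lf (nat_lit 0) (nat_lit 6481832496) (nat_lit 1596) (nat_lit 1656109540) (nat_lit 1672) (nat_lit 1557054010) (nat_lit 557) (nat_lit 5) (nat_lit 578) (nat_lit 5) (nat_lit 579) (nat_lit 5) (nat_lit 567) (nat_lit 555) (nat_lit 438))) (XT.nd (nat_lit 78) (nat_lit 1596) (nat_lit 0) (XT.lf (nat_lit 76) (nat_lit 3521240189) (nat_lit 0) (nat_lit 4175622029) (nat_lit 1672) (nat_lit 2083671832) (nat_lit 558) (nat_lit 5) (nat_lit 557) (nat_lit 5) (nat_lit 579) (nat_lit 5) (nat_lit 568) (nat_lit 555) (nat_lit 437)) (XT.nd (nat_lit 78) (nat_lit 1596) (nat_lit 0) (XT.lf (nat_lit 76) (nat_lit 8810802025) (nat_lit 0) (nat_lit 116232032) (nat_lit 1672) (nat_lit 940932591) (nat_lit 558) (nat_lit 5) (nat_lit 557) (nat_lit 5) (nat_lit 579) (nat_lit 5) (nat_lit 569) (nat_lit 555) (nat_lit 436)) (XT.lf (nat_lit 0) (nat_lit 255925350) (nat_lit 1672) (nat_lit 5693292724)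 (nat_lit 1748) (nat_lit 4007217082) (nat_lit 536) (nat_lit 5) (nat_lit 558) (nat_lit 5) (nat_lit 559) (nat_lit 5) (nat_lit 570) (nat_lit 555) (nat_lit 435))))) (XT.nd (nat_lit 156) (nat_lit 0) (nat_lit 76) (XT.nd (nat_lit 78) (nat_lit 0) (nat_lit 76) (XT.lf (nat_lit 0) (nat_lit 1452379833) (nat_lit 1672) (nat_lit 363516655) (nat_lit 1748) (nat_lit 8230887610) (nat_lit 536) (nat_lit 5) (nat_lit 558) (nat_lit 5) (nat_lit 559) (nat_lit 5) (nat_lit 571) (nat_lit 555) (nat_lit 434)) (XT.lf (nat_lit 0) (nat_lit 2702606435) (nat_lit 1672) (nat_lit 5028259004) (nat_lit 1748) (nat_lit 2407478332) (nat_lit 537) (nat_lit 5) (nat_lit 559) (nat_lit 5) (nat_lit 560) (nat_lit 5) (nat_lit 572) (nat_lit 555) (nat_lit 433))) (XT.nd (nat_lit 78) (nat_lit 0) (nat_lit 76) (XT.lf (nat_lit 76) (nat_lit 446038269) (nat_lit 0) (nat_lit 3530220720) (nat_lit 1748) (nat_lit 6255507823) (nat_lit 538) (nat_lit 5) (nat_lit 537) (nat_lit 5) (nat_lit 560) (nat_lit 5) (nat_lit 573) (nat_lit 555) (nat_lit 432)) (XT.nd (nat_lit 78) (nat_lit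 0) (nat_lit 0) (XT.lf (nat_lit 0) (nat_lit 5295602869) (nat_lit 1672) (nat_lit 4248004686) (nat_lit 1748) (nat_lit 783046981) (nat_lit 538) (nat_lit 5) (nat_lit 560) (nat_lit 5) (nat_lit 561) (nat_lit 5) (nat_lit 574) (nat_lit 555) (nat_lit 431)) (XT.lf (nat_lit 76) (nat_lit 1381010513) (nat_lit 0) (nat_lit 5274388346) (nat_lit 1748) (nat_lit 3767760430) (nat_lit 539) (nat_lit 5) (nat_lit 538) (nat_lit 5) (nat_lit 561) (nat_lit 5) (nat_lit 575) (nat_lit 555) (nat_lit 430)))))) (XT.nd (nat_lit 390) (nat_lit 5624) (nat_lit 0) (XT.nd (nat_lit 156) (nat_lit 1672) (nat_lit 0) (XT.nd (nat_lit 78) (nat_lit 0) (nat_lit 76) (XT.lf (nat_lit 76) (nat_lit 7166085847) (nat_lit 0) (nat_lit 886797989) (nat_lit 1748) (nat_lit 2468501005) (nat_lit 539) (nat_lit 5) (nat_lit 538) (nat_lit 5) (nat_lit 561) (nat_lit 5) (nat_lit 576) (nat_lit 555) (nat_lit 429)) (XT.lf (nat_lit 76) (nat_lit 2439781637) (nat_lit 0) (nat_lit 7060041577) (nat_lit 1748) (nat_lit 1121322153) (nat_lit 540) (nat_lit 5) (nat_lit 539) (nat_lit 5) (nat_lit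 562) (nat_lit 5) (nat_lit 577) (nat_lit 555) (nat_lit 428))) (XT.nd (nat_lit 78) (nat_lit 0) (nat_lit 76) (XT.lf (nat_lit 0) (nat_lit 260525855) (nat_lit 1748) (nat_lit 2348212948) (nat_lit 1824) (nat_lit 8113909184) (nat_lit 516) (nat_lit 5) (nat_lit 539) (nat_lit 5) (nat_lit 540) (nat_lit 5) (nat_lit 578) (nat_lit 555) (nat_lit 427)) (XT.nd (nat_lit 78) (nat_lit 0) (nat_lit 0) (XT.lf (nat_lit 0) (nat_lit 1674176515) (nat_lit 1748) (nat_lit 7210981828) (nat_lit 76) (nat_lit 1940490998) (nat_lit 517) (nat_lit 5) (nat_lit 540) (nat_lit 5) (nat_lit 518) (nat_lit 5) (nat_lit 579) (nat_lit 555) (nat_lit 426)) (XT.lf (nat_lit 0) (nat_lit 3132349815) (nat_lit 1748) (nat_lit 1233468771) (nat_lit 76) (nat_lit 6564567656) (nat_lit 517) (nat_lit 5) (nat_lit 540) (nat_lit 5) (nat_lit 518) (nat_lit 5) (nat_lit 580) (nat_lit 555) (nat_lit 425))))) (XT.nd (nat_lit 234) (nat_lit 2128) (nat_lit 0) (XT.nd (nat_lit 78) (nat_lit 1824) (nat_lit 0) (XT.lf (nat_lit 0) (nat_lit 4636844961) (nat_lit 1824) (nat_lit 6124727878) (nat_lit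 76) (nat_lit 275302378) (nat_lit 494) (nat_lit 5) (nat_lit 518) (nat_lit 5) (nat_lit 495) (nat_lit 5) (nat_lit 581) (nat_lit 555) (nat_lit 424)) (XT.nd (nat_lit 78) (nat_lit 0) (nat_lit 0) (XT.lf (nat_lit 0) (nat_lit 8919162) (nat_lit 1824) (nat_lit 6183505201) (nat_lit 1900) (nat_lit 4952650216) (nat_lit 470) (nat_lit 5) (nat_lit 494) (nat_lit 5) (nat_lit 495) (nat_lit 5) (nat_lit 582) (nat_lit 555) (nat_lit 423)) (XT.lf (nat_lit 0) (nat_lit 6334057873) (nat_lit 1824) (nat_lit 1470076876) (nat_lit 1900) (nat_lit 3450803272) (nat_lit 470) (nat_lit 5) (nat_lit 494) (nat_lit 5) (nat_lit 495) (nat_lit 5) (nat_lit 583) (nat_lit 555) (nat_lit 422)))) (XT.nd (nat_lit 78) (nat_lit 988) (nat_lit 0) (XT.lf (nat_lit 0) (nat_lit 1401154170) (nat_lit 1140) (nat_lit 8061938945) (nat_lit 1216) (nat_lit 1903605817) (nat_lit 455) (nat_lit 5) (nat_lit 470) (nat_lit 5) (nat_lit 471) (nat_lit 5) (nat_lit 584) (nat_lit 555) (nat_lit 421)) (XT.nd (nat_lit 78) (nat_lit 988) (nat_lit 0) (XT.lf (nat_lit 0) (nat_lit 7892308982)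 (nat_lit 1140) (nat_lit 3290078390) (nat_lit 1216) (nat_lit 297765019) (nat_lit 455) (nat_lit 5) (nat_lit 470) (nat_lit 5) (nat_lit 471) (nat_lit 5) (nat_lit 585) (nat_lit 555) (nat_lit 420)) (XT.lf (nat_lit 0) (nat_lit 1336758291) (nat_lit 988) (nat_lit 8672966357) (nat_lit 76) (nat_lit 1585693839) (nat_lit 442) (nat_lit 5) (nat_lit 455) (nat_lit 5) (nat_lit 443) (nat_lit 5) (nat_lit 586) (nat_lit 555) (nat_lit 419))))))))
noncomputable def xc134 : XT := (XT.nd (nat_lit 1560) (nat_lit 2052) (nat_lit 0) (XT.nd (nat_lit 780) (nat_lit 4560) (nat_lit 0) (XT.nd (nat_lit 390) (nat_lit 1748) (nat_lit 0) (XT.nd (nat_lit 156) (nat_lit 1748) (nat_lit 0) (XT.nd (nat_lit 78) (nat_lit 912) (nat_lit 0) (XT.lf (nat_lit 0) (nat_lit 3030897008) (nat_lit 988) (nat_lit 2139143829) (nat_lit 76) (nat_lit 6542291901) (nat_lit 442) (nat_lit 5) (nat_lit 455) (nat_lit 5) (nat_lit 443) (nat_lit 5) (nat_lit 587) (nat_lit 555) (nat_lit 418)) (XT.lf (nat_lit 0) (nat_lit 4571285640) (nat_lit 912) (nat_lit 202492995) (nat_lit 988) (nat_lit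 7057509867) (nat_lit 430) (nat_lit 5) (nat_lit 442) (nat_lit 5) (nat_lit 443) (nat_lit 5) (nat_lit 588) (nat_lit 555) (nat_lit 417))) (XT.nd (nat_lit 78) (nat_lit 1748) (nat_lit 0) (XT.lf (nat_lit 0) (nat_lit 6582935616) (nat_lit 988) (nat_lit 553321714) (nat_lit 76) (nat_lit 4815738115) (nat_lit 430) (nat_lit 5) (nat_lit 443) (nat_lit 5) (nat_lit 431) (nat_lit 5) (nat_lit 589) (nat_lit 555) (nat_lit 416)) (XT.nd (nat_lit 78) (nat_lit 912) (nat_lit 0) (XT.lf (nat_lit 0) (nat_lit 6355557525) (nat_lit 836) (nat_lit 2100995216) (nat_lit 912) (nat_lit 3617998660) (nat_lit 419) (nat_lit 5) (nat_lit 430) (nat_lit 5) (nat_lit 431) (nat_lit 5) (nat_lit 590) (nat_lit 555) (nat_lit 415)) (XT.lf (nat_lit 0) (nat_lit 1192397415) (nat_lit 912) (nat_lit 9192293651) (nat_lit 988) (nat_lit 1814526838) (nat_lit 407) (nat_lit 5) (nat_lit 419) (nat_lit 5) (nat_lit 420) (nat_lit 5) (nat_lit 591) (nat_lit 555) (nat_lit 414))))) (XT.nd (nat_lit 156) (nat_lit 836) (nat_lit 0) (XT.nd (nat_lit 78) (nat_lit 836) (nat_lit 0) (XT.lf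 (nat_lit 0) (nat_lit 63189324) (nat_lit 988) (nat_lit 4034637600) (nat_lit 76) (nat_lit 8227777893) (nat_lit 406) (nat_lit 5) (nat_lit 419) (nat_lit 5) (nat_lit 407) (nat_lit 5) (nat_lit 592) (nat_lit 555) (nat_lit 413)) (XT.lf (nat_lit 0) (nat_lit 1967834961) (nat_lit 912) (nat_lit 9369935305) (nat_lit 76) (nat_lit 1116236271) (nat_lit 395) (nat_lit 5) (nat_lit 407) (nat_lit 5) (nat_lit 396) (nat_lit 5) (nat_lit 593) (nat_lit 555) (nat_lit 412))) (XT.nd (nat_lit 78) (nat_lit 836) (nat_lit 0) (XT.lf (nat_lit 0) (nat_lit 3951376226) (nat_lit 912) (nat_lit 2226042542) (nat_lit 76) (nat_lit 6406741843) (nat_lit 395) (nat_lit 5) (nat_lit 407) (nat_lit 5) (nat_lit 396) (nat_lit 5) (nat_lit 594) (nat_lit 555) (nat_lit 411)) (XT.nd (nat_lit 78) (nat_lit 0) (nat_lit 0) (XT.lf (nat_lit 0) (nat_lit 5113940155) (nat_lit 836) (nat_lit 880528650) (nat_lit 912) (nat_lit 6722051717) (nat_lit 384) (nat_lit 5) (nat_lit 395) (nat_lit 5) (nat_lit 396) (nat_lit 5) (nat_lit 595) (nat_lit 555) (nat_lit 410)) (XT.lf (nat_lit 0)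 (nat_lit 8109667086) (nat_lit 912) (nat_lit 263818835) (nat_lit 76) (nat_lit 4477417193) (nat_lit 384) (nat_lit 5) (nat_lit 396) (nat_lit 5) (nat_lit 385) (nat_lit 5) (nat_lit 596) (nat_lit 555) (nat_lit 409)))))) (XT.nd (nat_lit 390) (nat_lit 2204) (nat_lit 0) (XT.nd (nat_lit 156) (nat_lit 836) (nat_lit 0) (XT.nd (nat_lit 78) (nat_lit 760) (nat_lit 0) (XT.lf (nat_lit 0) (nat_lit 7297847858) (nat_lit 760) (nat_lit 3009638434) (nat_lit 836) (nat_lit 2679681078) (nat_lit 374) (nat_lit 5) (nat_lit 384) (nat_lit 5) (nat_lit 385) (nat_lit 5) (nat_lit 597) (nat_lit 555) (nat_lit 408)) (XT.lf (nat_lit 0) (nat_lit 1882995166) (nat_lit 760) (nat_lit 10683517391) (nat_lit 836) (nat_lit 559299687) (nat_lit 364) (nat_lit 5) (nat_lit 374) (nat_lit 5) (nat_lit 375) (nat_lit 5) (nat_lit 598) (nat_lit 555) (nat_lit 407))) (XT.nd (nat_lit 78) (nat_lit 760) (nat_lit 0) (XT.lf (nat_lit 0) (nat_lit 1628159581) (nat_lit 836) (nat_lit 3627172157) (nat_lit 76) (nat_lit 8010776385) (nat_lit 363) (nat_lit 5) (nat_lit 374) (nat_lit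 5) (nat_lit 364) (nat_lit 5) (nat_lit 599) (nat_lit 555) (nat_lit 406)) (XT.nd (nat_lit 78) (nat_lit 0) (nat_lit 0) (XT.lf (nat_lit 0) (nat_lit 3868622376) (nat_lit 836) (nat_lit 9232698385) (nat_lit 76) (nat_lit 307480677) (nat_lit 353) (nat_lit 5) (nat_lit 364) (nat_lit 5) (nat_lit 354) (nat_lit 5) (nat_lit 600) (nat_lit 555) (nat_lit 405)) (XT.lf (nat_lit 0) (nat_lit 6200931525) (nat_lit 836) (nat_lit 1418074602) (nat_lit 76) (nat_lit 5934402070) (nat_lit 353) (nat_lit 5) (nat_lit 364) (nat_lit 5) (nat_lit 354) (nat_lit 5) (nat_lit 601) (nat_lit 555) (nat_lit 404))))) (XT.nd (nat_lit 156) (nat_lit 760) (nat_lit 0) (XT.nd (nat_lit 78) (nat_lit 684) (nat_lit 0) (XT.lf (nat_lit 0) (nat_lit 6626157536) (nat_lit 760) (nat_lit 1984723425) (nat_lit 836) (nat_lit 5089406561) (nat_lit 343) (nat_lit 5) (nat_lit 353) (nat_lit 5) (nat_lit 354) (nat_lit 5) (nat_lit 602) (nat_lit 555) (nat_lit 403)) (XT.lf (nat_lit 0) (nat_lit 975156567) (nat_lit 684) (nat_lit 10122320594) (nat_lit 760) (nat_lit 2752058623) (nat_lit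 334) (nat_lit 5) (nat_lit 343) (nat_lit 5) (nat_lit 344) (nat_lit 5) (nat_lit 603) (nat_lit 555) (nat_lit 402))) (XT.nd (nat_lit 78) (nat_lit 760) (nat_lit 0) (XT.lf (nat_lit 0) (nat_lit 9254366950) (nat_lit 684) (nat_lit 4428221838) (nat_lit 760) (nat_lit 318204853) (nat_lit 334) (nat_lit 5) (nat_lit 343) (nat_lit 5) (nat_lit 344) (nat_lit 5) (nat_lit 604) (nat_lit 555) (nat_lit 401)) (XT.nd (nat_lit 78) (nat_lit 0) (nat_lit 0) (XT.lf (nat_lit 0) (nat_lit 2156676176) (nat_lit 760) (nat_lit 10600513890) (nat_lit 76) (nat_lit 1397191121) (nat_lit 324) (nat_lit 5) (nat_lit 334) (nat_lit 5) (nat_lit 325) (nat_lit 5) (nat_lit 605) (nat_lit 555) (nat_lit 400)) (XT.lf (nat_lit 0) (nat_lit 4726721895) (nat_lit 760) (nat_lit 2271190969) (nat_lit 76) (nat_lit 7312087279) (nat_lit 324) (nat_lit 5) (nat_lit 334) (nat_lit 5) (nat_lit 325) (nat_lit 5) (nat_lit 606) (nat_lit 555) (nat_lit 399))))))) (XT.nd (nat_lit 77688) (nat_lit 0) (nat_lit 18088) (XT.nd (nat_lit 77298) (nat_lit 0) (nat_lit 19532) (XT.nd (nat_lit 156)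 (nat_lit 684) (nat_lit 0) (XT.nd (nat_lit 78) (nat_lit 684) (nat_lit 0) (XT.lf (nat_lit 0) (nat_lit 6293881928) (nat_lit 684) (nat_lit 1083911363) (nat_lit 760) (nat_lit 7090345969) (nat_lit 315) (nat_lit 5) (nat_lit 324) (nat_lit 5) (nat_lit 325) (nat_lit 5) (nat_lit 607) (nat_lit 555) (nat_lit 398)) (XT.lf (nat_lit 0) (nat_lit 391307562) (nat_lit 684) (nat_lit 9729469664) (nat_lit 760) (nat_lit 4507886383) (nat_lit 306) (nat_lit 5) (nat_lit 315) (nat_lit 5) (nat_lit 316) (nat_lit 5) (nat_lit 608) (nat_lit 555) (nat_lit 397))) (XT.nd (nat_lit 78) (nat_lit 684) (nat_lit 0) (XT.lf (nat_lit 0) (nat_lit 9218301175) (nat_lit 684) (nat_lit 3751315735) (nat_lit 760) (nat_lit 1821761883) (nat_lit 306) (nat_lit 5) (nat_lit 315) (nat_lit 5) (nat_lit 316) (nat_lit 5) (nat_lit 609) (nat_lit 555) (nat_lit 396)) (XT.nd (nat_lit 76986) (nat_lit 0) (nat_lit 20976) (XT.lf (nat_lit 0) (nat_lit 931949175) (nat_lit 684) (nat_lit 11684060136) (nat_lit 76) (nat_lit 2340701910) (nat_lit 297) (nat_lit 5) (nat_lit 306) (nat_lit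 5) (nat_lit 298) (nat_lit 5) (nat_lit 610) (nat_lit 555) (nat_lit 395)) (XT.lf (nat_lit 0) (nat_lit 2359400975) (nat_lit 1596) (nat_lit 1049962609) (nat_lit 1596) (nat_lit 1049962609) (nat_lit 573) (nat_lit 3) (nat_lit 594) (nat_lit 3) (nat_lit 594) (nat_lit 5) (nat_lit 556) (nat_lit 556) (nat_lit 448))))) (XT.nd (nat_lit 156) (nat_lit 1444) (nat_lit 0) (XT.nd (nat_lit 78) (nat_lit 0) (nat_lit 76) (XT.lf (nat_lit 76) (nat_lit 2373995520) (nat_lit 0) (nat_lit 3330576574) (nat_lit 1596) (nat_lit 3284463707) (nat_lit 574) (nat_lit 5) (nat_lit 573) (nat_lit 3) (nat_lit 594) (nat_lit 5) (nat_lit 557) (nat_lit 556) (nat_lit 447)) (XT.lf (nat_lit 0) (nat_lit 6701498795) (nat_lit 1520) (nat_lit 2109332144) (nat_lit 1596) (nat_lit 250167949) (nat_lit 574) (nat_lit 5) (nat_lit 594) (nat_lit 5) (nat_lit 595) (nat_lit 5) (nat_lit 558) (nat_lit 556) (nat_lit 446))) (XT.nd (nat_lit 78) (nat_lit 1520) (nat_lit 0) (XT.lf (nat_lit 76) (nat_lit 2484192956) (nat_lit 0) (nat_lit 5248612000) (nat_lit 1596) (nat_lit 1401308271)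 (nat_lit 575) (nat_lit 5) (nat_lit 574) (nat_lit 5) (nat_lit 595) (nat_lit 5) (nat_lit 559) (nat_lit 556) (nat_lit 445)) (XT.nd (nat_lit 78) (nat_lit 1520) (nat_lit 0) (XT.lf (nat_lit 76) (nat_lit 7185444421) (nat_lit 0) (nat_lit 1590085539) (nat_lit 1596) (nat_lit 433344829) (nat_lit 575) (nat_lit 5) (nat_lit 574) (nat_lit 5) (nat_lit 595) (nat_lit 5) (nat_lit 560) (nat_lit 556) (nat_lit 444)) (XT.lf (nat_lit 0) (nat_lit 555394229) (nat_lit 1596) (nat_lit 6584477402) (nat_lit 1672) (nat_lit 2145015144) (nat_lit 554) (nat_lit 5) (nat_lit 575) (nat_lit 5) (nat_lit 576) (nat_lit 5) (nat_lit 561) (nat_lit 556) (nat_lit 443)))))) (XT.nd (nat_lit 390) (nat_lit 1444) (nat_lit 0) (XT.nd (nat_lit 156) (nat_lit 0) (nat_lit 76) (XT.nd (nat_lit 78) (nat_lit 0) (nat_lit 76) (XT.lf (nat_lit 0) (nat_lit 1559687541) (nat_lit 1596) (nat_lit 1842712723) (nat_lit 1672) (nat_lit 5959930555) (nat_lit 554) (nat_lit 5) (nat_lit 575) (nat_lit 5) (nat_lit 576) (nat_lit 5) (nat_lit 562) (nat_lit 556) (nat_lit 442)) (XT.lf (nat_lit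 0) (nat_lit 2584350042) (nat_lit 1596) (nat_lit 6423694053) (nat_lit 1672) (nat_lit 433274716) (nat_lit 555) (nat_lit 5) (nat_lit 576) (nat_lit 5) (nat_lit 577) (nat_lit 5) (nat_lit 563) (nat_lit 556) (nat_lit 441))) (XT.nd (nat_lit 78) (nat_lit 0) (nat_lit 0) (XT.lf (nat_lit 0) (nat_lit 3642716519) (nat_lit 1596) (nat_lit 1557485960) (nat_lit 1672) (nat_lit 4321420587) (nat_lit 555) (nat_lit 5) (nat_lit 576) (nat_lit 5) (nat_lit 577) (nat_lit 5) (nat_lit 564) (nat_lit 556) (nat_lit 440)) (XT.nd (nat_lit 78) (nat_lit 0) (nat_lit 76) (XT.lf (nat_lit 76) (nat_lit 3438019071) (nat_lit 0) (nat_lit 1285210813) (nat_lit 1672) (nat_lit 4880284636) (nat_lit 556) (nat_lit 5) (nat_lit 555) (nat_lit 5) (nat_lit 577) (nat_lit 5) (nat_lit 565) (nat_lit 556) (nat_lit 439)) (XT.lf (nat_lit 0) (nat_lit 5832500262) (nat_lit 1596) (nat_lit 1163444125) (nat_lit 1672) (nat_lit 2690957172) (nat_lit 556) (nat_lit 5) (nat_lit 577) (nat_lit 5) (nat_lit 578) (nat_lit 5) (nat_lit 566) (nat_lit 556) (nat_lit 438))))) (XT.nd (nat_lit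 234) (nat_lit 1596) (nat_lit 0) (XT.nd (nat_lit 78) (nat_lit 0) (nat_lit 76) (XT.lf (nat_lit 76) (nat_lit 3968951371) (nat_lit 0) (nat_lit 3008739308) (nat_lit 1672) (nat_lit 2793991644) (nat_lit 557) (nat_lit 5) (nat_lit 556) (nat_lit 5) (nat_lit 578) (nat_lit 5) (nat_lit 567) (nat_lit 556) (nat_lit 437)) (XT.nd (nat_lit 78) (nat_lit 0) (nat_lit 0) (XT.lf (nat_lit 0) (nat_lit 8140332181) (nat_lit 1596) (nat_lit 658762403) (nat_lit 1672) (nat_lit 1059173836) (nat_lit 557) (nat_lit 5) (nat_lit 578) (nat_lit 5) (nat_lit 579) (nat_lit 5) (nat_lit 568) (nat_lit 556) (nat_lit 436)) (XT.lf (nat_lit 76) (nat_lit 4615354917) (nat_lit 0) (nat_lit 4740976349) (nat_lit 1672) (nat_lit 589653531) (nat_lit 558) (nat_lit 5) (nat_lit 557) (nat_lit 5) (nat_lit 579) (nat_lit 5) (nat_lit 569) (nat_lit 556) (nat_lit 435)))) (XT.nd (nat_lit 78) (nat_lit 0) (nat_lit 76) (XT.lf (nat_lit 0) (nat_lit 538670247) (nat_lit 1672) (nat_lit 48665663) (nat_lit 1748) (nat_lit 9448350629) (nat_lit 535) (nat_lit 5) (nat_lit 557) (nat_lit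 5) (nat_lit 558) (nat_lit 5) (nat_lit 570) (nat_lit 556) (nat_lit 434)) (XT.nd (nat_lit 78) (nat_lit 0) (nat_lit 0) (XT.lf (nat_lit 0) (nat_lit 1721445208) (nat_lit 1672) (nat_lit 4758268380) (nat_lit 1748) (nat_lit 3646595787) (nat_lit 536) (nat_lit 5) (nat_lit 558) (nat_lit 5) (nat_lit 559) (nat_lit 5) (nat_lit 571) (nat_lit 556) (nat_lit 433)) (XT.lf (nat_lit 76) (nat_lit 666275052) (nat_lit 0) (nat_lit 2251244308) (nat_lit 1748) (nat_lit 7301433036) (nat_lit 537) (nat_lit 5) (nat_lit 536) (nat_lit 5) (nat_lit 559) (nat_lit 5) (nat_lit 572) (nat_lit 556) (nat_lit 432))))))))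
noncomputable def xc135 : XT := (XT.nd (nat_lit 1560) (nat_lit 7676) (nat_lit 0) (XT.nd (nat_lit 780) (nat_lit 6612) (nat_lit 0) (XT.nd (nat_lit 390) (nat_lit 3268) (nat_lit 0) (XT.nd (nat_lit 156) (nat_lit 0) (nat_lit 76) (XT.nd (nat_lit 78) (nat_lit 0) (nat_lit 0) (XT.lf (nat_lit 0) (nat_lit 4164459257) (nat_lit 1672) (nat_lit 4076490471) (nat_lit 1748) (nat_lit 2071960253) (nat_lit 537) (nat_lit 5) (nat_lit 559) (nat_lit 5) (nat_lit 560) (nat_lit 5) (nat_lit 573) (nat_lit 556) (nat_lit 431)) (XT.lf (nat_lit 76) (nat_lit 1500369499) (nat_lit 0) (nat_lit 3942398925) (nat_lit 1748) (nat_lit 4965850262) (nat_lit 538) (nat_lit 5) (nat_lit 537) (nat_lit 5) (nat_lit 560) (nat_lit 5) (nat_lit 574) (nat_lit 556) (nat_lit 430))) (XT.nd (nat_lit 78) (nat_lit 0) (nat_lit 0) (XT.lf (nat_lit 0) (nat_lit 6759129174) (nat_lit 1672) (nat_lit 3278639633) (nat_lit 1748) (nat_lit 468223617) (nat_lit 538) (nat_lit 5) (nat_lit 560) (nat_lit 5) (nat_lit 561) (nat_lit 5) (nat_lit 575) (nat_lit 556) (nat_lit 429)) (XT.nd (nat_lit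 78) (nat_lit 0) (nat_lit 0) (XT.lf (nat_lit 76) (nat_lit 2456019521) (nat_lit 0) (nat_lit 5670282018) (nat_lit 1748) (nat_lit 2478522965) (nat_lit 539) (nat_lit 5) (nat_lit 538) (nat_lit 5) (nat_lit 561) (nat_lit 5) (nat_lit 576) (nat_lit 556) (nat_lit 428)) (XT.lf (nat_lit 76) (nat_lit 8336259327) (nat_lit 0) (nat_lit 1189245620) (nat_lit 1748) (nat_lit 1180035071) (nat_lit 539) (nat_lit 5) (nat_lit 538) (nat_lit 5) (nat_lit 561) (nat_lit 5) (nat_lit 577) (nat_lit 556) (nat_lit 427))))) (XT.nd (nat_lit 156) (nat_lit 1672) (nat_lit 0) (XT.nd (nat_lit 78) (nat_lit 0) (nat_lit 0) (XT.lf (nat_lit 0) (nat_lit 170679117) (nat_lit 1748) (nat_lit 7272224468) (nat_lit 1824) (nat_lit 3364785014) (nat_lit 516) (nat_lit 5) (nat_lit 539) (nat_lit 5) (nat_lit 540) (nat_lit 5) (nat_lit 578) (nat_lit 556) (nat_lit 426)) (XT.lf (nat_lit 0) (nat_lit 1539684653) (nat_lit 1748) (nat_lit 1350725675) (nat_lit 1824) (nat_lit 8021172781) (nat_lit 516) (nat_lit 5) (nat_lit 539) (nat_lit 5) (nat_lit 540) (nat_lit 5) (nat_lit 579)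 (nat_lit 556) (nat_lit 425))) (XT.nd (nat_lit 78) (nat_lit 1748) (nat_lit 0) (XT.lf (nat_lit 0) (nat_lit 2961949391) (nat_lit 1748) (nat_lit 6291052888) (nat_lit 76) (nat_lit 1764036151) (nat_lit 517) (nat_lit 5) (nat_lit 540) (nat_lit 5) (nat_lit 518) (nat_lit 5) (nat_lit 580) (nat_lit 556) (nat_lit 424)) (XT.nd (nat_lit 78) (nat_lit 1748) (nat_lit 0) (XT.lf (nat_lit 0) (nat_lit 4424692249) (nat_lit 1748) (nat_lit 214855229) (nat_lit 76) (nat_lit 6484815218) (nat_lit 517) (nat_lit 5) (nat_lit 540) (nat_lit 5) (nat_lit 518) (nat_lit 5) (nat_lit 581) (nat_lit 556) (nat_lit 423)) (XT.lf (nat_lit 0) (nat_lit 5940752725) (nat_lit 1824) (nat_lit 5185378315) (nat_lit 76) (nat_lit 107221635) (nat_lit 494) (nat_lit 5) (nat_lit 518) (nat_lit 5) (nat_lit 495) (nat_lit 5) (nat_lit 582) (nat_lit 556) (nat_lit 422)))))) (XT.nd (nat_lit 390) (nat_lit 2660) (nat_lit 0) (XT.nd (nat_lit 156) (nat_lit 2128) (nat_lit 0) (XT.nd (nat_lit 78) (nat_lit 0) (nat_lit 0) (XT.lf (nat_lit 0) (nat_lit 1063955849) (nat_lit 1824) (nat_lit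 6446588256) (nat_lit 1900) (nat_lit 3833510627) (nat_lit 470) (nat_lit 5) (nat_lit 494) (nat_lit 5) (nat_lit 495) (nat_lit 5) (nat_lit 583) (nat_lit 556) (nat_lit 421)) (XT.lf (nat_lit 0) (nat_lit 7494913839) (nat_lit 1824) (nat_lit 1636157778) (nat_lit 1900) (nat_lit 2325512874) (nat_lit 470) (nat_lit 5) (nat_lit 494) (nat_lit 5) (nat_lit 495) (nat_lit 5) (nat_lit 584) (nat_lit 556) (nat_lit 420))) (XT.nd (nat_lit 78) (nat_lit 988) (nat_lit 0) (XT.lf (nat_lit 0) (nat_lit 2480727855) (nat_lit 1140) (nat_lit 8325480721) (nat_lit 1216) (nat_lit 764712745) (nat_lit 455) (nat_lit 5) (nat_lit 470) (nat_lit 5) (nat_lit 471) (nat_lit 5) (nat_lit 585) (nat_lit 556) (nat_lit 419)) (XT.nd (nat_lit 78) (nat_lit 912) (nat_lit 0) (XT.lf (nat_lit 0) (nat_lit 839017024) (nat_lit 1216) (nat_lit 2611529744) (nat_lit 76) (nat_lit 8236439854) (nat_lit 454) (nat_lit 5) (nat_lit 470) (nat_lit 5) (nat_lit 455) (nat_lit 5) (nat_lit 586) (nat_lit 556) (nat_lit 418)) (XT.lf (nat_lit 0) (nat_lit 2486121127) (nat_lit 988) (nat_lit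 7784168249) (nat_lit 76) (nat_lit 1534552402) (nat_lit 442) (nat_lit 5) (nat_lit 455) (nat_lit 5) (nat_lit 443) (nat_lit 5) (nat_lit 587) (nat_lit 556) (nat_lit 417))))) (XT.nd (nat_lit 156) (nat_lit 1748) (nat_lit 0) (XT.nd (nat_lit 78) (nat_lit 912) (nat_lit 0) (XT.lf (nat_lit 0) (nat_lit 4192130311) (nat_lit 988) (nat_lit 1140497847) (nat_lit 76) (nat_lit 6591907039) (nat_lit 442) (nat_lit 5) (nat_lit 455) (nat_lit 5) (nat_lit 443) (nat_lit 5) (nat_lit 588) (nat_lit 556) (nat_lit 416)) (XT.lf (nat_lit 0) (nat_lit 5697288705) (nat_lit 912) (nat_lit 257717333) (nat_lit 988) (nat_lit 6091161933) (nat_lit 430) (nat_lit 5) (nat_lit 442) (nat_lit 5) (nat_lit 443) (nat_lit 5) (nat_lit 589) (nat_lit 556) (nat_lit 415))) (XT.nd (nat_lit 78) (nat_lit 912) (nat_lit 0) (XT.lf (nat_lit 0) (nat_lit 477815657) (nat_lit 836) (nat_lit 7304017803) (nat_lit 912) (nat_lit 4387826462) (nat_lit 419) (nat_lit 5) (nat_lit 430) (nat_lit 5) (nat_lit 431) (nat_lit 5) (nat_lit 590) (nat_lit 556) (nat_lit 414)) (XT.nd (nat_lit 78)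 (nat_lit 912) (nat_lit 0) (XT.lf (nat_lit 0) (nat_lit 7511790467) (nat_lit 836) (nat_lit 2163846477) (nat_lit 912) (nat_lit 2619376372) (nat_lit 419) (nat_lit 5) (nat_lit 430) (nat_lit 5) (nat_lit 431) (nat_lit 5) (nat_lit 591) (nat_lit 556) (nat_lit 413)) (XT.lf (nat_lit 0) (nat_lit 2259621741) (nat_lit 912) (nat_lit 9368770671) (nat_lit 988) (nat_lit 794060239) (nat_lit 407) (nat_lit 5) (nat_lit 419) (nat_lit 5) (nat_lit 420) (nat_lit 5) (nat_lit 592) (nat_lit 556) (nat_lit 412))))))) (XT.nd (nat_lit 780) (nat_lit 3572) (nat_lit 0) (XT.nd (nat_lit 390) (nat_lit 1596) (nat_lit 0) (XT.nd (nat_lit 156) (nat_lit 1596) (nat_lit 0) (XT.nd (nat_lit 78) (nat_lit 836) (nat_lit 0) (XT.lf (nat_lit 0) (nat_lit 1086901714) (nat_lit 988) (nat_lit 3078796214) (nat_lit 76) (nat_lit 8385941697) (nat_lit 406) (nat_lit 5) (nat_lit 419) (nat_lit 5) (nat_lit 407) (nat_lit 5) (nat_lit 593) (nat_lit 556) (nat_lit 411)) (XT.lf (nat_lit 0) (nat_lit 3016411778) (nat_lit 912) (nat_lit 8507543627) (nat_lit 76) (nat_lit 1158919099)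 (nat_lit 395) (nat_lit 5) (nat_lit 407) (nat_lit 5) (nat_lit 396) (nat_lit 5) (nat_lit 594) (nat_lit 556) (nat_lit 410))) (XT.nd (nat_lit 78) (nat_lit 1596) (nat_lit 0) (XT.lf (nat_lit 0) (nat_lit 5019835239) (nat_lit 912) (nat_lit 1241357133) (nat_lit 76) (nat_lit 6554835603) (nat_lit 395) (nat_lit 5) (nat_lit 407) (nat_lit 5) (nat_lit 396) (nat_lit 5) (nat_lit 595) (nat_lit 556) (nat_lit 409)) (XT.nd (nat_lit 78) (nat_lit 760) (nat_lit 0) (XT.lf (nat_lit 0) (nat_lit 6238654123) (nat_lit 836) (nat_lit 852373256) (nat_lit 912) (nat_lit 5860263485) (nat_lit 384) (nat_lit 5) (nat_lit 395) (nat_lit 5) (nat_lit 396) (nat_lit 5) (nat_lit 596) (nat_lit 556) (nat_lit 408)) (XT.lf (nat_lit 0) (nat_lit 762173466) (nat_lit 760) (nat_lit 8472445635) (nat_lit 836) (nat_lit 3854020741) (nat_lit 374) (nat_lit 5) (nat_lit 384) (nat_lit 5) (nat_lit 385) (nat_lit 5) (nat_lit 597) (nat_lit 556) (nat_lit 407))))) (XT.nd (nat_lit 156) (nat_lit 760) (nat_lit 0) (XT.nd (nat_lit 78) (nat_lit 836) (nat_lit 0) (XT.lf (nat_lit 0)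 (nat_lit 8458358553) (nat_lit 760) (nat_lit 3000894169) (nat_lit 836) (nat_lit 1768720015) (nat_lit 374) (nat_lit 5) (nat_lit 384) (nat_lit 5) (nat_lit 385) (nat_lit 5) (nat_lit 598) (nat_lit 556) (nat_lit 406)) (XT.lf (nat_lit 0) (nat_lit 377384847) (nat_lit 836) (nat_lit 10425199738) (nat_lit 76) (nat_lit 2566985561) (nat_lit 363) (nat_lit 5) (nat_lit 374) (nat_lit 5) (nat_lit 364) (nat_lit 5) (nat_lit 599) (nat_lit 556) (nat_lit 405))) (XT.nd (nat_lit 78) (nat_lit 760) (nat_lit 0) (XT.lf (nat_lit 0) (nat_lit 2582672290) (nat_lit 836) (nat_lit 2681313923) (nat_lit 76) (nat_lit 8248980915) (nat_lit 363) (nat_lit 5) (nat_lit 374) (nat_lit 5) (nat_lit 364) (nat_lit 5) (nat_lit 600) (nat_lit 556) (nat_lit 404)) (XT.nd (nat_lit 78) (nat_lit 0) (nat_lit 0) (XT.lf (nat_lit 0) (nat_lit 4857092991) (nat_lit 836) (nat_lit 8388075632) (nat_lit 76) (nat_lit 413563187) (nat_lit 353) (nat_lit 5) (nat_lit 364) (nat_lit 5) (nat_lit 354) (nat_lit 5) (nat_lit 601) (nat_lit 556) (nat_lit 403)) (XT.lf (nat_lit 0) (nat_lit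 7218183653) (nat_lit 836) (nat_lit 437341270) (nat_lit 76) (nat_lit 6151063539) (nat_lit 353) (nat_lit 5) (nat_lit 364) (nat_lit 5) (nat_lit 354) (nat_lit 5) (nat_lit 602) (nat_lit 556) (nat_lit 402)))))) (XT.nd (nat_lit 390) (nat_lit 1368) (nat_lit 0) (XT.nd (nat_lit 156) (nat_lit 760) (nat_lit 0) (XT.nd (nat_lit 78) (nat_lit 684) (nat_lit 0) (XT.lf (nat_lit 0) (nat_lit 7761136728) (nat_lit 760) (nat_lit 1904189576) (nat_lit 836) (nat_lit 4291299639) (nat_lit 343) (nat_lit 5) (nat_lit 353) (nat_lit 5) (nat_lit 354) (nat_lit 5) (nat_lit 603) (nat_lit 556) (nat_lit 401)) (XT.lf (nat_lit 0) (nat_lit 2007296264) (nat_lit 684) (nat_lit 10184399585) (nat_lit 760) (nat_lit 1917362939) (nat_lit 334) (nat_lit 5) (nat_lit 343) (nat_lit 5) (nat_lit 344) (nat_lit 5) (nat_lit 604) (nat_lit 556) (nat_lit 400))) (XT.nd (nat_lit 78) (nat_lit 684) (nat_lit 0) (XT.lf (nat_lit 0) (nat_lit 540538610) (nat_lit 760) (nat_lit 3835005247) (nat_lit 76) (nat_lit 9888069327) (nat_lit 333) (nat_lit 5) (nat_lit 343) (nat_lit 5) (nat_lit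 334) (nat_lit 5) (nat_lit 605) (nat_lit 556) (nat_lit 399)) (XT.nd (nat_lit 78) (nat_lit 0) (nat_lit 0) (XT.lf (nat_lit 0) (nat_lit 3051214004) (nat_lit 760) (nat_lit 9798813990) (nat_lit 76) (nat_lit 1570391691) (nat_lit 324) (nat_lit 5) (nat_lit 334) (nat_lit 5) (nat_lit 325) (nat_lit 5) (nat_lit 606) (nat_lit 556) (nat_lit 398)) (XT.lf (nat_lit 0) (nat_lit 5655966435) (nat_lit 760) (nat_lit 1322781280) (nat_lit 76) (nat_lit 7600737601) (nat_lit 324) (nat_lit 5) (nat_lit 334) (nat_lit 5) (nat_lit 325) (nat_lit 5) (nat_lit 607) (nat_lit 556) (nat_lit 397))))) (XT.nd (nat_lit 77298) (nat_lit 0) (nat_lit 18772) (XT.nd (nat_lit 78) (nat_lit 684) (nat_lit 0) (XT.lf (nat_lit 0) (nat_lit 7407054696) (nat_lit 684) (nat_lit 943047873) (nat_lit 760) (nat_lit 6390884186) (nat_lit 315) (nat_lit 5) (nat_lit 324) (nat_lit 5) (nat_lit 325) (nat_lit 5) (nat_lit 608) (nat_lit 556) (nat_lit 396)) (XT.nd (nat_lit 77142) (nat_lit 0) (nat_lit 20292) (XT.lf (nat_lit 0) (nat_lit 1395291732) (nat_lit 684) (nat_lit 9743985171)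 (nat_lit 760) (nat_lit 3765618471) (nat_lit 306) (nat_lit 5) (nat_lit 315) (nat_lit 5) (nat_lit 316) (nat_lit 5) (nat_lit 609) (nat_lit 556) (nat_lit 395)) (XT.lf (nat_lit 0) (nat_lit 3323763744) (nat_lit 1596) (nat_lit 603187108) (nat_lit 1596) (nat_lit 603187108) (nat_lit 573) (nat_lit 3) (nat_lit 594) (nat_lit 3) (nat_lit 594) (nat_lit 5) (nat_lit 557) (nat_lit 557) (nat_lit 446)))) (XT.nd (nat_lit 78) (nat_lit 1520) (nat_lit 0) (XT.lf (nat_lit 76) (nat_lit 3350870006) (nat_lit 0) (nat_lit 4272209639) (nat_lit 1596) (nat_lit 1509587253) (nat_lit 574) (nat_lit 5) (nat_lit 573) (nat_lit 3) (nat_lit 594) (nat_lit 5) (nat_lit 558) (nat_lit 557) (nat_lit 445)) (XT.nd (nat_lit 78) (nat_lit 1520) (nat_lit 0) (XT.lf (nat_lit 76) (nat_lit 8003583565) (nat_lit 0) (nat_lit 599301847) (nat_lit 1596) (nat_lit 603926225) (nat_lit 574) (nat_lit 5) (nat_lit 573) (nat_lit 3) (nat_lit 594) (nat_lit 5) (nat_lit 559) (nat_lit 557) (nat_lit 444)) (XT.lf (nat_lit 0) (nat_lit 335989290) (nat_lit 1596) (nat_lit 5804452202) (nat_lit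 1672) (nat_lit 3141550286) (nat_lit 553) (nat_lit 5) (nat_lit 574) (nat_lit 5) (nat_lit 575) (nat_lit 5) (nat_lit 560) (nat_lit 557) (nat_lit 443))))))))
noncomputable def xc136 : XT := (XT.nd (nat_lit 1560) (nat_lit 11552) (nat_lit 0) (XT.nd (nat_lit 780) (nat_lit 1520) (nat_lit 0) (XT.nd (nat_lit 390) (nat_lit 1368) (nat_lit 0) (XT.nd (nat_lit 156) (nat_lit 0) (nat_lit 76) (XT.nd (nat_lit 78) (nat_lit 0) (nat_lit 76) (XT.lf (nat_lit 0) (nat_lit 1276116463) (nat_lit 1596) (nat_lit 1110846509) (nat_lit 1672) (nat_lit 6971843459) (nat_lit 553) (nat_lit 5) (nat_lit 574) (nat_lit 5) (nat_lit 575) (nat_lit 5) (nat_lit 561) (nat_lit 557) (nat_lit 442)) (XT.lf (nat_lit 0) (nat_lit 2246575989) (nat_lit 1596) (nat_lit 5733671545) (nat_lit 1672) (nat_lit 1456679979) (nat_lit 554) (nat_lit 5) (nat_lit 575) (nat_lit 5) (nat_lit 576) (nat_lit 5) (nat_lit 562) (nat_lit 557) (nat_lit 441))) (XT.nd (nat_lit 78) (nat_lit 0) (nat_lit 0) (XT.lf (nat_lit 0) (nat_lit 3238012543) (nat_lit 1596) (nat_lit 916336189) (nat_lit 1672)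 (nat_lit 5362231648) (nat_lit 554) (nat_lit 5) (nat_lit 575) (nat_lit 5) (nat_lit 576) (nat_lit 5) (nat_lit 563) (nat_lit 557) (nat_lit 440)) (XT.nd (nat_lit 78) (nat_lit 0) (nat_lit 76) (XT.lf (nat_lit 76) (nat_lit 4037836649) (nat_lit 0) (nat_lit 216340240) (nat_lit 1672) (nat_lit 5343552138) (nat_lit 555) (nat_lit 5) (nat_lit 554) (nat_lit 5) (nat_lit 576) (nat_lit 5) (nat_lit 564) (nat_lit 557) (nat_lit 439)) (XT.lf (nat_lit 0) (nat_lit 5300605382) (nat_lit 1596) (nat_lit 614439424) (nat_lit 1672) (nat_lit 3765257714) (nat_lit 555) (nat_lit 5) (nat_lit 576) (nat_lit 5) (nat_lit 577) (nat_lit 5) (nat_lit 565) (nat_lit 557) (nat_lit 438))))) (XT.nd (nat_lit 156) (nat_lit 1520) (nat_lit 0) (XT.nd (nat_lit 78) (nat_lit 0) (nat_lit 76) (XT.lf (nat_lit 76) (nat_lit 4474566522) (nat_lit 0) (nat_lit 1903366899) (nat_lit 1672) (nat_lit 3386395320) (nat_lit 556) (nat_lit 5) (nat_lit 555) (nat_lit 5) (nat_lit 577) (nat_lit 5) (nat_lit 566) (nat_lit 557) (nat_lit 437)) (XT.lf (nat_lit 0) (nat_lit 7475025119) (nat_lit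 1596) (nat_lit 203487782) (nat_lit 1672) (nat_lit 2171558907) (nat_lit 556) (nat_lit 5) (nat_lit 577) (nat_lit 5) (nat_lit 578) (nat_lit 5) (nat_lit 567) (nat_lit 557) (nat_lit 436))) (XT.nd (nat_lit 78) (nat_lit 1596) (nat_lit 0) (XT.lf (nat_lit 76) (nat_lit 5025087036) (nat_lit 0) (nat_lit 3594454945) (nat_lit 1672) (nat_lit 1317478739) (nat_lit 557) (nat_lit 5) (nat_lit 556) (nat_lit 5) (nat_lit 578) (nat_lit 5) (nat_lit 568) (nat_lit 557) (nat_lit 435)) (XT.nd (nat_lit 78) (nat_lit 1672) (nat_lit 0) (XT.lf (nat_lit 76) (nat_lit 322750223) (nat_lit 0) (nat_lit 9451979531) (nat_lit 1672) (nat_lit 251223885) (nat_lit 558) (nat_lit 5) (nat_lit 557) (nat_lit 5) (nat_lit 579) (nat_lit 5) (nat_lit 569) (nat_lit 557) (nat_lit 434)) (XT.lf (nat_lit 0) (nat_lit 863141656) (nat_lit 1672) (nat_lit 4429993456) (nat_lit 1748) (nat_lit 4822667021) (nat_lit 535) (nat_lit 5) (nat_lit 557) (nat_lit 5) (nat_lit 558) (nat_lit 5) (nat_lit 570) (nat_lit 557) (nat_lit 433)))))) (XT.nd (nat_lit 390) (nat_lit 1520) (nat_lit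 0) (XT.nd (nat_lit 156) (nat_lit 0) (nat_lit 76) (XT.nd (nat_lit 78) (nat_lit 0) (nat_lit 76) (XT.lf (nat_lit 76) (nat_lit 946444431) (nat_lit 0) (nat_lit 1037281595) (nat_lit 1748) (nat_lit 8223943052) (nat_lit 536) (nat_lit 5) (nat_lit 535) (nat_lit 5) (nat_lit 558) (nat_lit 5) (nat_lit 571) (nat_lit 557) (nat_lit 432)) (XT.lf (nat_lit 0) (nat_lit 3159566299) (nat_lit 1672) (nat_lit 3845273235) (nat_lit 1748) (nat_lit 3295877534) (nat_lit 536) (nat_lit 5) (nat_lit 558) (nat_lit 5) (nat_lit 559) (nat_lit 5) (nat_lit 572) (nat_lit 557) (nat_lit 431))) (XT.nd (nat_lit 78) (nat_lit 0) (nat_lit 76) (XT.lf (nat_lit 76) (nat_lit 1681128431) (nat_lit 0) (nat_lit 2677412710) (nat_lit 1748) (nat_lit 6037093099) (nat_lit 537) (nat_lit 5) (nat_lit 536) (nat_lit 5) (nat_lit 559) (nat_lit 5) (nat_lit 573) (nat_lit 557) (nat_lit 430)) (XT.nd (nat_lit 78) (nat_lit 0) (nat_lit 0) (XT.lf (nat_lit 0) (nat_lit 5600882518) (nat_lit 1672) (nat_lit 3146549968) (nat_lit 1748) (nat_lit 1744630095) (nat_lit 537) (nat_lit 5) (nat_lit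 559) (nat_lit 5) (nat_lit 560) (nat_lit 5) (nat_lit 574) (nat_lit 557) (nat_lit 429)) (XT.lf (nat_lit 76) (nat_lit 2535192792) (nat_lit 0) (nat_lit 4349556967) (nat_lit 1748) (nat_lit 3705336705) (nat_lit 538) (nat_lit 5) (nat_lit 537) (nat_lit 5) (nat_lit 560) (nat_lit 5) (nat_lit 575) (nat_lit 557) (nat_lit 428))))) (XT.nd (nat_lit 156) (nat_lit 1748) (nat_lit 0) (XT.nd (nat_lit 78) (nat_lit 0) (nat_lit 0) (XT.lf (nat_lit 0) (nat_lit 8199208188) (nat_lit 1672) (nat_lit 2330828008) (nat_lit 1748) (nat_lit 159936895) (nat_lit 538) (nat_lit 5) (nat_lit 560) (nat_lit 5) (nat_lit 561) (nat_lit 5) (nat_lit 576) (nat_lit 557) (nat_lit 427)) (XT.lf (nat_lit 76) (nat_lit 3511857326) (nat_lit 0) (nat_lit 6062816748) (nat_lit 1748) (nat_lit 1216489547) (nat_lit 539) (nat_lit 5) (nat_lit 538) (nat_lit 5) (nat_lit 561) (nat_lit 5) (nat_lit 577) (nat_lit 557) (nat_lit 426))) (XT.nd (nat_lit 78) (nat_lit 0) (nat_lit 76) (XT.lf (nat_lit 0) (nat_lit 81171651) (nat_lit 1748) (nat_lit 1404970147) (nat_lit 1824) (nat_lit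 9408246014) (nat_lit 515) (nat_lit 5) (nat_lit 538) (nat_lit 5) (nat_lit 539) (nat_lit 5) (nat_lit 578) (nat_lit 557) (nat_lit 425)) (XT.nd (nat_lit 78) (nat_lit 0) (nat_lit 0) (XT.lf (nat_lit 0) (nat_lit 1423061602) (nat_lit 1748) (nat_lit 6393696867) (nat_lit 1824) (nat_lit 3182066414) (nat_lit 516) (nat_lit 5) (nat_lit 539) (nat_lit 5) (nat_lit 540) (nat_lit 5) (nat_lit 579) (nat_lit 557) (nat_lit 424)) (XT.lf (nat_lit 0) (nat_lit 2794957662) (nat_lit 1748) (nat_lit 373845982) (nat_lit 1824) (nat_lit 7936484178) (nat_lit 516) (nat_lit 5) (nat_lit 539) (nat_lit 5) (nat_lit 540) (nat_lit 5) (nat_lit 580) (nat_lit 557) (nat_lit 423))))))) (XT.nd (nat_lit 780) (nat_lit 5092) (nat_lit 0) (XT.nd (nat_lit 390) (nat_lit 3040) (nat_lit 0) (XT.nd (nat_lit 156) (nat_lit 1824) (nat_lit 0) (XT.nd (nat_lit 78) (nat_lit 1748) (nat_lit 0) (XT.lf (nat_lit 0) (nat_lit 4226772141) (nat_lit 1748) (nat_lit 5394047556) (nat_lit 76) (nat_lit 1592411197) (nat_lit 517) (nat_lit 5) (nat_lit 540) (nat_lit 5) (nat_lit 518) (nat_lit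 5) (nat_lit 581) (nat_lit 557) (nat_lit 422)) (XT.lf (nat_lit 0) (nat_lit 794032516) (nat_lit 1748) (nat_lit 4906253828) (nat_lit 1824) (nat_lit 5622785689) (nat_lit 494) (nat_lit 5) (nat_lit 517) (nat_lit 5) (nat_lit 518) (nat_lit 5) (nat_lit 582) (nat_lit 557) (nat_lit 421))) (XT.nd (nat_lit 78) (nat_lit 1824) (nat_lit 0) (XT.lf (nat_lit 0) (nat_lit 7165841545) (nat_lit 1748) (nat_lit 58244017) (nat_lit 1824) (nat_lit 4210608603) (nat_lit 494) (nat_lit 5) (nat_lit 517) (nat_lit 5) (nat_lit 518) (nat_lit 5) (nat_lit 583) (nat_lit 557) (nat_lit 420)) (XT.nd (nat_lit 78) (nat_lit 0) (nat_lit 0) (XT.lf (nat_lit 0) (nat_lit 2099131837) (nat_lit 1824) (nat_lit 6709519398) (nat_lit 1900) (nat_lit 2739292149) (nat_lit 470) (nat_lit 5) (nat_lit 494) (nat_lit 5) (nat_lit 495) (nat_lit 5) (nat_lit 584) (nat_lit 557) (nat_lit 419)) (XT.lf (nat_lit 0) (nat_lit 8638828656) (nat_lit 1824) (nat_lit 1800252872) (nat_lit 1900) (nat_lit 1224093043) (nat_lit 470) (nat_lit 5) (nat_lit 494) (nat_lit 5) (nat_lit 495) (nat_lit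 5) (nat_lit 585) (nat_lit 557) (nat_lit 418))))) (XT.nd (nat_lit 156) (nat_lit 1824) (nat_lit 0) (XT.nd (nat_lit 78) (nat_lit 0) (nat_lit 0) (XT.lf (nat_lit 0) (nat_lit 346648420) (nat_lit 1216) (nat_lit 8241346170) (nat_lit 76) (nat_lit 3192085409) (nat_lit 454) (nat_lit 5) (nat_lit 470) (nat_lit 5) (nat_lit 455) (nat_lit 5) (nat_lit 586) (nat_lit 557) (nat_lit 417)) (XT.lf (nat_lit 0) (nat_lit 1950332157) (nat_lit 1216) (nat_lit 1658283041) (nat_lit 76) (nat_lit 8290188571) (nat_lit 454) (nat_lit 5) (nat_lit 470) (nat_lit 5) (nat_lit 455) (nat_lit 5) (nat_lit 587) (nat_lit 557) (nat_lit 416))) (XT.nd (nat_lit 78) (nat_lit 912) (nat_lit 0) (XT.lf (nat_lit 0) (nat_lit 3614878218) (nat_lit 988) (nat_lit 6918842929) (nat_lit 76) (nat_lit 1485605509) (nat_lit 442) (nat_lit 5) (nat_lit 455) (nat_lit 5) (nat_lit 443) (nat_lit 5) (nat_lit 588) (nat_lit 557) (nat_lit 415)) (XT.nd (nat_lit 78) (nat_lit 912) (nat_lit 0) (XT.lf (nat_lit 0) (nat_lit 5333850043) (nat_lit 988) (nat_lit 162318898) (nat_lit 76) (nat_lit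 6645668767) (nat_lit 442) (nat_lit 5) (nat_lit 455) (nat_lit 5) (nat_lit 443) (nat_lit 5) (nat_lit 589) (nat_lit 557) (nat_lit 414)) (XT.lf (nat_lit 0) (nat_lit 6805637933) (nat_lit 912) (nat_lit 312058991) (nat_lit 988) (nat_lit 5148492542) (nat_lit 430) (nat_lit 5) (nat_lit 442) (nat_lit 5) (nat_lit 443) (nat_lit 5) (nat_lit 590) (nat_lit 557) (nat_lit 413)))))) (XT.nd (nat_lit 390) (nat_lit 2432) (nat_lit 0) (XT.nd (nat_lit 156) (nat_lit 1824) (nat_lit 0) (XT.nd (nat_lit 78) (nat_lit 0) (nat_lit 0) (XT.lf (nat_lit 0) (nat_lit 1496314903) (nat_lit 836) (nat_lit 7470521058) (nat_lit 912) (nat_lit 3425600381) (nat_lit 419) (nat_lit 5) (nat_lit 430) (nat_lit 5) (nat_lit 431) (nat_lit 5) (nat_lit 591) (nat_lit 557) (nat_lit 412)) (XT.lf (nat_lit 0) (nat_lit 8651186015) (nat_lit 836) (nat_lit 2227145857) (nat_lit 912) (nat_lit 1642369184) (nat_lit 419) (nat_lit 5) (nat_lit 430) (nat_lit 5) (nat_lit 431) (nat_lit 5) (nat_lit 592) (nat_lit 557) (nat_lit 411))) (XT.nd (nat_lit 78) (nat_lit 836) (nat_lit 0) (XT.lf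 (nat_lit 0) (nat_lit 203081675) (nat_lit 988) (nat_lit 9344618912) (nat_lit 76) (nat_lit 3103230517) (nat_lit 406) (nat_lit 5) (nat_lit 419) (nat_lit 5) (nat_lit 407) (nat_lit 5) (nat_lit 593) (nat_lit 557) (nat_lit 410)) (XT.nd (nat_lit 78) (nat_lit 836) (nat_lit 0) (XT.lf (nat_lit 0) (nat_lit 2091385426) (nat_lit 988) (nat_lit 2144087884) (nat_lit 76) (nat_lit 8547516977) (nat_lit 406) (nat_lit 5) (nat_lit 419) (nat_lit 5) (nat_lit 407) (nat_lit 5) (nat_lit 594) (nat_lit 557) (nat_lit 409)) (XT.lf (nat_lit 0) (nat_lit 4046770885) (nat_lit 912) (nat_lit 7668668755) (nat_lit 76) (nat_lit 1201665053) (nat_lit 395) (nat_lit 5) (nat_lit 407) (nat_lit 5) (nat_lit 396) (nat_lit 5) (nat_lit 595) (nat_lit 557) (nat_lit 408))))) (XT.nd (nat_lit 156) (nat_lit 1596) (nat_lit 0) (XT.nd (nat_lit 78) (nat_lit 836) (nat_lit 0) (XT.lf (nat_lit 0) (nat_lit 6071242602) (nat_lit 912) (nat_lit 276943350) (nat_lit 76) (nat_lit 6705116210) (nat_lit 395) (nat_lit 5) (nat_lit 407) (nat_lit 5) (nat_lit 396) (nat_lit 5) (nat_lit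 596) (nat_lit 557) (nat_lit 407)) (XT.lf (nat_lit 0) (nat_lit 7346159968) (nat_lit 836) (nat_lit 825431903) (nat_lit 912) (nat_lit 5019924286) (nat_lit 384) (nat_lit 5) (nat_lit 395) (nat_lit 5) (nat_lit 396) (nat_lit 5) (nat_lit 597) (nat_lit 557) (nat_lit 406))) (XT.nd (nat_lit 78) (nat_lit 836) (nat_lit 0) (XT.lf (nat_lit 0) (nat_lit 1772077463) (nat_lit 760) (nat_lit 8574309221) (nat_lit 836) (nat_lit 2985459308) (nat_lit 374) (nat_lit 5) (nat_lit 384) (nat_lit 5) (nat_lit 385) (nat_lit 5) (nat_lit 598) (nat_lit 557) (nat_lit 405)) (XT.nd (nat_lit 78) (nat_lit 836) (nat_lit 0) (XT.lf (nat_lit 0) (nat_lit 9602683103) (nat_lit 760) (nat_lit 2994651927) (nat_lit 836) (nat_lit 876994565) (nat_lit 374) (nat_lit 5) (nat_lit 384) (nat_lit 5) (nat_lit 385) (nat_lit 5) (nat_lit 599) (nat_lit 557) (nat_lit 404)) (XT.lf (nat_lit 0) (nat_lit 1288804620) (nat_lit 836) (nat_lit 9635270717) (nat_lit 76) (nat_lit 2694785078) (nat_lit 363) (nat_lit 5) (nat_lit 374) (nat_lit 5) (nat_lit 364) (nat_lit 5) (nat_lit 600)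 (nat_lit 557) (nat_lit 403))))))))
noncomputable def xc137 : XT := (XT.nd (nat_lit 78702) (nat_lit 0) (nat_lit 9652) (XT.nd (nat_lit 77922) (nat_lit 0) (nat_lit 18012) (XT.nd (nat_lit 390) (nat_lit 1444) (nat_lit 0) (XT.nd (nat_lit 156) (nat_lit 1444) (nat_lit 0) (XT.nd (nat_lit 78) (nat_lit 760) (nat_lit 0) (XT.lf (nat_lit 0) (nat_lit 3520474829) (nat_lit 836) (nat_lit 1756084303) (nat_lit 76) (nat_lit 8488921126) (nat_lit 363) (nat_lit 5) (nat_lit 374) (nat_lit 5) (nat_lit 364) (nat_lit 5) (nat_lit 601) (nat_lit 557) (nat_lit 402)) (XT.lf (nat_lit 0) (nat_lit 5829953966) (nat_lit 836) (nat_lit 7566528494) (nat_lit 76) (nat_lit 517886831) (nat_lit 353) (nat_lit 5) (nat_lit 364) (nat_lit 5) (nat_lit 354) (nat_lit 5) (nat_lit 602) (nat_lit 557) (nat_lit 401))) (XT.nd (nat_lit 78) (nat_lit 684) (nat_lit 0) (XT.lf (nat_lit 0) (nat_lit 530783669) (nat_lit 760) (nat_lit 7693758008) (nat_lit 836) (nat_lit 5840916340) (nat_lit 343) (nat_lit 5) (nat_lit 353) (nat_lit 5) (nat_lit 354) (nat_lit 5) (nat_lit 603) (nat_lit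 557) (nat_lit 400)) (XT.nd (nat_lit 78) (nat_lit 684) (nat_lit 0) (XT.lf (nat_lit 0) (nat_lit 8879888915) (nat_lit 760) (nat_lit 1826713662) (nat_lit 836) (nat_lit 3512174601) (nat_lit 343) (nat_lit 5) (nat_lit 353) (nat_lit 5) (nat_lit 354) (nat_lit 5) (nat_lit 604) (nat_lit 557) (nat_lit 399)) (XT.lf (nat_lit 0) (nat_lit 3020756844) (nat_lit 684) (nat_lit 10253170795) (nat_lit 760) (nat_lit 1100522909) (nat_lit 334) (nat_lit 5) (nat_lit 343) (nat_lit 5) (nat_lit 344) (nat_lit 5) (nat_lit 605) (nat_lit 557) (nat_lit 398))))) (XT.nd (nat_lit 156) (nat_lit 684) (nat_lit 0) (XT.nd (nat_lit 78) (nat_lit 684) (nat_lit 0) (XT.lf (nat_lit 0) (nat_lit 1378772279) (nat_lit 760) (nat_lit 2946458658) (nat_lit 76) (nat_lit 10207085427) (nat_lit 333) (nat_lit 5) (nat_lit 343) (nat_lit 5) (nat_lit 334) (nat_lit 5) (nat_lit 606) (nat_lit 557) (nat_lit 397)) (XT.lf (nat_lit 0) (nat_lit 3930581522) (nat_lit 760) (nat_lit 9020443693) (nat_lit 76) (nat_lit 1741415776) (nat_lit 324) (nat_lit 5) (nat_lit 334) (nat_lit 5) (nat_lit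 325) (nat_lit 5) (nat_lit 607) (nat_lit 557) (nat_lit 396))) (XT.nd (nat_lit 78) (nat_lit 684) (nat_lit 0) (XT.lf (nat_lit 0) (nat_lit 6571383056) (nat_lit 760) (nat_lit 393995165) (nat_lit 76) (nat_lit 7889631031) (nat_lit 324) (nat_lit 5) (nat_lit 334) (nat_lit 5) (nat_lit 325) (nat_lit 5) (nat_lit 608) (nat_lit 557) (nat_lit 395)) (XT.nd (nat_lit 77220) (nat_lit 0) (nat_lit 19608) (XT.lf (nat_lit 0) (nat_lit 8504153046) (nat_lit 684) (nat_lit 805678807) (nat_lit 760) (nat_lit 5710100655) (nat_lit 315) (nat_lit 5) (nat_lit 324) (nat_lit 5) (nat_lit 325) (nat_lit 5) (nat_lit 609) (nat_lit 557) (nat_lit 394)) (XT.lf (nat_lit 0) (nat_lit 4271798755) (nat_lit 1596) (nat_lit 165640360) (nat_lit 1596) (nat_lit 165640360) (nat_lit 573) (nat_lit 3) (nat_lit 594) (nat_lit 3) (nat_lit 594) (nat_lit 5) (nat_lit 558) (nat_lit 558) (nat_lit 444)))))) (XT.nd (nat_lit 390) (nat_lit 0) (nat_lit 152) (XT.nd (nat_lit 156) (nat_lit 0) (nat_lit 76) (XT.nd (nat_lit 78) (nat_lit 0) (nat_lit 0) (XT.lf (nat_lit 0) (nat_lit 226307807)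 (nat_lit 1596) (nat_lit 4970870760) (nat_lit 1672) (nat_lit 4083366006) (nat_lit 552) (nat_lit 5) (nat_lit 573) (nat_lit 3) (nat_lit 574) (nat_lit 5) (nat_lit 559) (nat_lit 558) (nat_lit 443)) (XT.lf (nat_lit 0) (nat_lit 1103733407) (nat_lit 1596) (nat_lit 324700177) (nat_lit 1672) (nat_lit 7928304463) (nat_lit 552) (nat_lit 5) (nat_lit 573) (nat_lit 3) (nat_lit 574) (nat_lit 5) (nat_lit 560) (nat_lit 558) (nat_lit 442))) (XT.nd (nat_lit 78) (nat_lit 0) (nat_lit 0) (XT.lf (nat_lit 0) (nat_lit 2021465082) (nat_lit 1596) (nat_lit 4988989643) (nat_lit 1672) (nat_lit 2423546248) (nat_lit 553) (nat_lit 5) (nat_lit 574) (nat_lit 5) (nat_lit 575) (nat_lit 5) (nat_lit 561) (nat_lit 558) (nat_lit 441)) (XT.nd (nat_lit 78) (nat_lit 0) (nat_lit 76) (XT.lf (nat_lit 0) (nat_lit 2947478014) (nat_lit 1596) (nat_lit 219777554) (nat_lit 1672) (nat_lit 6345755776) (nat_lit 553) (nat_lit 5) (nat_lit 574) (nat_lit 5) (nat_lit 575) (nat_lit 5) (nat_lit 562) (nat_lit 558) (nat_lit 440)) (XT.lf (nat_lit 0) (nat_lit 3906342068)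 (nat_lit 1596) (nat_lit 4904001066) (nat_lit 1672) (nat_lit 782972875) (nat_lit 554) (nat_lit 5) (nat_lit 575) (nat_lit 5) (nat_lit 576) (nat_lit 5) (nat_lit 563) (nat_lit 558) (nat_lit 439))))) (XT.nd (nat_lit 156) (nat_lit 0) (nat_lit 76) (XT.nd (nat_lit 78) (nat_lit 0) (nat_lit 0) (XT.lf (nat_lit 0) (nat_lit 4885943930) (nat_lit 1596) (nat_lit 8835549) (nat_lit 1672) (nat_lit 4780416768) (nat_lit 554) (nat_lit 5) (nat_lit 575) (nat_lit 5) (nat_lit 576) (nat_lit 5) (nat_lit 564) (nat_lit 558) (nat_lit 438)) (XT.lf (nat_lit 76) (nat_lit 5038329775) (nat_lit 0) (nat_lit 859030755) (nat_lit 1672) (nat_lit 3861109783) (nat_lit 555) (nat_lit 5) (nat_lit 554) (nat_lit 5) (nat_lit 576) (nat_lit 5) (nat_lit 565) (nat_lit 558) (nat_lit 437))) (XT.nd (nat_lit 78) (nat_lit 0) (nat_lit 0) (XT.lf (nat_lit 76) (nat_lit 313753750) (nat_lit 0) (nat_lit 6618386545) (nat_lit 1672) (nat_lit 2911207534) (nat_lit 556) (nat_lit 5) (nat_lit 555) (nat_lit 5) (nat_lit 577) (nat_lit 5) (nat_lit 566) (nat_lit 558) (nat_lit 436))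 (XT.nd (nat_lit 78) (nat_lit 0) (nat_lit 76) (XT.lf (nat_lit 76) (nat_lit 5494264570) (nat_lit 0) (nat_lit 2510880479) (nat_lit 1672) (nat_lit 1924427909) (nat_lit 556) (nat_lit 5) (nat_lit 555) (nat_lit 5) (nat_lit 577) (nat_lit 5) (nat_lit 567) (nat_lit 558) (nat_lit 435)) (XT.lf (nat_lit 76) (nat_lit 747288677) (nat_lit 0) (nat_lit 8348712108) (nat_lit 1672) (nat_lit 921594623) (nat_lit 557) (nat_lit 5) (nat_lit 556) (nat_lit 5) (nat_lit 578) (nat_lit 5) (nat_lit 568) (nat_lit 558) (nat_lit 434))))))) (XT.nd (nat_lit 780) (nat_lit 5548) (nat_lit 0) (XT.nd (nat_lit 390) (nat_lit 1444) (nat_lit 0) (XT.nd (nat_lit 156) (nat_lit 0) (nat_lit 76) (XT.nd (nat_lit 78) (nat_lit 0) (nat_lit 76) (XT.lf (nat_lit 0) (nat_lit 127367103) (nat_lit 1672) (nat_lit 4043255699) (nat_lit 1748) (nat_lit 5936194960) (nat_lit 534) (nat_lit 5) (nat_lit 556) (nat_lit 5) (nat_lit 557) (nat_lit 5) (nat_lit 569) (nat_lit 558) (nat_lit 433)) (XT.lf (nat_lit 0) (nat_lit 1175249809) (nat_lit 1672) (nat_lit 8911933131) (nat_lit 1748)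 (nat_lit 110714752) (nat_lit 535) (nat_lit 5) (nat_lit 557) (nat_lit 5) (nat_lit 558) (nat_lit 5) (nat_lit 570) (nat_lit 558) (nat_lit 432))) (XT.nd (nat_lit 78) (nat_lit 0) (nat_lit 0) (XT.lf (nat_lit 0) (nat_lit 2280539223) (nat_lit 1672) (nat_lit 3554210365) (nat_lit 1748) (nat_lit 4455321240) (nat_lit 535) (nat_lit 5) (nat_lit 557) (nat_lit 5) (nat_lit 558) (nat_lit 5) (nat_lit 571) (nat_lit 558) (nat_lit 431)) (XT.nd (nat_lit 78) (nat_lit 0) (nat_lit 76) (XT.lf (nat_lit 76) (nat_lit 1923411654) (nat_lit 0) (nat_lit 1478890225) (nat_lit 1748) (nat_lit 6981898778) (nat_lit 536) (nat_lit 5) (nat_lit 535) (nat_lit 5) (nat_lit 558) (nat_lit 5) (nat_lit 572) (nat_lit 558) (nat_lit 430)) (XT.lf (nat_lit 0) (nat_lit 4571942734) (nat_lit 1672) (nat_lit 2953166288) (nat_lit 1748) (nat_lit 2954595767) (nat_lit 536) (nat_lit 5) (nat_lit 558) (nat_lit 5) (nat_lit 559) (nat_lit 5) (nat_lit 573) (nat_lit 558) (nat_lit 429))))) (XT.nd (nat_lit 156) (nat_lit 1596) (nat_lit 0) (XT.nd (nat_lit 78) (nat_lit 0) (nat_lit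 76) (XT.lf (nat_lit 76) (nat_lit 2677388329) (nat_lit 0) (nat_lit 3097304213) (nat_lit 1748) (nat_lit 4802232694) (nat_lit 537) (nat_lit 5) (nat_lit 536) (nat_lit 5) (nat_lit 559) (nat_lit 5) (nat_lit 574) (nat_lit 558) (nat_lit 428)) (XT.lf (nat_lit 0) (nat_lit 7013490399) (nat_lit 1672) (nat_lit 2237287280) (nat_lit 1748) (nat_lit 1425073098) (nat_lit 537) (nat_lit 5) (nat_lit 559) (nat_lit 5) (nat_lit 560) (nat_lit 5) (nat_lit 575) (nat_lit 558) (nat_lit 427))) (XT.nd (nat_lit 78) (nat_lit 1672) (nat_lit 0) (XT.lf (nat_lit 76) (nat_lit 3551694324) (nat_lit 0) (nat_lit 4752109491) (nat_lit 1748) (nat_lit 2472416755) (nat_lit 538) (nat_lit 5) (nat_lit 537) (nat_lit 5) (nat_lit 560) (nat_lit 5) (nat_lit 576) (nat_lit 558) (nat_lit 426)) (XT.nd (nat_lit 78) (nat_lit 1672) (nat_lit 0) (XT.lf (nat_lit 76) (nat_lit 9474283179) (nat_lit 0) (nat_lit 144070285) (nat_lit 1748) (nat_lit 1260276218) (nat_lit 538) (nat_lit 5) (nat_lit 537) (nat_lit 5) (nat_lit 560) (nat_lit 5) (nat_lit 577) (nat_lit 558) (nat_lit 425))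 (XT.lf (nat_lit 0) (nat_lit 19592980) (nat_lit 1748) (nat_lit 6432638790) (nat_lit 1824) (nat_lit 4529995363) (nat_lit 515) (nat_lit 5) (nat_lit 538) (nat_lit 5) (nat_lit 539) (nat_lit 5) (nat_lit 578) (nat_lit 558) (nat_lit 424)))))) (XT.nd (nat_lit 390) (nat_lit 3952) (nat_lit 0) (XT.nd (nat_lit 156) (nat_lit 1596) (nat_lit 0) (XT.nd (nat_lit 78) (nat_lit 0) (nat_lit 76) (XT.lf (nat_lit 0) (nat_lit 1302538957) (nat_lit 1748) (nat_lit 468170129) (nat_lit 1824) (nat_lit 9317134242) (nat_lit 515) (nat_lit 5) (nat_lit 538) (nat_lit 5) (nat_lit 539) (nat_lit 5) (nat_lit 579) (nat_lit 558) (nat_lit 423)) (XT.lf (nat_lit 0) (nat_lit 2651992752) (nat_lit 1748) (nat_lit 5537360798) (nat_lit 1824) (nat_lit 3005401802) (nat_lit 516) (nat_lit 5) (nat_lit 539) (nat_lit 5) (nat_lit 540) (nat_lit 5) (nat_lit 580) (nat_lit 558) (nat_lit 422))) (XT.nd (nat_lit 78) (nat_lit 1672) (nat_lit 0) (XT.lf (nat_lit 76) (nat_lit 591344457) (nat_lit 0) (nat_lit 3440283050) (nat_lit 1824) (nat_lit 7272114746) (nat_lit 517) (nat_lit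 5) (nat_lit 516) (nat_lit 5) (nat_lit 540) (nat_lit 5) (nat_lit 581) (nat_lit 558) (nat_lit 421)) (XT.nd (nat_lit 78) (nat_lit 1748) (nat_lit 0) (XT.lf (nat_lit 0) (nat_lit 5470077059) (nat_lit 1748) (nat_lit 4518819711) (nat_lit 76) (nat_lit 1425388144) (nat_lit 517) (nat_lit 5) (nat_lit 540) (nat_lit 5) (nat_lit 518) (nat_lit 5) (nat_lit 582) (nat_lit 558) (nat_lit 420)) (XT.lf (nat_lit 0) (nat_lit 1786554141) (nat_lit 1748) (nat_lit 5170127437) (nat_lit 1824) (nat_lit 4569969589) (nat_lit 494) (nat_lit 5) (nat_lit 517) (nat_lit 5) (nat_lit 518) (nat_lit 5) (nat_lit 583) (nat_lit 558) (nat_lit 419))))) (XT.nd (nat_lit 234) (nat_lit 2128) (nat_lit 0) (XT.nd (nat_lit 78) (nat_lit 1824) (nat_lit 0) (XT.lf (nat_lit 0) (nat_lit 8266649527) (nat_lit 1748) (nat_lit 221907458) (nat_lit 1824) (nat_lit 3152397428) (nat_lit 494) (nat_lit 5) (nat_lit 517) (nat_lit 5) (nat_lit 518) (nat_lit 5) (nat_lit 584) (nat_lit 558) (nat_lit 418)) (XT.nd (nat_lit 78) (nat_lit 0) (nat_lit 0) (XT.lf (nat_lit 0) (nat_lit 3115640494)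 (nat_lit 1824) (nat_lit 6972505804) (nat_lit 1900) (nat_lit 1668656337) (nat_lit 470) (nat_lit 5) (nat_lit 494) (nat_lit 5) (nat_lit 495) (nat_lit 5) (nat_lit 585) (nat_lit 558) (nat_lit 417)) (XT.lf (nat_lit 0) (nat_lit 9767022895) (nat_lit 1824) (nat_lit 1962528535) (nat_lit 1900) (nat_lit 145220340) (nat_lit 470) (nat_lit 5) (nat_lit 494) (nat_lit 5) (nat_lit 495) (nat_lit 5) (nat_lit 586) (nat_lit 558) (nat_lit 416)))) (XT.nd (nat_lit 78) (nat_lit 912) (nat_lit 0) (XT.lf (nat_lit 0) (nat_lit 1426654714) (nat_lit 1216) (nat_lit 7420411037) (nat_lit 76) (nat_lit 3147123117) (nat_lit 454) (nat_lit 5) (nat_lit 470) (nat_lit 5) (nat_lit 455) (nat_lit 5) (nat_lit 587) (nat_lit 558) (nat_lit 415)) (XT.nd (nat_lit 78) (nat_lit 912) (nat_lit 0) (XT.lf (nat_lit 0) (nat_lit 3041371473) (nat_lit 1216) (nat_lit 725015313) (nat_lit 76) (nat_lit 8349321755) (nat_lit 454) (nat_lit 5) (nat_lit 470) (nat_lit 5) (nat_lit 455) (nat_lit 5) (nat_lit 588) (nat_lit 558) (nat_lit 414)) (XT.lf (nat_lit 0) (nat_lit 4724310220)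 (nat_lit 988) (nat_lit 6075858114) (nat_lit 76) (nat_lit 1438772117) (nat_lit 442) (nat_lit 5) (nat_lit 455) (nat_lit 5) (nat_lit 443) (nat_lit 5) (nat_lit 589) (nat_lit 558) (nat_lit 413))))))))
noncomputable def xc138 : XT := (XT.nd (nat_lit 78858) (nat_lit 0) (nat_lit 14516) (XT.nd (nat_lit 780) (nat_lit 3800) (nat_lit 0) (XT.nd (nat_lit 390) (nat_lit 2432) (nat_lit 0) (XT.nd (nat_lit 156) (nat_lit 1824) (nat_lit 0) (XT.nd (nat_lit 78) (nat_lit 0) (nat_lit 0) (XT.lf (nat_lit 0) (nat_lit 807139794) (nat_lit 912) (nat_lit 5655426204) (nat_lit 988) (nat_lit 5901638224) (nat_lit 430) (nat_lit 5) (nat_lit 442) (nat_lit 5) (nat_lit 443) (nat_lit 5) (nat_lit 590) (nat_lit 558) (nat_lit 412)) (XT.lf (nat_lit 0) (nat_lit 7897540247) (nat_lit 912) (nat_lit 365577479) (nat_lit 988) (nat_lit 4228305310) (nat_lit 430) (nat_lit 5) (nat_lit 442) (nat_lit 5) (nat_lit 443) (nat_lit 5) (nat_lit 591) (nat_lit 558) (nat_lit 411))) (XT.nd (nat_lit 78) (nat_lit 988) (nat_lit 0) (XT.lf (nat_lit 0) (nat_lit 2496005651) (nat_lit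 836) (nat_lit 7639561332) (nat_lit 912) (nat_lit 2484901884) (nat_lit 419) (nat_lit 5) (nat_lit 430) (nat_lit 5) (nat_lit 431) (nat_lit 5) (nat_lit 592) (nat_lit 558) (nat_lit 410)) (XT.nd (nat_lit 78) (nat_lit 988) (nat_lit 0) (XT.lf (nat_lit 0) (nat_lit 9774959196) (nat_lit 836) (nat_lit 2290933728) (nat_lit 912) (nat_lit 685794504) (nat_lit 419) (nat_lit 5) (nat_lit 430) (nat_lit 5) (nat_lit 431) (nat_lit 5) (nat_lit 593) (nat_lit 558) (nat_lit 409)) (XT.lf (nat_lit 0) (nat_lit 1170619464) (nat_lit 988) (nat_lit 8554762021) (nat_lit 76) (nat_lit 3159272035) (nat_lit 406) (nat_lit 5) (nat_lit 419) (nat_lit 5) (nat_lit 407) (nat_lit 5) (nat_lit 594) (nat_lit 558) (nat_lit 408))))) (XT.nd (nat_lit 156) (nat_lit 1596) (nat_lit 0) (XT.nd (nat_lit 78) (nat_lit 836) (nat_lit 0) (XT.lf (nat_lit 0) (nat_lit 3077797601) (nat_lit 988) (nat_lit 1229372320) (nat_lit 76) (nat_lit 8712562323) (nat_lit 406) (nat_lit 5) (nat_lit 419) (nat_lit 5) (nat_lit 407) (nat_lit 5) (nat_lit 595) (nat_lit 558) (nat_lit 407)) (XT.lf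 (nat_lit 0) (nat_lit 5060069693) (nat_lit 912) (nat_lit 6852198086) (nat_lit 76) (nat_lit 1244506094) (nat_lit 395) (nat_lit 5) (nat_lit 407) (nat_lit 5) (nat_lit 396) (nat_lit 5) (nat_lit 596) (nat_lit 558) (nat_lit 406))) (XT.nd (nat_lit 78) (nat_lit 760) (nat_lit 0) (XT.lf (nat_lit 0) (nat_lit 677227234) (nat_lit 836) (nat_lit 6433918983) (nat_lit 912) (nat_lit 6184827269) (nat_lit 384) (nat_lit 5) (nat_lit 395) (nat_lit 5) (nat_lit 396) (nat_lit 5) (nat_lit 597) (nat_lit 558) (nat_lit 405)) (XT.nd (nat_lit 78) (nat_lit 760) (nat_lit 0) (XT.lf (nat_lit 0) (nat_lit 8437655218) (nat_lit 836) (nat_lit 799659862) (nat_lit 912) (nat_lit 4199960921) (nat_lit 384) (nat_lit 5) (nat_lit 395) (nat_lit 5) (nat_lit 396) (nat_lit 5) (nat_lit 598) (nat_lit 558) (nat_lit 404)) (XT.lf (nat_lit 0) (nat_lit 2763555659) (nat_lit 760) (nat_lit 8680834498) (nat_lit 836) (nat_lit 2136247072) (nat_lit 374) (nat_lit 5) (nat_lit 384) (nat_lit 5) (nat_lit 385) (nat_lit 5) (nat_lit 599) (nat_lit 558) (nat_lit 403)))))) (XT.nd (nat_lit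 390) (nat_lit 1444) (nat_lit 0) (XT.nd (nat_lit 156) (nat_lit 1520) (nat_lit 0) (XT.nd (nat_lit 78) (nat_lit 836) (nat_lit 0) (XT.lf (nat_lit 0) (nat_lit 10732027595) (nat_lit 760) (nat_lit 2990857802) (nat_lit 836) (nat_lit 3435022) (nat_lit 374) (nat_lit 5) (nat_lit 384) (nat_lit 5) (nat_lit 385) (nat_lit 5) (nat_lit 600) (nat_lit 558) (nat_lit 402)) (XT.lf (nat_lit 0) (nat_lit 2183354334) (nat_lit 836) (nat_lit 8868313486) (nat_lit 76) (nat_lit 2822171558) (nat_lit 363) (nat_lit 5) (nat_lit 374) (nat_lit 5) (nat_lit 364) (nat_lit 5) (nat_lit 601) (nat_lit 558) (nat_lit 401))) (XT.nd (nat_lit 78) (nat_lit 1520) (nat_lit 0) (XT.lf (nat_lit 0) (nat_lit 4442623170) (nat_lit 836) (nat_lit 850360259) (nat_lit 76) (nat_lit 8730749331) (nat_lit 363) (nat_lit 5) (nat_lit 374) (nat_lit 5) (nat_lit 364) (nat_lit 5) (nat_lit 602) (nat_lit 558) (nat_lit 400)) (XT.nd (nat_lit 78) (nat_lit 760) (nat_lit 0) (XT.lf (nat_lit 0) (nat_lit 6788266919) (nat_lit 836) (nat_lit 6766966473) (nat_lit 76) (nat_lit 620567117) (nat_lit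 353) (nat_lit 5) (nat_lit 364) (nat_lit 5) (nat_lit 354) (nat_lit 5) (nat_lit 603) (nat_lit 558) (nat_lit 399)) (XT.lf (nat_lit 0) (nat_lit 1486036060) (nat_lit 760) (nat_lit 7734339339) (nat_lit 836) (nat_lit 5109743460) (nat_lit 343) (nat_lit 5) (nat_lit 353) (nat_lit 5) (nat_lit 354) (nat_lit 5) (nat_lit 604) (nat_lit 558) (nat_lit 398))))) (XT.nd (nat_lit 156) (nat_lit 760) (nat_lit 0) (XT.nd (nat_lit 78) (nat_lit 684) (nat_lit 0) (XT.lf (nat_lit 0) (nat_lit 9983601123) (nat_lit 760) (nat_lit 1752175553) (nat_lit 836) (nat_lit 2751054165) (nat_lit 343) (nat_lit 5) (nat_lit 353) (nat_lit 5) (nat_lit 354) (nat_lit 5) (nat_lit 605) (nat_lit 558) (nat_lit 397)) (XT.lf (nat_lit 0) (nat_lit 4016691640) (nat_lit 684) (nat_lit 10328556412) (nat_lit 760) (nat_lit 300554042) (nat_lit 334) (nat_lit 5) (nat_lit 343) (nat_lit 5) (nat_lit 344) (nat_lit 5) (nat_lit 606) (nat_lit 558) (nat_lit 396))) (XT.nd (nat_lit 78) (nat_lit 684) (nat_lit 0) (XT.lf (nat_lit 0) (nat_lit 2201640782) (nat_lit 760) (nat_lit 2077622842)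 (nat_lit 76) (nat_lit 10527773380) (nat_lit 333) (nat_lit 5) (nat_lit 343) (nat_lit 5) (nat_lit 334) (nat_lit 5) (nat_lit 607) (nat_lit 558) (nat_lit 395)) (XT.nd (nat_lit 77376) (nat_lit 0) (nat_lit 17328) (XT.lf (nat_lit 0) (nat_lit 4795759124) (nat_lit 760) (nat_lit 8264341056) (nat_lit 76) (nat_lit 1910438874) (nat_lit 324) (nat_lit 5) (nat_lit 334) (nat_lit 5) (nat_lit 325) (nat_lit 5) (nat_lit 608) (nat_lit 558) (nat_lit 394)) (XT.lf (nat_lit 0) (nat_lit 261466829) (nat_lit 0) (nat_lit 261466829) (nat_lit 1596) (nat_lit 4155094805) (nat_lit 552) (nat_lit 5) (nat_lit 552) (nat_lit 3) (nat_lit 573) (nat_lit 3) (nat_lit 559) (nat_lit 559) (nat_lit 442))))))) (XT.nd (nat_lit 780) (nat_lit 1444) (nat_lit 0) (XT.nd (nat_lit 390) (nat_lit 1368) (nat_lit 0) (XT.nd (nat_lit 156) (nat_lit 0) (nat_lit 76) (XT.nd (nat_lit 78) (nat_lit 0) (nat_lit 0) (XT.lf (nat_lit 0) (nat_lit 1908931164) (nat_lit 1596) (nat_lit 4189314699) (nat_lit 1672) (nat_lit 3334292138) (nat_lit 552) (nat_lit 5) (nat_lit 573) (nat_lit 3)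 (nat_lit 574) (nat_lit 5) (nat_lit 560) (nat_lit 559) (nat_lit 441)) (XT.lf (nat_lit 76) (nat_lit 539582019) (nat_lit 0) (nat_lit 2234922714) (nat_lit 1672) (nat_lit 6736339712) (nat_lit 553) (nat_lit 5) (nat_lit 552) (nat_lit 5) (nat_lit 574) (nat_lit 5) (nat_lit 561) (nat_lit 559) (nat_lit 440))) (XT.nd (nat_lit 78) (nat_lit 0) (nat_lit 0) (XT.lf (nat_lit 0) (nat_lit 3675462248) (nat_lit 1596) (nat_lit 4193391118) (nat_lit 1672) (nat_lit 1721502907) (nat_lit 553) (nat_lit 5) (nat_lit 574) (nat_lit 5) (nat_lit 575) (nat_lit 5) (nat_lit 562) (nat_lit 559) (nat_lit 439)) (XT.nd (nat_lit 78) (nat_lit 0) (nat_lit 76) (XT.lf (nat_lit 76) (nat_lit 662335423) (nat_lit 0) (nat_lit 3930321751) (nat_lit 1672) (nat_lit 5078837489) (nat_lit 554) (nat_lit 5) (nat_lit 553) (nat_lit 5) (nat_lit 575) (nat_lit 5) (nat_lit 563) (nat_lit 559) (nat_lit 438)) (XT.lf (nat_lit 0) (nat_lit 5536597475) (nat_lit 1596) (nat_lit 4094407202) (nat_lit 1672) (nat_lit 123083791) (nat_lit 554) (nat_lit 5) (nat_lit 575) (nat_lit 5) (nat_lit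 576) (nat_lit 5) (nat_lit 564) (nat_lit 559) (nat_lit 437))))) (XT.nd (nat_lit 156) (nat_lit 1520) (nat_lit 0) (XT.nd (nat_lit 78) (nat_lit 0) (nat_lit 0) (XT.lf (nat_lit 76) (nat_lit 892570317) (nat_lit 0) (nat_lit 5618582321) (nat_lit 1672) (nat_lit 3326947452) (nat_lit 555) (nat_lit 5) (nat_lit 554) (nat_lit 5) (nat_lit 576) (nat_lit 5) (nat_lit 565) (nat_lit 559) (nat_lit 436)) (XT.lf (nat_lit 76) (nat_lit 6023118279) (nat_lit 0) (nat_lit 1489786640) (nat_lit 1672) (nat_lit 2410733558) (nat_lit 555) (nat_lit 5) (nat_lit 554) (nat_lit 5) (nat_lit 576) (nat_lit 5) (nat_lit 566) (nat_lit 559) (nat_lit 435))) (XT.nd (nat_lit 78) (nat_lit 1596) (nat_lit 0) (XT.lf (nat_lit 76) (nat_lit 1231996195) (nat_lit 0) (nat_lit 7309034905) (nat_lit 1672) (nat_lit 1469730392) (nat_lit 556) (nat_lit 5) (nat_lit 555) (nat_lit 5) (nat_lit 577) (nat_lit 5) (nat_lit 567) (nat_lit 559) (nat_lit 434)) (XT.nd (nat_lit 78) (nat_lit 1596) (nat_lit 0) (XT.lf (nat_lit 76) (nat_lit 6498235518) (nat_lit 0) (nat_lit 3108432039) (nat_lit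 1672) (nat_lit 492621082) (nat_lit 556) (nat_lit 5) (nat_lit 555) (nat_lit 5) (nat_lit 577) (nat_lit 5) (nat_lit 568) (nat_lit 559) (nat_lit 433)) (XT.lf (nat_lit 0) (nat_lit 497371580) (nat_lit 1672) (nat_lit 8510206027) (nat_lit 1748) (nat_lit 1181944841) (nat_lit 534) (nat_lit 5) (nat_lit 556) (nat_lit 5) (nat_lit 557) (nat_lit 5) (nat_lit 569) (nat_lit 559) (nat_lit 432)))))) (XT.nd (nat_lit 390) (nat_lit 1444) (nat_lit 0) (XT.nd (nat_lit 156) (nat_lit 0) (nat_lit 76) (XT.nd (nat_lit 78) (nat_lit 0) (nat_lit 0) (XT.lf (nat_lit 0) (nat_lit 1527041385) (nat_lit 1672) (nat_lit 3203136927) (nat_lit 1748) (nat_lit 5550788614) (nat_lit 534) (nat_lit 5) (nat_lit 556) (nat_lit 5) (nat_lit 557) (nat_lit 5) (nat_lit 570) (nat_lit 559) (nat_lit 431)) (XT.lf (nat_lit 76) (nat_lit 2227366447) (nat_lit 0) (nat_lit 346317996) (nat_lit 1748) (nat_lit 7800628833) (nat_lit 535) (nat_lit 5) (nat_lit 534) (nat_lit 5) (nat_lit 557) (nat_lit 5) (nat_lit 571) (nat_lit 559) (nat_lit 430))) (XT.nd (nat_lit 78) (nat_lit 0) (nat_lit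 0) (XT.lf (nat_lit 0) (nat_lit 3671915804) (nat_lit 1672) (nat_lit 2698359778) (nat_lit 1748) (nat_lit 4098638428) (nat_lit 535) (nat_lit 5) (nat_lit 557) (nat_lit 5) (nat_lit 558) (nat_lit 5) (nat_lit 572) (nat_lit 559) (nat_lit 429)) (XT.nd (nat_lit 78) (nat_lit 0) (nat_lit 76) (XT.lf (nat_lit 76) (nat_lit 2882716426) (nat_lit 0) (nat_lit 1912988404) (nat_lit 1748) (nat_lit 5769630625) (nat_lit 536) (nat_lit 5) (nat_lit 535) (nat_lit 5) (nat_lit 558) (nat_lit 5) (nat_lit 573) (nat_lit 559) (nat_lit 428)) (XT.lf (nat_lit 0) (nat_lit 5960176195) (nat_lit 1672) (nat_lit 2080845135) (nat_lit 1748) (nat_lit 2622300411) (nat_lit 536) (nat_lit 5) (nat_lit 558) (nat_lit 5) (nat_lit 559) (nat_lit 5) (nat_lit 574) (nat_lit 559) (nat_lit 427))))) (XT.nd (nat_lit 234) (nat_lit 1596) (nat_lit 0) (XT.nd (nat_lit 78) (nat_lit 0) (nat_lit 76) (XT.lf (nat_lit 76) (nat_lit 3656193045) (nat_lit 0) (nat_lit 3511367991) (nat_lit 1748) (nat_lit 3595314769) (nat_lit 537) (nat_lit 5) (nat_lit 536) (nat_lit 5) (nat_lit 559) (nat_lit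 5) (nat_lit 575) (nat_lit 559) (nat_lit 426)) (XT.nd (nat_lit 78) (nat_lit 0) (nat_lit 0) (XT.lf (nat_lit 0) (nat_lit 8403846934) (nat_lit 1672) (nat_lit 1347590803) (nat_lit 1748) (nat_lit 1112888671) (nat_lit 537) (nat_lit 5) (nat_lit 559) (nat_lit 5) (nat_lit 560) (nat_lit 5) (nat_lit 576) (nat_lit 559) (nat_lit 425)) (XT.lf (nat_lit 76) (nat_lit 4551022786) (nat_lit 0) (nat_lit 5150459431) (nat_lit 1748) (nat_lit 1265591844) (nat_lit 538) (nat_lit 5) (nat_lit 537) (nat_lit 5) (nat_lit 560) (nat_lit 5) (nat_lit 577) (nat_lit 559) (nat_lit 424)))) (XT.nd (nat_lit 78) (nat_lit 1672) (nat_lit 0) (XT.lf (nat_lit 76) (nat_lit 10573861564) (nat_lit 0) (nat_lit 444312231) (nat_lit 1748) (nat_lit 53841306) (nat_lit 538) (nat_lit 5) (nat_lit 537) (nat_lit 5) (nat_lit 560) (nat_lit 5) (nat_lit 578) (nat_lit 559) (nat_lit 423)) (XT.nd (nat_lit 78) (nat_lit 0) (nat_lit 0) (XT.lf (nat_lit 0) (nat_lit 1215812166) (nat_lit 1748) (nat_lit 5615311742) (nat_lit 1824) (nat_lit 4346794591) (nat_lit 515) (nat_lit 5) (nat_lit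 538) (nat_lit 5) (nat_lit 539) (nat_lit 5) (nat_lit 579) (nat_lit 559) (nat_lit 422)) (XT.lf (nat_lit 76) (nat_lit 455876571) (nat_lit 0) (nat_lit 2048052750) (nat_lit 1824) (nat_lit 8782128170) (nat_lit 516) (nat_lit 5) (nat_lit 515) (nat_lit 5) (nat_lit 539) (nat_lit 5) (nat_lit 580) (nat_lit 559) (nat_lit 421))))))))
noncomputable def xc139 : XT := (XT.nd (nat_lit 1560) (nat_lit 3116) (nat_lit 0) (XT.nd (nat_lit 780) (nat_lit 5168) (nat_lit 0) (XT.nd (nat_lit 390) (nat_lit 3952) (nat_lit 0) (XT.nd (nat_lit 156) (nat_lit 1672) (nat_lit 0) (XT.nd (nat_lit 78) (nat_lit 0) (nat_lit 0) (XT.lf (nat_lit 0) (nat_lit 3858886815) (nat_lit 1748) (nat_lit 4702116082) (nat_lit 1824) (nat_lit 2834535270) (nat_lit 516) (nat_lit 5) (nat_lit 539) (nat_lit 5) (nat_lit 540) (nat_lit 5) (nat_lit 581) (nat_lit 559) (nat_lit 420)) (XT.lf (nat_lit 76) (nat_lit 1542939647) (nat_lit 0) (nat_lit 3706651625) (nat_lit 1824) (nat_lit 6257444684) (nat_lit 517) (nat_lit 5) (nat_lit 516) (nat_lit 5) (nat_lit 540) (nat_lit 5) (nat_lit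 582) (nat_lit 559) (nat_lit 419))) (XT.nd (nat_lit 78) (nat_lit 1748) (nat_lit 0) (XT.lf (nat_lit 0) (nat_lit 6693251645) (nat_lit 1748) (nat_lit 3664262623) (nat_lit 76) (nat_lit 1262747043) (nat_lit 517) (nat_lit 5) (nat_lit 540) (nat_lit 5) (nat_lit 518) (nat_lit 5) (nat_lit 583) (nat_lit 559) (nat_lit 418)) (XT.nd (nat_lit 78) (nat_lit 0) (nat_lit 0) (XT.lf (nat_lit 0) (nat_lit 2761002038) (nat_lit 1748) (nat_lit 5432842300) (nat_lit 1824) (nat_lit 3541346091) (nat_lit 494) (nat_lit 5) (nat_lit 517) (nat_lit 5) (nat_lit 518) (nat_lit 5) (nat_lit 584) (nat_lit 559) (nat_lit 417)) (XT.lf (nat_lit 0) (nat_lit 9352293120) (nat_lit 1748) (nat_lit 382534151) (nat_lit 1824) (nat_lit 2117383721) (nat_lit 494) (nat_lit 5) (nat_lit 517) (nat_lit 5) (nat_lit 518) (nat_lit 5) (nat_lit 585) (nat_lit 559) (nat_lit 416))))) (XT.nd (nat_lit 156) (nat_lit 2052) (nat_lit 0) (XT.nd (nat_lit 78) (nat_lit 76) (nat_lit 0) (XT.lf (nat_lit 0) (nat_lit 4114637290) (nat_lit 1824) (nat_lit 7235750632) (nat_lit 1900) (nat_lit 620309303)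 (nat_lit 470) (nat_lit 5) (nat_lit 494) (nat_lit 5) (nat_lit 495) (nat_lit 5) (nat_lit 586) (nat_lit 559) (nat_lit 415)) (XT.lf (nat_lit 0) (nat_lit 900419118) (nat_lit 1900) (nat_lit 1216685065) (nat_lit 76) (nat_lit 9974219583) (nat_lit 469) (nat_lit 5) (nat_lit 494) (nat_lit 5) (nat_lit 470) (nat_lit 5) (nat_lit 587) (nat_lit 559) (nat_lit 414))) (XT.nd (nat_lit 78) (nat_lit 912) (nat_lit 0) (XT.lf (nat_lit 0) (nat_lit 2486592389) (nat_lit 1216) (nat_lit 6621335543) (nat_lit 76) (nat_lit 3105486572) (nat_lit 454) (nat_lit 5) (nat_lit 470) (nat_lit 5) (nat_lit 455) (nat_lit 5) (nat_lit 588) (nat_lit 559) (nat_lit 413)) (XT.nd (nat_lit 78) (nat_lit 0) (nat_lit 0) (XT.lf (nat_lit 0) (nat_lit 191906875) (nat_lit 912) (nat_lit 3922718976) (nat_lit 988) (nat_lit 8223118862) (nat_lit 442) (nat_lit 5) (nat_lit 454) (nat_lit 5) (nat_lit 455) (nat_lit 5) (nat_lit 589) (nat_lit 559) (nat_lit 412)) (XT.lf (nat_lit 0) (nat_lit 5815657668) (nat_lit 988) (nat_lit 5254121073) (nat_lit 76) (nat_lit 1393974411) (nat_lit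 442) (nat_lit 5) (nat_lit 455) (nat_lit 5) (nat_lit 443) (nat_lit 5) (nat_lit 590) (nat_lit 559) (nat_lit 411)))))) (XT.nd (nat_lit 390) (nat_lit 2432) (nat_lit 0) (XT.nd (nat_lit 156) (nat_lit 1824) (nat_lit 0) (XT.nd (nat_lit 78) (nat_lit 0) (nat_lit 0) (XT.lf (nat_lit 0) (nat_lit 1760331174) (nat_lit 912) (nat_lit 5814885030) (nat_lit 988) (nat_lit 5016575809) (nat_lit 430) (nat_lit 5) (nat_lit 442) (nat_lit 5) (nat_lit 443) (nat_lit 5) (nat_lit 591) (nat_lit 559) (nat_lit 410)) (XT.lf (nat_lit 0) (nat_lit 8974166133) (nat_lit 912) (nat_lit 418330501) (nat_lit 988) (nat_lit 3329444769) (nat_lit 430) (nat_lit 5) (nat_lit 442) (nat_lit 5) (nat_lit 443) (nat_lit 5) (nat_lit 592) (nat_lit 559) (nat_lit 409))) (XT.nd (nat_lit 78) (nat_lit 988) (nat_lit 0) (XT.lf (nat_lit 0) (nat_lit 3478033078) (nat_lit 836) (nat_lit 7811220160) (nat_lit 912) (nat_lit 1564578291) (nat_lit 419) (nat_lit 5) (nat_lit 430) (nat_lit 5) (nat_lit 431) (nat_lit 5) (nat_lit 593) (nat_lit 559) (nat_lit 408)) (XT.nd (nat_lit 78) (nat_lit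 912) (nat_lit 0) (XT.lf (nat_lit 0) (nat_lit 248192851) (nat_lit 912) (nat_lit 2105391695) (nat_lit 76) (nat_lit 10634430724) (nat_lit 418) (nat_lit 5) (nat_lit 430) (nat_lit 5) (nat_lit 419) (nat_lit 5) (nat_lit 594) (nat_lit 559) (nat_lit 407)) (XT.lf (nat_lit 0) (nat_lit 2120095055) (nat_lit 988) (nat_lit 7787036358) (nat_lit 76) (nat_lit 3216668267) (nat_lit 406) (nat_lit 5) (nat_lit 419) (nat_lit 5) (nat_lit 407) (nat_lit 5) (nat_lit 595) (nat_lit 559) (nat_lit 406))))) (XT.nd (nat_lit 156) (nat_lit 1596) (nat_lit 0) (XT.nd (nat_lit 78) (nat_lit 836) (nat_lit 0) (XT.lf (nat_lit 0) (nat_lit 4047258653) (nat_lit 988) (nat_lit 333547115) (nat_lit 76) (nat_lit 8881137875) (nat_lit 406) (nat_lit 5) (nat_lit 419) (nat_lit 5) (nat_lit 407) (nat_lit 5) (nat_lit 596) (nat_lit 559) (nat_lit 405)) (XT.lf (nat_lit 0) (nat_lit 6057429671) (nat_lit 912) (nat_lit 6057058229) (nat_lit 76) (nat_lit 1287473628) (nat_lit 395) (nat_lit 5) (nat_lit 407) (nat_lit 5) (nat_lit 396) (nat_lit 5) (nat_lit 597) (nat_lit 559) (nat_lit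 404))) (XT.nd (nat_lit 78) (nat_lit 760) (nat_lit 0) (XT.lf (nat_lit 0) (nat_lit 1616822809) (nat_lit 836) (nat_lit 6521145717) (nat_lit 912) (nat_lit 5406208275) (nat_lit 384) (nat_lit 5) (nat_lit 395) (nat_lit 5) (nat_lit 396) (nat_lit 5) (nat_lit 598) (nat_lit 559) (nat_lit 403)) (XT.nd (nat_lit 78) (nat_lit 760) (nat_lit 0) (XT.lf (nat_lit 0) (nat_lit 9514301489) (nat_lit 836) (nat_lit 775014190) (nat_lit 912) (nat_lit 3399337062) (nat_lit 384) (nat_lit 5) (nat_lit 395) (nat_lit 5) (nat_lit 396) (nat_lit 5) (nat_lit 599) (nat_lit 559) (nat_lit 402)) (XT.lf (nat_lit 0) (nat_lit 3737739350) (nat_lit 760) (nat_lit 8792012793) (nat_lit 836) (nat_lit 1305345117) (nat_lit 374) (nat_lit 5) (nat_lit 384) (nat_lit 5) (nat_lit 385) (nat_lit 5) (nat_lit 600) (nat_lit 559) (nat_lit 401))))))) (XT.nd (nat_lit 78156) (nat_lit 0) (nat_lit 15200) (XT.nd (nat_lit 390) (nat_lit 760) (nat_lit 0) (XT.nd (nat_lit 156) (nat_lit 1520) (nat_lit 0) (XT.nd (nat_lit 78) (nat_lit 760) (nat_lit 0) (XT.lf (nat_lit 0) (nat_lit 841806073)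 (nat_lit 836) (nat_lit 2142005810) (nat_lit 76) (nat_lit 11000107797) (nat_lit 373) (nat_lit 5) (nat_lit 384) (nat_lit 5) (nat_lit 374) (nat_lit 5) (nat_lit 601) (nat_lit 559) (nat_lit 400)) (XT.lf (nat_lit 0) (nat_lit 3062059503) (nat_lit 836) (nat_lit 8123281980) (nat_lit 76) (nat_lit 2949252030) (nat_lit 363) (nat_lit 5) (nat_lit 374) (nat_lit 5) (nat_lit 364) (nat_lit 5) (nat_lit 602) (nat_lit 559) (nat_lit 399))) (XT.nd (nat_lit 78) (nat_lit 760) (nat_lit 0) (XT.lf (nat_lit 0) (nat_lit 37435047) (nat_lit 760) (nat_lit 5312948426) (nat_lit 836) (nat_lit 8937424325) (nat_lit 353) (nat_lit 5) (nat_lit 363) (nat_lit 5) (nat_lit 364) (nat_lit 5) (nat_lit 603) (nat_lit 559) (nat_lit 398)) (XT.nd (nat_lit 78) (nat_lit 760) (nat_lit 0) (XT.lf (nat_lit 0) (nat_lit 7733061356) (nat_lit 836) (nat_lit 5988337531) (nat_lit 76) (nat_lit 721716011) (nat_lit 353) (nat_lit 5) (nat_lit 364) (nat_lit 5) (nat_lit 354) (nat_lit 5) (nat_lit 604) (nat_lit 559) (nat_lit 397)) (XT.lf (nat_lit 0) (nat_lit 2423712104) (nat_lit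 760) (nat_lit 7780131634) (nat_lit 836) (nat_lit 4396875655) (nat_lit 343) (nat_lit 5) (nat_lit 353) (nat_lit 5) (nat_lit 354) (nat_lit 5) (nat_lit 605) (nat_lit 559) (nat_lit 396))))) (XT.nd (nat_lit 156) (nat_lit 0) (nat_lit 0) (XT.nd (nat_lit 78) (nat_lit 760) (nat_lit 0) (XT.lf (nat_lit 0) (nat_lit 11073425423) (nat_lit 760) (nat_lit 1680459759) (nat_lit 836) (nat_lit 2006994195) (nat_lit 343) (nat_lit 5) (nat_lit 353) (nat_lit 5) (nat_lit 354) (nat_lit 5) (nat_lit 606) (nat_lit 559) (nat_lit 395)) (XT.lf (nat_lit 0) (nat_lit 477154608) (nat_lit 760) (nat_lit 9930128721) (nat_lit 76) (nat_lit 4515861197) (nat_lit 333) (nat_lit 5) (nat_lit 343) (nat_lit 5) (nat_lit 334) (nat_lit 5) (nat_lit 607) (nat_lit 559) (nat_lit 394))) (XT.nd (nat_lit 77454) (nat_lit 0) (nat_lit 16644) (XT.lf (nat_lit 0) (nat_lit 3010084456) (nat_lit 760) (nat_lit 1227436555) (nat_lit 76) (nat_lit 10850349460) (nat_lit 333) (nat_lit 5) (nat_lit 343) (nat_lit 5) (nat_lit 334) (nat_lit 5) (nat_lit 608) (nat_lit 559) (nat_lit 393))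 (XT.nd (nat_lit 78) (nat_lit 0) (nat_lit 0) (XT.lf (nat_lit 0) (nat_lit 679334059) (nat_lit 0) (nat_lit 679334059) (nat_lit 1596) (nat_lit 3396388184) (nat_lit 552) (nat_lit 5) (nat_lit 552) (nat_lit 3) (nat_lit 573) (nat_lit 3) (nat_lit 560) (nat_lit 560) (nat_lit 440)) (XT.lf (nat_lit 0) (nat_lit 3560044428) (nat_lit 1596) (nat_lit 3426336792) (nat_lit 1672) (nat_lit 2602495485) (nat_lit 552) (nat_lit 5) (nat_lit 573) (nat_lit 3) (nat_lit 574) (nat_lit 5) (nat_lit 561) (nat_lit 560) (nat_lit 439)))))) (XT.nd (nat_lit 390) (nat_lit 1444) (nat_lit 0) (XT.nd (nat_lit 156) (nat_lit 0) (nat_lit 76) (XT.nd (nat_lit 78) (nat_lit 0) (nat_lit 76) (XT.lf (nat_lit 76) (nat_lit 1391567044) (nat_lit 0) (nat_lit 3025197841) (nat_lit 1672) (nat_lit 5252508731) (nat_lit 553) (nat_lit 5) (nat_lit 552) (nat_lit 5) (nat_lit 574) (nat_lit 5) (nat_lit 562) (nat_lit 560) (nat_lit 438)) (XT.lf (nat_lit 0) (nat_lit 5299882551) (nat_lit 1596) (nat_lit 3416649253) (nat_lit 1672) (nat_lit 1034562082) (nat_lit 553) (nat_lit 5) (nat_lit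 574) (nat_lit 5) (nat_lit 575) (nat_lit 5) (nat_lit 563) (nat_lit 560) (nat_lit 437))) (XT.nd (nat_lit 78) (nat_lit 0) (nat_lit 0) (XT.lf (nat_lit 76) (nat_lit 1530529912) (nat_lit 0) (nat_lit 4680032329) (nat_lit 1672) (nat_lit 3623790990) (nat_lit 554) (nat_lit 5) (nat_lit 553) (nat_lit 5) (nat_lit 575) (nat_lit 5) (nat_lit 564) (nat_lit 560) (nat_lit 436)) (XT.nd (nat_lit 78) (nat_lit 0) (nat_lit 76) (XT.lf (nat_lit 76) (nat_lit 6611901467) (nat_lit 0) (nat_lit 530731338) (nat_lit 1672) (nat_lit 2776582065) (nat_lit 554) (nat_lit 5) (nat_lit 553) (nat_lit 5) (nat_lit 575) (nat_lit 5) (nat_lit 565) (nat_lit 560) (nat_lit 435)) (XT.lf (nat_lit 76) (nat_lit 1777109869) (nat_lit 0) (nat_lit 6332498349) (nat_lit 1672) (nat_lit 1895840891) (nat_lit 555) (nat_lit 5) (nat_lit 554) (nat_lit 5) (nat_lit 576) (nat_lit 5) (nat_lit 566) (nat_lit 560) (nat_lit 434))))) (XT.nd (nat_lit 234) (nat_lit 0) (nat_lit 76) (XT.nd (nat_lit 78) (nat_lit 1596) (nat_lit 0) (XT.lf (nat_lit 76) (nat_lit 6993274905) (nat_lit 0) (nat_lit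 2109331767) (nat_lit 1672) (nat_lit 990668317) (nat_lit 555) (nat_lit 5) (nat_lit 554) (nat_lit 5) (nat_lit 576) (nat_lit 5) (nat_lit 567) (nat_lit 560) (nat_lit 433)) (XT.nd (nat_lit 78) (nat_lit 1672) (nat_lit 0) (XT.lf (nat_lit 76) (nat_lit 2133190685) (nat_lit 0) (nat_lit 7991817515) (nat_lit 1672) (nat_lit 57658937) (nat_lit 556) (nat_lit 5) (nat_lit 555) (nat_lit 5) (nat_lit 577) (nat_lit 5) (nat_lit 568) (nat_lit 560) (nat_lit 432)) (XT.lf (nat_lit 0) (nat_lit 898784149) (nat_lit 1672) (nat_lit 2791865521) (nat_lit 1748) (nat_lit 6582751985) (nat_lit 533) (nat_lit 5) (nat_lit 555) (nat_lit 5) (nat_lit 556) (nat_lit 5) (nat_lit 569) (nat_lit 560) (nat_lit 431)))) (XT.nd (nat_lit 78) (nat_lit 0) (nat_lit 0) (XT.lf (nat_lit 0) (nat_lit 1877051305) (nat_lit 1672) (nat_lit 7777484769) (nat_lit 1748) (nat_lit 711338399) (nat_lit 534) (nat_lit 5) (nat_lit 556) (nat_lit 5) (nat_lit 557) (nat_lit 5) (nat_lit 570) (nat_lit 560) (nat_lit 430)) (XT.nd (nat_lit 78) (nat_lit 0) (nat_lit 0) (XT.lf (nat_lit 0) (nat_lit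 2900457011) (nat_lit 1672) (nat_lit 2381978707) (nat_lit 1748) (nat_lit 5177250133) (nat_lit 534) (nat_lit 5) (nat_lit 556) (nat_lit 5) (nat_lit 557) (nat_lit 5) (nat_lit 571) (nat_lit 560) (nat_lit 429)) (XT.lf (nat_lit 76) (nat_lit 3151310913) (nat_lit 0) (nat_lit 796100768) (nat_lit 1748) (nat_lit 6607900713) (nat_lit 535) (nat_lit 5) (nat_lit 534) (nat_lit 5) (nat_lit 557) (nat_lit 5) (nat_lit 572) (nat_lit 560) (nat_lit 428))))))))
noncomputable def xc140 : XT := (XT.nd (nat_lit 1560) (nat_lit 7372) (nat_lit 0) (XT.nd (nat_lit 780) (nat_lit 6384) (nat_lit 0) (XT.nd (nat_lit 390) (nat_lit 1596) (nat_lit 0) (XT.nd (nat_lit 156) (nat_lit 0) (nat_lit 76) (XT.nd (nat_lit 78) (nat_lit 0) (nat_lit 0) (XT.lf (nat_lit 0) (nat_lit 5038862190) (nat_lit 1672) (nat_lit 1861386188) (nat_lit 1748) (nat_lit 3752132500) (nat_lit 535) (nat_lit 5) (nat_lit 557) (nat_lit 5) (nat_lit 558) (nat_lit 5) (nat_lit 573) (nat_lit 560) (nat_lit 427)) (XT.lf (nat_lit 76) (nat_lit 3825450088) (nat_lit 0) (nat_lit 2340060527) (nat_lit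 1748) (nat_lit 4585613272) (nat_lit 536) (nat_lit 5) (nat_lit 535) (nat_lit 5) (nat_lit 558) (nat_lit 5) (nat_lit 574) (nat_lit 560) (nat_lit 426))) (XT.nd (nat_lit 78) (nat_lit 0) (nat_lit 0) (XT.lf (nat_lit 0) (nat_lit 7325818210) (nat_lit 1672) (nat_lit 1227244354) (nat_lit 1748) (nat_lit 2298557192) (nat_lit 536) (nat_lit 5) (nat_lit 558) (nat_lit 5) (nat_lit 559) (nat_lit 5) (nat_lit 575) (nat_lit 560) (nat_lit 425)) (XT.nd (nat_lit 78) (nat_lit 0) (nat_lit 76) (XT.lf (nat_lit 76) (nat_lit 4618645000) (nat_lit 0) (nat_lit 3920039886) (nat_lit 1748) (nat_lit 2414854111) (nat_lit 537) (nat_lit 5) (nat_lit 536) (nat_lit 5) (nat_lit 559) (nat_lit 5) (nat_lit 576) (nat_lit 560) (nat_lit 424)) (XT.lf (nat_lit 0) (nat_lit 9773468209) (nat_lit 1672) (nat_lit 476385928) (nat_lit 1748) (nat_lit 807689803) (nat_lit 537) (nat_lit 5) (nat_lit 559) (nat_lit 5) (nat_lit 560) (nat_lit 5) (nat_lit 577) (nat_lit 560) (nat_lit 423))))) (XT.nd (nat_lit 156) (nat_lit 0) (nat_lit 76) (XT.nd (nat_lit 78) (nat_lit 1748) (nat_lit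 0) (XT.lf (nat_lit 76) (nat_lit 5534291008) (nat_lit 0) (nat_lit 5544998561) (nat_lit 1748) (nat_lit 83413057) (nat_lit 538) (nat_lit 5) (nat_lit 537) (nat_lit 5) (nat_lit 560) (nat_lit 5) (nat_lit 578) (nat_lit 560) (nat_lit 422)) (XT.lf (nat_lit 76) (nat_lit 387638466) (nat_lit 0) (nat_lit 728968868) (nat_lit 1824) (nat_lit 10153403185) (nat_lit 515) (nat_lit 5) (nat_lit 514) (nat_lit 5) (nat_lit 538) (nat_lit 5) (nat_lit 579) (nat_lit 560) (nat_lit 421))) (XT.nd (nat_lit 78) (nat_lit 0) (nat_lit 0) (XT.lf (nat_lit 0) (nat_lit 2389520303) (nat_lit 1748) (nat_lit 4818371702) (nat_lit 1824) (nat_lit 4170561818) (nat_lit 515) (nat_lit 5) (nat_lit 538) (nat_lit 5) (nat_lit 539) (nat_lit 5) (nat_lit 580) (nat_lit 560) (nat_lit 420)) (XT.nd (nat_lit 78) (nat_lit 0) (nat_lit 76) (XT.lf (nat_lit 76) (nat_lit 1368258494) (nat_lit 0) (nat_lit 2318468803) (nat_lit 1824) (nat_lit 7802362438) (nat_lit 516) (nat_lit 5) (nat_lit 515) (nat_lit 5) (nat_lit 539) (nat_lit 5) (nat_lit 581) (nat_lit 560) (nat_lit 419)) (XT.lf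 (nat_lit 0) (nat_lit 5045113194) (nat_lit 1748) (nat_lit 3886900491) (nat_lit 1824) (nat_lit 2669220432) (nat_lit 516) (nat_lit 5) (nat_lit 539) (nat_lit 5) (nat_lit 540) (nat_lit 5) (nat_lit 582) (nat_lit 560) (nat_lit 418)))))) (XT.nd (nat_lit 390) (nat_lit 2964) (nat_lit 0) (XT.nd (nat_lit 156) (nat_lit 3572) (nat_lit 0) (XT.nd (nat_lit 78) (nat_lit 0) (nat_lit 76) (XT.lf (nat_lit 76) (nat_lit 2477074392) (nat_lit 0) (nat_lit 3970675963) (nat_lit 1824) (nat_lit 5267529798) (nat_lit 517) (nat_lit 5) (nat_lit 516) (nat_lit 5) (nat_lit 540) (nat_lit 5) (nat_lit 583) (nat_lit 560) (nat_lit 417)) (XT.lf (nat_lit 0) (nat_lit 7897640557) (nat_lit 1748) (nat_lit 2829307312) (nat_lit 76) (nat_lit 1104275664) (nat_lit 517) (nat_lit 5) (nat_lit 540) (nat_lit 5) (nat_lit 518) (nat_lit 5) (nat_lit 584) (nat_lit 560) (nat_lit 416))) (XT.nd (nat_lit 78) (nat_lit 1900) (nat_lit 0) (XT.lf (nat_lit 0) (nat_lit 3718487376) (nat_lit 1748) (nat_lit 5694625169) (nat_lit 1824) (nat_lit 2535641978) (nat_lit 494) (nat_lit 5)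 (nat_lit 517) (nat_lit 5) (nat_lit 518) (nat_lit 5) (nat_lit 585) (nat_lit 560) (nat_lit 415)) (XT.nd (nat_lit 78) (nat_lit 1900) (nat_lit 0) (XT.lf (nat_lit 0) (nat_lit 10423912803) (nat_lit 1748) (nat_lit 540308386) (nat_lit 1824) (nat_lit 1104308811) (nat_lit 494) (nat_lit 5) (nat_lit 517) (nat_lit 5) (nat_lit 518) (nat_lit 5) (nat_lit 586) (nat_lit 560) (nat_lit 414)) (XT.lf (nat_lit 0) (nat_lit 401662278) (nat_lit 1900) (nat_lit 7095095612) (nat_lit 76) (nat_lit 4692883798) (nat_lit 469) (nat_lit 5) (nat_lit 494) (nat_lit 5) (nat_lit 470) (nat_lit 5) (nat_lit 587) (nat_lit 560) (nat_lit 413))))) (XT.nd (nat_lit 156) (nat_lit 1824) (nat_lit 0) (XT.nd (nat_lit 78) (nat_lit 1140) (nat_lit 0) (XT.lf (nat_lit 0) (nat_lit 1924387883) (nat_lit 1900) (nat_lit 344962381) (nat_lit 76) (nat_lit 10043651309) (nat_lit 469) (nat_lit 5) (nat_lit 494) (nat_lit 5) (nat_lit 470) (nat_lit 5) (nat_lit 588) (nat_lit 560) (nat_lit 412)) (XT.lf (nat_lit 0) (nat_lit 3527678121) (nat_lit 1216) (nat_lit 5843070487) (nat_lit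 76) (nat_lit 3067078226) (nat_lit 454) (nat_lit 5) (nat_lit 470) (nat_lit 5) (nat_lit 455) (nat_lit 5) (nat_lit 589) (nat_lit 560) (nat_lit 411))) (XT.nd (nat_lit 78) (nat_lit 912) (nat_lit 0) (XT.lf (nat_lit 0) (nat_lit 1100445386) (nat_lit 912) (nat_lit 4074262469) (nat_lit 988) (nat_lit 7390207646) (nat_lit 442) (nat_lit 5) (nat_lit 454) (nat_lit 5) (nat_lit 455) (nat_lit 5) (nat_lit 590) (nat_lit 560) (nat_lit 410)) (XT.nd (nat_lit 78) (nat_lit 912) (nat_lit 0) (XT.lf (nat_lit 0) (nat_lit 6890122728) (nat_lit 988) (nat_lit 4452577002) (nat_lit 76) (nat_lit 1351137687) (nat_lit 442) (nat_lit 5) (nat_lit 455) (nat_lit 5) (nat_lit 443) (nat_lit 5) (nat_lit 591) (nat_lit 560) (nat_lit 409)) (XT.lf (nat_lit 0) (nat_lit 2696199642) (nat_lit 912) (nat_lit 5975733194) (nat_lit 988) (nat_lit 4152763554) (nat_lit 430) (nat_lit 5) (nat_lit 442) (nat_lit 5) (nat_lit 443) (nat_lit 5) (nat_lit 592) (nat_lit 560) (nat_lit 408))))))) (XT.nd (nat_lit 780) (nat_lit 3040) (nat_lit 0) (XT.nd (nat_lit 390) (nat_lit 1672)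 (nat_lit 0) (XT.nd (nat_lit 156) (nat_lit 1824) (nat_lit 0) (XT.nd (nat_lit 78) (nat_lit 836) (nat_lit 0) (XT.lf (nat_lit 0) (nat_lit 10036651265) (nat_lit 912) (nat_lit 470374036) (nat_lit 988) (nat_lit 2450794674) (nat_lit 430) (nat_lit 5) (nat_lit 442) (nat_lit 5) (nat_lit 443) (nat_lit 5) (nat_lit 593) (nat_lit 560) (nat_lit 407)) (XT.lf (nat_lit 0) (nat_lit 4443506191) (nat_lit 836) (nat_lit 7985579513) (nat_lit 912) (nat_lit 663515348) (nat_lit 419) (nat_lit 5) (nat_lit 430) (nat_lit 5) (nat_lit 431) (nat_lit 5) (nat_lit 594) (nat_lit 560) (nat_lit 406))) (XT.nd (nat_lit 78) (nat_lit 1748) (nat_lit 0) (XT.lf (nat_lit 0) (nat_lit 1155241524) (nat_lit 912) (nat_lit 1257140612) (nat_lit 76) (nat_lit 10817326599) (nat_lit 418) (nat_lit 5) (nat_lit 430) (nat_lit 5) (nat_lit 419) (nat_lit 5) (nat_lit 595) (nat_lit 560) (nat_lit 405)) (XT.nd (nat_lit 78) (nat_lit 836) (nat_lit 0) (XT.lf (nat_lit 0) (nat_lit 3052599995) (nat_lit 988) (nat_lit 7040411741) (nat_lit 76) (nat_lit 3275437226) (nat_lit 406) (nat_lit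 5) (nat_lit 419) (nat_lit 5) (nat_lit 407) (nat_lit 5) (nat_lit 596) (nat_lit 560) (nat_lit 404)) (XT.lf (nat_lit 0) (nat_lit 551689353) (nat_lit 836) (nat_lit 4452746444) (nat_lit 912) (nat_lit 8505197912) (nat_lit 395) (nat_lit 5) (nat_lit 406) (nat_lit 5) (nat_lit 407) (nat_lit 5) (nat_lit 597) (nat_lit 560) (nat_lit 403))))) (XT.nd (nat_lit 156) (nat_lit 836) (nat_lit 0) (XT.nd (nat_lit 78) (nat_lit 836) (nat_lit 0) (XT.lf (nat_lit 0) (nat_lit 7039937918) (nat_lit 912) (nat_lit 5282213409) (nat_lit 76) (nat_lit 1330598545) (nat_lit 395) (nat_lit 5) (nat_lit 407) (nat_lit 5) (nat_lit 396) (nat_lit 5) (nat_lit 598) (nat_lit 560) (nat_lit 402)) (XT.lf (nat_lit 0) (nat_lit 2539250605) (nat_lit 836) (nat_lit 6611726603) (nat_lit 912) (nat_lit 4647054913) (nat_lit 384) (nat_lit 5) (nat_lit 395) (nat_lit 5) (nat_lit 396) (nat_lit 5) (nat_lit 599) (nat_lit 560) (nat_lit 401))) (XT.nd (nat_lit 78) (nat_lit 836) (nat_lit 0) (XT.lf (nat_lit 0) (nat_lit 10577226088) (nat_lit 836) (nat_lit 751453662) (nat_lit 912)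 (nat_lit 2617051717) (nat_lit 384) (nat_lit 5) (nat_lit 395) (nat_lit 5) (nat_lit 396) (nat_lit 5) (nat_lit 600) (nat_lit 560) (nat_lit 400)) (XT.nd (nat_lit 78) (nat_lit 76) (nat_lit 0) (XT.lf (nat_lit 0) (nat_lit 4695724220) (nat_lit 760) (nat_lit 8907839212) (nat_lit 836) (nat_lit 491749121) (nat_lit 374) (nat_lit 5) (nat_lit 384) (nat_lit 5) (nat_lit 385) (nat_lit 5) (nat_lit 601) (nat_lit 560) (nat_lit 399)) (XT.lf (nat_lit 0) (nat_lit 1671083414) (nat_lit 836) (nat_lit 1308115703) (nat_lit 76) (nat_lit 11268128671) (nat_lit 373) (nat_lit 5) (nat_lit 384) (nat_lit 5) (nat_lit 374) (nat_lit 5) (nat_lit 602) (nat_lit 560) (nat_lit 398)))))) (XT.nd (nat_lit 390) (nat_lit 760) (nat_lit 0) (XT.nd (nat_lit 156) (nat_lit 760) (nat_lit 0) (XT.nd (nat_lit 78) (nat_lit 760) (nat_lit 0) (XT.lf (nat_lit 0) (nat_lit 3925913229) (nat_lit 836) (nat_lit 7399167675) (nat_lit 76) (nat_lit 3076131190) (nat_lit 363) (nat_lit 5) (nat_lit 374) (nat_lit 5) (nat_lit 364) (nat_lit 5) (nat_lit 603) (nat_lit 560) (nat_lit 397))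 (XT.lf (nat_lit 0) (nat_lit 918930930) (nat_lit 760) (nat_lit 5331053642) (nat_lit 836) (nat_lit 8307706886) (nat_lit 353) (nat_lit 5) (nat_lit 363) (nat_lit 5) (nat_lit 364) (nat_lit 5) (nat_lit 604) (nat_lit 560) (nat_lit 396))) (XT.nd (nat_lit 78) (nat_lit 760) (nat_lit 0) (XT.lf (nat_lit 0) (nat_lit 8665336096) (nat_lit 836) (nat_lit 5229626511) (nat_lit 76) (nat_lit 821442096) (nat_lit 353) (nat_lit 5) (nat_lit 364) (nat_lit 5) (nat_lit 354) (nat_lit 5) (nat_lit 605) (nat_lit 560) (nat_lit 395)) (XT.nd (nat_lit 78) (nat_lit 0) (nat_lit 0) (XT.lf (nat_lit 0) (nat_lit 3344884657) (nat_lit 760) (nat_lit 7831068281) (nat_lit 836) (nat_lit 3701400370) (nat_lit 343) (nat_lit 5) (nat_lit 353) (nat_lit 5) (nat_lit 354) (nat_lit 5) (nat_lit 606) (nat_lit 560) (nat_lit 394)) (XT.lf (nat_lit 0) (nat_lit 12150480511) (nat_lit 760) (nat_lit 1611455242) (nat_lit 836) (nat_lit 1279082316) (nat_lit 343) (nat_lit 5) (nat_lit 353) (nat_lit 5) (nat_lit 354) (nat_lit 5) (nat_lit 607) (nat_lit 560) (nat_lit 393))))) (XT.nd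 (nat_lit 77688) (nat_lit 0) (nat_lit 16644) (XT.nd (nat_lit 77532) (nat_lit 0) (nat_lit 16644) (XT.lf (nat_lit 0) (nat_lit 1236120110) (nat_lit 760) (nat_lit 9254477625) (nat_lit 76) (nat_lit 4716002551) (nat_lit 333) (nat_lit 5) (nat_lit 343) (nat_lit 5) (nat_lit 334) (nat_lit 5) (nat_lit 608) (nat_lit 560) (nat_lit 392)) (XT.nd (nat_lit 78) (nat_lit 0) (nat_lit 0) (XT.lf (nat_lit 0) (nat_lit 1089535401) (nat_lit 0) (nat_lit 1089535401) (nat_lit 1596) (nat_lit 2655195882) (nat_lit 552) (nat_lit 5) (nat_lit 552) (nat_lit 3) (nat_lit 573) (nat_lit 3) (nat_lit 561) (nat_lit 561) (nat_lit 438)) (XT.lf (nat_lit 0) (nat_lit 5181547740) (nat_lit 1596) (nat_lit 2680980212) (nat_lit 1672) (nat_lit 1887068947) (nat_lit 552) (nat_lit 5) (nat_lit 573) (nat_lit 3) (nat_lit 574) (nat_lit 5) (nat_lit 562) (nat_lit 561) (nat_lit 437)))) (XT.nd (nat_lit 78) (nat_lit 0) (nat_lit 76) (XT.lf (nat_lit 76) (nat_lit 2227927205) (nat_lit 0) (nat_lit 3802326820) (nat_lit 1672) (nat_lit 3801851701) (nat_lit 553) (nat_lit 5) (nat_lit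 552) (nat_lit 5) (nat_lit 574) (nat_lit 5) (nat_lit 563) (nat_lit 561) (nat_lit 436)) (XT.nd (nat_lit 78) (nat_lit 0) (nat_lit 0) (XT.lf (nat_lit 0) (nat_lit 6896567493) (nat_lit 1596) (nat_lit 2657791074) (nat_lit 1672) (nat_lit 361894151) (nat_lit 553) (nat_lit 5) (nat_lit 574) (nat_lit 5) (nat_lit 575) (nat_lit 5) (nat_lit 564) (nat_lit 561) (nat_lit 435)) (XT.lf (nat_lit 76) (nat_lit 2382889628) (nat_lit 0) (nat_lit 5418677328) (nat_lit 1672) (nat_lit 2200089139) (nat_lit 554) (nat_lit 5) (nat_lit 553) (nat_lit 5) (nat_lit 575) (nat_lit 5) (nat_lit 565) (nat_lit 561) (nat_lit 434))))))))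
noncomputable def xc141 : XT := (XT.nd (nat_lit 1560) (nat_lit 12236) (nat_lit 0) (XT.nd (nat_lit 780) (nat_lit 1368) (nat_lit 0) (XT.nd (nat_lit 390) (nat_lit 0) (nat_lit 152) (XT.nd (nat_lit 156) (nat_lit 1596) (nat_lit 0) (XT.nd (nat_lit 78) (nat_lit 0) (nat_lit 76) (XT.lf (nat_lit 76) (nat_lit 7549775885) (nat_lit 0) (nat_lit 1173742389) (nat_lit 1672) (nat_lit 1365272852) (nat_lit 554) (nat_lit 5) (nat_lit 553) (nat_lit 5) (nat_lit 575) (nat_lit 5) (nat_lit 566) (nat_lit 561) (nat_lit 433)) (XT.lf (nat_lit 76) (nat_lit 2645685655) (nat_lit 0) (nat_lit 7037333997) (nat_lit 1672) (nat_lit 494267598) (nat_lit 555) (nat_lit 5) (nat_lit 554) (nat_lit 5) (nat_lit 576) (nat_lit 5) (nat_lit 567) (nat_lit 561) (nat_lit 432))) (XT.nd (nat_lit 78) (nat_lit 0) (nat_lit 76) (XT.lf (nat_lit 0) (nat_lit 395526787) (nat_lit 1672) (nat_lit 2320186128) (nat_lit 1748) (nat_lit 7551659020) (nat_lit 532) (nat_lit 5) (nat_lit 554) (nat_lit 5) (nat_lit 555) (nat_lit 5) (nat_lit 568) (nat_lit 561) (nat_lit 431)) (XT.nd (nat_lit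 78) (nat_lit 0) (nat_lit 0) (XT.lf (nat_lit 0) (nat_lit 1309280415) (nat_lit 1672) (nat_lit 7349352496) (nat_lit 1748) (nat_lit 1700305006) (nat_lit 533) (nat_lit 5) (nat_lit 555) (nat_lit 5) (nat_lit 556) (nat_lit 5) (nat_lit 569) (nat_lit 561) (nat_lit 430)) (XT.lf (nat_lit 0) (nat_lit 2257270813) (nat_lit 1672) (nat_lit 2003848283) (nat_lit 1748) (nat_lit 6190897455) (nat_lit 533) (nat_lit 5) (nat_lit 555) (nat_lit 5) (nat_lit 556) (nat_lit 5) (nat_lit 570) (nat_lit 561) (nat_lit 429))))) (XT.nd (nat_lit 156) (nat_lit 0) (nat_lit 0) (XT.nd (nat_lit 78) (nat_lit 0) (nat_lit 0) (XT.lf (nat_lit 0) (nat_lit 3231136251) (nat_lit 1672) (nat_lit 7065170779) (nat_lit 1748) (nat_lit 250511978) (nat_lit 534) (nat_lit 5) (nat_lit 556) (nat_lit 5) (nat_lit 557) (nat_lit 5) (nat_lit 571) (nat_lit 561) (nat_lit 428)) (XT.lf (nat_lit 0) (nat_lit 4249195484) (nat_lit 1672) (nat_lit 1578771531) (nat_lit 1748) (nat_lit 4815056715) (nat_lit 534) (nat_lit 5) (nat_lit 556) (nat_lit 5) (nat_lit 557) (nat_lit 5) (nat_lit 572)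 (nat_lit 561) (nat_lit 427))) (XT.nd (nat_lit 78) (nat_lit 0) (nat_lit 76) (XT.lf (nat_lit 76) (nat_lit 4059586206) (nat_lit 0) (nat_lit 1237682542) (nat_lit 1748) (nat_lit 5443691276) (nat_lit 535) (nat_lit 5) (nat_lit 534) (nat_lit 5) (nat_lit 557) (nat_lit 5) (nat_lit 573) (nat_lit 561) (nat_lit 426)) (XT.nd (nat_lit 78) (nat_lit 0) (nat_lit 0) (XT.lf (nat_lit 0) (nat_lit 6382919010) (nat_lit 1672) (nat_lit 1042269442) (nat_lit 1748) (nat_lit 3415334803) (nat_lit 535) (nat_lit 5) (nat_lit 557) (nat_lit 5) (nat_lit 558) (nat_lit 5) (nat_lit 574) (nat_lit 561) (nat_lit 425)) (XT.lf (nat_lit 76) (nat_lit 4752669715) (nat_lit 0) (nat_lit 2760576035) (nat_lit 1748) (nat_lit 3428373245) (nat_lit 536) (nat_lit 5) (nat_lit 535) (nat_lit 5) (nat_lit 558) (nat_lit 5) (nat_lit 575) (nat_lit 561) (nat_lit 424)))))) (XT.nd (nat_lit 390) (nat_lit 0) (nat_lit 76) (XT.nd (nat_lit 156) (nat_lit 1672) (nat_lit 0) (XT.nd (nat_lit 78) (nat_lit 0) (nat_lit 0) (XT.lf (nat_lit 0) (nat_lit 8670372340) (nat_lit 1672) (nat_lit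 391333950) (nat_lit 1748) (nat_lit 1982946995) (nat_lit 536) (nat_lit 5) (nat_lit 558) (nat_lit 5) (nat_lit 559) (nat_lit 5) (nat_lit 576) (nat_lit 561) (nat_lit 423)) (XT.lf (nat_lit 76) (nat_lit 5565812301) (nat_lit 0) (nat_lit 4323743005) (nat_lit 1748) (nat_lit 1259415175) (nat_lit 537) (nat_lit 5) (nat_lit 536) (nat_lit 5) (nat_lit 559) (nat_lit 5) (nat_lit 577) (nat_lit 561) (nat_lit 422))) (XT.nd (nat_lit 78) (nat_lit 1748) (nat_lit 0) (XT.lf (nat_lit 76) (nat_lit 382381528) (nat_lit 0) (nat_lit 10743925624) (nat_lit 1748) (nat_lit 129203645) (nat_lit 538) (nat_lit 5) (nat_lit 537) (nat_lit 5) (nat_lit 560) (nat_lit 5) (nat_lit 578) (nat_lit 561) (nat_lit 421)) (XT.nd (nat_lit 78) (nat_lit 0) (nat_lit 0) (XT.lf (nat_lit 0) (nat_lit 1061415321) (nat_lit 1748) (nat_lit 4867570034) (nat_lit 1824) (nat_lit 5434039549) (nat_lit 514) (nat_lit 5) (nat_lit 537) (nat_lit 5) (nat_lit 538) (nat_lit 5) (nat_lit 579) (nat_lit 561) (nat_lit 420)) (XT.lf (nat_lit 76) (nat_lit 1262506165) (nat_lit 0) (nat_lit 1004985537)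 (nat_lit 1824) (nat_lit 9205313464) (nat_lit 515) (nat_lit 5) (nat_lit 514) (nat_lit 5) (nat_lit 538) (nat_lit 5) (nat_lit 580) (nat_lit 561) (nat_lit 419))))) (XT.nd (nat_lit 156) (nat_lit 0) (nat_lit 76) (XT.nd (nat_lit 78) (nat_lit 0) (nat_lit 0) (XT.lf (nat_lit 0) (nat_lit 3542070315) (nat_lit 1748) (nat_lit 4040800002) (nat_lit 1824) (nat_lit 4001023550) (nat_lit 515) (nat_lit 5) (nat_lit 538) (nat_lit 5) (nat_lit 539) (nat_lit 5) (nat_lit 581) (nat_lit 561) (nat_lit 418)) (XT.lf (nat_lit 76) (nat_lit 2263813198) (nat_lit 0) (nat_lit 2585383160) (nat_lit 1824) (nat_lit 6847867305) (nat_lit 516) (nat_lit 5) (nat_lit 515) (nat_lit 5) (nat_lit 539) (nat_lit 5) (nat_lit 582) (nat_lit 561) (nat_lit 417))) (XT.nd (nat_lit 78) (nat_lit 0) (nat_lit 0) (XT.lf (nat_lit 0) (nat_lit 6211998390) (nat_lit 1748) (nat_lit 3090688181) (nat_lit 1824) (nat_lit 2509220043) (nat_lit 516) (nat_lit 5) (nat_lit 539) (nat_lit 5) (nat_lit 540) (nat_lit 5) (nat_lit 583) (nat_lit 561) (nat_lit 416)) (XT.nd (nat_lit 78) (nat_lit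 0) (nat_lit 76) (XT.lf (nat_lit 76) (nat_lit 3394816527) (nat_lit 0) (nat_lit 4232607076) (nat_lit 1824) (nat_lit 4301115900) (nat_lit 517) (nat_lit 5) (nat_lit 516) (nat_lit 5) (nat_lit 540) (nat_lit 5) (nat_lit 584) (nat_lit 561) (nat_lit 415)) (XT.lf (nat_lit 0) (nat_lit 9084547501) (nat_lit 1748) (nat_lit 2012920983) (nat_lit 76) (nat_lit 949769175) (nat_lit 517) (nat_lit 5) (nat_lit 540) (nat_lit 5) (nat_lit 518) (nat_lit 5) (nat_lit 585) (nat_lit 561) (nat_lit 414))))))) (XT.nd (nat_lit 780) (nat_lit 4940) (nat_lit 0) (XT.nd (nat_lit 390) (nat_lit 2736) (nat_lit 0) (XT.nd (nat_lit 156) (nat_lit 3040) (nat_lit 0) (XT.nd (nat_lit 78) (nat_lit 0) (nat_lit 0) (XT.lf (nat_lit 0) (nat_lit 4660086359) (nat_lit 1748) (nat_lit 5955697626) (nat_lit 1824) (nat_lit 1551626795) (nat_lit 494) (nat_lit 5) (nat_lit 517) (nat_lit 5) (nat_lit 518) (nat_lit 5) (nat_lit 586) (nat_lit 561) (nat_lit 413)) (XT.lf (nat_lit 0) (nat_lit 11482615800) (nat_lit 1748) (nat_lit 695408626) (nat_lit 1824) (nat_lit 111955749) (nat_lit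 494) (nat_lit 5) (nat_lit 517) (nat_lit 5) (nat_lit 518) (nat_lit 5) (nat_lit 587) (nat_lit 561) (nat_lit 412))) (XT.nd (nat_lit 78) (nat_lit 1140) (nat_lit 0) (XT.lf (nat_lit 0) (nat_lit 1395931194) (nat_lit 1900) (nat_lit 6358510872) (nat_lit 76) (nat_lit 4659238860) (nat_lit 469) (nat_lit 5) (nat_lit 494) (nat_lit 5) (nat_lit 470) (nat_lit 5) (nat_lit 588) (nat_lit 561) (nat_lit 411)) (XT.nd (nat_lit 78) (nat_lit 0) (nat_lit 0) (XT.lf (nat_lit 0) (nat_lit 516169449) (nat_lit 1140) (nat_lit 2416955221) (nat_lit 1216) (nat_lit 9606703637) (nat_lit 454) (nat_lit 5) (nat_lit 469) (nat_lit 5) (nat_lit 470) (nat_lit 5) (nat_lit 589) (nat_lit 561) (nat_lit 410)) (XT.lf (nat_lit 0) (nat_lit 4551090088) (nat_lit 1216) (nat_lit 5084603401) (nat_lit 76) (nat_lit 3031804953) (nat_lit 454) (nat_lit 5) (nat_lit 470) (nat_lit 5) (nat_lit 455) (nat_lit 5) (nat_lit 590) (nat_lit 561) (nat_lit 409))))) (XT.nd (nat_lit 156) (nat_lit 1824) (nat_lit 0) (XT.nd (nat_lit 78) (nat_lit 0) (nat_lit 0) (XT.lf (nat_lit 0) (nat_lit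 1992024050) (nat_lit 912) (nat_lit 4225998693) (nat_lit 988) (nat_lit 6579367438) (nat_lit 442) (nat_lit 5) (nat_lit 454) (nat_lit 5) (nat_lit 455) (nat_lit 5) (nat_lit 591) (nat_lit 561) (nat_lit 408)) (XT.lf (nat_lit 0) (nat_lit 7948870883) (nat_lit 988) (nat_lit 3670207460) (nat_lit 76) (nat_lit 1310190225) (nat_lit 442) (nat_lit 5) (nat_lit 455) (nat_lit 5) (nat_lit 443) (nat_lit 5) (nat_lit 592) (nat_lit 561) (nat_lit 407))) (XT.nd (nat_lit 78) (nat_lit 912) (nat_lit 0) (XT.lf (nat_lit 0) (nat_lit 3615811683) (nat_lit 912) (nat_lit 6138068373) (nat_lit 988) (nat_lit 3309113932) (nat_lit 430) (nat_lit 5) (nat_lit 442) (nat_lit 5) (nat_lit 443) (nat_lit 5) (nat_lit 593) (nat_lit 561) (nat_lit 406)) (XT.nd (nat_lit 78) (nat_lit 912) (nat_lit 0) (XT.lf (nat_lit 0) (nat_lit 11086098063) (nat_lit 912) (nat_lit 521762413) (nat_lit 988) (nat_lit 1591276358) (nat_lit 430) (nat_lit 5) (nat_lit 442) (nat_lit 5) (nat_lit 443) (nat_lit 5) (nat_lit 594) (nat_lit 561) (nat_lit 405)) (XT.lf (nat_lit 0) (nat_lit 216487388)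 (nat_lit 912) (nat_lit 7944781719) (nat_lit 76) (nat_lit 5175559261) (nat_lit 418) (nat_lit 5) (nat_lit 430) (nat_lit 5) (nat_lit 419) (nat_lit 5) (nat_lit 595) (nat_lit 561) (nat_lit 404)))))) (XT.nd (nat_lit 390) (nat_lit 2356) (nat_lit 0) (XT.nd (nat_lit 156) (nat_lit 1672) (nat_lit 0) (XT.nd (nat_lit 78) (nat_lit 912) (nat_lit 0) (XT.lf (nat_lit 0) (nat_lit 2045402117) (nat_lit 912) (nat_lit 426498229) (nat_lit 76) (nat_lit 11005037281) (nat_lit 418) (nat_lit 5) (nat_lit 430) (nat_lit 5) (nat_lit 419) (nat_lit 5) (nat_lit 596) (nat_lit 561) (nat_lit 403)) (XT.lf (nat_lit 0) (nat_lit 3969191249) (nat_lit 988) (nat_lit 6313894577) (nat_lit 76) (nat_lit 3335597636) (nat_lit 406) (nat_lit 5) (nat_lit 419) (nat_lit 5) (nat_lit 407) (nat_lit 5) (nat_lit 597) (nat_lit 561) (nat_lit 402))) (XT.nd (nat_lit 78) (nat_lit 836) (nat_lit 0) (XT.lf (nat_lit 0) (nat_lit 1424342450) (nat_lit 836) (nat_lit 4524540241) (nat_lit 912) (nat_lit 7814033299) (nat_lit 395) (nat_lit 5) (nat_lit 406) (nat_lit 5) (nat_lit 407)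 (nat_lit 5) (nat_lit 598) (nat_lit 561) (nat_lit 401)) (XT.nd (nat_lit 78) (nat_lit 836) (nat_lit 0) (XT.lf (nat_lit 0) (nat_lit 8008648684) (nat_lit 912) (nat_lit 4526663920) (nat_lit 76) (nat_lit 1373911250) (nat_lit 395) (nat_lit 5) (nat_lit 407) (nat_lit 5) (nat_lit 396) (nat_lit 5) (nat_lit 599) (nat_lit 561) (nat_lit 400)) (XT.lf (nat_lit 0) (nat_lit 3445563625) (nat_lit 836) (nat_lit 6705666222) (nat_lit 912) (nat_lit 3906395927) (nat_lit 384) (nat_lit 5) (nat_lit 395) (nat_lit 5) (nat_lit 396) (nat_lit 5) (nat_lit 600) (nat_lit 561) (nat_lit 399))))) (XT.nd (nat_lit 234) (nat_lit 1520) (nat_lit 0) (XT.nd (nat_lit 78) (nat_lit 836) (nat_lit 0) (XT.lf (nat_lit 0) (nat_lit 11627523559) (nat_lit 836) (nat_lit 728938702) (nat_lit 912) (nat_lit 1852137767) (nat_lit 384) (nat_lit 5) (nat_lit 395) (nat_lit 5) (nat_lit 396) (nat_lit 5) (nat_lit 601) (nat_lit 561) (nat_lit 398)) (XT.nd (nat_lit 78) (nat_lit 0) (nat_lit 0) (XT.lf (nat_lit 0) (nat_lit 301505261) (nat_lit 836) (nat_lit 8724784050) (nat_lit 76)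 (nat_lit 5335043367) (nat_lit 373) (nat_lit 5) (nat_lit 384) (nat_lit 5) (nat_lit 374) (nat_lit 5) (nat_lit 602) (nat_lit 561) (nat_lit 397)) (XT.lf (nat_lit 0) (nat_lit 2485398219) (nat_lit 836) (nat_lit 491592298) (nat_lit 76) (nat_lit 11539645337) (nat_lit 373) (nat_lit 5) (nat_lit 384) (nat_lit 5) (nat_lit 374) (nat_lit 5) (nat_lit 603) (nat_lit 561) (nat_lit 396)))) (XT.nd (nat_lit 78) (nat_lit 760) (nat_lit 0) (XT.lf (nat_lit 0) (nat_lit 4775877607) (nat_lit 836) (nat_lit 6694998062) (nat_lit 76) (nat_lit 3202911522) (nat_lit 363) (nat_lit 5) (nat_lit 374) (nat_lit 5) (nat_lit 364) (nat_lit 5) (nat_lit 604) (nat_lit 561) (nat_lit 395)) (XT.nd (nat_lit 78) (nat_lit 0) (nat_lit 0) (XT.lf (nat_lit 0) (nat_lit 1783856245) (nat_lit 760) (nat_lit 5352944081) (nat_lit 836) (nat_lit 7696788815) (nat_lit 353) (nat_lit 5) (nat_lit 363) (nat_lit 5) (nat_lit 364) (nat_lit 5) (nat_lit 605) (nat_lit 561) (nat_lit 394)) (XT.lf (nat_lit 0) (nat_lit 9586060650) (nat_lit 836) (nat_lit 4489853634) (nat_lit 76) (nat_lit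 919850719) (nat_lit 353) (nat_lit 5) (nat_lit 364) (nat_lit 5) (nat_lit 354) (nat_lit 5) (nat_lit 606) (nat_lit 561) (nat_lit 393))))))))
noncomputable def xc142 : XT := (XT.nd (nat_lit 79170) (nat_lit 0) (nat_lit 3116) (XT.nd (nat_lit 78390) (nat_lit 0) (nat_lit 12996) (XT.nd (nat_lit 78000) (nat_lit 0) (nat_lit 14288) (XT.nd (nat_lit 77766) (nat_lit 0) (nat_lit 15884) (XT.nd (nat_lit 77688) (nat_lit 0) (nat_lit 15884) (XT.lf (nat_lit 0) (nat_lit 4250592723) (nat_lit 760) (nat_lit 7887087969) (nat_lit 836) (nat_lit 3022436453) (nat_lit 343) (nat_lit 5) (nat_lit 353) (nat_lit 5) (nat_lit 354) (nat_lit 5) (nat_lit 607) (nat_lit 561) (nat_lit 392)) (XT.lf (nat_lit 0) (nat_lit 1492539739) (nat_lit 0) (nat_lit 1492539739) (nat_lit 1596) (nat_lit 1930598852) (nat_lit 552) (nat_lit 5) (nat_lit 552) (nat_lit 3) (nat_lit 573) (nat_lit 3) (nat_lit 562) (nat_lit 562) (nat_lit 436))) (XT.nd (nat_lit 78) (nat_lit 0) (nat_lit 0) (XT.lf (nat_lit 0) (nat_lit 6775280986) (nat_lit 1596) (nat_lit 1952320582) (nat_lit 1672)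 (nat_lit 1187135925) (nat_lit 552) (nat_lit 5) (nat_lit 573) (nat_lit 3) (nat_lit 574) (nat_lit 5) (nat_lit 563) (nat_lit 562) (nat_lit 435)) (XT.nd (nat_lit 78) (nat_lit 0) (nat_lit 0) (XT.lf (nat_lit 76) (nat_lit 3049618410) (nat_lit 0) (nat_lit 4567170955) (nat_lit 1672) (nat_lit 2382591538) (nat_lit 553) (nat_lit 5) (nat_lit 552) (nat_lit 5) (nat_lit 574) (nat_lit 5) (nat_lit 564) (nat_lit 562) (nat_lit 434)) (XT.lf (nat_lit 76) (nat_lit 8168002713) (nat_lit 0) (nat_lit 301254158) (nat_lit 1672) (nat_lit 1616578356) (nat_lit 553) (nat_lit 5) (nat_lit 552) (nat_lit 5) (nat_lit 574) (nat_lit 5) (nat_lit 565) (nat_lit 562) (nat_lit 433))))) (XT.nd (nat_lit 156) (nat_lit 0) (nat_lit 76) (XT.nd (nat_lit 78) (nat_lit 1672) (nat_lit 0) (XT.lf (nat_lit 76) (nat_lit 3220387017) (nat_lit 0) (nat_lit 6147047368) (nat_lit 1672) (nat_lit 806011653) (nat_lit 554) (nat_lit 5) (nat_lit 553) (nat_lit 5) (nat_lit 575) (nat_lit 5) (nat_lit 566) (nat_lit 562) (nat_lit 432)) (XT.lf (nat_lit 0) (nat_lit 17076390) (nat_lit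 1672) (nat_lit 1787865954) (nat_lit 1748) (nat_lit 8457932968) (nat_lit 531) (nat_lit 5) (nat_lit 553) (nat_lit 5) (nat_lit 554) (nat_lit 5) (nat_lit 567) (nat_lit 562) (nat_lit 431))) (XT.nd (nat_lit 78) (nat_lit 0) (nat_lit 0) (XT.lf (nat_lit 0) (nat_lit 867905990) (nat_lit 1672) (nat_lit 6860084606) (nat_lit 1748) (nat_lit 2625555151) (nat_lit 532) (nat_lit 5) (nat_lit 554) (nat_lit 5) (nat_lit 555) (nat_lit 5) (nat_lit 568) (nat_lit 562) (nat_lit 430)) (XT.nd (nat_lit 78) (nat_lit 0) (nat_lit 76) (XT.lf (nat_lit 0) (nat_lit 1742110739) (nat_lit 1672) (nat_lit 1563770511) (nat_lit 1748) (nat_lit 7140021737) (nat_lit 532) (nat_lit 5) (nat_lit 554) (nat_lit 5) (nat_lit 555) (nat_lit 5) (nat_lit 569) (nat_lit 562) (nat_lit 429)) (XT.lf (nat_lit 0) (nat_lit 2649692474) (nat_lit 1672) (nat_lit 6669031165) (nat_lit 1748) (nat_lit 1221066430) (nat_lit 533) (nat_lit 5) (nat_lit 555) (nat_lit 5) (nat_lit 556) (nat_lit 5) (nat_lit 570) (nat_lit 562) (nat_lit 428)))))) (XT.nd (nat_lit 390) (nat_lit 1444) (nat_lit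 0) (XT.nd (nat_lit 156) (nat_lit 0) (nat_lit 76) (XT.nd (nat_lit 78) (nat_lit 0) (nat_lit 0) (XT.lf (nat_lit 0) (nat_lit 3590873534) (nat_lit 1672) (nat_lit 1232838601) (nat_lit 1748) (nat_lit 5811534349) (nat_lit 533) (nat_lit 5) (nat_lit 555) (nat_lit 5) (nat_lit 556) (nat_lit 5) (nat_lit 571) (nat_lit 562) (nat_lit 427)) (XT.lf (nat_lit 76) (nat_lit 4358746434) (nat_lit 0) (nat_lit 203756378) (nat_lit 1748) (nat_lit 6169877257) (nat_lit 534) (nat_lit 5) (nat_lit 533) (nat_lit 5) (nat_lit 556) (nat_lit 5) (nat_lit 572) (nat_lit 562) (nat_lit 426))) (XT.nd (nat_lit 78) (nat_lit 0) (nat_lit 0) (XT.lf (nat_lit 0) (nat_lit 5574788134) (nat_lit 1672) (nat_lit 792539627) (nat_lit 1748) (nat_lit 4463704619) (nat_lit 534) (nat_lit 5) (nat_lit 556) (nat_lit 5) (nat_lit 557) (nat_lit 5) (nat_lit 573) (nat_lit 562) (nat_lit 425)) (XT.nd (nat_lit 78) (nat_lit 0) (nat_lit 76) (XT.lf (nat_lit 76) (nat_lit 4953204952) (nat_lit 0) (nat_lit 1671567063) (nat_lit 1748) (nat_lit 4306537178) (nat_lit 535) (nat_lit 5) (nat_lit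 534) (nat_lit 5) (nat_lit 557) (nat_lit 5) (nat_lit 574) (nat_lit 562) (nat_lit 424)) (XT.lf (nat_lit 0) (nat_lit 7705578904) (nat_lit 1672) (nat_lit 240023260) (nat_lit 1748) (nat_lit 3087793415) (nat_lit 535) (nat_lit 5) (nat_lit 557) (nat_lit 5) (nat_lit 558) (nat_lit 5) (nat_lit 575) (nat_lit 562) (nat_lit 423))))) (XT.nd (nat_lit 156) (nat_lit 1596) (nat_lit 0) (XT.nd (nat_lit 78) (nat_lit 0) (nat_lit 76) (XT.lf (nat_lit 76) (nat_lit 5665399603) (nat_lit 0) (nat_lit 3174990072) (nat_lit 1748) (nat_lit 2296486757) (nat_lit 536) (nat_lit 5) (nat_lit 535) (nat_lit 5) (nat_lit 558) (nat_lit 5) (nat_lit 576) (nat_lit 562) (nat_lit 422)) (XT.lf (nat_lit 76) (nat_lit 433568461) (nat_lit 0) (nat_lit 9564542839) (nat_lit 1748) (nat_lit 1244311792) (nat_lit 537) (nat_lit 5) (nat_lit 536) (nat_lit 5) (nat_lit 559) (nat_lit 5) (nat_lit 577) (nat_lit 562) (nat_lit 421))) (XT.nd (nat_lit 78) (nat_lit 1672) (nat_lit 0) (XT.lf (nat_lit 76) (nat_lit 6498730239) (nat_lit 0) (nat_lit 4722888300) (nat_lit 1748) (nat_lit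 127609996) (nat_lit 537) (nat_lit 5) (nat_lit 536) (nat_lit 5) (nat_lit 559) (nat_lit 5) (nat_lit 578) (nat_lit 562) (nat_lit 420)) (XT.nd (nat_lit 78) (nat_lit 0) (nat_lit 0) (XT.lf (nat_lit 0) (nat_lit 992863038) (nat_lit 1748) (nat_lit 10233993640) (nat_lit 1824) (nat_lit 231288484) (nat_lit 514) (nat_lit 5) (nat_lit 537) (nat_lit 5) (nat_lit 538) (nat_lit 5) (nat_lit 579) (nat_lit 562) (nat_lit 419)) (XT.lf (nat_lit 0) (nat_lit 2183547880) (nat_lit 1748) (nat_lit 4125958138) (nat_lit 1824) (nat_lit 5258727458) (nat_lit 514) (nat_lit 5) (nat_lit 537) (nat_lit 5) (nat_lit 538) (nat_lit 5) (nat_lit 580) (nat_lit 562) (nat_lit 418))))))) (XT.nd (nat_lit 780) (nat_lit 5320) (nat_lit 0) (XT.nd (nat_lit 390) (nat_lit 4560) (nat_lit 0) (XT.nd (nat_lit 156) (nat_lit 0) (nat_lit 76) (XT.nd (nat_lit 78) (nat_lit 0) (nat_lit 76) (XT.lf (nat_lit 76) (nat_lit 2121200089) (nat_lit 0) (nat_lit 1276370611) (nat_lit 1824) (nat_lit 8282962809) (nat_lit 515) (nat_lit 5) (nat_lit 514) (nat_lit 5) (nat_lit 538) (nat_lit 5)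 (nat_lit 581) (nat_lit 562) (nat_lit 417)) (XT.lf (nat_lit 0) (nat_lit 4674772166) (nat_lit 1748) (nat_lit 3281612990) (nat_lit 1824) (nat_lit 3837916853) (nat_lit 515) (nat_lit 5) (nat_lit 538) (nat_lit 5) (nat_lit 539) (nat_lit 5) (nat_lit 582) (nat_lit 562) (nat_lit 416))) (XT.nd (nat_lit 78) (nat_lit 0) (nat_lit 76) (XT.lf (nat_lit 76) (nat_lit 3143566139) (nat_lit 0) (nat_lit 2849071774) (nat_lit 1824) (nat_lit 5917405982) (nat_lit 516) (nat_lit 5) (nat_lit 515) (nat_lit 5) (nat_lit 539) (nat_lit 5) (nat_lit 583) (nat_lit 562) (nat_lit 415)) (XT.nd (nat_lit 78) (nat_lit 0) (nat_lit 0) (XT.lf (nat_lit 0) (nat_lit 7360827874) (nat_lit 1748) (nat_lit 2312488182) (nat_lit 1824) (nat_lit 2354305637) (nat_lit 516) (nat_lit 5) (nat_lit 539) (nat_lit 5) (nat_lit 540) (nat_lit 5) (nat_lit 584) (nat_lit 562) (nat_lit 414)) (XT.lf (nat_lit 76) (nat_lit 4297200214) (nat_lit 0) (nat_lit 4492689431) (nat_lit 1824) (nat_lit 3356991645) (nat_lit 517) (nat_lit 5) (nat_lit 516) (nat_lit 5) (nat_lit 540) (nat_lit 5) (nat_lit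 585) (nat_lit 562) (nat_lit 413))))) (XT.nd (nat_lit 156) (nat_lit 3040) (nat_lit 0) (XT.nd (nat_lit 78) (nat_lit 1748) (nat_lit 0) (XT.lf (nat_lit 0) (nat_lit 10255237041) (nat_lit 1748) (nat_lit 1214105512) (nat_lit 76) (nat_lit 799029838) (nat_lit 517) (nat_lit 5) (nat_lit 540) (nat_lit 5) (nat_lit 518) (nat_lit 5) (nat_lit 586) (nat_lit 562) (nat_lit 412)) (XT.lf (nat_lit 0) (nat_lit 5586841754) (nat_lit 1748) (nat_lit 6216276354) (nat_lit 1824) (nat_lit 588111058) (nat_lit 494) (nat_lit 5) (nat_lit 517) (nat_lit 5) (nat_lit 518) (nat_lit 5) (nat_lit 587) (nat_lit 562) (nat_lit 411))) (XT.nd (nat_lit 78) (nat_lit 1140) (nat_lit 0) (XT.lf (nat_lit 0) (nat_lit 7351902) (nat_lit 1824) (nat_lit 842258057) (nat_lit 1900) (nat_lit 11666910189) (nat_lit 469) (nat_lit 5) (nat_lit 493) (nat_lit 5) (nat_lit 494) (nat_lit 5) (nat_lit 588) (nat_lit 562) (nat_lit 410)) (XT.nd (nat_lit 78) (nat_lit 1140) (nat_lit 0) (XT.lf (nat_lit 0) (nat_lit 2371788754) (nat_lit 1900) (nat_lit 5641307145) (nat_lit 76) (nat_lit 4629872106)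 (nat_lit 469) (nat_lit 5) (nat_lit 494) (nat_lit 5) (nat_lit 470) (nat_lit 5) (nat_lit 589) (nat_lit 562) (nat_lit 409)) (XT.lf (nat_lit 0) (nat_lit 1365311691) (nat_lit 1140) (nat_lit 2561273540) (nat_lit 1216) (nat_lit 8845316465) (nat_lit 454) (nat_lit 5) (nat_lit 469) (nat_lit 5) (nat_lit 470) (nat_lit 5) (nat_lit 590) (nat_lit 562) (nat_lit 408)))))) (XT.nd (nat_lit 390) (nat_lit 3496) (nat_lit 0) (XT.nd (nat_lit 156) (nat_lit 912) (nat_lit 0) (XT.nd (nat_lit 78) (nat_lit 912) (nat_lit 0) (XT.lf (nat_lit 0) (nat_lit 5557969641) (nat_lit 1216) (nat_lit 4344957046) (nat_lit 76) (nat_lit 2999577886) (nat_lit 454) (nat_lit 5) (nat_lit 470) (nat_lit 5) (nat_lit 455) (nat_lit 5) (nat_lit 591) (nat_lit 562) (nat_lit 407)) (XT.lf (nat_lit 0) (nat_lit 2867667833) (nat_lit 912) (nat_lit 4378041710) (nat_lit 988) (nat_lit 5789535754) (nat_lit 442) (nat_lit 5) (nat_lit 454) (nat_lit 5) (nat_lit 455) (nat_lit 5) (nat_lit 592) (nat_lit 562) (nat_lit 406))) (XT.nd (nat_lit 78) (nat_lit 912) (nat_lit 0) (XT.lf (nat_lit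 0) (nat_lit 8993032556) (nat_lit 988) (nat_lit 2906028871) (nat_lit 76) (nat_lit 1271063180) (nat_lit 442) (nat_lit 5) (nat_lit 455) (nat_lit 5) (nat_lit 443) (nat_lit 5) (nat_lit 593) (nat_lit 562) (nat_lit 405)) (XT.nd (nat_lit 78) (nat_lit 0) (nat_lit 0) (XT.lf (nat_lit 0) (nat_lit 4520200243) (nat_lit 912) (nat_lit 6301987482) (nat_lit 988) (nat_lit 2484576398) (nat_lit 430) (nat_lit 5) (nat_lit 442) (nat_lit 5) (nat_lit 443) (nat_lit 5) (nat_lit 594) (nat_lit 562) (nat_lit 404)) (XT.lf (nat_lit 0) (nat_lit 12123577206) (nat_lit 912) (nat_lit 572548388) (nat_lit 988) (nat_lit 749847166) (nat_lit 430) (nat_lit 5) (nat_lit 442) (nat_lit 5) (nat_lit 443) (nat_lit 5) (nat_lit 595) (nat_lit 562) (nat_lit 403))))) (XT.nd (nat_lit 234) (nat_lit 1672) (nat_lit 0) (XT.nd (nat_lit 78) (nat_lit 912) (nat_lit 0) (XT.lf (nat_lit 0) (nat_lit 1070871805) (nat_lit 912) (nat_lit 7264672260) (nat_lit 76) (nat_lit 5250996083) (nat_lit 418) (nat_lit 5) (nat_lit 430) (nat_lit 5) (nat_lit 419) (nat_lit 5) (nat_lit 596) (nat_lit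 562) (nat_lit 402)) (XT.nd (nat_lit 78) (nat_lit 0) (nat_lit 0) (XT.lf (nat_lit 0) (nat_lit 392675832) (nat_lit 912) (nat_lit 2529570769) (nat_lit 988) (nat_lit 10807487820) (nat_lit 406) (nat_lit 5) (nat_lit 418) (nat_lit 5) (nat_lit 419) (nat_lit 5) (nat_lit 597) (nat_lit 562) (nat_lit 401)) (XT.lf (nat_lit 0) (nat_lit 4870892695) (nat_lit 988) (nat_lit 5606526373) (nat_lit 76) (nat_lit 3397168937) (nat_lit 406) (nat_lit 5) (nat_lit 419) (nat_lit 5) (nat_lit 407) (nat_lit 5) (nat_lit 598) (nat_lit 562) (nat_lit 400)))) (XT.nd (nat_lit 78) (nat_lit 836) (nat_lit 0) (XT.lf (nat_lit 0) (nat_lit 2280990881) (nat_lit 836) (nat_lit 4598440184) (nat_lit 912) (nat_lit 7142489503) (nat_lit 395) (nat_lit 5) (nat_lit 406) (nat_lit 5) (nat_lit 407) (nat_lit 5) (nat_lit 599) (nat_lit 562) (nat_lit 399)) (XT.nd (nat_lit 78) (nat_lit 836) (nat_lit 0) (XT.lf (nat_lit 0) (nat_lit 8964584834) (nat_lit 912) (nat_lit 3789444644) (nat_lit 76) (nat_lit 1417441700) (nat_lit 395) (nat_lit 5) (nat_lit 407) (nat_lit 5) (nat_lit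 396) (nat_lit 5) (nat_lit 600) (nat_lit 562) (nat_lit 398)) (XT.lf (nat_lit 0) (nat_lit 4336781711) (nat_lit 836) (nat_lit 6802971671) (nat_lit 912) (nat_lit 3183293469) (nat_lit 384) (nat_lit 5) (nat_lit 395) (nat_lit 5) (nat_lit 396) (nat_lit 5) (nat_lit 601) (nat_lit 562) (nat_lit 397))))))))
noncomputable def xc143 : XT := (XT.nd (nat_lit 79248) (nat_lit 0) (nat_lit 4940) (XT.nd (nat_lit 78468) (nat_lit 0) (nat_lit 13528) (XT.nd (nat_lit 390) (nat_lit 0) (nat_lit 0) (XT.nd (nat_lit 156) (nat_lit 1520) (nat_lit 0) (XT.nd (nat_lit 78) (nat_lit 836) (nat_lit 0) (XT.lf (nat_lit 0) (nat_lit 12666257180) (nat_lit 836) (nat_lit 707431324) (nat_lit 912) (nat_lit 1103660546) (nat_lit 384) (nat_lit 5) (nat_lit 395) (nat_lit 5) (nat_lit 396) (nat_lit 5) (nat_lit 602) (nat_lit 562) (nat_lit 396)) (XT.lf (nat_lit 0) (nat_lit 1073116873) (nat_lit 836) (nat_lit 8073117261) (nat_lit 76) (nat_lit 5486993345) (nat_lit 373) (nat_lit 5) (nat_lit 384) (nat_lit 5) (nat_lit 374) (nat_lit 5) (nat_lit 603) (nat_lit 562) (nat_lit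 395))) (XT.nd (nat_lit 78) (nat_lit 760) (nat_lit 0) (XT.lf (nat_lit 0) (nat_lit 312639383) (nat_lit 760) (nat_lit 2975066767) (nat_lit 836) (nat_lit 11504190596) (nat_lit 363) (nat_lit 5) (nat_lit 373) (nat_lit 5) (nat_lit 374) (nat_lit 5) (nat_lit 604) (nat_lit 562) (nat_lit 394)) (XT.nd (nat_lit 78) (nat_lit 760) (nat_lit 0) (XT.lf (nat_lit 0) (nat_lit 5612885080) (nat_lit 836) (nat_lit 6009835196) (nat_lit 76) (nat_lit 3329693423) (nat_lit 363) (nat_lit 5) (nat_lit 374) (nat_lit 5) (nat_lit 364) (nat_lit 5) (nat_lit 605) (nat_lit 562) (nat_lit 393)) (XT.lf (nat_lit 0) (nat_lit 2633207626) (nat_lit 760) (nat_lit 5378562521) (nat_lit 836) (nat_lit 7103827044) (nat_lit 353) (nat_lit 5) (nat_lit 363) (nat_lit 5) (nat_lit 364) (nat_lit 5) (nat_lit 606) (nat_lit 562) (nat_lit 392))))) (XT.nd (nat_lit 77844) (nat_lit 0) (nat_lit 15124) (XT.nd (nat_lit 77766) (nat_lit 0) (nat_lit 15124) (XT.lf (nat_lit 0) (nat_lit 10496176550) (nat_lit 836) (nat_lit 3768073037) (nat_lit 76) (nat_lit 1017044140) (nat_lit 353)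 (nat_lit 5) (nat_lit 364) (nat_lit 5) (nat_lit 354) (nat_lit 5) (nat_lit 607) (nat_lit 562) (nat_lit 391)) (XT.lf (nat_lit 0) (nat_lit 1888801173) (nat_lit 0) (nat_lit 1888801173) (nat_lit 1596) (nat_lit 1221708956) (nat_lit 552) (nat_lit 5) (nat_lit 552) (nat_lit 3) (nat_lit 573) (nat_lit 3) (nat_lit 563) (nat_lit 563) (nat_lit 434))) (XT.nd (nat_lit 78) (nat_lit 0) (nat_lit 0) (XT.lf (nat_lit 0) (nat_lit 8343026408) (nat_lit 1596) (nat_lit 1239464615) (nat_lit 1672) (nat_lit 501849038) (nat_lit 552) (nat_lit 5) (nat_lit 573) (nat_lit 3) (nat_lit 574) (nat_lit 5) (nat_lit 564) (nat_lit 563) (nat_lit 433)) (XT.nd (nat_lit 78) (nat_lit 0) (nat_lit 0) (XT.lf (nat_lit 76) (nat_lit 3857566430) (nat_lit 0) (nat_lit 5320565123) (nat_lit 1672) (nat_lit 993010384) (nat_lit 553) (nat_lit 5) (nat_lit 552) (nat_lit 5) (nat_lit 574) (nat_lit 5) (nat_lit 565) (nat_lit 563) (nat_lit 432)) (XT.lf (nat_lit 76) (nat_lit 9063672231) (nat_lit 0) (nat_lit 956348602) (nat_lit 1672) (nat_lit 239857977) (nat_lit 553) (nat_lit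 5) (nat_lit 552) (nat_lit 5) (nat_lit 574) (nat_lit 5) (nat_lit 566) (nat_lit 563) (nat_lit 431)))))) (XT.nd (nat_lit 390) (nat_lit 0) (nat_lit 152) (XT.nd (nat_lit 156) (nat_lit 0) (nat_lit 76) (XT.nd (nat_lit 78) (nat_lit 0) (nat_lit 0) (XT.lf (nat_lit 0) (nat_lit 552759133) (nat_lit 1672) (nat_lit 6309441152) (nat_lit 1748) (nat_lit 3487495482) (nat_lit 531) (nat_lit 5) (nat_lit 553) (nat_lit 5) (nat_lit 554) (nat_lit 5) (nat_lit 567) (nat_lit 563) (nat_lit 430)) (XT.lf (nat_lit 0) (nat_lit 1354779302) (nat_lit 1672) (nat_lit 1061524033) (nat_lit 1748) (nat_lit 8025039337) (nat_lit 531) (nat_lit 5) (nat_lit 553) (nat_lit 5) (nat_lit 554) (nat_lit 5) (nat_lit 568) (nat_lit 563) (nat_lit 429))) (XT.nd (nat_lit 78) (nat_lit 0) (nat_lit 0) (XT.lf (nat_lit 0) (nat_lit 2197689027) (nat_lit 1672) (nat_lit 6210208515) (nat_lit 1748) (nat_lit 2126428545) (nat_lit 532) (nat_lit 5) (nat_lit 554) (nat_lit 5) (nat_lit 555) (nat_lit 5) (nat_lit 569) (nat_lit 563) (nat_lit 428)) (XT.nd (nat_lit 78) (nat_lit 0) (nat_lit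 76) (XT.lf (nat_lit 0) (nat_lit 3063644049) (nat_lit 1672) (nat_lit 823401036) (nat_lit 1748) (nat_lit 6742000889) (nat_lit 532) (nat_lit 5) (nat_lit 554) (nat_lit 5) (nat_lit 555) (nat_lit 5) (nat_lit 570) (nat_lit 563) (nat_lit 427)) (XT.lf (nat_lit 0) (nat_lit 3965879760) (nat_lit 1672) (nat_lit 6007228801) (nat_lit 1748) (nat_lit 752172999) (nat_lit 533) (nat_lit 5) (nat_lit 555) (nat_lit 5) (nat_lit 556) (nat_lit 5) (nat_lit 571) (nat_lit 563) (nat_lit 426))))) (XT.nd (nat_lit 156) (nat_lit 0) (nat_lit 76) (XT.nd (nat_lit 78) (nat_lit 0) (nat_lit 0) (XT.lf (nat_lit 0) (nat_lit 4901115943) (nat_lit 1672) (nat_lit 477904209) (nat_lit 1748) (nat_lit 5444123114) (nat_lit 533) (nat_lit 5) (nat_lit 555) (nat_lit 5) (nat_lit 556) (nat_lit 5) (nat_lit 572) (nat_lit 563) (nat_lit 425)) (XT.lf (nat_lit 76) (nat_lit 5220383638) (nat_lit 0) (nat_lit 652539649) (nat_lit 1748) (nat_lit 5049682103) (nat_lit 534) (nat_lit 5) (nat_lit 533) (nat_lit 5) (nat_lit 556) (nat_lit 5) (nat_lit 573) (nat_lit 563) (nat_lit 424)))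 (XT.nd (nat_lit 78) (nat_lit 0) (nat_lit 0) (XT.lf (nat_lit 0) (nat_lit 6878718287) (nat_lit 1672) (nat_lit 22339541) (nat_lit 1748) (nat_lit 4122708401) (nat_lit 534) (nat_lit 5) (nat_lit 556) (nat_lit 5) (nat_lit 557) (nat_lit 5) (nat_lit 574) (nat_lit 563) (nat_lit 423)) (XT.nd (nat_lit 78) (nat_lit 0) (nat_lit 76) (XT.lf (nat_lit 76) (nat_lit 5833148543) (nat_lit 0) (nat_lit 2098242225) (nat_lit 1748) (nat_lit 3195024781) (nat_lit 535) (nat_lit 5) (nat_lit 534) (nat_lit 5) (nat_lit 557) (nat_lit 5) (nat_lit 575) (nat_lit 563) (nat_lit 422)) (XT.lf (nat_lit 76) (nat_lit 553566317) (nat_lit 0) (nat_lit 8458316434) (nat_lit 1748) (nat_lit 2219100265) (nat_lit 536) (nat_lit 5) (nat_lit 535) (nat_lit 5) (nat_lit 558) (nat_lit 5) (nat_lit 576) (nat_lit 563) (nat_lit 421))))))) (XT.nd (nat_lit 780) (nat_lit 7220) (nat_lit 0) (XT.nd (nat_lit 390) (nat_lit 0) (nat_lit 76) (XT.nd (nat_lit 156) (nat_lit 1672) (nat_lit 0) (XT.nd (nat_lit 78) (nat_lit 0) (nat_lit 76) (XT.lf (nat_lit 76) (nat_lit 6564632714) (nat_lit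 0) (nat_lit 3583744118) (nat_lit 1748) (nat_lit 1188577629) (nat_lit 536) (nat_lit 5) (nat_lit 535) (nat_lit 5) (nat_lit 558) (nat_lit 5) (nat_lit 577) (nat_lit 563) (nat_lit 420)) (XT.lf (nat_lit 76) (nat_lit 1247731685) (nat_lit 0) (nat_lit 10062373338) (nat_lit 1748) (nat_lit 134890692) (nat_lit 537) (nat_lit 5) (nat_lit 536) (nat_lit 5) (nat_lit 559) (nat_lit 5) (nat_lit 578) (nat_lit 563) (nat_lit 419))) (XT.nd (nat_lit 78) (nat_lit 0) (nat_lit 0) (XT.lf (nat_lit 0) (nat_lit 969025972) (nat_lit 1748) (nat_lit 4142346480) (nat_lit 1824) (nat_lit 6442874093) (nat_lit 513) (nat_lit 5) (nat_lit 536) (nat_lit 5) (nat_lit 537) (nat_lit 5) (nat_lit 579) (nat_lit 563) (nat_lit 418)) (XT.nd (nat_lit 78) (nat_lit 0) (nat_lit 76) (XT.lf (nat_lit 76) (nat_lit 2049242788) (nat_lit 0) (nat_lit 43075076) (nat_lit 1824) (nat_lit 9573365072) (nat_lit 514) (nat_lit 5) (nat_lit 513) (nat_lit 5) (nat_lit 537) (nat_lit 5) (nat_lit 580) (nat_lit 563) (nat_lit 417)) (XT.lf (nat_lit 0) (nat_lit 3285373635) (nat_lit 1748) (nat_lit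 3402091972) (nat_lit 1824) (nat_lit 5090936915) (nat_lit 514) (nat_lit 5) (nat_lit 537) (nat_lit 5) (nat_lit 538) (nat_lit 5) (nat_lit 581) (nat_lit 563) (nat_lit 416))))) (XT.nd (nat_lit 156) (nat_lit 0) (nat_lit 76) (XT.nd (nat_lit 78) (nat_lit 0) (nat_lit 76) (XT.lf (nat_lit 76) (nat_lit 2964704253) (nat_lit 0) (nat_lit 1543425670) (nat_lit 1824) (nat_lit 7385130212) (nat_lit 515) (nat_lit 5) (nat_lit 514) (nat_lit 5) (nat_lit 538) (nat_lit 5) (nat_lit 582) (nat_lit 563) (nat_lit 415)) (XT.lf (nat_lit 0) (nat_lit 5788894718) (nat_lit 1748) (nat_lit 2539860579) (nat_lit 1824) (nat_lit 3680988947) (nat_lit 515) (nat_lit 5) (nat_lit 538) (nat_lit 5) (nat_lit 539) (nat_lit 5) (nat_lit 583) (nat_lit 563) (nat_lit 414))) (XT.nd (nat_lit 78) (nat_lit 0) (nat_lit 76) (XT.lf (nat_lit 76) (nat_lit 4008510391) (nat_lit 0) (nat_lit 3109802681) (nat_lit 1824) (nat_lit 5009784602) (nat_lit 516) (nat_lit 5) (nat_lit 515) (nat_lit 5) (nat_lit 539) (nat_lit 5) (nat_lit 584) (nat_lit 563) (nat_lit 413)) (XT.nd (nat_lit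 78) (nat_lit 0) (nat_lit 0) (XT.lf (nat_lit 0) (nat_lit 8492847887) (nat_lit 1748) (nat_lit 1551342940) (nat_lit 1824) (nat_lit 2204257181) (nat_lit 516) (nat_lit 5) (nat_lit 539) (nat_lit 5) (nat_lit 540) (nat_lit 5) (nat_lit 585) (nat_lit 563) (nat_lit 412)) (XT.lf (nat_lit 76) (nat_lit 5185227414) (nat_lit 0) (nat_lit 4751161265) (nat_lit 1824) (nat_lit 2433986753) (nat_lit 517) (nat_lit 5) (nat_lit 516) (nat_lit 5) (nat_lit 540) (nat_lit 5) (nat_lit 586) (nat_lit 563) (nat_lit 411)))))) (XT.nd (nat_lit 390) (nat_lit 2736) (nat_lit 0) (XT.nd (nat_lit 156) (nat_lit 2964) (nat_lit 0) (XT.nd (nat_lit 78) (nat_lit 1824) (nat_lit 0) (XT.lf (nat_lit 0) (nat_lit 11410936350) (nat_lit 1748) (nat_lit 431895993) (nat_lit 76) (nat_lit 651866720) (nat_lit 517) (nat_lit 5) (nat_lit 540) (nat_lit 5) (nat_lit 518) (nat_lit 5) (nat_lit 587) (nat_lit 563) (nat_lit 410)) (XT.lf (nat_lit 0) (nat_lit 351385740) (nat_lit 1824) (nat_lit 6122829684) (nat_lit 76) (nat_lit 6146020628) (nat_lit 493) (nat_lit 5) (nat_lit 517) (nat_lit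 5) (nat_lit 494) (nat_lit 5) (nat_lit 588) (nat_lit 563) (nat_lit 409))) (XT.nd (nat_lit 78) (nat_lit 1140) (nat_lit 0) (XT.lf (nat_lit 0) (nat_lit 815896018) (nat_lit 1824) (nat_lit 980848490) (nat_lit 1900) (nat_lit 10951475979) (nat_lit 469) (nat_lit 5) (nat_lit 493) (nat_lit 5) (nat_lit 494) (nat_lit 5) (nat_lit 589) (nat_lit 563) (nat_lit 408)) (XT.nd (nat_lit 78) (nat_lit 1140) (nat_lit 0) (XT.lf (nat_lit 0) (nat_lit 3330353842) (nat_lit 1900) (nat_lit 4942547412) (nat_lit 76) (nat_lit 4604676841) (nat_lit 469) (nat_lit 5) (nat_lit 494) (nat_lit 5) (nat_lit 470) (nat_lit 5) (nat_lit 590) (nat_lit 563) (nat_lit 407)) (XT.lf (nat_lit 0) (nat_lit 2198864420) (nat_lit 1140) (nat_lit 2704751234) (nat_lit 1216) (nat_lit 8105727941) (nat_lit 454) (nat_lit 5) (nat_lit 469) (nat_lit 5) (nat_lit 470) (nat_lit 5) (nat_lit 591) (nat_lit 563) (nat_lit 406))))) (XT.nd (nat_lit 234) (nat_lit 1824) (nat_lit 0) (XT.nd (nat_lit 78) (nat_lit 912) (nat_lit 0) (XT.lf (nat_lit 0) (nat_lit 6549422913) (nat_lit 1216) (nat_lit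 3623187959) (nat_lit 76) (nat_lit 2970312267) (nat_lit 454) (nat_lit 5) (nat_lit 470) (nat_lit 5) (nat_lit 455) (nat_lit 5) (nat_lit 592) (nat_lit 563) (nat_lit 405)) (XT.nd (nat_lit 78) (nat_lit 0) (nat_lit 0) (XT.lf (nat_lit 0) (nat_lit 3728369231) (nat_lit 912) (nat_lit 4530503585) (nat_lit 988) (nat_lit 5019687261) (nat_lit 442) (nat_lit 5) (nat_lit 454) (nat_lit 5) (nat_lit 455) (nat_lit 5) (nat_lit 593) (nat_lit 563) (nat_lit 404)) (XT.lf (nat_lit 0) (nat_lit 10023704680) (nat_lit 988) (nat_lit 2159091068) (nat_lit 76) (nat_lit 1233690470) (nat_lit 442) (nat_lit 5) (nat_lit 455) (nat_lit 5) (nat_lit 443) (nat_lit 5) (nat_lit 594) (nat_lit 563) (nat_lit 403)))) (XT.nd (nat_lit 78) (nat_lit 912) (nat_lit 0) (XT.lf (nat_lit 0) (nat_lit 5410366191) (nat_lit 912) (nat_lit 6467586768) (nat_lit 988) (nat_lit 1678135848) (nat_lit 430) (nat_lit 5) (nat_lit 442) (nat_lit 5) (nat_lit 443) (nat_lit 5) (nat_lit 595) (nat_lit 563) (nat_lit 402)) (XT.nd (nat_lit 78) (nat_lit 836) (nat_lit 0) (XT.lf (nat_lit 0) (nat_lit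 73523968) (nat_lit 988) (nat_lit 548765862) (nat_lit 76) (nat_lit 13076111734) (nat_lit 429) (nat_lit 5) (nat_lit 442) (nat_lit 5) (nat_lit 430) (nat_lit 5) (nat_lit 596) (nat_lit 563) (nat_lit 401)) (XT.lf (nat_lit 0) (nat_lit 1909335252) (nat_lit 912) (nat_lit 6603540202) (nat_lit 76) (nat_lit 5329031803) (nat_lit 418) (nat_lit 5) (nat_lit 430) (nat_lit 5) (nat_lit 419) (nat_lit 5) (nat_lit 597) (nat_lit 563) (nat_lit 400))))))))
noncomputable def xc144 : XT := (XT.nd (nat_lit 79404) (nat_lit 0) (nat_lit 6004) (XT.nd (nat_lit 78624) (nat_lit 0) (nat_lit 12692) (XT.nd (nat_lit 390) (nat_lit 1596) (nat_lit 0) (XT.nd (nat_lit 156) (nat_lit 1672) (nat_lit 0) (XT.nd (nat_lit 78) (nat_lit 0) (nat_lit 0) (XT.lf (nat_lit 0) (nat_lit 1201649420) (nat_lit 912) (nat_lit 2585269016) (nat_lit 988) (nat_lit 10201263808) (nat_lit 406) (nat_lit 5) (nat_lit 418) (nat_lit 5) (nat_lit 419) (nat_lit 5) (nat_lit 598) (nat_lit 563) (nat_lit 399)) (XT.lf (nat_lit 0) (nat_lit 5758696575) (nat_lit 988) (nat_lit 4917382298) (nat_lit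 76) (nat_lit 3460171282) (nat_lit 406) (nat_lit 5) (nat_lit 419) (nat_lit 5) (nat_lit 407) (nat_lit 5) (nat_lit 599) (nat_lit 563) (nat_lit 398))) (XT.nd (nat_lit 78) (nat_lit 836) (nat_lit 0) (XT.lf (nat_lit 0) (nat_lit 3122613757) (nat_lit 836) (nat_lit 4674462370) (nat_lit 912) (nat_lit 6489660263) (nat_lit 395) (nat_lit 5) (nat_lit 406) (nat_lit 5) (nat_lit 407) (nat_lit 5) (nat_lit 600) (nat_lit 563) (nat_lit 397)) (XT.nd (nat_lit 78) (nat_lit 836) (nat_lit 0) (XT.lf (nat_lit 0) (nat_lit 9908739253) (nat_lit 912) (nat_lit 3069623624) (nat_lit 76) (nat_lit 1461219432) (nat_lit 395) (nat_lit 5) (nat_lit 407) (nat_lit 5) (nat_lit 396) (nat_lit 5) (nat_lit 601) (nat_lit 563) (nat_lit 396)) (XT.lf (nat_lit 0) (nat_lit 5213892983) (nat_lit 836) (nat_lit 6903652523) (nat_lit 912) (nat_lit 2476841713) (nat_lit 384) (nat_lit 5) (nat_lit 395) (nat_lit 5) (nat_lit 396) (nat_lit 5) (nat_lit 602) (nat_lit 563) (nat_lit 395))))) (XT.nd (nat_lit 156) (nat_lit 760) (nat_lit 0) (XT.nd (nat_lit 78) (nat_lit 836) (nat_lit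 0) (XT.lf (nat_lit 0) (nat_lit 13694460400) (nat_lit 836) (nat_lit 686895067) (nat_lit 912) (nat_lit 370716477) (nat_lit 384) (nat_lit 5) (nat_lit 395) (nat_lit 5) (nat_lit 396) (nat_lit 5) (nat_lit 603) (nat_lit 563) (nat_lit 394)) (XT.lf (nat_lit 0) (nat_lit 1830432254) (nat_lit 836) (nat_lit 7440498031) (nat_lit 76) (nat_lit 5640225245) (nat_lit 373) (nat_lit 5) (nat_lit 384) (nat_lit 5) (nat_lit 374) (nat_lit 5) (nat_lit 604) (nat_lit 563) (nat_lit 393))) (XT.nd (nat_lit 78) (nat_lit 0) (nat_lit 0) (XT.lf (nat_lit 0) (nat_lit 1107749524) (nat_lit 760) (nat_lit 2972257087) (nat_lit 836) (nat_lit 10993178087) (nat_lit 363) (nat_lit 5) (nat_lit 373) (nat_lit 5) (nat_lit 374) (nat_lit 5) (nat_lit 605) (nat_lit 563) (nat_lit 392)) (XT.nd (nat_lit 77922) (nat_lit 0) (nat_lit 14364) (XT.lf (nat_lit 0) (nat_lit 6437839744) (nat_lit 836) (nat_lit 5342774281) (nat_lit 76) (nat_lit 3456575327) (nat_lit 363) (nat_lit 5) (nat_lit 374) (nat_lit 5) (nat_lit 364) (nat_lit 5) (nat_lit 606) (nat_lit 563) (nat_lit 391))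 (XT.lf (nat_lit 0) (nat_lit 2278759665) (nat_lit 0) (nat_lit 2278759665) (nat_lit 1596) (nat_lit 527667672) (nat_lit 552) (nat_lit 5) (nat_lit 552) (nat_lit 3) (nat_lit 573) (nat_lit 3) (nat_lit 564) (nat_lit 564) (nat_lit 432)))))) (XT.nd (nat_lit 390) (nat_lit 0) (nat_lit 152) (XT.nd (nat_lit 156) (nat_lit 0) (nat_lit 0) (XT.nd (nat_lit 78) (nat_lit 1672) (nat_lit 0) (XT.lf (nat_lit 0) (nat_lit 9715761840) (nat_lit 0) (nat_lit 171865144) (nat_lit 1596) (nat_lit 370799533) (nat_lit 552) (nat_lit 5) (nat_lit 552) (nat_lit 3) (nat_lit 573) (nat_lit 3) (nat_lit 565) (nat_lit 564) (nat_lit 431)) (XT.lf (nat_lit 0) (nat_lit 363719247) (nat_lit 1672) (nat_lit 5697158942) (nat_lit 1748) (nat_lit 4286508218) (nat_lit 530) (nat_lit 5) (nat_lit 552) (nat_lit 5) (nat_lit 553) (nat_lit 5) (nat_lit 566) (nat_lit 564) (nat_lit 430))) (XT.nd (nat_lit 78) (nat_lit 0) (nat_lit 76) (XT.lf (nat_lit 0) (nat_lit 1095127930) (nat_lit 1672) (nat_lit 496863966) (nat_lit 1748) (nat_lit 8846341854) (nat_lit 530) (nat_lit 5) (nat_lit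 552) (nat_lit 5) (nat_lit 553) (nat_lit 5) (nat_lit 567) (nat_lit 564) (nat_lit 429)) (XT.nd (nat_lit 78) (nat_lit 0) (nat_lit 0) (XT.lf (nat_lit 0) (nat_lit 1874952928) (nat_lit 1672) (nat_lit 5688473857) (nat_lit 1748) (nat_lit 2966998049) (nat_lit 531) (nat_lit 5) (nat_lit 553) (nat_lit 5) (nat_lit 554) (nat_lit 5) (nat_lit 568) (nat_lit 564) (nat_lit 428)) (XT.lf (nat_lit 0) (nat_lit 2667304900) (nat_lit 1672) (nat_lit 350248516) (nat_lit 1748) (nat_lit 7606866257) (nat_lit 531) (nat_lit 5) (nat_lit 553) (nat_lit 5) (nat_lit 554) (nat_lit 5) (nat_lit 569) (nat_lit 564) (nat_lit 427))))) (XT.nd (nat_lit 156) (nat_lit 0) (nat_lit 76) (XT.nd (nat_lit 78) (nat_lit 0) (nat_lit 0) (XT.lf (nat_lit 0) (nat_lit 3503104666) (nat_lit 1672) (nat_lit 5577898091) (nat_lit 1748) (nat_lit 1638740172) (nat_lit 532) (nat_lit 5) (nat_lit 554) (nat_lit 5) (nat_lit 555) (nat_lit 5) (nat_lit 570) (nat_lit 564) (nat_lit 426)) (XT.lf (nat_lit 0) (nat_lit 4361644243) (nat_lit 1672) (nat_lit 98188082) (nat_lit 1748) (nat_lit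 6357020373) (nat_lit 532) (nat_lit 5) (nat_lit 554) (nat_lit 5) (nat_lit 555) (nat_lit 5) (nat_lit 571) (nat_lit 564) (nat_lit 425))) (XT.nd (nat_lit 78) (nat_lit 0) (nat_lit 0) (XT.lf (nat_lit 0) (nat_lit 5259339451) (nat_lit 1672) (nat_lit 5363068314) (nat_lit 1748) (nat_lit 293057712) (nat_lit 533) (nat_lit 5) (nat_lit 555) (nat_lit 5) (nat_lit 556) (nat_lit 5) (nat_lit 572) (nat_lit 564) (nat_lit 424)) (XT.nd (nat_lit 78) (nat_lit 0) (nat_lit 0) (XT.lf (nat_lit 76) (nat_lit 265336329) (nat_lit 0) (nat_lit 5925860059) (nat_lit 1748) (nat_lit 4824530470) (nat_lit 534) (nat_lit 5) (nat_lit 533) (nat_lit 5) (nat_lit 556) (nat_lit 5) (nat_lit 573) (nat_lit 564) (nat_lit 423)) (XT.lf (nat_lit 76) (nat_lit 6069180272) (nat_lit 0) (nat_lit 1093030026) (nat_lit 1748) (nat_lit 3955373266) (nat_lit 534) (nat_lit 5) (nat_lit 533) (nat_lit 5) (nat_lit 556) (nat_lit 5) (nat_lit 574) (nat_lit 564) (nat_lit 422))))))) (XT.nd (nat_lit 780) (nat_lit 5396) (nat_lit 0) (XT.nd (nat_lit 390) (nat_lit 0) (nat_lit 0) (XT.nd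 (nat_lit 156) (nat_lit 1596) (nat_lit 0) (XT.nd (nat_lit 78) (nat_lit 0) (nat_lit 0) (XT.lf (nat_lit 76) (nat_lit 742478977) (nat_lit 0) (nat_lit 7424765051) (nat_lit 1748) (nat_lit 3053941869) (nat_lit 535) (nat_lit 5) (nat_lit 534) (nat_lit 5) (nat_lit 557) (nat_lit 5) (nat_lit 575) (nat_lit 564) (nat_lit 421)) (XT.lf (nat_lit 76) (nat_lit 6700368502) (nat_lit 0) (nat_lit 2518180753) (nat_lit 1748) (nat_lit 2107788078) (nat_lit 535) (nat_lit 5) (nat_lit 534) (nat_lit 5) (nat_lit 557) (nat_lit 5) (nat_lit 576) (nat_lit 564) (nat_lit 420))) (XT.nd (nat_lit 78) (nat_lit 1672) (nat_lit 0) (XT.lf (nat_lit 76) (nat_lit 1335152466) (nat_lit 0) (nat_lit 8965967316) (nat_lit 1748) (nat_lit 1132267699) (nat_lit 536) (nat_lit 5) (nat_lit 535) (nat_lit 5) (nat_lit 558) (nat_lit 5) (nat_lit 577) (nat_lit 564) (nat_lit 419)) (XT.nd (nat_lit 78) (nat_lit 1672) (nat_lit 0) (XT.lf (nat_lit 76) (nat_lit 7451332058) (nat_lit 0) (nat_lit 3987266602) (nat_lit 1748) (nat_lit 103315288) (nat_lit 536) (nat_lit 5) (nat_lit 535)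 (nat_lit 5) (nat_lit 558) (nat_lit 5) (nat_lit 578) (nat_lit 564) (nat_lit 418)) (XT.lf (nat_lit 0) (nat_lit 940177823) (nat_lit 1748) (nat_lit 9611770228) (nat_lit 1824) (nat_lit 1100413031) (nat_lit 513) (nat_lit 5) (nat_lit 536) (nat_lit 5) (nat_lit 537) (nat_lit 5) (nat_lit 579) (nat_lit 564) (nat_lit 417))))) (XT.nd (nat_lit 156) (nat_lit 0) (nat_lit 76) (XT.nd (nat_lit 78) (nat_lit 0) (nat_lit 0) (XT.lf (nat_lit 0) (nat_lit 2043271034) (nat_lit 1748) (nat_lit 3452109324) (nat_lit 1824) (nat_lit 6268821302) (nat_lit 513) (nat_lit 5) (nat_lit 536) (nat_lit 5) (nat_lit 537) (nat_lit 5) (nat_lit 580) (nat_lit 564) (nat_lit 416)) (XT.lf (nat_lit 76) (nat_lit 2858225650) (nat_lit 0) (nat_lit 315105847) (nat_lit 1824) (nat_lit 8704849864) (nat_lit 514) (nat_lit 5) (nat_lit 513) (nat_lit 5) (nat_lit 537) (nat_lit 5) (nat_lit 581) (nat_lit 564) (nat_lit 415))) (XT.nd (nat_lit 78) (nat_lit 0) (nat_lit 0) (XT.lf (nat_lit 0) (nat_lit 4368146466) (nat_lit 1748) (nat_lit 2695061408) (nat_lit 1824) (nat_lit 4930390129)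 (nat_lit 514) (nat_lit 5) (nat_lit 537) (nat_lit 5) (nat_lit 538) (nat_lit 5) (nat_lit 582) (nat_lit 564) (nat_lit 414)) (XT.nd (nat_lit 78) (nat_lit 0) (nat_lit 76) (XT.lf (nat_lit 76) (nat_lit 3793971582) (nat_lit 0) (nat_lit 1806443017) (nat_lit 1824) (nat_lit 6510637647) (nat_lit 515) (nat_lit 5) (nat_lit 514) (nat_lit 5) (nat_lit 538) (nat_lit 5) (nat_lit 583) (nat_lit 564) (nat_lit 413)) (XT.lf (nat_lit 0) (nat_lit 6885667526) (nat_lit 1748) (nat_lit 1814624850) (nat_lit 1824) (nat_lit 3529996805) (nat_lit 515) (nat_lit 5) (nat_lit 538) (nat_lit 5) (nat_lit 539) (nat_lit 5) (nat_lit 584) (nat_lit 564) (nat_lit 412)))))) (XT.nd (nat_lit 390) (nat_lit 3876) (nat_lit 0) (XT.nd (nat_lit 156) (nat_lit 1672) (nat_lit 0) (XT.nd (nat_lit 78) (nat_lit 0) (nat_lit 76) (XT.lf (nat_lit 76) (nat_lit 4859608060) (nat_lit 0) (nat_lit 3367836366) (nat_lit 1824) (nat_lit 4123850439) (nat_lit 516) (nat_lit 5) (nat_lit 515) (nat_lit 5) (nat_lit 539) (nat_lit 5) (nat_lit 585) (nat_lit 564) (nat_lit 411)) (XT.lf (nat_lit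 0) (nat_lit 9609267183) (nat_lit 1748) (nat_lit 806326926) (nat_lit 1824) (nat_lit 2058862730) (nat_lit 516) (nat_lit 5) (nat_lit 539) (nat_lit 5) (nat_lit 540) (nat_lit 5) (nat_lit 586) (nat_lit 564) (nat_lit 410))) (XT.nd (nat_lit 78) (nat_lit 1748) (nat_lit 0) (XT.lf (nat_lit 76) (nat_lit 6059869291) (nat_lit 0) (nat_lit 5008254890) (nat_lit 1824) (nat_lit 1530970289) (nat_lit 517) (nat_lit 5) (nat_lit 516) (nat_lit 5) (nat_lit 540) (nat_lit 5) (nat_lit 587) (nat_lit 564) (nat_lit 409)) (XT.nd (nat_lit 78) (nat_lit 76) (nat_lit 0) (XT.lf (nat_lit 0) (nat_lit 339087860) (nat_lit 1748) (nat_lit 12215950624) (nat_lit 1824) (nat_lit 171209133) (nat_lit 494) (nat_lit 5) (nat_lit 517) (nat_lit 5) (nat_lit 518) (nat_lit 5) (nat_lit 588) (nat_lit 564) (nat_lit 408)) (XT.lf (nat_lit 0) (nat_lit 1265171984) (nat_lit 1824) (nat_lit 5463134508) (nat_lit 76) (nat_lit 6126172427) (nat_lit 493) (nat_lit 5) (nat_lit 517) (nat_lit 5) (nat_lit 494) (nat_lit 5) (nat_lit 589) (nat_lit 564) (nat_lit 407))))) (XT.nd (nat_lit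 156) (nat_lit 2052) (nat_lit 0) (XT.nd (nat_lit 78) (nat_lit 0) (nat_lit 0) (XT.lf (nat_lit 0) (nat_lit 1609219973) (nat_lit 1824) (nat_lit 1117483214) (nat_lit 1900) (nat_lit 10258575074) (nat_lit 469) (nat_lit 5) (nat_lit 493) (nat_lit 5) (nat_lit 494) (nat_lit 5) (nat_lit 590) (nat_lit 564) (nat_lit 406)) (XT.lf (nat_lit 0) (nat_lit 4272709970) (nat_lit 1900) (nat_lit 4261327353) (nat_lit 76) (nat_lit 4583551706) (nat_lit 469) (nat_lit 5) (nat_lit 494) (nat_lit 5) (nat_lit 470) (nat_lit 5) (nat_lit 591) (nat_lit 564) (nat_lit 405))) (XT.nd (nat_lit 78) (nat_lit 912) (nat_lit 0) (XT.lf (nat_lit 0) (nat_lit 3017780669) (nat_lit 1140) (nat_lit 2847516217) (nat_lit 1216) (nat_lit 7386936259) (nat_lit 454) (nat_lit 5) (nat_lit 469) (nat_lit 5) (nat_lit 470) (nat_lit 5) (nat_lit 592) (nat_lit 564) (nat_lit 404)) (XT.nd (nat_lit 78) (nat_lit 912) (nat_lit 0) (XT.lf (nat_lit 0) (nat_lit 7526522366) (nat_lit 1216) (nat_lit 2918385064) (nat_lit 76) (nat_lit 2943927301) (nat_lit 454) (nat_lit 5) (nat_lit 470) (nat_lit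 5) (nat_lit 455) (nat_lit 5) (nat_lit 593) (nat_lit 564) (nat_lit 403)) (XT.lf (nat_lit 0) (nat_lit 4575089673) (nat_lit 912) (nat_lit 4683494512) (nat_lit 988) (nat_lit 4268832247) (nat_lit 442) (nat_lit 5) (nat_lit 454) (nat_lit 5) (nat_lit 455) (nat_lit 5) (nat_lit 594) (nat_lit 564) (nat_lit 402))))))))
noncomputable def xc145 : XT := (XT.nd (nat_lit 79482) (nat_lit 0) (nat_lit 6916) (XT.nd (nat_lit 780) (nat_lit 1520) (nat_lit 0) (XT.nd (nat_lit 390) (nat_lit 1748) (nat_lit 0) (XT.nd (nat_lit 156) (nat_lit 1824) (nat_lit 0) (XT.nd (nat_lit 78) (nat_lit 912) (nat_lit 0) (XT.lf (nat_lit 0) (nat_lit 11041952200) (nat_lit 988) (nat_lit 1428475908) (nat_lit 76) (nat_lit 1198008673) (nat_lit 442) (nat_lit 5) (nat_lit 455) (nat_lit 5) (nat_lit 443) (nat_lit 5) (nat_lit 595) (nat_lit 564) (nat_lit 401)) (XT.lf (nat_lit 0) (nat_lit 6287279727) (nat_lit 912) (nat_lit 6634961894) (nat_lit 988) (nat_lit 888811140) (nat_lit 430) (nat_lit 5) (nat_lit 442) (nat_lit 5) (nat_lit 443) (nat_lit 5) (nat_lit 596) (nat_lit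 564) (nat_lit 400))) (XT.nd (nat_lit 78) (nat_lit 912) (nat_lit 0) (XT.lf (nat_lit 0) (nat_lit 207213027) (nat_lit 836) (nat_lit 665298459) (nat_lit 912) (nat_lit 13083885441) (nat_lit 418) (nat_lit 5) (nat_lit 429) (nat_lit 5) (nat_lit 430) (nat_lit 5) (nat_lit 597) (nat_lit 564) (nat_lit 399)) (XT.nd (nat_lit 78) (nat_lit 912) (nat_lit 0) (XT.lf (nat_lit 0) (nat_lit 2732841075) (nat_lit 912) (nat_lit 5960499989) (nat_lit 76) (nat_lit 5409676066) (nat_lit 418) (nat_lit 5) (nat_lit 430) (nat_lit 5) (nat_lit 419) (nat_lit 5) (nat_lit 598) (nat_lit 564) (nat_lit 398)) (XT.lf (nat_lit 0) (nat_lit 1995694012) (nat_lit 912) (nat_lit 2641882924) (nat_lit 988) (nat_lit 9614849091) (nat_lit 406) (nat_lit 5) (nat_lit 418) (nat_lit 5) (nat_lit 419) (nat_lit 5) (nat_lit 599) (nat_lit 564) (nat_lit 397))))) (XT.nd (nat_lit 156) (nat_lit 912) (nat_lit 0) (XT.nd (nat_lit 78) (nat_lit 836) (nat_lit 0) (XT.lf (nat_lit 0) (nat_lit 6633564879) (nat_lit 988) (nat_lit 4245569812) (nat_lit 76) (nat_lit 3524625540) (nat_lit 406)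 (nat_lit 5) (nat_lit 419) (nat_lit 5) (nat_lit 407) (nat_lit 5) (nat_lit 600) (nat_lit 564) (nat_lit 396)) (XT.lf (nat_lit 0) (nat_lit 3950159322) (nat_lit 836) (nat_lit 4752624226) (nat_lit 912) (nat_lit 5854671625) (nat_lit 395) (nat_lit 5) (nat_lit 406) (nat_lit 5) (nat_lit 407) (nat_lit 5) (nat_lit 601) (nat_lit 564) (nat_lit 395))) (XT.nd (nat_lit 78) (nat_lit 912) (nat_lit 0) (XT.lf (nat_lit 0) (nat_lit 10842076209) (nat_lit 912) (nat_lit 2366300686) (nat_lit 76) (nat_lit 1505273595) (nat_lit 395) (nat_lit 5) (nat_lit 407) (nat_lit 5) (nat_lit 396) (nat_lit 5) (nat_lit 602) (nat_lit 564) (nat_lit 394)) (XT.nd (nat_lit 78) (nat_lit 76) (nat_lit 0) (XT.lf (nat_lit 0) (nat_lit 6077855231) (nat_lit 836) (nat_lit 7007720786) (nat_lit 912) (nat_lit 1786165529) (nat_lit 384) (nat_lit 5) (nat_lit 395) (nat_lit 5) (nat_lit 396) (nat_lit 5) (nat_lit 603) (nat_lit 564) (nat_lit 393)) (XT.lf (nat_lit 0) (nat_lit 343009810) (nat_lit 912) (nat_lit 321983355) (nat_lit 76) (nat_lit 14367826637) (nat_lit 383) (nat_lit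 5) (nat_lit 395) (nat_lit 5) (nat_lit 384) (nat_lit 5) (nat_lit 604) (nat_lit 564) (nat_lit 392)))))) (XT.nd (nat_lit 78312) (nat_lit 0) (nat_lit 12692) (XT.nd (nat_lit 78078) (nat_lit 0) (nat_lit 12616) (XT.nd (nat_lit 78) (nat_lit 760) (nat_lit 0) (XT.lf (nat_lit 0) (nat_lit 2574319872) (nat_lit 836) (nat_lit 6826061573) (nat_lit 76) (nat_lit 5794832933) (nat_lit 373) (nat_lit 5) (nat_lit 384) (nat_lit 5) (nat_lit 374) (nat_lit 5) (nat_lit 605) (nat_lit 564) (nat_lit 391)) (XT.lf (nat_lit 0) (nat_lit 1888129576) (nat_lit 760) (nat_lit 2971810826) (nat_lit 836) (nat_lit 10500723002) (nat_lit 363) (nat_lit 5) (nat_lit 373) (nat_lit 5) (nat_lit 374) (nat_lit 5) (nat_lit 606) (nat_lit 564) (nat_lit 390))) (XT.nd (nat_lit 78) (nat_lit 0) (nat_lit 0) (XT.lf (nat_lit 0) (nat_lit 150356994) (nat_lit 1748) (nat_lit 2511475684) (nat_lit 1748) (nat_lit 2511475684) (nat_lit 529) (nat_lit 3) (nat_lit 552) (nat_lit 3) (nat_lit 552) (nat_lit 5) (nat_lit 565) (nat_lit 565) (nat_lit 430)) (XT.nd (nat_lit 78) (nat_lit 0)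 (nat_lit 76) (XT.lf (nat_lit 76) (nat_lit 132212256) (nat_lit 0) (nat_lit 831703062) (nat_lit 1748) (nat_lit 9472942514) (nat_lit 530) (nat_lit 5) (nat_lit 529) (nat_lit 3) (nat_lit 552) (nat_lit 5) (nat_lit 566) (nat_lit 565) (nat_lit 429)) (XT.lf (nat_lit 0) (nat_lit 1681360662) (nat_lit 1672) (nat_lit 5103574393) (nat_lit 1748) (nat_lit 3743149662) (nat_lit 530) (nat_lit 5) (nat_lit 552) (nat_lit 5) (nat_lit 553) (nat_lit 5) (nat_lit 567) (nat_lit 565) (nat_lit 428))))) (XT.nd (nat_lit 156) (nat_lit 0) (nat_lit 76) (XT.nd (nat_lit 78) (nat_lit 0) (nat_lit 76) (XT.lf (nat_lit 76) (nat_lit 189336571) (nat_lit 0) (nat_lit 2213596775) (nat_lit 1748) (nat_lit 8218407771) (nat_lit 531) (nat_lit 5) (nat_lit 530) (nat_lit 5) (nat_lit 553) (nat_lit 5) (nat_lit 568) (nat_lit 565) (nat_lit 427)) (XT.lf (nat_lit 0) (nat_lit 3172677489) (nat_lit 1672) (nat_lit 5084100199) (nat_lit 1748) (nat_lit 2459010690) (nat_lit 531) (nat_lit 5) (nat_lit 553) (nat_lit 5) (nat_lit 554) (nat_lit 5) (nat_lit 569) (nat_lit 565) (nat_lit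 426))) (XT.nd (nat_lit 78) (nat_lit 0) (nat_lit 76) (XT.lf (nat_lit 76) (nat_lit 351417311) (nat_lit 0) (nat_lit 3607030519) (nat_lit 1748) (nat_lit 6853664651) (nat_lit 532) (nat_lit 5) (nat_lit 531) (nat_lit 5) (nat_lit 554) (nat_lit 5) (nat_lit 570) (nat_lit 565) (nat_lit 425)) (XT.nd (nat_lit 78) (nat_lit 0) (nat_lit 0) (XT.lf (nat_lit 0) (nat_lit 4785644517) (nat_lit 1672) (nat_lit 4962317843) (nat_lit 1748) (nat_lit 1161887001) (nat_lit 532) (nat_lit 5) (nat_lit 554) (nat_lit 5) (nat_lit 555) (nat_lit 5) (nat_lit 571) (nat_lit 565) (nat_lit 424)) (XT.lf (nat_lit 76) (nat_lit 620871596) (nat_lit 0) (nat_lit 5020740324) (nat_lit 1748) (nat_lit 5367685024) (nat_lit 533) (nat_lit 5) (nat_lit 532) (nat_lit 5) (nat_lit 555) (nat_lit 5) (nat_lit 572) (nat_lit 565) (nat_lit 423))))))) (XT.nd (nat_lit 780) (nat_lit 4408) (nat_lit 0) (XT.nd (nat_lit 390) (nat_lit 1520) (nat_lit 0) (XT.nd (nat_lit 156) (nat_lit 0) (nat_lit 76) (XT.nd (nat_lit 78) (nat_lit 0) (nat_lit 76) (XT.lf (nat_lit 76) (nat_lit 6373641604)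 (nat_lit 0) (nat_lit 158911875) (nat_lit 1748) (nat_lit 4577823399) (nat_lit 533) (nat_lit 5) (nat_lit 532) (nat_lit 5) (nat_lit 555) (nat_lit 5) (nat_lit 573) (nat_lit 565) (nat_lit 422)) (XT.lf (nat_lit 76) (nat_lit 1000436155) (nat_lit 0) (nat_lit 6463435676) (nat_lit 1748) (nat_lit 3749155904) (nat_lit 534) (nat_lit 5) (nat_lit 533) (nat_lit 5) (nat_lit 556) (nat_lit 5) (nat_lit 574) (nat_lit 565) (nat_lit 421))) (XT.nd (nat_lit 78) (nat_lit 0) (nat_lit 76) (XT.lf (nat_lit 76) (nat_lit 6906047308) (nat_lit 0) (nat_lit 1525732211) (nat_lit 1748) (nat_lit 2885593305) (nat_lit 534) (nat_lit 5) (nat_lit 533) (nat_lit 5) (nat_lit 556) (nat_lit 5) (nat_lit 575) (nat_lit 565) (nat_lit 420)) (XT.nd (nat_lit 78) (nat_lit 0) (nat_lit 0) (XT.lf (nat_lit 76) (nat_lit 1493168742) (nat_lit 0) (nat_lit 7943822787) (nat_lit 1748) (nat_lit 1986454826) (nat_lit 535) (nat_lit 5) (nat_lit 534) (nat_lit 5) (nat_lit 557) (nat_lit 5) (nat_lit 576) (nat_lit 565) (nat_lit 419)) (XT.lf (nat_lit 76) (nat_lit 7555787819) (nat_lit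 0) (nat_lit 2931840873) (nat_lit 1748) (nat_lit 1043506702) (nat_lit 535) (nat_lit 5) (nat_lit 534) (nat_lit 5) (nat_lit 557) (nat_lit 5) (nat_lit 577) (nat_lit 565) (nat_lit 418))))) (XT.nd (nat_lit 156) (nat_lit 0) (nat_lit 76) (XT.nd (nat_lit 78) (nat_lit 1748) (nat_lit 0) (XT.lf (nat_lit 76) (nat_lit 2102450308) (nat_lit 0) (nat_lit 9470627448) (nat_lit 1748) (nat_lit 67624922) (nat_lit 536) (nat_lit 5) (nat_lit 535) (nat_lit 5) (nat_lit 558) (nat_lit 5) (nat_lit 578) (nat_lit 565) (nat_lit 417)) (XT.lf (nat_lit 0) (nat_lit 947988888) (nat_lit 1748) (nat_lit 3431623095) (nat_lit 1824) (nat_lit 7372081633) (nat_lit 512) (nat_lit 5) (nat_lit 535) (nat_lit 5) (nat_lit 536) (nat_lit 5) (nat_lit 579) (nat_lit 565) (nat_lit 416))) (XT.nd (nat_lit 78) (nat_lit 0) (nat_lit 0) (XT.lf (nat_lit 0) (nat_lit 1993162303) (nat_lit 1748) (nat_lit 9046080058) (nat_lit 1824) (nat_lit 825450436) (nat_lit 513) (nat_lit 5) (nat_lit 536) (nat_lit 5) (nat_lit 537) (nat_lit 5) (nat_lit 580) (nat_lit 565) (nat_lit 415)) (XT.nd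 (nat_lit 78) (nat_lit 0) (nat_lit 0) (XT.lf (nat_lit 0) (nat_lit 3098039320) (nat_lit 1748) (nat_lit 2778087221) (nat_lit 1824) (nat_lit 6103049831) (nat_lit 513) (nat_lit 5) (nat_lit 536) (nat_lit 5) (nat_lit 537) (nat_lit 5) (nat_lit 581) (nat_lit 565) (nat_lit 414)) (XT.lf (nat_lit 76) (nat_lit 3653565872) (nat_lit 0) (nat_lit 582047399) (nat_lit 1824) (nat_lit 7860124764) (nat_lit 514) (nat_lit 5) (nat_lit 513) (nat_lit 5) (nat_lit 537) (nat_lit 5) (nat_lit 582) (nat_lit 565) (nat_lit 413)))))) (XT.nd (nat_lit 390) (nat_lit 4560) (nat_lit 0) (XT.nd (nat_lit 156) (nat_lit 0) (nat_lit 76) (XT.nd (nat_lit 78) (nat_lit 0) (nat_lit 0) (XT.lf (nat_lit 0) (nat_lit 5433080865) (nat_lit 1748) (nat_lit 2003987239) (nat_lit 1824) (nat_lit 4776820380) (nat_lit 514) (nat_lit 5) (nat_lit 537) (nat_lit 5) (nat_lit 538) (nat_lit 5) (nat_lit 583) (nat_lit 565) (nat_lit 412)) (XT.lf (nat_lit 76) (nat_lit 4609925257) (nat_lit 0) (nat_lit 2065706088) (nat_lit 1824) (nat_lit 5658348316) (nat_lit 515) (nat_lit 5) (nat_lit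 514) (nat_lit 5) (nat_lit 538) (nat_lit 5) (nat_lit 584) (nat_lit 565) (nat_lit 411))) (XT.nd (nat_lit 78) (nat_lit 0) (nat_lit 0) (XT.lf (nat_lit 0) (nat_lit 7966282563) (nat_lit 1748) (nat_lit 1105018711) (nat_lit 1824) (nat_lit 3384706774) (nat_lit 515) (nat_lit 5) (nat_lit 538) (nat_lit 5) (nat_lit 539) (nat_lit 5) (nat_lit 585) (nat_lit 565) (nat_lit 410)) (XT.nd (nat_lit 78) (nat_lit 0) (nat_lit 76) (XT.lf (nat_lit 76) (nat_lit 5697791629) (nat_lit 0) (nat_lit 3623426111) (nat_lit 1824) (nat_lit 3258490218) (nat_lit 516) (nat_lit 5) (nat_lit 515) (nat_lit 5) (nat_lit 539) (nat_lit 5) (nat_lit 586) (nat_lit 565) (nat_lit 409)) (XT.lf (nat_lit 0) (nat_lit 10711258695) (nat_lit 1748) (nat_lit 76545282) (nat_lit 1824) (nat_lit 1917918115) (nat_lit 516) (nat_lit 5) (nat_lit 539) (nat_lit 5) (nat_lit 540) (nat_lit 5) (nat_lit 587) (nat_lit 565) (nat_lit 408))))) (XT.nd (nat_lit 234) (nat_lit 2964) (nat_lit 0) (XT.nd (nat_lit 78) (nat_lit 1748) (nat_lit 0) (XT.lf (nat_lit 76) (nat_lit 6922067568) (nat_lit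 0) (nat_lit 5264196997) (nat_lit 1824) (nat_lit 646849018) (nat_lit 517) (nat_lit 5) (nat_lit 516) (nat_lit 5) (nat_lit 540) (nat_lit 5) (nat_lit 588) (nat_lit 565) (nat_lit 407)) (XT.nd (nat_lit 78) (nat_lit 0) (nat_lit 0) (XT.lf (nat_lit 0) (nat_lit 716635981) (nat_lit 1824) (nat_lit 11866953656) (nat_lit 76) (nat_lit 379399869) (nat_lit 493) (nat_lit 5) (nat_lit 517) (nat_lit 5) (nat_lit 494) (nat_lit 5) (nat_lit 589) (nat_lit 565) (nat_lit 406)) (XT.lf (nat_lit 0) (nat_lit 2162023414) (nat_lit 1824) (nat_lit 4820617335) (nat_lit 76) (nat_lit 6111471142) (nat_lit 493) (nat_lit 5) (nat_lit 517) (nat_lit 5) (nat_lit 494) (nat_lit 5) (nat_lit 590) (nat_lit 565) (nat_lit 405)))) (XT.nd (nat_lit 78) (nat_lit 1140) (nat_lit 0) (XT.lf (nat_lit 0) (nat_lit 2388238315) (nat_lit 1824) (nat_lit 1252306691) (nat_lit 1900) (nat_lit 9587227521) (nat_lit 469) (nat_lit 5) (nat_lit 493) (nat_lit 5) (nat_lit 494) (nat_lit 5) (nat_lit 591) (nat_lit 565) (nat_lit 404)) (XT.nd (nat_lit 78) (nat_lit 1140) (nat_lit 0) (XT.lf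 (nat_lit 0) (nat_lit 5199906817) (nat_lit 1900) (nat_lit 3596774002) (nat_lit 76) (nat_lit 4566400488) (nat_lit 469) (nat_lit 5) (nat_lit 494) (nat_lit 5) (nat_lit 470) (nat_lit 5) (nat_lit 592) (nat_lit 565) (nat_lit 403)) (XT.lf (nat_lit 0) (nat_lit 3822983419) (nat_lit 1140) (nat_lit 2989693337) (nat_lit 1216) (nat_lit 6687975406) (nat_lit 454) (nat_lit 5) (nat_lit 469) (nat_lit 5) (nat_lit 470) (nat_lit 5) (nat_lit 593) (nat_lit 565) (nat_lit 402))))))))
noncomputable def xc146 : XT := (XT.nd (nat_lit 79326) (nat_lit 0) (nat_lit 25688) (XT.nd (nat_lit 780) (nat_lit 18316) (nat_lit 0) (XT.nd (nat_lit 390) (nat_lit 1748) (nat_lit 0) (XT.nd (nat_lit 156) (nat_lit 1824) (nat_lit 0) (XT.nd (nat_lit 78) (nat_lit 912) (nat_lit 0) (XT.lf (nat_lit 0) (nat_lit 8490308287) (nat_lit 1216) (nat_lit 2229668323) (nat_lit 76) (nat_lit 2920346014) (nat_lit 454) (nat_lit 5) (nat_lit 470) (nat_lit 5) (nat_lit 455) (nat_lit 5) (nat_lit 594) (nat_lit 565) (nat_lit 401)) (XT.lf (nat_lit 0) (nat_lit 5408760880) (nat_lit 912)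 (nat_lit 4837122932) (nat_lit 988) (nat_lit 3536015160) (nat_lit 442) (nat_lit 5) (nat_lit 454) (nat_lit 5) (nat_lit 455) (nat_lit 5) (nat_lit 595) (nat_lit 565) (nat_lit 400))) (XT.nd (nat_lit 78) (nat_lit 1824) (nat_lit 0) (XT.lf (nat_lit 0) (nat_lit 12048809532) (nat_lit 988) (nat_lit 713295924) (nat_lit 76) (nat_lit 1163956922) (nat_lit 442) (nat_lit 5) (nat_lit 455) (nat_lit 5) (nat_lit 443) (nat_lit 5) (nat_lit 596) (nat_lit 565) (nat_lit 399)) (XT.nd (nat_lit 78) (nat_lit 912) (nat_lit 0) (XT.lf (nat_lit 0) (nat_lit 7151881735) (nat_lit 912) (nat_lit 6804208029) (nat_lit 988) (nat_lit 115653660) (nat_lit 430) (nat_lit 5) (nat_lit 442) (nat_lit 5) (nat_lit 443) (nat_lit 5) (nat_lit 597) (nat_lit 565) (nat_lit 398)) (XT.lf (nat_lit 0) (nat_lit 955679542) (nat_lit 836) (nat_lit 704370167) (nat_lit 912) (nat_lit 12560051937) (nat_lit 418) (nat_lit 5) (nat_lit 429) (nat_lit 5) (nat_lit 430) (nat_lit 5) (nat_lit 598) (nat_lit 565) (nat_lit 397))))) (XT.nd (nat_lit 156) (nat_lit 836) (nat_lit 0) (XT.nd (nat_lit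 78) (nat_lit 912) (nat_lit 0) (XT.lf (nat_lit 0) (nat_lit 3542322116) (nat_lit 912) (nat_lit 5334697476) (nat_lit 76) (nat_lit 5492940356) (nat_lit 418) (nat_lit 5) (nat_lit 430) (nat_lit 5) (nat_lit 419) (nat_lit 5) (nat_lit 599) (nat_lit 565) (nat_lit 396)) (XT.lf (nat_lit 0) (nat_lit 2775719006) (nat_lit 912) (nat_lit 2699438505) (nat_lit 988) (nat_lit 9047399828) (nat_lit 406) (nat_lit 5) (nat_lit 418) (nat_lit 5) (nat_lit 419) (nat_lit 5) (nat_lit 600) (nat_lit 565) (nat_lit 395))) (XT.nd (nat_lit 78) (nat_lit 836) (nat_lit 0) (XT.lf (nat_lit 0) (nat_lit 7496430692) (nat_lit 988) (nat_lit 3590227332) (nat_lit 76) (nat_lit 3590553300) (nat_lit 406) (nat_lit 5) (nat_lit 419) (nat_lit 5) (nat_lit 407) (nat_lit 5) (nat_lit 601) (nat_lit 565) (nat_lit 394)) (XT.nd (nat_lit 78) (nat_lit 0) (nat_lit 0) (XT.lf (nat_lit 0) (nat_lit 4764546293) (nat_lit 836) (nat_lit 4832944500) (nat_lit 912) (nat_lit 5236680626) (nat_lit 395) (nat_lit 5) (nat_lit 406) (nat_lit 5) (nat_lit 407) (nat_lit 5) (nat_lit 602) (nat_lit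 565) (nat_lit 393)) (XT.lf (nat_lit 0) (nat_lit 11765532660) (nat_lit 912) (nat_lit 1678606120) (nat_lit 76) (nat_lit 1549632983) (nat_lit 395) (nat_lit 5) (nat_lit 407) (nat_lit 5) (nat_lit 396) (nat_lit 5) (nat_lit 603) (nat_lit 565) (nat_lit 392)))))) (XT.nd (nat_lit 4056) (nat_lit 380) (nat_lit 0) (XT.nd (nat_lit 3822) (nat_lit 16264) (nat_lit 0) (XT.nd (nat_lit 78) (nat_lit 836) (nat_lit 0) (XT.lf (nat_lit 0) (nat_lit 6929597253) (nat_lit 836) (nat_lit 7115190862) (nat_lit 912) (nat_lit 1110419194) (nat_lit 384) (nat_lit 5) (nat_lit 395) (nat_lit 5) (nat_lit 396) (nat_lit 5) (nat_lit 604) (nat_lit 565) (nat_lit 391)) (XT.lf (nat_lit 0) (nat_lit 401881701) (nat_lit 760) (nat_lit 638968757) (nat_lit 836) (nat_lit 14278787815) (nat_lit 373) (nat_lit 5) (nat_lit 383) (nat_lit 5) (nat_lit 384) (nat_lit 5) (nat_lit 605) (nat_lit 565) (nat_lit 390))) (XT.nd (nat_lit 78) (nat_lit 380) (nat_lit 0) (XT.lf (nat_lit 0) (nat_lit 8846727037) (nat_lit 456) (nat_lit 9575771609) (nat_lit 76) (nat_lit 8258025807) (nat_lit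 164) (nat_lit 5) (nat_lit 170) (nat_lit 5) (nat_lit 165) (nat_lit 5) (nat_lit 653) (nat_lit 565) (nat_lit 342)) (XT.nd (nat_lit 78) (nat_lit 0) (nat_lit 0) (XT.lf (nat_lit 0) (nat_lit 6939723565) (nat_lit 380) (nat_lit 8394418102) (nat_lit 456) (nat_lit 11673756163) (nat_lit 159) (nat_lit 5) (nat_lit 164) (nat_lit 5) (nat_lit 165) (nat_lit 5) (nat_lit 654) (nat_lit 565) (nat_lit 341)) (XT.lf (nat_lit 0) (nat_lit 22023025626) (nat_lit 456) (nat_lit 3445226139) (nat_lit 76) (nat_lit 1872132566) (nat_lit 159) (nat_lit 5) (nat_lit 165) (nat_lit 5) (nat_lit 160) (nat_lit 5) (nat_lit 655) (nat_lit 565) (nat_lit 340))))) (XT.nd (nat_lit 74256) (nat_lit 0) (nat_lit 28500) (XT.nd (nat_lit 74178) (nat_lit 0) (nat_lit 28500) (XT.lf (nat_lit 0) (nat_lit 1291077702) (nat_lit 380) (nat_lit 14059473969) (nat_lit 76) (nat_lit 12326013422) (nat_lit 154) (nat_lit 5) (nat_lit 159) (nat_lit 5) (nat_lit 155) (nat_lit 5) (nat_lit 656) (nat_lit 565) (nat_lit 339)) (XT.lf (nat_lit 0) (nat_lit 808419069) (nat_lit 1748) (nat_lit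 2227616661) (nat_lit 1748) (nat_lit 2227616661) (nat_lit 529) (nat_lit 3) (nat_lit 552) (nat_lit 3) (nat_lit 552) (nat_lit 5) (nat_lit 566) (nat_lit 566) (nat_lit 428))) (XT.nd (nat_lit 78) (nat_lit 0) (nat_lit 76) (XT.lf (nat_lit 76) (nat_lit 798637671) (nat_lit 0) (nat_lit 1473287102) (nat_lit 1748) (nat_lit 8347854341) (nat_lit 530) (nat_lit 5) (nat_lit 529) (nat_lit 3) (nat_lit 552) (nat_lit 5) (nat_lit 567) (nat_lit 566) (nat_lit 427)) (XT.nd (nat_lit 78) (nat_lit 0) (nat_lit 0) (XT.lf (nat_lit 0) (nat_lit 2974471758) (nat_lit 1672) (nat_lit 4525592317) (nat_lit 1748) (nat_lit 3213352216) (nat_lit 530) (nat_lit 5) (nat_lit 552) (nat_lit 5) (nat_lit 553) (nat_lit 5) (nat_lit 568) (nat_lit 566) (nat_lit 426)) (XT.lf (nat_lit 76) (nat_lit 868702830) (nat_lit 0) (nat_lit 2821463613) (nat_lit 1748) (nat_lit 7118778358) (nat_lit 531) (nat_lit 5) (nat_lit 530) (nat_lit 5) (nat_lit 553) (nat_lit 5) (nat_lit 569) (nat_lit 566) (nat_lit 425))))))) (XT.nd (nat_lit 780) (nat_lit 1520) (nat_lit 0) (XT.nd (nat_lit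 390) (nat_lit 1444) (nat_lit 0) (XT.nd (nat_lit 156) (nat_lit 0) (nat_lit 76) (XT.nd (nat_lit 78) (nat_lit 0) (nat_lit 0) (XT.lf (nat_lit 0) (nat_lit 4447420449) (nat_lit 1672) (nat_lit 4495525441) (nat_lit 1748) (nat_lit 1962893595) (nat_lit 531) (nat_lit 5) (nat_lit 553) (nat_lit 5) (nat_lit 554) (nat_lit 5) (nat_lit 570) (nat_lit 566) (nat_lit 424)) (XT.lf (nat_lit 76) (nat_lit 1044161256) (nat_lit 0) (nat_lit 4185446289) (nat_lit 1748) (nat_lit 5774869261) (nat_lit 532) (nat_lit 5) (nat_lit 531) (nat_lit 5) (nat_lit 554) (nat_lit 5) (nat_lit 571) (nat_lit 566) (nat_lit 423))) (XT.nd (nat_lit 78) (nat_lit 0) (nat_lit 0) (XT.lf (nat_lit 0) (nat_lit 6046753176) (nat_lit 1672) (nat_lit 4362661652) (nat_lit 1748) (nat_lit 695286242) (nat_lit 532) (nat_lit 5) (nat_lit 554) (nat_lit 5) (nat_lit 555) (nat_lit 5) (nat_lit 572) (nat_lit 566) (nat_lit 422)) (XT.nd (nat_lit 78) (nat_lit 0) (nat_lit 0) (XT.lf (nat_lit 76) (nat_lit 1327593533) (nat_lit 0) (nat_lit 5573903383) (nat_lit 1748) (nat_lit 4305008283) (nat_lit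 533) (nat_lit 5) (nat_lit 532) (nat_lit 5) (nat_lit 555) (nat_lit 5) (nat_lit 573) (nat_lit 566) (nat_lit 421)) (XT.lf (nat_lit 76) (nat_lit 7181805127) (nat_lit 0) (nat_lit 605960948) (nat_lit 1748) (nat_lit 3522291199) (nat_lit 533) (nat_lit 5) (nat_lit 532) (nat_lit 5) (nat_lit 555) (nat_lit 5) (nat_lit 574) (nat_lit 566) (nat_lit 420))))) (XT.nd (nat_lit 156) (nat_lit 1596) (nat_lit 0) (XT.nd (nat_lit 78) (nat_lit 0) (nat_lit 0) (XT.lf (nat_lit 76) (nat_lit 1721899222) (nat_lit 0) (nat_lit 6995490257) (nat_lit 1748) (nat_lit 2697778799) (nat_lit 534) (nat_lit 5) (nat_lit 533) (nat_lit 5) (nat_lit 556) (nat_lit 5) (nat_lit 575) (nat_lit 566) (nat_lit 419)) (XT.lf (nat_lit 76) (nat_lit 7731868591) (nat_lit 0) (nat_lit 1951134959) (nat_lit 1748) (nat_lit 1839030443) (nat_lit 534) (nat_lit 5) (nat_lit 533) (nat_lit 5) (nat_lit 556) (nat_lit 5) (nat_lit 576) (nat_lit 566) (nat_lit 418))) (XT.nd (nat_lit 78) (nat_lit 1672) (nat_lit 0) (XT.lf (nat_lit 76) (nat_lit 2230298730) (nat_lit 0) (nat_lit 8458872287)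 (nat_lit 1748) (nat_lit 941441631) (nat_lit 535) (nat_lit 5) (nat_lit 534) (nat_lit 5) (nat_lit 557) (nat_lit 5) (nat_lit 577) (nat_lit 566) (nat_lit 417)) (XT.nd (nat_lit 78) (nat_lit 1672) (nat_lit 0) (XT.lf (nat_lit 76) (nat_lit 8400302216) (nat_lit 0) (nat_lit 3339666950) (nat_lit 1748) (nat_lit 904001) (nat_lit 535) (nat_lit 5) (nat_lit 534) (nat_lit 5) (nat_lit 557) (nat_lit 5) (nat_lit 578) (nat_lit 566) (nat_lit 416)) (XT.lf (nat_lit 0) (nat_lit 963288391) (nat_lit 1748) (nat_lit 9002994840) (nat_lit 1824) (nat_lit 1886583346) (nat_lit 512) (nat_lit 5) (nat_lit 535) (nat_lit 5) (nat_lit 536) (nat_lit 5) (nat_lit 579) (nat_lit 566) (nat_lit 415)))))) (XT.nd (nat_lit 390) (nat_lit 1520) (nat_lit 0) (XT.nd (nat_lit 156) (nat_lit 0) (nat_lit 76) (XT.nd (nat_lit 78) (nat_lit 0) (nat_lit 76) (XT.lf (nat_lit 0) (nat_lit 1978087059) (nat_lit 1748) (nat_lit 2788907782) (nat_lit 1824) (nat_lit 7199478616) (nat_lit 512) (nat_lit 5) (nat_lit 535) (nat_lit 5) (nat_lit 536) (nat_lit 5) (nat_lit 580) (nat_lit 566)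 (nat_lit 414)) (XT.lf (nat_lit 0) (nat_lit 3027047966) (nat_lit 1748) (nat_lit 8498507258) (nat_lit 1824) (nat_lit 556520330) (nat_lit 513) (nat_lit 5) (nat_lit 536) (nat_lit 5) (nat_lit 537) (nat_lit 5) (nat_lit 581) (nat_lit 566) (nat_lit 413))) (XT.nd (nat_lit 78) (nat_lit 0) (nat_lit 0) (XT.lf (nat_lit 0) (nat_lit 4134531888) (nat_lit 1748) (nat_lit 2119438768) (nat_lit 1824) (nat_lit 5945268557) (nat_lit 513) (nat_lit 5) (nat_lit 536) (nat_lit 5) (nat_lit 537) (nat_lit 5) (nat_lit 582) (nat_lit 566) (nat_lit 412)) (XT.nd (nat_lit 78) (nat_lit 0) (nat_lit 76) (XT.lf (nat_lit 76) (nat_lit 4436148635) (nat_lit 0) (nat_lit 844206836) (nat_lit 1824) (nat_lit 7038067266) (nat_lit 514) (nat_lit 5) (nat_lit 513) (nat_lit 5) (nat_lit 537) (nat_lit 5) (nat_lit 583) (nat_lit 566) (nat_lit 411)) (XT.lf (nat_lit 0) (nat_lit 6481353661) (nat_lit 1748) (nat_lit 1328019888) (nat_lit 1824) (nat_lit 4629971598) (nat_lit 514) (nat_lit 5) (nat_lit 537) (nat_lit 5) (nat_lit 538) (nat_lit 5) (nat_lit 584) (nat_lit 566) (nat_lit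 410))))) (XT.nd (nat_lit 234) (nat_lit 1672) (nat_lit 0) (XT.nd (nat_lit 78) (nat_lit 0) (nat_lit 76) (XT.lf (nat_lit 76) (nat_lit 5413460021) (nat_lit 0) (nat_lit 2321489848) (nat_lit 1824) (nat_lit 4827164951) (nat_lit 515) (nat_lit 5) (nat_lit 514) (nat_lit 5) (nat_lit 538) (nat_lit 5) (nat_lit 585) (nat_lit 566) (nat_lit 409)) (XT.nd (nat_lit 78) (nat_lit 0) (nat_lit 0) (XT.lf (nat_lit 0) (nat_lit 9031895879) (nat_lit 1748) (nat_lit 410184603) (nat_lit 1824) (nat_lit 3244894214) (nat_lit 515) (nat_lit 5) (nat_lit 538) (nat_lit 5) (nat_lit 539) (nat_lit 5) (nat_lit 586) (nat_lit 566) (nat_lit 408)) (XT.lf (nat_lit 76) (nat_lit 6523965270) (nat_lit 0) (nat_lit 3876818334) (nat_lit 1824) (nat_lit 2412628467) (nat_lit 516) (nat_lit 5) (nat_lit 515) (nat_lit 5) (nat_lit 539) (nat_lit 5) (nat_lit 587) (nat_lit 566) (nat_lit 407)))) (XT.nd (nat_lit 78) (nat_lit 1824) (nat_lit 0) (XT.lf (nat_lit 76) (nat_lit 647357683) (nat_lit 0) (nat_lit 11156806547) (nat_lit 1824) (nat_lit 1138072013) (nat_lit 517) (nat_lit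 5) (nat_lit 516) (nat_lit 5) (nat_lit 540) (nat_lit 5) (nat_lit 588) (nat_lit 566) (nat_lit 406)) (XT.nd (nat_lit 78) (nat_lit 0) (nat_lit 76) (XT.lf (nat_lit 0) (nat_lit 216556262) (nat_lit 1824) (nat_lit 5301199466) (nat_lit 1900) (nat_lit 7554726375) (nat_lit 492) (nat_lit 5) (nat_lit 516) (nat_lit 5) (nat_lit 517) (nat_lit 5) (nat_lit 589) (nat_lit 566) (nat_lit 405)) (XT.lf (nat_lit 0) (nat_lit 1585427515) (nat_lit 1824) (nat_lit 11367253648) (nat_lit 76) (nat_lit 252453813) (nat_lit 493) (nat_lit 5) (nat_lit 517) (nat_lit 5) (nat_lit 494) (nat_lit 5) (nat_lit 590) (nat_lit 566) (nat_lit 404))))))))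
noncomputable def xc147 : XT := (XT.nd (nat_lit 4836) (nat_lit 1596) (nat_lit 0) (XT.nd (nat_lit 780) (nat_lit 18848) (nat_lit 0) (XT.nd (nat_lit 390) (nat_lit 2736) (nat_lit 0) (XT.nd (nat_lit 156) (nat_lit 1140) (nat_lit 0) (XT.nd (nat_lit 78) (nat_lit 1824) (nat_lit 0) (XT.lf (nat_lit 0) (nat_lit 3042968602) (nat_lit 1824) (nat_lit 4194442347) (nat_lit 76) (nat_lit 6101804435) (nat_lit 493) (nat_lit 5) (nat_lit 517) (nat_lit 5) (nat_lit 494) (nat_lit 5) (nat_lit 591) (nat_lit 566) (nat_lit 403)) (XT.lf (nat_lit 0) (nat_lit 3153836552) (nat_lit 1824) (nat_lit 1385459142) (nat_lit 1900) (nat_lit 8936489320) (nat_lit 469) (nat_lit 5) (nat_lit 493) (nat_lit 5) (nat_lit 494) (nat_lit 5) (nat_lit 592) (nat_lit 566) (nat_lit 402))) (XT.nd (nat_lit 78) (nat_lit 1140) (nat_lit 0) (XT.lf (nat_lit 0) (nat_lit 6112961708) (nat_lit 1900) (nat_lit 2948044450) (nat_lit 76) (nat_lit 4553131945) (nat_lit 469) (nat_lit 5) (nat_lit 494) (nat_lit 5) (nat_lit 470) (nat_lit 5) (nat_lit 593) (nat_lit 566) (nat_lit 401)) (XT.nd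 (nat_lit 78) (nat_lit 0) (nat_lit 0) (XT.lf (nat_lit 0) (nat_lit 4615366902) (nat_lit 1140) (nat_lit 3131404538) (nat_lit 1216) (nat_lit 6007913713) (nat_lit 454) (nat_lit 5) (nat_lit 469) (nat_lit 5) (nat_lit 470) (nat_lit 5) (nat_lit 594) (nat_lit 566) (nat_lit 400)) (XT.lf (nat_lit 0) (nat_lit 9441790224) (nat_lit 1216) (nat_lit 1556187446) (nat_lit 76) (nat_lit 2899495116) (nat_lit 454) (nat_lit 5) (nat_lit 470) (nat_lit 5) (nat_lit 455) (nat_lit 5) (nat_lit 595) (nat_lit 566) (nat_lit 399))))) (XT.nd (nat_lit 156) (nat_lit 1824) (nat_lit 0) (XT.nd (nat_lit 78) (nat_lit 0) (nat_lit 0) (XT.lf (nat_lit 0) (nat_lit 6230286169) (nat_lit 912) (nat_lit 4991495658) (nat_lit 988) (nat_lit 2820313191) (nat_lit 442) (nat_lit 5) (nat_lit 454) (nat_lit 5) (nat_lit 455) (nat_lit 5) (nat_lit 596) (nat_lit 566) (nat_lit 398)) (XT.lf (nat_lit 0) (nat_lit 13045281962) (nat_lit 988) (nat_lit 12693040) (nat_lit 76) (nat_lit 1131476809) (nat_lit 442) (nat_lit 5) (nat_lit 455) (nat_lit 5) (nat_lit 443) (nat_lit 5) (nat_lit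 597) (nat_lit 566) (nat_lit 397))) (XT.nd (nat_lit 78) (nat_lit 836) (nat_lit 0) (XT.lf (nat_lit 0) (nat_lit 633830773) (nat_lit 988) (nat_lit 6337335815) (nat_lit 76) (nat_lit 7367000977) (nat_lit 429) (nat_lit 5) (nat_lit 442) (nat_lit 5) (nat_lit 430) (nat_lit 5) (nat_lit 598) (nat_lit 566) (nat_lit 396)) (XT.nd (nat_lit 78) (nat_lit 0) (nat_lit 0) (XT.lf (nat_lit 0) (nat_lit 1690212447) (nat_lit 836) (nat_lit 743222793) (nat_lit 912) (nat_lit 12056244121) (nat_lit 418) (nat_lit 5) (nat_lit 429) (nat_lit 5) (nat_lit 430) (nat_lit 5) (nat_lit 599) (nat_lit 566) (nat_lit 395)) (XT.lf (nat_lit 0) (nat_lit 4338682034) (nat_lit 912) (nat_lit 4725308658) (nat_lit 76) (nat_lit 5578837965) (nat_lit 418) (nat_lit 5) (nat_lit 430) (nat_lit 5) (nat_lit 419) (nat_lit 5) (nat_lit 600) (nat_lit 566) (nat_lit 394)))))) (XT.nd (nat_lit 3666) (nat_lit 16264) (nat_lit 0) (XT.nd (nat_lit 156) (nat_lit 1672) (nat_lit 0) (XT.nd (nat_lit 78) (nat_lit 0) (nat_lit 0) (XT.lf (nat_lit 0) (nat_lit 3542605084) (nat_lit 912) (nat_lit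 2757961996) (nat_lit 988) (nat_lit 8498103453) (nat_lit 406) (nat_lit 5) (nat_lit 418) (nat_lit 5) (nat_lit 419) (nat_lit 5) (nat_lit 601) (nat_lit 566) (nat_lit 393)) (XT.lf (nat_lit 0) (nat_lit 8348199478) (nat_lit 988) (nat_lit 2950522963) (nat_lit 76) (nat_lit 3657976869) (nat_lit 406) (nat_lit 5) (nat_lit 419) (nat_lit 5) (nat_lit 407) (nat_lit 5) (nat_lit 602) (nat_lit 566) (nat_lit 392))) (XT.nd (nat_lit 78) (nat_lit 836) (nat_lit 0) (XT.lf (nat_lit 0) (nat_lit 5566665155) (nat_lit 836) (nat_lit 4915443250) (nat_lit 912) (nat_lit 4634874031) (nat_lit 395) (nat_lit 5) (nat_lit 406) (nat_lit 5) (nat_lit 407) (nat_lit 5) (nat_lit 603) (nat_lit 566) (nat_lit 391)) (XT.nd (nat_lit 78) (nat_lit 836) (nat_lit 0) (XT.lf (nat_lit 0) (nat_lit 12680019522) (nat_lit 912) (nat_lit 1005699408) (nat_lit 76) (nat_lit 1594326062) (nat_lit 395) (nat_lit 5) (nat_lit 407) (nat_lit 5) (nat_lit 396) (nat_lit 5) (nat_lit 604) (nat_lit 566) (nat_lit 390)) (XT.lf (nat_lit 0) (nat_lit 7770020146) (nat_lit 836) (nat_lit 7226079512)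 (nat_lit 912) (nat_lit 448785167) (nat_lit 384) (nat_lit 5) (nat_lit 395) (nat_lit 5) (nat_lit 396) (nat_lit 5) (nat_lit 605) (nat_lit 566) (nat_lit 389))))) (XT.nd (nat_lit 156) (nat_lit 760) (nat_lit 0) (XT.nd (nat_lit 78) (nat_lit 456) (nat_lit 0) (XT.lf (nat_lit 0) (nat_lit 24276652083) (nat_lit 456) (nat_lit 508594620) (nat_lit 76) (nat_lit 513304907) (nat_lit 186) (nat_lit 5) (nat_lit 192) (nat_lit 5) (nat_lit 187) (nat_lit 5) (nat_lit 648) (nat_lit 566) (nat_lit 346)) (XT.lf (nat_lit 0) (nat_lit 4796640014) (nat_lit 456) (nat_lit 10439386285) (nat_lit 76) (nat_lit 10368864688) (nat_lit 180) (nat_lit 5) (nat_lit 186) (nat_lit 5) (nat_lit 181) (nat_lit 5) (nat_lit 649) (nat_lit 566) (nat_lit 345))) (XT.nd (nat_lit 78) (nat_lit 380) (nat_lit 0) (XT.lf (nat_lit 0) (nat_lit 5297800175) (nat_lit 380) (nat_lit 5452934207) (nat_lit 456) (nat_lit 15165830410) (nat_lit 175) (nat_lit 5) (nat_lit 180) (nat_lit 5) (nat_lit 181) (nat_lit 5) (nat_lit 650) (nat_lit 566) (nat_lit 344)) (XT.nd (nat_lit 78) (nat_lit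 380) (nat_lit 0) (XT.lf (nat_lit 0) (nat_lit 16918866876) (nat_lit 456) (nat_lit 4779294970) (nat_lit 76) (nat_lit 4534411186) (nat_lit 175) (nat_lit 5) (nat_lit 181) (nat_lit 5) (nat_lit 176) (nat_lit 5) (nat_lit 651) (nat_lit 566) (nat_lit 343)) (XT.lf (nat_lit 0) (nat_lit 11484001564) (nat_lit 380) (nat_lit 11832185243) (nat_lit 456) (nat_lit 3236598213) (nat_lit 170) (nat_lit 5) (nat_lit 175) (nat_lit 5) (nat_lit 176) (nat_lit 5) (nat_lit 652) (nat_lit 566) (nat_lit 342))))))) (XT.nd (nat_lit 74724) (nat_lit 0) (nat_lit 27512) (XT.nd (nat_lit 390) (nat_lit 380) (nat_lit 0) (XT.nd (nat_lit 156) (nat_lit 760) (nat_lit 0) (XT.nd (nat_lit 78) (nat_lit 0) (nat_lit 0) (XT.lf (nat_lit 0) (nat_lit 1248032674) (nat_lit 380) (nat_lit 1710724342) (nat_lit 456) (nat_lit 23919548616) (nat_lit 164) (nat_lit 5) (nat_lit 169) (nat_lit 5) (nat_lit 170) (nat_lit 5) (nat_lit 653) (nat_lit 566) (nat_lit 341)) (XT.lf (nat_lit 0) (nat_lit 9387628643) (nat_lit 456) (nat_lit 9198404052) (nat_lit 76) (nat_lit 8620817212) (nat_lit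 164) (nat_lit 5) (nat_lit 170) (nat_lit 5) (nat_lit 165) (nat_lit 5) (nat_lit 654) (nat_lit 566) (nat_lit 340))) (XT.nd (nat_lit 78) (nat_lit 380) (nat_lit 0) (XT.lf (nat_lit 0) (nat_lit 7643658375) (nat_lit 380) (nat_lit 8357665848) (nat_lit 456) (nat_lit 11539515988) (nat_lit 159) (nat_lit 5) (nat_lit 164) (nat_lit 5) (nat_lit 165) (nat_lit 5) (nat_lit 655) (nat_lit 566) (nat_lit 339)) (XT.nd (nat_lit 78) (nat_lit 380) (nat_lit 0) (XT.lf (nat_lit 0) (nat_lit 22818219848) (nat_lit 456) (nat_lit 2954300023) (nat_lit 76) (nat_lit 2107571999) (nat_lit 159) (nat_lit 5) (nat_lit 165) (nat_lit 5) (nat_lit 160) (nat_lit 5) (nat_lit 656) (nat_lit 566) (nat_lit 338)) (XT.lf (nat_lit 0) (nat_lit 1670620657) (nat_lit 380) (nat_lit 13779809873) (nat_lit 76) (nat_lit 12772586176) (nat_lit 154) (nat_lit 5) (nat_lit 159) (nat_lit 5) (nat_lit 155) (nat_lit 5) (nat_lit 657) (nat_lit 566) (nat_lit 337))))) (XT.nd (nat_lit 74100) (nat_lit 0) (nat_lit 28880) (XT.nd (nat_lit 78) (nat_lit 0) (nat_lit 0) (XT.lf (nat_lit 0) (nat_lit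 3663441073) (nat_lit 380) (nat_lit 4845770817) (nat_lit 456) (nat_lit 20062134494) (nat_lit 149) (nat_lit 5) (nat_lit 154) (nat_lit 5) (nat_lit 155) (nat_lit 5) (nat_lit 658) (nat_lit 566) (nat_lit 336)) (XT.lf (nat_lit 0) (nat_lit 15611872376) (nat_lit 456) (nat_lit 7329111462) (nat_lit 76) (nat_lit 5983112935) (nat_lit 149) (nat_lit 5) (nat_lit 155) (nat_lit 5) (nat_lit 150) (nat_lit 5) (nat_lit 659) (nat_lit 566) (nat_lit 335))) (XT.nd (nat_lit 78) (nat_lit 0) (nat_lit 0) (XT.lf (nat_lit 0) (nat_lit 1454205804) (nat_lit 1748) (nat_lit 1951053523) (nat_lit 1748) (nat_lit 1951053523) (nat_lit 529) (nat_lit 3) (nat_lit 552) (nat_lit 3) (nat_lit 552) (nat_lit 5) (nat_lit 567) (nat_lit 567) (nat_lit 426)) (XT.nd (nat_lit 78) (nat_lit 0) (nat_lit 76) (XT.lf (nat_lit 76) (nat_lit 1452616164) (nat_lit 0) (nat_lit 2103435254) (nat_lit 1748) (nat_lit 7251309866) (nat_lit 530) (nat_lit 5) (nat_lit 529) (nat_lit 3) (nat_lit 552) (nat_lit 5) (nat_lit 568) (nat_lit 567) (nat_lit 425)) (XT.lf (nat_lit 0) (nat_lit 4244537781)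 (nat_lit 1672) (nat_lit 3962457909) (nat_lit 1748) (nat_lit 2696438524) (nat_lit 530) (nat_lit 5) (nat_lit 552) (nat_lit 5) (nat_lit 553) (nat_lit 5) (nat_lit 569) (nat_lit 567) (nat_lit 424)))))) (XT.nd (nat_lit 390) (nat_lit 1444) (nat_lit 0) (XT.nd (nat_lit 156) (nat_lit 0) (nat_lit 76) (XT.nd (nat_lit 78) (nat_lit 0) (nat_lit 76) (XT.lf (nat_lit 76) (nat_lit 1535422837) (nat_lit 0) (nat_lit 3419602712) (nat_lit 1748) (nat_lit 6046238923) (nat_lit 531) (nat_lit 5) (nat_lit 530) (nat_lit 5) (nat_lit 553) (nat_lit 5) (nat_lit 570) (nat_lit 567) (nat_lit 423)) (XT.lf (nat_lit 0) (nat_lit 5700622423) (nat_lit 1672) (nat_lit 3921982699) (nat_lit 1748) (nat_lit 1478028718) (nat_lit 531) (nat_lit 5) (nat_lit 553) (nat_lit 5) (nat_lit 554) (nat_lit 5) (nat_lit 571) (nat_lit 567) (nat_lit 422))) (XT.nd (nat_lit 78) (nat_lit 0) (nat_lit 76) (XT.lf (nat_lit 76) (nat_lit 1724132908) (nat_lit 0) (nat_lit 4755771092) (nat_lit 1748) (nat_lit 4721711626) (nat_lit 532) (nat_lit 5) (nat_lit 531) (nat_lit 5) (nat_lit 554)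 (nat_lit 5) (nat_lit 572) (nat_lit 567) (nat_lit 421)) (XT.nd (nat_lit 78) (nat_lit 0) (nat_lit 0) (XT.lf (nat_lit 0) (nat_lit 7287830269) (nat_lit 1672) (nat_lit 3778151576) (nat_lit 1748) (nat_lit 238374494) (nat_lit 532) (nat_lit 5) (nat_lit 554) (nat_lit 5) (nat_lit 555) (nat_lit 5) (nat_lit 573) (nat_lit 567) (nat_lit 420)) (XT.lf (nat_lit 76) (nat_lit 2021489217) (nat_lit 0) (nat_lit 6120548936) (nat_lit 1748) (nat_lit 3266511716) (nat_lit 533) (nat_lit 5) (nat_lit 532) (nat_lit 5) (nat_lit 555) (nat_lit 5) (nat_lit 574) (nat_lit 567) (nat_lit 419))))) (XT.nd (nat_lit 234) (nat_lit 1596) (nat_lit 0) (XT.nd (nat_lit 78) (nat_lit 0) (nat_lit 76) (XT.lf (nat_lit 76) (nat_lit 7979699871) (nat_lit 0) (nat_lit 1044714957) (nat_lit 1748) (nat_lit 2490191206) (nat_lit 533) (nat_lit 5) (nat_lit 532) (nat_lit 5) (nat_lit 555) (nat_lit 5) (nat_lit 575) (nat_lit 567) (nat_lit 418)) (XT.nd (nat_lit 78) (nat_lit 0) (nat_lit 0) (XT.lf (nat_lit 76) (nat_lit 2430553223) (nat_lit 0) (nat_lit 7522545263) (nat_lit 1748)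 (nat_lit 1669112093) (nat_lit 534) (nat_lit 5) (nat_lit 533) (nat_lit 5) (nat_lit 556) (nat_lit 5) (nat_lit 576) (nat_lit 567) (nat_lit 417)) (XT.lf (nat_lit 76) (nat_lit 8547502058) (nat_lit 0) (nat_lit 2369711777) (nat_lit 1748) (nat_lit 814416657) (nat_lit 534) (nat_lit 5) (nat_lit 533) (nat_lit 5) (nat_lit 556) (nat_lit 5) (nat_lit 577) (nat_lit 567) (nat_lit 416)))) (XT.nd (nat_lit 78) (nat_lit 0) (nat_lit 0) (XT.lf (nat_lit 0) (nat_lit 81269928) (nat_lit 1748) (nat_lit 8888576851) (nat_lit 1824) (nat_lit 2872892002) (nat_lit 511) (nat_lit 5) (nat_lit 534) (nat_lit 5) (nat_lit 535) (nat_lit 5) (nat_lit 578) (nat_lit 567) (nat_lit 415)) (XT.nd (nat_lit 78) (nat_lit 0) (nat_lit 76) (XT.lf (nat_lit 0) (nat_lit 1007860866) (nat_lit 1748) (nat_lit 2727465960) (nat_lit 1824) (nat_lit 8220157244) (nat_lit 511) (nat_lit 5) (nat_lit 534) (nat_lit 5) (nat_lit 535) (nat_lit 5) (nat_lit 579) (nat_lit 567) (nat_lit 414)) (XT.lf (nat_lit 0) (nat_lit 1973866309) (nat_lit 1748) (nat_lit 8485654957) (nat_lit 1824) (nat_lit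 1610545749) (nat_lit 512) (nat_lit 5) (nat_lit 535) (nat_lit 5) (nat_lit 536) (nat_lit 5) (nat_lit 580) (nat_lit 567) (nat_lit 413))))))))
noncomputable def xc148 : XT := (XT.nd (nat_lit 1560) (nat_lit 20748) (nat_lit 0) (XT.nd (nat_lit 780) (nat_lit 5624) (nat_lit 0) (XT.nd (nat_lit 390) (nat_lit 1520) (nat_lit 0) (XT.nd (nat_lit 156) (nat_lit 0) (nat_lit 76) (XT.nd (nat_lit 78) (nat_lit 0) (nat_lit 76) (XT.lf (nat_lit 0) (nat_lit 2989523457) (nat_lit 1748) (nat_lit 2160960664) (nat_lit 1824) (nat_lit 7035851263) (nat_lit 512) (nat_lit 5) (nat_lit 535) (nat_lit 5) (nat_lit 536) (nat_lit 5) (nat_lit 581) (nat_lit 567) (nat_lit 412)) (XT.lf (nat_lit 0) (nat_lit 4043012241) (nat_lit 1748) (nat_lit 7968271328) (nat_lit 1824) (nat_lit 293295570) (nat_lit 513) (nat_lit 5) (nat_lit 536) (nat_lit 5) (nat_lit 537) (nat_lit 5) (nat_lit 582) (nat_lit 567) (nat_lit 411))) (XT.nd (nat_lit 78) (nat_lit 0) (nat_lit 0) (XT.lf (nat_lit 0) (nat_lit 5153912051) (nat_lit 1748) (nat_lit 1475350999) (nat_lit 1824) (nat_lit 5795198275)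 (nat_lit 513) (nat_lit 5) (nat_lit 536) (nat_lit 5) (nat_lit 537) (nat_lit 5) (nat_lit 583) (nat_lit 567) (nat_lit 410)) (XT.nd (nat_lit 78) (nat_lit 0) (nat_lit 76) (XT.lf (nat_lit 76) (nat_lit 5206831859) (nat_lit 0) (nat_lit 1101881523) (nat_lit 1824) (nat_lit 6237594477) (nat_lit 514) (nat_lit 5) (nat_lit 513) (nat_lit 5) (nat_lit 537) (nat_lit 5) (nat_lit 584) (nat_lit 567) (nat_lit 409)) (XT.lf (nat_lit 0) (nat_lit 7514105666) (nat_lit 1748) (nat_lit 666338173) (nat_lit 1824) (nat_lit 4489597952) (nat_lit 514) (nat_lit 5) (nat_lit 537) (nat_lit 5) (nat_lit 538) (nat_lit 5) (nat_lit 585) (nat_lit 567) (nat_lit 408))))) (XT.nd (nat_lit 156) (nat_lit 1672) (nat_lit 0) (XT.nd (nat_lit 78) (nat_lit 0) (nat_lit 76) (XT.lf (nat_lit 76) (nat_lit 6205443426) (nat_lit 0) (nat_lit 2574061166) (nat_lit 1824) (nat_lit 4016028193) (nat_lit 515) (nat_lit 5) (nat_lit 514) (nat_lit 5) (nat_lit 538) (nat_lit 5) (nat_lit 586) (nat_lit 567) (nat_lit 407)) (XT.lf (nat_lit 76) (nat_lit 274304297) (nat_lit 0) (nat_lit 9811105874)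 (nat_lit 1824) (nat_lit 2837819807) (nat_lit 516) (nat_lit 5) (nat_lit 515) (nat_lit 5) (nat_lit 539) (nat_lit 5) (nat_lit 587) (nat_lit 567) (nat_lit 406))) (XT.nd (nat_lit 78) (nat_lit 1748) (nat_lit 0) (XT.lf (nat_lit 76) (nat_lit 7339006098) (nat_lit 0) (nat_lit 4128252913) (nat_lit 1824) (nat_lit 1585225946) (nat_lit 516) (nat_lit 5) (nat_lit 515) (nat_lit 5) (nat_lit 539) (nat_lit 5) (nat_lit 588) (nat_lit 567) (nat_lit 405)) (XT.nd (nat_lit 78) (nat_lit 1824) (nat_lit 0) (XT.lf (nat_lit 76) (nat_lit 1358566527) (nat_lit 0) (nat_lit 11526734833) (nat_lit 1824) (nat_lit 298852884) (nat_lit 517) (nat_lit 5) (nat_lit 516) (nat_lit 5) (nat_lit 540) (nat_lit 5) (nat_lit 589) (nat_lit 567) (nat_lit 404)) (XT.lf (nat_lit 0) (nat_lit 1054883014) (nat_lit 1824) (nat_lit 4711545157) (nat_lit 1900) (nat_lit 7550799011) (nat_lit 492) (nat_lit 5) (nat_lit 516) (nat_lit 5) (nat_lit 517) (nat_lit 5) (nat_lit 590) (nat_lit 567) (nat_lit 403)))))) (XT.nd (nat_lit 390) (nat_lit 2736) (nat_lit 0) (XT.nd (nat_lit 156)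 (nat_lit 2964) (nat_lit 0) (XT.nd (nat_lit 78) (nat_lit 0) (nat_lit 0) (XT.lf (nat_lit 0) (nat_lit 2438415202) (nat_lit 1824) (nat_lit 10886179765) (nat_lit 76) (nat_lit 128192958) (nat_lit 493) (nat_lit 5) (nat_lit 517) (nat_lit 5) (nat_lit 494) (nat_lit 5) (nat_lit 591) (nat_lit 567) (nat_lit 402)) (XT.lf (nat_lit 0) (nat_lit 3909003598) (nat_lit 1824) (nat_lit 3583802806) (nat_lit 76) (nat_lit 6097066081) (nat_lit 493) (nat_lit 5) (nat_lit 517) (nat_lit 5) (nat_lit 494) (nat_lit 5) (nat_lit 592) (nat_lit 567) (nat_lit 401))) (XT.nd (nat_lit 78) (nat_lit 1140) (nat_lit 0) (XT.lf (nat_lit 0) (nat_lit 3906872406) (nat_lit 1824) (nat_lit 1517076742) (nat_lit 1900) (nat_lit 8305450987) (nat_lit 469) (nat_lit 5) (nat_lit 493) (nat_lit 5) (nat_lit 494) (nat_lit 5) (nat_lit 593) (nat_lit 567) (nat_lit 400)) (XT.nd (nat_lit 78) (nat_lit 1140) (nat_lit 0) (XT.lf (nat_lit 0) (nat_lit 7012861038) (nat_lit 1900) (nat_lit 2314324609) (nat_lit 76) (nat_lit 4543659643) (nat_lit 469) (nat_lit 5) (nat_lit 494) (nat_lit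 5) (nat_lit 470) (nat_lit 5) (nat_lit 594) (nat_lit 567) (nat_lit 399)) (XT.lf (nat_lit 0) (nat_lit 5395797860) (nat_lit 1140) (nat_lit 3272769014) (nat_lit 1216) (nat_lit 5345852455) (nat_lit 454) (nat_lit 5) (nat_lit 469) (nat_lit 5) (nat_lit 470) (nat_lit 5) (nat_lit 595) (nat_lit 567) (nat_lit 398))))) (XT.nd (nat_lit 156) (nat_lit 1824) (nat_lit 0) (XT.nd (nat_lit 78) (nat_lit 912) (nat_lit 0) (XT.lf (nat_lit 0) (nat_lit 10381948378) (nat_lit 1216) (nat_lit 897120650) (nat_lit 76) (nat_lit 2881304878) (nat_lit 454) (nat_lit 5) (nat_lit 470) (nat_lit 5) (nat_lit 455) (nat_lit 5) (nat_lit 596) (nat_lit 567) (nat_lit 397)) (XT.lf (nat_lit 0) (nat_lit 7040541710) (nat_lit 912) (nat_lit 5146717985) (nat_lit 988) (nat_lit 2120834919) (nat_lit 442) (nat_lit 5) (nat_lit 454) (nat_lit 5) (nat_lit 455) (nat_lit 5) (nat_lit 597) (nat_lit 567) (nat_lit 396))) (XT.nd (nat_lit 78) (nat_lit 912) (nat_lit 0) (XT.lf (nat_lit 0) (nat_lit 683121942) (nat_lit 912) (nat_lit 13353660339) (nat_lit 988) (nat_lit 421825633)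 (nat_lit 430) (nat_lit 5) (nat_lit 442) (nat_lit 5) (nat_lit 443) (nat_lit 5) (nat_lit 598) (nat_lit 567) (nat_lit 395)) (XT.nd (nat_lit 78) (nat_lit 836) (nat_lit 0) (XT.lf (nat_lit 0) (nat_lit 1367624604) (nat_lit 988) (nat_lit 5771889922) (nat_lit 76) (nat_lit 7470973823) (nat_lit 429) (nat_lit 5) (nat_lit 442) (nat_lit 5) (nat_lit 430) (nat_lit 5) (nat_lit 599) (nat_lit 567) (nat_lit 394)) (XT.lf (nat_lit 0) (nat_lit 2411655405) (nat_lit 836) (nat_lit 781890808) (nat_lit 912) (nat_lit 11571678063) (nat_lit 418) (nat_lit 5) (nat_lit 429) (nat_lit 5) (nat_lit 430) (nat_lit 5) (nat_lit 600) (nat_lit 567) (nat_lit 393))))))) (XT.nd (nat_lit 3978) (nat_lit 2280) (nat_lit 0) (XT.nd (nat_lit 3588) (nat_lit 1216) (nat_lit 0) (XT.nd (nat_lit 156) (nat_lit 16340) (nat_lit 0) (XT.nd (nat_lit 78) (nat_lit 912) (nat_lit 0) (XT.lf (nat_lit 0) (nat_lit 5122796577) (nat_lit 912) (nat_lit 4131538429) (nat_lit 76) (nat_lit 5667383968) (nat_lit 418) (nat_lit 5) (nat_lit 430) (nat_lit 5) (nat_lit 419) (nat_lit 5) (nat_lit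 601) (nat_lit 567) (nat_lit 392)) (XT.lf (nat_lit 0) (nat_lit 4297205453) (nat_lit 912) (nat_lit 2817479867) (nat_lit 988) (nat_lit 7966177429) (nat_lit 406) (nat_lit 5) (nat_lit 418) (nat_lit 5) (nat_lit 419) (nat_lit 5) (nat_lit 602) (nat_lit 567) (nat_lit 391))) (XT.nd (nat_lit 78) (nat_lit 16340) (nat_lit 0) (XT.lf (nat_lit 0) (nat_lit 9189750330) (nat_lit 988) (nat_lit 2325653265) (nat_lit 76) (nat_lit 3726919281) (nat_lit 406) (nat_lit 5) (nat_lit 419) (nat_lit 5) (nat_lit 407) (nat_lit 5) (nat_lit 603) (nat_lit 567) (nat_lit 390)) (XT.nd (nat_lit 3276) (nat_lit 15504) (nat_lit 0) (XT.lf (nat_lit 0) (nat_lit 6357379404) (nat_lit 836) (nat_lit 5000141830) (nat_lit 912) (nat_lit 4048467121) (nat_lit 395) (nat_lit 5) (nat_lit 406) (nat_lit 5) (nat_lit 407) (nat_lit 5) (nat_lit 604) (nat_lit 567) (nat_lit 389)) (XT.lf (nat_lit 0) (nat_lit 4252759071) (nat_lit 456) (nat_lit 3297807585) (nat_lit 532) (nat_lit 17331088191) (nat_lit 191) (nat_lit 5) (nat_lit 197) (nat_lit 5) (nat_lit 198) (nat_lit 5) (nat_lit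 646) (nat_lit 567) (nat_lit 347))))) (XT.nd (nat_lit 156) (nat_lit 836) (nat_lit 0) (XT.nd (nat_lit 78) (nat_lit 380) (nat_lit 0) (XT.lf (nat_lit 0) (nat_lit 13229804880) (nat_lit 532) (nat_lit 5532439609) (nat_lit 76) (nat_lit 6419854312) (nat_lit 191) (nat_lit 5) (nat_lit 198) (nat_lit 5) (nat_lit 192) (nat_lit 5) (nat_lit 647) (nat_lit 567) (nat_lit 346)) (XT.lf (nat_lit 0) (nat_lit 9967446192) (nat_lit 380) (nat_lit 9136807394) (nat_lit 456) (nat_lit 6382665622) (nat_lit 186) (nat_lit 5) (nat_lit 191) (nat_lit 5) (nat_lit 192) (nat_lit 5) (nat_lit 648) (nat_lit 567) (nat_lit 345))) (XT.nd (nat_lit 78) (nat_lit 456) (nat_lit 0) (XT.lf (nat_lit 0) (nat_lit 43717248) (nat_lit 380) (nat_lit 25089655450) (nat_lit 456) (nat_lit 663719780) (nat_lit 181) (nat_lit 5) (nat_lit 186) (nat_lit 5) (nat_lit 187) (nat_lit 5) (nat_lit 649) (nat_lit 567) (nat_lit 344)) (XT.nd (nat_lit 78) (nat_lit 380) (nat_lit 0) (XT.lf (nat_lit 0) (nat_lit 5262266577) (nat_lit 456) (nat_lit 10085041188) (nat_lit 76) (nat_lit 10762281002)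 (nat_lit 180) (nat_lit 5) (nat_lit 186) (nat_lit 5) (nat_lit 181) (nat_lit 5) (nat_lit 650) (nat_lit 567) (nat_lit 343)) (XT.lf (nat_lit 0) (nat_lit 5963184180) (nat_lit 380) (nat_lit 5368641934) (nat_lit 456) (nat_lit 15095742391) (nat_lit 175) (nat_lit 5) (nat_lit 180) (nat_lit 5) (nat_lit 181) (nat_lit 5) (nat_lit 651) (nat_lit 567) (nat_lit 342)))))) (XT.nd (nat_lit 390) (nat_lit 1064) (nat_lit 0) (XT.nd (nat_lit 156) (nat_lit 836) (nat_lit 0) (XT.nd (nat_lit 78) (nat_lit 380) (nat_lit 0) (XT.lf (nat_lit 0) (nat_lit 17617374023) (nat_lit 456) (nat_lit 4320468887) (nat_lit 76) (nat_lit 4812173062) (nat_lit 175) (nat_lit 5) (nat_lit 181) (nat_lit 5) (nat_lit 176) (nat_lit 5) (nat_lit 652) (nat_lit 567) (nat_lit 341)) (XT.lf (nat_lit 0) (nat_lit 12264446130) (nat_lit 380) (nat_lit 11874708782) (nat_lit 456) (nat_lit 2937547112) (nat_lit 170) (nat_lit 5) (nat_lit 175) (nat_lit 5) (nat_lit 176) (nat_lit 5) (nat_lit 653) (nat_lit 567) (nat_lit 340))) (XT.nd (nat_lit 78) (nat_lit 380) (nat_lit 0) (XT.lf (nat_lit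 0) (nat_lit 1824879760) (nat_lit 380) (nat_lit 1548608144) (nat_lit 456) (nat_lit 24035267144) (nat_lit 164) (nat_lit 5) (nat_lit 169) (nat_lit 5) (nat_lit 170) (nat_lit 5) (nat_lit 654) (nat_lit 567) (nat_lit 339)) (XT.nd (nat_lit 78) (nat_lit 380) (nat_lit 0) (XT.lf (nat_lit 0) (nat_lit 9925214997) (nat_lit 456) (nat_lit 8835579564) (nat_lit 76) (nat_lit 8983190196) (nat_lit 164) (nat_lit 5) (nat_lit 170) (nat_lit 5) (nat_lit 165) (nat_lit 5) (nat_lit 655) (nat_lit 567) (nat_lit 338)) (XT.lf (nat_lit 0) (nat_lit 8339726792) (nat_lit 380) (nat_lit 8328124994) (nat_lit 456) (nat_lit 11416869842) (nat_lit 159) (nat_lit 5) (nat_lit 164) (nat_lit 5) (nat_lit 165) (nat_lit 5) (nat_lit 656) (nat_lit 567) (nat_lit 337))))) (XT.nd (nat_lit 234) (nat_lit 304) (nat_lit 0) (XT.nd (nat_lit 78) (nat_lit 760) (nat_lit 0) (XT.lf (nat_lit 0) (nat_lit 23615543213) (nat_lit 456) (nat_lit 2475294290) (nat_lit 76) (nat_lit 2340031765) (nat_lit 159) (nat_lit 5) (nat_lit 165) (nat_lit 5) (nat_lit 160) (nat_lit 5) (nat_lit 657)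 (nat_lit 567) (nat_lit 336)) (XT.nd (nat_lit 78) (nat_lit 380) (nat_lit 0) (XT.lf (nat_lit 0) (nat_lit 2044019038) (nat_lit 380) (nat_lit 13516331124) (nat_lit 76) (nat_lit 13220322103) (nat_lit 154) (nat_lit 5) (nat_lit 159) (nat_lit 5) (nat_lit 155) (nat_lit 5) (nat_lit 658) (nat_lit 567) (nat_lit 335)) (XT.lf (nat_lit 0) (nat_lit 4272238296) (nat_lit 380) (nat_lit 4743954414) (nat_lit 456) (nat_lit 20119839713) (nat_lit 149) (nat_lit 5) (nat_lit 154) (nat_lit 5) (nat_lit 155) (nat_lit 5) (nat_lit 659) (nat_lit 567) (nat_lit 334)))) (XT.nd (nat_lit 78) (nat_lit 304) (nat_lit 0) (XT.lf (nat_lit 0) (nat_lit 16255567550) (nat_lit 456) (nat_lit 6945322132) (nat_lit 76) (nat_lit 6295055013) (nat_lit 149) (nat_lit 5) (nat_lit 155) (nat_lit 5) (nat_lit 150) (nat_lit 5) (nat_lit 660) (nat_lit 567) (nat_lit 333)) (XT.nd (nat_lit 73944) (nat_lit 0) (nat_lit 29184) (XT.lf (nat_lit 0) (nat_lit 11443319486) (nat_lit 304) (nat_lit 12297835195) (nat_lit 380) (nat_lit 6119872097) (nat_lit 145) (nat_lit 5) (nat_lit 149)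 (nat_lit 5) (nat_lit 150) (nat_lit 5) (nat_lit 661) (nat_lit 567) (nat_lit 332)) (XT.lf (nat_lit 0) (nat_lit 2088459426) (nat_lit 1748) (nat_lit 1681428428) (nat_lit 1748) (nat_lit 1681428428) (nat_lit 529) (nat_lit 3) (nat_lit 552) (nat_lit 3) (nat_lit 552) (nat_lit 5) (nat_lit 568) (nat_lit 568) (nat_lit 424))))))))
noncomputable def xc149 : XT := (XT.nd (nat_lit 1560) (nat_lit 24244) (nat_lit 0) (XT.nd (nat_lit 780) (nat_lit 0) (nat_lit 76) (XT.nd (nat_lit 390) (nat_lit 1444) (nat_lit 0) (XT.nd (nat_lit 156) (nat_lit 0) (nat_lit 76) (XT.nd (nat_lit 78) (nat_lit 0) (nat_lit 76) (XT.lf (nat_lit 76) (nat_lit 2094899685) (nat_lit 0) (nat_lit 2722861139) (nat_lit 1748) (nat_lit 6181897808) (nat_lit 530) (nat_lit 5) (nat_lit 529) (nat_lit 3) (nat_lit 552) (nat_lit 5) (nat_lit 569) (nat_lit 568) (nat_lit 423)) (XT.lf (nat_lit 0) (nat_lit 5492996960) (nat_lit 1672) (nat_lit 3413442693) (nat_lit 1748) (nat_lit 2191754513) (nat_lit 530) (nat_lit 5) (nat_lit 552) (nat_lit 5) (nat_lit 553) (nat_lit 5) (nat_lit 570)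 (nat_lit 568) (nat_lit 422))) (XT.nd (nat_lit 78) (nat_lit 0) (nat_lit 76) (XT.lf (nat_lit 76) (nat_lit 2190262350) (nat_lit 0) (nat_lit 4008669339) (nat_lit 1748) (nat_lit 4999425329) (nat_lit 531) (nat_lit 5) (nat_lit 530) (nat_lit 5) (nat_lit 553) (nat_lit 5) (nat_lit 571) (nat_lit 568) (nat_lit 421)) (XT.nd (nat_lit 78) (nat_lit 0) (nat_lit 0) (XT.lf (nat_lit 0) (nat_lit 6933679053) (nat_lit 1672) (nat_lit 3362731801) (nat_lit 1748) (nat_lit 1003818868) (nat_lit 531) (nat_lit 5) (nat_lit 553) (nat_lit 5) (nat_lit 554) (nat_lit 5) (nat_lit 572) (nat_lit 568) (nat_lit 420)) (XT.lf (nat_lit 76) (nat_lit 2392110786) (nat_lit 0) (nat_lit 5318606503) (nat_lit 1748) (nat_lit 3692871137) (nat_lit 532) (nat_lit 5) (nat_lit 531) (nat_lit 5) (nat_lit 554) (nat_lit 5) (nat_lit 573) (nat_lit 568) (nat_lit 419))))) (XT.nd (nat_lit 156) (nat_lit 1596) (nat_lit 0) (XT.nd (nat_lit 78) (nat_lit 0) (nat_lit 76) (XT.lf (nat_lit 76) (nat_lit 8299434214) (nat_lit 0) (nat_lit 212175796) (nat_lit 1748) (nat_lit 2997238475)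 (nat_lit 532) (nat_lit 5) (nat_lit 531) (nat_lit 5) (nat_lit 554) (nat_lit 5) (nat_lit 574) (nat_lit 568) (nat_lit 418)) (XT.lf (nat_lit 76) (nat_lit 2703349042) (nat_lit 0) (nat_lit 6661229316) (nat_lit 1748) (nat_lit 2250914678) (nat_lit 533) (nat_lit 5) (nat_lit 532) (nat_lit 5) (nat_lit 555) (nat_lit 5) (nat_lit 575) (nat_lit 568) (nat_lit 417))) (XT.nd (nat_lit 78) (nat_lit 1672) (nat_lit 0) (XT.lf (nat_lit 76) (nat_lit 8768146849) (nat_lit 0) (nat_lit 1475677297) (nat_lit 1748) (nat_lit 1480262411) (nat_lit 533) (nat_lit 5) (nat_lit 532) (nat_lit 5) (nat_lit 555) (nat_lit 5) (nat_lit 576) (nat_lit 568) (nat_lit 416)) (XT.nd (nat_lit 78) (nat_lit 1748) (nat_lit 0) (XT.lf (nat_lit 76) (nat_lit 3127199674) (nat_lit 0) (nat_lit 8045108049) (nat_lit 1748) (nat_lit 661911595) (nat_lit 534) (nat_lit 5) (nat_lit 533) (nat_lit 5) (nat_lit 556) (nat_lit 5) (nat_lit 577) (nat_lit 568) (nat_lit 415)) (XT.lf (nat_lit 0) (nat_lit 186989177) (nat_lit 1748) (nat_lit 2593677608) (nat_lit 1824) (nat_lit 9165536936)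 (nat_lit 510) (nat_lit 5) (nat_lit 533) (nat_lit 5) (nat_lit 534) (nat_lit 5) (nat_lit 578) (nat_lit 568) (nat_lit 414)))))) (XT.nd (nat_lit 390) (nat_lit 0) (nat_lit 152) (XT.nd (nat_lit 156) (nat_lit 0) (nat_lit 76) (XT.nd (nat_lit 78) (nat_lit 0) (nat_lit 0) (XT.lf (nat_lit 0) (nat_lit 1071886360) (nat_lit 1748) (nat_lit 8399769541) (nat_lit 1824) (nat_lit 2588127184) (nat_lit 511) (nat_lit 5) (nat_lit 534) (nat_lit 5) (nat_lit 535) (nat_lit 5) (nat_lit 579) (nat_lit 568) (nat_lit 413)) (XT.lf (nat_lit 0) (nat_lit 1997617136) (nat_lit 1748) (nat_lit 2128506606) (nat_lit 1824) (nat_lit 8049047979) (nat_lit 511) (nat_lit 5) (nat_lit 534) (nat_lit 5) (nat_lit 535) (nat_lit 5) (nat_lit 580) (nat_lit 568) (nat_lit 412))) (XT.nd (nat_lit 78) (nat_lit 0) (nat_lit 0) (XT.lf (nat_lit 0) (nat_lit 2966161926) (nat_lit 1748) (nat_lit 7985049161) (nat_lit 1824) (nat_lit 1341171443) (nat_lit 512) (nat_lit 5) (nat_lit 535) (nat_lit 5) (nat_lit 536) (nat_lit 5) (nat_lit 581) (nat_lit 568) (nat_lit 411)) (XT.nd (nat_lit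 78) (nat_lit 0) (nat_lit 76) (XT.lf (nat_lit 0) (nat_lit 3983449505) (nat_lit 1748) (nat_lit 1547004489) (nat_lit 1824) (nat_lit 6880896503) (nat_lit 512) (nat_lit 5) (nat_lit 535) (nat_lit 5) (nat_lit 536) (nat_lit 5) (nat_lit 582) (nat_lit 568) (nat_lit 410)) (XT.lf (nat_lit 0) (nat_lit 5042195550) (nat_lit 1748) (nat_lit 7454620534) (nat_lit 1824) (nat_lit 35459860) (nat_lit 513) (nat_lit 5) (nat_lit 536) (nat_lit 5) (nat_lit 537) (nat_lit 5) (nat_lit 583) (nat_lit 568) (nat_lit 409))))) (XT.nd (nat_lit 156) (nat_lit 0) (nat_lit 76) (XT.nd (nat_lit 78) (nat_lit 0) (nat_lit 0) (XT.lf (nat_lit 0) (nat_lit 6157307021) (nat_lit 1748) (nat_lit 845038195) (nat_lit 1824) (nat_lit 5652571240) (nat_lit 513) (nat_lit 5) (nat_lit 536) (nat_lit 5) (nat_lit 537) (nat_lit 5) (nat_lit 584) (nat_lit 568) (nat_lit 408)) (XT.lf (nat_lit 76) (nat_lit 5966447400) (nat_lit 0) (nat_lit 1355359514) (nat_lit 1824) (nat_lit 5457661500) (nat_lit 514) (nat_lit 5) (nat_lit 513) (nat_lit 5) (nat_lit 537) (nat_lit 5) (nat_lit 585)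 (nat_lit 568) (nat_lit 407))) (XT.nd (nat_lit 78) (nat_lit 0) (nat_lit 0) (XT.lf (nat_lit 0) (nat_lit 8532443269) (nat_lit 1748) (nat_lit 18148103) (nat_lit 1824) (nat_lit 4355463462) (nat_lit 514) (nat_lit 5) (nat_lit 537) (nat_lit 5) (nat_lit 538) (nat_lit 5) (nat_lit 586) (nat_lit 568) (nat_lit 406)) (XT.nd (nat_lit 78) (nat_lit 0) (nat_lit 76) (XT.lf (nat_lit 76) (nat_lit 6986717044) (nat_lit 0) (nat_lit 2823679183) (nat_lit 1824) (nat_lit 3223915023) (nat_lit 515) (nat_lit 5) (nat_lit 514) (nat_lit 5) (nat_lit 538) (nat_lit 5) (nat_lit 587) (nat_lit 568) (nat_lit 405)) (XT.lf (nat_lit 76) (nat_lit 950929131) (nat_lit 0) (nat_lit 10177816435) (nat_lit 1824) (nat_lit 2036090821) (nat_lit 516) (nat_lit 5) (nat_lit 515) (nat_lit 5) (nat_lit 539) (nat_lit 5) (nat_lit 588) (nat_lit 568) (nat_lit 404))))))) (XT.nd (nat_lit 780) (nat_lit 19076) (nat_lit 0) (XT.nd (nat_lit 390) (nat_lit 3800) (nat_lit 0) (XT.nd (nat_lit 156) (nat_lit 0) (nat_lit 0) (XT.nd (nat_lit 78) (nat_lit 1748) (nat_lit 0) (XT.lf (nat_lit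 76) (nat_lit 8143765385) (nat_lit 0) (nat_lit 4377963504) (nat_lit 1824) (nat_lit 775278130) (nat_lit 516) (nat_lit 5) (nat_lit 515) (nat_lit 5) (nat_lit 539) (nat_lit 5) (nat_lit 589) (nat_lit 568) (nat_lit 403)) (XT.lf (nat_lit 0) (nat_lit 516810728) (nat_lit 1824) (nat_lit 11378082766) (nat_lit 1900) (nat_lit 1536606395) (nat_lit 492) (nat_lit 5) (nat_lit 516) (nat_lit 5) (nat_lit 517) (nat_lit 5) (nat_lit 590) (nat_lit 568) (nat_lit 402))) (XT.nd (nat_lit 78) (nat_lit 0) (nat_lit 76) (XT.lf (nat_lit 0) (nat_lit 1877591234) (nat_lit 1824) (nat_lit 4137111798) (nat_lit 1900) (nat_lit 7552812789) (nat_lit 492) (nat_lit 5) (nat_lit 516) (nat_lit 5) (nat_lit 517) (nat_lit 5) (nat_lit 591) (nat_lit 568) (nat_lit 401)) (XT.nd (nat_lit 78) (nat_lit 0) (nat_lit 0) (XT.lf (nat_lit 0) (nat_lit 3276571374) (nat_lit 1824) (nat_lit 10422993176) (nat_lit 76) (nat_lit 6468148) (nat_lit 493) (nat_lit 5) (nat_lit 517) (nat_lit 5) (nat_lit 494) (nat_lit 5) (nat_lit 592) (nat_lit 568) (nat_lit 400)) (XT.lf (nat_lit 0) (nat_lit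 4761093344) (nat_lit 1824) (nat_lit 2987919858) (nat_lit 76) (nat_lit 6097155766) (nat_lit 493) (nat_lit 5) (nat_lit 517) (nat_lit 5) (nat_lit 494) (nat_lit 5) (nat_lit 593) (nat_lit 568) (nat_lit 399))))) (XT.nd (nat_lit 156) (nat_lit 2052) (nat_lit 0) (XT.nd (nat_lit 78) (nat_lit 0) (nat_lit 0) (XT.lf (nat_lit 0) (nat_lit 4648177023) (nat_lit 1824) (nat_lit 1647291803) (nat_lit 1900) (nat_lit 7693236171) (nat_lit 469) (nat_lit 5) (nat_lit 493) (nat_lit 5) (nat_lit 494) (nat_lit 5) (nat_lit 594) (nat_lit 568) (nat_lit 398)) (XT.lf (nat_lit 0) (nat_lit 7900561641) (nat_lit 1900) (nat_lit 1694828008) (nat_lit 76) (nat_lit 4537901790) (nat_lit 469) (nat_lit 5) (nat_lit 494) (nat_lit 5) (nat_lit 470) (nat_lit 5) (nat_lit 595) (nat_lit 568) (nat_lit 397))) (XT.nd (nat_lit 78) (nat_lit 912) (nat_lit 0) (XT.lf (nat_lit 0) (nat_lit 6165116758) (nat_lit 1140) (nat_lit 3413903350) (nat_lit 1216) (nat_lit 4700924509) (nat_lit 454) (nat_lit 5) (nat_lit 469) (nat_lit 5) (nat_lit 470) (nat_lit 5) (nat_lit 596) (nat_lit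 568) (nat_lit 396)) (XT.nd (nat_lit 78) (nat_lit 912) (nat_lit 0) (XT.lf (nat_lit 0) (nat_lit 11311734933) (nat_lit 1216) (nat_lit 251673457) (nat_lit 76) (nat_lit 2865709003) (nat_lit 454) (nat_lit 5) (nat_lit 470) (nat_lit 5) (nat_lit 455) (nat_lit 5) (nat_lit 597) (nat_lit 568) (nat_lit 395)) (XT.lf (nat_lit 0) (nat_lit 7840377744) (nat_lit 912) (nat_lit 5302893804) (nat_lit 988) (nat_lit 1436718998) (nat_lit 442) (nat_lit 5) (nat_lit 454) (nat_lit 5) (nat_lit 455) (nat_lit 5) (nat_lit 598) (nat_lit 568) (nat_lit 394)))))) (XT.nd (nat_lit 390) (nat_lit 16340) (nat_lit 0) (XT.nd (nat_lit 156) (nat_lit 1748) (nat_lit 0) (XT.nd (nat_lit 78) (nat_lit 0) (nat_lit 0) (XT.lf (nat_lit 0) (nat_lit 282358482) (nat_lit 988) (nat_lit 13369581940) (nat_lit 76) (nat_lit 1081736142) (nat_lit 429) (nat_lit 5) (nat_lit 442) (nat_lit 5) (nat_lit 430) (nat_lit 5) (nat_lit 599) (nat_lit 568) (nat_lit 393)) (XT.lf (nat_lit 0) (nat_lit 2088092452) (nat_lit 988) (nat_lit 5222013795) (nat_lit 76) (nat_lit 7578710125) (nat_lit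 429) (nat_lit 5) (nat_lit 442) (nat_lit 5) (nat_lit 430) (nat_lit 5) (nat_lit 600) (nat_lit 568) (nat_lit 392))) (XT.nd (nat_lit 78) (nat_lit 912) (nat_lit 0) (XT.lf (nat_lit 0) (nat_lit 3120825374) (nat_lit 836) (nat_lit 820407863) (nat_lit 912) (nat_lit 11105600147) (nat_lit 418) (nat_lit 5) (nat_lit 429) (nat_lit 5) (nat_lit 430) (nat_lit 5) (nat_lit 601) (nat_lit 568) (nat_lit 391)) (XT.nd (nat_lit 78) (nat_lit 912) (nat_lit 0) (XT.lf (nat_lit 0) (nat_lit 5895514814) (nat_lit 912) (nat_lit 3552619408) (nat_lit 76) (nat_lit 5758595203) (nat_lit 418) (nat_lit 5) (nat_lit 430) (nat_lit 5) (nat_lit 419) (nat_lit 5) (nat_lit 602) (nat_lit 568) (nat_lit 390)) (XT.lf (nat_lit 0) (nat_lit 5040347051) (nat_lit 912) (nat_lit 2878018845) (nat_lit 988) (nat_lit 7450868054) (nat_lit 406) (nat_lit 5) (nat_lit 418) (nat_lit 5) (nat_lit 419) (nat_lit 5) (nat_lit 603) (nat_lit 568) (nat_lit 389))))) (XT.nd (nat_lit 3198) (nat_lit 912) (nat_lit 0) (XT.nd (nat_lit 3042) (nat_lit 15428) (nat_lit 0) (XT.lf (nat_lit 0) (nat_lit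 10021937169) (nat_lit 988) (nat_lit 1714842072) (nat_lit 76) (nat_lit 3797404298) (nat_lit 406) (nat_lit 5) (nat_lit 419) (nat_lit 5) (nat_lit 407) (nat_lit 5) (nat_lit 604) (nat_lit 568) (nat_lit 388)) (XT.nd (nat_lit 78) (nat_lit 456) (nat_lit 0) (XT.lf (nat_lit 0) (nat_lit 10874918954) (nat_lit 532) (nat_lit 5725731468) (nat_lit 76) (nat_lit 7585630767) (nat_lit 209) (nat_lit 5) (nat_lit 216) (nat_lit 5) (nat_lit 210) (nat_lit 5) (nat_lit 643) (nat_lit 568) (nat_lit 349)) (XT.lf (nat_lit 0) (nat_lit 9053118361) (nat_lit 456) (nat_lit 7212708573) (nat_lit 532) (nat_lit 8210587358) (nat_lit 203) (nat_lit 5) (nat_lit 209) (nat_lit 5) (nat_lit 210) (nat_lit 5) (nat_lit 644) (nat_lit 568) (nat_lit 348)))) (XT.nd (nat_lit 78) (nat_lit 912) (nat_lit 0) (XT.lf (nat_lit 0) (nat_lit 21813590918) (nat_lit 532) (nat_lit 589351418) (nat_lit 76) (nat_lit 2368427054) (nat_lit 203) (nat_lit 5) (nat_lit 210) (nat_lit 5) (nat_lit 204) (nat_lit 5) (nat_lit 645) (nat_lit 568) (nat_lit 347)) (XT.nd (nat_lit 78) (nat_lit 456)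 (nat_lit 0) (XT.lf (nat_lit 0) (nat_lit 2507711362) (nat_lit 456) (nat_lit 10407125266) (nat_lit 76) (nat_lit 12154293344) (nat_lit 197) (nat_lit 5) (nat_lit 203) (nat_lit 5) (nat_lit 198) (nat_lit 5) (nat_lit 646) (nat_lit 568) (nat_lit 346)) (XT.lf (nat_lit 0) (nat_lit 4890935539) (nat_lit 456) (nat_lit 3182877641) (nat_lit 532) (nat_lit 17298023518) (nat_lit 191) (nat_lit 5) (nat_lit 197) (nat_lit 5) (nat_lit 198) (nat_lit 5) (nat_lit 647) (nat_lit 568) (nat_lit 345))))))))
noncomputable def xc150 : XT := (XT.nd (nat_lit 75426) (nat_lit 0) (nat_lit 26296) (XT.nd (nat_lit 780) (nat_lit 1064) (nat_lit 0) (XT.nd (nat_lit 390) (nat_lit 1216) (nat_lit 0) (XT.nd (nat_lit 156) (nat_lit 836) (nat_lit 0) (XT.nd (nat_lit 78) (nat_lit 380) (nat_lit 0) (XT.lf (nat_lit 0) (nat_lit 13860488845) (nat_lit 532) (nat_lit 5094658893) (nat_lit 76) (nat_lit 6723264871) (nat_lit 191) (nat_lit 5) (nat_lit 198) (nat_lit 5) (nat_lit 192) (nat_lit 5) (nat_lit 648) (nat_lit 568) (nat_lit 344)) (XT.lf (nat_lit 0) (nat_lit 10711616536)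 (nat_lit 380) (nat_lit 9137169138) (nat_lit 456) (nat_lit 6140616692) (nat_lit 186) (nat_lit 5) (nat_lit 191) (nat_lit 5) (nat_lit 192) (nat_lit 5) (nat_lit 649) (nat_lit 568) (nat_lit 343))) (XT.nd (nat_lit 78) (nat_lit 456) (nat_lit 0) (XT.lf (nat_lit 0) (nat_lit 591859852) (nat_lit 380) (nat_lit 25404234618) (nat_lit 456) (nat_lit 309732608) (nat_lit 181) (nat_lit 5) (nat_lit 186) (nat_lit 5) (nat_lit 187) (nat_lit 5) (nat_lit 650) (nat_lit 568) (nat_lit 342)) (XT.nd (nat_lit 78) (nat_lit 380) (nat_lit 0) (XT.lf (nat_lit 0) (nat_lit 5722850012) (nat_lit 456) (nat_lit 9745476323) (nat_lit 76) (nat_lit 11156341521) (nat_lit 180) (nat_lit 5) (nat_lit 186) (nat_lit 5) (nat_lit 181) (nat_lit 5) (nat_lit 651) (nat_lit 568) (nat_lit 341)) (XT.lf (nat_lit 0) (nat_lit 6620152594) (nat_lit 380) (nat_lit 5290171868) (nat_lit 456) (nat_lit 15038752369) (nat_lit 175) (nat_lit 5) (nat_lit 180) (nat_lit 5) (nat_lit 181) (nat_lit 5) (nat_lit 652) (nat_lit 568) (nat_lit 340))))) (XT.nd (nat_lit 156) (nat_lit 836) (nat_lit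 0) (XT.nd (nat_lit 78) (nat_lit 380) (nat_lit 0) (XT.lf (nat_lit 0) (nat_lit 18315867035) (nat_lit 456) (nat_lit 3873994775) (nat_lit 76) (nat_lit 5088225877) (nat_lit 175) (nat_lit 5) (nat_lit 181) (nat_lit 5) (nat_lit 176) (nat_lit 5) (nat_lit 653) (nat_lit 568) (nat_lit 339)) (XT.lf (nat_lit 0) (nat_lit 13039112730) (nat_lit 380) (nat_lit 11925620715) (nat_lit 456) (nat_lit 2646641129) (nat_lit 170) (nat_lit 5) (nat_lit 175) (nat_lit 5) (nat_lit 176) (nat_lit 5) (nat_lit 654) (nat_lit 568) (nat_lit 338))) (XT.nd (nat_lit 78) (nat_lit 380) (nat_lit 0) (XT.lf (nat_lit 0) (nat_lit 2391833365) (nat_lit 380) (nat_lit 1390873381) (nat_lit 456) (nat_lit 24167383055) (nat_lit 164) (nat_lit 5) (nat_lit 169) (nat_lit 5) (nat_lit 170) (nat_lit 5) (nat_lit 655) (nat_lit 568) (nat_lit 337)) (XT.nd (nat_lit 78) (nat_lit 380) (nat_lit 0) (XT.lf (nat_lit 0) (nat_lit 10459968605) (nat_lit 456) (nat_lit 8486731207) (nat_lit 76) (nat_lit 9345434393) (nat_lit 164) (nat_lit 5) (nat_lit 170) (nat_lit 5) (nat_lit 165) (nat_lit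 5) (nat_lit 656) (nat_lit 568) (nat_lit 336)) (XT.lf (nat_lit 0) (nat_lit 9028623644) (nat_lit 380) (nat_lit 8305631196) (nat_lit 456) (nat_lit 11305495142) (nat_lit 159) (nat_lit 5) (nat_lit 164) (nat_lit 5) (nat_lit 165) (nat_lit 5) (nat_lit 657) (nat_lit 568) (nat_lit 335)))))) (XT.nd (nat_lit 74256) (nat_lit 0) (nat_lit 29184) (XT.nd (nat_lit 156) (nat_lit 684) (nat_lit 0) (XT.nd (nat_lit 78) (nat_lit 380) (nat_lit 0) (XT.lf (nat_lit 0) (nat_lit 24415573193) (nat_lit 456) (nat_lit 2007603200) (nat_lit 76) (nat_lit 2569750821) (nat_lit 159) (nat_lit 5) (nat_lit 165) (nat_lit 5) (nat_lit 160) (nat_lit 5) (nat_lit 658) (nat_lit 568) (nat_lit 334)) (XT.lf (nat_lit 0) (nat_lit 2411683317) (nat_lit 380) (nat_lit 13268515736) (nat_lit 76) (nat_lit 13669546119) (nat_lit 154) (nat_lit 5) (nat_lit 159) (nat_lit 5) (nat_lit 155) (nat_lit 5) (nat_lit 659) (nat_lit 568) (nat_lit 333))) (XT.nd (nat_lit 78) (nat_lit 304) (nat_lit 0) (XT.lf (nat_lit 0) (nat_lit 4872416242) (nat_lit 380) (nat_lit 4647818682) (nat_lit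 456) (nat_lit 20192039015) (nat_lit 149) (nat_lit 5) (nat_lit 154) (nat_lit 5) (nat_lit 155) (nat_lit 5) (nat_lit 660) (nat_lit 568) (nat_lit 332)) (XT.nd (nat_lit 78) (nat_lit 304) (nat_lit 0) (XT.lf (nat_lit 0) (nat_lit 16899265720) (nat_lit 456) (nat_lit 6574451988) (nat_lit 76) (nat_lit 6605769473) (nat_lit 149) (nat_lit 5) (nat_lit 155) (nat_lit 5) (nat_lit 150) (nat_lit 5) (nat_lit 661) (nat_lit 568) (nat_lit 331)) (XT.lf (nat_lit 0) (nat_lit 12178608668) (nat_lit 304) (nat_lit 12352997158) (nat_lit 380) (nat_lit 5920324347) (nat_lit 145) (nat_lit 5) (nat_lit 149) (nat_lit 5) (nat_lit 150) (nat_lit 5) (nat_lit 662) (nat_lit 568) (nat_lit 330))))) (XT.nd (nat_lit 156) (nat_lit 0) (nat_lit 76) (XT.nd (nat_lit 78) (nat_lit 0) (nat_lit 0) (XT.lf (nat_lit 0) (nat_lit 2711898651) (nat_lit 1748) (nat_lit 1418395937) (nat_lit 1748) (nat_lit 1418395937) (nat_lit 529) (nat_lit 3) (nat_lit 552) (nat_lit 3) (nat_lit 552) (nat_lit 5) (nat_lit 569) (nat_lit 569) (nat_lit 422)) (XT.lf (nat_lit 76) (nat_lit 2726216362)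 (nat_lit 0) (nat_lit 3332256058) (nat_lit 1748) (nat_lit 5138255627) (nat_lit 530) (nat_lit 5) (nat_lit 529) (nat_lit 3) (nat_lit 552) (nat_lit 5) (nat_lit 570) (nat_lit 569) (nat_lit 421))) (XT.nd (nat_lit 78) (nat_lit 0) (nat_lit 0) (XT.lf (nat_lit 0) (nat_lit 6721242543) (nat_lit 1672) (nat_lit 2877843444) (nat_lit 1748) (nat_lit 1698668438) (nat_lit 530) (nat_lit 5) (nat_lit 552) (nat_lit 5) (nat_lit 553) (nat_lit 5) (nat_lit 571) (nat_lit 569) (nat_lit 420)) (XT.nd (nat_lit 78) (nat_lit 0) (nat_lit 76) (XT.lf (nat_lit 76) (nat_lit 2833962883) (nat_lit 0) (nat_lit 4589298871) (nat_lit 1748) (nat_lit 3977020168) (nat_lit 531) (nat_lit 5) (nat_lit 530) (nat_lit 5) (nat_lit 553) (nat_lit 5) (nat_lit 572) (nat_lit 569) (nat_lit 419)) (XT.lf (nat_lit 0) (nat_lit 8147942966) (nat_lit 1672) (nat_lit 2817058186) (nat_lit 1748) (nat_lit 539686840) (nat_lit 531) (nat_lit 5) (nat_lit 553) (nat_lit 5) (nat_lit 554) (nat_lit 5) (nat_lit 573) (nat_lit 569) (nat_lit 418))))))) (XT.nd (nat_lit 780) (nat_lit 1444) (nat_lit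 0) (XT.nd (nat_lit 390) (nat_lit 0) (nat_lit 0) (XT.nd (nat_lit 156) (nat_lit 1596) (nat_lit 0) (XT.nd (nat_lit 78) (nat_lit 0) (nat_lit 0) (XT.lf (nat_lit 76) (nat_lit 3048848830) (nat_lit 0) (nat_lit 5874536486) (nat_lit 1748) (nat_lit 2687071965) (nat_lit 532) (nat_lit 5) (nat_lit 531) (nat_lit 5) (nat_lit 554) (nat_lit 5) (nat_lit 574) (nat_lit 569) (nat_lit 417)) (XT.lf (nat_lit 76) (nat_lit 9062379593) (nat_lit 0) (nat_lit 657162305) (nat_lit 1748) (nat_lit 1998696387) (nat_lit 532) (nat_lit 5) (nat_lit 531) (nat_lit 5) (nat_lit 554) (nat_lit 5) (nat_lit 575) (nat_lit 569) (nat_lit 416))) (XT.nd (nat_lit 78) (nat_lit 1672) (nat_lit 0) (XT.lf (nat_lit 76) (nat_lit 3373938553) (nat_lit 0) (nat_lit 7196481394) (nat_lit 1748) (nat_lit 1256979424) (nat_lit 533) (nat_lit 5) (nat_lit 532) (nat_lit 5) (nat_lit 555) (nat_lit 5) (nat_lit 576) (nat_lit 569) (nat_lit 415)) (XT.nd (nat_lit 78) (nat_lit 1672) (nat_lit 0) (XT.lf (nat_lit 76) (nat_lit 9547943639) (nat_lit 0) (nat_lit 1899335442) (nat_lit 1748) (nat_lit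 491285749) (nat_lit 533) (nat_lit 5) (nat_lit 532) (nat_lit 5) (nat_lit 555) (nat_lit 5) (nat_lit 577) (nat_lit 569) (nat_lit 414)) (XT.lf (nat_lit 0) (nat_lit 320763044) (nat_lit 1748) (nat_lit 8240757000) (nat_lit 1824) (nat_lit 3489699518) (nat_lit 510) (nat_lit 5) (nat_lit 533) (nat_lit 5) (nat_lit 534) (nat_lit 5) (nat_lit 578) (nat_lit 569) (nat_lit 413))))) (XT.nd (nat_lit 156) (nat_lit 0) (nat_lit 76) (XT.nd (nat_lit 78) (nat_lit 0) (nat_lit 76) (XT.lf (nat_lit 0) (nat_lit 1158433039) (nat_lit 1748) (nat_lit 2022002614) (nat_lit 1824) (nat_lit 8985308012) (nat_lit 510) (nat_lit 5) (nat_lit 533) (nat_lit 5) (nat_lit 534) (nat_lit 5) (nat_lit 579) (nat_lit 569) (nat_lit 412)) (XT.lf (nat_lit 0) (nat_lit 2043911395) (nat_lit 1748) (nat_lit 7927070154) (nat_lit 1824) (nat_lit 2310955992) (nat_lit 511) (nat_lit 5) (nat_lit 534) (nat_lit 5) (nat_lit 535) (nat_lit 5) (nat_lit 580) (nat_lit 569) (nat_lit 411))) (XT.nd (nat_lit 78) (nat_lit 0) (nat_lit 76) (XT.lf (nat_lit 0) (nat_lit 2969517819) (nat_lit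 1748) (nat_lit 1542944602) (nat_lit 1824) (nat_lit 7887544884) (nat_lit 511) (nat_lit 5) (nat_lit 534) (nat_lit 5) (nat_lit 535) (nat_lit 5) (nat_lit 581) (nat_lit 569) (nat_lit 410)) (XT.nd (nat_lit 78) (nat_lit 0) (nat_lit 0) (XT.lf (nat_lit 0) (nat_lit 3941304360) (nat_lit 1748) (nat_lit 7500460547) (nat_lit 1824) (nat_lit 1078120572) (nat_lit 512) (nat_lit 5) (nat_lit 535) (nat_lit 5) (nat_lit 536) (nat_lit 5) (nat_lit 582) (nat_lit 569) (nat_lit 409)) (XT.lf (nat_lit 0) (nat_lit 4960980452) (nat_lit 1748) (nat_lit 946288112) (nat_lit 1824) (nat_lit 6734323943) (nat_lit 512) (nat_lit 5) (nat_lit 535) (nat_lit 5) (nat_lit 536) (nat_lit 5) (nat_lit 583) (nat_lit 569) (nat_lit 408)))))) (XT.nd (nat_lit 390) (nat_lit 1596) (nat_lit 0) (XT.nd (nat_lit 156) (nat_lit 0) (nat_lit 76) (XT.nd (nat_lit 78) (nat_lit 0) (nat_lit 76) (XT.lf (nat_lit 76) (nat_lit 5806952064) (nat_lit 0) (nat_lit 220180413) (nat_lit 1824) (nat_lit 6738079908) (nat_lit 513) (nat_lit 5) (nat_lit 512) (nat_lit 5) (nat_lit 536) (nat_lit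 5) (nat_lit 584) (nat_lit 569) (nat_lit 407)) (XT.lf (nat_lit 0) (nat_lit 7145809495) (nat_lit 1748) (nat_lit 227740743) (nat_lit 1824) (nat_lit 5517130737) (nat_lit 513) (nat_lit 5) (nat_lit 536) (nat_lit 5) (nat_lit 537) (nat_lit 5) (nat_lit 585) (nat_lit 569) (nat_lit 406))) (XT.nd (nat_lit 78) (nat_lit 0) (nat_lit 76) (XT.lf (nat_lit 76) (nat_lit 6715802207) (nat_lit 0) (nat_lit 1604919952) (nat_lit 1824) (nat_lit 4697259881) (nat_lit 514) (nat_lit 5) (nat_lit 513) (nat_lit 5) (nat_lit 537) (nat_lit 5) (nat_lit 586) (nat_lit 569) (nat_lit 405)) (XT.nd (nat_lit 78) (nat_lit 0) (nat_lit 0) (XT.lf (nat_lit 76) (nat_lit 625522098) (nat_lit 0) (nat_lit 8915979178) (nat_lit 1824) (nat_lit 3605880826) (nat_lit 515) (nat_lit 5) (nat_lit 514) (nat_lit 5) (nat_lit 538) (nat_lit 5) (nat_lit 587) (nat_lit 569) (nat_lit 404)) (XT.lf (nat_lit 76) (nat_lit 7758097626) (nat_lit 0) (nat_lit 3070595668) (nat_lit 1824) (nat_lit 2449837255) (nat_lit 515) (nat_lit 5) (nat_lit 514) (nat_lit 5) (nat_lit 538) (nat_lit 5) (nat_lit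 588) (nat_lit 569) (nat_lit 403))))) (XT.nd (nat_lit 234) (nat_lit 0) (nat_lit 76) (XT.nd (nat_lit 78) (nat_lit 1824) (nat_lit 0) (XT.lf (nat_lit 76) (nat_lit 1615025326) (nat_lit 0) (nat_lit 10545240933) (nat_lit 1824) (nat_lit 1251663289) (nat_lit 516) (nat_lit 5) (nat_lit 515) (nat_lit 5) (nat_lit 539) (nat_lit 5) (nat_lit 589) (nat_lit 569) (nat_lit 402)) (XT.nd (nat_lit 78) (nat_lit 0) (nat_lit 76) (XT.lf (nat_lit 0) (nat_lit 17947740) (nat_lit 1824) (nat_lit 4608109663) (nat_lit 1900) (nat_lit 8921001545) (nat_lit 491) (nat_lit 5) (nat_lit 515) (nat_lit 5) (nat_lit 516) (nat_lit 5) (nat_lit 590) (nat_lit 569) (nat_lit 401)) (XT.lf (nat_lit 0) (nat_lit 1313039648) (nat_lit 1824) (nat_lit 10950091223) (nat_lit 1900) (nat_lit 1421257932) (nat_lit 492) (nat_lit 5) (nat_lit 516) (nat_lit 5) (nat_lit 517) (nat_lit 5) (nat_lit 591) (nat_lit 569) (nat_lit 400)))) (XT.nd (nat_lit 78) (nat_lit 0) (nat_lit 0) (XT.lf (nat_lit 0) (nat_lit 2685626104) (nat_lit 1824) (nat_lit 3577154820) (nat_lit 1900) (nat_lit 7560652779)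 (nat_lit 492) (nat_lit 5) (nat_lit 516) (nat_lit 5) (nat_lit 517) (nat_lit 5) (nat_lit 592) (nat_lit 569) (nat_lit 399)) (XT.nd (nat_lit 78) (nat_lit 0) (nat_lit 76) (XT.lf (nat_lit 76) (nat_lit 3987215515) (nat_lit 0) (nat_lit 114364792) (nat_lit 1900) (nat_lit 9863361167) (nat_lit 493) (nat_lit 5) (nat_lit 492) (nat_lit 5) (nat_lit 517) (nat_lit 5) (nat_lit 593) (nat_lit 569) (nat_lit 398)) (XT.lf (nat_lit 0) (nat_lit 5600173029) (nat_lit 1824) (nat_lit 2406041380) (nat_lit 76) (nat_lit 6101978892) (nat_lit 493) (nat_lit 5) (nat_lit 517) (nat_lit 5) (nat_lit 494) (nat_lit 5) (nat_lit 594) (nat_lit 569) (nat_lit 397))))))))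
noncomputable def xc151 : XT := (XT.nd (nat_lit 4446) (nat_lit 2660) (nat_lit 0) (XT.nd (nat_lit 3666) (nat_lit 3192) (nat_lit 0) (XT.nd (nat_lit 390) (nat_lit 16720) (nat_lit 0) (XT.nd (nat_lit 156) (nat_lit 2052) (nat_lit 0) (XT.nd (nat_lit 78) (nat_lit 0) (nat_lit 0) (XT.lf (nat_lit 0) (nat_lit 5378556143) (nat_lit 1824) (nat_lit 1776232955) (nat_lit 1900) (nat_lit 7099000321) (nat_lit 469) (nat_lit 5) (nat_lit 493) (nat_lit 5) (nat_lit 494) (nat_lit 5) (nat_lit 595) (nat_lit 569) (nat_lit 396)) (XT.lf (nat_lit 0) (nat_lit 8776992119) (nat_lit 1900) (nat_lit 1088794644) (nat_lit 76) (nat_lit 4535781081) (nat_lit 469) (nat_lit 5) (nat_lit 494) (nat_lit 5) (nat_lit 470) (nat_lit 5) (nat_lit 596) (nat_lit 569) (nat_lit 395))) (XT.nd (nat_lit 78) (nat_lit 912) (nat_lit 0) (XT.lf (nat_lit 0) (nat_lit 6924138952) (nat_lit 1140) (nat_lit 3554921666) (nat_lit 1216) (nat_lit 4072293062) (nat_lit 454) (nat_lit 5) (nat_lit 469) (nat_lit 5) (nat_lit 470) (nat_lit 5) (nat_lit 597) (nat_lit 569) (nat_lit 394)) (XT.nd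 (nat_lit 78) (nat_lit 0) (nat_lit 0) (XT.lf (nat_lit 0) (nat_lit 385984710) (nat_lit 912) (nat_lit 11848596706) (nat_lit 988) (nat_lit 2469165867) (nat_lit 442) (nat_lit 5) (nat_lit 454) (nat_lit 5) (nat_lit 455) (nat_lit 5) (nat_lit 598) (nat_lit 569) (nat_lit 393)) (XT.lf (nat_lit 0) (nat_lit 8630619747) (nat_lit 912) (nat_lit 5460125708) (nat_lit 988) (nat_lit 767132906) (nat_lit 442) (nat_lit 5) (nat_lit 454) (nat_lit 5) (nat_lit 455) (nat_lit 5) (nat_lit 599) (nat_lit 569) (nat_lit 392))))) (XT.nd (nat_lit 156) (nat_lit 15732) (nat_lit 0) (XT.nd (nat_lit 78) (nat_lit 0) (nat_lit 0) (XT.lf (nat_lit 0) (nat_lit 967530510) (nat_lit 988) (nat_lit 12984705024) (nat_lit 76) (nat_lit 1062505008) (nat_lit 429) (nat_lit 5) (nat_lit 442) (nat_lit 5) (nat_lit 430) (nat_lit 5) (nat_lit 600) (nat_lit 569) (nat_lit 391)) (XT.lf (nat_lit 0) (nat_lit 2796055142) (nat_lit 988) (nat_lit 4686975095) (nat_lit 76) (nat_lit 7690219762) (nat_lit 429) (nat_lit 5) (nat_lit 442) (nat_lit 5) (nat_lit 430) (nat_lit 5) (nat_lit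 601) (nat_lit 569) (nat_lit 390))) (XT.nd (nat_lit 78) (nat_lit 14896) (nat_lit 0) (XT.lf (nat_lit 0) (nat_lit 3818513759) (nat_lit 836) (nat_lit 858806830) (nat_lit 912) (nat_lit 10657285894) (nat_lit 418) (nat_lit 5) (nat_lit 429) (nat_lit 5) (nat_lit 430) (nat_lit 5) (nat_lit 602) (nat_lit 569) (nat_lit 389)) (XT.nd (nat_lit 2964) (nat_lit 14896) (nat_lit 0) (XT.lf (nat_lit 0) (nat_lit 6657660314) (nat_lit 912) (nat_lit 2987810790) (nat_lit 76) (nat_lit 5852490248) (nat_lit 418) (nat_lit 5) (nat_lit 430) (nat_lit 5) (nat_lit 419) (nat_lit 5) (nat_lit 603) (nat_lit 569) (nat_lit 388)) (XT.lf (nat_lit 0) (nat_lit 19819426110) (nat_lit 532) (nat_lit 656760836) (nat_lit 76) (nat_lit 3323100009) (nat_lit 222) (nat_lit 5) (nat_lit 229) (nat_lit 5) (nat_lit 223) (nat_lit 5) (nat_lit 641) (nat_lit 569) (nat_lit 350)))))) (XT.nd (nat_lit 390) (nat_lit 1748) (nat_lit 0) (XT.nd (nat_lit 156) (nat_lit 456) (nat_lit 0) (XT.nd (nat_lit 78) (nat_lit 456) (nat_lit 0) (XT.lf (nat_lit 0) (nat_lit 1045745259) (nat_lit 532)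 (nat_lit 10185035171) (nat_lit 76) (nat_lit 12852053326) (nat_lit 215) (nat_lit 5) (nat_lit 222) (nat_lit 5) (nat_lit 216) (nat_lit 5) (nat_lit 642) (nat_lit 569) (nat_lit 349)) (XT.lf (nat_lit 0) (nat_lit 4404655159) (nat_lit 456) (nat_lit 1742045363) (nat_lit 532) (nat_lit 18224262379) (nat_lit 209) (nat_lit 5) (nat_lit 215) (nat_lit 5) (nat_lit 216) (nat_lit 5) (nat_lit 643) (nat_lit 569) (nat_lit 348))) (XT.nd (nat_lit 78) (nat_lit 456) (nat_lit 0) (XT.lf (nat_lit 0) (nat_lit 11465083730) (nat_lit 532) (nat_lit 5298421548) (nat_lit 76) (nat_lit 7899041266) (nat_lit 209) (nat_lit 5) (nat_lit 216) (nat_lit 5) (nat_lit 210) (nat_lit 5) (nat_lit 644) (nat_lit 569) (nat_lit 347)) (XT.nd (nat_lit 78) (nat_lit 0) (nat_lit 0) (XT.lf (nat_lit 0) (nat_lit 9772440642) (nat_lit 456) (nat_lit 7187556782) (nat_lit 532) (nat_lit 7998561268) (nat_lit 203) (nat_lit 5) (nat_lit 209) (nat_lit 5) (nat_lit 210) (nat_lit 5) (nat_lit 645) (nat_lit 569) (nat_lit 346)) (XT.lf (nat_lit 0) (nat_lit 22612562588) (nat_lit 532) (nat_lit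 67271875) (nat_lit 76) (nat_lit 2579701646) (nat_lit 203) (nat_lit 5) (nat_lit 210) (nat_lit 5) (nat_lit 204) (nat_lit 5) (nat_lit 646) (nat_lit 569) (nat_lit 345))))) (XT.nd (nat_lit 156) (nat_lit 836) (nat_lit 0) (XT.nd (nat_lit 78) (nat_lit 456) (nat_lit 0) (XT.lf (nat_lit 0) (nat_lit 2919281238) (nat_lit 456) (nat_lit 10080104044) (nat_lit 76) (nat_lit 12563892565) (nat_lit 197) (nat_lit 5) (nat_lit 203) (nat_lit 5) (nat_lit 198) (nat_lit 5) (nat_lit 647) (nat_lit 569) (nat_lit 344)) (XT.lf (nat_lit 0) (nat_lit 5520397164) (nat_lit 456) (nat_lit 3072673126) (nat_lit 532) (nat_lit 17279041240) (nat_lit 191) (nat_lit 5) (nat_lit 197) (nat_lit 5) (nat_lit 198) (nat_lit 5) (nat_lit 648) (nat_lit 569) (nat_lit 343))) (XT.nd (nat_lit 78) (nat_lit 836) (nat_lit 0) (XT.lf (nat_lit 0) (nat_lit 14489570850) (nat_lit 532) (nat_lit 4669418748) (nat_lit 76) (nat_lit 7025947654) (nat_lit 191) (nat_lit 5) (nat_lit 198) (nat_lit 5) (nat_lit 192) (nat_lit 5) (nat_lit 649) (nat_lit 569) (nat_lit 342)) (XT.nd (nat_lit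 78) (nat_lit 456) (nat_lit 0) (XT.lf (nat_lit 0) (nat_lit 11449514207) (nat_lit 380) (nat_lit 9144619936) (nat_lit 456) (nat_lit 5908082772) (nat_lit 186) (nat_lit 5) (nat_lit 191) (nat_lit 5) (nat_lit 192) (nat_lit 5) (nat_lit 650) (nat_lit 569) (nat_lit 341)) (XT.lf (nat_lit 0) (nat_lit 36586872) (nat_lit 456) (nat_lit 25695542726) (nat_lit 76) (nat_lit 1092881824) (nat_lit 180) (nat_lit 5) (nat_lit 186) (nat_lit 5) (nat_lit 181) (nat_lit 5) (nat_lit 651) (nat_lit 569) (nat_lit 340))))))) (XT.nd (nat_lit 780) (nat_lit 304) (nat_lit 0) (XT.nd (nat_lit 390) (nat_lit 1140) (nat_lit 0) (XT.nd (nat_lit 156) (nat_lit 836) (nat_lit 0) (XT.nd (nat_lit 78) (nat_lit 380) (nat_lit 0) (XT.lf (nat_lit 0) (nat_lit 6178846905) (nat_lit 456) (nat_lit 9420138167) (nat_lit 76) (nat_lit 11551339650) (nat_lit 180) (nat_lit 5) (nat_lit 186) (nat_lit 5) (nat_lit 181) (nat_lit 5) (nat_lit 652) (nat_lit 569) (nat_lit 339)) (XT.lf (nat_lit 0) (nat_lit 7269380646) (nat_lit 380) (nat_lit 5217348908) (nat_lit 456) (nat_lit 14994559259)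 (nat_lit 175) (nat_lit 5) (nat_lit 180) (nat_lit 5) (nat_lit 181) (nat_lit 5) (nat_lit 653) (nat_lit 569) (nat_lit 338))) (XT.nd (nat_lit 78) (nat_lit 836) (nat_lit 0) (XT.lf (nat_lit 0) (nat_lit 19014888653) (nat_lit 456) (nat_lit 3439283696) (nat_lit 76) (nat_lit 5362817533) (nat_lit 175) (nat_lit 5) (nat_lit 181) (nat_lit 5) (nat_lit 176) (nat_lit 5) (nat_lit 654) (nat_lit 569) (nat_lit 337)) (XT.nd (nat_lit 78) (nat_lit 456) (nat_lit 0) (XT.lf (nat_lit 0) (nat_lit 13808716281) (nat_lit 380) (nat_lit 11984796103) (nat_lit 456) (nat_lit 2363494631) (nat_lit 170) (nat_lit 5) (nat_lit 175) (nat_lit 5) (nat_lit 176) (nat_lit 5) (nat_lit 655) (nat_lit 569) (nat_lit 336)) (XT.lf (nat_lit 0) (nat_lit 2949527789) (nat_lit 380) (nat_lit 1237311643) (nat_lit 456) (nat_lit 24315677438) (nat_lit 164) (nat_lit 5) (nat_lit 169) (nat_lit 5) (nat_lit 170) (nat_lit 5) (nat_lit 656) (nat_lit 569) (nat_lit 335))))) (XT.nd (nat_lit 156) (nat_lit 760) (nat_lit 0) (XT.nd (nat_lit 78) (nat_lit 380) (nat_lit 0) (XT.lf (nat_lit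 0) (nat_lit 10992360315) (nat_lit 456) (nat_lit 8151314017) (nat_lit 76) (nat_lit 9707833654) (nat_lit 164) (nat_lit 5) (nat_lit 170) (nat_lit 5) (nat_lit 165) (nat_lit 5) (nat_lit 657) (nat_lit 569) (nat_lit 334)) (XT.lf (nat_lit 0) (nat_lit 9711024564) (nat_lit 380) (nat_lit 8290028810) (nat_lit 456) (nat_lit 11205084383) (nat_lit 159) (nat_lit 5) (nat_lit 164) (nat_lit 5) (nat_lit 165) (nat_lit 5) (nat_lit 658) (nat_lit 569) (nat_lit 333))) (XT.nd (nat_lit 78) (nat_lit 760) (nat_lit 0) (XT.lf (nat_lit 0) (nat_lit 25218878040) (nat_lit 456) (nat_lit 1550641677) (nat_lit 76) (nat_lit 2796961314) (nat_lit 159) (nat_lit 5) (nat_lit 165) (nat_lit 5) (nat_lit 160) (nat_lit 5) (nat_lit 659) (nat_lit 569) (nat_lit 332)) (XT.nd (nat_lit 78) (nat_lit 380) (nat_lit 0) (XT.lf (nat_lit 0) (nat_lit 2774011465) (nat_lit 380) (nat_lit 13035864127) (nat_lit 76) (nat_lit 14120577923) (nat_lit 154) (nat_lit 5) (nat_lit 159) (nat_lit 5) (nat_lit 155) (nat_lit 5) (nat_lit 660) (nat_lit 569) (nat_lit 331)) (XT.lf (nat_lit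 0) (nat_lit 5464610031) (nat_lit 380) (nat_lit 4557177573) (nat_lit 456) (nat_lit 20278504275) (nat_lit 149) (nat_lit 5) (nat_lit 154) (nat_lit 5) (nat_lit 155) (nat_lit 5) (nat_lit 661) (nat_lit 569) (nat_lit 330)))))) (XT.nd (nat_lit 74256) (nat_lit 0) (nat_lit 27664) (XT.nd (nat_lit 74022) (nat_lit 0) (nat_lit 29184) (XT.nd (nat_lit 78) (nat_lit 304) (nat_lit 0) (XT.lf (nat_lit 0) (nat_lit 17543466738) (nat_lit 456) (nat_lit 6215959688) (nat_lit 76) (nat_lit 6915521694) (nat_lit 149) (nat_lit 5) (nat_lit 155) (nat_lit 5) (nat_lit 150) (nat_lit 5) (nat_lit 662) (nat_lit 569) (nat_lit 329)) (XT.lf (nat_lit 0) (nat_lit 12908938620) (nat_lit 304) (nat_lit 12416671152) (nat_lit 380) (nat_lit 5729287167) (nat_lit 145) (nat_lit 5) (nat_lit 149) (nat_lit 5) (nat_lit 150) (nat_lit 5) (nat_lit 663) (nat_lit 569) (nat_lit 328))) (XT.nd (nat_lit 78) (nat_lit 0) (nat_lit 0) (XT.lf (nat_lit 0) (nat_lit 3325219704) (nat_lit 1748) (nat_lit 1161622507) (nat_lit 1748) (nat_lit 1161622507) (nat_lit 529) (nat_lit 3) (nat_lit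 552) (nat_lit 3) (nat_lit 552) (nat_lit 5) (nat_lit 570) (nat_lit 570) (nat_lit 420)) (XT.nd (nat_lit 78) (nat_lit 0) (nat_lit 76) (XT.lf (nat_lit 76) (nat_lit 3347271527) (nat_lit 0) (nat_lit 3932289969) (nat_lit 1748) (nat_lit 4119067512) (nat_lit 530) (nat_lit 5) (nat_lit 529) (nat_lit 3) (nat_lit 552) (nat_lit 5) (nat_lit 571) (nat_lit 570) (nat_lit 419)) (XT.lf (nat_lit 0) (nat_lit 7930624760) (nat_lit 1672) (nat_lit 2354981145) (nat_lit 1748) (nat_lit 1216569945) (nat_lit 530) (nat_lit 5) (nat_lit 552) (nat_lit 5) (nat_lit 553) (nat_lit 5) (nat_lit 572) (nat_lit 570) (nat_lit 418))))) (XT.nd (nat_lit 234) (nat_lit 1596) (nat_lit 0) (XT.nd (nat_lit 78) (nat_lit 0) (nat_lit 76) (XT.lf (nat_lit 76) (nat_lit 3467242762) (nat_lit 0) (nat_lit 5162107672) (nat_lit 1748) (nat_lit 2977750817) (nat_lit 531) (nat_lit 5) (nat_lit 530) (nat_lit 5) (nat_lit 553) (nat_lit 5) (nat_lit 573) (nat_lit 570) (nat_lit 417)) (XT.nd (nat_lit 78) (nat_lit 0) (nat_lit 0) (XT.lf (nat_lit 0) (nat_lit 9344725673) (nat_lit 1672)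 (nat_lit 2284271850) (nat_lit 1748) (nat_lit 85074575) (nat_lit 531) (nat_lit 5) (nat_lit 553) (nat_lit 5) (nat_lit 554) (nat_lit 5) (nat_lit 574) (nat_lit 570) (nat_lit 416)) (XT.lf (nat_lit 76) (nat_lit 3695077467) (nat_lit 0) (nat_lit 6424128189) (nat_lit 1748) (nat_lit 1703081191) (nat_lit 532) (nat_lit 5) (nat_lit 531) (nat_lit 5) (nat_lit 554) (nat_lit 5) (nat_lit 575) (nat_lit 570) (nat_lit 415)))) (XT.nd (nat_lit 78) (nat_lit 1672) (nat_lit 0) (XT.lf (nat_lit 76) (nat_lit 9817403323) (nat_lit 0) (nat_lit 1093933956) (nat_lit 1748) (nat_lit 1021285792) (nat_lit 532) (nat_lit 5) (nat_lit 531) (nat_lit 5) (nat_lit 554) (nat_lit 5) (nat_lit 576) (nat_lit 570) (nat_lit 414)) (XT.nd (nat_lit 78) (nat_lit 1748) (nat_lit 0) (XT.lf (nat_lit 76) (nat_lit 4033999534) (nat_lit 0) (nat_lit 7726827295) (nat_lit 1748) (nat_lit 283509296) (nat_lit 533) (nat_lit 5) (nat_lit 532) (nat_lit 5) (nat_lit 555) (nat_lit 5) (nat_lit 577) (nat_lit 570) (nat_lit 413)) (XT.lf (nat_lit 0) (nat_lit 471649692) (nat_lit 1748) (nat_lit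 1841346924) (nat_lit 1824) (nat_lit 9845050752) (nat_lit 509) (nat_lit 5) (nat_lit 532) (nat_lit 5) (nat_lit 533) (nat_lit 5) (nat_lit 578) (nat_lit 570) (nat_lit 412))))))))
noncomputable def xc152 : XT := (XT.nd (nat_lit 1560) (nat_lit 20824) (nat_lit 0) (XT.nd (nat_lit 780) (nat_lit 4256) (nat_lit 0) (XT.nd (nat_lit 390) (nat_lit 0) (nat_lit 152) (XT.nd (nat_lit 156) (nat_lit 0) (nat_lit 76) (XT.nd (nat_lit 78) (nat_lit 0) (nat_lit 0) (XT.lf (nat_lit 0) (nat_lit 1275907793) (nat_lit 1748) (nat_lit 7794250036) (nat_lit 1824) (nat_lit 3203082074) (nat_lit 510) (nat_lit 5) (nat_lit 533) (nat_lit 5) (nat_lit 534) (nat_lit 5) (nat_lit 579) (nat_lit 570) (nat_lit 411)) (XT.lf (nat_lit 0) (nat_lit 2111728650) (nat_lit 1748) (nat_lit 1463107270) (nat_lit 1824) (nat_lit 8815591197) (nat_lit 510) (nat_lit 5) (nat_lit 533) (nat_lit 5) (nat_lit 534) (nat_lit 5) (nat_lit 580) (nat_lit 570) (nat_lit 410))) (XT.nd (nat_lit 78) (nat_lit 0) (nat_lit 0) (XT.lf (nat_lit 0) (nat_lit 2998464466) (nat_lit 1748) (nat_lit 7469795738)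 (nat_lit 1824) (nat_lit 2041014274) (nat_lit 511) (nat_lit 5) (nat_lit 534) (nat_lit 5) (nat_lit 535) (nat_lit 5) (nat_lit 581) (nat_lit 570) (nat_lit 409)) (XT.nd (nat_lit 78) (nat_lit 0) (nat_lit 76) (XT.lf (nat_lit 0) (nat_lit 3924667826) (nat_lit 1748) (nat_lit 970062496) (nat_lit 1824) (nat_lit 7735334176) (nat_lit 511) (nat_lit 5) (nat_lit 534) (nat_lit 5) (nat_lit 535) (nat_lit 5) (nat_lit 582) (nat_lit 570) (nat_lit 408)) (XT.lf (nat_lit 0) (nat_lit 4900387267) (nat_lit 1748) (nat_lit 7031198712) (nat_lit 1824) (nat_lit 821064857) (nat_lit 512) (nat_lit 5) (nat_lit 535) (nat_lit 5) (nat_lit 536) (nat_lit 5) (nat_lit 583) (nat_lit 570) (nat_lit 407))))) (XT.nd (nat_lit 156) (nat_lit 0) (nat_lit 76) (XT.nd (nat_lit 78) (nat_lit 0) (nat_lit 0) (XT.lf (nat_lit 0) (nat_lit 5923196943) (nat_lit 1748) (nat_lit 358085397) (nat_lit 1824) (nat_lit 6595855396) (nat_lit 512) (nat_lit 5) (nat_lit 535) (nat_lit 5) (nat_lit 536) (nat_lit 5) (nat_lit 584) (nat_lit 570) (nat_lit 406)) (XT.lf (nat_lit 76) (nat_lit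 6526225316) (nat_lit 0) (nat_lit 471441133) (nat_lit 1824) (nat_lit 6005824198) (nat_lit 513) (nat_lit 5) (nat_lit 512) (nat_lit 5) (nat_lit 536) (nat_lit 5) (nat_lit 585) (nat_lit 570) (nat_lit 405))) (XT.nd (nat_lit 78) (nat_lit 0) (nat_lit 0) (XT.lf (nat_lit 76) (nat_lit 382289766) (nat_lit 0) (nat_lit 7740671489) (nat_lit 1824) (nat_lit 5008822981) (nat_lit 514) (nat_lit 5) (nat_lit 513) (nat_lit 5) (nat_lit 537) (nat_lit 5) (nat_lit 586) (nat_lit 570) (nat_lit 404)) (XT.nd (nat_lit 78) (nat_lit 0) (nat_lit 76) (XT.lf (nat_lit 76) (nat_lit 7455679439) (nat_lit 0) (nat_lit 1850833469) (nat_lit 1824) (nat_lit 3955416103) (nat_lit 514) (nat_lit 5) (nat_lit 513) (nat_lit 5) (nat_lit 537) (nat_lit 5) (nat_lit 587) (nat_lit 570) (nat_lit 403)) (XT.lf (nat_lit 76) (nat_lit 1257293560) (nat_lit 0) (nat_lit 9281007488) (nat_lit 1824) (nat_lit 2855884649) (nat_lit 515) (nat_lit 5) (nat_lit 514) (nat_lit 5) (nat_lit 538) (nat_lit 5) (nat_lit 588) (nat_lit 570) (nat_lit 402)))))) (XT.nd (nat_lit 390) (nat_lit 2812)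 (nat_lit 0) (XT.nd (nat_lit 156) (nat_lit 1748) (nat_lit 0) (XT.nd (nat_lit 78) (nat_lit 0) (nat_lit 76) (XT.lf (nat_lit 76) (nat_lit 8520378226) (nat_lit 0) (nat_lit 3315055352) (nat_lit 1824) (nat_lit 1692840085) (nat_lit 515) (nat_lit 5) (nat_lit 514) (nat_lit 5) (nat_lit 538) (nat_lit 5) (nat_lit 589) (nat_lit 570) (nat_lit 401)) (XT.lf (nat_lit 76) (nat_lit 2267354295) (nat_lit 0) (nat_lit 10913650720) (nat_lit 1824) (nat_lit 483588761) (nat_lit 516) (nat_lit 5) (nat_lit 515) (nat_lit 5) (nat_lit 539) (nat_lit 5) (nat_lit 590) (nat_lit 570) (nat_lit 400))) (XT.nd (nat_lit 78) (nat_lit 0) (nat_lit 76) (XT.lf (nat_lit 0) (nat_lit 785665560) (nat_lit 1824) (nat_lit 4082180245) (nat_lit 1900) (nat_lit 8934784370) (nat_lit 491) (nat_lit 5) (nat_lit 515) (nat_lit 5) (nat_lit 516) (nat_lit 5) (nat_lit 591) (nat_lit 570) (nat_lit 399)) (XT.nd (nat_lit 78) (nat_lit 0) (nat_lit 0) (XT.lf (nat_lit 0) (nat_lit 2094675975) (nat_lit 1824) (nat_lit 10538995778) (nat_lit 1900) (nat_lit 1309274988) (nat_lit 492) (nat_lit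 5) (nat_lit 516) (nat_lit 5) (nat_lit 517) (nat_lit 5) (nat_lit 592) (nat_lit 570) (nat_lit 398)) (XT.lf (nat_lit 0) (nat_lit 3479902875) (nat_lit 1824) (nat_lit 3030955496) (nat_lit 1900) (nat_lit 7574210832) (nat_lit 492) (nat_lit 5) (nat_lit 516) (nat_lit 5) (nat_lit 517) (nat_lit 5) (nat_lit 593) (nat_lit 570) (nat_lit 397))))) (XT.nd (nat_lit 156) (nat_lit 2888) (nat_lit 0) (XT.nd (nat_lit 78) (nat_lit 0) (nat_lit 76) (XT.lf (nat_lit 76) (nat_lit 4680638151) (nat_lit 0) (nat_lit 233001550) (nat_lit 1900) (nat_lit 9315978586) (nat_lit 493) (nat_lit 5) (nat_lit 492) (nat_lit 5) (nat_lit 517) (nat_lit 5) (nat_lit 594) (nat_lit 570) (nat_lit 396)) (XT.lf (nat_lit 0) (nat_lit 6427149402) (nat_lit 1824) (nat_lit 1837440875) (nat_lit 76) (nat_lit 6111446393) (nat_lit 493) (nat_lit 5) (nat_lit 517) (nat_lit 5) (nat_lit 494) (nat_lit 5) (nat_lit 595) (nat_lit 570) (nat_lit 395))) (XT.nd (nat_lit 78) (nat_lit 1140) (nat_lit 0) (XT.lf (nat_lit 0) (nat_lit 6098791221) (nat_lit 1824) (nat_lit 1904025315) (nat_lit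 1900) (nat_lit 6521929411) (nat_lit 469) (nat_lit 5) (nat_lit 493) (nat_lit 5) (nat_lit 494) (nat_lit 5) (nat_lit 596) (nat_lit 570) (nat_lit 394)) (XT.nd (nat_lit 78) (nat_lit 1140) (nat_lit 0) (XT.lf (nat_lit 0) (nat_lit 9643054111) (nat_lit 1900) (nat_lit 495489871) (nat_lit 76) (nat_lit 4537224552) (nat_lit 469) (nat_lit 5) (nat_lit 494) (nat_lit 5) (nat_lit 470) (nat_lit 5) (nat_lit 597) (nat_lit 570) (nat_lit 393)) (XT.lf (nat_lit 0) (nat_lit 7673655813) (nat_lit 1140) (nat_lit 3695935756) (nat_lit 1216) (nat_lit 3459150364) (nat_lit 454) (nat_lit 5) (nat_lit 469) (nat_lit 5) (nat_lit 470) (nat_lit 5) (nat_lit 598) (nat_lit 570) (nat_lit 392))))))) (XT.nd (nat_lit 3510) (nat_lit 2660) (nat_lit 0) (XT.nd (nat_lit 3120) (nat_lit 15428) (nat_lit 0) (XT.nd (nat_lit 156) (nat_lit 1824) (nat_lit 0) (XT.nd (nat_lit 78) (nat_lit 0) (nat_lit 0) (XT.lf (nat_lit 0) (nat_lit 1014718569) (nat_lit 912) (nat_lit 12135739256) (nat_lit 988) (nat_lit 1833921271) (nat_lit 442) (nat_lit 5) (nat_lit 454) (nat_lit 5) (nat_lit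 455) (nat_lit 5) (nat_lit 599) (nat_lit 570) (nat_lit 391)) (XT.lf (nat_lit 0) (nat_lit 9412069559) (nat_lit 912) (nat_lit 5618515101) (nat_lit 988) (nat_lit 111271727) (nat_lit 442) (nat_lit 5) (nat_lit 454) (nat_lit 5) (nat_lit 455) (nat_lit 5) (nat_lit 600) (nat_lit 570) (nat_lit 390))) (XT.nd (nat_lit 78) (nat_lit 836) (nat_lit 0) (XT.lf (nat_lit 0) (nat_lit 1640019200) (nat_lit 988) (nat_lit 12617458953) (nat_lit 76) (nat_lit 1044476122) (nat_lit 429) (nat_lit 5) (nat_lit 442) (nat_lit 5) (nat_lit 430) (nat_lit 5) (nat_lit 601) (nat_lit 570) (nat_lit 389)) (XT.nd (nat_lit 78) (nat_lit 836) (nat_lit 0) (XT.lf (nat_lit 0) (nat_lit 3492307696) (nat_lit 988) (nat_lit 4166067370) (nat_lit 76) (nat_lit 7805515348) (nat_lit 429) (nat_lit 5) (nat_lit 442) (nat_lit 5) (nat_lit 430) (nat_lit 5) (nat_lit 602) (nat_lit 570) (nat_lit 388)) (XT.lf (nat_lit 0) (nat_lit 4505487530) (nat_lit 836) (nat_lit 897119846) (nat_lit 912) (nat_lit 10226038824) (nat_lit 418) (nat_lit 5) (nat_lit 429) (nat_lit 5) (nat_lit 430)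 (nat_lit 5) (nat_lit 603) (nat_lit 570) (nat_lit 387))))) (XT.nd (nat_lit 156) (nat_lit 988) (nat_lit 0) (XT.nd (nat_lit 78) (nat_lit 0) (nat_lit 0) (XT.lf (nat_lit 0) (nat_lit 4482818224) (nat_lit 532) (nat_lit 992640214) (nat_lit 608) (nat_lit 17946969722) (nat_lit 228) (nat_lit 5) (nat_lit 235) (nat_lit 5) (nat_lit 236) (nat_lit 5) (nat_lit 639) (nat_lit 570) (nat_lit 351)) (XT.lf (nat_lit 0) (nat_lit 10354329821) (nat_lit 608) (nat_lit 4952661626) (nat_lit 76) (nat_lit 8392857372) (nat_lit 228) (nat_lit 5) (nat_lit 236) (nat_lit 5) (nat_lit 229) (nat_lit 5) (nat_lit 640) (nat_lit 570) (nat_lit 350))) (XT.nd (nat_lit 78) (nat_lit 532) (nat_lit 0) (XT.lf (nat_lit 0) (nat_lit 9424133131) (nat_lit 456) (nat_lit 5969489928) (nat_lit 532) (nat_lit 8587938042) (nat_lit 222) (nat_lit 5) (nat_lit 228) (nat_lit 5) (nat_lit 229) (nat_lit 5) (nat_lit 641) (nat_lit 570) (nat_lit 349)) (XT.nd (nat_lit 78) (nat_lit 532) (nat_lit 0) (XT.lf (nat_lit 0) (nat_lit 20585358785) (nat_lit 532) (nat_lit 142901281) (nat_lit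 76) (nat_lit 3539614523) (nat_lit 222) (nat_lit 5) (nat_lit 229) (nat_lit 5) (nat_lit 223) (nat_lit 5) (nat_lit 642) (nat_lit 570) (nat_lit 348)) (XT.lf (nat_lit 0) (nat_lit 1434786267) (nat_lit 532) (nat_lit 9860309030) (nat_lit 76) (nat_lit 13262025671) (nat_lit 215) (nat_lit 5) (nat_lit 222) (nat_lit 5) (nat_lit 216) (nat_lit 5) (nat_lit 643) (nat_lit 570) (nat_lit 347)))))) (XT.nd (nat_lit 390) (nat_lit 1292) (nat_lit 0) (XT.nd (nat_lit 156) (nat_lit 912) (nat_lit 0) (XT.nd (nat_lit 78) (nat_lit 0) (nat_lit 0) (XT.lf (nat_lit 0) (nat_lit 5017698614) (nat_lit 456) (nat_lit 1616252188) (nat_lit 532) (nat_lit 18217138227) (nat_lit 209) (nat_lit 5) (nat_lit 215) (nat_lit 5) (nat_lit 216) (nat_lit 5) (nat_lit 644) (nat_lit 570) (nat_lit 346)) (XT.lf (nat_lit 0) (nat_lit 12052580710) (nat_lit 532) (nat_lit 4883605137) (nat_lit 76) (nat_lit 8212441050) (nat_lit 209) (nat_lit 5) (nat_lit 216) (nat_lit 5) (nat_lit 210) (nat_lit 5) (nat_lit 645) (nat_lit 570) (nat_lit 345))) (XT.nd (nat_lit 78) (nat_lit 456) (nat_lit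 0) (XT.lf (nat_lit 0) (nat_lit 10485248081) (nat_lit 456) (nat_lit 7168480196) (nat_lit 532) (nat_lit 7796904431) (nat_lit 203) (nat_lit 5) (nat_lit 209) (nat_lit 5) (nat_lit 210) (nat_lit 5) (nat_lit 646) (nat_lit 570) (nat_lit 344)) (XT.nd (nat_lit 78) (nat_lit 76) (nat_lit 0) (XT.lf (nat_lit 0) (nat_lit 450425986) (nat_lit 380) (nat_lit 22965928092) (nat_lit 456) (nat_lit 2341335537) (nat_lit 198) (nat_lit 5) (nat_lit 203) (nat_lit 5) (nat_lit 204) (nat_lit 5) (nat_lit 647) (nat_lit 570) (nat_lit 343)) (XT.lf (nat_lit 0) (nat_lit 3325048301) (nat_lit 456) (nat_lit 9767323458) (nat_lit 76) (nat_lit 12975217854) (nat_lit 197) (nat_lit 5) (nat_lit 203) (nat_lit 5) (nat_lit 198) (nat_lit 5) (nat_lit 648) (nat_lit 570) (nat_lit 342))))) (XT.nd (nat_lit 156) (nat_lit 836) (nat_lit 0) (XT.nd (nat_lit 78) (nat_lit 0) (nat_lit 0) (XT.lf (nat_lit 0) (nat_lit 6141803678) (nat_lit 456) (nat_lit 2967015797) (nat_lit 532) (nat_lit 17273850487) (nat_lit 191) (nat_lit 5) (nat_lit 197) (nat_lit 5) (nat_lit 198) (nat_lit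 5) (nat_lit 649) (nat_lit 570) (nat_lit 341)) (XT.lf (nat_lit 0) (nat_lit 15117570868) (nat_lit 532) (nat_lit 4256143030) (nat_lit 76) (nat_lit 7328152003) (nat_lit 191) (nat_lit 5) (nat_lit 198) (nat_lit 5) (nat_lit 192) (nat_lit 5) (nat_lit 650) (nat_lit 570) (nat_lit 340))) (XT.nd (nat_lit 78) (nat_lit 456) (nat_lit 0) (XT.lf (nat_lit 0) (nat_lit 12181835268) (nat_lit 380) (nat_lit 9159026575) (nat_lit 456) (nat_lit 5684696702) (nat_lit 186) (nat_lit 5) (nat_lit 191) (nat_lit 5) (nat_lit 192) (nat_lit 5) (nat_lit 651) (nat_lit 570) (nat_lit 339)) (XT.nd (nat_lit 78) (nat_lit 0) (nat_lit 0) (XT.lf (nat_lit 0) (nat_lit 372161641) (nat_lit 456) (nat_lit 25699406833) (nat_lit 76) (nat_lit 1283240734) (nat_lit 180) (nat_lit 5) (nat_lit 186) (nat_lit 5) (nat_lit 181) (nat_lit 5) (nat_lit 652) (nat_lit 570) (nat_lit 338)) (XT.lf (nat_lit 0) (nat_lit 6630701325) (nat_lit 456) (nat_lit 9108495100) (nat_lit 76) (nat_lit 11947563769) (nat_lit 180) (nat_lit 5) (nat_lit 186) (nat_lit 5) (nat_lit 181) (nat_lit 5) (nat_lit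 653) (nat_lit 570) (nat_lit 337))))))))
noncomputable def xc153 : XT := (XT.nd (nat_lit 75426) (nat_lit 0) (nat_lit 22572) (XT.nd (nat_lit 780) (nat_lit 304) (nat_lit 0) (XT.nd (nat_lit 390) (nat_lit 1140) (nat_lit 0) (XT.nd (nat_lit 156) (nat_lit 836) (nat_lit 0) (XT.nd (nat_lit 78) (nat_lit 0) (nat_lit 0) (XT.lf (nat_lit 0) (nat_lit 7911524314) (nat_lit 380) (nat_lit 5150005769) (nat_lit 456) (nat_lit 14962877822) (nat_lit 175) (nat_lit 5) (nat_lit 180) (nat_lit 5) (nat_lit 181) (nat_lit 5) (nat_lit 654) (nat_lit 570) (nat_lit 336)) (XT.lf (nat_lit 0) (nat_lit 19714971391) (nat_lit 456) (nat_lit 3015767396) (nat_lit 76) (nat_lit 5636189933) (nat_lit 175) (nat_lit 5) (nat_lit 181) (nat_lit 5) (nat_lit 176) (nat_lit 5) (nat_lit 655) (nat_lit 570) (nat_lit 335))) (XT.nd (nat_lit 78) (nat_lit 456) (nat_lit 0) (XT.lf (nat_lit 0) (nat_lit 14573953752) (nat_lit 380) (nat_lit 12052118873) (nat_lit 456) (nat_lit 2087735572) (nat_lit 170) (nat_lit 5) (nat_lit 175) (nat_lit 5) (nat_lit 176) (nat_lit 5) (nat_lit 656)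 (nat_lit 570) (nat_lit 334)) (XT.nd (nat_lit 78) (nat_lit 0) (nat_lit 0) (XT.lf (nat_lit 0) (nat_lit 3498577703) (nat_lit 380) (nat_lit 1087721845) (nat_lit 456) (nat_lit 24479948235) (nat_lit 164) (nat_lit 5) (nat_lit 169) (nat_lit 5) (nat_lit 170) (nat_lit 5) (nat_lit 657) (nat_lit 570) (nat_lit 333)) (XT.lf (nat_lit 0) (nat_lit 11522849907) (nat_lit 456) (nat_lit 7828804144) (nat_lit 76) (nat_lit 10070666388) (nat_lit 164) (nat_lit 5) (nat_lit 170) (nat_lit 5) (nat_lit 165) (nat_lit 5) (nat_lit 658) (nat_lit 570) (nat_lit 332))))) (XT.nd (nat_lit 156) (nat_lit 760) (nat_lit 0) (XT.nd (nat_lit 78) (nat_lit 0) (nat_lit 0) (XT.lf (nat_lit 0) (nat_lit 10387586892) (nat_lit 380) (nat_lit 8281170591) (nat_lit 456) (nat_lit 11115344604) (nat_lit 159) (nat_lit 5) (nat_lit 164) (nat_lit 5) (nat_lit 165) (nat_lit 5) (nat_lit 659) (nat_lit 570) (nat_lit 331)) (XT.lf (nat_lit 0) (nat_lit 26026017407) (nat_lit 456) (nat_lit 1103844451) (nat_lit 76) (nat_lit 3021888887) (nat_lit 159) (nat_lit 5) (nat_lit 165) (nat_lit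 5) (nat_lit 160) (nat_lit 5) (nat_lit 660) (nat_lit 570) (nat_lit 330))) (XT.nd (nat_lit 78) (nat_lit 380) (nat_lit 0) (XT.lf (nat_lit 0) (nat_lit 3131389504) (nat_lit 380) (nat_lit 12817898284) (nat_lit 76) (nat_lit 14573732351) (nat_lit 154) (nat_lit 5) (nat_lit 159) (nat_lit 5) (nat_lit 155) (nat_lit 5) (nat_lit 661) (nat_lit 570) (nat_lit 329)) (XT.nd (nat_lit 78) (nat_lit 0) (nat_lit 0) (XT.lf (nat_lit 0) (nat_lit 6049436126) (nat_lit 380) (nat_lit 4471852957) (nat_lit 456) (nat_lit 20379022917) (nat_lit 149) (nat_lit 5) (nat_lit 154) (nat_lit 5) (nat_lit 155) (nat_lit 5) (nat_lit 662) (nat_lit 570) (nat_lit 328)) (XT.lf (nat_lit 0) (nat_lit 18188661048) (nat_lit 456) (nat_lit 5869324115) (nat_lit 76) (nat_lit 7224571104) (nat_lit 149) (nat_lit 5) (nat_lit 155) (nat_lit 5) (nat_lit 150) (nat_lit 5) (nat_lit 663) (nat_lit 570) (nat_lit 327)))))) (XT.nd (nat_lit 74256) (nat_lit 0) (nat_lit 27664) (XT.nd (nat_lit 74022) (nat_lit 0) (nat_lit 29184) (XT.nd (nat_lit 73944) (nat_lit 0) (nat_lit 29184) (XT.lf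 (nat_lit 0) (nat_lit 13634973773) (nat_lit 304) (nat_lit 12488739726) (nat_lit 380) (nat_lit 5546445317) (nat_lit 145) (nat_lit 5) (nat_lit 149) (nat_lit 5) (nat_lit 150) (nat_lit 5) (nat_lit 664) (nat_lit 570) (nat_lit 326)) (XT.lf (nat_lit 0) (nat_lit 3929097301) (nat_lit 1748) (nat_lit 910785995) (nat_lit 1748) (nat_lit 910785995) (nat_lit 529) (nat_lit 3) (nat_lit 552) (nat_lit 3) (nat_lit 552) (nat_lit 5) (nat_lit 571) (nat_lit 571) (nat_lit 418))) (XT.nd (nat_lit 78) (nat_lit 0) (nat_lit 76) (XT.lf (nat_lit 76) (nat_lit 3958748713) (nat_lit 0) (nat_lit 4523612421) (nat_lit 1748) (nat_lit 3123062446) (nat_lit 530) (nat_lit 5) (nat_lit 529) (nat_lit 3) (nat_lit 552) (nat_lit 5) (nat_lit 572) (nat_lit 571) (nat_lit 417)) (XT.nd (nat_lit 78) (nat_lit 0) (nat_lit 0) (XT.lf (nat_lit 0) (nat_lit 9122452717) (nat_lit 1672) (nat_lit 1844199983) (nat_lit 1748) (nat_lit 744869180) (nat_lit 530) (nat_lit 5) (nat_lit 552) (nat_lit 5) (nat_lit 553) (nat_lit 5) (nat_lit 573) (nat_lit 571) (nat_lit 416)) (XT.lf (nat_lit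 76) (nat_lit 4090798133) (nat_lit 0) (nat_lit 5727693946) (nat_lit 1748) (nat_lit 2000387577) (nat_lit 531) (nat_lit 5) (nat_lit 530) (nat_lit 5) (nat_lit 553) (nat_lit 5) (nat_lit 574) (nat_lit 571) (nat_lit 415))))) (XT.nd (nat_lit 156) (nat_lit 1596) (nat_lit 0) (XT.nd (nat_lit 78) (nat_lit 0) (nat_lit 76) (XT.lf (nat_lit 76) (nat_lit 10162322210) (nat_lit 0) (nat_lit 365349274) (nat_lit 1748) (nat_lit 1400729141) (nat_lit 531) (nat_lit 5) (nat_lit 530) (nat_lit 5) (nat_lit 553) (nat_lit 5) (nat_lit 575) (nat_lit 571) (nat_lit 414)) (XT.lf (nat_lit 76) (nat_lit 4331504642) (nat_lit 0) (nat_lit 6967932718) (nat_lit 1748) (nat_lit 739707008) (nat_lit 532) (nat_lit 5) (nat_lit 531) (nat_lit 5) (nat_lit 554) (nat_lit 5) (nat_lit 576) (nat_lit 571) (nat_lit 413))) (XT.nd (nat_lit 78) (nat_lit 1672) (nat_lit 0) (XT.lf (nat_lit 76) (nat_lit 10565247101) (nat_lit 0) (nat_lit 1522991033) (nat_lit 1748) (nat_lit 63833265) (nat_lit 532) (nat_lit 5) (nat_lit 531) (nat_lit 5) (nat_lit 554) (nat_lit 5) (nat_lit 577)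 (nat_lit 571) (nat_lit 412)) (XT.nd (nat_lit 78) (nat_lit 0) (nat_lit 0) (XT.lf (nat_lit 0) (nat_lit 661857265) (nat_lit 1748) (nat_lit 7586476423) (nat_lit 1824) (nat_lit 4017952368) (nat_lit 509) (nat_lit 5) (nat_lit 532) (nat_lit 5) (nat_lit 533) (nat_lit 5) (nat_lit 578) (nat_lit 571) (nat_lit 411)) (XT.lf (nat_lit 0) (nat_lit 1409753380) (nat_lit 1748) (nat_lit 1307399985) (nat_lit 1824) (nat_lit 9665452655) (nat_lit 509) (nat_lit 5) (nat_lit 532) (nat_lit 5) (nat_lit 533) (nat_lit 5) (nat_lit 579) (nat_lit 571) (nat_lit 410))))))) (XT.nd (nat_lit 780) (nat_lit 5168) (nat_lit 0) (XT.nd (nat_lit 390) (nat_lit 0) (nat_lit 152) (XT.nd (nat_lit 156) (nat_lit 0) (nat_lit 76) (XT.nd (nat_lit 78) (nat_lit 0) (nat_lit 0) (XT.lf (nat_lit 0) (nat_lit 2213315116) (nat_lit 1748) (nat_lit 7362551315) (nat_lit 1824) (nat_lit 2924572171) (nat_lit 510) (nat_lit 5) (nat_lit 533) (nat_lit 5) (nat_lit 534) (nat_lit 5) (nat_lit 580) (nat_lit 571) (nat_lit 409)) (XT.lf (nat_lit 0) (nat_lit 3047972210) (nat_lit 1748) (nat_lit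 916306944) (nat_lit 1824) (nat_lit 8656048565) (nat_lit 510) (nat_lit 5) (nat_lit 533) (nat_lit 5) (nat_lit 534) (nat_lit 5) (nat_lit 581) (nat_lit 571) (nat_lit 408))) (XT.nd (nat_lit 78) (nat_lit 0) (nat_lit 0) (XT.lf (nat_lit 0) (nat_lit 3936629491) (nat_lit 1748) (nat_lit 7027288713) (nat_lit 1824) (nat_lit 1777950633) (nat_lit 511) (nat_lit 5) (nat_lit 534) (nat_lit 5) (nat_lit 535) (nat_lit 5) (nat_lit 582) (nat_lit 571) (nat_lit 407)) (XT.nd (nat_lit 78) (nat_lit 0) (nat_lit 76) (XT.lf (nat_lit 0) (nat_lit 4864137394) (nat_lit 1748) (nat_lit 409166745) (nat_lit 1824) (nat_lit 7592115441) (nat_lit 511) (nat_lit 5) (nat_lit 534) (nat_lit 5) (nat_lit 535) (nat_lit 5) (nat_lit 583) (nat_lit 571) (nat_lit 406)) (XT.lf (nat_lit 0) (nat_lit 5844470387) (nat_lit 1748) (nat_lit 6576598690) (nat_lit 1824) (nat_lit 569687108) (nat_lit 512) (nat_lit 5) (nat_lit 535) (nat_lit 5) (nat_lit 536) (nat_lit 5) (nat_lit 584) (nat_lit 571) (nat_lit 405))))) (XT.nd (nat_lit 156) (nat_lit 0) (nat_lit 76) (XT.nd (nat_lit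 78) (nat_lit 0) (nat_lit 0) (XT.lf (nat_lit 76) (nat_lit 221207001) (nat_lit 0) (nat_lit 6651375765) (nat_lit 1824) (nat_lit 6245453641) (nat_lit 513) (nat_lit 5) (nat_lit 512) (nat_lit 5) (nat_lit 536) (nat_lit 5) (nat_lit 585) (nat_lit 571) (nat_lit 404)) (XT.lf (nat_lit 76) (nat_lit 7236463596) (nat_lit 0) (nat_lit 718141305) (nat_lit 1824) (nat_lit 5292590712) (nat_lit 513) (nat_lit 5) (nat_lit 512) (nat_lit 5) (nat_lit 536) (nat_lit 5) (nat_lit 586) (nat_lit 571) (nat_lit 403))) (XT.nd (nat_lit 78) (nat_lit 0) (nat_lit 0) (XT.lf (nat_lit 76) (nat_lit 983623000) (nat_lit 0) (nat_lit 8105107584) (nat_lit 1824) (nat_lit 4289598485) (nat_lit 514) (nat_lit 5) (nat_lit 513) (nat_lit 5) (nat_lit 537) (nat_lit 5) (nat_lit 587) (nat_lit 571) (nat_lit 402)) (XT.nd (nat_lit 78) (nat_lit 0) (nat_lit 76) (XT.lf (nat_lit 76) (nat_lit 8186839536) (nat_lit 0) (nat_lit 2093362555) (nat_lit 1824) (nat_lit 3231190154) (nat_lit 514) (nat_lit 5) (nat_lit 513) (nat_lit 5) (nat_lit 537) (nat_lit 5) (nat_lit 588) (nat_lit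 571) (nat_lit 401)) (XT.lf (nat_lit 76) (nat_lit 1877653792) (nat_lit 0) (nat_lit 9646086236) (nat_lit 1824) (nat_lit 2122812230) (nat_lit 515) (nat_lit 5) (nat_lit 514) (nat_lit 5) (nat_lit 538) (nat_lit 5) (nat_lit 589) (nat_lit 571) (nat_lit 400)))))) (XT.nd (nat_lit 390) (nat_lit 3724) (nat_lit 0) (XT.nd (nat_lit 156) (nat_lit 0) (nat_lit 0) (XT.nd (nat_lit 78) (nat_lit 1748) (nat_lit 0) (XT.lf (nat_lit 76) (nat_lit 9274329281) (nat_lit 0) (nat_lit 3557296262) (nat_lit 1824) (nat_lit 952000698) (nat_lit 515) (nat_lit 5) (nat_lit 514) (nat_lit 5) (nat_lit 538) (nat_lit 5) (nat_lit 590) (nat_lit 571) (nat_lit 399)) (XT.lf (nat_lit 0) (nat_lit 265521276) (nat_lit 1824) (nat_lit 11016009530) (nat_lit 1900) (nat_lit 2641350319) (nat_lit 491) (nat_lit 5) (nat_lit 515) (nat_lit 5) (nat_lit 516) (nat_lit 5) (nat_lit 591) (nat_lit 571) (nat_lit 398))) (XT.nd (nat_lit 78) (nat_lit 0) (nat_lit 76) (XT.lf (nat_lit 0) (nat_lit 1538940256) (nat_lit 1824) (nat_lit 3569733490) (nat_lit 1900) (nat_lit 8955235916) (nat_lit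 491) (nat_lit 5) (nat_lit 515) (nat_lit 5) (nat_lit 516) (nat_lit 5) (nat_lit 592) (nat_lit 571) (nat_lit 397)) (XT.nd (nat_lit 78) (nat_lit 0) (nat_lit 0) (XT.lf (nat_lit 0) (nat_lit 2862612877) (nat_lit 1824) (nat_lit 10144145870) (nat_lit 1900) (nat_lit 1200504602) (nat_lit 492) (nat_lit 5) (nat_lit 516) (nat_lit 5) (nat_lit 517) (nat_lit 5) (nat_lit 593) (nat_lit 571) (nat_lit 396)) (XT.lf (nat_lit 0) (nat_lit 4261308169) (nat_lit 1824) (nat_lit 2497819876) (nat_lit 1900) (nat_lit 7593385357) (nat_lit 492) (nat_lit 5) (nat_lit 516) (nat_lit 5) (nat_lit 517) (nat_lit 5) (nat_lit 594) (nat_lit 571) (nat_lit 395))))) (XT.nd (nat_lit 234) (nat_lit 2052) (nat_lit 0) (XT.nd (nat_lit 78) (nat_lit 1748) (nat_lit 0) (XT.lf (nat_lit 76) (nat_lit 5364099362) (nat_lit 0) (nat_lit 349493053) (nat_lit 1900) (nat_lit 8786564013) (nat_lit 493) (nat_lit 5) (nat_lit 492) (nat_lit 5) (nat_lit 517) (nat_lit 5) (nat_lit 595) (nat_lit 571) (nat_lit 394)) (XT.nd (nat_lit 78) (nat_lit 1824) (nat_lit 0) (XT.lf (nat_lit 0) (nat_lit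 7242902032) (nat_lit 1824) (nat_lit 1281416401) (nat_lit 76) (nat_lit 6125474555) (nat_lit 493) (nat_lit 5) (nat_lit 517) (nat_lit 5) (nat_lit 494) (nat_lit 5) (nat_lit 596) (nat_lit 571) (nat_lit 393)) (XT.lf (nat_lit 0) (nat_lit 6809640513) (nat_lit 1824) (nat_lit 2030790654) (nat_lit 1900) (nat_lit 5961238706) (nat_lit 469) (nat_lit 5) (nat_lit 493) (nat_lit 5) (nat_lit 494) (nat_lit 5) (nat_lit 597) (nat_lit 571) (nat_lit 392)))) (XT.nd (nat_lit 78) (nat_lit 912) (nat_lit 0) (XT.lf (nat_lit 0) (nat_lit 86936856) (nat_lit 1140) (nat_lit 10413251122) (nat_lit 1216) (nat_lit 4455791034) (nat_lit 454) (nat_lit 5) (nat_lit 469) (nat_lit 5) (nat_lit 470) (nat_lit 5) (nat_lit 598) (nat_lit 571) (nat_lit 391)) (XT.nd (nat_lit 78) (nat_lit 912) (nat_lit 0) (XT.lf (nat_lit 0) (nat_lit 8414435814) (nat_lit 1140) (nat_lit 3837055217) (nat_lit 1216) (nat_lit 2860716532) (nat_lit 454) (nat_lit 5) (nat_lit 469) (nat_lit 5) (nat_lit 470) (nat_lit 5) (nat_lit 599) (nat_lit 571) (nat_lit 390)) (XT.lf (nat_lit 0) (nat_lit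 1631912368) (nat_lit 912) (nat_lit 12426676470) (nat_lit 988) (nat_lit 1212556719) (nat_lit 442) (nat_lit 5) (nat_lit 454) (nat_lit 5) (nat_lit 455) (nat_lit 5) (nat_lit 600) (nat_lit 571) (nat_lit 389))))))))
noncomputable def xc154 : XT := (XT.nd (nat_lit 4290) (nat_lit 2280) (nat_lit 0) (XT.nd (nat_lit 3510) (nat_lit 2584) (nat_lit 0) (XT.nd (nat_lit 3120) (nat_lit 1444) (nat_lit 0) (XT.nd (nat_lit 2886) (nat_lit 15276) (nat_lit 0) (XT.nd (nat_lit 78) (nat_lit 912) (nat_lit 0) (XT.lf (nat_lit 0) (nat_lit 524670417) (nat_lit 988) (nat_lit 5249971062) (nat_lit 76) (nat_lit 9657315235) (nat_lit 441) (nat_lit 5) (nat_lit 454) (nat_lit 5) (nat_lit 442) (nat_lit 5) (nat_lit 601) (nat_lit 571) (nat_lit 388)) (XT.lf (nat_lit 0) (nat_lit 2300595516) (nat_lit 988) (nat_lit 12267212811) (nat_lit 76) (nat_lit 1027611910) (nat_lit 429) (nat_lit 5) (nat_lit 442) (nat_lit 5) (nat_lit 430) (nat_lit 5) (nat_lit 602) (nat_lit 571) (nat_lit 387))) (XT.nd (nat_lit 78) (nat_lit 608) (nat_lit 0) (XT.lf (nat_lit 0) (nat_lit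 340361851) (nat_lit 456) (nat_lit 19497087738) (nat_lit 532) (nat_lit 3490925368) (nat_lit 236) (nat_lit 5) (nat_lit 242) (nat_lit 5) (nat_lit 243) (nat_lit 5) (nat_lit 638) (nat_lit 571) (nat_lit 351)) (XT.nd (nat_lit 78) (nat_lit 532) (nat_lit 0) (XT.lf (nat_lit 0) (nat_lit 1195182235) (nat_lit 532) (nat_lit 9106253827) (nat_lit 76) (nat_lit 13302230867) (nat_lit 235) (nat_lit 5) (nat_lit 242) (nat_lit 5) (nat_lit 236) (nat_lit 5) (nat_lit 639) (nat_lit 571) (nat_lit 350)) (XT.lf (nat_lit 0) (nat_lit 5090035999) (nat_lit 532) (nat_lit 866463889) (nat_lit 608) (nat_lit 17926938824) (nat_lit 228) (nat_lit 5) (nat_lit 235) (nat_lit 5) (nat_lit 236) (nat_lit 5) (nat_lit 640) (nat_lit 571) (nat_lit 349))))) (XT.nd (nat_lit 156) (nat_lit 988) (nat_lit 0) (XT.nd (nat_lit 78) (nat_lit 456) (nat_lit 0) (XT.lf (nat_lit 0) (nat_lit 10926593279) (nat_lit 608) (nat_lit 4537939070) (nat_lit 76) (nat_lit 8702002687) (nat_lit 228) (nat_lit 5) (nat_lit 236) (nat_lit 5) (nat_lit 229) (nat_lit 5) (nat_lit 641) (nat_lit 571)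 (nat_lit 348)) (XT.lf (nat_lit 0) (nat_lit 10123011478) (nat_lit 456) (nat_lit 5939814400) (nat_lit 532) (nat_lit 8391132757) (nat_lit 222) (nat_lit 5) (nat_lit 228) (nat_lit 5) (nat_lit 229) (nat_lit 5) (nat_lit 642) (nat_lit 571) (nat_lit 347))) (XT.nd (nat_lit 78) (nat_lit 532) (nat_lit 0) (XT.lf (nat_lit 0) (nat_lit 365566079) (nat_lit 456) (nat_lit 20989067682) (nat_lit 532) (nat_lit 3391440023) (nat_lit 216) (nat_lit 5) (nat_lit 222) (nat_lit 5) (nat_lit 223) (nat_lit 5) (nat_lit 643) (nat_lit 571) (nat_lit 346)) (XT.nd (nat_lit 78) (nat_lit 456) (nat_lit 0) (XT.lf (nat_lit 0) (nat_lit 1817313309) (nat_lit 532) (nat_lit 9549607825) (nat_lit 76) (nat_lit 13674258956) (nat_lit 215) (nat_lit 5) (nat_lit 222) (nat_lit 5) (nat_lit 216) (nat_lit 5) (nat_lit 644) (nat_lit 571) (nat_lit 345)) (XT.lf (nat_lit 0) (nat_lit 5622618476) (nat_lit 456) (nat_lit 1494180766) (nat_lit 532) (nat_lit 18224301638) (nat_lit 209) (nat_lit 5) (nat_lit 215) (nat_lit 5) (nat_lit 216) (nat_lit 5) (nat_lit 645) (nat_lit 571)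 (nat_lit 344)))))) (XT.nd (nat_lit 390) (nat_lit 1216) (nat_lit 0) (XT.nd (nat_lit 156) (nat_lit 912) (nat_lit 0) (XT.nd (nat_lit 78) (nat_lit 456) (nat_lit 0) (XT.lf (nat_lit 0) (nat_lit 12637918470) (nat_lit 532) (nat_lit 4480715108) (nat_lit 76) (nat_lit 8526073722) (nat_lit 209) (nat_lit 5) (nat_lit 216) (nat_lit 5) (nat_lit 210) (nat_lit 5) (nat_lit 646) (nat_lit 571) (nat_lit 343)) (XT.lf (nat_lit 0) (nat_lit 11192222003) (nat_lit 456) (nat_lit 7155344877) (nat_lit 532) (nat_lit 7605256915) (nat_lit 203) (nat_lit 5) (nat_lit 209) (nat_lit 5) (nat_lit 210) (nat_lit 5) (nat_lit 647) (nat_lit 571) (nat_lit 342))) (XT.nd (nat_lit 78) (nat_lit 532) (nat_lit 0) (XT.lf (nat_lit 0) (nat_lit 959199199) (nat_lit 380) (nat_lit 23263805363) (nat_lit 456) (nat_lit 2043066214) (nat_lit 198) (nat_lit 5) (nat_lit 203) (nat_lit 5) (nat_lit 204) (nat_lit 5) (nat_lit 648) (nat_lit 571) (nat_lit 341)) (XT.nd (nat_lit 78) (nat_lit 456) (nat_lit 0) (XT.lf (nat_lit 0) (nat_lit 3725441461) (nat_lit 456) (nat_lit 9468261365)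 (nat_lit 76) (nat_lit 13388554811) (nat_lit 197) (nat_lit 5) (nat_lit 203) (nat_lit 5) (nat_lit 198) (nat_lit 5) (nat_lit 649) (nat_lit 571) (nat_lit 340)) (XT.lf (nat_lit 0) (nat_lit 6755795625) (nat_lit 456) (nat_lit 2865734437) (nat_lit 532) (nat_lit 17282176808) (nat_lit 191) (nat_lit 5) (nat_lit 197) (nat_lit 5) (nat_lit 198) (nat_lit 5) (nat_lit 650) (nat_lit 571) (nat_lit 339))))) (XT.nd (nat_lit 156) (nat_lit 836) (nat_lit 0) (XT.nd (nat_lit 78) (nat_lit 380) (nat_lit 0) (XT.lf (nat_lit 0) (nat_lit 15744997835) (nat_lit 532) (nat_lit 3854276181) (nat_lit 76) (nat_lit 7630121998) (nat_lit 191) (nat_lit 5) (nat_lit 198) (nat_lit 5) (nat_lit 192) (nat_lit 5) (nat_lit 651) (nat_lit 571) (nat_lit 338)) (XT.lf (nat_lit 0) (nat_lit 12909257803) (nat_lit 380) (nat_lit 9180263854) (nat_lit 456) (nat_lit 5470105625) (nat_lit 186) (nat_lit 5) (nat_lit 191) (nat_lit 5) (nat_lit 192) (nat_lit 5) (nat_lit 652) (nat_lit 571) (nat_lit 337))) (XT.nd (nat_lit 78) (nat_lit 380) (nat_lit 0) (XT.lf (nat_lit 0) (nat_lit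 701445542) (nat_lit 456) (nat_lit 25723153960) (nat_lit 76) (nat_lit 1470863711) (nat_lit 180) (nat_lit 5) (nat_lit 186) (nat_lit 5) (nat_lit 181) (nat_lit 5) (nat_lit 653) (nat_lit 571) (nat_lit 336)) (XT.nd (nat_lit 78) (nat_lit 380) (nat_lit 0) (XT.lf (nat_lit 0) (nat_lit 7078845419) (nat_lit 456) (nat_lit 8810036560) (nat_lit 76) (nat_lit 12345297557) (nat_lit 180) (nat_lit 5) (nat_lit 186) (nat_lit 5) (nat_lit 181) (nat_lit 5) (nat_lit 654) (nat_lit 571) (nat_lit 335)) (XT.lf (nat_lit 0) (nat_lit 8547221213) (nat_lit 380) (nat_lit 5087982703) (nat_lit 456) (nat_lit 14943438125) (nat_lit 175) (nat_lit 5) (nat_lit 180) (nat_lit 5) (nat_lit 181) (nat_lit 5) (nat_lit 655) (nat_lit 571) (nat_lit 334))))))) (XT.nd (nat_lit 74646) (nat_lit 0) (nat_lit 27588) (XT.nd (nat_lit 390) (nat_lit 1064) (nat_lit 0) (XT.nd (nat_lit 156) (nat_lit 836) (nat_lit 0) (XT.nd (nat_lit 78) (nat_lit 380) (nat_lit 0) (XT.lf (nat_lit 0) (nat_lit 20416638144) (nat_lit 456) (nat_lit 2602897455) (nat_lit 76) (nat_lit 5908579292) (nat_lit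 175) (nat_lit 5) (nat_lit 181) (nat_lit 5) (nat_lit 176) (nat_lit 5) (nat_lit 656) (nat_lit 571) (nat_lit 333)) (XT.lf (nat_lit 0) (nat_lit 15335505055) (nat_lit 380) (nat_lit 12127481559) (nat_lit 456) (nat_lit 1819004940) (nat_lit 170) (nat_lit 5) (nat_lit 175) (nat_lit 5) (nat_lit 176) (nat_lit 5) (nat_lit 657) (nat_lit 571) (nat_lit 332))) (XT.nd (nat_lit 78) (nat_lit 380) (nat_lit 0) (XT.lf (nat_lit 0) (nat_lit 4039579013) (nat_lit 380) (nat_lit 941909933) (nat_lit 456) (nat_lit 24660009760) (nat_lit 164) (nat_lit 5) (nat_lit 169) (nat_lit 5) (nat_lit 170) (nat_lit 5) (nat_lit 658) (nat_lit 571) (nat_lit 331)) (XT.nd (nat_lit 78) (nat_lit 380) (nat_lit 0) (XT.lf (nat_lit 0) (nat_lit 12051886668) (nat_lit 456) (nat_lit 7518698034) (nat_lit 76) (nat_lit 10434205879) (nat_lit 164) (nat_lit 5) (nat_lit 170) (nat_lit 5) (nat_lit 165) (nat_lit 5) (nat_lit 659) (nat_lit 571) (nat_lit 330)) (XT.lf (nat_lit 0) (nat_lit 11058950546) (nat_lit 380) (nat_lit 8278917421) (nat_lit 456) (nat_lit 11035996875) (nat_lit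 159) (nat_lit 5) (nat_lit 164) (nat_lit 5) (nat_lit 165) (nat_lit 5) (nat_lit 660) (nat_lit 571) (nat_lit 329))))) (XT.nd (nat_lit 156) (nat_lit 684) (nat_lit 0) (XT.nd (nat_lit 78) (nat_lit 380) (nat_lit 0) (XT.lf (nat_lit 0) (nat_lit 26837542952) (nat_lit 456) (nat_lit 666665226) (nat_lit 76) (nat_lit 3244752988) (nat_lit 159) (nat_lit 5) (nat_lit 165) (nat_lit 5) (nat_lit 160) (nat_lit 5) (nat_lit 661) (nat_lit 571) (nat_lit 328)) (XT.lf (nat_lit 0) (nat_lit 3484192044) (nat_lit 380) (nat_lit 12614160973) (nat_lit 76) (nat_lit 15029319715) (nat_lit 154) (nat_lit 5) (nat_lit 159) (nat_lit 5) (nat_lit 155) (nat_lit 5) (nat_lit 662) (nat_lit 571) (nat_lit 327))) (XT.nd (nat_lit 78) (nat_lit 304) (nat_lit 0) (XT.lf (nat_lit 0) (nat_lit 6627493183) (nat_lit 380) (nat_lit 4391674322) (nat_lit 456) (nat_lit 20493397452) (nat_lit 149) (nat_lit 5) (nat_lit 154) (nat_lit 5) (nat_lit 155) (nat_lit 5) (nat_lit 663) (nat_lit 571) (nat_lit 326)) (XT.nd (nat_lit 78) (nat_lit 304) (nat_lit 0) (XT.lf (nat_lit 0) (nat_lit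 18835330247) (nat_lit 456) (nat_lit 5534043578) (nat_lit 76) (nat_lit 7533171501) (nat_lit 149) (nat_lit 5) (nat_lit 155) (nat_lit 5) (nat_lit 150) (nat_lit 5) (nat_lit 664) (nat_lit 571) (nat_lit 325)) (XT.lf (nat_lit 0) (nat_lit 14357362195) (nat_lit 304) (nat_lit 12569094250) (nat_lit 380) (nat_lit 5371496107) (nat_lit 145) (nat_lit 5) (nat_lit 149) (nat_lit 5) (nat_lit 150) (nat_lit 5) (nat_lit 665) (nat_lit 571) (nat_lit 324)))))) (XT.nd (nat_lit 390) (nat_lit 1596) (nat_lit 0) (XT.nd (nat_lit 156) (nat_lit 0) (nat_lit 76) (XT.nd (nat_lit 78) (nat_lit 0) (nat_lit 0) (XT.lf (nat_lit 0) (nat_lit 4524185593) (nat_lit 1748) (nat_lit 665575184) (nat_lit 1748) (nat_lit 665575184) (nat_lit 529) (nat_lit 3) (nat_lit 552) (nat_lit 3) (nat_lit 552) (nat_lit 5) (nat_lit 572) (nat_lit 572) (nat_lit 416)) (XT.lf (nat_lit 76) (nat_lit 4561310610) (nat_lit 0) (nat_lit 5106853463) (nat_lit 1748) (nat_lit 2149012337) (nat_lit 530) (nat_lit 5) (nat_lit 529) (nat_lit 3) (nat_lit 552) (nat_lit 5) (nat_lit 573) (nat_lit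 572) (nat_lit 415))) (XT.nd (nat_lit 78) (nat_lit 0) (nat_lit 0) (XT.lf (nat_lit 0) (nat_lit 10297996217) (nat_lit 1672) (nat_lit 1344866389) (nat_lit 1748) (nat_lit 282995934) (nat_lit 530) (nat_lit 5) (nat_lit 552) (nat_lit 5) (nat_lit 553) (nat_lit 5) (nat_lit 574) (nat_lit 572) (nat_lit 414)) (XT.nd (nat_lit 78) (nat_lit 0) (nat_lit 0) (XT.lf (nat_lit 76) (nat_lit 4705303943) (nat_lit 0) (nat_lit 6286638560) (nat_lit 1748) (nat_lit 1043741872) (nat_lit 531) (nat_lit 5) (nat_lit 530) (nat_lit 5) (nat_lit 553) (nat_lit 5) (nat_lit 575) (nat_lit 572) (nat_lit 413)) (XT.lf (nat_lit 76) (nat_lit 10887813602) (nat_lit 0) (nat_lit 808333450) (nat_lit 1748) (nat_lit 451632492) (nat_lit 531) (nat_lit 5) (nat_lit 530) (nat_lit 5) (nat_lit 553) (nat_lit 5) (nat_lit 576) (nat_lit 572) (nat_lit 412))))) (XT.nd (nat_lit 234) (nat_lit 0) (nat_lit 76) (XT.nd (nat_lit 78) (nat_lit 0) (nat_lit 0) (XT.lf (nat_lit 0) (nat_lit 201524851) (nat_lit 1748) (nat_lit 7303608691) (nat_lit 1824) (nat_lit 4755939616) (nat_lit 508)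 (nat_lit 5) (nat_lit 531) (nat_lit 5) (nat_lit 532) (nat_lit 5) (nat_lit 577) (nat_lit 572) (nat_lit 411)) (XT.nd (nat_lit 78) (nat_lit 0) (nat_lit 76) (XT.lf (nat_lit 0) (nat_lit 863322998) (nat_lit 1748) (nat_lit 1075701667) (nat_lit 1824) (nat_lit 10437516154) (nat_lit 508) (nat_lit 5) (nat_lit 531) (nat_lit 5) (nat_lit 532) (nat_lit 5) (nat_lit 578) (nat_lit 572) (nat_lit 410)) (XT.lf (nat_lit 0) (nat_lit 1585555875) (nat_lit 1748) (nat_lit 7178623719) (nat_lit 1824) (nat_lit 3729194638) (nat_lit 509) (nat_lit 5) (nat_lit 532) (nat_lit 5) (nat_lit 533) (nat_lit 5) (nat_lit 579) (nat_lit 572) (nat_lit 409)))) (XT.nd (nat_lit 78) (nat_lit 0) (nat_lit 76) (XT.lf (nat_lit 0) (nat_lit 2330557726) (nat_lit 1748) (nat_lit 784937952) (nat_lit 1824) (nat_lit 9496882515) (nat_lit 509) (nat_lit 5) (nat_lit 532) (nat_lit 5) (nat_lit 533) (nat_lit 5) (nat_lit 580) (nat_lit 572) (nat_lit 408)) (XT.nd (nat_lit 78) (nat_lit 0) (nat_lit 0) (XT.lf (nat_lit 0) (nat_lit 3134060817) (nat_lit 1748) (nat_lit 6945035211) (nat_lit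 1824) (nat_lit 2653794540) (nat_lit 510) (nat_lit 5) (nat_lit 533) (nat_lit 5) (nat_lit 534) (nat_lit 5) (nat_lit 581) (nat_lit 572) (nat_lit 407)) (XT.lf (nat_lit 0) (nat_lit 3968225182) (nat_lit 1748) (nat_lit 380939818) (nat_lit 1824) (nat_lit 8506356719) (nat_lit 510) (nat_lit 5) (nat_lit 533) (nat_lit 5) (nat_lit 534) (nat_lit 5) (nat_lit 582) (nat_lit 572) (nat_lit 406))))))))
noncomputable def xc155 : XT := (XT.nd (nat_lit 4134) (nat_lit 20216) (nat_lit 0) (XT.nd (nat_lit 780) (nat_lit 3800) (nat_lit 0) (XT.nd (nat_lit 390) (nat_lit 1520) (nat_lit 0) (XT.nd (nat_lit 156) (nat_lit 0) (nat_lit 76) (XT.nd (nat_lit 78) (nat_lit 0) (nat_lit 0) (XT.lf (nat_lit 0) (nat_lit 4859456406) (nat_lit 1748) (nat_lit 6598915860) (nat_lit 1824) (nat_lit 1521425902) (nat_lit 511) (nat_lit 5) (nat_lit 534) (nat_lit 5) (nat_lit 535) (nat_lit 5) (nat_lit 583) (nat_lit 572) (nat_lit 405)) (XT.lf (nat_lit 76) (nat_lit 142279298) (nat_lit 0) (nat_lit 5647608071) (nat_lit 1824) (nat_lit 7316245612) (nat_lit 512) (nat_lit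 5) (nat_lit 511) (nat_lit 5) (nat_lit 535) (nat_lit 5) (nat_lit 584) (nat_lit 572) (nat_lit 404))) (XT.nd (nat_lit 78) (nat_lit 0) (nat_lit 0) (XT.lf (nat_lit 0) (nat_lit 6774581032) (nat_lit 1748) (nat_lit 6136019940) (nat_lit 1824) (nat_lit 323680768) (nat_lit 512) (nat_lit 5) (nat_lit 535) (nat_lit 5) (nat_lit 536) (nat_lit 5) (nat_lit 585) (nat_lit 572) (nat_lit 403)) (XT.nd (nat_lit 78) (nat_lit 0) (nat_lit 0) (XT.lf (nat_lit 76) (nat_lit 793977978) (nat_lit 0) (nat_lit 7017022250) (nat_lit 1824) (nat_lit 5553352939) (nat_lit 513) (nat_lit 5) (nat_lit 512) (nat_lit 5) (nat_lit 536) (nat_lit 5) (nat_lit 586) (nat_lit 572) (nat_lit 402)) (XT.lf (nat_lit 76) (nat_lit 7938395650) (nat_lit 0) (nat_lit 960561945) (nat_lit 1824) (nat_lit 4597452552) (nat_lit 513) (nat_lit 5) (nat_lit 512) (nat_lit 5) (nat_lit 536) (nat_lit 5) (nat_lit 587) (nat_lit 572) (nat_lit 401))))) (XT.nd (nat_lit 156) (nat_lit 1672) (nat_lit 0) (XT.nd (nat_lit 78) (nat_lit 0) (nat_lit 0) (XT.lf (nat_lit 76) (nat_lit 1573929291) (nat_lit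 0) (nat_lit 8468692497) (nat_lit 1824) (nat_lit 3587807836) (nat_lit 514) (nat_lit 5) (nat_lit 513) (nat_lit 5) (nat_lit 537) (nat_lit 5) (nat_lit 588) (nat_lit 572) (nat_lit 400)) (XT.lf (nat_lit 76) (nat_lit 8910021259) (nat_lit 0) (nat_lit 2332761925) (nat_lit 1824) (nat_lit 2523674136) (nat_lit 514) (nat_lit 5) (nat_lit 513) (nat_lit 5) (nat_lit 537) (nat_lit 5) (nat_lit 589) (nat_lit 572) (nat_lit 399))) (XT.nd (nat_lit 78) (nat_lit 1748) (nat_lit 0) (XT.lf (nat_lit 76) (nat_lit 2487308329) (nat_lit 0) (nat_lit 10011497964) (nat_lit 1824) (nat_lit 1405762407) (nat_lit 515) (nat_lit 5) (nat_lit 514) (nat_lit 5) (nat_lit 538) (nat_lit 5) (nat_lit 590) (nat_lit 572) (nat_lit 398)) (XT.nd (nat_lit 78) (nat_lit 1748) (nat_lit 0) (XT.lf (nat_lit 76) (nat_lit 10020699652) (nat_lit 0) (nat_lit 3797550033) (nat_lit 1824) (nat_lit 226426921) (nat_lit 515) (nat_lit 5) (nat_lit 514) (nat_lit 5) (nat_lit 538) (nat_lit 5) (nat_lit 591) (nat_lit 572) (nat_lit 397)) (XT.lf (nat_lit 0) (nat_lit 993931098) (nat_lit 1824)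 (nat_lit 10653888190) (nat_lit 1900) (nat_lit 2539036010) (nat_lit 491) (nat_lit 5) (nat_lit 515) (nat_lit 5) (nat_lit 516) (nat_lit 5) (nat_lit 592) (nat_lit 572) (nat_lit 396)))))) (XT.nd (nat_lit 390) (nat_lit 3800) (nat_lit 0) (XT.nd (nat_lit 156) (nat_lit 0) (nat_lit 76) (XT.nd (nat_lit 78) (nat_lit 0) (nat_lit 76) (XT.lf (nat_lit 0) (nat_lit 2278640039) (nat_lit 1824) (nat_lit 3070107052) (nat_lit 1900) (nat_lit 8982241305) (nat_lit 491) (nat_lit 5) (nat_lit 515) (nat_lit 5) (nat_lit 516) (nat_lit 5) (nat_lit 593) (nat_lit 572) (nat_lit 395)) (XT.lf (nat_lit 0) (nat_lit 3617715366) (nat_lit 1824) (nat_lit 9764916308) (nat_lit 1900) (nat_lit 1094799310) (nat_lit 492) (nat_lit 5) (nat_lit 516) (nat_lit 5) (nat_lit 517) (nat_lit 5) (nat_lit 594) (nat_lit 572) (nat_lit 394))) (XT.nd (nat_lit 78) (nat_lit 0) (nat_lit 0) (XT.lf (nat_lit 0) (nat_lit 5030701227) (nat_lit 1824) (nat_lit 1977077764) (nat_lit 1900) (nat_lit 7618081119) (nat_lit 492) (nat_lit 5) (nat_lit 516) (nat_lit 5) (nat_lit 517) (nat_lit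 5) (nat_lit 595) (nat_lit 572) (nat_lit 393)) (XT.nd (nat_lit 78) (nat_lit 0) (nat_lit 76) (XT.lf (nat_lit 76) (nat_lit 6038325264) (nat_lit 0) (nat_lit 463971833) (nat_lit 1900) (nat_lit 8274353978) (nat_lit 493) (nat_lit 5) (nat_lit 492) (nat_lit 5) (nat_lit 517) (nat_lit 5) (nat_lit 596) (nat_lit 572) (nat_lit 392)) (XT.lf (nat_lit 0) (nat_lit 8048284528) (nat_lit 1824) (nat_lit 737289546) (nat_lit 76) (nat_lit 6143984847) (nat_lit 493) (nat_lit 5) (nat_lit 517) (nat_lit 5) (nat_lit 494) (nat_lit 5) (nat_lit 597) (nat_lit 572) (nat_lit 391))))) (XT.nd (nat_lit 156) (nat_lit 988) (nat_lit 0) (XT.nd (nat_lit 78) (nat_lit 1140) (nat_lit 0) (XT.lf (nat_lit 0) (nat_lit 7511840116) (nat_lit 1824) (nat_lit 2156647561) (nat_lit 1900) (nat_lit 5416171580) (nat_lit 469) (nat_lit 5) (nat_lit 493) (nat_lit 5) (nat_lit 494) (nat_lit 5) (nat_lit 598) (nat_lit 572) (nat_lit 390)) (XT.lf (nat_lit 0) (nat_lit 664466656) (nat_lit 1140) (nat_lit 10687399229) (nat_lit 1216) (nat_lit 3890380542) (nat_lit 454) (nat_lit 5)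 (nat_lit 469) (nat_lit 5) (nat_lit 470) (nat_lit 5) (nat_lit 599) (nat_lit 572) (nat_lit 389))) (XT.nd (nat_lit 78) (nat_lit 988) (nat_lit 0) (XT.lf (nat_lit 0) (nat_lit 9147225572) (nat_lit 1140) (nat_lit 3978387581) (nat_lit 1216) (nat_lit 2276238399) (nat_lit 454) (nat_lit 5) (nat_lit 469) (nat_lit 5) (nat_lit 470) (nat_lit 5) (nat_lit 600) (nat_lit 572) (nat_lit 388)) (XT.nd (nat_lit 78) (nat_lit 76) (nat_lit 0) (XT.lf (nat_lit 0) (nat_lit 2238271712) (nat_lit 912) (nat_lit 12721559894) (nat_lit 988) (nat_lit 604317487) (nat_lit 442) (nat_lit 5) (nat_lit 454) (nat_lit 5) (nat_lit 455) (nat_lit 5) (nat_lit 601) (nat_lit 572) (nat_lit 387)) (XT.lf (nat_lit 0) (nat_lit 1147119847) (nat_lit 988) (nat_lit 4784348988) (nat_lit 76) (nat_lit 9796870635) (nat_lit 441) (nat_lit 5) (nat_lit 454) (nat_lit 5) (nat_lit 442) (nat_lit 5) (nat_lit 602) (nat_lit 572) (nat_lit 386))))))) (XT.nd (nat_lit 780) (nat_lit 3040) (nat_lit 0) (XT.nd (nat_lit 390) (nat_lit 1520) (nat_lit 0) (XT.nd (nat_lit 156) (nat_lit 1064) (nat_lit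 0) (XT.nd (nat_lit 78) (nat_lit 0) (nat_lit 0) (XT.lf (nat_lit 0) (nat_lit 5716319732) (nat_lit 532) (nat_lit 773365143) (nat_lit 608) (nat_lit 16477060908) (nat_lit 249) (nat_lit 5) (nat_lit 256) (nat_lit 5) (nat_lit 257) (nat_lit 5) (nat_lit 636) (nat_lit 572) (nat_lit 352)) (XT.lf (nat_lit 0) (nat_lit 11038834272) (nat_lit 608) (nat_lit 3652952232) (nat_lit 76) (nat_lit 8544412551) (nat_lit 249) (nat_lit 5) (nat_lit 257) (nat_lit 5) (nat_lit 250) (nat_lit 5) (nat_lit 637) (nat_lit 572) (nat_lit 351))) (XT.nd (nat_lit 78) (nat_lit 532) (nat_lit 0) (XT.lf (nat_lit 0) (nat_lit 10340416704) (nat_lit 532) (nat_lit 5405982518) (nat_lit 608) (nat_lit 7763293620) (nat_lit 242) (nat_lit 5) (nat_lit 249) (nat_lit 5) (nat_lit 250) (nat_lit 5) (nat_lit 638) (nat_lit 572) (nat_lit 350)) (XT.nd (nat_lit 78) (nat_lit 76) (nat_lit 0) (XT.lf (nat_lit 0) (nat_lit 853042411) (nat_lit 456) (nat_lit 19746898549) (nat_lit 532) (nat_lit 3187679135) (nat_lit 236) (nat_lit 5) (nat_lit 242) (nat_lit 5) (nat_lit 243) (nat_lit 5)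 (nat_lit 639) (nat_lit 572) (nat_lit 349)) (XT.lf (nat_lit 0) (nat_lit 1580038752) (nat_lit 532) (nat_lit 8787620570) (nat_lit 76) (nat_lit 13700854667) (nat_lit 235) (nat_lit 5) (nat_lit 242) (nat_lit 5) (nat_lit 236) (nat_lit 5) (nat_lit 640) (nat_lit 572) (nat_lit 348))))) (XT.nd (nat_lit 156) (nat_lit 988) (nat_lit 0) (XT.nd (nat_lit 78) (nat_lit 0) (nat_lit 0) (XT.lf (nat_lit 0) (nat_lit 5689300590) (nat_lit 532) (nat_lit 743434526) (nat_lit 608) (nat_lit 17921223186) (nat_lit 228) (nat_lit 5) (nat_lit 235) (nat_lit 5) (nat_lit 236) (nat_lit 5) (nat_lit 641) (nat_lit 572) (nat_lit 347)) (XT.lf (nat_lit 0) (nat_lit 11496121744) (nat_lit 608) (nat_lit 4134872603) (nat_lit 76) (nat_lit 9011844517) (nat_lit 228) (nat_lit 5) (nat_lit 236) (nat_lit 5) (nat_lit 229) (nat_lit 5) (nat_lit 642) (nat_lit 572) (nat_lit 346))) (XT.nd (nat_lit 78) (nat_lit 532) (nat_lit 0) (XT.lf (nat_lit 0) (nat_lit 10816048106) (nat_lit 456) (nat_lit 5915333750) (nat_lit 532) (nat_lit 8204703158) (nat_lit 222) (nat_lit 5) (nat_lit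 228) (nat_lit 5) (nat_lit 229) (nat_lit 5) (nat_lit 643) (nat_lit 572) (nat_lit 345)) (XT.nd (nat_lit 78) (nat_lit 76) (nat_lit 0) (XT.lf (nat_lit 0) (nat_lit 866209246) (nat_lit 456) (nat_lit 21260121904) (nat_lit 532) (nat_lit 3107765344) (nat_lit 216) (nat_lit 5) (nat_lit 222) (nat_lit 5) (nat_lit 223) (nat_lit 5) (nat_lit 644) (nat_lit 572) (nat_lit 344)) (XT.lf (nat_lit 0) (nat_lit 2193751191) (nat_lit 532) (nat_lit 9252415258) (nat_lit 76) (nat_lit 14089028998) (nat_lit 215) (nat_lit 5) (nat_lit 222) (nat_lit 5) (nat_lit 216) (nat_lit 5) (nat_lit 645) (nat_lit 572) (nat_lit 343)))))) (XT.nd (nat_lit 390) (nat_lit 1672) (nat_lit 0) (XT.nd (nat_lit 156) (nat_lit 912) (nat_lit 0) (XT.nd (nat_lit 78) (nat_lit 0) (nat_lit 0) (XT.lf (nat_lit 0) (nat_lit 6220043827) (nat_lit 456) (nat_lit 1375663319) (nat_lit 532) (nat_lit 18245478027) (nat_lit 209) (nat_lit 5) (nat_lit 215) (nat_lit 5) (nat_lit 216) (nat_lit 5) (nat_lit 646) (nat_lit 572) (nat_lit 342)) (XT.lf (nat_lit 0) (nat_lit 13221593934) (nat_lit 532)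 (nat_lit 4089204716) (nat_lit 76) (nat_lit 8840178291) (nat_lit 209) (nat_lit 5) (nat_lit 216) (nat_lit 5) (nat_lit 210) (nat_lit 5) (nat_lit 647) (nat_lit 572) (nat_lit 341))) (XT.nd (nat_lit 78) (nat_lit 456) (nat_lit 0) (XT.lf (nat_lit 0) (nat_lit 11894025843) (nat_lit 456) (nat_lit 7148024128) (nat_lit 532) (nat_lit 7423273622) (nat_lit 203) (nat_lit 5) (nat_lit 209) (nat_lit 5) (nat_lit 210) (nat_lit 5) (nat_lit 648) (nat_lit 572) (nat_lit 340)) (XT.nd (nat_lit 78) (nat_lit 76) (nat_lit 0) (XT.lf (nat_lit 0) (nat_lit 1458741405) (nat_lit 380) (nat_lit 23573909141) (nat_lit 456) (nat_lit 1752232004) (nat_lit 198) (nat_lit 5) (nat_lit 203) (nat_lit 5) (nat_lit 204) (nat_lit 5) (nat_lit 649) (nat_lit 572) (nat_lit 339)) (XT.lf (nat_lit 0) (nat_lit 4120877042) (nat_lit 456) (nat_lit 9182416518) (nat_lit 76) (nat_lit 13804185000) (nat_lit 197) (nat_lit 5) (nat_lit 203) (nat_lit 5) (nat_lit 198) (nat_lit 5) (nat_lit 650) (nat_lit 572) (nat_lit 338))))) (XT.nd (nat_lit 234) (nat_lit 836) (nat_lit 0) (XT.nd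 (nat_lit 78) (nat_lit 380) (nat_lit 0) (XT.lf (nat_lit 0) (nat_lit 7362995230) (nat_lit 456) (nat_lit 2768664584) (nat_lit 532) (nat_lit 17303761627) (nat_lit 191) (nat_lit 5) (nat_lit 197) (nat_lit 5) (nat_lit 198) (nat_lit 5) (nat_lit 651) (nat_lit 572) (nat_lit 337)) (XT.nd (nat_lit 78) (nat_lit 380) (nat_lit 0) (XT.lf (nat_lit 0) (nat_lit 16372350261) (nat_lit 532) (nat_lit 3463282400) (nat_lit 76) (nat_lit 7932096752) (nat_lit 191) (nat_lit 5) (nat_lit 198) (nat_lit 5) (nat_lit 192) (nat_lit 5) (nat_lit 652) (nat_lit 572) (nat_lit 336)) (XT.lf (nat_lit 0) (nat_lit 13632442795) (nat_lit 380) (nat_lit 9208214333) (nat_lit 456) (nat_lit 5263970433) (nat_lit 186) (nat_lit 5) (nat_lit 191) (nat_lit 5) (nat_lit 192) (nat_lit 5) (nat_lit 653) (nat_lit 572) (nat_lit 335)))) (XT.nd (nat_lit 78) (nat_lit 380) (nat_lit 0) (XT.lf (nat_lit 0) (nat_lit 1024817656) (nat_lit 456) (nat_lit 25766412684) (nat_lit 76) (nat_lit 1655950116) (nat_lit 180) (nat_lit 5) (nat_lit 186) (nat_lit 5) (nat_lit 181) (nat_lit 5) (nat_lit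 654) (nat_lit 572) (nat_lit 334)) (XT.nd (nat_lit 78) (nat_lit 380) (nat_lit 0) (XT.lf (nat_lit 0) (nat_lit 7523699977) (nat_lit 456) (nat_lit 8524272238) (nat_lit 76) (nat_lit 12744820302) (nat_lit 180) (nat_lit 5) (nat_lit 186) (nat_lit 5) (nat_lit 181) (nat_lit 5) (nat_lit 655) (nat_lit 572) (nat_lit 333)) (XT.lf (nat_lit 0) (nat_lit 9177091447) (nat_lit 380) (nat_lit 5031127228) (nat_lit 456) (nat_lit 14935985036) (nat_lit 175) (nat_lit 5) (nat_lit 180) (nat_lit 5) (nat_lit 181) (nat_lit 5) (nat_lit 656) (nat_lit 572) (nat_lit 332))))))))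
noncomputable def xc156 : XT := (XT.nd (nat_lit 75426) (nat_lit 0) (nat_lit 8436) (XT.nd (nat_lit 74646) (nat_lit 0) (nat_lit 27512) (XT.nd (nat_lit 390) (nat_lit 1064) (nat_lit 0) (XT.nd (nat_lit 156) (nat_lit 836) (nat_lit 0) (XT.nd (nat_lit 78) (nat_lit 380) (nat_lit 0) (XT.lf (nat_lit 0) (nat_lit 21120402785) (nat_lit 456) (nat_lit 2200144477) (nat_lit 76) (nat_lit 6180216430) (nat_lit 175) (nat_lit 5) (nat_lit 181) (nat_lit 5) (nat_lit 176) (nat_lit 5) (nat_lit 657) (nat_lit 572) (nat_lit 331)) (XT.lf (nat_lit 0) (nat_lit 16094033906) (nat_lit 380) (nat_lit 12210785042) (nat_lit 456) (nat_lit 1556956220) (nat_lit 170) (nat_lit 5) (nat_lit 175) (nat_lit 5) (nat_lit 176) (nat_lit 5) (nat_lit 658) (nat_lit 572) (nat_lit 330))) (XT.nd (nat_lit 78) (nat_lit 380) (nat_lit 0) (XT.lf (nat_lit 0) (nat_lit 4573109690) (nat_lit 380) (nat_lit 799688587) (nat_lit 456) (nat_lit 24855692232) (nat_lit 164) (nat_lit 5) (nat_lit 169) (nat_lit 5) (nat_lit 170) (nat_lit 5) (nat_lit 659) (nat_lit 572) (nat_lit 329)) (XT.nd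 (nat_lit 78) (nat_lit 380) (nat_lit 0) (XT.lf (nat_lit 0) (nat_lit 12579909948) (nat_lit 456) (nat_lit 7220511640) (nat_lit 76) (nat_lit 10798720604) (nat_lit 164) (nat_lit 5) (nat_lit 170) (nat_lit 5) (nat_lit 165) (nat_lit 5) (nat_lit 660) (nat_lit 572) (nat_lit 328)) (XT.lf (nat_lit 0) (nat_lit 11725738856) (nat_lit 380) (nat_lit 8283138040) (nat_lit 456) (nat_lit 10966775809) (nat_lit 159) (nat_lit 5) (nat_lit 164) (nat_lit 5) (nat_lit 165) (nat_lit 5) (nat_lit 661) (nat_lit 572) (nat_lit 327))))) (XT.nd (nat_lit 156) (nat_lit 684) (nat_lit 0) (XT.nd (nat_lit 78) (nat_lit 380) (nat_lit 0) (XT.lf (nat_lit 0) (nat_lit 27653998921) (nat_lit 456) (nat_lit 238575892) (nat_lit 76) (nat_lit 3465767159) (nat_lit 159) (nat_lit 5) (nat_lit 165) (nat_lit 5) (nat_lit 160) (nat_lit 5) (nat_lit 662) (nat_lit 572) (nat_lit 326)) (XT.lf (nat_lit 0) (nat_lit 3832782796) (nat_lit 380) (nat_lit 12424214976) (nat_lit 76) (nat_lit 15487646128) (nat_lit 154) (nat_lit 5) (nat_lit 159) (nat_lit 5) (nat_lit 155) (nat_lit 5)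 (nat_lit 663) (nat_lit 572) (nat_lit 325))) (XT.nd (nat_lit 78) (nat_lit 304) (nat_lit 0) (XT.lf (nat_lit 0) (nat_lit 7199362860) (nat_lit 380) (nat_lit 4316478498) (nat_lit 456) (nat_lit 20621445021) (nat_lit 149) (nat_lit 5) (nat_lit 154) (nat_lit 5) (nat_lit 155) (nat_lit 5) (nat_lit 664) (nat_lit 572) (nat_lit 324)) (XT.nd (nat_lit 78) (nat_lit 304) (nat_lit 0) (XT.lf (nat_lit 0) (nat_lit 19483947634) (nat_lit 456) (nat_lit 5209635042) (nat_lit 76) (nat_lit 7841571354) (nat_lit 149) (nat_lit 5) (nat_lit 155) (nat_lit 5) (nat_lit 150) (nat_lit 5) (nat_lit 665) (nat_lit 572) (nat_lit 323)) (XT.lf (nat_lit 0) (nat_lit 15076736416) (nat_lit 304) (nat_lit 12657634660) (nat_lit 380) (nat_lit 5204148908) (nat_lit 145) (nat_lit 5) (nat_lit 149) (nat_lit 5) (nat_lit 150) (nat_lit 5) (nat_lit 666) (nat_lit 572) (nat_lit 322)))))) (XT.nd (nat_lit 390) (nat_lit 0) (nat_lit 76) (XT.nd (nat_lit 156) (nat_lit 1672) (nat_lit 0) (XT.nd (nat_lit 78) (nat_lit 0) (nat_lit 0) (XT.lf (nat_lit 0) (nat_lit 5111119080) (nat_lit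 1748) (nat_lit 425689330) (nat_lit 1748) (nat_lit 425689330) (nat_lit 529) (nat_lit 3) (nat_lit 552) (nat_lit 3) (nat_lit 552) (nat_lit 5) (nat_lit 573) (nat_lit 573) (nat_lit 414)) (XT.lf (nat_lit 76) (nat_lit 5155599993) (nat_lit 0) (nat_lit 5682624513) (nat_lit 1748) (nat_lit 1195730226) (nat_lit 530) (nat_lit 5) (nat_lit 529) (nat_lit 3) (nat_lit 552) (nat_lit 5) (nat_lit 574) (nat_lit 573) (nat_lit 413))) (XT.nd (nat_lit 78) (nat_lit 1672) (nat_lit 0) (XT.lf (nat_lit 76) (nat_lit 11287748215) (nat_lit 0) (nat_lit 171855101) (nat_lit 1748) (nat_lit 685628801) (nat_lit 530) (nat_lit 5) (nat_lit 529) (nat_lit 3) (nat_lit 552) (nat_lit 5) (nat_lit 575) (nat_lit 573) (nat_lit 412)) (XT.nd (nat_lit 78) (nat_lit 1748) (nat_lit 0) (XT.lf (nat_lit 76) (nat_lit 5311414872) (nat_lit 0) (nat_lit 6839505832) (nat_lit 1748) (nat_lit 106664522) (nat_lit 531) (nat_lit 5) (nat_lit 530) (nat_lit 5) (nat_lit 553) (nat_lit 5) (nat_lit 576) (nat_lit 573) (nat_lit 411)) (XT.lf (nat_lit 0) (nat_lit 472228007) (nat_lit 1748)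 (nat_lit 767862528) (nat_lit 1824) (nat_lit 11132138508) (nat_lit 507) (nat_lit 5) (nat_lit 530) (nat_lit 5) (nat_lit 531) (nat_lit 5) (nat_lit 577) (nat_lit 573) (nat_lit 410))))) (XT.nd (nat_lit 156) (nat_lit 0) (nat_lit 76) (XT.nd (nat_lit 78) (nat_lit 0) (nat_lit 0) (XT.lf (nat_lit 0) (nat_lit 1114946526) (nat_lit 1748) (nat_lit 6917880492) (nat_lit 1824) (nat_lit 4455251464) (nat_lit 508) (nat_lit 5) (nat_lit 531) (nat_lit 5) (nat_lit 532) (nat_lit 5) (nat_lit 578) (nat_lit 573) (nat_lit 409)) (XT.lf (nat_lit 0) (nat_lit 1772149436) (nat_lit 1748) (nat_lit 575842786) (nat_lit 1824) (nat_lit 10258220453) (nat_lit 508) (nat_lit 5) (nat_lit 531) (nat_lit 5) (nat_lit 532) (nat_lit 5) (nat_lit 579) (nat_lit 573) (nat_lit 408))) (XT.nd (nat_lit 78) (nat_lit 0) (nat_lit 0) (XT.lf (nat_lit 0) (nat_lit 2492374129) (nat_lit 1748) (nat_lit 6784343220) (nat_lit 1824) (nat_lit 3448995008) (nat_lit 509) (nat_lit 5) (nat_lit 532) (nat_lit 5) (nat_lit 533) (nat_lit 5) (nat_lit 580) (nat_lit 573) (nat_lit 407)) (XT.nd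 (nat_lit 78) (nat_lit 0) (nat_lit 76) (XT.lf (nat_lit 0) (nat_lit 3235117054) (nat_lit 1748) (nat_lit 273329874) (nat_lit 1824) (nat_lit 9338993182) (nat_lit 509) (nat_lit 5) (nat_lit 532) (nat_lit 5) (nat_lit 533) (nat_lit 5) (nat_lit 581) (nat_lit 573) (nat_lit 406)) (XT.lf (nat_lit 0) (nat_lit 4039186669) (nat_lit 1748) (nat_lit 6541099382) (nat_lit 1824) (nat_lit 2390387277) (nat_lit 510) (nat_lit 5) (nat_lit 533) (nat_lit 5) (nat_lit 534) (nat_lit 5) (nat_lit 582) (nat_lit 573) (nat_lit 405))))))) (XT.nd (nat_lit 780) (nat_lit 17784) (nat_lit 0) (XT.nd (nat_lit 390) (nat_lit 1520) (nat_lit 0) (XT.nd (nat_lit 156) (nat_lit 0) (nat_lit 76) (XT.nd (nat_lit 78) (nat_lit 0) (nat_lit 76) (XT.lf (nat_lit 76) (nat_lit 145542886) (nat_lit 0) (nat_lit 4728917874) (nat_lit 1824) (nat_lit 8221608326) (nat_lit 511) (nat_lit 5) (nat_lit 510) (nat_lit 5) (nat_lit 534) (nat_lit 5) (nat_lit 583) (nat_lit 573) (nat_lit 404)) (XT.lf (nat_lit 0) (nat_lit 5767962648) (nat_lit 1748) (nat_lit 6184067353) (nat_lit 1824) (nat_lit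 1271112644) (nat_lit 511) (nat_lit 5) (nat_lit 534) (nat_lit 5) (nat_lit 535) (nat_lit 5) (nat_lit 584) (nat_lit 573) (nat_lit 403))) (XT.nd (nat_lit 78) (nat_lit 0) (nat_lit 76) (XT.lf (nat_lit 76) (nat_lit 688354163) (nat_lit 0) (nat_lit 6016266893) (nat_lit 1824) (nat_lit 6647631214) (nat_lit 512) (nat_lit 5) (nat_lit 511) (nat_lit 5) (nat_lit 535) (nat_lit 5) (nat_lit 585) (nat_lit 573) (nat_lit 402)) (XT.nd (nat_lit 78) (nat_lit 0) (nat_lit 0) (XT.lf (nat_lit 0) (nat_lit 7691715517) (nat_lit 1748) (nat_lit 5708845372) (nat_lit 1824) (nat_lit 82749460) (nat_lit 512) (nat_lit 5) (nat_lit 535) (nat_lit 5) (nat_lit 536) (nat_lit 5) (nat_lit 586) (nat_lit 573) (nat_lit 401)) (XT.lf (nat_lit 76) (nat_lit 1356134775) (nat_lit 0) (nat_lit 7380948787) (nat_lit 1824) (nat_lit 4879135709) (nat_lit 513) (nat_lit 5) (nat_lit 512) (nat_lit 5) (nat_lit 536) (nat_lit 5) (nat_lit 587) (nat_lit 573) (nat_lit 400))))) (XT.nd (nat_lit 156) (nat_lit 1672) (nat_lit 0) (XT.nd (nat_lit 78) (nat_lit 0) (nat_lit 76) (XT.lf (nat_lit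 76) (nat_lit 8632729481) (nat_lit 0) (nat_lit 1198975235) (nat_lit 1824) (nat_lit 3919515045) (nat_lit 513) (nat_lit 5) (nat_lit 512) (nat_lit 5) (nat_lit 536) (nat_lit 5) (nat_lit 588) (nat_lit 573) (nat_lit 399)) (XT.lf (nat_lit 76) (nat_lit 2153883302) (nat_lit 0) (nat_lit 8831725287) (nat_lit 1824) (nat_lit 2902564168) (nat_lit 514) (nat_lit 5) (nat_lit 513) (nat_lit 5) (nat_lit 537) (nat_lit 5) (nat_lit 589) (nat_lit 573) (nat_lit 398))) (XT.nd (nat_lit 78) (nat_lit 1748) (nat_lit 0) (XT.lf (nat_lit 76) (nat_lit 9625942689) (nat_lit 0) (nat_lit 2569278869) (nat_lit 1824) (nat_lit 1831990927) (nat_lit 514) (nat_lit 5) (nat_lit 513) (nat_lit 5) (nat_lit 537) (nat_lit 5) (nat_lit 590) (nat_lit 573) (nat_lit 397)) (XT.nd (nat_lit 78) (nat_lit 1824) (nat_lit 0) (XT.lf (nat_lit 76) (nat_lit 3086940560) (nat_lit 0) (nat_lit 10377519929) (nat_lit 1824) (nat_lit 703864134) (nat_lit 515) (nat_lit 5) (nat_lit 514) (nat_lit 5) (nat_lit 538) (nat_lit 5) (nat_lit 591) (nat_lit 573) (nat_lit 396)) (XT.lf (nat_lit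 0) (nat_lit 478386565) (nat_lit 1824) (nat_lit 3554445426) (nat_lit 1900) (nat_lit 10278620839) (nat_lit 490) (nat_lit 5) (nat_lit 514) (nat_lit 5) (nat_lit 515) (nat_lit 5) (nat_lit 592) (nat_lit 573) (nat_lit 395)))))) (XT.nd (nat_lit 390) (nat_lit 17860) (nat_lit 0) (XT.nd (nat_lit 156) (nat_lit 0) (nat_lit 76) (XT.nd (nat_lit 78) (nat_lit 0) (nat_lit 0) (XT.lf (nat_lit 0) (nat_lit 1708830287) (nat_lit 1824) (nat_lit 10307141339) (nat_lit 1900) (nat_lit 2440699741) (nat_lit 491) (nat_lit 5) (nat_lit 515) (nat_lit 5) (nat_lit 516) (nat_lit 5) (nat_lit 593) (nat_lit 573) (nat_lit 394)) (XT.lf (nat_lit 0) (nat_lit 3005605551) (nat_lit 1824) (nat_lit 2582661531) (nat_lit 1900) (nat_lit 9015693005) (nat_lit 491) (nat_lit 5) (nat_lit 515) (nat_lit 5) (nat_lit 516) (nat_lit 5) (nat_lit 594) (nat_lit 573) (nat_lit 393))) (XT.nd (nat_lit 78) (nat_lit 0) (nat_lit 0) (XT.lf (nat_lit 0) (nat_lit 4360821531) (nat_lit 1824) (nat_lit 9400706291) (nat_lit 1900) (nat_lit 992016919) (nat_lit 492) (nat_lit 5) (nat_lit 516)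 (nat_lit 5) (nat_lit 517) (nat_lit 5) (nat_lit 595) (nat_lit 573) (nat_lit 392)) (XT.nd (nat_lit 78) (nat_lit 0) (nat_lit 0) (XT.lf (nat_lit 0) (nat_lit 5788915111) (nat_lit 1824) (nat_lit 1468081729) (nat_lit 1900) (nat_lit 7648209038) (nat_lit 492) (nat_lit 5) (nat_lit 516) (nat_lit 5) (nat_lit 517) (nat_lit 5) (nat_lit 596) (nat_lit 573) (nat_lit 391)) (XT.lf (nat_lit 76) (nat_lit 6704020560) (nat_lit 0) (nat_lit 576566263) (nat_lit 1900) (nat_lit 7778613341) (nat_lit 493) (nat_lit 5) (nat_lit 492) (nat_lit 5) (nat_lit 517) (nat_lit 5) (nat_lit 597) (nat_lit 573) (nat_lit 390))))) (XT.nd (nat_lit 234) (nat_lit 15048) (nat_lit 0) (XT.nd (nat_lit 78) (nat_lit 2964) (nat_lit 0) (XT.lf (nat_lit 0) (nat_lit 8844125703) (nat_lit 1824) (nat_lit 204404443) (nat_lit 76) (nat_lit 6166903761) (nat_lit 493) (nat_lit 5) (nat_lit 517) (nat_lit 5) (nat_lit 494) (nat_lit 5) (nat_lit 598) (nat_lit 573) (nat_lit 389)) (XT.nd (nat_lit 78) (nat_lit 1140) (nat_lit 0) (XT.lf (nat_lit 0) (nat_lit 8206104978) (nat_lit 1824)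 (nat_lit 2281711590) (nat_lit 1900) (nat_lit 4885998376) (nat_lit 469) (nat_lit 5) (nat_lit 493) (nat_lit 5) (nat_lit 494) (nat_lit 5) (nat_lit 599) (nat_lit 573) (nat_lit 388)) (XT.lf (nat_lit 0) (nat_lit 1231188383) (nat_lit 1140) (nat_lit 10964471978) (nat_lit 1216) (nat_lit 3339077894) (nat_lit 454) (nat_lit 5) (nat_lit 469) (nat_lit 5) (nat_lit 470) (nat_lit 5) (nat_lit 600) (nat_lit 573) (nat_lit 387)))) (XT.nd (nat_lit 2652) (nat_lit 15048) (nat_lit 0) (XT.lf (nat_lit 0) (nat_lit 9872750861) (nat_lit 1140) (nat_lit 4120038435) (nat_lit 1216) (nat_lit 1704988404) (nat_lit 454) (nat_lit 5) (nat_lit 469) (nat_lit 5) (nat_lit 470) (nat_lit 5) (nat_lit 601) (nat_lit 573) (nat_lit 386)) (XT.nd (nat_lit 78) (nat_lit 76) (nat_lit 0) (XT.lf (nat_lit 0) (nat_lit 1891784161) (nat_lit 608) (nat_lit 19189023874) (nat_lit 684) (nat_lit 1799126419) (nat_lit 257) (nat_lit 5) (nat_lit 265) (nat_lit 5) (nat_lit 266) (nat_lit 5) (nat_lit 635) (nat_lit 573) (nat_lit 352)) (XT.lf (nat_lit 0) (nat_lit 2543038899) (nat_lit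 684) (nat_lit 7501110070) (nat_lit 76) (nat_lit 13103016551) (nat_lit 256) (nat_lit 5) (nat_lit 265) (nat_lit 5) (nat_lit 257) (nat_lit 5) (nat_lit 636) (nat_lit 573) (nat_lit 351))))))))
noncomputable def xc157 : XT := (XT.nd (nat_lit 1560) (nat_lit 2356) (nat_lit 0) (XT.nd (nat_lit 780) (nat_lit 2660) (nat_lit 0) (XT.nd (nat_lit 390) (nat_lit 1520) (nat_lit 0) (XT.nd (nat_lit 156) (nat_lit 1064) (nat_lit 0) (XT.nd (nat_lit 78) (nat_lit 0) (nat_lit 0) (XT.lf (nat_lit 0) (nat_lit 6320268990) (nat_lit 532) (nat_lit 663972894) (nat_lit 608) (nat_lit 16434535885) (nat_lit 249) (nat_lit 5) (nat_lit 256) (nat_lit 5) (nat_lit 257) (nat_lit 5) (nat_lit 637) (nat_lit 573) (nat_lit 350)) (XT.lf (nat_lit 0) (nat_lit 11618016823) (nat_lit 608) (nat_lit 3239623902) (nat_lit 76) (nat_lit 8836106681) (nat_lit 249) (nat_lit 5) (nat_lit 257) (nat_lit 5) (nat_lit 250) (nat_lit 5) (nat_lit 638) (nat_lit 573) (nat_lit 349))) (XT.nd (nat_lit 78) (nat_lit 532) (nat_lit 0) (XT.lf (nat_lit 0) (nat_lit 11030412495) (nat_lit 532)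 (nat_lit 5385430184) (nat_lit 608) (nat_lit 7556946345) (nat_lit 242) (nat_lit 5) (nat_lit 249) (nat_lit 5) (nat_lit 250) (nat_lit 5) (nat_lit 639) (nat_lit 573) (nat_lit 348)) (XT.nd (nat_lit 78) (nat_lit 76) (nat_lit 0) (XT.lf (nat_lit 0) (nat_lit 1356332904) (nat_lit 456) (nat_lit 20007147032) (nat_lit 532) (nat_lit 2892854536) (nat_lit 236) (nat_lit 5) (nat_lit 242) (nat_lit 5) (nat_lit 243) (nat_lit 5) (nat_lit 640) (nat_lit 573) (nat_lit 347)) (XT.lf (nat_lit 0) (nat_lit 1958576159) (nat_lit 532) (nat_lit 8482059705) (nat_lit 76) (nat_lit 14102302732) (nat_lit 235) (nat_lit 5) (nat_lit 242) (nat_lit 5) (nat_lit 236) (nat_lit 5) (nat_lit 641) (nat_lit 573) (nat_lit 346))))) (XT.nd (nat_lit 156) (nat_lit 988) (nat_lit 0) (XT.nd (nat_lit 78) (nat_lit 0) (nat_lit 0) (XT.lf (nat_lit 0) (nat_lit 6281233344) (nat_lit 532) (nat_lit 623394873) (nat_lit 608) (nat_lit 17929537678) (nat_lit 228) (nat_lit 5) (nat_lit 235) (nat_lit 5) (nat_lit 236) (nat_lit 5) (nat_lit 642) (nat_lit 573) (nat_lit 345)) (XT.lf (nat_lit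 0) (nat_lit 12063411153) (nat_lit 608) (nat_lit 3742920643) (nat_lit 76) (nat_lit 9322609835) (nat_lit 228) (nat_lit 5) (nat_lit 236) (nat_lit 5) (nat_lit 229) (nat_lit 5) (nat_lit 643) (nat_lit 573) (nat_lit 344))) (XT.nd (nat_lit 78) (nat_lit 532) (nat_lit 0) (XT.lf (nat_lit 0) (nat_lit 11503895787) (nat_lit 456) (nat_lit 5895927105) (nat_lit 532) (nat_lit 8028301013) (nat_lit 222) (nat_lit 5) (nat_lit 228) (nat_lit 5) (nat_lit 229) (nat_lit 5) (nat_lit 644) (nat_lit 573) (nat_lit 343)) (XT.nd (nat_lit 78) (nat_lit 76) (nat_lit 0) (XT.lf (nat_lit 0) (nat_lit 1357708600) (nat_lit 456) (nat_lit 21542372466) (nat_lit 532) (nat_lit 2832066480) (nat_lit 216) (nat_lit 5) (nat_lit 222) (nat_lit 5) (nat_lit 223) (nat_lit 5) (nat_lit 645) (nat_lit 573) (nat_lit 342)) (XT.lf (nat_lit 0) (nat_lit 2564511658) (nat_lit 532) (nat_lit 8968235649) (nat_lit 76) (nat_lit 14506608177) (nat_lit 215) (nat_lit 5) (nat_lit 222) (nat_lit 5) (nat_lit 216) (nat_lit 5) (nat_lit 646) (nat_lit 573) (nat_lit 341)))))) (XT.nd (nat_lit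 390) (nat_lit 1292) (nat_lit 0) (XT.nd (nat_lit 156) (nat_lit 912) (nat_lit 0) (XT.nd (nat_lit 78) (nat_lit 0) (nat_lit 0) (XT.lf (nat_lit 0) (nat_lit 6810585593) (nat_lit 456) (nat_lit 1260538117) (nat_lit 532) (nat_lit 18280409076) (nat_lit 209) (nat_lit 5) (nat_lit 215) (nat_lit 5) (nat_lit 216) (nat_lit 5) (nat_lit 647) (nat_lit 573) (nat_lit 340)) (XT.lf (nat_lit 0) (nat_lit 13804092994) (nat_lit 532) (nat_lit 3708546774) (nat_lit 76) (nat_lit 9154989444) (nat_lit 209) (nat_lit 5) (nat_lit 216) (nat_lit 5) (nat_lit 210) (nat_lit 5) (nat_lit 648) (nat_lit 573) (nat_lit 339))) (XT.nd (nat_lit 78) (nat_lit 456) (nat_lit 0) (XT.lf (nat_lit 0) (nat_lit 12591306014) (nat_lit 456) (nat_lit 7146398253) (nat_lit 532) (nat_lit 7250623724) (nat_lit 203) (nat_lit 5) (nat_lit 209) (nat_lit 5) (nat_lit 210) (nat_lit 5) (nat_lit 649) (nat_lit 573) (nat_lit 338)) (XT.nd (nat_lit 78) (nat_lit 76) (nat_lit 0) (XT.lf (nat_lit 0) (nat_lit 1949621559) (nat_lit 380) (nat_lit 23896240525) (nat_lit 456) (nat_lit 1468461251)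 (nat_lit 198) (nat_lit 5) (nat_lit 203) (nat_lit 5) (nat_lit 204) (nat_lit 5) (nat_lit 650) (nat_lit 573) (nat_lit 337)) (XT.lf (nat_lit 0) (nat_lit 4511759359) (nat_lit 456) (nat_lit 8909307760) (nat_lit 76) (nat_lit 14222386244) (nat_lit 197) (nat_lit 5) (nat_lit 203) (nat_lit 5) (nat_lit 198) (nat_lit 5) (nat_lit 651) (nat_lit 573) (nat_lit 336))))) (XT.nd (nat_lit 156) (nat_lit 836) (nat_lit 0) (XT.nd (nat_lit 78) (nat_lit 0) (nat_lit 0) (XT.lf (nat_lit 0) (nat_lit 7964007242) (nat_lit 456) (nat_lit 2675648275) (nat_lit 532) (nat_lit 17338361737) (nat_lit 191) (nat_lit 5) (nat_lit 197) (nat_lit 5) (nat_lit 198) (nat_lit 5) (nat_lit 652) (nat_lit 573) (nat_lit 335)) (XT.lf (nat_lit 0) (nat_lit 17000116825) (nat_lit 532) (nat_lit 3082644832) (nat_lit 76) (nat_lit 8234310691) (nat_lit 191) (nat_lit 5) (nat_lit 198) (nat_lit 5) (nat_lit 192) (nat_lit 5) (nat_lit 653) (nat_lit 573) (nat_lit 334))) (XT.nd (nat_lit 78) (nat_lit 456) (nat_lit 0) (XT.lf (nat_lit 0) (nat_lit 14352034976) (nat_lit 380) (nat_lit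 9242768087) (nat_lit 456) (nat_lit 5065965236) (nat_lit 186) (nat_lit 5) (nat_lit 191) (nat_lit 5) (nat_lit 192) (nat_lit 5) (nat_lit 654) (nat_lit 573) (nat_lit 333)) (XT.nd (nat_lit 78) (nat_lit 0) (nat_lit 0) (XT.lf (nat_lit 0) (nat_lit 1342645039) (nat_lit 456) (nat_lit 25828834023) (nat_lit 76) (nat_lit 1838693426) (nat_lit 180) (nat_lit 5) (nat_lit 186) (nat_lit 5) (nat_lit 181) (nat_lit 5) (nat_lit 655) (nat_lit 573) (nat_lit 332)) (XT.lf (nat_lit 0) (nat_lit 7965674986) (nat_lit 456) (nat_lit 8250731295) (nat_lit 76) (nat_lit 13146407206) (nat_lit 180) (nat_lit 5) (nat_lit 186) (nat_lit 5) (nat_lit 181) (nat_lit 5) (nat_lit 656) (nat_lit 573) (nat_lit 331))))))) (XT.nd (nat_lit 74724) (nat_lit 0) (nat_lit 27132) (XT.nd (nat_lit 390) (nat_lit 1140) (nat_lit 0) (XT.nd (nat_lit 156) (nat_lit 836) (nat_lit 0) (XT.nd (nat_lit 78) (nat_lit 0) (nat_lit 0) (XT.lf (nat_lit 0) (nat_lit 9801738437) (nat_lit 380) (nat_lit 4979293862) (nat_lit 456) (nat_lit 14940277737) (nat_lit 175) (nat_lit 5) (nat_lit 180)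 (nat_lit 5) (nat_lit 181) (nat_lit 5) (nat_lit 657) (nat_lit 573) (nat_lit 330)) (XT.lf (nat_lit 0) (nat_lit 21826770738) (nat_lit 456) (nat_lit 1806997302) (nat_lit 76) (nat_lit 6451327057) (nat_lit 175) (nat_lit 5) (nat_lit 181) (nat_lit 5) (nat_lit 176) (nat_lit 5) (nat_lit 658) (nat_lit 573) (nat_lit 329))) (XT.nd (nat_lit 78) (nat_lit 456) (nat_lit 0) (XT.lf (nat_lit 0) (nat_lit 16850188661) (nat_lit 380) (nat_lit 12301938318) (nat_lit 456) (nat_lit 1301254880) (nat_lit 170) (nat_lit 5) (nat_lit 175) (nat_lit 5) (nat_lit 176) (nat_lit 5) (nat_lit 659) (nat_lit 573) (nat_lit 328)) (XT.nd (nat_lit 78) (nat_lit 0) (nat_lit 0) (XT.lf (nat_lit 0) (nat_lit 5099730569) (nat_lit 380) (nat_lit 660876953) (nat_lit 456) (nat_lit 25066841330) (nat_lit 164) (nat_lit 5) (nat_lit 169) (nat_lit 5) (nat_lit 170) (nat_lit 5) (nat_lit 660) (nat_lit 573) (nat_lit 327)) (XT.lf (nat_lit 0) (nat_lit 13107349696) (nat_lit 456) (nat_lit 6933779663) (nat_lit 76) (nat_lit 11164474531) (nat_lit 164) (nat_lit 5) (nat_lit 170) (nat_lit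 5) (nat_lit 165) (nat_lit 5) (nat_lit 661) (nat_lit 573) (nat_lit 326))))) (XT.nd (nat_lit 156) (nat_lit 456) (nat_lit 0) (XT.nd (nat_lit 78) (nat_lit 304) (nat_lit 0) (XT.lf (nat_lit 0) (nat_lit 12388559381) (nat_lit 380) (nat_lit 8293708789) (nat_lit 456) (nat_lit 10907429084) (nat_lit 159) (nat_lit 5) (nat_lit 164) (nat_lit 5) (nat_lit 165) (nat_lit 5) (nat_lit 662) (nat_lit 573) (nat_lit 325)) (XT.lf (nat_lit 0) (nat_lit 183338770) (nat_lit 304) (nat_lit 28293774305) (nat_lit 380) (nat_lit 3502990905) (nat_lit 155) (nat_lit 5) (nat_lit 159) (nat_lit 5) (nat_lit 160) (nat_lit 5) (nat_lit 663) (nat_lit 573) (nat_lit 324))) (XT.nd (nat_lit 78) (nat_lit 380) (nat_lit 0) (XT.lf (nat_lit 0) (nat_lit 4177515067) (nat_lit 380) (nat_lit 12247642359) (nat_lit 76) (nat_lit 15949013833) (nat_lit 154) (nat_lit 5) (nat_lit 159) (nat_lit 5) (nat_lit 155) (nat_lit 5) (nat_lit 664) (nat_lit 573) (nat_lit 323)) (XT.nd (nat_lit 78) (nat_lit 0) (nat_lit 0) (XT.lf (nat_lit 0) (nat_lit 7765610607) (nat_lit 380) (nat_lit 4246109385)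 (nat_lit 456) (nat_lit 20762996971) (nat_lit 149) (nat_lit 5) (nat_lit 154) (nat_lit 5) (nat_lit 155) (nat_lit 5) (nat_lit 665) (nat_lit 573) (nat_lit 322)) (XT.lf (nat_lit 0) (nat_lit 20134978742) (nat_lit 456) (nat_lit 4895633387) (nat_lit 76) (nat_lit 8150014106) (nat_lit 149) (nat_lit 5) (nat_lit 155) (nat_lit 5) (nat_lit 150) (nat_lit 5) (nat_lit 666) (nat_lit 573) (nat_lit 321)))))) (XT.nd (nat_lit 390) (nat_lit 0) (nat_lit 152) (XT.nd (nat_lit 156) (nat_lit 1748) (nat_lit 0) (XT.nd (nat_lit 78) (nat_lit 0) (nat_lit 0) (XT.lf (nat_lit 0) (nat_lit 5690513487) (nat_lit 1748) (nat_lit 190837721) (nat_lit 1748) (nat_lit 190837721) (nat_lit 529) (nat_lit 3) (nat_lit 552) (nat_lit 3) (nat_lit 552) (nat_lit 5) (nat_lit 574) (nat_lit 574) (nat_lit 412)) (XT.lf (nat_lit 76) (nat_lit 5742240608) (nat_lit 0) (nat_lit 6251519199) (nat_lit 1748) (nat_lit 262068554) (nat_lit 530) (nat_lit 5) (nat_lit 529) (nat_lit 3) (nat_lit 552) (nat_lit 5) (nat_lit 575) (nat_lit 574) (nat_lit 411))) (XT.nd (nat_lit 78) (nat_lit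 0) (nat_lit 76) (XT.lf (nat_lit 0) (nat_lit 236318347) (nat_lit 1748) (nat_lit 383703914) (nat_lit 1824) (nat_lit 11749646672) (nat_lit 506) (nat_lit 5) (nat_lit 529) (nat_lit 3) (nat_lit 530) (nat_lit 5) (nat_lit 576) (nat_lit 574) (nat_lit 410)) (XT.nd (nat_lit 78) (nat_lit 0) (nat_lit 0) (XT.lf (nat_lit 0) (nat_lit 801306976) (nat_lit 1748) (nat_lit 6580160128) (nat_lit 1824) (nat_lit 5103082080) (nat_lit 507) (nat_lit 5) (nat_lit 530) (nat_lit 5) (nat_lit 531) (nat_lit 5) (nat_lit 577) (nat_lit 574) (nat_lit 409)) (XT.lf (nat_lit 0) (nat_lit 1372533240) (nat_lit 1748) (nat_lit 288879342) (nat_lit 1824) (nat_lit 10940416067) (nat_lit 507) (nat_lit 5) (nat_lit 530) (nat_lit 5) (nat_lit 531) (nat_lit 5) (nat_lit 578) (nat_lit 574) (nat_lit 408))))) (XT.nd (nat_lit 234) (nat_lit 0) (nat_lit 76) (XT.nd (nat_lit 78) (nat_lit 0) (nat_lit 0) (XT.lf (nat_lit 0) (nat_lit 2011323866) (nat_lit 1748) (nat_lit 6545088186) (nat_lit 1824) (nat_lit 4163919215) (nat_lit 508) (nat_lit 5) (nat_lit 531) (nat_lit 5) (nat_lit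 532) (nat_lit 5) (nat_lit 579) (nat_lit 574) (nat_lit 407)) (XT.nd (nat_lit 78) (nat_lit 0) (nat_lit 76) (XT.lf (nat_lit 0) (nat_lit 2664532043) (nat_lit 1748) (nat_lit 86232273) (nat_lit 1824) (nat_lit 10090407137) (nat_lit 508) (nat_lit 5) (nat_lit 531) (nat_lit 5) (nat_lit 532) (nat_lit 5) (nat_lit 580) (nat_lit 574) (nat_lit 406)) (XT.lf (nat_lit 0) (nat_lit 3383347271) (nat_lit 1748) (nat_lit 6403062597) (nat_lit 1824) (nat_lit 3176968062) (nat_lit 509) (nat_lit 5) (nat_lit 532) (nat_lit 5) (nat_lit 533) (nat_lit 5) (nat_lit 581) (nat_lit 574) (nat_lit 405)))) (XT.nd (nat_lit 78) (nat_lit 0) (nat_lit 76) (XT.lf (nat_lit 76) (nat_lit 231064854) (nat_lit 0) (nat_lit 3894887767) (nat_lit 1824) (nat_lit 8961887981) (nat_lit 510) (nat_lit 5) (nat_lit 509) (nat_lit 5) (nat_lit 533) (nat_lit 5) (nat_lit 582) (nat_lit 574) (nat_lit 404)) (XT.nd (nat_lit 78) (nat_lit 0) (nat_lit 0) (XT.lf (nat_lit 0) (nat_lit 4929701886) (nat_lit 1748) (nat_lit 6150163840) (nat_lit 1824) (nat_lit 2134001295) (nat_lit 510) (nat_lit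 5) (nat_lit 533) (nat_lit 5) (nat_lit 534) (nat_lit 5) (nat_lit 583) (nat_lit 574) (nat_lit 403)) (XT.lf (nat_lit 76) (nat_lit 666778658) (nat_lit 0) (nat_lit 5102391022) (nat_lit 1824) (nat_lit 7572851742) (nat_lit 511) (nat_lit 5) (nat_lit 510) (nat_lit 5) (nat_lit 534) (nat_lit 5) (nat_lit 584) (nat_lit 574) (nat_lit 402))))))))
noncomputable def xc158 : XT := (XT.nd (nat_lit 4212) (nat_lit 5624) (nat_lit 0) (XT.nd (nat_lit 780) (nat_lit 18316) (nat_lit 0) (XT.nd (nat_lit 390) (nat_lit 1596) (nat_lit 0) (XT.nd (nat_lit 156) (nat_lit 0) (nat_lit 0) (XT.nd (nat_lit 78) (nat_lit 0) (nat_lit 0) (XT.lf (nat_lit 0) (nat_lit 6663134582) (nat_lit 1748) (nat_lit 5782155828) (nat_lit 1824) (nat_lit 1026694666) (nat_lit 511) (nat_lit 5) (nat_lit 534) (nat_lit 5) (nat_lit 535) (nat_lit 5) (nat_lit 585) (nat_lit 574) (nat_lit 401)) (XT.lf (nat_lit 76) (nat_lit 1224256270) (nat_lit 0) (nat_lit 6382369491) (nat_lit 1824) (nat_lit 5997289616) (nat_lit 512) (nat_lit 5) (nat_lit 511) (nat_lit 5) (nat_lit 535) (nat_lit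 5) (nat_lit 586) (nat_lit 574) (nat_lit 400))) (XT.nd (nat_lit 78) (nat_lit 0) (nat_lit 76) (XT.lf (nat_lit 76) (nat_lit 8442417759) (nat_lit 0) (nat_lit 155431956) (nat_lit 1824) (nat_lit 5140057616) (nat_lit 512) (nat_lit 5) (nat_lit 511) (nat_lit 5) (nat_lit 535) (nat_lit 5) (nat_lit 587) (nat_lit 574) (nat_lit 399)) (XT.nd (nat_lit 78) (nat_lit 0) (nat_lit 0) (XT.lf (nat_lit 76) (nat_lit 1908322096) (nat_lit 0) (nat_lit 7743471734) (nat_lit 1824) (nat_lit 4221927680) (nat_lit 513) (nat_lit 5) (nat_lit 512) (nat_lit 5) (nat_lit 536) (nat_lit 5) (nat_lit 588) (nat_lit 574) (nat_lit 398)) (XT.lf (nat_lit 76) (nat_lit 9320153312) (nat_lit 0) (nat_lit 1433644908) (nat_lit 1824) (nat_lit 3257914421) (nat_lit 513) (nat_lit 5) (nat_lit 512) (nat_lit 5) (nat_lit 536) (nat_lit 5) (nat_lit 589) (nat_lit 574) (nat_lit 397))))) (XT.nd (nat_lit 156) (nat_lit 1748) (nat_lit 0) (XT.nd (nat_lit 78) (nat_lit 0) (nat_lit 0) (XT.lf (nat_lit 76) (nat_lit 2724138423) (nat_lit 0) (nat_lit 9194498719) (nat_lit 1824) (nat_lit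 2233010851) (nat_lit 514) (nat_lit 5) (nat_lit 513) (nat_lit 5) (nat_lit 537) (nat_lit 5) (nat_lit 590) (nat_lit 574) (nat_lit 396)) (XT.lf (nat_lit 76) (nat_lit 10335302185) (nat_lit 0) (nat_lit 2803153591) (nat_lit 1824) (nat_lit 1155292902) (nat_lit 514) (nat_lit 5) (nat_lit 513) (nat_lit 5) (nat_lit 537) (nat_lit 5) (nat_lit 591) (nat_lit 574) (nat_lit 395))) (XT.nd (nat_lit 78) (nat_lit 1824) (nat_lit 0) (XT.lf (nat_lit 76) (nat_lit 3677212690) (nat_lit 0) (nat_lit 10744424428) (nat_lit 1824) (nat_lit 16275211) (nat_lit 515) (nat_lit 5) (nat_lit 514) (nat_lit 5) (nat_lit 538) (nat_lit 5) (nat_lit 592) (nat_lit 574) (nat_lit 394)) (XT.nd (nat_lit 78) (nat_lit 0) (nat_lit 76) (XT.lf (nat_lit 0) (nat_lit 1166840304) (nat_lit 1824) (nat_lit 3098322154) (nat_lit 1900) (nat_lit 10318921486) (nat_lit 490) (nat_lit 5) (nat_lit 514) (nat_lit 5) (nat_lit 515) (nat_lit 5) (nat_lit 593) (nat_lit 574) (nat_lit 393)) (XT.lf (nat_lit 0) (nat_lit 2411038963) (nat_lit 1824) (nat_lit 9975198223) (nat_lit 1900) (nat_lit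 2346187141) (nat_lit 491) (nat_lit 5) (nat_lit 515) (nat_lit 5) (nat_lit 516) (nat_lit 5) (nat_lit 594) (nat_lit 574) (nat_lit 392)))))) (XT.nd (nat_lit 390) (nat_lit 16720) (nat_lit 0) (XT.nd (nat_lit 156) (nat_lit 1672) (nat_lit 0) (XT.nd (nat_lit 78) (nat_lit 0) (nat_lit 76) (XT.lf (nat_lit 0) (nat_lit 3720651065) (nat_lit 1824) (nat_lit 2106779523) (nat_lit 1900) (nat_lit 9055490596) (nat_lit 491) (nat_lit 5) (nat_lit 515) (nat_lit 5) (nat_lit 516) (nat_lit 5) (nat_lit 595) (nat_lit 574) (nat_lit 391)) (XT.lf (nat_lit 0) (nat_lit 5092743706) (nat_lit 1824) (nat_lit 9050938465) (nat_lit 1900) (nat_lit 892020293) (nat_lit 492) (nat_lit 5) (nat_lit 516) (nat_lit 5) (nat_lit 517) (nat_lit 5) (nat_lit 596) (nat_lit 574) (nat_lit 390))) (XT.nd (nat_lit 78) (nat_lit 1748) (nat_lit 0) (XT.lf (nat_lit 0) (nat_lit 6536757870) (nat_lit 1824) (nat_lit 970206155) (nat_lit 1900) (nat_lit 7683685998) (nat_lit 492) (nat_lit 5) (nat_lit 516) (nat_lit 5) (nat_lit 517) (nat_lit 5) (nat_lit 597) (nat_lit 574) (nat_lit 389))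 (XT.nd (nat_lit 78) (nat_lit 1748) (nat_lit 0) (XT.lf (nat_lit 76) (nat_lit 7361869513) (nat_lit 0) (nat_lit 687400734) (nat_lit 1900) (nat_lit 7298634170) (nat_lit 493) (nat_lit 5) (nat_lit 492) (nat_lit 5) (nat_lit 517) (nat_lit 5) (nat_lit 598) (nat_lit 574) (nat_lit 388)) (XT.lf (nat_lit 0) (nat_lit 322097554) (nat_lit 1824) (nat_lit 9311224430) (nat_lit 1900) (nat_lit 5874156369) (nat_lit 469) (nat_lit 5) (nat_lit 493) (nat_lit 5) (nat_lit 494) (nat_lit 5) (nat_lit 599) (nat_lit 574) (nat_lit 387))))) (XT.nd (nat_lit 2808) (nat_lit 1216) (nat_lit 0) (XT.nd (nat_lit 2730) (nat_lit 15504) (nat_lit 0) (XT.lf (nat_lit 0) (nat_lit 8893129864) (nat_lit 1824) (nat_lit 2406095416) (nat_lit 1900) (nat_lit 4370015310) (nat_lit 469) (nat_lit 5) (nat_lit 493) (nat_lit 5) (nat_lit 494) (nat_lit 5) (nat_lit 600) (nat_lit 574) (nat_lit 386)) (XT.lf (nat_lit 0) (nat_lit 11813509643) (nat_lit 532) (nat_lit 5516507942) (nat_lit 608) (nat_lit 5730519614) (nat_lit 265) (nat_lit 5) (nat_lit 272) (nat_lit 5) (nat_lit 273)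 (nat_lit 5) (nat_lit 635) (nat_lit 574) (nat_lit 351))) (XT.nd (nat_lit 78) (nat_lit 608) (nat_lit 0) (XT.lf (nat_lit 0) (nat_lit 2408008287) (nat_lit 608) (nat_lit 19453613756) (nat_lit 684) (nat_lit 1468719327) (nat_lit 257) (nat_lit 5) (nat_lit 265) (nat_lit 5) (nat_lit 266) (nat_lit 5) (nat_lit 636) (nat_lit 574) (nat_lit 350)) (XT.nd (nat_lit 78) (nat_lit 532) (nat_lit 0) (XT.lf (nat_lit 0) (nat_lit 2948394143) (nat_lit 684) (nat_lit 7177405436) (nat_lit 76) (nat_lit 13477211848) (nat_lit 256) (nat_lit 5) (nat_lit 265) (nat_lit 5) (nat_lit 257) (nat_lit 5) (nat_lit 637) (nat_lit 574) (nat_lit 349)) (XT.lf (nat_lit 0) (nat_lit 6917284581) (nat_lit 532) (nat_lit 557241248) (nat_lit 608) (nat_lit 16405608148) (nat_lit 249) (nat_lit 5) (nat_lit 256) (nat_lit 5) (nat_lit 257) (nat_lit 5) (nat_lit 638) (nat_lit 574) (nat_lit 348))))))) (XT.nd (nat_lit 780) (nat_lit 2584) (nat_lit 0) (XT.nd (nat_lit 390) (nat_lit 1444) (nat_lit 0) (XT.nd (nat_lit 156) (nat_lit 1064) (nat_lit 0) (XT.nd (nat_lit 78) (nat_lit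 532) (nat_lit 0) (XT.lf (nat_lit 0) (nat_lit 12194865688) (nat_lit 608) (nat_lit 2836916020) (nat_lit 76) (nat_lit 9128943654) (nat_lit 249) (nat_lit 5) (nat_lit 257) (nat_lit 5) (nat_lit 250) (nat_lit 5) (nat_lit 639) (nat_lit 574) (nat_lit 347)) (XT.lf (nat_lit 0) (nat_lit 11715445445) (nat_lit 532) (nat_lit 5369463292) (nat_lit 608) (nat_lit 7360514003) (nat_lit 242) (nat_lit 5) (nat_lit 249) (nat_lit 5) (nat_lit 250) (nat_lit 5) (nat_lit 640) (nat_lit 574) (nat_lit 346))) (XT.nd (nat_lit 78) (nat_lit 608) (nat_lit 0) (XT.lf (nat_lit 0) (nat_lit 1850808318) (nat_lit 456) (nat_lit 20277830642) (nat_lit 532) (nat_lit 2606057472) (nat_lit 236) (nat_lit 5) (nat_lit 242) (nat_lit 5) (nat_lit 243) (nat_lit 5) (nat_lit 641) (nat_lit 574) (nat_lit 345)) (XT.nd (nat_lit 78) (nat_lit 532) (nat_lit 0) (XT.lf (nat_lit 0) (nat_lit 2331212341) (nat_lit 532) (nat_lit 8189077603) (nat_lit 76) (nat_lit 14506831458) (nat_lit 235) (nat_lit 5) (nat_lit 242) (nat_lit 5) (nat_lit 236) (nat_lit 5) (nat_lit 642) (nat_lit 574)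 (nat_lit 344)) (XT.lf (nat_lit 0) (nat_lit 6866437732) (nat_lit 532) (nat_lit 506193082) (nat_lit 608) (nat_lit 17951613657) (nat_lit 228) (nat_lit 5) (nat_lit 235) (nat_lit 5) (nat_lit 236) (nat_lit 5) (nat_lit 643) (nat_lit 574) (nat_lit 343))))) (XT.nd (nat_lit 156) (nat_lit 988) (nat_lit 0) (XT.nd (nat_lit 78) (nat_lit 456) (nat_lit 0) (XT.lf (nat_lit 0) (nat_lit 12628945979) (nat_lit 608) (nat_lit 3361560858) (nat_lit 76) (nat_lit 9634521882) (nat_lit 228) (nat_lit 5) (nat_lit 236) (nat_lit 5) (nat_lit 229) (nat_lit 5) (nat_lit 644) (nat_lit 574) (nat_lit 342)) (XT.lf (nat_lit 0) (nat_lit 12187190465) (nat_lit 456) (nat_lit 5881479904) (nat_lit 532) (nat_lit 7861592708) (nat_lit 222) (nat_lit 5) (nat_lit 228) (nat_lit 5) (nat_lit 229) (nat_lit 5) (nat_lit 645) (nat_lit 574) (nat_lit 341))) (XT.nd (nat_lit 78) (nat_lit 532) (nat_lit 0) (XT.lf (nat_lit 0) (nat_lit 1840625140) (nat_lit 456) (nat_lit 21835819035) (nat_lit 532) (nat_lit 2563972929) (nat_lit 216) (nat_lit 5) (nat_lit 222) (nat_lit 5) (nat_lit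 223) (nat_lit 5) (nat_lit 646) (nat_lit 574) (nat_lit 340)) (XT.nd (nat_lit 78) (nat_lit 456) (nat_lit 0) (XT.lf (nat_lit 0) (nat_lit 2929993975) (nat_lit 532) (nat_lit 8696593138) (nat_lit 76) (nat_lit 14927265714) (nat_lit 215) (nat_lit 5) (nat_lit 222) (nat_lit 5) (nat_lit 216) (nat_lit 5) (nat_lit 647) (nat_lit 574) (nat_lit 339)) (XT.lf (nat_lit 0) (nat_lit 7394837375) (nat_lit 456) (nat_lit 1148649236) (nat_lit 532) (nat_lit 18328852213) (nat_lit 209) (nat_lit 5) (nat_lit 215) (nat_lit 5) (nat_lit 216) (nat_lit 5) (nat_lit 648) (nat_lit 574) (nat_lit 338)))))) (XT.nd (nat_lit 390) (nat_lit 1216) (nat_lit 0) (XT.nd (nat_lit 156) (nat_lit 912) (nat_lit 0) (XT.nd (nat_lit 78) (nat_lit 456) (nat_lit 0) (XT.lf (nat_lit 0) (nat_lit 14385891098) (nat_lit 532) (nat_lit 3338232861) (nat_lit 76) (nat_lit 9470737818) (nat_lit 209) (nat_lit 5) (nat_lit 216) (nat_lit 5) (nat_lit 210) (nat_lit 5) (nat_lit 649) (nat_lit 574) (nat_lit 337)) (XT.lf (nat_lit 0) (nat_lit 13284692741) (nat_lit 456) (nat_lit 7150354325)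 (nat_lit 532) (nat_lit 7086990129) (nat_lit 203) (nat_lit 5) (nat_lit 209) (nat_lit 5) (nat_lit 210) (nat_lit 5) (nat_lit 650) (nat_lit 574) (nat_lit 336))) (XT.nd (nat_lit 78) (nat_lit 532) (nat_lit 0) (XT.lf (nat_lit 0) (nat_lit 2432390736) (nat_lit 380) (nat_lit 24230810089) (nat_lit 456) (nat_lit 1191395074) (nat_lit 198) (nat_lit 5) (nat_lit 203) (nat_lit 5) (nat_lit 204) (nat_lit 5) (nat_lit 651) (nat_lit 574) (nat_lit 335)) (XT.nd (nat_lit 78) (nat_lit 456) (nat_lit 0) (XT.lf (nat_lit 0) (nat_lit 4898481259) (nat_lit 456) (nat_lit 8648473261) (nat_lit 76) (nat_lit 14643432915) (nat_lit 197) (nat_lit 5) (nat_lit 203) (nat_lit 5) (nat_lit 198) (nat_lit 5) (nat_lit 652) (nat_lit 574) (nat_lit 334)) (XT.lf (nat_lit 0) (nat_lit 8559419747) (nat_lit 456) (nat_lit 2586533789) (nat_lit 532) (nat_lit 17385748808) (nat_lit 191) (nat_lit 5) (nat_lit 197) (nat_lit 5) (nat_lit 198) (nat_lit 5) (nat_lit 653) (nat_lit 574) (nat_lit 333))))) (XT.nd (nat_lit 234) (nat_lit 380) (nat_lit 0) (XT.nd (nat_lit 78) (nat_lit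 836) (nat_lit 0) (XT.lf (nat_lit 0) (nat_lit 17628776946) (nat_lit 532) (nat_lit 2711864804) (nat_lit 76) (nat_lit 8536993834) (nat_lit 191) (nat_lit 5) (nat_lit 198) (nat_lit 5) (nat_lit 192) (nat_lit 5) (nat_lit 654) (nat_lit 574) (nat_lit 332)) (XT.nd (nat_lit 78) (nat_lit 456) (nat_lit 0) (XT.lf (nat_lit 0) (nat_lit 15068663647) (nat_lit 380) (nat_lit 9283822475) (nat_lit 456) (nat_lit 4875776846) (nat_lit 186) (nat_lit 5) (nat_lit 191) (nat_lit 5) (nat_lit 192) (nat_lit 5) (nat_lit 655) (nat_lit 574) (nat_lit 331)) (XT.lf (nat_lit 0) (nat_lit 1655283243) (nat_lit 456) (nat_lit 25910090715) (nat_lit 76) (nat_lit 2019281508) (nat_lit 180) (nat_lit 5) (nat_lit 186) (nat_lit 5) (nat_lit 181) (nat_lit 5) (nat_lit 656) (nat_lit 574) (nat_lit 330)))) (XT.nd (nat_lit 78) (nat_lit 380) (nat_lit 0) (XT.lf (nat_lit 0) (nat_lit 8405170156) (nat_lit 456) (nat_lit 7988961620) (nat_lit 76) (nat_lit 13550329678) (nat_lit 180) (nat_lit 5) (nat_lit 186) (nat_lit 5) (nat_lit 181) (nat_lit 5) (nat_lit 657) (nat_lit 574)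 (nat_lit 329)) (XT.nd (nat_lit 78) (nat_lit 0) (nat_lit 0) (XT.lf (nat_lit 0) (nat_lit 10421749716) (nat_lit 380) (nat_lit 4932343877) (nat_lit 456) (nat_lit 14956089251) (nat_lit 175) (nat_lit 5) (nat_lit 180) (nat_lit 5) (nat_lit 181) (nat_lit 5) (nat_lit 658) (nat_lit 574) (nat_lit 328)) (XT.lf (nat_lit 0) (nat_lit 22536239541) (nat_lit 456) (nat_lit 1422962254) (nat_lit 76) (nat_lit 6722132047) (nat_lit 175) (nat_lit 5) (nat_lit 181) (nat_lit 5) (nat_lit 176) (nat_lit 5) (nat_lit 659) (nat_lit 574) (nat_lit 327))))))))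
noncomputable def xc159 : XT := (XT.nd (nat_lit 75504) (nat_lit 0) (nat_lit 7600) (XT.nd (nat_lit 74724) (nat_lit 0) (nat_lit 27132) (XT.nd (nat_lit 390) (nat_lit 456) (nat_lit 0) (XT.nd (nat_lit 156) (nat_lit 684) (nat_lit 0) (XT.nd (nat_lit 78) (nat_lit 456) (nat_lit 0) (XT.lf (nat_lit 0) (nat_lit 17604603120) (nat_lit 380) (nat_lit 12400858259) (nat_lit 456) (nat_lit 1051577878) (nat_lit 170) (nat_lit 5) (nat_lit 175) (nat_lit 5) (nat_lit 176) (nat_lit 5) (nat_lit 660) (nat_lit 574) (nat_lit 326)) (XT.lf (nat_lit 0) (nat_lit 5619986124) (nat_lit 380) (nat_lit 525300369) (nat_lit 456) (nat_lit 25293317769) (nat_lit 164) (nat_lit 5) (nat_lit 169) (nat_lit 5) (nat_lit 170) (nat_lit 5) (nat_lit 661) (nat_lit 574) (nat_lit 325))) (XT.nd (nat_lit 78) (nat_lit 684) (nat_lit 0) (XT.lf (nat_lit 0) (nat_lit 13634626975) (nat_lit 456) (nat_lit 6658054824) (nat_lit 76) (nat_lit 11531727415) (nat_lit 164) (nat_lit 5) (nat_lit 170) (nat_lit 5) (nat_lit 165) (nat_lit 5) (nat_lit 662) (nat_lit 574) (nat_lit 324)) (XT.nd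 (nat_lit 78) (nat_lit 304) (nat_lit 0) (XT.lf (nat_lit 0) (nat_lit 13048004682) (nat_lit 380) (nat_lit 8310513365) (nat_lit 456) (nat_lit 10857716996) (nat_lit 159) (nat_lit 5) (nat_lit 164) (nat_lit 5) (nat_lit 165) (nat_lit 5) (nat_lit 663) (nat_lit 574) (nat_lit 323)) (XT.lf (nat_lit 0) (nat_lit 600231362) (nat_lit 304) (nat_lit 28707511197) (nat_lit 380) (nat_lit 3306737770) (nat_lit 155) (nat_lit 5) (nat_lit 159) (nat_lit 5) (nat_lit 160) (nat_lit 5) (nat_lit 664) (nat_lit 574) (nat_lit 322))))) (XT.nd (nat_lit 156) (nat_lit 0) (nat_lit 0) (XT.nd (nat_lit 78) (nat_lit 380) (nat_lit 0) (XT.lf (nat_lit 0) (nat_lit 4518732242) (nat_lit 380) (nat_lit 12084043767) (nat_lit 76) (nat_lit 16413721505) (nat_lit 154) (nat_lit 5) (nat_lit 159) (nat_lit 5) (nat_lit 155) (nat_lit 5) (nat_lit 665) (nat_lit 574) (nat_lit 321)) (XT.lf (nat_lit 0) (nat_lit 8326786419) (nat_lit 380) (nat_lit 4180417690) (nat_lit 456) (nat_lit 20917898441) (nat_lit 149) (nat_lit 5) (nat_lit 154) (nat_lit 5) (nat_lit 155) (nat_lit 5) (nat_lit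 666) (nat_lit 574) (nat_lit 320))) (XT.nd (nat_lit 74022) (nat_lit 0) (nat_lit 27132) (XT.lf (nat_lit 0) (nat_lit 20788881850) (nat_lit 456) (nat_lit 4591590696) (nat_lit 76) (nat_lit 8458738461) (nat_lit 149) (nat_lit 5) (nat_lit 155) (nat_lit 5) (nat_lit 150) (nat_lit 5) (nat_lit 667) (nat_lit 574) (nat_lit 319)) (XT.nd (nat_lit 78) (nat_lit 0) (nat_lit 0) (XT.lf (nat_lit 0) (nat_lit 39002450) (nat_lit 0) (nat_lit 39002450) (nat_lit 1748) (nat_lit 6106419760) (nat_lit 506) (nat_lit 5) (nat_lit 506) (nat_lit 3) (nat_lit 529) (nat_lit 3) (nat_lit 575) (nat_lit 575) (nat_lit 410)) (XT.lf (nat_lit 0) (nat_lit 644517202) (nat_lit 1748) (nat_lit 6165271917) (nat_lit 1824) (nat_lit 5672995777) (nat_lit 506) (nat_lit 5) (nat_lit 529) (nat_lit 3) (nat_lit 530) (nat_lit 5) (nat_lit 576) (nat_lit 575) (nat_lit 409)))))) (XT.nd (nat_lit 390) (nat_lit 0) (nat_lit 228) (XT.nd (nat_lit 156) (nat_lit 0) (nat_lit 76) (XT.nd (nat_lit 78) (nat_lit 0) (nat_lit 76) (XT.lf (nat_lit 76) (nat_lit 77135653) (nat_lit 0) (nat_lit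 1054920965) (nat_lit 1824) (nat_lit 11467157695) (nat_lit 507) (nat_lit 5) (nat_lit 506) (nat_lit 5) (nat_lit 530) (nat_lit 5) (nat_lit 577) (nat_lit 575) (nat_lit 408)) (XT.lf (nat_lit 0) (nat_lit 1690725932) (nat_lit 1748) (nat_lit 6227115844) (nat_lit 1824) (nat_lit 4798903318) (nat_lit 507) (nat_lit 5) (nat_lit 530) (nat_lit 5) (nat_lit 531) (nat_lit 5) (nat_lit 578) (nat_lit 575) (nat_lit 407))) (XT.nd (nat_lit 78) (nat_lit 0) (nat_lit 76) (XT.lf (nat_lit 76) (nat_lit 182886251) (nat_lit 0) (nat_lit 2074552539) (nat_lit 1824) (nat_lit 10579250651) (nat_lit 508) (nat_lit 5) (nat_lit 507) (nat_lit 5) (nat_lit 531) (nat_lit 5) (nat_lit 579) (nat_lit 575) (nat_lit 406)) (XT.nd (nat_lit 78) (nat_lit 0) (nat_lit 0) (XT.lf (nat_lit 0) (nat_lit 2891687224) (nat_lit 1748) (nat_lit 6184688607) (nat_lit 1824) (nat_lit 3881533163) (nat_lit 508) (nat_lit 5) (nat_lit 531) (nat_lit 5) (nat_lit 532) (nat_lit 5) (nat_lit 580) (nat_lit 575) (nat_lit 405)) (XT.lf (nat_lit 76) (nat_lit 398943276) (nat_lit 0) (nat_lit 3145133220)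 (nat_lit 1824) (nat_lit 9537367664) (nat_lit 509) (nat_lit 5) (nat_lit 508) (nat_lit 5) (nat_lit 532) (nat_lit 5) (nat_lit 581) (nat_lit 575) (nat_lit 404))))) (XT.nd (nat_lit 156) (nat_lit 0) (nat_lit 76) (XT.nd (nat_lit 78) (nat_lit 0) (nat_lit 0) (XT.lf (nat_lit 0) (nat_lit 4259477942) (nat_lit 1748) (nat_lit 6034230840) (nat_lit 1824) (nat_lit 2912742289) (nat_lit 509) (nat_lit 5) (nat_lit 532) (nat_lit 5) (nat_lit 533) (nat_lit 5) (nat_lit 582) (nat_lit 575) (nat_lit 403)) (XT.lf (nat_lit 76) (nat_lit 729310127) (nat_lit 0) (nat_lit 4274977975) (nat_lit 1824) (nat_lit 8329368331) (nat_lit 510) (nat_lit 5) (nat_lit 509) (nat_lit 5) (nat_lit 533) (nat_lit 5) (nat_lit 583) (nat_lit 575) (nat_lit 402))) (XT.nd (nat_lit 78) (nat_lit 0) (nat_lit 0) (XT.lf (nat_lit 0) (nat_lit 5806584547) (nat_lit 1748) (nat_lit 5771670068) (nat_lit 1824) (nat_lit 1884299806) (nat_lit 510) (nat_lit 5) (nat_lit 533) (nat_lit 5) (nat_lit 534) (nat_lit 5) (nat_lit 584) (nat_lit 575) (nat_lit 401)) (XT.nd (nat_lit 78) (nat_lit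 0) (nat_lit 76) (XT.lf (nat_lit 76) (nat_lit 1178311957) (nat_lit 0) (nat_lit 5472503809) (nat_lit 1824) (nat_lit 6942697137) (nat_lit 511) (nat_lit 5) (nat_lit 510) (nat_lit 5) (nat_lit 534) (nat_lit 5) (nat_lit 585) (nat_lit 575) (nat_lit 400)) (XT.lf (nat_lit 0) (nat_lit 7545928878) (nat_lit 1748) (nat_lit 5392615485) (nat_lit 1824) (nat_lit 787866554) (nat_lit 511) (nat_lit 5) (nat_lit 534) (nat_lit 5) (nat_lit 535) (nat_lit 5) (nat_lit 586) (nat_lit 575) (nat_lit 399))))))) (XT.nd (nat_lit 780) (nat_lit 18316) (nat_lit 0) (XT.nd (nat_lit 390) (nat_lit 1596) (nat_lit 0) (XT.nd (nat_lit 156) (nat_lit 0) (nat_lit 76) (XT.nd (nat_lit 78) (nat_lit 0) (nat_lit 0) (XT.lf (nat_lit 76) (nat_lit 1750601280) (nat_lit 0) (nat_lit 6746250309) (nat_lit 1824) (nat_lit 5364357455) (nat_lit 512) (nat_lit 5) (nat_lit 511) (nat_lit 5) (nat_lit 535) (nat_lit 5) (nat_lit 587) (nat_lit 575) (nat_lit 398)) (XT.lf (nat_lit 76) (nat_lit 9103285609) (nat_lit 0) (nat_lit 390141996) (nat_lit 1824) (nat_lit 4504743127) (nat_lit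 512) (nat_lit 5) (nat_lit 511) (nat_lit 5) (nat_lit 535) (nat_lit 5) (nat_lit 588) (nat_lit 575) (nat_lit 397))) (XT.nd (nat_lit 78) (nat_lit 0) (nat_lit 0) (XT.lf (nat_lit 76) (nat_lit 2451164264) (nat_lit 0) (nat_lit 8104900157) (nat_lit 1824) (nat_lit 3580884935) (nat_lit 513) (nat_lit 5) (nat_lit 512) (nat_lit 5) (nat_lit 536) (nat_lit 5) (nat_lit 589) (nat_lit 575) (nat_lit 396)) (XT.nd (nat_lit 78) (nat_lit 0) (nat_lit 76) (XT.lf (nat_lit 76) (nat_lit 10001336502) (nat_lit 0) (nat_lit 1664826618) (nat_lit 1824) (nat_lit 2611816535) (nat_lit 513) (nat_lit 5) (nat_lit 512) (nat_lit 5) (nat_lit 536) (nat_lit 5) (nat_lit 590) (nat_lit 575) (nat_lit 395)) (XT.lf (nat_lit 76) (nat_lit 3285327704) (nat_lit 0) (nat_lit 9557299620) (nat_lit 1824) (nat_lit 1578320242) (nat_lit 514) (nat_lit 5) (nat_lit 513) (nat_lit 5) (nat_lit 537) (nat_lit 5) (nat_lit 591) (nat_lit 575) (nat_lit 394))))) (XT.nd (nat_lit 156) (nat_lit 0) (nat_lit 0) (XT.nd (nat_lit 78) (nat_lit 1748) (nat_lit 0) (XT.lf (nat_lit 76) (nat_lit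 11038779319) (nat_lit 0) (nat_lit 3034619531) (nat_lit 1824) (nat_lit 492760696) (nat_lit 514) (nat_lit 5) (nat_lit 513) (nat_lit 5) (nat_lit 537) (nat_lit 5) (nat_lit 592) (nat_lit 575) (nat_lit 393)) (XT.lf (nat_lit 0) (nat_lit 649191523) (nat_lit 1824) (nat_lit 10458931162) (nat_lit 1900) (nat_lit 3605218729) (nat_lit 490) (nat_lit 5) (nat_lit 514) (nat_lit 5) (nat_lit 515) (nat_lit 5) (nat_lit 593) (nat_lit 575) (nat_lit 392))) (XT.nd (nat_lit 78) (nat_lit 0) (nat_lit 76) (XT.lf (nat_lit 0) (nat_lit 1842701146) (nat_lit 1824) (nat_lit 2653548709) (nat_lit 1900) (nat_lit 10366445850) (nat_lit 490) (nat_lit 5) (nat_lit 514) (nat_lit 5) (nat_lit 515) (nat_lit 5) (nat_lit 594) (nat_lit 575) (nat_lit 391)) (XT.nd (nat_lit 78) (nat_lit 0) (nat_lit 0) (XT.lf (nat_lit 0) (nat_lit 3101351313) (nat_lit 1824) (nat_lit 9657510777) (nat_lit 1900) (nat_lit 2255349835) (nat_lit 491) (nat_lit 5) (nat_lit 515) (nat_lit 5) (nat_lit 516) (nat_lit 5) (nat_lit 595) (nat_lit 575) (nat_lit 390)) (XT.lf (nat_lit 0) (nat_lit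 4424565627) (nat_lit 1824) (nat_lit 1641864712) (nat_lit 1900) (nat_lit 9101540556) (nat_lit 491) (nat_lit 5) (nat_lit 515) (nat_lit 5) (nat_lit 516) (nat_lit 5) (nat_lit 596) (nat_lit 575) (nat_lit 389)))))) (XT.nd (nat_lit 2964) (nat_lit 1748) (nat_lit 0) (XT.nd (nat_lit 156) (nat_lit 16720) (nat_lit 0) (XT.nd (nat_lit 78) (nat_lit 0) (nat_lit 0) (XT.lf (nat_lit 0) (nat_lit 5814269616) (nat_lit 1824) (nat_lit 8715058011) (nat_lit 1900) (nat_lit 794677150) (nat_lit 492) (nat_lit 5) (nat_lit 516) (nat_lit 5) (nat_lit 517) (nat_lit 5) (nat_lit 597) (nat_lit 575) (nat_lit 388)) (XT.lf (nat_lit 0) (nat_lit 7275013650) (nat_lit 1824) (nat_lit 482846334) (nat_lit 1900) (nat_lit 7724434671) (nat_lit 492) (nat_lit 5) (nat_lit 516) (nat_lit 5) (nat_lit 517) (nat_lit 5) (nat_lit 598) (nat_lit 575) (nat_lit 387))) (XT.nd (nat_lit 78) (nat_lit 16720) (nat_lit 0) (XT.lf (nat_lit 76) (nat_lit 8012536874) (nat_lit 0) (nat_lit 796595833) (nat_lit 1900) (nat_lit 6833734653) (nat_lit 493) (nat_lit 5) (nat_lit 492) (nat_lit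 5) (nat_lit 517) (nat_lit 5) (nat_lit 599) (nat_lit 575) (nat_lit 386)) (XT.nd (nat_lit 2652) (nat_lit 14972) (nat_lit 0) (XT.lf (nat_lit 0) (nat_lit 841189296) (nat_lit 1824) (nat_lit 9574654403) (nat_lit 1900) (nat_lit 5389969856) (nat_lit 469) (nat_lit 5) (nat_lit 493) (nat_lit 5) (nat_lit 494) (nat_lit 5) (nat_lit 600) (nat_lit 575) (nat_lit 385)) (XT.lf (nat_lit 0) (nat_lit 8107233289) (nat_lit 608) (nat_lit 1129818892) (nat_lit 684) (nat_lit 13739674272) (nat_lit 272) (nat_lit 5) (nat_lit 280) (nat_lit 5) (nat_lit 281) (nat_lit 5) (nat_lit 634) (nat_lit 575) (nat_lit 351))))) (XT.nd (nat_lit 234) (nat_lit 608) (nat_lit 0) (XT.nd (nat_lit 78) (nat_lit 1140) (nat_lit 0) (XT.lf (nat_lit 0) (nat_lit 13545889480) (nat_lit 684) (nat_lit 1391639702) (nat_lit 76) (nat_lit 8306389356) (nat_lit 272) (nat_lit 5) (nat_lit 281) (nat_lit 5) (nat_lit 273) (nat_lit 5) (nat_lit 635) (nat_lit 575) (nat_lit 350)) (XT.nd (nat_lit 78) (nat_lit 608) (nat_lit 0) (XT.lf (nat_lit 0) (nat_lit 12506363528) (nat_lit 532) (nat_lit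 5518661694) (nat_lit 608) (nat_lit 5489746911) (nat_lit 265) (nat_lit 5) (nat_lit 272) (nat_lit 5) (nat_lit 273) (nat_lit 5) (nat_lit 636) (nat_lit 575) (nat_lit 349)) (XT.lf (nat_lit 0) (nat_lit 2915980488) (nat_lit 608) (nat_lit 19728123752) (nat_lit 684) (nat_lit 1145931448) (nat_lit 257) (nat_lit 5) (nat_lit 265) (nat_lit 5) (nat_lit 266) (nat_lit 5) (nat_lit 637) (nat_lit 575) (nat_lit 348)))) (XT.nd (nat_lit 78) (nat_lit 532) (nat_lit 0) (XT.lf (nat_lit 0) (nat_lit 3348091039) (nat_lit 684) (nat_lit 6865622100) (nat_lit 76) (nat_lit 13854536714) (nat_lit 256) (nat_lit 5) (nat_lit 265) (nat_lit 5) (nat_lit 257) (nat_lit 5) (nat_lit 638) (nat_lit 575) (nat_lit 347)) (XT.nd (nat_lit 78) (nat_lit 0) (nat_lit 0) (XT.lf (nat_lit 0) (nat_lit 7507966115) (nat_lit 532) (nat_lit 453035147) (nat_lit 608) (nat_lit 16389988615) (nat_lit 249) (nat_lit 5) (nat_lit 256) (nat_lit 5) (nat_lit 257) (nat_lit 5) (nat_lit 639) (nat_lit 575) (nat_lit 346)) (XT.lf (nat_lit 0) (nat_lit 12769874621) (nat_lit 608) (nat_lit 2444307589)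 (nat_lit 76) (nat_lit 9423128486) (nat_lit 249) (nat_lit 5) (nat_lit 257) (nat_lit 5) (nat_lit 250) (nat_lit 5) (nat_lit 640) (nat_lit 575) (nat_lit 345))))))))
noncomputable def xc160 : XT := (XT.nd (nat_lit 1560) (nat_lit 1976) (nat_lit 0) (XT.nd (nat_lit 780) (nat_lit 2584) (nat_lit 0) (XT.nd (nat_lit 390) (nat_lit 1444) (nat_lit 0) (XT.nd (nat_lit 156) (nat_lit 608) (nat_lit 0) (XT.nd (nat_lit 78) (nat_lit 456) (nat_lit 0) (XT.lf (nat_lit 0) (nat_lit 12396144877) (nat_lit 532) (nat_lit 5357979533) (nat_lit 608) (nat_lit 7173649630) (nat_lit 242) (nat_lit 5) (nat_lit 249) (nat_lit 5) (nat_lit 250) (nat_lit 5) (nat_lit 641) (nat_lit 575) (nat_lit 344)) (XT.lf (nat_lit 0) (nat_lit 2337025518) (nat_lit 456) (nat_lit 20558954987) (nat_lit 532) (nat_lit 2326907809) (nat_lit 236) (nat_lit 5) (nat_lit 242) (nat_lit 5) (nat_lit 243) (nat_lit 5) (nat_lit 642) (nat_lit 575) (nat_lit 343))) (XT.nd (nat_lit 78) (nat_lit 532) (nat_lit 0) (XT.lf (nat_lit 0) (nat_lit 2698352409) (nat_lit 532) (nat_lit 7908200086) (nat_lit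 76) (nat_lit 14914694607) (nat_lit 235) (nat_lit 5) (nat_lit 242) (nat_lit 5) (nat_lit 236) (nat_lit 5) (nat_lit 643) (nat_lit 575) (nat_lit 342)) (XT.nd (nat_lit 78) (nat_lit 0) (nat_lit 0) (XT.lf (nat_lit 0) (nat_lit 7445500167) (nat_lit 532) (nat_lit 391682488) (nat_lit 608) (nat_lit 17987198434) (nat_lit 228) (nat_lit 5) (nat_lit 235) (nat_lit 5) (nat_lit 236) (nat_lit 5) (nat_lit 644) (nat_lit 575) (nat_lit 341)) (XT.lf (nat_lit 0) (nat_lit 13193199834) (nat_lit 608) (nat_lit 2990289387) (nat_lit 76) (nat_lit 9947800411) (nat_lit 228) (nat_lit 5) (nat_lit 236) (nat_lit 5) (nat_lit 229) (nat_lit 5) (nat_lit 645) (nat_lit 575) (nat_lit 340))))) (XT.nd (nat_lit 156) (nat_lit 532) (nat_lit 0) (XT.nd (nat_lit 78) (nat_lit 456) (nat_lit 0) (XT.lf (nat_lit 0) (nat_lit 12866552076) (nat_lit 456) (nat_lit 5871883681) (nat_lit 532) (nat_lit 7704258698) (nat_lit 222) (nat_lit 5) (nat_lit 228) (nat_lit 5) (nat_lit 229) (nat_lit 5) (nat_lit 646) (nat_lit 575) (nat_lit 339)) (XT.lf (nat_lit 0) (nat_lit 2315502204)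 (nat_lit 456) (nat_lit 22140469979) (nat_lit 532) (nat_lit 2303127357) (nat_lit 216) (nat_lit 5) (nat_lit 222) (nat_lit 5) (nat_lit 223) (nat_lit 5) (nat_lit 647) (nat_lit 575) (nat_lit 338))) (XT.nd (nat_lit 78) (nat_lit 456) (nat_lit 0) (XT.lf (nat_lit 0) (nat_lit 3290585476) (nat_lit 532) (nat_lit 8437030938) (nat_lit 76) (nat_lit 15351267943) (nat_lit 215) (nat_lit 5) (nat_lit 222) (nat_lit 5) (nat_lit 216) (nat_lit 5) (nat_lit 648) (nat_lit 575) (nat_lit 337)) (XT.nd (nat_lit 78) (nat_lit 0) (nat_lit 0) (XT.lf (nat_lit 0) (nat_lit 7973376251) (nat_lit 456) (nat_lit 1039846324) (nat_lit 532) (nat_lit 18390580119) (nat_lit 209) (nat_lit 5) (nat_lit 215) (nat_lit 5) (nat_lit 216) (nat_lit 5) (nat_lit 649) (nat_lit 575) (nat_lit 336)) (XT.lf (nat_lit 0) (nat_lit 14967453831) (nat_lit 532) (nat_lit 2977772559) (nat_lit 76) (nat_lit 9787650252) (nat_lit 209) (nat_lit 5) (nat_lit 216) (nat_lit 5) (nat_lit 210) (nat_lit 5) (nat_lit 650) (nat_lit 575) (nat_lit 335)))))) (XT.nd (nat_lit 390) (nat_lit 1216) (nat_lit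 0) (XT.nd (nat_lit 156) (nat_lit 532) (nat_lit 0) (XT.nd (nat_lit 78) (nat_lit 380) (nat_lit 0) (XT.lf (nat_lit 0) (nat_lit 13974800865) (nat_lit 456) (nat_lit 7159785966) (nat_lit 532) (nat_lit 6932068965) (nat_lit 203) (nat_lit 5) (nat_lit 209) (nat_lit 5) (nat_lit 210) (nat_lit 5) (nat_lit 651) (nat_lit 575) (nat_lit 334)) (XT.lf (nat_lit 0) (nat_lit 2907582905) (nat_lit 380) (nat_lit 24577637703) (nat_lit 456) (nat_lit 920686833) (nat_lit 198) (nat_lit 5) (nat_lit 203) (nat_lit 5) (nat_lit 204) (nat_lit 5) (nat_lit 652) (nat_lit 575) (nat_lit 333))) (XT.nd (nat_lit 78) (nat_lit 456) (nat_lit 0) (XT.lf (nat_lit 0) (nat_lit 5281424656) (nat_lit 456) (nat_lit 8399469780) (nat_lit 76) (nat_lit 15067596217) (nat_lit 197) (nat_lit 5) (nat_lit 203) (nat_lit 5) (nat_lit 198) (nat_lit 5) (nat_lit 653) (nat_lit 575) (nat_lit 332)) (XT.nd (nat_lit 78) (nat_lit 0) (nat_lit 0) (XT.lf (nat_lit 0) (nat_lit 9149804951) (nat_lit 456) (nat_lit 2501175411) (nat_lit 532) (nat_lit 17445708917) (nat_lit 191) (nat_lit 5) (nat_lit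 197) (nat_lit 5) (nat_lit 198) (nat_lit 5) (nat_lit 654) (nat_lit 575) (nat_lit 331)) (XT.lf (nat_lit 0) (nat_lit 18258801336) (nat_lit 532) (nat_lit 2350461073) (nat_lit 76) (nat_lit 8840372050) (nat_lit 191) (nat_lit 5) (nat_lit 198) (nat_lit 5) (nat_lit 192) (nat_lit 5) (nat_lit 655) (nat_lit 575) (nat_lit 330))))) (XT.nd (nat_lit 156) (nat_lit 380) (nat_lit 0) (XT.nd (nat_lit 78) (nat_lit 456) (nat_lit 0) (XT.lf (nat_lit 0) (nat_lit 15782943467) (nat_lit 380) (nat_lit 9331281918) (nat_lit 456) (nat_lit 4693104287) (nat_lit 186) (nat_lit 5) (nat_lit 191) (nat_lit 5) (nat_lit 192) (nat_lit 5) (nat_lit 656) (nat_lit 575) (nat_lit 329)) (XT.lf (nat_lit 0) (nat_lit 1963076819) (nat_lit 456) (nat_lit 26009876548) (nat_lit 76) (nat_lit 2197896871) (nat_lit 180) (nat_lit 5) (nat_lit 186) (nat_lit 5) (nat_lit 181) (nat_lit 5) (nat_lit 657) (nat_lit 575) (nat_lit 328))) (XT.nd (nat_lit 78) (nat_lit 380) (nat_lit 0) (XT.lf (nat_lit 0) (nat_lit 8842575433) (nat_lit 456) (nat_lit 7738529105) (nat_lit 76) (nat_lit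 13956855617) (nat_lit 180) (nat_lit 5) (nat_lit 186) (nat_lit 5) (nat_lit 181) (nat_lit 5) (nat_lit 658) (nat_lit 575) (nat_lit 327)) (XT.nd (nat_lit 78) (nat_lit 0) (nat_lit 0) (XT.lf (nat_lit 0) (nat_lit 11037697696) (nat_lit 380) (nat_lit 4890145059) (nat_lit 456) (nat_lit 14983205998) (nat_lit 175) (nat_lit 5) (nat_lit 180) (nat_lit 5) (nat_lit 181) (nat_lit 5) (nat_lit 659) (nat_lit 575) (nat_lit 326)) (XT.lf (nat_lit 0) (nat_lit 23249299385) (nat_lit 456) (nat_lit 1047562411) (nat_lit 76) (nat_lit 6992847706) (nat_lit 175) (nat_lit 5) (nat_lit 181) (nat_lit 5) (nat_lit 176) (nat_lit 5) (nat_lit 660) (nat_lit 575) (nat_lit 325))))))) (XT.nd (nat_lit 74724) (nat_lit 0) (nat_lit 27132) (XT.nd (nat_lit 390) (nat_lit 456) (nat_lit 0) (XT.nd (nat_lit 156) (nat_lit 684) (nat_lit 0) (XT.nd (nat_lit 78) (nat_lit 456) (nat_lit 0) (XT.lf (nat_lit 0) (nat_lit 18357897303) (nat_lit 380) (nat_lit 12507469403) (nat_lit 456) (nat_lit 807613185) (nat_lit 170) (nat_lit 5) (nat_lit 175) (nat_lit 5) (nat_lit 176) (nat_lit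 5) (nat_lit 661) (nat_lit 575) (nat_lit 324)) (XT.lf (nat_lit 0) (nat_lit 6134405208) (nat_lit 380) (nat_lit 392790111) (nat_lit 456) (nat_lit 25534996900) (nat_lit 164) (nat_lit 5) (nat_lit 169) (nat_lit 5) (nat_lit 170) (nat_lit 5) (nat_lit 662) (nat_lit 575) (nat_lit 323))) (XT.nd (nat_lit 78) (nat_lit 684) (nat_lit 0) (XT.lf (nat_lit 0) (nat_lit 14162154467) (nat_lit 456) (nat_lit 6392907163) (nat_lit 76) (nat_lit 11900735083) (nat_lit 164) (nat_lit 5) (nat_lit 170) (nat_lit 5) (nat_lit 165) (nat_lit 5) (nat_lit 663) (nat_lit 575) (nat_lit 322)) (XT.nd (nat_lit 78) (nat_lit 304) (nat_lit 0) (XT.lf (nat_lit 0) (nat_lit 13704653082) (nat_lit 380) (nat_lit 8333442586) (nat_lit 456) (nat_lit 10817412022) (nat_lit 159) (nat_lit 5) (nat_lit 164) (nat_lit 5) (nat_lit 165) (nat_lit 5) (nat_lit 664) (nat_lit 575) (nat_lit 321)) (XT.lf (nat_lit 0) (nat_lit 1009415743) (nat_lit 304) (nat_lit 29135430554) (nat_lit 380) (nat_lit 3116900828) (nat_lit 155) (nat_lit 5) (nat_lit 159) (nat_lit 5) (nat_lit 160) (nat_lit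 5) (nat_lit 665) (nat_lit 575) (nat_lit 320))))) (XT.nd (nat_lit 156) (nat_lit 0) (nat_lit 0) (XT.nd (nat_lit 78) (nat_lit 380) (nat_lit 0) (XT.lf (nat_lit 0) (nat_lit 4856768242) (nat_lit 380) (nat_lit 11933037754) (nat_lit 76) (nat_lit 16882064558) (nat_lit 154) (nat_lit 5) (nat_lit 159) (nat_lit 5) (nat_lit 155) (nat_lit 5) (nat_lit 666) (nat_lit 575) (nat_lit 319)) (XT.lf (nat_lit 0) (nat_lit 8883425570) (nat_lit 380) (nat_lit 4119260682) (nat_lit 456) (nat_lit 21086007977) (nat_lit 149) (nat_lit 5) (nat_lit 154) (nat_lit 5) (nat_lit 155) (nat_lit 5) (nat_lit 667) (nat_lit 575) (nat_lit 318))) (XT.nd (nat_lit 74022) (nat_lit 0) (nat_lit 27132) (XT.lf (nat_lit 0) (nat_lit 21446108480) (nat_lit 456) (nat_lit 4297075567) (nat_lit 76) (nat_lit 8767978660) (nat_lit 149) (nat_lit 5) (nat_lit 155) (nat_lit 5) (nat_lit 150) (nat_lit 5) (nat_lit 668) (nat_lit 575) (nat_lit 317)) (XT.nd (nat_lit 78) (nat_lit 0) (nat_lit 0) (XT.lf (nat_lit 0) (nat_lit 263135349) (nat_lit 0) (nat_lit 263135349) (nat_lit 1748) (nat_lit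 5772894461) (nat_lit 506) (nat_lit 5) (nat_lit 506) (nat_lit 3) (nat_lit 529) (nat_lit 3) (nat_lit 576) (nat_lit 576) (nat_lit 408)) (XT.lf (nat_lit 0) (nat_lit 1530457634) (nat_lit 1748) (nat_lit 5830242063) (nat_lit 1824) (nat_lit 5354252679) (nat_lit 506) (nat_lit 5) (nat_lit 529) (nat_lit 3) (nat_lit 530) (nat_lit 5) (nat_lit 577) (nat_lit 576) (nat_lit 407)))))) (XT.nd (nat_lit 390) (nat_lit 0) (nat_lit 228) (XT.nd (nat_lit 156) (nat_lit 0) (nat_lit 76) (XT.nd (nat_lit 78) (nat_lit 0) (nat_lit 76) (XT.lf (nat_lit 76) (nat_lit 533998294) (nat_lit 0) (nat_lit 1479587153) (nat_lit 1824) (nat_lit 10820408715) (nat_lit 507) (nat_lit 5) (nat_lit 506) (nat_lit 5) (nat_lit 530) (nat_lit 5) (nat_lit 578) (nat_lit 576) (nat_lit 406)) (XT.lf (nat_lit 0) (nat_lit 2564018360) (nat_lit 1748) (nat_lit 5885830127) (nat_lit 1824) (nat_lit 4504415792) (nat_lit 507) (nat_lit 5) (nat_lit 530) (nat_lit 5) (nat_lit 531) (nat_lit 5) (nat_lit 579) (nat_lit 576) (nat_lit 405))) (XT.nd (nat_lit 78) (nat_lit 0) (nat_lit 76) (XT.lf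 (nat_lit 76) (nat_lit 649307353) (nat_lit 0) (nat_lit 2479302339) (nat_lit 1824) (nat_lit 9948267450) (nat_lit 508) (nat_lit 5) (nat_lit 507) (nat_lit 5) (nat_lit 531) (nat_lit 5) (nat_lit 580) (nat_lit 576) (nat_lit 404)) (XT.nd (nat_lit 78) (nat_lit 0) (nat_lit 0) (XT.lf (nat_lit 0) (nat_lit 3757034309) (nat_lit 1748) (nat_lit 5836158867) (nat_lit 1824) (nat_lit 3607698587) (nat_lit 508) (nat_lit 5) (nat_lit 531) (nat_lit 5) (nat_lit 532) (nat_lit 5) (nat_lit 581) (nat_lit 576) (nat_lit 403)) (XT.lf (nat_lit 76) (nat_lit 876038920) (nat_lit 0) (nat_lit 3533644669) (nat_lit 1824) (nat_lit 8917470291) (nat_lit 509) (nat_lit 5) (nat_lit 508) (nat_lit 5) (nat_lit 532) (nat_lit 5) (nat_lit 582) (nat_lit 576) (nat_lit 402))))) (XT.nd (nat_lit 156) (nat_lit 0) (nat_lit 76) (XT.nd (nat_lit 78) (nat_lit 0) (nat_lit 0) (XT.lf (nat_lit 0) (nat_lit 5121737594) (nat_lit 1748) (nat_lit 5677317409) (nat_lit 1824) (nat_lit 2655959520) (nat_lit 509) (nat_lit 5) (nat_lit 532) (nat_lit 5) (nat_lit 533) (nat_lit 5) (nat_lit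 583) (nat_lit 576) (nat_lit 401)) (XT.lf (nat_lit 76) (nat_lit 1218352285) (nat_lit 0) (nat_lit 4650935487) (nat_lit 1824) (nat_lit 7715719818) (nat_lit 510) (nat_lit 5) (nat_lit 509) (nat_lit 5) (nat_lit 533) (nat_lit 5) (nat_lit 584) (nat_lit 576) (nat_lit 400))) (XT.nd (nat_lit 78) (nat_lit 0) (nat_lit 0) (XT.lf (nat_lit 0) (nat_lit 6670782965) (nat_lit 1748) (nat_lit 5405080162) (nat_lit 1824) (nat_lit 1640957818) (nat_lit 510) (nat_lit 5) (nat_lit 533) (nat_lit 5) (nat_lit 534) (nat_lit 5) (nat_lit 585) (nat_lit 576) (nat_lit 399)) (XT.nd (nat_lit 78) (nat_lit 0) (nat_lit 76) (XT.lf (nat_lit 76) (nat_lit 1680730297) (nat_lit 0) (nat_lit 5839609561) (nat_lit 1824) (nat_lit 6330290373) (nat_lit 511) (nat_lit 5) (nat_lit 510) (nat_lit 5) (nat_lit 534) (nat_lit 5) (nat_lit 586) (nat_lit 576) (nat_lit 398)) (XT.lf (nat_lit 0) (nat_lit 8417273834) (nat_lit 1748) (nat_lit 5014901224) (nat_lit 1824) (nat_lit 554333222) (nat_lit 511) (nat_lit 5) (nat_lit 534) (nat_lit 5) (nat_lit 535) (nat_lit 5) (nat_lit 587)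 (nat_lit 576) (nat_lit 397))))))))
noncomputable def xc161 : XT := (XT.nd (nat_lit 4056) (nat_lit 6156) (nat_lit 0) (XT.nd (nat_lit 780) (nat_lit 17708) (nat_lit 0) (XT.nd (nat_lit 390) (nat_lit 1672) (nat_lit 0) (XT.nd (nat_lit 156) (nat_lit 0) (nat_lit 76) (XT.nd (nat_lit 78) (nat_lit 0) (nat_lit 0) (XT.lf (nat_lit 76) (nat_lit 2267985359) (nat_lit 0) (nat_lit 7108235512) (nat_lit 1824) (nat_lit 4748001819) (nat_lit 512) (nat_lit 5) (nat_lit 511) (nat_lit 5) (nat_lit 535) (nat_lit 5) (nat_lit 588) (nat_lit 576) (nat_lit 396)) (XT.lf (nat_lit 76) (nat_lit 9758265099) (nat_lit 0) (nat_lit 620552872) (nat_lit 1824) (nat_lit 3885384279) (nat_lit 512) (nat_lit 5) (nat_lit 511) (nat_lit 5) (nat_lit 535) (nat_lit 5) (nat_lit 589) (nat_lit 576) (nat_lit 395))) (XT.nd (nat_lit 78) (nat_lit 0) (nat_lit 0) (XT.lf (nat_lit 76) (nat_lit 2985266103) (nat_lit 0) (nat_lit 8465536211) (nat_lit 1824) (nat_lit 2955192659) (nat_lit 513) (nat_lit 5) (nat_lit 512) (nat_lit 5) (nat_lit 536) (nat_lit 5) (nat_lit 590) (nat_lit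 576) (nat_lit 394)) (XT.nd (nat_lit 78) (nat_lit 0) (nat_lit 76) (XT.lf (nat_lit 76) (nat_lit 10676930441) (nat_lit 0) (nat_lit 1892768298) (nat_lit 1824) (nat_lit 1980415635) (nat_lit 513) (nat_lit 5) (nat_lit 512) (nat_lit 5) (nat_lit 536) (nat_lit 5) (nat_lit 591) (nat_lit 576) (nat_lit 393)) (XT.lf (nat_lit 76) (nat_lit 3838064738) (nat_lit 0) (nat_lit 9920409209) (nat_lit 1824) (nat_lit 937692466) (nat_lit 514) (nat_lit 5) (nat_lit 513) (nat_lit 5) (nat_lit 537) (nat_lit 5) (nat_lit 592) (nat_lit 576) (nat_lit 392))))) (XT.nd (nat_lit 156) (nat_lit 0) (nat_lit 76) (XT.nd (nat_lit 78) (nat_lit 0) (nat_lit 76) (XT.lf (nat_lit 0) (nat_lit 154346805) (nat_lit 1824) (nat_lit 3108521130) (nat_lit 1900) (nat_lit 11581653215) (nat_lit 489) (nat_lit 5) (nat_lit 513) (nat_lit 5) (nat_lit 514) (nat_lit 5) (nat_lit 593) (nat_lit 576) (nat_lit 391)) (XT.lf (nat_lit 0) (nat_lit 1301904801) (nat_lit 1824) (nat_lit 10171305973) (nat_lit 1900) (nat_lit 3521583823) (nat_lit 490) (nat_lit 5) (nat_lit 514) (nat_lit 5)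 (nat_lit 515) (nat_lit 5) (nat_lit 594) (nat_lit 576) (nat_lit 390))) (XT.nd (nat_lit 78) (nat_lit 0) (nat_lit 76) (XT.lf (nat_lit 0) (nat_lit 2506740902) (nat_lit 1824) (nat_lit 2219557122) (nat_lit 1900) (nat_lit 10421089198) (nat_lit 490) (nat_lit 5) (nat_lit 514) (nat_lit 5) (nat_lit 515) (nat_lit 5) (nat_lit 595) (nat_lit 576) (nat_lit 389)) (XT.nd (nat_lit 78) (nat_lit 0) (nat_lit 0) (XT.lf (nat_lit 0) (nat_lit 3780536712) (nat_lit 1824) (nat_lit 9353552755) (nat_lit 1900) (nat_lit 2168045213) (nat_lit 491) (nat_lit 5) (nat_lit 515) (nat_lit 5) (nat_lit 516) (nat_lit 5) (nat_lit 596) (nat_lit 576) (nat_lit 388)) (XT.lf (nat_lit 0) (nat_lit 5118114167) (nat_lit 1824) (nat_lit 1187340989) (nat_lit 1900) (nat_lit 9153756054) (nat_lit 491) (nat_lit 5) (nat_lit 515) (nat_lit 5) (nat_lit 516) (nat_lit 5) (nat_lit 597) (nat_lit 576) (nat_lit 387)))))) (XT.nd (nat_lit 2886) (nat_lit 1824) (nat_lit 0) (XT.nd (nat_lit 2652) (nat_lit 16112) (nat_lit 0) (XT.nd (nat_lit 78) (nat_lit 0) (nat_lit 0) (XT.lf (nat_lit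 0) (nat_lit 6526163462) (nat_lit 1824) (nat_lit 8392531775) (nat_lit 1900) (nat_lit 699859862) (nat_lit 492) (nat_lit 5) (nat_lit 516) (nat_lit 5) (nat_lit 517) (nat_lit 5) (nat_lit 598) (nat_lit 576) (nat_lit 386)) (XT.lf (nat_lit 0) (nat_lit 8004443779) (nat_lit 1824) (nat_lit 5417578) (nat_lit 1900) (nat_lit 7770383333) (nat_lit 492) (nat_lit 5) (nat_lit 516) (nat_lit 5) (nat_lit 517) (nat_lit 5) (nat_lit 599) (nat_lit 576) (nat_lit 385))) (XT.nd (nat_lit 78) (nat_lit 684) (nat_lit 0) (XT.lf (nat_lit 0) (nat_lit 13855586938) (nat_lit 608) (nat_lit 6297701711) (nat_lit 684) (nat_lit 2480583626) (nat_lit 289) (nat_lit 5) (nat_lit 297) (nat_lit 5) (nat_lit 298) (nat_lit 5) (nat_lit 632) (nat_lit 576) (nat_lit 352)) (XT.nd (nat_lit 78) (nat_lit 0) (nat_lit 0) (XT.lf (nat_lit 0) (nat_lit 1462500814) (nat_lit 684) (nat_lit 18373083168) (nat_lit 76) (nat_lit 3060046321) (nat_lit 280) (nat_lit 5) (nat_lit 289) (nat_lit 5) (nat_lit 281) (nat_lit 5) (nat_lit 633) (nat_lit 576) (nat_lit 351)) (XT.lf (nat_lit 0)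 (nat_lit 5547662832) (nat_lit 684) (nat_lit 5017486083) (nat_lit 76) (nat_lit 12595218129) (nat_lit 280) (nat_lit 5) (nat_lit 289) (nat_lit 5) (nat_lit 281) (nat_lit 5) (nat_lit 634) (nat_lit 576) (nat_lit 350))))) (XT.nd (nat_lit 156) (nat_lit 1216) (nat_lit 0) (XT.nd (nat_lit 78) (nat_lit 0) (nat_lit 0) (XT.lf (nat_lit 0) (nat_lit 8713716167) (nat_lit 608) (nat_lit 1052873610) (nat_lit 684) (nat_lit 13662767611) (nat_lit 272) (nat_lit 5) (nat_lit 280) (nat_lit 5) (nat_lit 281) (nat_lit 5) (nat_lit 635) (nat_lit 576) (nat_lit 349)) (XT.lf (nat_lit 0) (nat_lit 14155476723) (nat_lit 684) (nat_lit 977712187) (nat_lit 76) (nat_lit 8568827097) (nat_lit 272) (nat_lit 5) (nat_lit 281) (nat_lit 5) (nat_lit 273) (nat_lit 5) (nat_lit 636) (nat_lit 576) (nat_lit 348))) (XT.nd (nat_lit 78) (nat_lit 684) (nat_lit 0) (XT.lf (nat_lit 0) (nat_lit 13195344790) (nat_lit 532) (nat_lit 5525059144) (nat_lit 608) (nat_lit 5257958712) (nat_lit 265) (nat_lit 5) (nat_lit 272) (nat_lit 5) (nat_lit 273) (nat_lit 5) (nat_lit 637)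 (nat_lit 576) (nat_lit 347)) (XT.nd (nat_lit 78) (nat_lit 76) (nat_lit 0) (XT.lf (nat_lit 0) (nat_lit 3416257072) (nat_lit 608) (nat_lit 20012572541) (nat_lit 684) (nat_lit 830362701) (nat_lit 257) (nat_lit 5) (nat_lit 265) (nat_lit 5) (nat_lit 266) (nat_lit 5) (nat_lit 638) (nat_lit 576) (nat_lit 346)) (XT.lf (nat_lit 0) (nat_lit 3742550951) (nat_lit 684) (nat_lit 6565284173) (nat_lit 76) (nat_lit 14235222824) (nat_lit 256) (nat_lit 5) (nat_lit 265) (nat_lit 5) (nat_lit 257) (nat_lit 5) (nat_lit 639) (nat_lit 576) (nat_lit 345))))))) (XT.nd (nat_lit 780) (nat_lit 3040) (nat_lit 0) (XT.nd (nat_lit 390) (nat_lit 1520) (nat_lit 0) (XT.nd (nat_lit 156) (nat_lit 1064) (nat_lit 0) (XT.nd (nat_lit 78) (nat_lit 0) (nat_lit 0) (XT.lf (nat_lit 0) (nat_lit 8092896528) (nat_lit 532) (nat_lit 351224141) (nat_lit 608) (nat_lit 16387404213) (nat_lit 249) (nat_lit 5) (nat_lit 256) (nat_lit 5) (nat_lit 257) (nat_lit 5) (nat_lit 640) (nat_lit 576) (nat_lit 344)) (XT.lf (nat_lit 0) (nat_lit 13343526265) (nat_lit 608) (nat_lit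 2061295672) (nat_lit 76) (nat_lit 9718863219) (nat_lit 249) (nat_lit 5) (nat_lit 257) (nat_lit 5) (nat_lit 250) (nat_lit 5) (nat_lit 641) (nat_lit 576) (nat_lit 343))) (XT.nd (nat_lit 78) (nat_lit 532) (nat_lit 0) (XT.lf (nat_lit 0) (nat_lit 13073124409) (nat_lit 532) (nat_lit 5350882084) (nat_lit 608) (nat_lit 6996020496) (nat_lit 242) (nat_lit 5) (nat_lit 249) (nat_lit 5) (nat_lit 250) (nat_lit 5) (nat_lit 642) (nat_lit 576) (nat_lit 342)) (XT.nd (nat_lit 78) (nat_lit 76) (nat_lit 0) (XT.lf (nat_lit 0) (nat_lit 2815524038) (nat_lit 456) (nat_lit 20850533676) (nat_lit 532) (nat_lit 2055038801) (nat_lit 236) (nat_lit 5) (nat_lit 242) (nat_lit 5) (nat_lit 243) (nat_lit 5) (nat_lit 643) (nat_lit 576) (nat_lit 341)) (XT.lf (nat_lit 0) (nat_lit 3060389258) (nat_lit 532) (nat_lit 7638971672) (nat_lit 76) (nat_lit 15326143555) (nat_lit 235) (nat_lit 5) (nat_lit 242) (nat_lit 5) (nat_lit 236) (nat_lit 5) (nat_lit 644) (nat_lit 576) (nat_lit 340))))) (XT.nd (nat_lit 156) (nat_lit 988) (nat_lit 0) (XT.nd (nat_lit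 78) (nat_lit 0) (nat_lit 0) (XT.lf (nat_lit 0) (nat_lit 8018990794) (nat_lit 532) (nat_lit 279721389) (nat_lit 608) (nat_lit 18036054768) (nat_lit 228) (nat_lit 5) (nat_lit 235) (nat_lit 5) (nat_lit 236) (nat_lit 5) (nat_lit 645) (nat_lit 576) (nat_lit 339)) (XT.lf (nat_lit 0) (nat_lit 13756636048) (nat_lit 608) (nat_lit 2628620080) (nat_lit 76) (nat_lit 10262661927) (nat_lit 228) (nat_lit 5) (nat_lit 236) (nat_lit 5) (nat_lit 229) (nat_lit 5) (nat_lit 646) (nat_lit 576) (nat_lit 338))) (XT.nd (nat_lit 78) (nat_lit 532) (nat_lit 0) (XT.lf (nat_lit 0) (nat_lit 13542585350) (nat_lit 456) (nat_lit 5867035868) (nat_lit 532) (nat_lit 7555992984) (nat_lit 222) (nat_lit 5) (nat_lit 228) (nat_lit 5) (nat_lit 229) (nat_lit 5) (nat_lit 647) (nat_lit 576) (nat_lit 337)) (XT.nd (nat_lit 78) (nat_lit 76) (nat_lit 0) (XT.lf (nat_lit 0) (nat_lit 2782866228) (nat_lit 456) (nat_lit 22456342203) (nat_lit 532) (nat_lit 2049185069) (nat_lit 216) (nat_lit 5) (nat_lit 222) (nat_lit 5) (nat_lit 223) (nat_lit 5) (nat_lit 648) (nat_lit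 576) (nat_lit 336)) (XT.lf (nat_lit 0) (nat_lit 3646662105) (nat_lit 532) (nat_lit 8189110596) (nat_lit 76) (nat_lit 15778878572) (nat_lit 215) (nat_lit 5) (nat_lit 222) (nat_lit 5) (nat_lit 216) (nat_lit 5) (nat_lit 649) (nat_lit 576) (nat_lit 335)))))) (XT.nd (nat_lit 390) (nat_lit 1672) (nat_lit 0) (XT.nd (nat_lit 156) (nat_lit 912) (nat_lit 0) (XT.nd (nat_lit 78) (nat_lit 0) (nat_lit 0) (XT.lf (nat_lit 0) (nat_lit 8546763546) (nat_lit 456) (nat_lit 933984373) (nat_lit 532) (nat_lit 18465380246) (nat_lit 209) (nat_lit 5) (nat_lit 215) (nat_lit 5) (nat_lit 216) (nat_lit 5) (nat_lit 650) (nat_lit 576) (nat_lit 334)) (XT.lf (nat_lit 0) (nat_lit 15549237461) (nat_lit 532) (nat_lit 2626692716) (nat_lit 76) (nat_lit 10105950046) (nat_lit 209) (nat_lit 5) (nat_lit 216) (nat_lit 5) (nat_lit 210) (nat_lit 5) (nat_lit 651) (nat_lit 576) (nat_lit 333))) (XT.nd (nat_lit 78) (nat_lit 456) (nat_lit 0) (XT.lf (nat_lit 0) (nat_lit 14662230628) (nat_lit 456) (nat_lit 7174593138) (nat_lit 532) (nat_lit 6785569085) (nat_lit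 203) (nat_lit 5) (nat_lit 209) (nat_lit 5) (nat_lit 210) (nat_lit 5) (nat_lit 652) (nat_lit 576) (nat_lit 332)) (XT.nd (nat_lit 78) (nat_lit 76) (nat_lit 0) (XT.lf (nat_lit 0) (nat_lit 3375715680) (nat_lit 380) (nat_lit 24936752368) (nat_lit 456) (nat_lit 656001625) (nat_lit 198) (nat_lit 5) (nat_lit 203) (nat_lit 5) (nat_lit 204) (nat_lit 5) (nat_lit 653) (nat_lit 576) (nat_lit 331)) (XT.lf (nat_lit 0) (nat_lit 5660961043) (nat_lit 456) (nat_lit 8161871952) (nat_lit 76) (nat_lit 15495144453) (nat_lit 197) (nat_lit 5) (nat_lit 203) (nat_lit 5) (nat_lit 198) (nat_lit 5) (nat_lit 654) (nat_lit 576) (nat_lit 330))))) (XT.nd (nat_lit 234) (nat_lit 836) (nat_lit 0) (XT.nd (nat_lit 78) (nat_lit 380) (nat_lit 0) (XT.lf (nat_lit 0) (nat_lit 9735719936) (nat_lit 456) (nat_lit 2419433200) (nat_lit 532) (nat_lit 17518042100) (nat_lit 191) (nat_lit 5) (nat_lit 197) (nat_lit 5) (nat_lit 198) (nat_lit 5) (nat_lit 655) (nat_lit 576) (nat_lit 329)) (XT.nd (nat_lit 78) (nat_lit 380) (nat_lit 0) (XT.lf (nat_lit 0) (nat_lit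 18890652537) (nat_lit 532) (nat_lit 1997969114) (nat_lit 76) (nat_lit 9144667323) (nat_lit 191) (nat_lit 5) (nat_lit 198) (nat_lit 5) (nat_lit 192) (nat_lit 5) (nat_lit 656) (nat_lit 576) (nat_lit 328)) (XT.lf (nat_lit 0) (nat_lit 16495475219) (nat_lit 380) (nat_lit 9385057685) (nat_lit 456) (nat_lit 4517658322) (nat_lit 186) (nat_lit 5) (nat_lit 191) (nat_lit 5) (nat_lit 192) (nat_lit 5) (nat_lit 657) (nat_lit 576) (nat_lit 327)))) (XT.nd (nat_lit 78) (nat_lit 380) (nat_lit 0) (XT.lf (nat_lit 0) (nat_lit 2266359801) (nat_lit 456) (nat_lit 26127905699) (nat_lit 76) (nat_lit 2374716912) (nat_lit 180) (nat_lit 5) (nat_lit 186) (nat_lit 5) (nat_lit 181) (nat_lit 5) (nat_lit 658) (nat_lit 576) (nat_lit 326)) (XT.nd (nat_lit 78) (nat_lit 380) (nat_lit 0) (XT.lf (nat_lit 0) (nat_lit 9278271496) (nat_lit 456) (nat_lit 7499016962) (nat_lit 76) (nat_lit 14366249694) (nat_lit 180) (nat_lit 5) (nat_lit 186) (nat_lit 5) (nat_lit 181) (nat_lit 5) (nat_lit 659) (nat_lit 576) (nat_lit 325)) (XT.lf (nat_lit 0) (nat_lit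 11650140410) (nat_lit 380) (nat_lit 4852571475) (nat_lit 456) (nat_lit 15021427368) (nat_lit 175) (nat_lit 5) (nat_lit 180) (nat_lit 5) (nat_lit 181) (nat_lit 5) (nat_lit 660) (nat_lit 576) (nat_lit 324))))))))
noncomputable def xc162 : XT := (XT.nd (nat_lit 75582) (nat_lit 0) (nat_lit 8132) (XT.nd (nat_lit 74802) (nat_lit 0) (nat_lit 27132) (XT.nd (nat_lit 390) (nat_lit 760) (nat_lit 0) (XT.nd (nat_lit 156) (nat_lit 836) (nat_lit 0) (XT.nd (nat_lit 78) (nat_lit 380) (nat_lit 0) (XT.lf (nat_lit 0) (nat_lit 23966433635) (nat_lit 456) (nat_lit 680336912) (nat_lit 76) (nat_lit 7263686032) (nat_lit 175) (nat_lit 5) (nat_lit 181) (nat_lit 5) (nat_lit 176) (nat_lit 5) (nat_lit 661) (nat_lit 576) (nat_lit 323)) (XT.lf (nat_lit 0) (nat_lit 19110678201) (nat_lit 380) (nat_lit 12621703737) (nat_lit 456) (nat_lit 569059325) (nat_lit 170) (nat_lit 5) (nat_lit 175) (nat_lit 5) (nat_lit 176) (nat_lit 5) (nat_lit 662) (nat_lit 576) (nat_lit 322))) (XT.nd (nat_lit 78) (nat_lit 380) (nat_lit 0) (XT.lf (nat_lit 0) (nat_lit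 6643501772) (nat_lit 380) (nat_lit 263183143) (nat_lit 456) (nat_lit 25791768326) (nat_lit 164) (nat_lit 5) (nat_lit 169) (nat_lit 5) (nat_lit 170) (nat_lit 5) (nat_lit 663) (nat_lit 576) (nat_lit 321)) (XT.nd (nat_lit 78) (nat_lit 380) (nat_lit 0) (XT.lf (nat_lit 0) (nat_lit 14690336957) (nat_lit 456) (nat_lit 6137923362) (nat_lit 76) (nat_lit 12271749707) (nat_lit 164) (nat_lit 5) (nat_lit 170) (nat_lit 5) (nat_lit 165) (nat_lit 5) (nat_lit 664) (nat_lit 576) (nat_lit 320)) (XT.lf (nat_lit 0) (nat_lit 14359069390) (nat_lit 380) (nat_lit 8362394170) (nat_lit 456) (nat_lit 10786298408) (nat_lit 159) (nat_lit 5) (nat_lit 164) (nat_lit 5) (nat_lit 165) (nat_lit 5) (nat_lit 665) (nat_lit 576) (nat_lit 319))))) (XT.nd (nat_lit 156) (nat_lit 380) (nat_lit 0) (XT.nd (nat_lit 78) (nat_lit 76) (nat_lit 0) (XT.lf (nat_lit 0) (nat_lit 1411360839) (nat_lit 304) (nat_lit 29577586621) (nat_lit 380) (nat_lit 2933206841) (nat_lit 155) (nat_lit 5) (nat_lit 159) (nat_lit 5) (nat_lit 160) (nat_lit 5) (nat_lit 666) (nat_lit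 576) (nat_lit 318)) (XT.lf (nat_lit 0) (nat_lit 5191947970) (nat_lit 380) (nat_lit 11794260132) (nat_lit 76) (nat_lit 17354335437) (nat_lit 154) (nat_lit 5) (nat_lit 159) (nat_lit 5) (nat_lit 155) (nat_lit 5) (nat_lit 667) (nat_lit 576) (nat_lit 317))) (XT.nd (nat_lit 74100) (nat_lit 0) (nat_lit 27132) (XT.lf (nat_lit 0) (nat_lit 9436049312) (nat_lit 380) (nat_lit 4062501949) (nat_lit 456) (nat_lit 21267197156) (nat_lit 149) (nat_lit 5) (nat_lit 154) (nat_lit 5) (nat_lit 155) (nat_lit 5) (nat_lit 668) (nat_lit 576) (nat_lit 316)) (XT.nd (nat_lit 78) (nat_lit 0) (nat_lit 0) (XT.lf (nat_lit 0) (nat_lit 483077842) (nat_lit 0) (nat_lit 483077842) (nat_lit 1748) (nat_lit 5450392245) (nat_lit 506) (nat_lit 5) (nat_lit 506) (nat_lit 3) (nat_lit 529) (nat_lit 3) (nat_lit 577) (nat_lit 577) (nat_lit 406)) (XT.lf (nat_lit 0) (nat_lit 2400215274) (nat_lit 1748) (nat_lit 5506309330) (nat_lit 1824) (nat_lit 5045917689) (nat_lit 506) (nat_lit 5) (nat_lit 529) (nat_lit 3) (nat_lit 530) (nat_lit 5) (nat_lit 578) (nat_lit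 577) (nat_lit 405)))))) (XT.nd (nat_lit 390) (nat_lit 0) (nat_lit 228) (XT.nd (nat_lit 156) (nat_lit 0) (nat_lit 76) (XT.nd (nat_lit 78) (nat_lit 0) (nat_lit 76) (XT.lf (nat_lit 76) (nat_lit 982317561) (nat_lit 0) (nat_lit 1897075636) (nat_lit 1824) (nat_lit 10194744480) (nat_lit 507) (nat_lit 5) (nat_lit 506) (nat_lit 5) (nat_lit 530) (nat_lit 5) (nat_lit 579) (nat_lit 577) (nat_lit 404)) (XT.lf (nat_lit 0) (nat_lit 3422178686) (nat_lit 1748) (nat_lit 5555807365) (nat_lit 1824) (nat_lit 4219200770) (nat_lit 507) (nat_lit 5) (nat_lit 530) (nat_lit 5) (nat_lit 531) (nat_lit 5) (nat_lit 580) (nat_lit 577) (nat_lit 403))) (XT.nd (nat_lit 78) (nat_lit 0) (nat_lit 76) (XT.lf (nat_lit 76) (nat_lit 1107087210) (nat_lit 0) (nat_lit 2878041354) (nat_lit 1824) (nat_lit 9337382535) (nat_lit 508) (nat_lit 5) (nat_lit 507) (nat_lit 5) (nat_lit 531) (nat_lit 5) (nat_lit 581) (nat_lit 577) (nat_lit 402)) (XT.nd (nat_lit 78) (nat_lit 0) (nat_lit 0) (XT.lf (nat_lit 0) (nat_lit 4608331609) (nat_lit 1748) (nat_lit 5498995547)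 (nat_lit 1824) (nat_lit 3342035142) (nat_lit 508) (nat_lit 5) (nat_lit 531) (nat_lit 5) (nat_lit 532) (nat_lit 5) (nat_lit 582) (nat_lit 577) (nat_lit 401)) (XT.lf (nat_lit 76) (nat_lit 1344460100) (nat_lit 0) (nat_lit 3917282561) (nat_lit 1824) (nat_lit 8316653294) (nat_lit 509) (nat_lit 5) (nat_lit 508) (nat_lit 5) (nat_lit 532) (nat_lit 5) (nat_lit 583) (nat_lit 577) (nat_lit 400))))) (XT.nd (nat_lit 156) (nat_lit 0) (nat_lit 76) (XT.nd (nat_lit 78) (nat_lit 0) (nat_lit 0) (XT.lf (nat_lit 0) (nat_lit 5971067861) (nat_lit 1748) (nat_lit 5331811423) (nat_lit 1824) (nat_lit 2406274390) (nat_lit 509) (nat_lit 5) (nat_lit 532) (nat_lit 5) (nat_lit 533) (nat_lit 5) (nat_lit 584) (nat_lit 577) (nat_lit 399)) (XT.lf (nat_lit 76) (nat_lit 1698751584) (nat_lit 0) (nat_lit 5023133312) (nat_lit 1824) (nat_lit 7120095845) (nat_lit 510) (nat_lit 5) (nat_lit 509) (nat_lit 5) (nat_lit 533) (nat_lit 5) (nat_lit 585) (nat_lit 577) (nat_lit 398))) (XT.nd (nat_lit 78) (nat_lit 0) (nat_lit 0) (XT.lf (nat_lit 0) (nat_lit 7523217009)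 (nat_lit 1748) (nat_lit 5049876011) (nat_lit 1824) (nat_lit 1403661649) (nat_lit 510) (nat_lit 5) (nat_lit 533) (nat_lit 5) (nat_lit 534) (nat_lit 5) (nat_lit 586) (nat_lit 577) (nat_lit 397)) (XT.nd (nat_lit 78) (nat_lit 0) (nat_lit 76) (XT.lf (nat_lit 76) (nat_lit 2174602594) (nat_lit 0) (nat_lit 6204052345) (nat_lit 1824) (nat_lit 5734807842) (nat_lit 511) (nat_lit 5) (nat_lit 510) (nat_lit 5) (nat_lit 534) (nat_lit 5) (nat_lit 587) (nat_lit 577) (nat_lit 396)) (XT.lf (nat_lit 0) (nat_lit 9278070655) (nat_lit 1748) (nat_lit 4648487819) (nat_lit 1824) (nat_lit 325809484) (nat_lit 511) (nat_lit 5) (nat_lit 534) (nat_lit 5) (nat_lit 535) (nat_lit 5) (nat_lit 588) (nat_lit 577) (nat_lit 395))))))) (XT.nd (nat_lit 780) (nat_lit 17708) (nat_lit 0) (XT.nd (nat_lit 390) (nat_lit 1672) (nat_lit 0) (XT.nd (nat_lit 156) (nat_lit 0) (nat_lit 76) (XT.nd (nat_lit 78) (nat_lit 0) (nat_lit 0) (XT.lf (nat_lit 76) (nat_lit 2776986025) (nat_lit 0) (nat_lit 7468643395) (nat_lit 1824) (nat_lit 4147419001) (nat_lit 512) (nat_lit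 5) (nat_lit 511) (nat_lit 5) (nat_lit 535) (nat_lit 5) (nat_lit 589) (nat_lit 577) (nat_lit 394)) (XT.lf (nat_lit 76) (nat_lit 10407980361) (nat_lit 0) (nat_lit 846927824) (nat_lit 1824) (nat_lit 3281187206) (nat_lit 512) (nat_lit 5) (nat_lit 511) (nat_lit 5) (nat_lit 535) (nat_lit 5) (nat_lit 590) (nat_lit 577) (nat_lit 393))) (XT.nd (nat_lit 78) (nat_lit 0) (nat_lit 0) (XT.lf (nat_lit 76) (nat_lit 3511213786) (nat_lit 0) (nat_lit 8825675512) (nat_lit 1824) (nat_lit 2344063933) (nat_lit 513) (nat_lit 5) (nat_lit 512) (nat_lit 5) (nat_lit 536) (nat_lit 5) (nat_lit 591) (nat_lit 577) (nat_lit 392)) (XT.nd (nat_lit 78) (nat_lit 0) (nat_lit 76) (XT.lf (nat_lit 76) (nat_lit 11347569404) (nat_lit 0) (nat_lit 2117710504) (nat_lit 1824) (nat_lit 1362933183) (nat_lit 513) (nat_lit 5) (nat_lit 512) (nat_lit 5) (nat_lit 536) (nat_lit 5) (nat_lit 592) (nat_lit 577) (nat_lit 391)) (XT.lf (nat_lit 76) (nat_lit 4382944527) (nat_lit 0) (nat_lit 10284103433) (nat_lit 1824) (nat_lit 310354253) (nat_lit 514) (nat_lit 5) (nat_lit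 513) (nat_lit 5) (nat_lit 537) (nat_lit 5) (nat_lit 593) (nat_lit 577) (nat_lit 390))))) (XT.nd (nat_lit 156) (nat_lit 0) (nat_lit 76) (XT.nd (nat_lit 78) (nat_lit 0) (nat_lit 76) (XT.lf (nat_lit 0) (nat_lit 782549867) (nat_lit 1824) (nat_lit 2703425706) (nat_lit 1900) (nat_lit 11642914995) (nat_lit 489) (nat_lit 5) (nat_lit 513) (nat_lit 5) (nat_lit 514) (nat_lit 5) (nat_lit 594) (nat_lit 577) (nat_lit 389)) (XT.lf (nat_lit 0) (nat_lit 1942830871) (nat_lit 1824) (nat_lit 9897219778) (nat_lit 1900) (nat_lit 3442323765) (nat_lit 490) (nat_lit 5) (nat_lit 514) (nat_lit 5) (nat_lit 515) (nat_lit 5) (nat_lit 595) (nat_lit 577) (nat_lit 388))) (XT.nd (nat_lit 78) (nat_lit 0) (nat_lit 76) (XT.lf (nat_lit 0) (nat_lit 3159707067) (nat_lit 1824) (nat_lit 1795798936) (nat_lit 1900) (nat_lit 10482754380) (nat_lit 490) (nat_lit 5) (nat_lit 514) (nat_lit 5) (nat_lit 515) (nat_lit 5) (nat_lit 596) (nat_lit 577) (nat_lit 387)) (XT.nd (nat_lit 78) (nat_lit 0) (nat_lit 0) (XT.lf (nat_lit 0) (nat_lit 4449340808) (nat_lit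 1824) (nat_lit 9062818892) (nat_lit 1900) (nat_lit 2084136203) (nat_lit 491) (nat_lit 5) (nat_lit 515) (nat_lit 5) (nat_lit 516) (nat_lit 5) (nat_lit 597) (nat_lit 577) (nat_lit 386)) (XT.lf (nat_lit 0) (nat_lit 5802038569) (nat_lit 1824) (nat_lit 742651614) (nat_lit 1900) (nat_lit 9212056750) (nat_lit 491) (nat_lit 5) (nat_lit 515) (nat_lit 5) (nat_lit 516) (nat_lit 5) (nat_lit 598) (nat_lit 577) (nat_lit 385)))))) (XT.nd (nat_lit 2808) (nat_lit 1824) (nat_lit 0) (XT.nd (nat_lit 2574) (nat_lit 1292) (nat_lit 0) (XT.nd (nat_lit 2496) (nat_lit 14820) (nat_lit 0) (XT.lf (nat_lit 0) (nat_lit 7229166983) (nat_lit 1824) (nat_lit 8082847427) (nat_lit 1900) (nat_lit 607445264) (nat_lit 492) (nat_lit 5) (nat_lit 516) (nat_lit 5) (nat_lit 517) (nat_lit 5) (nat_lit 599) (nat_lit 577) (nat_lit 384)) (XT.lf (nat_lit 0) (nat_lit 10463494103) (nat_lit 608) (nat_lit 2261544338) (nat_lit 684) (nat_lit 9832042809) (nat_lit 297) (nat_lit 5) (nat_lit 305) (nat_lit 5) (nat_lit 306) (nat_lit 5) (nat_lit 631) (nat_lit 577) (nat_lit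 352))) (XT.nd (nat_lit 78) (nat_lit 684) (nat_lit 0) (XT.lf (nat_lit 0) (nat_lit 1032030128) (nat_lit 608) (nat_lit 15694402606) (nat_lit 684) (nat_lit 6090267517) (nat_lit 289) (nat_lit 5) (nat_lit 297) (nat_lit 5) (nat_lit 298) (nat_lit 5) (nat_lit 632) (nat_lit 577) (nat_lit 351)) (XT.nd (nat_lit 78) (nat_lit 684) (nat_lit 0) (XT.lf (nat_lit 0) (nat_lit 14563231932) (nat_lit 608) (nat_lit 6336127921) (nat_lit 684) (nat_lit 2180321786) (nat_lit 289) (nat_lit 5) (nat_lit 297) (nat_lit 5) (nat_lit 298) (nat_lit 5) (nat_lit 633) (nat_lit 577) (nat_lit 350)) (XT.lf (nat_lit 0) (nat_lit 1833662444) (nat_lit 684) (nat_lit 18302034195) (nat_lit 76) (nat_lit 3211000374) (nat_lit 280) (nat_lit 5) (nat_lit 289) (nat_lit 5) (nat_lit 281) (nat_lit 5) (nat_lit 634) (nat_lit 577) (nat_lit 349))))) (XT.nd (nat_lit 234) (nat_lit 1216) (nat_lit 0) (XT.nd (nat_lit 78) (nat_lit 608) (nat_lit 0) (XT.lf (nat_lit 0) (nat_lit 5993823552) (nat_lit 684) (nat_lit 4687923417) (nat_lit 76) (nat_lit 12935115754) (nat_lit 280) (nat_lit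 5) (nat_lit 289) (nat_lit 5) (nat_lit 281) (nat_lit 5) (nat_lit 635) (nat_lit 577) (nat_lit 348)) (XT.nd (nat_lit 78) (nat_lit 0) (nat_lit 0) (XT.lf (nat_lit 0) (nat_lit 9315074507) (nat_lit 608) (nat_lit 978254746) (nat_lit 684) (nat_lit 13597979762) (nat_lit 272) (nat_lit 5) (nat_lit 280) (nat_lit 5) (nat_lit 281) (nat_lit 5) (nat_lit 636) (nat_lit 577) (nat_lit 347)) (XT.lf (nat_lit 0) (nat_lit 14764104762) (nat_lit 684) (nat_lit 572660213) (nat_lit 76) (nat_lit 8832773760) (nat_lit 272) (nat_lit 5) (nat_lit 281) (nat_lit 5) (nat_lit 273) (nat_lit 5) (nat_lit 637) (nat_lit 577) (nat_lit 346)))) (XT.nd (nat_lit 78) (nat_lit 684) (nat_lit 0) (XT.lf (nat_lit 0) (nat_lit 13881064442) (nat_lit 532) (nat_lit 5535622048) (nat_lit 608) (nat_lit 5034798839) (nat_lit 265) (nat_lit 5) (nat_lit 272) (nat_lit 5) (nat_lit 273) (nat_lit 5) (nat_lit 638) (nat_lit 577) (nat_lit 345)) (XT.nd (nat_lit 78) (nat_lit 76) (nat_lit 0) (XT.lf (nat_lit 0) (nat_lit 3909377460) (nat_lit 608) (nat_lit 20306986154) (nat_lit 684) (nat_lit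 521626457) (nat_lit 257) (nat_lit 5) (nat_lit 265) (nat_lit 5) (nat_lit 266) (nat_lit 5) (nat_lit 639) (nat_lit 577) (nat_lit 344)) (XT.lf (nat_lit 0) (nat_lit 4132182911) (nat_lit 684) (nat_lit 6275933984) (nat_lit 76) (nat_lit 14619499922) (nat_lit 256) (nat_lit 5) (nat_lit 265) (nat_lit 5) (nat_lit 257) (nat_lit 5) (nat_lit 640) (nat_lit 577) (nat_lit 343))))))))
noncomputable def xc163 : XT := (XT.nd (nat_lit 1560) (nat_lit 1976) (nat_lit 0) (XT.nd (nat_lit 780) (nat_lit 2660) (nat_lit 0) (XT.nd (nat_lit 390) (nat_lit 1520) (nat_lit 0) (XT.nd (nat_lit 156) (nat_lit 1064) (nat_lit 0) (XT.nd (nat_lit 78) (nat_lit 0) (nat_lit 0) (XT.lf (nat_lit 0) (nat_lit 8672642858) (nat_lit 532) (nat_lit 251682199) (nat_lit 608) (nat_lit 16397597343) (nat_lit 249) (nat_lit 5) (nat_lit 256) (nat_lit 5) (nat_lit 257) (nat_lit 5) (nat_lit 641) (nat_lit 577) (nat_lit 342)) (XT.lf (nat_lit 0) (nat_lit 13916292745) (nat_lit 608) (nat_lit 1687394644) (nat_lit 76) (nat_lit 10016347137) (nat_lit 249) (nat_lit 5) (nat_lit 257)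 (nat_lit 5) (nat_lit 250) (nat_lit 5) (nat_lit 642) (nat_lit 577) (nat_lit 341))) (XT.nd (nat_lit 78) (nat_lit 532) (nat_lit 0) (XT.lf (nat_lit 0) (nat_lit 13746982740) (nat_lit 532) (nat_lit 5348079425) (nat_lit 608) (nat_lit 6827307566) (nat_lit 242) (nat_lit 5) (nat_lit 249) (nat_lit 5) (nat_lit 250) (nat_lit 5) (nat_lit 643) (nat_lit 577) (nat_lit 340)) (XT.nd (nat_lit 78) (nat_lit 76) (nat_lit 0) (XT.lf (nat_lit 0) (nat_lit 3286826839) (nat_lit 456) (nat_lit 21152588168) (nat_lit 532) (nat_lit 1790096551) (nat_lit 236) (nat_lit 5) (nat_lit 242) (nat_lit 5) (nat_lit 243) (nat_lit 5) (nat_lit 644) (nat_lit 577) (nat_lit 339)) (XT.lf (nat_lit 0) (nat_lit 3417704117) (nat_lit 532) (nat_lit 7380954858) (nat_lit 76) (nat_lit 15741427533) (nat_lit 235) (nat_lit 5) (nat_lit 242) (nat_lit 5) (nat_lit 236) (nat_lit 5) (nat_lit 645) (nat_lit 577) (nat_lit 338))))) (XT.nd (nat_lit 156) (nat_lit 988) (nat_lit 0) (XT.nd (nat_lit 78) (nat_lit 0) (nat_lit 0) (XT.lf (nat_lit 0) (nat_lit 8587464251) (nat_lit 532) (nat_lit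 170172845) (nat_lit 608) (nat_lit 18097960373) (nat_lit 228) (nat_lit 5) (nat_lit 235) (nat_lit 5) (nat_lit 236) (nat_lit 5) (nat_lit 646) (nat_lit 577) (nat_lit 337)) (XT.lf (nat_lit 0) (nat_lit 14319708233) (nat_lit 608) (nat_lit 2276083778) (nat_lit 76) (nat_lit 10579319922) (nat_lit 228) (nat_lit 5) (nat_lit 236) (nat_lit 5) (nat_lit 229) (nat_lit 5) (nat_lit 647) (nat_lit 577) (nat_lit 336))) (XT.nd (nat_lit 78) (nat_lit 532) (nat_lit 0) (XT.lf (nat_lit 0) (nat_lit 14215880572) (nat_lit 456) (nat_lit 5866839593) (nat_lit 532) (nat_lit 7416502609) (nat_lit 222) (nat_lit 5) (nat_lit 228) (nat_lit 5) (nat_lit 229) (nat_lit 5) (nat_lit 648) (nat_lit 577) (nat_lit 335)) (XT.nd (nat_lit 78) (nat_lit 76) (nat_lit 0) (XT.lf (nat_lit 0) (nat_lit 3243227493) (nat_lit 456) (nat_lit 22783460998) (nat_lit 532) (nat_lit 1801813489) (nat_lit 216) (nat_lit 5) (nat_lit 222) (nat_lit 5) (nat_lit 223) (nat_lit 5) (nat_lit 649) (nat_lit 577) (nat_lit 334)) (XT.lf (nat_lit 0) (nat_lit 3998588925) (nat_lit 532) (nat_lit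 7952411301) (nat_lit 76) (nat_lit 16210358940) (nat_lit 215) (nat_lit 5) (nat_lit 222) (nat_lit 5) (nat_lit 216) (nat_lit 5) (nat_lit 650) (nat_lit 577) (nat_lit 333)))))) (XT.nd (nat_lit 390) (nat_lit 1292) (nat_lit 0) (XT.nd (nat_lit 156) (nat_lit 912) (nat_lit 0) (XT.nd (nat_lit 78) (nat_lit 0) (nat_lit 0) (XT.lf (nat_lit 0) (nat_lit 9115545577) (nat_lit 456) (nat_lit 830923501) (nat_lit 532) (nat_lit 18553054368) (nat_lit 209) (nat_lit 5) (nat_lit 215) (nat_lit 5) (nat_lit 216) (nat_lit 5) (nat_lit 651) (nat_lit 577) (nat_lit 332)) (XT.lf (nat_lit 0) (nat_lit 16131689487) (nat_lit 532) (nat_lit 2284536745) (nat_lit 76) (nat_lit 10425857194) (nat_lit 209) (nat_lit 5) (nat_lit 216) (nat_lit 5) (nat_lit 210) (nat_lit 5) (nat_lit 652) (nat_lit 577) (nat_lit 331))) (XT.nd (nat_lit 78) (nat_lit 456) (nat_lit 0) (XT.lf (nat_lit 0) (nat_lit 15347568422) (nat_lit 456) (nat_lit 7194681937) (nat_lit 532) (nat_lit 6647211590) (nat_lit 203) (nat_lit 5) (nat_lit 209) (nat_lit 5) (nat_lit 210) (nat_lit 5) (nat_lit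 653) (nat_lit 577) (nat_lit 330)) (XT.nd (nat_lit 78) (nat_lit 76) (nat_lit 0) (XT.lf (nat_lit 0) (nat_lit 3837291044) (nat_lit 380) (nat_lit 25308192059) (nat_lit 456) (nat_lit 397015790) (nat_lit 198) (nat_lit 5) (nat_lit 203) (nat_lit 5) (nat_lit 204) (nat_lit 5) (nat_lit 654) (nat_lit 577) (nat_lit 329)) (XT.lf (nat_lit 0) (nat_lit 6037451980) (nat_lit 456) (nat_lit 7935271614) (nat_lit 76) (nat_lit 15926343297) (nat_lit 197) (nat_lit 5) (nat_lit 203) (nat_lit 5) (nat_lit 198) (nat_lit 5) (nat_lit 655) (nat_lit 577) (nat_lit 328))))) (XT.nd (nat_lit 156) (nat_lit 836) (nat_lit 0) (XT.nd (nat_lit 78) (nat_lit 0) (nat_lit 0) (XT.lf (nat_lit 0) (nat_lit 10317707390) (nat_lit 456) (nat_lit 2341172768) (nat_lit 532) (nat_lit 17602561925) (nat_lit 191) (nat_lit 5) (nat_lit 197) (nat_lit 5) (nat_lit 198) (nat_lit 5) (nat_lit 656) (nat_lit 577) (nat_lit 327)) (XT.lf (nat_lit 0) (nat_lit 19524785439) (nat_lit 532) (nat_lit 1653940434) (nat_lit 76) (nat_lit 9450097992) (nat_lit 191) (nat_lit 5) (nat_lit 198) (nat_lit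 5) (nat_lit 192) (nat_lit 5) (nat_lit 657) (nat_lit 577) (nat_lit 326))) (XT.nd (nat_lit 78) (nat_lit 456) (nat_lit 0) (XT.lf (nat_lit 0) (nat_lit 17206846549) (nat_lit 380) (nat_lit 9445067689) (nat_lit 456) (nat_lit 4349160997) (nat_lit 186) (nat_lit 5) (nat_lit 191) (nat_lit 5) (nat_lit 192) (nat_lit 5) (nat_lit 658) (nat_lit 577) (nat_lit 325)) (XT.nd (nat_lit 78) (nat_lit 0) (nat_lit 0) (XT.lf (nat_lit 0) (nat_lit 2565456168) (nat_lit 456) (nat_lit 26263912122) (nat_lit 76) (nat_lit 2549914156) (nat_lit 180) (nat_lit 5) (nat_lit 186) (nat_lit 5) (nat_lit 181) (nat_lit 5) (nat_lit 659) (nat_lit 577) (nat_lit 324)) (XT.lf (nat_lit 0) (nat_lit 9712630230) (nat_lit 456) (nat_lit 7270025055) (nat_lit 76) (nat_lit 14778773615) (nat_lit 180) (nat_lit 5) (nat_lit 186) (nat_lit 5) (nat_lit 181) (nat_lit 5) (nat_lit 660) (nat_lit 577) (nat_lit 323))))))) (XT.nd (nat_lit 74880) (nat_lit 0) (nat_lit 26752) (XT.nd (nat_lit 390) (nat_lit 760) (nat_lit 0) (XT.nd (nat_lit 156) (nat_lit 836) (nat_lit 0) (XT.nd (nat_lit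 78) (nat_lit 0) (nat_lit 0) (XT.lf (nat_lit 0) (nat_lit 12259622226) (nat_lit 380) (nat_lit 4819503253) (nat_lit 456) (nat_lit 15070565306) (nat_lit 175) (nat_lit 5) (nat_lit 180) (nat_lit 5) (nat_lit 181) (nat_lit 5) (nat_lit 661) (nat_lit 577) (nat_lit 322)) (XT.lf (nat_lit 0) (nat_lit 24688119346) (nat_lit 456) (nat_lit 320840279) (nat_lit 76) (nat_lit 7534854958) (nat_lit 175) (nat_lit 5) (nat_lit 181) (nat_lit 5) (nat_lit 176) (nat_lit 5) (nat_lit 662) (nat_lit 577) (nat_lit 321))) (XT.nd (nat_lit 78) (nat_lit 456) (nat_lit 0) (XT.lf (nat_lit 0) (nat_lit 19863540509) (nat_lit 380) (nat_lit 12743500505) (nat_lit 456) (nat_lit 335624937) (nat_lit 170) (nat_lit 5) (nat_lit 175) (nat_lit 5) (nat_lit 176) (nat_lit 5) (nat_lit 663) (nat_lit 577) (nat_lit 320)) (XT.nd (nat_lit 78) (nat_lit 0) (nat_lit 0) (XT.lf (nat_lit 0) (nat_lit 7147775556) (nat_lit 380) (nat_lit 136321883) (nat_lit 456) (nat_lit 26063535534) (nat_lit 164) (nat_lit 5) (nat_lit 169) (nat_lit 5) (nat_lit 170) (nat_lit 5) (nat_lit 664) (nat_lit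 577) (nat_lit 319)) (XT.lf (nat_lit 0) (nat_lit 15219571802) (nat_lit 456) (nat_lit 5892706105) (nat_lit 76) (nat_lit 12645020075) (nat_lit 164) (nat_lit 5) (nat_lit 170) (nat_lit 5) (nat_lit 165) (nat_lit 5) (nat_lit 665) (nat_lit 577) (nat_lit 318))))) (XT.nd (nat_lit 156) (nat_lit 76) (nat_lit 0) (XT.nd (nat_lit 78) (nat_lit 304) (nat_lit 0) (XT.lf (nat_lit 0) (nat_lit 15011805609) (nat_lit 380) (nat_lit 8397272514) (nat_lit 456) (nat_lit 10764171766) (nat_lit 159) (nat_lit 5) (nat_lit 164) (nat_lit 5) (nat_lit 165) (nat_lit 5) (nat_lit 666) (nat_lit 577) (nat_lit 317)) (XT.lf (nat_lit 0) (nat_lit 1806520755) (nat_lit 304) (nat_lit 30034043635) (nat_lit 380) (nat_lit 2755392696) (nat_lit 155) (nat_lit 5) (nat_lit 159) (nat_lit 5) (nat_lit 160) (nat_lit 5) (nat_lit 667) (nat_lit 577) (nat_lit 316))) (XT.nd (nat_lit 74178) (nat_lit 0) (nat_lit 26752) (XT.lf (nat_lit 0) (nat_lit 5524587740) (nat_lit 380) (nat_lit 11667363348) (nat_lit 76) (nat_lit 17830823903) (nat_lit 154) (nat_lit 5) (nat_lit 159) (nat_lit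 5) (nat_lit 155) (nat_lit 5) (nat_lit 668) (nat_lit 577) (nat_lit 315)) (XT.nd (nat_lit 78) (nat_lit 0) (nat_lit 0) (XT.lf (nat_lit 0) (nat_lit 699082907) (nat_lit 0) (nat_lit 699082907) (nat_lit 1748) (nat_lit 5138446509) (nat_lit 506) (nat_lit 5) (nat_lit 506) (nat_lit 3) (nat_lit 529) (nat_lit 3) (nat_lit 578) (nat_lit 578) (nat_lit 404)) (XT.lf (nat_lit 0) (nat_lit 3254782909) (nat_lit 1748) (nat_lit 5193004554) (nat_lit 1824) (nat_lit 4747547266) (nat_lit 506) (nat_lit 5) (nat_lit 529) (nat_lit 3) (nat_lit 530) (nat_lit 5) (nat_lit 579) (nat_lit 578) (nat_lit 403)))))) (XT.nd (nat_lit 390) (nat_lit 0) (nat_lit 228) (XT.nd (nat_lit 156) (nat_lit 0) (nat_lit 76) (XT.nd (nat_lit 78) (nat_lit 0) (nat_lit 76) (XT.lf (nat_lit 76) (nat_lit 1422609145) (nat_lit 0) (nat_lit 2307851386) (nat_lit 1824) (nat_lit 9589265659) (nat_lit 507) (nat_lit 5) (nat_lit 506) (nat_lit 5) (nat_lit 530) (nat_lit 5) (nat_lit 580) (nat_lit 578) (nat_lit 402)) (XT.lf (nat_lit 0) (nat_lit 4266170086) (nat_lit 1748) (nat_lit 5236570414)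 (nat_lit 1824) (nat_lit 3942854934) (nat_lit 507) (nat_lit 5) (nat_lit 530) (nat_lit 5) (nat_lit 531) (nat_lit 5) (nat_lit 581) (nat_lit 578) (nat_lit 401))) (XT.nd (nat_lit 78) (nat_lit 0) (nat_lit 76) (XT.lf (nat_lit 76) (nat_lit 1556750783) (nat_lit 0) (nat_lit 3271197114) (nat_lit 1824) (nat_lit 8745727395) (nat_lit 508) (nat_lit 5) (nat_lit 507) (nat_lit 5) (nat_lit 531) (nat_lit 5) (nat_lit 582) (nat_lit 578) (nat_lit 400)) (XT.nd (nat_lit 78) (nat_lit 0) (nat_lit 0) (XT.lf (nat_lit 0) (nat_lit 5446515748) (nat_lit 1748) (nat_lit 5172713926) (nat_lit 1824) (nat_lit 3084176291) (nat_lit 508) (nat_lit 5) (nat_lit 531) (nat_lit 5) (nat_lit 532) (nat_lit 5) (nat_lit 583) (nat_lit 578) (nat_lit 399)) (XT.lf (nat_lit 76) (nat_lit 1804740693) (nat_lit 0) (nat_lit 4296440399) (nat_lit 1824) (nat_lit 7734075938) (nat_lit 509) (nat_lit 5) (nat_lit 508) (nat_lit 5) (nat_lit 532) (nat_lit 5) (nat_lit 584) (nat_lit 578) (nat_lit 398))))) (XT.nd (nat_lit 234) (nat_lit 0) (nat_lit 76) (XT.nd (nat_lit 78) (nat_lit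 0) (nat_lit 0) (XT.lf (nat_lit 0) (nat_lit 6808381869) (nat_lit 1748) (nat_lit 4997220879) (nat_lit 1824) (nat_lit 2163353818) (nat_lit 509) (nat_lit 5) (nat_lit 532) (nat_lit 5) (nat_lit 533) (nat_lit 5) (nat_lit 585) (nat_lit 578) (nat_lit 397)) (XT.nd (nat_lit 78) (nat_lit 0) (nat_lit 76) (XT.lf (nat_lit 76) (nat_lit 2171050580) (nat_lit 0) (nat_lit 5391934229) (nat_lit 1824) (nat_lit 6541680413) (nat_lit 510) (nat_lit 5) (nat_lit 509) (nat_lit 5) (nat_lit 533) (nat_lit 5) (nat_lit 586) (nat_lit 578) (nat_lit 396)) (XT.lf (nat_lit 0) (nat_lit 8364779374) (nat_lit 1748) (nat_lit 4705558503) (nat_lit 1824) (nat_lit 1172108465) (nat_lit 510) (nat_lit 5) (nat_lit 533) (nat_lit 5) (nat_lit 534) (nat_lit 5) (nat_lit 587) (nat_lit 578) (nat_lit 395)))) (XT.nd (nat_lit 78) (nat_lit 0) (nat_lit 76) (XT.lf (nat_lit 76) (nat_lit 2660479969) (nat_lit 0) (nat_lit 6566167411) (nat_lit 1824) (nat_lit 5155455231) (nat_lit 511) (nat_lit 5) (nat_lit 510) (nat_lit 5) (nat_lit 534) (nat_lit 5) (nat_lit 588) (nat_lit 578)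 (nat_lit 394)) (XT.nd (nat_lit 78) (nat_lit 0) (nat_lit 0) (XT.lf (nat_lit 0) (nat_lit 10129194683) (nat_lit 1748) (nat_lit 4292869121) (nat_lit 1824) (nat_lit 102019635) (nat_lit 511) (nat_lit 5) (nat_lit 534) (nat_lit 5) (nat_lit 535) (nat_lit 5) (nat_lit 589) (nat_lit 578) (nat_lit 393)) (XT.lf (nat_lit 76) (nat_lit 3278162961) (nat_lit 0) (nat_lit 7827784788) (nat_lit 1824) (nat_lit 3561833304) (nat_lit 512) (nat_lit 5) (nat_lit 511) (nat_lit 5) (nat_lit 535) (nat_lit 5) (nat_lit 590) (nat_lit 578) (nat_lit 392))))))))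
noncomputable def xc164 : XT := (XT.nd (nat_lit 3900) (nat_lit 5852) (nat_lit 0) (XT.nd (nat_lit 3120) (nat_lit 3648) (nat_lit 0) (XT.nd (nat_lit 390) (nat_lit 13984) (nat_lit 0) (XT.nd (nat_lit 156) (nat_lit 1672) (nat_lit 0) (XT.nd (nat_lit 78) (nat_lit 0) (nat_lit 76) (XT.lf (nat_lit 76) (nat_lit 11053039199) (nat_lit 0) (nat_lit 1069521797) (nat_lit 1824) (nat_lit 2691385384) (nat_lit 512) (nat_lit 5) (nat_lit 511) (nat_lit 5) (nat_lit 535) (nat_lit 5) (nat_lit 591) (nat_lit 578) (nat_lit 391)) (XT.lf (nat_lit 76) (nat_lit 4029575664) (nat_lit 0) (nat_lit 9185607492) (nat_lit 1824) (nat_lit 1746738580) (nat_lit 513) (nat_lit 5) (nat_lit 512) (nat_lit 5) (nat_lit 536) (nat_lit 5) (nat_lit 592) (nat_lit 578) (nat_lit 390))) (XT.nd (nat_lit 78) (nat_lit 1748) (nat_lit 0) (XT.lf (nat_lit 76) (nat_lit 12013871383) (nat_lit 0) (nat_lit 2339886744) (nat_lit 1824) (nat_lit 758616718) (nat_lit 513) (nat_lit 5) (nat_lit 512) (nat_lit 5) (nat_lit 536) (nat_lit 5) (nat_lit 593) (nat_lit 578) (nat_lit 389)) (XT.nd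 (nat_lit 78) (nat_lit 0) (nat_lit 0) (XT.lf (nat_lit 0) (nat_lit 300449367) (nat_lit 1824) (nat_lit 10346187744) (nat_lit 1900) (nat_lit 4618078759) (nat_lit 489) (nat_lit 5) (nat_lit 513) (nat_lit 5) (nat_lit 514) (nat_lit 5) (nat_lit 594) (nat_lit 578) (nat_lit 388)) (XT.lf (nat_lit 0) (nat_lit 1399042969) (nat_lit 1824) (nat_lit 2308372876) (nat_lit 1900) (nat_lit 11712017735) (nat_lit 489) (nat_lit 5) (nat_lit 513) (nat_lit 5) (nat_lit 514) (nat_lit 5) (nat_lit 595) (nat_lit 578) (nat_lit 387))))) (XT.nd (nat_lit 156) (nat_lit 14060) (nat_lit 0) (XT.nd (nat_lit 78) (nat_lit 0) (nat_lit 0) (XT.lf (nat_lit 0) (nat_lit 2572698612) (nat_lit 1824) (nat_lit 9636194244) (nat_lit 1900) (nat_lit 3367291219) (nat_lit 490) (nat_lit 5) (nat_lit 514) (nat_lit 5) (nat_lit 515) (nat_lit 5) (nat_lit 596) (nat_lit 578) (nat_lit 386)) (XT.lf (nat_lit 0) (nat_lit 3802323879) (nat_lit 1824) (nat_lit 1381744395) (nat_lit 1900) (nat_lit 10551351603) (nat_lit 490) (nat_lit 5) (nat_lit 514) (nat_lit 5) (nat_lit 515) (nat_lit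 5) (nat_lit 597) (nat_lit 578) (nat_lit 385))) (XT.nd (nat_lit 2418) (nat_lit 14136) (nat_lit 0) (XT.lf (nat_lit 0) (nat_lit 5108486564) (nat_lit 1824) (nat_lit 8784824098) (nat_lit 1900) (nat_lit 2003491058) (nat_lit 491) (nat_lit 5) (nat_lit 515) (nat_lit 5) (nat_lit 516) (nat_lit 5) (nat_lit 598) (nat_lit 578) (nat_lit 384)) (XT.nd (nat_lit 78) (nat_lit 684) (nat_lit 0) (XT.lf (nat_lit 0) (nat_lit 1972367879) (nat_lit 760) (nat_lit 5762877223) (nat_lit 76) (nat_lit 14494021367) (nat_lit 314) (nat_lit 5) (nat_lit 324) (nat_lit 5) (nat_lit 315) (nat_lit 5) (nat_lit 629) (nat_lit 578) (nat_lit 353)) (XT.lf (nat_lit 0) (nat_lit 5601422233) (nat_lit 760) (nat_lit 15281594353) (nat_lit 76) (nat_lit 1600126623) (nat_lit 305) (nat_lit 5) (nat_lit 315) (nat_lit 5) (nat_lit 306) (nat_lit 5) (nat_lit 630) (nat_lit 578) (nat_lit 352)))))) (XT.nd (nat_lit 390) (nat_lit 1748) (nat_lit 0) (XT.nd (nat_lit 156) (nat_lit 1292) (nat_lit 0) (XT.nd (nat_lit 78) (nat_lit 608) (nat_lit 0) (XT.lf (nat_lit 0) (nat_lit 9388675104)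 (nat_lit 760) (nat_lit 2294988613) (nat_lit 76) (nat_lit 11056721527) (nat_lit 305) (nat_lit 5) (nat_lit 315) (nat_lit 5) (nat_lit 306) (nat_lit 5) (nat_lit 631) (nat_lit 578) (nat_lit 351)) (XT.lf (nat_lit 0) (nat_lit 11091361055) (nat_lit 608) (nat_lit 2227876013) (nat_lit 684) (nat_lit 9682183877) (nat_lit 297) (nat_lit 5) (nat_lit 305) (nat_lit 5) (nat_lit 306) (nat_lit 5) (nat_lit 632) (nat_lit 578) (nat_lit 350))) (XT.nd (nat_lit 78) (nat_lit 684) (nat_lit 0) (XT.lf (nat_lit 0) (nat_lit 1474762158) (nat_lit 608) (nat_lit 15922479066) (nat_lit 684) (nat_lit 5869059619) (nat_lit 289) (nat_lit 5) (nat_lit 297) (nat_lit 5) (nat_lit 298) (nat_lit 5) (nat_lit 633) (nat_lit 578) (nat_lit 349)) (XT.nd (nat_lit 78) (nat_lit 684) (nat_lit 0) (XT.lf (nat_lit 0) (nat_lit 15268311696) (nat_lit 608) (nat_lit 6378721467) (nat_lit 684) (nat_lit 1887640723) (nat_lit 289) (nat_lit 5) (nat_lit 297) (nat_lit 5) (nat_lit 298) (nat_lit 5) (nat_lit 634) (nat_lit 578) (nat_lit 348)) (XT.lf (nat_lit 0) (nat_lit 2198970462)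 (nat_lit 684) (nat_lit 18246592146) (nat_lit 76) (nat_lit 3361488285) (nat_lit 280) (nat_lit 5) (nat_lit 289) (nat_lit 5) (nat_lit 281) (nat_lit 5) (nat_lit 635) (nat_lit 578) (nat_lit 347))))) (XT.nd (nat_lit 156) (nat_lit 1140) (nat_lit 0) (XT.nd (nat_lit 78) (nat_lit 608) (nat_lit 0) (XT.lf (nat_lit 0) (nat_lit 6435890973) (nat_lit 684) (nat_lit 4368463519) (nat_lit 76) (nat_lit 13278394445) (nat_lit 280) (nat_lit 5) (nat_lit 289) (nat_lit 5) (nat_lit 281) (nat_lit 5) (nat_lit 636) (nat_lit 578) (nat_lit 346)) (XT.lf (nat_lit 0) (nat_lit 9911875821) (nat_lit 608) (nat_lit 905858734) (nat_lit 684) (nat_lit 13545022786) (nat_lit 272) (nat_lit 5) (nat_lit 280) (nat_lit 5) (nat_lit 281) (nat_lit 5) (nat_lit 637) (nat_lit 578) (nat_lit 345))) (XT.nd (nat_lit 78) (nat_lit 1140) (nat_lit 0) (XT.lf (nat_lit 0) (nat_lit 15372265083) (nat_lit 684) (nat_lit 175995176) (nat_lit 76) (nat_lit 9098404746) (nat_lit 272) (nat_lit 5) (nat_lit 281) (nat_lit 5) (nat_lit 273) (nat_lit 5) (nat_lit 638) (nat_lit 578) (nat_lit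 344)) (XT.nd (nat_lit 78) (nat_lit 608) (nat_lit 0) (XT.lf (nat_lit 0) (nat_lit 14564118984) (nat_lit 532) (nat_lit 5550276936) (nat_lit 608) (nat_lit 4819924798) (nat_lit 265) (nat_lit 5) (nat_lit 272) (nat_lit 5) (nat_lit 273) (nat_lit 5) (nat_lit 639) (nat_lit 578) (nat_lit 343)) (XT.lf (nat_lit 0) (nat_lit 4395864939) (nat_lit 608) (nat_lit 20611397852) (nat_lit 684) (nat_lit 219348973) (nat_lit 257) (nat_lit 5) (nat_lit 265) (nat_lit 5) (nat_lit 266) (nat_lit 5) (nat_lit 640) (nat_lit 578) (nat_lit 342))))))) (XT.nd (nat_lit 780) (nat_lit 2736) (nat_lit 0) (XT.nd (nat_lit 390) (nat_lit 1520) (nat_lit 0) (XT.nd (nat_lit 156) (nat_lit 988) (nat_lit 0) (XT.nd (nat_lit 78) (nat_lit 532) (nat_lit 0) (XT.lf (nat_lit 0) (nat_lit 4517384182) (nat_lit 684) (nat_lit 5997131372) (nat_lit 76) (nat_lit 15007596035) (nat_lit 256) (nat_lit 5) (nat_lit 265) (nat_lit 5) (nat_lit 257) (nat_lit 5) (nat_lit 641) (nat_lit 578) (nat_lit 341)) (XT.lf (nat_lit 0) (nat_lit 9247756999) (nat_lit 532) (nat_lit 154287522) (nat_lit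 608) (nat_lit 16420325382) (nat_lit 249) (nat_lit 5) (nat_lit 256) (nat_lit 5) (nat_lit 257) (nat_lit 5) (nat_lit 642) (nat_lit 578) (nat_lit 340))) (XT.nd (nat_lit 78) (nat_lit 988) (nat_lit 0) (XT.lf (nat_lit 0) (nat_lit 14488636242) (nat_lit 608) (nat_lit 1322135481) (nat_lit 76) (nat_lit 10315776978) (nat_lit 249) (nat_lit 5) (nat_lit 257) (nat_lit 5) (nat_lit 250) (nat_lit 5) (nat_lit 643) (nat_lit 578) (nat_lit 339)) (XT.nd (nat_lit 78) (nat_lit 456) (nat_lit 0) (XT.lf (nat_lit 0) (nat_lit 14418304404) (nat_lit 532) (nat_lit 5349485170) (nat_lit 608) (nat_lit 6667204986) (nat_lit 242) (nat_lit 5) (nat_lit 249) (nat_lit 5) (nat_lit 250) (nat_lit 5) (nat_lit 644) (nat_lit 578) (nat_lit 338)) (XT.lf (nat_lit 0) (nat_lit 3751441039) (nat_lit 456) (nat_lit 21465147639) (nat_lit 532) (nat_lit 1531739481) (nat_lit 236) (nat_lit 5) (nat_lit 242) (nat_lit 5) (nat_lit 243) (nat_lit 5) (nat_lit 645) (nat_lit 578) (nat_lit 337))))) (XT.nd (nat_lit 156) (nat_lit 912) (nat_lit 0) (XT.nd (nat_lit 78) (nat_lit 532)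 (nat_lit 0) (XT.lf (nat_lit 0) (nat_lit 3770667076) (nat_lit 532) (nat_lit 7133729426) (nat_lit 76) (nat_lit 16160793865) (nat_lit 235) (nat_lit 5) (nat_lit 242) (nat_lit 5) (nat_lit 236) (nat_lit 5) (nat_lit 646) (nat_lit 578) (nat_lit 336)) (XT.lf (nat_lit 0) (nat_lit 9151460403) (nat_lit 532) (nat_lit 62904471) (nat_lit 608) (nat_lit 18172707461) (nat_lit 228) (nat_lit 5) (nat_lit 235) (nat_lit 5) (nat_lit 236) (nat_lit 5) (nat_lit 647) (nat_lit 578) (nat_lit 335))) (XT.nd (nat_lit 78) (nat_lit 912) (nat_lit 0) (XT.lf (nat_lit 0) (nat_lit 14882860821) (nat_lit 608) (nat_lit 1932227615) (nat_lit 76) (nat_lit 10897985094) (nat_lit 228) (nat_lit 5) (nat_lit 236) (nat_lit 5) (nat_lit 229) (nat_lit 5) (nat_lit 648) (nat_lit 578) (nat_lit 334)) (XT.nd (nat_lit 78) (nat_lit 456) (nat_lit 0) (XT.lf (nat_lit 0) (nat_lit 14887014325) (nat_lit 456) (nat_lit 5871203497) (nat_lit 532) (nat_lit 7285507176) (nat_lit 222) (nat_lit 5) (nat_lit 228) (nat_lit 5) (nat_lit 229) (nat_lit 5) (nat_lit 649) (nat_lit 578) (nat_lit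 333)) (XT.lf (nat_lit 0) (nat_lit 3697080836) (nat_lit 456) (nat_lit 23121859889) (nat_lit 532) (nat_lit 1560691664) (nat_lit 216) (nat_lit 5) (nat_lit 222) (nat_lit 5) (nat_lit 223) (nat_lit 5) (nat_lit 650) (nat_lit 578) (nat_lit 332)))))) (XT.nd (nat_lit 390) (nat_lit 1368) (nat_lit 0) (XT.nd (nat_lit 156) (nat_lit 836) (nat_lit 0) (XT.nd (nat_lit 78) (nat_lit 456) (nat_lit 0) (XT.lf (nat_lit 0) (nat_lit 4346720622) (nat_lit 532) (nat_lit 7726529205) (nat_lit 76) (nat_lit 16645968269) (nat_lit 215) (nat_lit 5) (nat_lit 222) (nat_lit 5) (nat_lit 216) (nat_lit 5) (nat_lit 651) (nat_lit 578) (nat_lit 331)) (XT.lf (nat_lit 0) (nat_lit 9680254375) (nat_lit 456) (nat_lit 730528746) (nat_lit 532) (nat_lit 18653418144) (nat_lit 209) (nat_lit 5) (nat_lit 215) (nat_lit 5) (nat_lit 216) (nat_lit 5) (nat_lit 652) (nat_lit 578) (nat_lit 330))) (XT.nd (nat_lit 78) (nat_lit 836) (nat_lit 0) (XT.lf (nat_lit 0) (nat_lit 16715249148) (nat_lit 532) (nat_lit 1950863942) (nat_lit 76) (nat_lit 10747588627) (nat_lit 209) (nat_lit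 5) (nat_lit 216) (nat_lit 5) (nat_lit 210) (nat_lit 5) (nat_lit 653) (nat_lit 578) (nat_lit 329)) (XT.nd (nat_lit 78) (nat_lit 380) (nat_lit 0) (XT.lf (nat_lit 0) (nat_lit 16031387516) (nat_lit 456) (nat_lit 7219964403) (nat_lit 532) (nat_lit 6516729373) (nat_lit 203) (nat_lit 5) (nat_lit 209) (nat_lit 5) (nat_lit 210) (nat_lit 5) (nat_lit 654) (nat_lit 578) (nat_lit 328)) (XT.lf (nat_lit 0) (nat_lit 4292796045) (nat_lit 380) (nat_lit 25692003578) (nat_lit 456) (nat_lit 143416440) (nat_lit 198) (nat_lit 5) (nat_lit 203) (nat_lit 5) (nat_lit 204) (nat_lit 5) (nat_lit 655) (nat_lit 578) (nat_lit 327))))) (XT.nd (nat_lit 234) (nat_lit 836) (nat_lit 0) (XT.nd (nat_lit 78) (nat_lit 456) (nat_lit 0) (XT.lf (nat_lit 0) (nat_lit 6411249574) (nat_lit 456) (nat_lit 7719277146) (nat_lit 76) (nat_lit 16361456049) (nat_lit 197) (nat_lit 5) (nat_lit 203) (nat_lit 5) (nat_lit 198) (nat_lit 5) (nat_lit 656) (nat_lit 578) (nat_lit 326)) (XT.nd (nat_lit 78) (nat_lit 0) (nat_lit 0) (XT.lf (nat_lit 0) (nat_lit 10896296308)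 (nat_lit 456) (nat_lit 2266265067) (nat_lit 532) (nat_lit 17699095076) (nat_lit 191) (nat_lit 5) (nat_lit 197) (nat_lit 5) (nat_lit 198) (nat_lit 5) (nat_lit 657) (nat_lit 578) (nat_lit 325)) (XT.lf (nat_lit 0) (nat_lit 20161647788) (nat_lit 532) (nat_lit 1317941905) (nat_lit 76) (nat_lit 9756879002) (nat_lit 191) (nat_lit 5) (nat_lit 198) (nat_lit 5) (nat_lit 192) (nat_lit 5) (nat_lit 658) (nat_lit 578) (nat_lit 324)))) (XT.nd (nat_lit 78) (nat_lit 456) (nat_lit 0) (XT.lf (nat_lit 0) (nat_lit 17917632677) (nat_lit 380) (nat_lit 9511236297) (nat_lit 456) (nat_lit 4187345206) (nat_lit 186) (nat_lit 5) (nat_lit 191) (nat_lit 5) (nat_lit 192) (nat_lit 5) (nat_lit 659) (nat_lit 578) (nat_lit 323)) (XT.nd (nat_lit 78) (nat_lit 0) (nat_lit 0) (XT.lf (nat_lit 0) (nat_lit 2860680296) (nat_lit 456) (nat_lit 26417648947) (nat_lit 76) (nat_lit 2723656486) (nat_lit 180) (nat_lit 5) (nat_lit 186) (nat_lit 5) (nat_lit 181) (nat_lit 5) (nat_lit 660) (nat_lit 578) (nat_lit 322)) (XT.lf (nat_lit 0) (nat_lit 10146015193)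 (nat_lit 456) (nat_lit 7051169264) (nat_lit 76) (nat_lit 15194686388) (nat_lit 180) (nat_lit 5) (nat_lit 186) (nat_lit 5) (nat_lit 181) (nat_lit 5) (nat_lit 661) (nat_lit 578) (nat_lit 321))))))))
noncomputable def xc165 : XT := (XT.nd (nat_lit 75660) (nat_lit 0) (nat_lit 7752) (XT.nd (nat_lit 74880) (nat_lit 0) (nat_lit 26752) (XT.nd (nat_lit 390) (nat_lit 760) (nat_lit 0) (XT.nd (nat_lit 156) (nat_lit 456) (nat_lit 0) (XT.nd (nat_lit 78) (nat_lit 380) (nat_lit 0) (XT.lf (nat_lit 0) (nat_lit 12866674539) (nat_lit 380) (nat_lit 4790826370) (nat_lit 456) (nat_lit 15130443923) (nat_lit 175) (nat_lit 5) (nat_lit 180) (nat_lit 5) (nat_lit 181) (nat_lit 5) (nat_lit 662) (nat_lit 578) (nat_lit 320)) (XT.lf (nat_lit 0) (nat_lit 31774961) (nat_lit 380) (nat_lit 25383259095) (nat_lit 456) (nat_lit 7774989941) (nat_lit 170) (nat_lit 5) (nat_lit 175) (nat_lit 5) (nat_lit 176) (nat_lit 5) (nat_lit 663) (nat_lit 578) (nat_lit 319))) (XT.nd (nat_lit 78) (nat_lit 456) (nat_lit 0) (XT.lf (nat_lit 0) (nat_lit 20617067320)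 (nat_lit 380) (nat_lit 12872806015) (nat_lit 456) (nat_lit 107028349) (nat_lit 170) (nat_lit 5) (nat_lit 175) (nat_lit 5) (nat_lit 176) (nat_lit 5) (nat_lit 664) (nat_lit 578) (nat_lit 318)) (XT.nd (nat_lit 78) (nat_lit 0) (nat_lit 0) (XT.lf (nat_lit 0) (nat_lit 7647712755) (nat_lit 380) (nat_lit 12053969) (nat_lit 456) (nat_lit 26350215551) (nat_lit 164) (nat_lit 5) (nat_lit 169) (nat_lit 5) (nat_lit 170) (nat_lit 5) (nat_lit 665) (nat_lit 578) (nat_lit 317)) (XT.lf (nat_lit 0) (nat_lit 15750249383) (nat_lit 456) (nat_lit 5656873449) (nat_lit 76) (nat_lit 13020791846) (nat_lit 164) (nat_lit 5) (nat_lit 170) (nat_lit 5) (nat_lit 165) (nat_lit 5) (nat_lit 666) (nat_lit 578) (nat_lit 316))))) (XT.nd (nat_lit 156) (nat_lit 76) (nat_lit 0) (XT.nd (nat_lit 78) (nat_lit 304) (nat_lit 0) (XT.lf (nat_lit 0) (nat_lit 15663401613) (nat_lit 380) (nat_lit 8437988496) (nat_lit 456) (nat_lit 10750838699) (nat_lit 159) (nat_lit 5) (nat_lit 164) (nat_lit 5) (nat_lit 165) (nat_lit 5) (nat_lit 667) (nat_lit 578) (nat_lit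 315)) (XT.lf (nat_lit 0) (nat_lit 2195335426) (nat_lit 304) (nat_lit 30504875683) (nat_lit 380) (nat_lit 2583205009) (nat_lit 155) (nat_lit 5) (nat_lit 159) (nat_lit 5) (nat_lit 160) (nat_lit 5) (nat_lit 668) (nat_lit 578) (nat_lit 314))) (XT.nd (nat_lit 74178) (nat_lit 0) (nat_lit 26752) (XT.lf (nat_lit 0) (nat_lit 5854995690) (nat_lit 380) (nat_lit 11552015896) (nat_lit 76) (nat_lit 18311817310) (nat_lit 154) (nat_lit 5) (nat_lit 159) (nat_lit 5) (nat_lit 155) (nat_lit 5) (nat_lit 669) (nat_lit 578) (nat_lit 313)) (XT.nd (nat_lit 78) (nat_lit 0) (nat_lit 0) (XT.lf (nat_lit 0) (nat_lit 911395504) (nat_lit 0) (nat_lit 911395504) (nat_lit 1748) (nat_lit 4836607999) (nat_lit 506) (nat_lit 5) (nat_lit 506) (nat_lit 3) (nat_lit 529) (nat_lit 3) (nat_lit 579) (nat_lit 579) (nat_lit 402)) (XT.lf (nat_lit 0) (nat_lit 4095122060) (nat_lit 1748) (nat_lit 4889876022) (nat_lit 1824) (nat_lit 4458714304) (nat_lit 506) (nat_lit 5) (nat_lit 529) (nat_lit 3) (nat_lit 530) (nat_lit 5) (nat_lit 580) (nat_lit 579) (nat_lit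 401)))))) (XT.nd (nat_lit 390) (nat_lit 0) (nat_lit 228) (XT.nd (nat_lit 156) (nat_lit 0) (nat_lit 76) (XT.nd (nat_lit 78) (nat_lit 0) (nat_lit 76) (XT.lf (nat_lit 76) (nat_lit 1855372394) (nat_lit 0) (nat_lit 2712365043) (nat_lit 1824) (nat_lit 9003106230) (nat_lit 507) (nat_lit 5) (nat_lit 506) (nat_lit 5) (nat_lit 530) (nat_lit 5) (nat_lit 581) (nat_lit 579) (nat_lit 400)) (XT.lf (nat_lit 0) (nat_lit 5096925847) (nat_lit 1748) (nat_lit 4927659858) (nat_lit 1824) (nat_lit 3674989760) (nat_lit 507) (nat_lit 5) (nat_lit 530) (nat_lit 5) (nat_lit 531) (nat_lit 5) (nat_lit 582) (nat_lit 579) (nat_lit 399))) (XT.nd (nat_lit 78) (nat_lit 0) (nat_lit 76) (XT.lf (nat_lit 76) (nat_lit 1998806433) (nat_lit 0) (nat_lit 3659184429) (nat_lit 1824) (nat_lit 8172465482) (nat_lit 508) (nat_lit 5) (nat_lit 507) (nat_lit 5) (nat_lit 531) (nat_lit 5) (nat_lit 583) (nat_lit 579) (nat_lit 398)) (XT.nd (nat_lit 78) (nat_lit 0) (nat_lit 0) (XT.lf (nat_lit 0) (nat_lit 6272494801) (nat_lit 1748) (nat_lit 4856847240) (nat_lit 1824)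 (nat_lit 2833768742) (nat_lit 508) (nat_lit 5) (nat_lit 531) (nat_lit 5) (nat_lit 532) (nat_lit 5) (nat_lit 584) (nat_lit 579) (nat_lit 397)) (XT.lf (nat_lit 76) (nat_lit 2257397781) (nat_lit 0) (nat_lit 4671500490) (nat_lit 1824) (nat_lit 7168928139) (nat_lit 509) (nat_lit 5) (nat_lit 508) (nat_lit 5) (nat_lit 532) (nat_lit 5) (nat_lit 585) (nat_lit 579) (nat_lit 396))))) (XT.nd (nat_lit 156) (nat_lit 0) (nat_lit 76) (XT.nd (nat_lit 78) (nat_lit 0) (nat_lit 0) (XT.lf (nat_lit 0) (nat_lit 7634565512) (nat_lit 1748) (nat_lit 4673071898) (nat_lit 1824) (nat_lit 1926876509) (nat_lit 509) (nat_lit 5) (nat_lit 532) (nat_lit 5) (nat_lit 533) (nat_lit 5) (nat_lit 586) (nat_lit 579) (nat_lit 395)) (XT.lf (nat_lit 76) (nat_lit 2635774902) (nat_lit 0) (nat_lit 5757691263) (nat_lit 1824) (nat_lit 5979686889) (nat_lit 510) (nat_lit 5) (nat_lit 509) (nat_lit 5) (nat_lit 533) (nat_lit 5) (nat_lit 587) (nat_lit 579) (nat_lit 394))) (XT.nd (nat_lit 78) (nat_lit 0) (nat_lit 0) (XT.lf (nat_lit 0) (nat_lit 9196336807) (nat_lit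 1748) (nat_lit 4371646771) (nat_lit 1824) (nat_lit 946005827) (nat_lit 510) (nat_lit 5) (nat_lit 533) (nat_lit 5) (nat_lit 534) (nat_lit 5) (nat_lit 588) (nat_lit 579) (nat_lit 393)) (XT.nd (nat_lit 78) (nat_lit 0) (nat_lit 0) (XT.lf (nat_lit 76) (nat_lit 3138896531) (nat_lit 0) (nat_lit 6926281626) (nat_lit 1824) (nat_lit 4591466327) (nat_lit 511) (nat_lit 5) (nat_lit 510) (nat_lit 5) (nat_lit 534) (nat_lit 5) (nat_lit 589) (nat_lit 579) (nat_lit 392)) (XT.lf (nat_lit 76) (nat_lit 10853406473) (nat_lit 0) (nat_lit 118861840) (nat_lit 1824) (nat_lit 3829467173) (nat_lit 511) (nat_lit 5) (nat_lit 510) (nat_lit 5) (nat_lit 534) (nat_lit 5) (nat_lit 590) (nat_lit 579) (nat_lit 391))))))) (XT.nd (nat_lit 3120) (nat_lit 4408) (nat_lit 0) (XT.nd (nat_lit 390) (nat_lit 13300) (nat_lit 0) (XT.nd (nat_lit 156) (nat_lit 1672) (nat_lit 0) (XT.nd (nat_lit 78) (nat_lit 0) (nat_lit 0) (XT.lf (nat_lit 76) (nat_lit 3772058800) (nat_lit 0) (nat_lit 8185963440) (nat_lit 1824) (nat_lit 2990495886) (nat_lit 512) (nat_lit 5)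 (nat_lit 511) (nat_lit 5) (nat_lit 535) (nat_lit 5) (nat_lit 591) (nat_lit 579) (nat_lit 390)) (XT.lf (nat_lit 76) (nat_lit 11694033884) (nat_lit 0) (nat_lit 1288581798) (nat_lit 1824) (nat_lit 2115238500) (nat_lit 512) (nat_lit 5) (nat_lit 511) (nat_lit 5) (nat_lit 535) (nat_lit 5) (nat_lit 592) (nat_lit 579) (nat_lit 389))) (XT.nd (nat_lit 78) (nat_lit 1748) (nat_lit 0) (XT.lf (nat_lit 76) (nat_lit 4540903051) (nat_lit 0) (nat_lit 9545615750) (nat_lit 1824) (nat_lit 1162482049) (nat_lit 513) (nat_lit 5) (nat_lit 512) (nat_lit 5) (nat_lit 536) (nat_lit 5) (nat_lit 593) (nat_lit 579) (nat_lit 388)) (XT.nd (nat_lit 78) (nat_lit 1748) (nat_lit 0) (XT.lf (nat_lit 76) (nat_lit 12676438882) (nat_lit 0) (nat_lit 2559523800) (nat_lit 1824) (nat_lit 166738756) (nat_lit 513) (nat_lit 5) (nat_lit 512) (nat_lit 5) (nat_lit 536) (nat_lit 5) (nat_lit 594) (nat_lit 579) (nat_lit 387)) (XT.lf (nat_lit 0) (nat_lit 895519241) (nat_lit 1824) (nat_lit 10112796455) (nat_lit 1900) (nat_lit 4549895667) (nat_lit 489) (nat_lit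 5) (nat_lit 513) (nat_lit 5) (nat_lit 514) (nat_lit 5) (nat_lit 595) (nat_lit 579) (nat_lit 386))))) (XT.nd (nat_lit 2496) (nat_lit 13300) (nat_lit 0) (XT.nd (nat_lit 78) (nat_lit 0) (nat_lit 76) (XT.lf (nat_lit 0) (nat_lit 2004534502) (nat_lit 1824) (nat_lit 1922858918) (nat_lit 1900) (nat_lit 11788861358) (nat_lit 489) (nat_lit 5) (nat_lit 513) (nat_lit 5) (nat_lit 514) (nat_lit 5) (nat_lit 596) (nat_lit 579) (nat_lit 385)) (XT.lf (nat_lit 0) (nat_lit 3192214026) (nat_lit 1824) (nat_lit 9387770561) (nat_lit 1900) (nat_lit 3296345019) (nat_lit 490) (nat_lit 5) (nat_lit 514) (nat_lit 5) (nat_lit 515) (nat_lit 5) (nat_lit 597) (nat_lit 579) (nat_lit 384))) (XT.nd (nat_lit 78) (nat_lit 760) (nat_lit 0) (XT.lf (nat_lit 0) (nat_lit 13402466493) (nat_lit 684) (nat_lit 4058959424) (nat_lit 760) (nat_lit 4698262321) (nat_lit 324) (nat_lit 5) (nat_lit 333) (nat_lit 5) (nat_lit 334) (nat_lit 5) (nat_lit 628) (nat_lit 579) (nat_lit 353)) (XT.nd (nat_lit 78) (nat_lit 76) (nat_lit 0) (XT.lf (nat_lit 0) (nat_lit 4057284142)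 (nat_lit 684) (nat_lit 17121245621) (nat_lit 760) (nat_lit 1233274172) (nat_lit 315) (nat_lit 5) (nat_lit 324) (nat_lit 5) (nat_lit 325) (nat_lit 5) (nat_lit 629) (nat_lit 579) (nat_lit 352)) (XT.lf (nat_lit 0) (nat_lit 2352375107) (nat_lit 760) (nat_lit 5468615469) (nat_lit 76) (nat_lit 14846041893) (nat_lit 314) (nat_lit 5) (nat_lit 324) (nat_lit 5) (nat_lit 315) (nat_lit 5) (nat_lit 630) (nat_lit 579) (nat_lit 351)))))) (XT.nd (nat_lit 390) (nat_lit 2508) (nat_lit 0) (XT.nd (nat_lit 156) (nat_lit 1216) (nat_lit 0) (XT.nd (nat_lit 78) (nat_lit 0) (nat_lit 0) (XT.lf (nat_lit 0) (nat_lit 6050430726) (nat_lit 760) (nat_lit 15174119146) (nat_lit 76) (nat_lit 1701508628) (nat_lit 305) (nat_lit 5) (nat_lit 315) (nat_lit 5) (nat_lit 306) (nat_lit 5) (nat_lit 631) (nat_lit 579) (nat_lit 350)) (XT.lf (nat_lit 0) (nat_lit 9906821202) (nat_lit 760) (nat_lit 1935881430) (nat_lit 76) (nat_lit 11345875048) (nat_lit 305) (nat_lit 5) (nat_lit 315) (nat_lit 5) (nat_lit 306) (nat_lit 5) (nat_lit 632) (nat_lit 579) (nat_lit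 349))) (XT.nd (nat_lit 78) (nat_lit 608) (nat_lit 0) (XT.lf (nat_lit 0) (nat_lit 11715530712) (nat_lit 608) (nat_lit 2196598074) (nat_lit 684) (nat_lit 9542782775) (nat_lit 297) (nat_lit 5) (nat_lit 305) (nat_lit 5) (nat_lit 306) (nat_lit 5) (nat_lit 633) (nat_lit 579) (nat_lit 348)) (XT.nd (nat_lit 78) (nat_lit 0) (nat_lit 0) (XT.lf (nat_lit 0) (nat_lit 1909958503) (nat_lit 608) (nat_lit 16158449224) (nat_lit 684) (nat_lit 5656747185) (nat_lit 289) (nat_lit 5) (nat_lit 297) (nat_lit 5) (nat_lit 298) (nat_lit 5) (nat_lit 634) (nat_lit 579) (nat_lit 347)) (XT.lf (nat_lit 0) (nat_lit 15971424108) (nat_lit 608) (nat_lit 6425433717) (nat_lit 684) (nat_lit 1602164493) (nat_lit 289) (nat_lit 5) (nat_lit 297) (nat_lit 5) (nat_lit 298) (nat_lit 5) (nat_lit 635) (nat_lit 579) (nat_lit 346))))) (XT.nd (nat_lit 234) (nat_lit 1216) (nat_lit 0) (XT.nd (nat_lit 78) (nat_lit 608) (nat_lit 0) (XT.lf (nat_lit 0) (nat_lit 2558823351) (nat_lit 684) (nat_lit 18206407944) (nat_lit 76) (nat_lit 3511636067) (nat_lit 280) (nat_lit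 5) (nat_lit 289) (nat_lit 5) (nat_lit 281) (nat_lit 5) (nat_lit 636) (nat_lit 579) (nat_lit 345)) (XT.nd (nat_lit 78) (nat_lit 608) (nat_lit 0) (XT.lf (nat_lit 0) (nat_lit 6874288675) (nat_lit 684) (nat_lit 4058660196) (nat_lit 76) (nat_lit 13625254506) (nat_lit 280) (nat_lit 5) (nat_lit 289) (nat_lit 5) (nat_lit 281) (nat_lit 5) (nat_lit 637) (nat_lit 579) (nat_lit 344)) (XT.lf (nat_lit 0) (nat_lit 10504672954) (nat_lit 608) (nat_lit 835585764) (nat_lit 684) (nat_lit 13503623577) (nat_lit 272) (nat_lit 5) (nat_lit 280) (nat_lit 5) (nat_lit 281) (nat_lit 5) (nat_lit 638) (nat_lit 579) (nat_lit 343)))) (XT.nd (nat_lit 78) (nat_lit 684) (nat_lit 0) (XT.lf (nat_lit 0) (nat_lit 215582839) (nat_lit 532) (nat_lit 15766256034) (nat_lit 608) (nat_lit 9151710191) (nat_lit 265) (nat_lit 5) (nat_lit 272) (nat_lit 5) (nat_lit 273) (nat_lit 5) (nat_lit 639) (nat_lit 579) (nat_lit 342)) (XT.nd (nat_lit 78) (nat_lit 684) (nat_lit 0) (XT.lf (nat_lit 0) (nat_lit 15245091149) (nat_lit 532) (nat_lit 5568954954) (nat_lit 608)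 (nat_lit 4613007244) (nat_lit 265) (nat_lit 5) (nat_lit 272) (nat_lit 5) (nat_lit 273) (nat_lit 5) (nat_lit 640) (nat_lit 579) (nat_lit 341)) (XT.lf (nat_lit 0) (nat_lit 75823495) (nat_lit 684) (nat_lit 20849515697) (nat_lit 76) (nat_lit 4799895072) (nat_lit 256) (nat_lit 5) (nat_lit 265) (nat_lit 5) (nat_lit 257) (nat_lit 5) (nat_lit 641) (nat_lit 579) (nat_lit 340))))))))
noncomputable def xc166 : XT := (XT.nd (nat_lit 1560) (nat_lit 1900) (nat_lit 0) (XT.nd (nat_lit 780) (nat_lit 2736) (nat_lit 0) (XT.nd (nat_lit 390) (nat_lit 1520) (nat_lit 0) (XT.nd (nat_lit 156) (nat_lit 988) (nat_lit 0) (XT.nd (nat_lit 78) (nat_lit 532) (nat_lit 0) (XT.lf (nat_lit 0) (nat_lit 4898540798) (nat_lit 684) (nat_lit 5728452996) (nat_lit 76) (nat_lit 15399737685) (nat_lit 256) (nat_lit 5) (nat_lit 265) (nat_lit 5) (nat_lit 257) (nat_lit 5) (nat_lit 642) (nat_lit 579) (nat_lit 339)) (XT.lf (nat_lit 0) (nat_lit 9818776426) (nat_lit 532) (nat_lit 58922368) (nat_lit 608) (nat_lit 16455360197) (nat_lit 249) (nat_lit 5) (nat_lit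 256) (nat_lit 5) (nat_lit 257) (nat_lit 5) (nat_lit 643) (nat_lit 579) (nat_lit 338))) (XT.nd (nat_lit 78) (nat_lit 988) (nat_lit 0) (XT.lf (nat_lit 0) (nat_lit 15061009546) (nat_lit 608) (nat_lit 965065066) (nat_lit 76) (nat_lit 10617347128) (nat_lit 249) (nat_lit 5) (nat_lit 257) (nat_lit 5) (nat_lit 250) (nat_lit 5) (nat_lit 644) (nat_lit 579) (nat_lit 337)) (XT.nd (nat_lit 78) (nat_lit 456) (nat_lit 0) (XT.lf (nat_lit 0) (nat_lit 15087660505) (nat_lit 532) (nat_lit 5355017891) (nat_lit 608) (nat_lit 6515419586) (nat_lit 242) (nat_lit 5) (nat_lit 249) (nat_lit 5) (nat_lit 250) (nat_lit 5) (nat_lit 645) (nat_lit 579) (nat_lit 336)) (XT.lf (nat_lit 0) (nat_lit 4209858617) (nat_lit 456) (nat_lit 21788248850) (nat_lit 532) (nat_lit 1279637821) (nat_lit 236) (nat_lit 5) (nat_lit 242) (nat_lit 5) (nat_lit 243) (nat_lit 5) (nat_lit 646) (nat_lit 579) (nat_lit 335))))) (XT.nd (nat_lit 156) (nat_lit 912) (nat_lit 0) (XT.nd (nat_lit 78) (nat_lit 532) (nat_lit 0) (XT.lf (nat_lit 0) (nat_lit 4119637584) (nat_lit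 532) (nat_lit 6896891781) (nat_lit 76) (nat_lit 16584488193) (nat_lit 235) (nat_lit 5) (nat_lit 242) (nat_lit 5) (nat_lit 236) (nat_lit 5) (nat_lit 647) (nat_lit 579) (nat_lit 334)) (XT.lf (nat_lit 0) (nat_lit 9669567374) (nat_lit 608) (nat_lit 18218164606) (nat_lit 76) (nat_lit 41658132) (nat_lit 228) (nat_lit 5) (nat_lit 236) (nat_lit 5) (nat_lit 229) (nat_lit 5) (nat_lit 648) (nat_lit 579) (nat_lit 333))) (XT.nd (nat_lit 78) (nat_lit 912) (nat_lit 0) (XT.lf (nat_lit 0) (nat_lit 15446529594) (nat_lit 608) (nat_lit 1596614345) (nat_lit 76) (nat_lit 11218865571) (nat_lit 228) (nat_lit 5) (nat_lit 236) (nat_lit 5) (nat_lit 229) (nat_lit 5) (nat_lit 649) (nat_lit 579) (nat_lit 332)) (XT.nd (nat_lit 78) (nat_lit 456) (nat_lit 0) (XT.lf (nat_lit 0) (nat_lit 15556550212) (nat_lit 456) (nat_lit 5880041554) (nat_lit 532) (nat_lit 7162738383) (nat_lit 222) (nat_lit 5) (nat_lit 228) (nat_lit 5) (nat_lit 229) (nat_lit 5) (nat_lit 650) (nat_lit 579) (nat_lit 331)) (XT.lf (nat_lit 0) (nat_lit 4144906337) (nat_lit 456)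 (nat_lit 23471580508) (nat_lit 532) (nat_lit 1325509790) (nat_lit 216) (nat_lit 5) (nat_lit 222) (nat_lit 5) (nat_lit 223) (nat_lit 5) (nat_lit 651) (nat_lit 579) (nat_lit 330)))))) (XT.nd (nat_lit 390) (nat_lit 1292) (nat_lit 0) (XT.nd (nat_lit 156) (nat_lit 912) (nat_lit 0) (XT.nd (nat_lit 78) (nat_lit 456) (nat_lit 0) (XT.lf (nat_lit 0) (nat_lit 4691401976) (nat_lit 532) (nat_lit 7511076780) (nat_lit 76) (nat_lit 17085963903) (nat_lit 215) (nat_lit 5) (nat_lit 222) (nat_lit 5) (nat_lit 216) (nat_lit 5) (nat_lit 652) (nat_lit 579) (nat_lit 329)) (XT.lf (nat_lit 0) (nat_lit 10241408372) (nat_lit 456) (nat_lit 632669862) (nat_lit 532) (nat_lit 18766300702) (nat_lit 209) (nat_lit 5) (nat_lit 215) (nat_lit 5) (nat_lit 216) (nat_lit 5) (nat_lit 653) (nat_lit 579) (nat_lit 328))) (XT.nd (nat_lit 78) (nat_lit 912) (nat_lit 0) (XT.lf (nat_lit 0) (nat_lit 17300347932) (nat_lit 532) (nat_lit 1625248831) (nat_lit 76) (nat_lit 11071358441) (nat_lit 209) (nat_lit 5) (nat_lit 216) (nat_lit 5) (nat_lit 210) (nat_lit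 5) (nat_lit 654) (nat_lit 579) (nat_lit 327)) (XT.nd (nat_lit 78) (nat_lit 456) (nat_lit 0) (XT.lf (nat_lit 0) (nat_lit 16714248758) (nat_lit 456) (nat_lit 7250358335) (nat_lit 532) (nat_lit 6393866682) (nat_lit 203) (nat_lit 5) (nat_lit 209) (nat_lit 5) (nat_lit 210) (nat_lit 5) (nat_lit 655) (nat_lit 579) (nat_lit 326)) (XT.lf (nat_lit 0) (nat_lit 103720599) (nat_lit 456) (nat_lit 25983825797) (nat_lit 76) (nat_lit 4638286845) (nat_lit 197) (nat_lit 5) (nat_lit 203) (nat_lit 5) (nat_lit 198) (nat_lit 5) (nat_lit 656) (nat_lit 579) (nat_lit 325))))) (XT.nd (nat_lit 156) (nat_lit 836) (nat_lit 0) (XT.nd (nat_lit 78) (nat_lit 456) (nat_lit 0) (XT.lf (nat_lit 0) (nat_lit 6782696936) (nat_lit 456) (nat_lit 7513512842) (nat_lit 76) (nat_lit 16800743884) (nat_lit 197) (nat_lit 5) (nat_lit 203) (nat_lit 5) (nat_lit 198) (nat_lit 5) (nat_lit 657) (nat_lit 579) (nat_lit 324)) (XT.lf (nat_lit 0) (nat_lit 11472002674) (nat_lit 456) (nat_lit 2194586180) (nat_lit 532) (nat_lit 17807480969) (nat_lit 191) (nat_lit 5)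 (nat_lit 197) (nat_lit 5) (nat_lit 198) (nat_lit 5) (nat_lit 658) (nat_lit 579) (nat_lit 323))) (XT.nd (nat_lit 78) (nat_lit 836) (nat_lit 0) (XT.lf (nat_lit 0) (nat_lit 20801680666) (nat_lit 532) (nat_lit 989555129) (nat_lit 76) (nat_lit 10065222128) (nat_lit 191) (nat_lit 5) (nat_lit 198) (nat_lit 5) (nat_lit 192) (nat_lit 5) (nat_lit 659) (nat_lit 579) (nat_lit 322)) (XT.nd (nat_lit 78) (nat_lit 456) (nat_lit 0) (XT.lf (nat_lit 0) (nat_lit 18628397093) (nat_lit 380) (nat_lit 9583494139) (nat_lit 456) (nat_lit 4031954269) (nat_lit 186) (nat_lit 5) (nat_lit 191) (nat_lit 5) (nat_lit 192) (nat_lit 5) (nat_lit 660) (nat_lit 579) (nat_lit 321)) (XT.lf (nat_lit 0) (nat_lit 3152337389) (nat_lit 456) (nat_lit 26588887914) (nat_lit 76) (nat_lit 2896107362) (nat_lit 180) (nat_lit 5) (nat_lit 186) (nat_lit 5) (nat_lit 181) (nat_lit 5) (nat_lit 661) (nat_lit 579) (nat_lit 320))))))) (XT.nd (nat_lit 74958) (nat_lit 0) (nat_lit 26676) (XT.nd (nat_lit 390) (nat_lit 684) (nat_lit 0) (XT.nd (nat_lit 156) (nat_lit 836)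 (nat_lit 0) (XT.nd (nat_lit 78) (nat_lit 380) (nat_lit 0) (XT.lf (nat_lit 0) (nat_lit 10578782053) (nat_lit 456) (nat_lit 6842080873) (nat_lit 76) (nat_lit 15614244573) (nat_lit 180) (nat_lit 5) (nat_lit 186) (nat_lit 5) (nat_lit 181) (nat_lit 5) (nat_lit 662) (nat_lit 579) (nat_lit 319)) (XT.lf (nat_lit 0) (nat_lit 13471816439) (nat_lit 380) (nat_lit 4766432453) (nat_lit 456) (nat_lit 15200899121) (nat_lit 175) (nat_lit 5) (nat_lit 180) (nat_lit 5) (nat_lit 181) (nat_lit 5) (nat_lit 663) (nat_lit 579) (nat_lit 318))) (XT.nd (nat_lit 78) (nat_lit 456) (nat_lit 0) (XT.lf (nat_lit 0) (nat_lit 381681049) (nat_lit 380) (nat_lit 25767821826) (nat_lit 456) (nat_lit 7699794556) (nat_lit 170) (nat_lit 5) (nat_lit 175) (nat_lit 5) (nat_lit 176) (nat_lit 5) (nat_lit 664) (nat_lit 579) (nat_lit 317)) (XT.nd (nat_lit 78) (nat_lit 380) (nat_lit 0) (XT.lf (nat_lit 0) (nat_lit 115468319) (nat_lit 456) (nat_lit 12893330285) (nat_lit 76) (nat_lit 21255587640) (nat_lit 169) (nat_lit 5) (nat_lit 175) (nat_lit 5) (nat_lit 170)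 (nat_lit 5) (nat_lit 665) (nat_lit 579) (nat_lit 316)) (XT.lf (nat_lit 0) (nat_lit 8034731393) (nat_lit 456) (nat_lit 26542683339) (nat_lit 76) (nat_lit 108328330) (nat_lit 164) (nat_lit 5) (nat_lit 170) (nat_lit 5) (nat_lit 165) (nat_lit 5) (nat_lit 666) (nat_lit 579) (nat_lit 315))))) (XT.nd (nat_lit 156) (nat_lit 304) (nat_lit 0) (XT.nd (nat_lit 78) (nat_lit 380) (nat_lit 0) (XT.lf (nat_lit 0) (nat_lit 16282753550) (nat_lit 456) (nat_lit 5430058228) (nat_lit 76) (nat_lit 13399307809) (nat_lit 164) (nat_lit 5) (nat_lit 170) (nat_lit 5) (nat_lit 165) (nat_lit 5) (nat_lit 667) (nat_lit 579) (nat_lit 314)) (XT.lf (nat_lit 0) (nat_lit 16314385805) (nat_lit 380) (nat_lit 8484459273) (nat_lit 456) (nat_lit 10746116428) (nat_lit 159) (nat_lit 5) (nat_lit 164) (nat_lit 5) (nat_lit 165) (nat_lit 5) (nat_lit 668) (nat_lit 579) (nat_lit 313))) (XT.nd (nat_lit 74256) (nat_lit 0) (nat_lit 26676) (XT.lf (nat_lit 0) (nat_lit 2578231230) (nat_lit 304) (nat_lit 30990166559) (nat_lit 380) (nat_lit 2416399730) (nat_lit 155)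 (nat_lit 5) (nat_lit 159) (nat_lit 5) (nat_lit 160) (nat_lit 5) (nat_lit 669) (nat_lit 579) (nat_lit 312)) (XT.nd (nat_lit 78) (nat_lit 0) (nat_lit 0) (XT.lf (nat_lit 0) (nat_lit 1120252920) (nat_lit 0) (nat_lit 1120252920) (nat_lit 1748) (nat_lit 4544444119) (nat_lit 506) (nat_lit 5) (nat_lit 506) (nat_lit 3) (nat_lit 529) (nat_lit 3) (nat_lit 580) (nat_lit 580) (nat_lit 400)) (XT.lf (nat_lit 0) (nat_lit 4922164344) (nat_lit 1748) (nat_lit 4596488784) (nat_lit 1824) (nat_lit 4179007480) (nat_lit 506) (nat_lit 5) (nat_lit 529) (nat_lit 3) (nat_lit 530) (nat_lit 5) (nat_lit 581) (nat_lit 580) (nat_lit 399)))))) (XT.nd (nat_lit 390) (nat_lit 0) (nat_lit 228) (XT.nd (nat_lit 156) (nat_lit 0) (nat_lit 76) (XT.nd (nat_lit 78) (nat_lit 0) (nat_lit 76) (XT.lf (nat_lit 76) (nat_lit 2281091017) (nat_lit 0) (nat_lit 3111053548) (nat_lit 1824) (nat_lit 8435432154) (nat_lit 507) (nat_lit 5) (nat_lit 506) (nat_lit 5) (nat_lit 530) (nat_lit 5) (nat_lit 582) (nat_lit 580) (nat_lit 398)) (XT.lf (nat_lit 0) (nat_lit 5915350676)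 (nat_lit 1748) (nat_lit 4628633314) (nat_lit 1824) (nat_lit 3415230932) (nat_lit 507) (nat_lit 5) (nat_lit 530) (nat_lit 5) (nat_lit 531) (nat_lit 5) (nat_lit 583) (nat_lit 580) (nat_lit 397))) (XT.nd (nat_lit 78) (nat_lit 0) (nat_lit 76) (XT.lf (nat_lit 76) (nat_lit 2433746647) (nat_lit 0) (nat_lit 4042405962) (nat_lit 1824) (nat_lit 7616790933) (nat_lit 508) (nat_lit 5) (nat_lit 507) (nat_lit 5) (nat_lit 531) (nat_lit 5) (nat_lit 584) (nat_lit 580) (nat_lit 396)) (XT.nd (nat_lit 78) (nat_lit 0) (nat_lit 0) (XT.lf (nat_lit 0) (nat_lit 7087149558) (nat_lit 1748) (nat_lit 4550945964) (nat_lit 1824) (nat_lit 2590471919) (nat_lit 508) (nat_lit 5) (nat_lit 531) (nat_lit 5) (nat_lit 532) (nat_lit 5) (nat_lit 585) (nat_lit 580) (nat_lit 395)) (XT.lf (nat_lit 76) (nat_lit 2702932390) (nat_lit 0) (nat_lit 5042834463) (nat_lit 1824) (nat_lit 6620429234) (nat_lit 509) (nat_lit 5) (nat_lit 508) (nat_lit 5) (nat_lit 532) (nat_lit 5) (nat_lit 586) (nat_lit 580) (nat_lit 394))))) (XT.nd (nat_lit 234) (nat_lit 0) (nat_lit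 76) (XT.nd (nat_lit 78) (nat_lit 0) (nat_lit 0) (XT.lf (nat_lit 0) (nat_lit 8450478664) (nat_lit 1748) (nat_lit 4358908001) (nat_lit 1824) (nat_lit 1696532468) (nat_lit 509) (nat_lit 5) (nat_lit 532) (nat_lit 5) (nat_lit 533) (nat_lit 5) (nat_lit 587) (nat_lit 580) (nat_lit 393)) (XT.nd (nat_lit 78) (nat_lit 0) (nat_lit 76) (XT.lf (nat_lit 76) (nat_lit 3093433990) (nat_lit 0) (nat_lit 6120748153) (nat_lit 1824) (nat_lit 5433356816) (nat_lit 510) (nat_lit 5) (nat_lit 509) (nat_lit 5) (nat_lit 533) (nat_lit 5) (nat_lit 588) (nat_lit 580) (nat_lit 392)) (XT.lf (nat_lit 0) (nat_lit 10018731292) (nat_lit 1748) (nat_lit 4047677455) (nat_lit 1824) (nat_lit 725071265) (nat_lit 510) (nat_lit 5) (nat_lit 533) (nat_lit 5) (nat_lit 534) (nat_lit 5) (nat_lit 589) (nat_lit 580) (nat_lit 391)))) (XT.nd (nat_lit 78) (nat_lit 0) (nat_lit 0) (XT.lf (nat_lit 76) (nat_lit 3610370119) (nat_lit 0) (nat_lit 7284713898) (nat_lit 1824) (nat_lit 4042101874) (nat_lit 511) (nat_lit 5) (nat_lit 510) (nat_lit 5) (nat_lit 534) (nat_lit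 5) (nat_lit 590) (nat_lit 580) (nat_lit 390)) (XT.nd (nat_lit 78) (nat_lit 0) (nat_lit 76) (XT.lf (nat_lit 76) (nat_lit 11471156620) (nat_lit 0) (nat_lit 336833822) (nat_lit 1824) (nat_lit 3277435164) (nat_lit 511) (nat_lit 5) (nat_lit 510) (nat_lit 5) (nat_lit 534) (nat_lit 5) (nat_lit 591) (nat_lit 580) (nat_lit 389)) (XT.lf (nat_lit 76) (nat_lit 4259199879) (nat_lit 0) (nat_lit 8543476401) (nat_lit 1824) (nat_lit 2432683655) (nat_lit 512) (nat_lit 5) (nat_lit 511) (nat_lit 5) (nat_lit 535) (nat_lit 5) (nat_lit 592) (nat_lit 580) (nat_lit 388))))))))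
noncomputable def xc167 : XT := (XT.nd (nat_lit 3822) (nat_lit 6460) (nat_lit 0) (XT.nd (nat_lit 3042) (nat_lit 3724) (nat_lit 0) (XT.nd (nat_lit 2652) (nat_lit 13224) (nat_lit 0) (XT.nd (nat_lit 156) (nat_lit 1748) (nat_lit 0) (XT.nd (nat_lit 78) (nat_lit 0) (nat_lit 76) (XT.lf (nat_lit 76) (nat_lit 12331541918) (nat_lit 0) (nat_lit 1504347250) (nat_lit 1824) (nat_lit 1552031359) (nat_lit 512) (nat_lit 5) (nat_lit 511) (nat_lit 5) (nat_lit 535) (nat_lit 5) (nat_lit 593) (nat_lit 580) (nat_lit 387)) (XT.lf (nat_lit 76) (nat_lit 5045730986) (nat_lit 0) (nat_lit 9905978380) (nat_lit 1824) (nat_lit 590584340) (nat_lit 513) (nat_lit 5) (nat_lit 512) (nat_lit 5) (nat_lit 536) (nat_lit 5) (nat_lit 594) (nat_lit 580) (nat_lit 386))) (XT.nd (nat_lit 78) (nat_lit 0) (nat_lit 76) (XT.lf (nat_lit 0) (nat_lit 407982391) (nat_lit 1824) (nat_lit 2366121868) (nat_lit 1900) (nat_lit 12925139525) (nat_lit 488) (nat_lit 5) (nat_lit 512) (nat_lit 5) (nat_lit 513) (nat_lit 5) (nat_lit 595) (nat_lit 580) (nat_lit 385)) (XT.nd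 (nat_lit 78) (nat_lit 0) (nat_lit 0) (XT.lf (nat_lit 0) (nat_lit 1479616561) (nat_lit 1824) (nat_lit 9891835311) (nat_lit 1900) (nat_lit 4486583059) (nat_lit 489) (nat_lit 5) (nat_lit 513) (nat_lit 5) (nat_lit 514) (nat_lit 5) (nat_lit 596) (nat_lit 580) (nat_lit 384)) (XT.lf (nat_lit 0) (nat_lit 2599710422) (nat_lit 1824) (nat_lit 1546397397) (nat_lit 1900) (nat_lit 11873353760) (nat_lit 489) (nat_lit 5) (nat_lit 513) (nat_lit 5) (nat_lit 514) (nat_lit 5) (nat_lit 597) (nat_lit 580) (nat_lit 383))))) (XT.nd (nat_lit 156) (nat_lit 760) (nat_lit 0) (XT.nd (nat_lit 78) (nat_lit 684) (nat_lit 0) (XT.lf (nat_lit 0) (nat_lit 10465167722) (nat_lit 684) (nat_lit 520076459) (nat_lit 760) (nat_lit 11107623317) (nat_lit 333) (nat_lit 5) (nat_lit 342) (nat_lit 5) (nat_lit 343) (nat_lit 5) (nat_lit 627) (nat_lit 580) (nat_lit 353)) (XT.lf (nat_lit 0) (nat_lit 1017160458) (nat_lit 684) (nat_lit 13474861960) (nat_lit 760) (nat_lit 7850766102) (nat_lit 324) (nat_lit 5) (nat_lit 333) (nat_lit 5) (nat_lit 334) (nat_lit 5)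 (nat_lit 628) (nat_lit 580) (nat_lit 352))) (XT.nd (nat_lit 78) (nat_lit 760) (nat_lit 0) (XT.lf (nat_lit 0) (nat_lit 14063852054) (nat_lit 684) (nat_lit 4082107383) (nat_lit 760) (nat_lit 4450208171) (nat_lit 324) (nat_lit 5) (nat_lit 333) (nat_lit 5) (nat_lit 334) (nat_lit 5) (nat_lit 629) (nat_lit 580) (nat_lit 351)) (XT.nd (nat_lit 78) (nat_lit 76) (nat_lit 0) (XT.lf (nat_lit 0) (nat_lit 4535474242) (nat_lit 684) (nat_lit 17398303776) (nat_lit 760) (nat_lit 919620310) (nat_lit 315) (nat_lit 5) (nat_lit 324) (nat_lit 5) (nat_lit 325) (nat_lit 5) (nat_lit 630) (nat_lit 580) (nat_lit 350)) (XT.lf (nat_lit 0) (nat_lit 2726758125) (nat_lit 760) (nat_lit 5184370612) (nat_lit 76) (nat_lit 15202689853) (nat_lit 314) (nat_lit 5) (nat_lit 324) (nat_lit 5) (nat_lit 315) (nat_lit 5) (nat_lit 631) (nat_lit 580) (nat_lit 349)))))) (XT.nd (nat_lit 390) (nat_lit 1824) (nat_lit 0) (XT.nd (nat_lit 156) (nat_lit 1216) (nat_lit 0) (XT.nd (nat_lit 78) (nat_lit 0) (nat_lit 0) (XT.lf (nat_lit 0) (nat_lit 6495334043) (nat_lit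 760) (nat_lit 15080535886) (nat_lit 76) (nat_lit 1802224183) (nat_lit 305) (nat_lit 5) (nat_lit 315) (nat_lit 5) (nat_lit 306) (nat_lit 5) (nat_lit 632) (nat_lit 580) (nat_lit 348)) (XT.lf (nat_lit 0) (nat_lit 10422501452) (nat_lit 760) (nat_lit 1585319017) (nat_lit 76) (nat_lit 11638170376) (nat_lit 305) (nat_lit 5) (nat_lit 315) (nat_lit 5) (nat_lit 306) (nat_lit 5) (nat_lit 633) (nat_lit 580) (nat_lit 347))) (XT.nd (nat_lit 78) (nat_lit 608) (nat_lit 0) (XT.lf (nat_lit 0) (nat_lit 12336560315) (nat_lit 608) (nat_lit 2167639359) (nat_lit 684) (nat_lit 9413526186) (nat_lit 297) (nat_lit 5) (nat_lit 305) (nat_lit 5) (nat_lit 306) (nat_lit 5) (nat_lit 634) (nat_lit 580) (nat_lit 346)) (XT.nd (nat_lit 78) (nat_lit 0) (nat_lit 0) (XT.lf (nat_lit 0) (nat_lit 2338104908) (nat_lit 608) (nat_lit 16402341562) (nat_lit 684) (nat_lit 5452990908) (nat_lit 289) (nat_lit 5) (nat_lit 297) (nat_lit 5) (nat_lit 298) (nat_lit 5) (nat_lit 635) (nat_lit 580) (nat_lit 345)) (XT.lf (nat_lit 0) (nat_lit 16673153801) (nat_lit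 608) (nat_lit 6476220188) (nat_lit 684) (nat_lit 1323530115) (nat_lit 289) (nat_lit 5) (nat_lit 297) (nat_lit 5) (nat_lit 298) (nat_lit 5) (nat_lit 636) (nat_lit 580) (nat_lit 344))))) (XT.nd (nat_lit 156) (nat_lit 1140) (nat_lit 0) (XT.nd (nat_lit 78) (nat_lit 0) (nat_lit 0) (XT.lf (nat_lit 0) (nat_lit 2913607546) (nat_lit 684) (nat_lit 18181151207) (nat_lit 76) (nat_lit 3661566996) (nat_lit 280) (nat_lit 5) (nat_lit 289) (nat_lit 5) (nat_lit 281) (nat_lit 5) (nat_lit 637) (nat_lit 580) (nat_lit 343)) (XT.lf (nat_lit 0) (nat_lit 7309429083) (nat_lit 684) (nat_lit 3758083503) (nat_lit 76) (nat_lit 13975895094) (nat_lit 280) (nat_lit 5) (nat_lit 289) (nat_lit 5) (nat_lit 281) (nat_lit 5) (nat_lit 638) (nat_lit 580) (nat_lit 342))) (XT.nd (nat_lit 78) (nat_lit 532) (nat_lit 0) (XT.lf (nat_lit 0) (nat_lit 11094004798) (nat_lit 608) (nat_lit 767339631) (nat_lit 684) (nat_lit 13473523360) (nat_lit 272) (nat_lit 5) (nat_lit 280) (nat_lit 5) (nat_lit 281) (nat_lit 5) (nat_lit 639) (nat_lit 580) (nat_lit 341)) (XT.nd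 (nat_lit 78) (nat_lit 0) (nat_lit 0) (XT.lf (nat_lit 0) (nat_lit 601943305) (nat_lit 532) (nat_lit 15991063977) (nat_lit 608) (nat_lit 9037375718) (nat_lit 265) (nat_lit 5) (nat_lit 272) (nat_lit 5) (nat_lit 273) (nat_lit 5) (nat_lit 640) (nat_lit 580) (nat_lit 340)) (XT.lf (nat_lit 0) (nat_lit 15924550628) (nat_lit 532) (nat_lit 5591591722) (nat_lit 608) (nat_lit 4413729470) (nat_lit 265) (nat_lit 5) (nat_lit 272) (nat_lit 5) (nat_lit 273) (nat_lit 5) (nat_lit 641) (nat_lit 580) (nat_lit 339))))))) (XT.nd (nat_lit 780) (nat_lit 3192) (nat_lit 0) (XT.nd (nat_lit 390) (nat_lit 1520) (nat_lit 0) (XT.nd (nat_lit 156) (nat_lit 1064) (nat_lit 0) (XT.nd (nat_lit 78) (nat_lit 0) (nat_lit 0) (XT.lf (nat_lit 0) (nat_lit 362446761) (nat_lit 684) (nat_lit 20885505027) (nat_lit 76) (nat_lit 4986078982) (nat_lit 256) (nat_lit 5) (nat_lit 265) (nat_lit 5) (nat_lit 257) (nat_lit 5) (nat_lit 642) (nat_lit 580) (nat_lit 338)) (XT.lf (nat_lit 0) (nat_lit 5276028081) (nat_lit 684) (nat_lit 5469491679) (nat_lit 76) (nat_lit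 15796150094) (nat_lit 256) (nat_lit 5) (nat_lit 265) (nat_lit 5) (nat_lit 257) (nat_lit 5) (nat_lit 643) (nat_lit 580) (nat_lit 337))) (XT.nd (nat_lit 78) (nat_lit 532) (nat_lit 0) (XT.lf (nat_lit 0) (nat_lit 10351921946) (nat_lit 608) (nat_lit 16468184742) (nat_lit 76) (nat_lit 34074291) (nat_lit 249) (nat_lit 5) (nat_lit 257) (nat_lit 5) (nat_lit 250) (nat_lit 5) (nat_lit 644) (nat_lit 580) (nat_lit 336)) (XT.nd (nat_lit 78) (nat_lit 532) (nat_lit 0) (XT.lf (nat_lit 0) (nat_lit 15633856590) (nat_lit 608) (nat_lit 615745523) (nat_lit 76) (nat_lit 10921249829) (nat_lit 249) (nat_lit 5) (nat_lit 257) (nat_lit 5) (nat_lit 250) (nat_lit 5) (nat_lit 645) (nat_lit 580) (nat_lit 335)) (XT.lf (nat_lit 0) (nat_lit 15755609421) (nat_lit 532) (nat_lit 5364600965) (nat_lit 608) (nat_lit 6371670405) (nat_lit 242) (nat_lit 5) (nat_lit 249) (nat_lit 5) (nat_lit 250) (nat_lit 5) (nat_lit 646) (nat_lit 580) (nat_lit 334))))) (XT.nd (nat_lit 156) (nat_lit 988) (nat_lit 0) (XT.nd (nat_lit 78) (nat_lit 76) (nat_lit 0) (XT.lf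 (nat_lit 0) (nat_lit 4662557094) (nat_lit 456) (nat_lit 22121936028) (nat_lit 532) (nat_lit 1033473129) (nat_lit 236) (nat_lit 5) (nat_lit 242) (nat_lit 5) (nat_lit 243) (nat_lit 5) (nat_lit 647) (nat_lit 580) (nat_lit 333)) (XT.lf (nat_lit 0) (nat_lit 4464964944) (nat_lit 532) (nat_lit 6670054305) (nat_lit 76) (nat_lit 17012754708) (nat_lit 235) (nat_lit 5) (nat_lit 242) (nat_lit 5) (nat_lit 236) (nat_lit 5) (nat_lit 648) (nat_lit 580) (nat_lit 332))) (XT.nd (nat_lit 78) (nat_lit 456) (nat_lit 0) (XT.lf (nat_lit 0) (nat_lit 10123754365) (nat_lit 608) (nat_lit 18215608465) (nat_lit 76) (nat_lit 143394015) (nat_lit 228) (nat_lit 5) (nat_lit 236) (nat_lit 5) (nat_lit 229) (nat_lit 5) (nat_lit 649) (nat_lit 580) (nat_lit 331)) (XT.nd (nat_lit 78) (nat_lit 456) (nat_lit 0) (XT.lf (nat_lit 0) (nat_lit 16011142189) (nat_lit 608) (nat_lit 1268821697) (nat_lit 76) (nat_lit 11542167118) (nat_lit 228) (nat_lit 5) (nat_lit 236) (nat_lit 5) (nat_lit 229) (nat_lit 5) (nat_lit 650) (nat_lit 580) (nat_lit 330)) (XT.lf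 (nat_lit 0) (nat_lit 16225039540) (nat_lit 456) (nat_lit 5893272899) (nat_lit 532) (nat_lit 7047939579) (nat_lit 222) (nat_lit 5) (nat_lit 228) (nat_lit 5) (nat_lit 229) (nat_lit 5) (nat_lit 651) (nat_lit 580) (nat_lit 329)))))) (XT.nd (nat_lit 390) (nat_lit 1748) (nat_lit 0) (XT.nd (nat_lit 156) (nat_lit 912) (nat_lit 0) (XT.nd (nat_lit 78) (nat_lit 76) (nat_lit 0) (XT.lf (nat_lit 0) (nat_lit 4587169981) (nat_lit 456) (nat_lit 23832672462) (nat_lit 532) (nat_lit 1095968747) (nat_lit 216) (nat_lit 5) (nat_lit 222) (nat_lit 5) (nat_lit 223) (nat_lit 5) (nat_lit 652) (nat_lit 580) (nat_lit 328)) (XT.lf (nat_lit 0) (nat_lit 5032968329) (nat_lit 532) (nat_lit 7305682198) (nat_lit 76) (nat_lit 17530601548) (nat_lit 215) (nat_lit 5) (nat_lit 222) (nat_lit 5) (nat_lit 216) (nat_lit 5) (nat_lit 653) (nat_lit 580) (nat_lit 327))) (XT.nd (nat_lit 78) (nat_lit 456) (nat_lit 0) (XT.lf (nat_lit 0) (nat_lit 10799513078) (nat_lit 456) (nat_lit 537221127) (nat_lit 532) (nat_lit 18891544243) (nat_lit 209) (nat_lit 5) (nat_lit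 215) (nat_lit 5) (nat_lit 216) (nat_lit 5) (nat_lit 654) (nat_lit 580) (nat_lit 326)) (XT.nd (nat_lit 78) (nat_lit 456) (nat_lit 0) (XT.lf (nat_lit 0) (nat_lit 17887410063) (nat_lit 532) (nat_lit 1307280538) (nat_lit 76) (nat_lit 11397378113) (nat_lit 209) (nat_lit 5) (nat_lit 216) (nat_lit 5) (nat_lit 210) (nat_lit 5) (nat_lit 655) (nat_lit 580) (nat_lit 325)) (XT.lf (nat_lit 0) (nat_lit 17396701258) (nat_lit 456) (nat_lit 7285787113) (nat_lit 532) (nat_lit 6278378697) (nat_lit 203) (nat_lit 5) (nat_lit 209) (nat_lit 5) (nat_lit 210) (nat_lit 5) (nat_lit 656) (nat_lit 580) (nat_lit 324))))) (XT.nd (nat_lit 234) (nat_lit 836) (nat_lit 0) (XT.nd (nat_lit 78) (nat_lit 456) (nat_lit 0) (XT.lf (nat_lit 0) (nat_lit 344248315) (nat_lit 456) (nat_lit 26150414228) (nat_lit 76) (nat_lit 4840914066) (nat_lit 197) (nat_lit 5) (nat_lit 203) (nat_lit 5) (nat_lit 198) (nat_lit 5) (nat_lit 657) (nat_lit 580) (nat_lit 323)) (XT.nd (nat_lit 78) (nat_lit 456) (nat_lit 0) (XT.lf (nat_lit 0) (nat_lit 7152128624) (nat_lit 456)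 (nat_lit 7317618309) (nat_lit 76) (nat_lit 17244466098) (nat_lit 197) (nat_lit 5) (nat_lit 203) (nat_lit 5) (nat_lit 198) (nat_lit 5) (nat_lit 658) (nat_lit 580) (nat_lit 322)) (XT.lf (nat_lit 0) (nat_lit 12045330117) (nat_lit 456) (nat_lit 2126017132) (nat_lit 532) (nat_lit 17927571373) (nat_lit 191) (nat_lit 5) (nat_lit 197) (nat_lit 5) (nat_lit 198) (nat_lit 5) (nat_lit 659) (nat_lit 580) (nat_lit 321)))) (XT.nd (nat_lit 78) (nat_lit 836) (nat_lit 0) (XT.lf (nat_lit 0) (nat_lit 21445318973) (nat_lit 532) (nat_lit 668375821) (nat_lit 76) (nat_lit 10375336207) (nat_lit 191) (nat_lit 5) (nat_lit 198) (nat_lit 5) (nat_lit 192) (nat_lit 5) (nat_lit 660) (nat_lit 580) (nat_lit 320)) (XT.nd (nat_lit 78) (nat_lit 456) (nat_lit 0) (XT.lf (nat_lit 0) (nat_lit 19339692218) (nat_lit 380) (nat_lit 9661777935) (nat_lit 456) (nat_lit 3882741526) (nat_lit 186) (nat_lit 5) (nat_lit 191) (nat_lit 5) (nat_lit 192) (nat_lit 5) (nat_lit 661) (nat_lit 580) (nat_lit 319)) (XT.lf (nat_lit 0) (nat_lit 3440723898) (nat_lit 456)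 (nat_lit 26777418833) (nat_lit 76) (nat_lit 3067426035) (nat_lit 180) (nat_lit 5) (nat_lit 186) (nat_lit 5) (nat_lit 181) (nat_lit 5) (nat_lit 662) (nat_lit 580) (nat_lit 318))))))))
noncomputable def xc168 : XT := (XT.nd (nat_lit 75816) (nat_lit 0) (nat_lit 8056) (XT.nd (nat_lit 75036) (nat_lit 0) (nat_lit 26448) (XT.nd (nat_lit 390) (nat_lit 380) (nat_lit 0) (XT.nd (nat_lit 156) (nat_lit 836) (nat_lit 0) (XT.nd (nat_lit 78) (nat_lit 380) (nat_lit 0) (XT.lf (nat_lit 0) (nat_lit 11011279029) (nat_lit 456) (nat_lit 6642405981) (nat_lit 76) (nat_lit 16037702529) (nat_lit 180) (nat_lit 5) (nat_lit 186) (nat_lit 5) (nat_lit 181) (nat_lit 5) (nat_lit 663) (nat_lit 580) (nat_lit 317)) (XT.lf (nat_lit 0) (nat_lit 14075555353) (nat_lit 380) (nat_lit 4746218575) (nat_lit 456) (nat_lit 15281778233) (nat_lit 175) (nat_lit 5) (nat_lit 180) (nat_lit 5) (nat_lit 181) (nat_lit 5) (nat_lit 664) (nat_lit 580) (nat_lit 316))) (XT.nd (nat_lit 78) (nat_lit 456) (nat_lit 0) (XT.lf (nat_lit 0) (nat_lit 725022657) (nat_lit 380)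 (nat_lit 26164856029) (nat_lit 456) (nat_lit 7632053438) (nat_lit 170) (nat_lit 5) (nat_lit 175) (nat_lit 5) (nat_lit 176) (nat_lit 5) (nat_lit 665) (nat_lit 580) (nat_lit 315)) (XT.nd (nat_lit 78) (nat_lit 380) (nat_lit 0) (XT.lf (nat_lit 0) (nat_lit 332315810) (nat_lit 456) (nat_lit 12819216912) (nat_lit 76) (nat_lit 21793847081) (nat_lit 169) (nat_lit 5) (nat_lit 175) (nat_lit 5) (nat_lit 170) (nat_lit 5) (nat_lit 666) (nat_lit 580) (nat_lit 314)) (XT.lf (nat_lit 0) (nat_lit 8408660510) (nat_lit 456) (nat_lit 26740250055) (nat_lit 76) (nat_lit 226279333) (nat_lit 164) (nat_lit 5) (nat_lit 170) (nat_lit 5) (nat_lit 165) (nat_lit 5) (nat_lit 667) (nat_lit 580) (nat_lit 313))))) (XT.nd (nat_lit 74412) (nat_lit 0) (nat_lit 26372) (XT.nd (nat_lit 78) (nat_lit 380) (nat_lit 0) (XT.lf (nat_lit 0) (nat_lit 16817462041) (nat_lit 456) (nat_lit 5211907480) (nat_lit 76) (nat_lit 13780808118) (nat_lit 164) (nat_lit 5) (nat_lit 170) (nat_lit 5) (nat_lit 165) (nat_lit 5) (nat_lit 668) (nat_lit 580) (nat_lit 312)) (XT.lf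 (nat_lit 0) (nat_lit 16965275750) (nat_lit 380) (nat_lit 8536608096) (nat_lit 456) (nat_lit 10749832446) (nat_lit 159) (nat_lit 5) (nat_lit 164) (nat_lit 5) (nat_lit 165) (nat_lit 5) (nat_lit 669) (nat_lit 580) (nat_lit 311))) (XT.nd (nat_lit 78) (nat_lit 0) (nat_lit 0) (XT.lf (nat_lit 0) (nat_lit 1325885109) (nat_lit 0) (nat_lit 1325885109) (nat_lit 1748) (nat_lit 4261538268) (nat_lit 506) (nat_lit 5) (nat_lit 506) (nat_lit 3) (nat_lit 529) (nat_lit 3) (nat_lit 581) (nat_lit 581) (nat_lit 398)) (XT.nd (nat_lit 78) (nat_lit 0) (nat_lit 0) (XT.lf (nat_lit 0) (nat_lit 5736812786) (nat_lit 1748) (nat_lit 4312423982) (nat_lit 1824) (nat_lit 3908030622) (nat_lit 506) (nat_lit 5) (nat_lit 529) (nat_lit 3) (nat_lit 530) (nat_lit 5) (nat_lit 582) (nat_lit 581) (nat_lit 397)) (XT.lf (nat_lit 76) (nat_lit 2700233766) (nat_lit 0) (nat_lit 3504340752) (nat_lit 1824) (nat_lit 7885440104) (nat_lit 507) (nat_lit 5) (nat_lit 506) (nat_lit 5) (nat_lit 530) (nat_lit 5) (nat_lit 583) (nat_lit 581) (nat_lit 396)))))) (XT.nd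 (nat_lit 390) (nat_lit 0) (nat_lit 152) (XT.nd (nat_lit 156) (nat_lit 0) (nat_lit 76) (XT.nd (nat_lit 78) (nat_lit 0) (nat_lit 0) (XT.lf (nat_lit 0) (nat_lit 6722321965) (nat_lit 1748) (nat_lit 4339064744) (nat_lit 1824) (nat_lit 3163217765) (nat_lit 507) (nat_lit 5) (nat_lit 530) (nat_lit 5) (nat_lit 531) (nat_lit 5) (nat_lit 584) (nat_lit 581) (nat_lit 395)) (XT.lf (nat_lit 76) (nat_lit 2862048729) (nat_lit 0) (nat_lit 4421252778) (nat_lit 1824) (nat_lit 7077927350) (nat_lit 508) (nat_lit 5) (nat_lit 507) (nat_lit 5) (nat_lit 531) (nat_lit 5) (nat_lit 585) (nat_lit 581) (nat_lit 394))) (XT.nd (nat_lit 78) (nat_lit 0) (nat_lit 0) (XT.lf (nat_lit 0) (nat_lit 7891334746) (nat_lit 1748) (nat_lit 4254577128) (nat_lit 1824) (nat_lit 2353957445) (nat_lit 508) (nat_lit 5) (nat_lit 531) (nat_lit 5) (nat_lit 532) (nat_lit 5) (nat_lit 586) (nat_lit 581) (nat_lit 393)) (XT.nd (nat_lit 78) (nat_lit 0) (nat_lit 76) (XT.lf (nat_lit 76) (nat_lit 3141830189) (nat_lit 0) (nat_lit 5410803765) (nat_lit 1824) (nat_lit 6087826796)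 (nat_lit 509) (nat_lit 5) (nat_lit 508) (nat_lit 5) (nat_lit 532) (nat_lit 5) (nat_lit 587) (nat_lit 581) (nat_lit 392)) (XT.lf (nat_lit 0) (nat_lit 9256956368) (nat_lit 1748) (nat_lit 4054289414) (nat_lit 1824) (nat_lit 1472022545) (nat_lit 509) (nat_lit 5) (nat_lit 532) (nat_lit 5) (nat_lit 533) (nat_lit 5) (nat_lit 588) (nat_lit 581) (nat_lit 391))))) (XT.nd (nat_lit 156) (nat_lit 0) (nat_lit 76) (XT.nd (nat_lit 78) (nat_lit 0) (nat_lit 76) (XT.lf (nat_lit 76) (nat_lit 3544521806) (nat_lit 0) (nat_lit 6481439803) (nat_lit 1824) (nat_lit 4901958775) (nat_lit 510) (nat_lit 5) (nat_lit 509) (nat_lit 5) (nat_lit 533) (nat_lit 5) (nat_lit 589) (nat_lit 581) (nat_lit 390)) (XT.lf (nat_lit 0) (nat_lit 10832781186) (nat_lit 1748) (nat_lit 3733204004) (nat_lit 1824) (nat_lit 509031861) (nat_lit 510) (nat_lit 5) (nat_lit 533) (nat_lit 5) (nat_lit 534) (nat_lit 5) (nat_lit 590) (nat_lit 581) (nat_lit 389))) (XT.nd (nat_lit 78) (nat_lit 0) (nat_lit 0) (XT.lf (nat_lit 76) (nat_lit 4075403028) (nat_lit 0) (nat_lit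 7641775572) (nat_lit 1824) (nat_lit 3506648467) (nat_lit 511) (nat_lit 5) (nat_lit 510) (nat_lit 5) (nat_lit 534) (nat_lit 5) (nat_lit 591) (nat_lit 581) (nat_lit 388)) (XT.nd (nat_lit 78) (nat_lit 0) (nat_lit 76) (XT.lf (nat_lit 76) (nat_lit 12085702798) (nat_lit 0) (nat_lit 550793436) (nat_lit 1824) (nat_lit 2738772648) (nat_lit 511) (nat_lit 5) (nat_lit 510) (nat_lit 5) (nat_lit 534) (nat_lit 5) (nat_lit 592) (nat_lit 581) (nat_lit 387)) (XT.lf (nat_lit 76) (nat_lit 4740096971) (nat_lit 0) (nat_lit 8900614375) (nat_lit 1824) (nat_lit 1887698199) (nat_lit 512) (nat_lit 5) (nat_lit 511) (nat_lit 5) (nat_lit 535) (nat_lit 5) (nat_lit 593) (nat_lit 581) (nat_lit 386))))))) (XT.nd (nat_lit 2964) (nat_lit 3800) (nat_lit 0) (XT.nd (nat_lit 2574) (nat_lit 2052) (nat_lit 0) (XT.nd (nat_lit 156) (nat_lit 12844) (nat_lit 0) (XT.nd (nat_lit 78) (nat_lit 0) (nat_lit 76) (XT.lf (nat_lit 76) (nat_lit 12966126770) (nat_lit 0) (nat_lit 1717050319) (nat_lit 1824) (nat_lit 1001072840) (nat_lit 512) (nat_lit 5) (nat_lit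 511) (nat_lit 5) (nat_lit 535) (nat_lit 5) (nat_lit 594) (nat_lit 581) (nat_lit 385)) (XT.lf (nat_lit 76) (nat_lit 5544578972) (nat_lit 0) (nat_lit 10266968300) (nat_lit 1824) (nat_lit 30358974) (nat_lit 513) (nat_lit 5) (nat_lit 512) (nat_lit 5) (nat_lit 536) (nat_lit 5) (nat_lit 595) (nat_lit 581) (nat_lit 384))) (XT.nd (nat_lit 2262) (nat_lit 11096) (nat_lit 0) (XT.lf (nat_lit 0) (nat_lit 969607415) (nat_lit 1824) (nat_lit 2015941701) (nat_lit 1900) (nat_lit 13016593646) (nat_lit 488) (nat_lit 5) (nat_lit 512) (nat_lit 5) (nat_lit 513) (nat_lit 5) (nat_lit 596) (nat_lit 581) (nat_lit 383)) (XT.nd (nat_lit 78) (nat_lit 760) (nat_lit 0) (XT.lf (nat_lit 0) (nat_lit 1656243024) (nat_lit 836) (nat_lit 4856768498) (nat_lit 76) (nat_lit 15271213360) (nat_lit 352) (nat_lit 5) (nat_lit 363) (nat_lit 5) (nat_lit 353) (nat_lit 5) (nat_lit 625) (nat_lit 581) (nat_lit 354)) (XT.lf (nat_lit 0) (nat_lit 4815726450) (nat_lit 836) (nat_lit 14380901490) (nat_lit 76) (nat_lit 2832035510) (nat_lit 342) (nat_lit 5) (nat_lit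 353) (nat_lit 5) (nat_lit 343) (nat_lit 5) (nat_lit 626) (nat_lit 581) (nat_lit 353))))) (XT.nd (nat_lit 156) (nat_lit 1368) (nat_lit 0) (XT.nd (nat_lit 78) (nat_lit 684) (nat_lit 0) (XT.lf (nat_lit 0) (nat_lit 8109896619) (nat_lit 836) (nat_lit 1857543549) (nat_lit 76) (nat_lit 12309120792) (nat_lit 342) (nat_lit 5) (nat_lit 353) (nat_lit 5) (nat_lit 343) (nat_lit 5) (nat_lit 627) (nat_lit 581) (nat_lit 352)) (XT.lf (nat_lit 0) (nat_lit 11056312539) (nat_lit 684) (nat_lit 481066918) (nat_lit 760) (nat_lit 10990688488) (nat_lit 333) (nat_lit 5) (nat_lit 342) (nat_lit 5) (nat_lit 343) (nat_lit 5) (nat_lit 628) (nat_lit 581) (nat_lit 351))) (XT.nd (nat_lit 78) (nat_lit 684) (nat_lit 0) (XT.lf (nat_lit 0) (nat_lit 1423127424) (nat_lit 684) (nat_lit 13687465836) (nat_lit 760) (nat_lit 7672468289) (nat_lit 324) (nat_lit 5) (nat_lit 333) (nat_lit 5) (nat_lit 334) (nat_lit 5) (nat_lit 629) (nat_lit 581) (nat_lit 350)) (XT.nd (nat_lit 78) (nat_lit 684) (nat_lit 0) (XT.lf (nat_lit 0) (nat_lit 14723191602) (nat_lit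 684) (nat_lit 4107971724) (nat_lit 760) (nat_lit 4210473967) (nat_lit 324) (nat_lit 5) (nat_lit 333) (nat_lit 5) (nat_lit 334) (nat_lit 5) (nat_lit 630) (nat_lit 581) (nat_lit 349)) (XT.lf (nat_lit 0) (nat_lit 5007810425) (nat_lit 684) (nat_lit 17683441365) (nat_lit 760) (nat_lit 612830724) (nat_lit 315) (nat_lit 5) (nat_lit 324) (nat_lit 5) (nat_lit 325) (nat_lit 5) (nat_lit 631) (nat_lit 581) (nat_lit 348)))))) (XT.nd (nat_lit 390) (nat_lit 1824) (nat_lit 0) (XT.nd (nat_lit 156) (nat_lit 1216) (nat_lit 0) (XT.nd (nat_lit 78) (nat_lit 684) (nat_lit 0) (XT.lf (nat_lit 0) (nat_lit 3095917966) (nat_lit 760) (nat_lit 4909725493) (nat_lit 76) (nat_lit 15564151496) (nat_lit 314) (nat_lit 5) (nat_lit 324) (nat_lit 5) (nat_lit 315) (nat_lit 5) (nat_lit 632) (nat_lit 581) (nat_lit 347)) (XT.lf (nat_lit 0) (nat_lit 6936558200) (nat_lit 760) (nat_lit 15000499504) (nat_lit 76) (nat_lit 1902364575) (nat_lit 305) (nat_lit 5) (nat_lit 315) (nat_lit 5) (nat_lit 306) (nat_lit 5) (nat_lit 633) (nat_lit 581) (nat_lit 346)))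 (XT.nd (nat_lit 78) (nat_lit 1216) (nat_lit 0) (XT.lf (nat_lit 0) (nat_lit 10936164693) (nat_lit 760) (nat_lit 1242861574) (nat_lit 76) (nat_lit 11933772909) (nat_lit 305) (nat_lit 5) (nat_lit 315) (nat_lit 5) (nat_lit 306) (nat_lit 5) (nat_lit 634) (nat_lit 581) (nat_lit 345)) (XT.nd (nat_lit 78) (nat_lit 608) (nat_lit 0) (XT.lf (nat_lit 0) (nat_lit 12954993740) (nat_lit 608) (nat_lit 2140931903) (nat_lit 684) (nat_lit 9294114814) (nat_lit 297) (nat_lit 5) (nat_lit 305) (nat_lit 5) (nat_lit 306) (nat_lit 5) (nat_lit 635) (nat_lit 581) (nat_lit 344)) (XT.lf (nat_lit 0) (nat_lit 2759672114) (nat_lit 608) (nat_lit 16654190155) (nat_lit 684) (nat_lit 5257464778) (nat_lit 289) (nat_lit 5) (nat_lit 297) (nat_lit 5) (nat_lit 298) (nat_lit 5) (nat_lit 636) (nat_lit 581) (nat_lit 343))))) (XT.nd (nat_lit 156) (nat_lit 1140) (nat_lit 0) (XT.nd (nat_lit 78) (nat_lit 684) (nat_lit 0) (XT.lf (nat_lit 0) (nat_lit 17374072865) (nat_lit 608) (nat_lit 6531040437) (nat_lit 684) (nat_lit 1051387043) (nat_lit 289) (nat_lit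 5) (nat_lit 297) (nat_lit 5) (nat_lit 298) (nat_lit 5) (nat_lit 637) (nat_lit 581) (nat_lit 342)) (XT.lf (nat_lit 0) (nat_lit 3263697966) (nat_lit 684) (nat_lit 18170509626) (nat_lit 76) (nat_lit 3811401766) (nat_lit 280) (nat_lit 5) (nat_lit 289) (nat_lit 5) (nat_lit 281) (nat_lit 5) (nat_lit 638) (nat_lit 581) (nat_lit 341))) (XT.nd (nat_lit 78) (nat_lit 1140) (nat_lit 0) (XT.lf (nat_lit 0) (nat_lit 7741714008) (nat_lit 684) (nat_lit 3466319089) (nat_lit 76) (nat_lit 14330514398) (nat_lit 280) (nat_lit 5) (nat_lit 289) (nat_lit 5) (nat_lit 281) (nat_lit 5) (nat_lit 639) (nat_lit 581) (nat_lit 340)) (XT.nd (nat_lit 78) (nat_lit 532) (nat_lit 0) (XT.lf (nat_lit 0) (nat_lit 11680396990) (nat_lit 608) (nat_lit 701027592) (nat_lit 684) (nat_lit 13454477211) (nat_lit 272) (nat_lit 5) (nat_lit 280) (nat_lit 5) (nat_lit 281) (nat_lit 5) (nat_lit 640) (nat_lit 581) (nat_lit 339)) (XT.lf (nat_lit 0) (nat_lit 981195560) (nat_lit 532) (nat_lit 16223882971) (nat_lit 608) (nat_lit 8932301744) (nat_lit 265) (nat_lit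 5) (nat_lit 272) (nat_lit 5) (nat_lit 273) (nat_lit 5) (nat_lit 641) (nat_lit 581) (nat_lit 338))))))))
noncomputable def xc169 : XT := (XT.nd (nat_lit 1560) (nat_lit 2432) (nat_lit 0) (XT.nd (nat_lit 780) (nat_lit 2812) (nat_lit 0) (XT.nd (nat_lit 390) (nat_lit 1596) (nat_lit 0) (XT.nd (nat_lit 156) (nat_lit 532) (nat_lit 0) (XT.nd (nat_lit 78) (nat_lit 684) (nat_lit 0) (XT.lf (nat_lit 0) (nat_lit 16603054766) (nat_lit 532) (nat_lit 5618127198) (nat_lit 608) (nat_lit 4221786914) (nat_lit 265) (nat_lit 5) (nat_lit 272) (nat_lit 5) (nat_lit 273) (nat_lit 5) (nat_lit 642) (nat_lit 581) (nat_lit 337)) (XT.lf (nat_lit 0) (nat_lit 643731448) (nat_lit 684) (nat_lit 20937008876) (nat_lit 76) (nat_lit 5172484539) (nat_lit 256) (nat_lit 5) (nat_lit 265) (nat_lit 5) (nat_lit 257) (nat_lit 5) (nat_lit 643) (nat_lit 581) (nat_lit 336))) (XT.nd (nat_lit 78) (nat_lit 532) (nat_lit 0) (XT.lf (nat_lit 0) (nat_lit 5650211145) (nat_lit 684) (nat_lit 5219855776) (nat_lit 76) (nat_lit 16197057387) (nat_lit 256) (nat_lit 5)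 (nat_lit 265) (nat_lit 5) (nat_lit 257) (nat_lit 5) (nat_lit 644) (nat_lit 581) (nat_lit 335)) (XT.nd (nat_lit 78) (nat_lit 0) (nat_lit 0) (XT.lf (nat_lit 0) (nat_lit 10825261222) (nat_lit 608) (nat_lit 16436155453) (nat_lit 76) (nat_lit 124516324) (nat_lit 249) (nat_lit 5) (nat_lit 257) (nat_lit 5) (nat_lit 250) (nat_lit 5) (nat_lit 645) (nat_lit 581) (nat_lit 334)) (XT.lf (nat_lit 0) (nat_lit 16207612974) (nat_lit 608) (nat_lit 273753587) (nat_lit 76) (nat_lit 11227675363) (nat_lit 249) (nat_lit 5) (nat_lit 257) (nat_lit 5) (nat_lit 250) (nat_lit 5) (nat_lit 646) (nat_lit 581) (nat_lit 333))))) (XT.nd (nat_lit 156) (nat_lit 608) (nat_lit 0) (XT.nd (nat_lit 78) (nat_lit 456) (nat_lit 0) (XT.lf (nat_lit 0) (nat_lit 16422697491) (nat_lit 532) (nat_lit 5378162415) (nat_lit 608) (nat_lit 6235688229) (nat_lit 242) (nat_lit 5) (nat_lit 249) (nat_lit 5) (nat_lit 250) (nat_lit 5) (nat_lit 647) (nat_lit 581) (nat_lit 332)) (XT.lf (nat_lit 0) (nat_lit 5110000185) (nat_lit 456) (nat_lit 22466260755) (nat_lit 532)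 (nat_lit 792937816) (nat_lit 236) (nat_lit 5) (nat_lit 242) (nat_lit 5) (nat_lit 243) (nat_lit 5) (nat_lit 648) (nat_lit 581) (nat_lit 331))) (XT.nd (nat_lit 78) (nat_lit 532) (nat_lit 0) (XT.lf (nat_lit 0) (nat_lit 4806988780) (nat_lit 532) (nat_lit 6452844749) (nat_lit 76) (nat_lit 17445836359) (nat_lit 235) (nat_lit 5) (nat_lit 242) (nat_lit 5) (nat_lit 236) (nat_lit 5) (nat_lit 649) (nat_lit 581) (nat_lit 330)) (XT.nd (nat_lit 78) (nat_lit 0) (nat_lit 0) (XT.lf (nat_lit 0) (nat_lit 10576898083) (nat_lit 608) (nat_lit 18227249129) (nat_lit 76) (nat_lit 243246440) (nat_lit 228) (nat_lit 5) (nat_lit 236) (nat_lit 5) (nat_lit 229) (nat_lit 5) (nat_lit 650) (nat_lit 581) (nat_lit 329)) (XT.lf (nat_lit 0) (nat_lit 16577118592) (nat_lit 608) (nat_lit 948441753) (nat_lit 76) (nat_lit 11868093347) (nat_lit 228) (nat_lit 5) (nat_lit 236) (nat_lit 5) (nat_lit 229) (nat_lit 5) (nat_lit 651) (nat_lit 581) (nat_lit 328)))))) (XT.nd (nat_lit 390) (nat_lit 1368) (nat_lit 0) (XT.nd (nat_lit 156) (nat_lit 532) (nat_lit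 0) (XT.nd (nat_lit 78) (nat_lit 456) (nat_lit 0) (XT.lf (nat_lit 0) (nat_lit 16893021995) (nat_lit 456) (nat_lit 5910821666) (nat_lit 532) (nat_lit 6940865333) (nat_lit 222) (nat_lit 5) (nat_lit 228) (nat_lit 5) (nat_lit 229) (nat_lit 5) (nat_lit 652) (nat_lit 581) (nat_lit 327)) (XT.lf (nat_lit 0) (nat_lit 5024324297) (nat_lit 456) (nat_lit 24205193215) (nat_lit 532) (nat_lit 871779666) (nat_lit 216) (nat_lit 5) (nat_lit 222) (nat_lit 5) (nat_lit 223) (nat_lit 5) (nat_lit 653) (nat_lit 581) (nat_lit 326))) (XT.nd (nat_lit 78) (nat_lit 456) (nat_lit 0) (XT.lf (nat_lit 0) (nat_lit 5371746029) (nat_lit 532) (nat_lit 7109988731) (nat_lit 76) (nat_lit 17980135500) (nat_lit 215) (nat_lit 5) (nat_lit 222) (nat_lit 5) (nat_lit 216) (nat_lit 5) (nat_lit 654) (nat_lit 581) (nat_lit 325)) (XT.nd (nat_lit 78) (nat_lit 0) (nat_lit 0) (XT.lf (nat_lit 0) (nat_lit 11355061719) (nat_lit 456) (nat_lit 444061154) (nat_lit 532) (nat_lit 19029003663) (nat_lit 209) (nat_lit 5) (nat_lit 215) (nat_lit 5) (nat_lit 216) (nat_lit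 5) (nat_lit 655) (nat_lit 581) (nat_lit 324)) (XT.lf (nat_lit 0) (nat_lit 18476852971) (nat_lit 532) (nat_lit 996562184) (nat_lit 76) (nat_lit 11725856725) (nat_lit 209) (nat_lit 5) (nat_lit 216) (nat_lit 5) (nat_lit 210) (nat_lit 5) (nat_lit 656) (nat_lit 581) (nat_lit 323))))) (XT.nd (nat_lit 156) (nat_lit 456) (nat_lit 0) (XT.nd (nat_lit 78) (nat_lit 456) (nat_lit 0) (XT.lf (nat_lit 0) (nat_lit 18079283038) (nat_lit 456) (nat_lit 7326179528) (nat_lit 532) (nat_lit 6170031123) (nat_lit 203) (nat_lit 5) (nat_lit 209) (nat_lit 5) (nat_lit 210) (nat_lit 5) (nat_lit 657) (nat_lit 581) (nat_lit 322)) (XT.lf (nat_lit 0) (nat_lit 580327154) (nat_lit 456) (nat_lit 26334045268) (nat_lit 76) (nat_lit 5043327776) (nat_lit 197) (nat_lit 5) (nat_lit 203) (nat_lit 5) (nat_lit 198) (nat_lit 5) (nat_lit 658) (nat_lit 581) (nat_lit 321))) (XT.nd (nat_lit 78) (nat_lit 456) (nat_lit 0) (XT.lf (nat_lit 0) (nat_lit 7519871071) (nat_lit 456) (nat_lit 7131247886) (nat_lit 76) (nat_lit 17692880350) (nat_lit 197) (nat_lit 5) (nat_lit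 203) (nat_lit 5) (nat_lit 198) (nat_lit 5) (nat_lit 659) (nat_lit 581) (nat_lit 320)) (XT.nd (nat_lit 78) (nat_lit 0) (nat_lit 0) (XT.lf (nat_lit 0) (nat_lit 12616770542) (nat_lit 456) (nat_lit 2060443691) (nat_lit 532) (nat_lit 18059230051) (nat_lit 191) (nat_lit 5) (nat_lit 197) (nat_lit 5) (nat_lit 198) (nat_lit 5) (nat_lit 660) (nat_lit 581) (nat_lit 319)) (XT.lf (nat_lit 0) (nat_lit 22092991878) (nat_lit 532) (nat_lit 354013224) (nat_lit 76) (nat_lit 10687427357) (nat_lit 191) (nat_lit 5) (nat_lit 198) (nat_lit 5) (nat_lit 192) (nat_lit 5) (nat_lit 661) (nat_lit 581) (nat_lit 318))))))) (XT.nd (nat_lit 75036) (nat_lit 0) (nat_lit 26372) (XT.nd (nat_lit 390) (nat_lit 836) (nat_lit 0) (XT.nd (nat_lit 156) (nat_lit 760) (nat_lit 0) (XT.nd (nat_lit 78) (nat_lit 456) (nat_lit 0) (XT.lf (nat_lit 0) (nat_lit 20052060057) (nat_lit 380) (nat_lit 9746030328) (nat_lit 456) (nat_lit 3739469955) (nat_lit 186) (nat_lit 5) (nat_lit 191) (nat_lit 5) (nat_lit 192) (nat_lit 5) (nat_lit 662) (nat_lit 581) (nat_lit 317))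 (XT.lf (nat_lit 0) (nat_lit 3726127920) (nat_lit 456) (nat_lit 26983049063) (nat_lit 76) (nat_lit 3237767757) (nat_lit 180) (nat_lit 5) (nat_lit 186) (nat_lit 5) (nat_lit 181) (nat_lit 5) (nat_lit 663) (nat_lit 581) (nat_lit 316))) (XT.nd (nat_lit 78) (nat_lit 760) (nat_lit 0) (XT.lf (nat_lit 0) (nat_lit 11443847299) (nat_lit 456) (nat_lit 6451804938) (nat_lit 76) (nat_lit 16465312659) (nat_lit 180) (nat_lit 5) (nat_lit 186) (nat_lit 5) (nat_lit 181) (nat_lit 5) (nat_lit 664) (nat_lit 581) (nat_lit 315)) (XT.nd (nat_lit 78) (nat_lit 380) (nat_lit 0) (XT.lf (nat_lit 0) (nat_lit 14678387668) (nat_lit 380) (nat_lit 4730087076) (nat_lit 456) (nat_lit 15372939682) (nat_lit 175) (nat_lit 5) (nat_lit 180) (nat_lit 5) (nat_lit 181) (nat_lit 5) (nat_lit 665) (nat_lit 581) (nat_lit 314)) (XT.lf (nat_lit 0) (nat_lit 1062195146) (nat_lit 380) (nat_lit 26574425513) (nat_lit 456) (nat_lit 7571567817) (nat_lit 170) (nat_lit 5) (nat_lit 175) (nat_lit 5) (nat_lit 176) (nat_lit 5) (nat_lit 666) (nat_lit 581) (nat_lit 313)))))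 (XT.nd (nat_lit 156) (nat_lit 380) (nat_lit 0) (XT.nd (nat_lit 78) (nat_lit 380) (nat_lit 0) (XT.lf (nat_lit 0) (nat_lit 545169475) (nat_lit 456) (nat_lit 12756512459) (nat_lit 76) (nat_lit 22338478048) (nat_lit 169) (nat_lit 5) (nat_lit 175) (nat_lit 5) (nat_lit 170) (nat_lit 5) (nat_lit 667) (nat_lit 581) (nat_lit 312)) (XT.lf (nat_lit 0) (nat_lit 8781788054) (nat_lit 456) (nat_lit 26954710044) (nat_lit 76) (nat_lit 342093305) (nat_lit 164) (nat_lit 5) (nat_lit 170) (nat_lit 5) (nat_lit 165) (nat_lit 5) (nat_lit 668) (nat_lit 581) (nat_lit 311))) (XT.nd (nat_lit 78) (nat_lit 380) (nat_lit 0) (XT.lf (nat_lit 0) (nat_lit 17354746903) (nat_lit 456) (nat_lit 5002081892) (nat_lit 76) (nat_lit 14165530541) (nat_lit 164) (nat_lit 5) (nat_lit 170) (nat_lit 5) (nat_lit 165) (nat_lit 5) (nat_lit 669) (nat_lit 581) (nat_lit 310)) (XT.nd (nat_lit 74334) (nat_lit 0) (nat_lit 26372) (XT.lf (nat_lit 0) (nat_lit 17616578793) (nat_lit 380) (nat_lit 8594364132) (nat_lit 456) (nat_lit 10761824183) (nat_lit 159) (nat_lit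 5) (nat_lit 164) (nat_lit 5) (nat_lit 165) (nat_lit 5) (nat_lit 670) (nat_lit 581) (nat_lit 309)) (XT.lf (nat_lit 0) (nat_lit 1528515009) (nat_lit 0) (nat_lit 1528515009) (nat_lit 1748) (nat_lit 3987489205) (nat_lit 506) (nat_lit 5) (nat_lit 506) (nat_lit 3) (nat_lit 529) (nat_lit 3) (nat_lit 582) (nat_lit 582) (nat_lit 396)))))) (XT.nd (nat_lit 390) (nat_lit 0) (nat_lit 152) (XT.nd (nat_lit 156) (nat_lit 0) (nat_lit 76) (XT.nd (nat_lit 78) (nat_lit 0) (nat_lit 0) (XT.lf (nat_lit 0) (nat_lit 6539943077) (nat_lit 1748) (nat_lit 4037278212) (nat_lit 1824) (nat_lit 3645402108) (nat_lit 506) (nat_lit 5) (nat_lit 529) (nat_lit 3) (nat_lit 530) (nat_lit 5) (nat_lit 583) (nat_lit 582) (nat_lit 395)) (XT.lf (nat_lit 76) (nat_lit 3113255098) (nat_lit 0) (nat_lit 3892637998) (nat_lit 1824) (nat_lit 7352356237) (nat_lit 507) (nat_lit 5) (nat_lit 506) (nat_lit 5) (nat_lit 530) (nat_lit 5) (nat_lit 584) (nat_lit 582) (nat_lit 394))) (XT.nd (nat_lit 78) (nat_lit 0) (nat_lit 0) (XT.lf (nat_lit 0) (nat_lit 7518691007) (nat_lit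 1748) (nat_lit 4058543813) (nat_lit 1824) (nat_lit 2918602665) (nat_lit 507) (nat_lit 5) (nat_lit 530) (nat_lit 5) (nat_lit 531) (nat_lit 5) (nat_lit 585) (nat_lit 582) (nat_lit 393)) (XT.nd (nat_lit 78) (nat_lit 0) (nat_lit 76) (XT.lf (nat_lit 76) (nat_lit 3284175468) (nat_lit 0) (nat_lit 4796104878) (nat_lit 1824) (nat_lit 6555126610) (nat_lit 508) (nat_lit 5) (nat_lit 507) (nat_lit 5) (nat_lit 531) (nat_lit 5) (nat_lit 586) (nat_lit 582) (nat_lit 392)) (XT.lf (nat_lit 0) (nat_lit 8685880199) (nat_lit 1748) (nat_lit 3967323654) (nat_lit 1824) (nat_lit 2123908651) (nat_lit 508) (nat_lit 5) (nat_lit 531) (nat_lit 5) (nat_lit 532) (nat_lit 5) (nat_lit 587) (nat_lit 582) (nat_lit 391))))) (XT.nd (nat_lit 234) (nat_lit 0) (nat_lit 152) (XT.nd (nat_lit 78) (nat_lit 0) (nat_lit 76) (XT.lf (nat_lit 76) (nat_lit 3574562171) (nat_lit 0) (nat_lit 5775760145) (nat_lit 1824) (nat_lit 5570395498) (nat_lit 509) (nat_lit 5) (nat_lit 508) (nat_lit 5) (nat_lit 532) (nat_lit 5) (nat_lit 588) (nat_lit 582) (nat_lit 390))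 (XT.nd (nat_lit 78) (nat_lit 0) (nat_lit 0) (XT.lf (nat_lit 0) (nat_lit 10054809961) (nat_lit 1748) (nat_lit 3758792401) (nat_lit 1824) (nat_lit 1253057987) (nat_lit 509) (nat_lit 5) (nat_lit 532) (nat_lit 5) (nat_lit 533) (nat_lit 5) (nat_lit 589) (nat_lit 582) (nat_lit 389)) (XT.lf (nat_lit 76) (nat_lit 3989517526) (nat_lit 0) (nat_lit 6840092712) (nat_lit 1824) (nat_lit 4384787284) (nat_lit 510) (nat_lit 5) (nat_lit 509) (nat_lit 5) (nat_lit 533) (nat_lit 5) (nat_lit 590) (nat_lit 582) (nat_lit 388)))) (XT.nd (nat_lit 78) (nat_lit 0) (nat_lit 0) (XT.lf (nat_lit 0) (nat_lit 11639282319) (nat_lit 1748) (nat_lit 3427795996) (nat_lit 1824) (nat_lit 297623851) (nat_lit 510) (nat_lit 5) (nat_lit 533) (nat_lit 5) (nat_lit 534) (nat_lit 5) (nat_lit 591) (nat_lit 582) (nat_lit 387)) (XT.nd (nat_lit 78) (nat_lit 0) (nat_lit 0) (XT.lf (nat_lit 76) (nat_lit 4534482703) (nat_lit 0) (nat_lit 7997770826) (nat_lit 1824) (nat_lit 2984417496) (nat_lit 511) (nat_lit 5) (nat_lit 510) (nat_lit 5) (nat_lit 534) (nat_lit 5)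 (nat_lit 592) (nat_lit 582) (nat_lit 386)) (XT.lf (nat_lit 76) (nat_lit 12697585103) (nat_lit 0) (nat_lit 760985523) (nat_lit 1824) (nat_lit 2212799139) (nat_lit 511) (nat_lit 5) (nat_lit 510) (nat_lit 5) (nat_lit 534) (nat_lit 5) (nat_lit 593) (nat_lit 582) (nat_lit 385))))))))
noncomputable def xc170 : XT := (XT.nd (nat_lit 3744) (nat_lit 6156) (nat_lit 0) (XT.nd (nat_lit 2964) (nat_lit 3952) (nat_lit 0) (XT.nd (nat_lit 2574) (nat_lit 2128) (nat_lit 0) (XT.nd (nat_lit 2340) (nat_lit 12084) (nat_lit 0) (XT.nd (nat_lit 78) (nat_lit 0) (nat_lit 0) (XT.lf (nat_lit 76) (nat_lit 5215245983) (nat_lit 0) (nat_lit 9257662078) (nat_lit 1824) (nat_lit 1354864766) (nat_lit 512) (nat_lit 5) (nat_lit 511) (nat_lit 5) (nat_lit 535) (nat_lit 5) (nat_lit 594) (nat_lit 582) (nat_lit 384)) (XT.lf (nat_lit 76) (nat_lit 13598338592) (nat_lit 0) (nat_lit 1926916243) (nat_lit 1824) (nat_lit 461694888) (nat_lit 512) (nat_lit 5) (nat_lit 511) (nat_lit 5) (nat_lit 535) (nat_lit 5) (nat_lit 595) (nat_lit 582) (nat_lit 383))) (XT.nd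 (nat_lit 78) (nat_lit 836) (nat_lit 0) (XT.lf (nat_lit 0) (nat_lit 14316643080) (nat_lit 760) (nat_lit 3326631638) (nat_lit 836) (nat_lit 4081212790) (nat_lit 363) (nat_lit 5) (nat_lit 373) (nat_lit 5) (nat_lit 374) (nat_lit 5) (nat_lit 624) (nat_lit 582) (nat_lit 354)) (XT.nd (nat_lit 78) (nat_lit 76) (nat_lit 0) (XT.lf (nat_lit 0) (nat_lit 4958722168) (nat_lit 760) (nat_lit 15928650941) (nat_lit 836) (nat_lit 1079860612) (nat_lit 353) (nat_lit 5) (nat_lit 363) (nat_lit 5) (nat_lit 364) (nat_lit 5) (nat_lit 625) (nat_lit 582) (nat_lit 353)) (XT.lf (nat_lit 0) (nat_lit 2023194248) (nat_lit 836) (nat_lit 4580953758) (nat_lit 76) (nat_lit 15609076385) (nat_lit 352) (nat_lit 5) (nat_lit 363) (nat_lit 5) (nat_lit 353) (nat_lit 5) (nat_lit 626) (nat_lit 582) (nat_lit 352))))) (XT.nd (nat_lit 156) (nat_lit 1368) (nat_lit 0) (XT.nd (nat_lit 78) (nat_lit 0) (nat_lit 0) (XT.lf (nat_lit 0) (nat_lit 5241992204) (nat_lit 836) (nat_lit 14291685976) (nat_lit 76) (nat_lit 2928951220) (nat_lit 342) (nat_lit 5) (nat_lit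 353) (nat_lit 5) (nat_lit 343) (nat_lit 5) (nat_lit 627) (nat_lit 582) (nat_lit 351)) (XT.lf (nat_lit 0) (nat_lit 8595576145) (nat_lit 836) (nat_lit 1525249769) (nat_lit 76) (nat_lit 12594788501) (nat_lit 342) (nat_lit 5) (nat_lit 353) (nat_lit 5) (nat_lit 343) (nat_lit 5) (nat_lit 628) (nat_lit 582) (nat_lit 350))) (XT.nd (nat_lit 78) (nat_lit 684) (nat_lit 0) (XT.lf (nat_lit 0) (nat_lit 11644452884) (nat_lit 684) (nat_lit 443195878) (nat_lit 760) (nat_lit 10884582134) (nat_lit 333) (nat_lit 5) (nat_lit 342) (nat_lit 5) (nat_lit 343) (nat_lit 5) (nat_lit 629) (nat_lit 582) (nat_lit 349)) (XT.nd (nat_lit 78) (nat_lit 0) (nat_lit 0) (XT.lf (nat_lit 0) (nat_lit 1822239489) (nat_lit 684) (nat_lit 13906531029) (nat_lit 760) (nat_lit 7503625138) (nat_lit 324) (nat_lit 5) (nat_lit 333) (nat_lit 5) (nat_lit 334) (nat_lit 5) (nat_lit 630) (nat_lit 582) (nat_lit 348)) (XT.lf (nat_lit 0) (nat_lit 15381037313) (nat_lit 684) (nat_lit 4136519272) (nat_lit 760) (nat_lit 3978710390) (nat_lit 324) (nat_lit 5) (nat_lit 333)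 (nat_lit 5) (nat_lit 334) (nat_lit 5) (nat_lit 631) (nat_lit 582) (nat_lit 347)))))) (XT.nd (nat_lit 390) (nat_lit 1900) (nat_lit 0) (XT.nd (nat_lit 156) (nat_lit 1292) (nat_lit 0) (XT.nd (nat_lit 78) (nat_lit 76) (nat_lit 0) (XT.lf (nat_lit 0) (nat_lit 5474774302) (nat_lit 684) (nat_lit 17976721413) (nat_lit 760) (nat_lit 312532559) (nat_lit 315) (nat_lit 5) (nat_lit 324) (nat_lit 5) (nat_lit 325) (nat_lit 5) (nat_lit 632) (nat_lit 582) (nat_lit 346)) (XT.lf (nat_lit 0) (nat_lit 3460243744) (nat_lit 760) (nat_lit 4644278585) (nat_lit 76) (nat_lit 15930613155) (nat_lit 314) (nat_lit 5) (nat_lit 324) (nat_lit 5) (nat_lit 315) (nat_lit 5) (nat_lit 633) (nat_lit 582) (nat_lit 345))) (XT.nd (nat_lit 78) (nat_lit 608) (nat_lit 0) (XT.lf (nat_lit 0) (nat_lit 7374518004) (nat_lit 760) (nat_lit 14933682217) (nat_lit 76) (nat_lit 2002018852) (nat_lit 305) (nat_lit 5) (nat_lit 315) (nat_lit 5) (nat_lit 306) (nat_lit 5) (nat_lit 634) (nat_lit 582) (nat_lit 344)) (XT.nd (nat_lit 78) (nat_lit 608) (nat_lit 0) (XT.lf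 (nat_lit 0) (nat_lit 11448249398) (nat_lit 760) (nat_lit 908084220) (nat_lit 76) (nat_lit 12232847372) (nat_lit 305) (nat_lit 5) (nat_lit 315) (nat_lit 5) (nat_lit 306) (nat_lit 5) (nat_lit 635) (nat_lit 582) (nat_lit 343)) (XT.lf (nat_lit 0) (nat_lit 13571362184) (nat_lit 608) (nat_lit 2116410823) (nat_lit 684) (nat_lit 9184262877) (nat_lit 297) (nat_lit 5) (nat_lit 305) (nat_lit 5) (nat_lit 306) (nat_lit 5) (nat_lit 636) (nat_lit 582) (nat_lit 342))))) (XT.nd (nat_lit 156) (nat_lit 1292) (nat_lit 0) (XT.nd (nat_lit 78) (nat_lit 0) (nat_lit 0) (XT.lf (nat_lit 0) (nat_lit 3175116525) (nat_lit 608) (nat_lit 16914034590) (nat_lit 684) (nat_lit 5069855569) (nat_lit 289) (nat_lit 5) (nat_lit 297) (nat_lit 5) (nat_lit 298) (nat_lit 5) (nat_lit 637) (nat_lit 582) (nat_lit 341)) (XT.lf (nat_lit 0) (nat_lit 18074741546) (nat_lit 608) (nat_lit 6589857944) (nat_lit 684) (nat_lit 785396642) (nat_lit 289) (nat_lit 5) (nat_lit 297) (nat_lit 5) (nat_lit 298) (nat_lit 5) (nat_lit 638) (nat_lit 582) (nat_lit 340))) (XT.nd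 (nat_lit 78) (nat_lit 608) (nat_lit 0) (XT.lf (nat_lit 0) (nat_lit 3609458536) (nat_lit 684) (nat_lit 18174188364) (nat_lit 76) (nat_lit 3961258626) (nat_lit 280) (nat_lit 5) (nat_lit 289) (nat_lit 5) (nat_lit 281) (nat_lit 5) (nat_lit 639) (nat_lit 582) (nat_lit 339)) (XT.nd (nat_lit 78) (nat_lit 608) (nat_lit 0) (XT.lf (nat_lit 0) (nat_lit 8171535161) (nat_lit 684) (nat_lit 3182967574) (nat_lit 76) (nat_lit 14689309808) (nat_lit 280) (nat_lit 5) (nat_lit 289) (nat_lit 5) (nat_lit 281) (nat_lit 5) (nat_lit 640) (nat_lit 582) (nat_lit 338)) (XT.lf (nat_lit 0) (nat_lit 12264362577) (nat_lit 608) (nat_lit 636560225) (nat_lit 684) (nat_lit 13446253590) (nat_lit 272) (nat_lit 5) (nat_lit 280) (nat_lit 5) (nat_lit 281) (nat_lit 5) (nat_lit 641) (nat_lit 582) (nat_lit 337))))))) (XT.nd (nat_lit 780) (nat_lit 2812) (nat_lit 0) (XT.nd (nat_lit 390) (nat_lit 1596) (nat_lit 0) (XT.nd (nat_lit 156) (nat_lit 1216) (nat_lit 0) (XT.nd (nat_lit 78) (nat_lit 0) (nat_lit 0) (XT.lf (nat_lit 0) (nat_lit 1353773516) (nat_lit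 532) (nat_lit 16464736750) (nat_lit 608) (nat_lit 8836225087) (nat_lit 265) (nat_lit 5) (nat_lit 272) (nat_lit 5) (nat_lit 273) (nat_lit 5) (nat_lit 642) (nat_lit 582) (nat_lit 336)) (XT.lf (nat_lit 0) (nat_lit 17281149239) (nat_lit 532) (nat_lit 5648505545) (nat_lit 608) (nat_lit 4036886680) (nat_lit 265) (nat_lit 5) (nat_lit 272) (nat_lit 5) (nat_lit 273) (nat_lit 5) (nat_lit 643) (nat_lit 582) (nat_lit 335))) (XT.nd (nat_lit 78) (nat_lit 532) (nat_lit 0) (XT.lf (nat_lit 0) (nat_lit 920000687) (nat_lit 684) (nat_lit 21003763037) (nat_lit 76) (nat_lit 5359252161) (nat_lit 256) (nat_lit 5) (nat_lit 265) (nat_lit 5) (nat_lit 257) (nat_lit 5) (nat_lit 644) (nat_lit 582) (nat_lit 334)) (XT.nd (nat_lit 78) (nat_lit 532) (nat_lit 0) (XT.lf (nat_lit 0) (nat_lit 6021445377) (nat_lit 684) (nat_lit 4979168562) (nat_lit 76) (nat_lit 16602682782) (nat_lit 256) (nat_lit 5) (nat_lit 265) (nat_lit 5) (nat_lit 257) (nat_lit 5) (nat_lit 645) (nat_lit 582) (nat_lit 333)) (XT.lf (nat_lit 0) (nat_lit 11297726498) (nat_lit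 608) (nat_lit 16417518908) (nat_lit 76) (nat_lit 213281687) (nat_lit 249) (nat_lit 5) (nat_lit 257) (nat_lit 5) (nat_lit 250) (nat_lit 5) (nat_lit 646) (nat_lit 582) (nat_lit 332))))) (XT.nd (nat_lit 156) (nat_lit 1064) (nat_lit 0) (XT.nd (nat_lit 78) (nat_lit 0) (nat_lit 0) (XT.lf (nat_lit 0) (nat_lit 62134931) (nat_lit 532) (nat_lit 16720974950) (nat_lit 608) (nat_lit 11475080728) (nat_lit 242) (nat_lit 5) (nat_lit 249) (nat_lit 5) (nat_lit 250) (nat_lit 5) (nat_lit 647) (nat_lit 582) (nat_lit 331)) (XT.lf (nat_lit 0) (nat_lit 17089459669) (nat_lit 532) (nat_lit 5395634767) (nat_lit 608) (nat_lit 6107215158) (nat_lit 242) (nat_lit 5) (nat_lit 249) (nat_lit 5) (nat_lit 250) (nat_lit 5) (nat_lit 648) (nat_lit 582) (nat_lit 330))) (XT.nd (nat_lit 78) (nat_lit 608) (nat_lit 0) (XT.lf (nat_lit 0) (nat_lit 5552638433) (nat_lit 456) (nat_lit 22821281862) (nat_lit 532) (nat_lit 557734697) (nat_lit 236) (nat_lit 5) (nat_lit 242) (nat_lit 5) (nat_lit 243) (nat_lit 5) (nat_lit 649) (nat_lit 582) (nat_lit 329)) (XT.nd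 (nat_lit 78) (nat_lit 532) (nat_lit 0) (XT.lf (nat_lit 0) (nat_lit 5146039491) (nat_lit 532) (nat_lit 6244905641) (nat_lit 76) (nat_lit 17883975076) (nat_lit 235) (nat_lit 5) (nat_lit 242) (nat_lit 5) (nat_lit 236) (nat_lit 5) (nat_lit 650) (nat_lit 582) (nat_lit 328)) (XT.lf (nat_lit 0) (nat_lit 11029370907) (nat_lit 608) (nat_lit 18252817271) (nat_lit 76) (nat_lit 341329885) (nat_lit 228) (nat_lit 5) (nat_lit 236) (nat_lit 5) (nat_lit 229) (nat_lit 5) (nat_lit 651) (nat_lit 582) (nat_lit 327)))))) (XT.nd (nat_lit 390) (nat_lit 1368) (nat_lit 0) (XT.nd (nat_lit 156) (nat_lit 988) (nat_lit 0) (XT.nd (nat_lit 78) (nat_lit 456) (nat_lit 0) (XT.lf (nat_lit 0) (nat_lit 17144871614) (nat_lit 608) (nat_lit 635080353) (nat_lit 76) (nat_lit 12196845916) (nat_lit 228) (nat_lit 5) (nat_lit 236) (nat_lit 5) (nat_lit 229) (nat_lit 5) (nat_lit 652) (nat_lit 582) (nat_lit 326)) (XT.lf (nat_lit 0) (nat_lit 17561026288) (nat_lit 456) (nat_lit 5932616828) (nat_lit 532) (nat_lit 6841281028) (nat_lit 222) (nat_lit 5) (nat_lit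 228) (nat_lit 5) (nat_lit 229) (nat_lit 5) (nat_lit 653) (nat_lit 582) (nat_lit 325))) (XT.nd (nat_lit 78) (nat_lit 532) (nat_lit 0) (XT.lf (nat_lit 0) (nat_lit 5456808973) (nat_lit 456) (nat_lit 24589207984) (nat_lit 532) (nat_lit 652663494) (nat_lit 216) (nat_lit 5) (nat_lit 222) (nat_lit 5) (nat_lit 223) (nat_lit 5) (nat_lit 654) (nat_lit 582) (nat_lit 324)) (XT.nd (nat_lit 78) (nat_lit 456) (nat_lit 0) (XT.lf (nat_lit 0) (nat_lit 5708052857) (nat_lit 532) (nat_lit 6923654182) (nat_lit 76) (nat_lit 18434818872) (nat_lit 215) (nat_lit 5) (nat_lit 222) (nat_lit 5) (nat_lit 216) (nat_lit 5) (nat_lit 655) (nat_lit 582) (nat_lit 323)) (XT.lf (nat_lit 0) (nat_lit 11908535867) (nat_lit 456) (nat_lit 353072716) (nat_lit 532) (nat_lit 19178546187) (nat_lit 209) (nat_lit 5) (nat_lit 215) (nat_lit 5) (nat_lit 216) (nat_lit 5) (nat_lit 656) (nat_lit 582) (nat_lit 322))))) (XT.nd (nat_lit 234) (nat_lit 456) (nat_lit 0) (XT.nd (nat_lit 78) (nat_lit 912) (nat_lit 0) (XT.lf (nat_lit 0) (nat_lit 19069087749) (nat_lit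 532) (nat_lit 692710301) (nat_lit 76) (nat_lit 12057001166) (nat_lit 209) (nat_lit 5) (nat_lit 216) (nat_lit 5) (nat_lit 210) (nat_lit 5) (nat_lit 657) (nat_lit 582) (nat_lit 321)) (XT.nd (nat_lit 78) (nat_lit 456) (nat_lit 0) (XT.lf (nat_lit 0) (nat_lit 18762521673) (nat_lit 456) (nat_lit 7371469625) (nat_lit 532) (nat_lit 6068599808) (nat_lit 203) (nat_lit 5) (nat_lit 209) (nat_lit 5) (nat_lit 210) (nat_lit 5) (nat_lit 658) (nat_lit 582) (nat_lit 320)) (XT.lf (nat_lit 0) (nat_lit 812227692) (nat_lit 456) (nat_lit 26534527361) (nat_lit 76) (nat_lit 5245689361) (nat_lit 197) (nat_lit 5) (nat_lit 203) (nat_lit 5) (nat_lit 198) (nat_lit 5) (nat_lit 659) (nat_lit 582) (nat_lit 319)))) (XT.nd (nat_lit 78) (nat_lit 456) (nat_lit 0) (XT.lf (nat_lit 0) (nat_lit 7886242997) (nat_lit 456) (nat_lit 6954070087) (nat_lit 76) (nat_lit 18146242888) (nat_lit 197) (nat_lit 5) (nat_lit 203) (nat_lit 5) (nat_lit 198) (nat_lit 5) (nat_lit 660) (nat_lit 582) (nat_lit 318)) (XT.nd (nat_lit 78) (nat_lit 0) (nat_lit 0) (XT.lf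 (nat_lit 0) (nat_lit 13186804745) (nat_lit 456) (nat_lit 1997756194) (nat_lit 532) (nat_lit 18202332426) (nat_lit 191) (nat_lit 5) (nat_lit 197) (nat_lit 5) (nat_lit 198) (nat_lit 5) (nat_lit 661) (nat_lit 582) (nat_lit 317)) (XT.lf (nat_lit 0) (nat_lit 22745123270) (nat_lit 532) (nat_lit 46089534) (nat_lit 76) (nat_lit 11001699189) (nat_lit 191) (nat_lit 5) (nat_lit 198) (nat_lit 5) (nat_lit 192) (nat_lit 5) (nat_lit 662) (nat_lit 582) (nat_lit 316))))))))
noncomputable def xc171 : XT := (XT.nd (nat_lit 78078) (nat_lit 0) (nat_lit 7676) (XT.nd (nat_lit 75114) (nat_lit 0) (nat_lit 25992) (XT.nd (nat_lit 390) (nat_lit 456) (nat_lit 0) (XT.nd (nat_lit 156) (nat_lit 760) (nat_lit 0) (XT.nd (nat_lit 78) (nat_lit 456) (nat_lit 0) (XT.lf (nat_lit 0) (nat_lit 20766032818) (nat_lit 380) (nat_lit 9836199717) (nat_lit 456) (nat_lit 3601911794) (nat_lit 186) (nat_lit 5) (nat_lit 191) (nat_lit 5) (nat_lit 192) (nat_lit 5) (nat_lit 663) (nat_lit 582) (nat_lit 315)) (XT.lf (nat_lit 0) (nat_lit 4008829586) (nat_lit 456)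 (nat_lit 27205603021) (nat_lit 76) (nat_lit 3407283974) (nat_lit 180) (nat_lit 5) (nat_lit 186) (nat_lit 5) (nat_lit 181) (nat_lit 5) (nat_lit 664) (nat_lit 582) (nat_lit 314))) (XT.nd (nat_lit 78) (nat_lit 760) (nat_lit 0) (XT.lf (nat_lit 0) (nat_lit 11876821410) (nat_lit 456) (nat_lit 6269951799) (nat_lit 76) (nat_lit 16897325639) (nat_lit 180) (nat_lit 5) (nat_lit 186) (nat_lit 5) (nat_lit 181) (nat_lit 5) (nat_lit 665) (nat_lit 582) (nat_lit 313)) (XT.nd (nat_lit 78) (nat_lit 380) (nat_lit 0) (XT.lf (nat_lit 0) (nat_lit 15280799336) (nat_lit 380) (nat_lit 4717945383) (nat_lit 456) (nat_lit 15474252652) (nat_lit 175) (nat_lit 5) (nat_lit 180) (nat_lit 5) (nat_lit 181) (nat_lit 5) (nat_lit 666) (nat_lit 582) (nat_lit 312)) (XT.lf (nat_lit 0) (nat_lit 1393581337) (nat_lit 380) (nat_lit 26996602569) (nat_lit 456) (nat_lit 7518148452) (nat_lit 170) (nat_lit 5) (nat_lit 175) (nat_lit 5) (nat_lit 176) (nat_lit 5) (nat_lit 667) (nat_lit 582) (nat_lit 311))))) (XT.nd (nat_lit 156) (nat_lit 0) (nat_lit 0) (XT.nd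 (nat_lit 78) (nat_lit 380) (nat_lit 0) (XT.lf (nat_lit 0) (nat_lit 754272930) (nat_lit 456) (nat_lit 12704944523) (nat_lit 76) (nat_lit 22889778583) (nat_lit 169) (nat_lit 5) (nat_lit 175) (nat_lit 5) (nat_lit 170) (nat_lit 5) (nat_lit 668) (nat_lit 582) (nat_lit 310)) (XT.lf (nat_lit 0) (nat_lit 9154419522) (nat_lit 456) (nat_lit 27185898620) (nat_lit 76) (nat_lit 455902094) (nat_lit 164) (nat_lit 5) (nat_lit 170) (nat_lit 5) (nat_lit 165) (nat_lit 5) (nat_lit 669) (nat_lit 582) (nat_lit 309))) (XT.nd (nat_lit 74412) (nat_lit 0) (nat_lit 25992) (XT.lf (nat_lit 0) (nat_lit 17894974887) (nat_lit 456) (nat_lit 4800255270) (nat_lit 76) (nat_lit 14553710683) (nat_lit 164) (nat_lit 5) (nat_lit 170) (nat_lit 5) (nat_lit 165) (nat_lit 5) (nat_lit 670) (nat_lit 582) (nat_lit 308)) (XT.nd (nat_lit 78) (nat_lit 0) (nat_lit 0) (XT.lf (nat_lit 0) (nat_lit 1728358856) (nat_lit 0) (nat_lit 1728358856) (nat_lit 1748) (nat_lit 3721910435) (nat_lit 506) (nat_lit 5) (nat_lit 506) (nat_lit 3) (nat_lit 529) (nat_lit 3) (nat_lit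 583) (nat_lit 583) (nat_lit 394)) (XT.lf (nat_lit 0) (nat_lit 7332404795) (nat_lit 1748) (nat_lit 3770662905) (nat_lit 1824) (nat_lit 3390754281) (nat_lit 506) (nat_lit 5) (nat_lit 529) (nat_lit 3) (nat_lit 530) (nat_lit 5) (nat_lit 584) (nat_lit 583) (nat_lit 393)))))) (XT.nd (nat_lit 390) (nat_lit 0) (nat_lit 228) (XT.nd (nat_lit 156) (nat_lit 0) (nat_lit 76) (XT.nd (nat_lit 78) (nat_lit 0) (nat_lit 76) (XT.lf (nat_lit 76) (nat_lit 3520595802) (nat_lit 0) (nat_lit 4276344691) (nat_lit 1824) (nat_lit 6835435015) (nat_lit 507) (nat_lit 5) (nat_lit 506) (nat_lit 5) (nat_lit 530) (nat_lit 5) (nat_lit 585) (nat_lit 583) (nat_lit 392)) (XT.lf (nat_lit 0) (nat_lit 8305284168) (nat_lit 1748) (nat_lit 3786675256) (nat_lit 1824) (nat_lit 2681050598) (nat_lit 507) (nat_lit 5) (nat_lit 530) (nat_lit 5) (nat_lit 531) (nat_lit 5) (nat_lit 586) (nat_lit 583) (nat_lit 391))) (XT.nd (nat_lit 78) (nat_lit 0) (nat_lit 76) (XT.lf (nat_lit 76) (nat_lit 3700575782) (nat_lit 0) (nat_lit 5167331708) (nat_lit 1824) (nat_lit 6047667737)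 (nat_lit 508) (nat_lit 5) (nat_lit 507) (nat_lit 5) (nat_lit 531) (nat_lit 5) (nat_lit 587) (nat_lit 583) (nat_lit 390)) (XT.nd (nat_lit 78) (nat_lit 0) (nat_lit 0) (XT.lf (nat_lit 0) (nat_lit 9471591996) (nat_lit 1748) (nat_lit 3688783721) (nat_lit 1824) (nat_lit 1900020097) (nat_lit 508) (nat_lit 5) (nat_lit 531) (nat_lit 5) (nat_lit 532) (nat_lit 5) (nat_lit 588) (nat_lit 583) (nat_lit 389)) (XT.lf (nat_lit 76) (nat_lit 4001585305) (nat_lit 0) (nat_lit 6138046114) (nat_lit 1824) (nat_lit 5067436016) (nat_lit 509) (nat_lit 5) (nat_lit 508) (nat_lit 5) (nat_lit 532) (nat_lit 5) (nat_lit 589) (nat_lit 583) (nat_lit 388))))) (XT.nd (nat_lit 156) (nat_lit 0) (nat_lit 76) (XT.nd (nat_lit 78) (nat_lit 0) (nat_lit 0) (XT.lf (nat_lit 0) (nat_lit 10844828176) (nat_lit 1748) (nat_lit 3472008616) (nat_lit 1824) (nat_lit 1039360007) (nat_lit 509) (nat_lit 5) (nat_lit 532) (nat_lit 5) (nat_lit 533) (nat_lit 5) (nat_lit 590) (nat_lit 583) (nat_lit 387)) (XT.lf (nat_lit 76) (nat_lit 4428886195) (nat_lit 0) (nat_lit 7197025394)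 (nat_lit 1824) (nat_lit 3881161744) (nat_lit 510) (nat_lit 5) (nat_lit 509) (nat_lit 5) (nat_lit 533) (nat_lit 5) (nat_lit 591) (nat_lit 583) (nat_lit 386))) (XT.nd (nat_lit 78) (nat_lit 0) (nat_lit 0) (XT.lf (nat_lit 0) (nat_lit 12439009055) (nat_lit 1748) (nat_lit 3131038490) (nat_lit 1824) (nat_lit 90592237) (nat_lit 510) (nat_lit 5) (nat_lit 533) (nat_lit 5) (nat_lit 534) (nat_lit 5) (nat_lit 592) (nat_lit 583) (nat_lit 385)) (XT.nd (nat_lit 78) (nat_lit 0) (nat_lit 0) (XT.lf (nat_lit 76) (nat_lit 4988082405) (nat_lit 0) (nat_lit 8352997045) (nat_lit 1824) (nat_lit 2474744119) (nat_lit 511) (nat_lit 5) (nat_lit 510) (nat_lit 5) (nat_lit 534) (nat_lit 5) (nat_lit 593) (nat_lit 583) (nat_lit 384)) (XT.lf (nat_lit 76) (nat_lit 13307330970) (nat_lit 0) (nat_lit 967647196) (nat_lit 1824) (nat_lit 1698857350) (nat_lit 511) (nat_lit 5) (nat_lit 510) (nat_lit 5) (nat_lit 534) (nat_lit 5) (nat_lit 594) (nat_lit 583) (nat_lit 383))))))) (XT.nd (nat_lit 780) (nat_lit 4484) (nat_lit 0) (XT.nd (nat_lit 390) (nat_lit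 2128) (nat_lit 0) (XT.nd (nat_lit 156) (nat_lit 836) (nat_lit 0) (XT.nd (nat_lit 78) (nat_lit 760) (nat_lit 0) (XT.lf (nat_lit 0) (nat_lit 11832918940) (nat_lit 760) (nat_lit 276178509) (nat_lit 836) (nat_lit 9558387598) (nat_lit 373) (nat_lit 5) (nat_lit 383) (nat_lit 5) (nat_lit 384) (nat_lit 5) (nat_lit 623) (nat_lit 583) (nat_lit 354)) (XT.lf (nat_lit 0) (nat_lit 2377348438) (nat_lit 760) (nat_lit 12777600623) (nat_lit 836) (nat_lit 6753215153) (nat_lit 363) (nat_lit 5) (nat_lit 373) (nat_lit 5) (nat_lit 374) (nat_lit 5) (nat_lit 624) (nat_lit 583) (nat_lit 353))) (XT.nd (nat_lit 78) (nat_lit 836) (nat_lit 0) (XT.lf (nat_lit 0) (nat_lit 14960241876) (nat_lit 760) (nat_lit 3364944209) (nat_lit 836) (nat_lit 3827201625) (nat_lit 363) (nat_lit 5) (nat_lit 373) (nat_lit 5) (nat_lit 374) (nat_lit 5) (nat_lit 625) (nat_lit 583) (nat_lit 352)) (XT.nd (nat_lit 78) (nat_lit 76) (nat_lit 0) (XT.lf (nat_lit 0) (nat_lit 5419176289) (nat_lit 760) (nat_lit 16211063573) (nat_lit 836) (nat_lit 769827686) (nat_lit 353)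 (nat_lit 5) (nat_lit 363) (nat_lit 5) (nat_lit 364) (nat_lit 5) (nat_lit 626) (nat_lit 583) (nat_lit 351)) (XT.lf (nat_lit 0) (nat_lit 2384521612) (nat_lit 836) (nat_lit 4314104831) (nat_lit 76) (nat_lit 15952437033) (nat_lit 352) (nat_lit 5) (nat_lit 363) (nat_lit 5) (nat_lit 353) (nat_lit 5) (nat_lit 627) (nat_lit 583) (nat_lit 350))))) (XT.nd (nat_lit 156) (nat_lit 1368) (nat_lit 0) (XT.nd (nat_lit 78) (nat_lit 0) (nat_lit 0) (XT.lf (nat_lit 0) (nat_lit 5663970865) (nat_lit 836) (nat_lit 14215319058) (nat_lit 76) (nat_lit 3026241316) (nat_lit 342) (nat_lit 5) (nat_lit 353) (nat_lit 5) (nat_lit 343) (nat_lit 5) (nat_lit 628) (nat_lit 583) (nat_lit 349)) (XT.lf (nat_lit 0) (nat_lit 9078408076) (nat_lit 836) (nat_lit 1200656100) (nat_lit 76) (nat_lit 12884636302) (nat_lit 342) (nat_lit 5) (nat_lit 353) (nat_lit 5) (nat_lit 343) (nat_lit 5) (nat_lit 629) (nat_lit 583) (nat_lit 348))) (XT.nd (nat_lit 78) (nat_lit 684) (nat_lit 0) (XT.lf (nat_lit 0) (nat_lit 12230104430) (nat_lit 684) (nat_lit 406411605) (nat_lit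 760) (nat_lit 10789009530) (nat_lit 333) (nat_lit 5) (nat_lit 342) (nat_lit 5) (nat_lit 343) (nat_lit 5) (nat_lit 630) (nat_lit 583) (nat_lit 347)) (XT.nd (nat_lit 78) (nat_lit 0) (nat_lit 0) (XT.lf (nat_lit 0) (nat_lit 2214941023) (nat_lit 684) (nat_lit 14132100976) (nat_lit 760) (nat_lit 7343920135) (nat_lit 324) (nat_lit 5) (nat_lit 333) (nat_lit 5) (nat_lit 334) (nat_lit 5) (nat_lit 631) (nat_lit 583) (nat_lit 346)) (XT.lf (nat_lit 0) (nat_lit 16037929377) (nat_lit 684) (nat_lit 4167719586) (nat_lit 760) (nat_lit 3754581161) (nat_lit 324) (nat_lit 5) (nat_lit 333) (nat_lit 5) (nat_lit 334) (nat_lit 5) (nat_lit 632) (nat_lit 583) (nat_lit 345)))))) (XT.nd (nat_lit 390) (nat_lit 2432) (nat_lit 0) (XT.nd (nat_lit 156) (nat_lit 1292) (nat_lit 0) (XT.nd (nat_lit 78) (nat_lit 76) (nat_lit 0) (XT.lf (nat_lit 0) (nat_lit 5936833868) (nat_lit 684) (nat_lit 18278212031) (nat_lit 760) (nat_lit 18365313) (nat_lit 315) (nat_lit 5) (nat_lit 324) (nat_lit 5) (nat_lit 325) (nat_lit 5) (nat_lit 633) (nat_lit 583) (nat_lit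 344)) (XT.lf (nat_lit 0) (nat_lit 3820113190) (nat_lit 760) (nat_lit 4387643378) (nat_lit 76) (nat_lit 16302261394) (nat_lit 314) (nat_lit 5) (nat_lit 324) (nat_lit 5) (nat_lit 315) (nat_lit 5) (nat_lit 634) (nat_lit 583) (nat_lit 343))) (XT.nd (nat_lit 78) (nat_lit 608) (nat_lit 0) (XT.lf (nat_lit 0) (nat_lit 7809617590) (nat_lit 760) (nat_lit 14879772934) (nat_lit 76) (nat_lit 2101273940) (nat_lit 305) (nat_lit 5) (nat_lit 315) (nat_lit 5) (nat_lit 306) (nat_lit 5) (nat_lit 635) (nat_lit 583) (nat_lit 342)) (XT.nd (nat_lit 78) (nat_lit 608) (nat_lit 0) (XT.lf (nat_lit 0) (nat_lit 11959184216) (nat_lit 760) (nat_lit 580576367) (nat_lit 76) (nat_lit 12535557959) (nat_lit 305) (nat_lit 5) (nat_lit 315) (nat_lit 5) (nat_lit 306) (nat_lit 5) (nat_lit 636) (nat_lit 583) (nat_lit 341)) (XT.lf (nat_lit 0) (nat_lit 14186184823) (nat_lit 608) (nat_lit 2094014205) (nat_lit 684) (nat_lit 9083697622) (nat_lit 297) (nat_lit 5) (nat_lit 305) (nat_lit 5) (nat_lit 306) (nat_lit 5) (nat_lit 637) (nat_lit 583) (nat_lit 340)))))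 (XT.nd (nat_lit 234) (nat_lit 1140) (nat_lit 0) (XT.nd (nat_lit 78) (nat_lit 684) (nat_lit 0) (XT.lf (nat_lit 0) (nat_lit 3584880840) (nat_lit 608) (nat_lit 17181919888) (nat_lit 684) (nat_lit 4889862346) (nat_lit 289) (nat_lit 5) (nat_lit 297) (nat_lit 5) (nat_lit 298) (nat_lit 5) (nat_lit 638) (nat_lit 583) (nat_lit 339)) (XT.nd (nat_lit 78) (nat_lit 684) (nat_lit 0) (XT.lf (nat_lit 0) (nat_lit 18775708911) (nat_lit 608) (nat_lit 6652640011) (nat_lit 684) (nat_lit 525231697) (nat_lit 289) (nat_lit 5) (nat_lit 297) (nat_lit 5) (nat_lit 298) (nat_lit 5) (nat_lit 639) (nat_lit 583) (nat_lit 338)) (XT.lf (nat_lit 0) (nat_lit 3951242681) (nat_lit 684) (nat_lit 18191909487) (nat_lit 76) (nat_lit 4111253527) (nat_lit 280) (nat_lit 5) (nat_lit 289) (nat_lit 5) (nat_lit 281) (nat_lit 5) (nat_lit 640) (nat_lit 583) (nat_lit 337)))) (XT.nd (nat_lit 78) (nat_lit 1140) (nat_lit 0) (XT.lf (nat_lit 0) (nat_lit 8599274662) (nat_lit 684) (nat_lit 2907643942) (nat_lit 76) (nat_lit 15052478091) (nat_lit 280) (nat_lit 5)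 (nat_lit 289) (nat_lit 5) (nat_lit 281) (nat_lit 5) (nat_lit 641) (nat_lit 583) (nat_lit 336)) (XT.nd (nat_lit 78) (nat_lit 532) (nat_lit 0) (XT.lf (nat_lit 0) (nat_lit 12846402661) (nat_lit 608) (nat_lit 573851291) (nat_lit 684) (nat_lit 13448633905) (nat_lit 272) (nat_lit 5) (nat_lit 280) (nat_lit 5) (nat_lit 281) (nat_lit 5) (nat_lit 642) (nat_lit 583) (nat_lit 335)) (XT.lf (nat_lit 0) (nat_lit 1720097395) (nat_lit 532) (nat_lit 16713654822) (nat_lit 608) (nat_lit 8748894714) (nat_lit 265) (nat_lit 5) (nat_lit 272) (nat_lit 5) (nat_lit 273) (nat_lit 5) (nat_lit 643) (nat_lit 583) (nat_lit 334))))))))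
noncomputable def xc172 : XT := (XT.nd (nat_lit 1560) (nat_lit 1672) (nat_lit 0) (XT.nd (nat_lit 780) (nat_lit 3192) (nat_lit 0) (XT.nd (nat_lit 390) (nat_lit 1064) (nat_lit 0) (XT.nd (nat_lit 156) (nat_lit 1064) (nat_lit 0) (XT.nd (nat_lit 78) (nat_lit 684) (nat_lit 0) (XT.lf (nat_lit 0) (nat_lit 17959368703) (nat_lit 532) (nat_lit 5682675006) (nat_lit 608) (nat_lit 3858747086) (nat_lit 265) (nat_lit 5) (nat_lit 272) (nat_lit 5) (nat_lit 273) (nat_lit 5) (nat_lit 644) (nat_lit 583) (nat_lit 333)) (XT.lf (nat_lit 0) (nat_lit 1191567377) (nat_lit 684) (nat_lit 21085520328) (nat_lit 76) (nat_lit 5546519799) (nat_lit 256) (nat_lit 5) (nat_lit 265) (nat_lit 5) (nat_lit 257) (nat_lit 5) (nat_lit 645) (nat_lit 583) (nat_lit 332))) (XT.nd (nat_lit 78) (nat_lit 1064) (nat_lit 0) (XT.lf (nat_lit 0) (nat_lit 6390076908) (nat_lit 684) (nat_lit 4747067649) (nat_lit 76) (nat_lit 17013248785) (nat_lit 256) (nat_lit 5) (nat_lit 265) (nat_lit 5) (nat_lit 257) (nat_lit 5) (nat_lit 646) (nat_lit 583) (nat_lit 331)) (XT.nd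 (nat_lit 78) (nat_lit 532) (nat_lit 0) (XT.lf (nat_lit 0) (nat_lit 11769701838) (nat_lit 608) (nat_lit 16411998031) (nat_lit 76) (nat_lit 300472192) (nat_lit 249) (nat_lit 5) (nat_lit 257) (nat_lit 5) (nat_lit 250) (nat_lit 5) (nat_lit 647) (nat_lit 583) (nat_lit 330)) (XT.lf (nat_lit 0) (nat_lit 395052364) (nat_lit 532) (nat_lit 16967070040) (nat_lit 608) (nat_lit 11456359955) (nat_lit 242) (nat_lit 5) (nat_lit 249) (nat_lit 5) (nat_lit 250) (nat_lit 5) (nat_lit 648) (nat_lit 583) (nat_lit 329))))) (XT.nd (nat_lit 156) (nat_lit 608) (nat_lit 0) (XT.nd (nat_lit 78) (nat_lit 456) (nat_lit 0) (XT.lf (nat_lit 0) (nat_lit 17756420170) (nat_lit 532) (nat_lit 5416954905) (nat_lit 608) (nat_lit 5986004179) (nat_lit 242) (nat_lit 5) (nat_lit 249) (nat_lit 5) (nat_lit 250) (nat_lit 5) (nat_lit 649) (nat_lit 583) (nat_lit 328)) (XT.lf (nat_lit 0) (nat_lit 5990909815) (nat_lit 456) (nat_lit 23187065335) (nat_lit 532) (nat_lit 327576554) (nat_lit 236) (nat_lit 5) (nat_lit 242) (nat_lit 5) (nat_lit 243) (nat_lit 5) (nat_lit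 650) (nat_lit 583) (nat_lit 327))) (XT.nd (nat_lit 78) (nat_lit 532) (nat_lit 0) (XT.lf (nat_lit 0) (nat_lit 5482438689) (nat_lit 532) (nat_lit 6045893716) (nat_lit 76) (nat_lit 18327411968) (nat_lit 235) (nat_lit 5) (nat_lit 242) (nat_lit 5) (nat_lit 236) (nat_lit 5) (nat_lit 651) (nat_lit 583) (nat_lit 326)) (XT.nd (nat_lit 78) (nat_lit 0) (nat_lit 0) (XT.lf (nat_lit 0) (nat_lit 11481537393) (nat_lit 608) (nat_lit 18292059660) (nat_lit 76) (nat_lit 437755210) (nat_lit 228) (nat_lit 5) (nat_lit 236) (nat_lit 5) (nat_lit 229) (nat_lit 5) (nat_lit 652) (nat_lit 583) (nat_lit 325)) (XT.lf (nat_lit 0) (nat_lit 17714807348) (nat_lit 608) (nat_lit 328356512) (nat_lit 76) (nat_lit 12528624725) (nat_lit 228) (nat_lit 5) (nat_lit 236) (nat_lit 5) (nat_lit 229) (nat_lit 5) (nat_lit 653) (nat_lit 583) (nat_lit 324)))))) (XT.nd (nat_lit 390) (nat_lit 1748) (nat_lit 0) (XT.nd (nat_lit 156) (nat_lit 532) (nat_lit 0) (XT.nd (nat_lit 78) (nat_lit 456) (nat_lit 0) (XT.lf (nat_lit 0) (nat_lit 18229570778) (nat_lit 456) (nat_lit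 5958592048) (nat_lit 532) (nat_lit 6748962462) (nat_lit 222) (nat_lit 5) (nat_lit 228) (nat_lit 5) (nat_lit 229) (nat_lit 5) (nat_lit 654) (nat_lit 583) (nat_lit 323)) (XT.lf (nat_lit 0) (nat_lit 5885051447) (nat_lit 456) (nat_lit 24984789629) (nat_lit 532) (nat_lit 438350593) (nat_lit 216) (nat_lit 5) (nat_lit 222) (nat_lit 5) (nat_lit 223) (nat_lit 5) (nat_lit 655) (nat_lit 583) (nat_lit 322))) (XT.nd (nat_lit 78) (nat_lit 456) (nat_lit 0) (XT.lf (nat_lit 0) (nat_lit 6042198447) (nat_lit 532) (nat_lit 6746350330) (nat_lit 76) (nat_lit 18894903814) (nat_lit 215) (nat_lit 5) (nat_lit 222) (nat_lit 5) (nat_lit 216) (nat_lit 5) (nat_lit 656) (nat_lit 583) (nat_lit 321)) (XT.nd (nat_lit 78) (nat_lit 0) (nat_lit 0) (XT.lf (nat_lit 0) (nat_lit 12460406040) (nat_lit 456) (nat_lit 264142571) (nat_lit 532) (nat_lit 19340051032) (nat_lit 209) (nat_lit 5) (nat_lit 215) (nat_lit 5) (nat_lit 216) (nat_lit 5) (nat_lit 657) (nat_lit 583) (nat_lit 320)) (XT.lf (nat_lit 0) (nat_lit 19664519599) (nat_lit 532) (nat_lit 395354273)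 (nat_lit 76) (nat_lit 12391016339) (nat_lit 209) (nat_lit 5) (nat_lit 216) (nat_lit 5) (nat_lit 210) (nat_lit 5) (nat_lit 658) (nat_lit 583) (nat_lit 319))))) (XT.nd (nat_lit 156) (nat_lit 836) (nat_lit 0) (XT.nd (nat_lit 78) (nat_lit 456) (nat_lit 0) (XT.lf (nat_lit 0) (nat_lit 19446934905) (nat_lit 456) (nat_lit 7421596544) (nat_lit 532) (nat_lit 5973870365) (nat_lit 203) (nat_lit 5) (nat_lit 209) (nat_lit 5) (nat_lit 210) (nat_lit 5) (nat_lit 659) (nat_lit 583) (nat_lit 318)) (XT.lf (nat_lit 0) (nat_lit 1040211956) (nat_lit 456) (nat_lit 26751685793) (nat_lit 76) (nat_lit 5448157002) (nat_lit 197) (nat_lit 5) (nat_lit 203) (nat_lit 5) (nat_lit 198) (nat_lit 5) (nat_lit 660) (nat_lit 583) (nat_lit 317))) (XT.nd (nat_lit 78) (nat_lit 836) (nat_lit 0) (XT.lf (nat_lit 0) (nat_lit 8251555809) (nat_lit 456) (nat_lit 6785767062) (nat_lit 76) (nat_lit 18604808779) (nat_lit 197) (nat_lit 5) (nat_lit 203) (nat_lit 5) (nat_lit 198) (nat_lit 5) (nat_lit 661) (nat_lit 583) (nat_lit 316)) (XT.nd (nat_lit 78) (nat_lit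 380) (nat_lit 0) (XT.lf (nat_lit 0) (nat_lit 13755903001) (nat_lit 456) (nat_lit 1937849371) (nat_lit 532) (nat_lit 18356765246) (nat_lit 191) (nat_lit 5) (nat_lit 197) (nat_lit 5) (nat_lit 198) (nat_lit 5) (nat_lit 662) (nat_lit 583) (nat_lit 315)) (XT.lf (nat_lit 0) (nat_lit 259159565) (nat_lit 380) (nat_lit 23144655260) (nat_lit 456) (nat_lit 11060876086) (nat_lit 186) (nat_lit 5) (nat_lit 191) (nat_lit 5) (nat_lit 192) (nat_lit 5) (nat_lit 663) (nat_lit 583) (nat_lit 314))))))) (XT.nd (nat_lit 75192) (nat_lit 0) (nat_lit 15884) (XT.nd (nat_lit 390) (nat_lit 456) (nat_lit 0) (XT.nd (nat_lit 156) (nat_lit 760) (nat_lit 0) (XT.nd (nat_lit 78) (nat_lit 456) (nat_lit 0) (XT.lf (nat_lit 0) (nat_lit 21482133520) (nat_lit 380) (nat_lit 9932240112) (nat_lit 456) (nat_lit 3469848184) (nat_lit 186) (nat_lit 5) (nat_lit 191) (nat_lit 5) (nat_lit 192) (nat_lit 5) (nat_lit 664) (nat_lit 583) (nat_lit 313)) (XT.lf (nat_lit 0) (nat_lit 4289101437) (nat_lit 456) (nat_lit 27444921711) (nat_lit 76) (nat_lit 3576122523)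 (nat_lit 180) (nat_lit 5) (nat_lit 186) (nat_lit 5) (nat_lit 181) (nat_lit 5) (nat_lit 665) (nat_lit 583) (nat_lit 312))) (XT.nd (nat_lit 78) (nat_lit 760) (nat_lit 0) (XT.lf (nat_lit 0) (nat_lit 12310529661) (nat_lit 456) (nat_lit 6096533805) (nat_lit 76) (nat_lit 17333990652) (nat_lit 180) (nat_lit 5) (nat_lit 186) (nat_lit 5) (nat_lit 181) (nat_lit 5) (nat_lit 666) (nat_lit 583) (nat_lit 311)) (XT.nd (nat_lit 78) (nat_lit 380) (nat_lit 0) (XT.lf (nat_lit 0) (nat_lit 15883266451) (nat_lit 380) (nat_lit 4709705833) (nat_lit 456) (nat_lit 15585596774) (nat_lit 175) (nat_lit 5) (nat_lit 180) (nat_lit 5) (nat_lit 181) (nat_lit 5) (nat_lit 667) (nat_lit 583) (nat_lit 310)) (XT.lf (nat_lit 0) (nat_lit 1719552048) (nat_lit 380) (nat_lit 27431467863) (nat_lit 456) (nat_lit 7471615304) (nat_lit 170) (nat_lit 5) (nat_lit 175) (nat_lit 5) (nat_lit 176) (nat_lit 5) (nat_lit 668) (nat_lit 583) (nat_lit 309))))) (XT.nd (nat_lit 74568) (nat_lit 0) (nat_lit 25992) (XT.nd (nat_lit 78) (nat_lit 380) (nat_lit 0) (XT.lf (nat_lit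 0) (nat_lit 959862104) (nat_lit 456) (nat_lit 12664254694) (nat_lit 76) (nat_lit 23448046064) (nat_lit 169) (nat_lit 5) (nat_lit 175) (nat_lit 5) (nat_lit 170) (nat_lit 5) (nat_lit 669) (nat_lit 583) (nat_lit 308)) (XT.lf (nat_lit 0) (nat_lit 9526854036) (nat_lit 456) (nat_lit 27433667318) (nat_lit 76) (nat_lit 567833402) (nat_lit 164) (nat_lit 5) (nat_lit 170) (nat_lit 5) (nat_lit 165) (nat_lit 5) (nat_lit 670) (nat_lit 583) (nat_lit 307))) (XT.nd (nat_lit 78) (nat_lit 0) (nat_lit 0) (XT.lf (nat_lit 0) (nat_lit 1925626481) (nat_lit 0) (nat_lit 1925626481) (nat_lit 1748) (nat_lit 3464429618) (nat_lit 506) (nat_lit 5) (nat_lit 506) (nat_lit 3) (nat_lit 529) (nat_lit 3) (nat_lit 584) (nat_lit 584) (nat_lit 392)) (XT.nd (nat_lit 78) (nat_lit 0) (nat_lit 0) (XT.lf (nat_lit 0) (nat_lit 8115022572) (nat_lit 1748) (nat_lit 3512203738) (nat_lit 1824) (nat_lit 3143732890) (nat_lit 506) (nat_lit 5) (nat_lit 529) (nat_lit 3) (nat_lit 530) (nat_lit 5) (nat_lit 585) (nat_lit 584) (nat_lit 391)) (XT.lf (nat_lit 76) (nat_lit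 3922683614) (nat_lit 0) (nat_lit 4655848836) (nat_lit 1824) (nat_lit 6333958068) (nat_lit 507) (nat_lit 5) (nat_lit 506) (nat_lit 5) (nat_lit 530) (nat_lit 5) (nat_lit 586) (nat_lit 584) (nat_lit 390)))))) (XT.nd (nat_lit 390) (nat_lit 10184) (nat_lit 0) (XT.nd (nat_lit 156) (nat_lit 0) (nat_lit 76) (XT.nd (nat_lit 78) (nat_lit 0) (nat_lit 0) (XT.lf (nat_lit 0) (nat_lit 9082904020) (nat_lit 1748) (nat_lit 3523078280) (nat_lit 1824) (nat_lit 2450238583) (nat_lit 507) (nat_lit 5) (nat_lit 530) (nat_lit 5) (nat_lit 531) (nat_lit 5) (nat_lit 587) (nat_lit 584) (nat_lit 389)) (XT.lf (nat_lit 76) (nat_lit 4111685342) (nat_lit 0) (nat_lit 5535292657) (nat_lit 1824) (nat_lit 5554855803) (nat_lit 508) (nat_lit 5) (nat_lit 507) (nat_lit 5) (nat_lit 531) (nat_lit 5) (nat_lit 588) (nat_lit 584) (nat_lit 388))) (XT.nd (nat_lit 78) (nat_lit 0) (nat_lit 0) (XT.lf (nat_lit 0) (nat_lit 10249253549) (nat_lit 1748) (nat_lit 3418570155) (nat_lit 1824) (nat_lit 1681997116) (nat_lit 508) (nat_lit 5) (nat_lit 531) (nat_lit 5)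 (nat_lit 532) (nat_lit 5) (nat_lit 589) (nat_lit 584) (nat_lit 387)) (XT.nd (nat_lit 78) (nat_lit 0) (nat_lit 76) (XT.lf (nat_lit 76) (nat_lit 4423343165) (nat_lit 0) (nat_lit 6497995393) (nat_lit 1824) (nat_lit 4578273980) (nat_lit 509) (nat_lit 5) (nat_lit 508) (nat_lit 5) (nat_lit 532) (nat_lit 5) (nat_lit 590) (nat_lit 584) (nat_lit 386)) (XT.lf (nat_lit 0) (nat_lit 11627778196) (nat_lit 1748) (nat_lit 3193544490) (nat_lit 1824) (nat_lit 830659375) (nat_lit 509) (nat_lit 5) (nat_lit 532) (nat_lit 5) (nat_lit 533) (nat_lit 5) (nat_lit 591) (nat_lit 584) (nat_lit 385))))) (XT.nd (nat_lit 2340) (nat_lit 1596) (nat_lit 0) (XT.nd (nat_lit 78) (nat_lit 8740) (nat_lit 0) (XT.lf (nat_lit 76) (nat_lit 4863079374) (nat_lit 0) (nat_lit 7552548781) (nat_lit 1824) (nat_lit 3390425418) (nat_lit 510) (nat_lit 5) (nat_lit 509) (nat_lit 5) (nat_lit 533) (nat_lit 5) (nat_lit 592) (nat_lit 584) (nat_lit 384)) (XT.nd (nat_lit 2184) (nat_lit 8740) (nat_lit 0) (XT.lf (nat_lit 76) (nat_lit 13119652080) (nat_lit 0) (nat_lit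 113802111) (nat_lit 1824) (nat_lit 2729468167) (nat_lit 510) (nat_lit 5) (nat_lit 509) (nat_lit 5) (nat_lit 533) (nat_lit 5) (nat_lit 593) (nat_lit 584) (nat_lit 383)) (XT.lf (nat_lit 0) (nat_lit 4152918313) (nat_lit 912) (nat_lit 2622670216) (nat_lit 76) (nat_lit 14602041382) (nat_lit 394) (nat_lit 5) (nat_lit 406) (nat_lit 5) (nat_lit 395) (nat_lit 5) (nat_lit 621) (nat_lit 584) (nat_lit 355)))) (XT.nd (nat_lit 78) (nat_lit 760) (nat_lit 0) (XT.lf (nat_lit 0) (nat_lit 6875120025) (nat_lit 912) (nat_lit 12143888234) (nat_lit 76) (nat_lit 2594062298) (nat_lit 383) (nat_lit 5) (nat_lit 395) (nat_lit 5) (nat_lit 384) (nat_lit 5) (nat_lit 622) (nat_lit 584) (nat_lit 354)) (XT.nd (nat_lit 78) (nat_lit 760) (nat_lit 0) (XT.lf (nat_lit 0) (nat_lit 9709985905) (nat_lit 912) (nat_lit 64033099) (nat_lit 76) (nat_lit 12078036727) (nat_lit 383) (nat_lit 5) (nat_lit 395) (nat_lit 5) (nat_lit 384) (nat_lit 5) (nat_lit 623) (nat_lit 584) (nat_lit 353)) (XT.lf (nat_lit 0) (nat_lit 12415744077) (nat_lit 760) (nat_lit 262134541)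 (nat_lit 836) (nat_lit 9416415516) (nat_lit 373) (nat_lit 5) (nat_lit 383) (nat_lit 5) (nat_lit 384) (nat_lit 5) (nat_lit 624) (nat_lit 584) (nat_lit 352))))))))
noncomputable def xc173 : XT := (XT.nd (nat_lit 1560) (nat_lit 6004) (nat_lit 0) (XT.nd (nat_lit 780) (nat_lit 3724) (nat_lit 0) (XT.nd (nat_lit 390) (nat_lit 2128) (nat_lit 0) (XT.nd (nat_lit 156) (nat_lit 1596) (nat_lit 0) (XT.nd (nat_lit 78) (nat_lit 0) (nat_lit 0) (XT.lf (nat_lit 0) (nat_lit 2775156127) (nat_lit 760) (nat_lit 13005485908) (nat_lit 836) (nat_lit 6559225122) (nat_lit 363) (nat_lit 5) (nat_lit 373) (nat_lit 5) (nat_lit 374) (nat_lit 5) (nat_lit 625) (nat_lit 584) (nat_lit 351)) (XT.lf (nat_lit 0) (nat_lit 15602839576) (nat_lit 760) (nat_lit 3405118851) (nat_lit 836) (nat_lit 3581143370) (nat_lit 363) (nat_lit 5) (nat_lit 373) (nat_lit 5) (nat_lit 374) (nat_lit 5) (nat_lit 626) (nat_lit 584) (nat_lit 350))) (XT.nd (nat_lit 78) (nat_lit 836) (nat_lit 0) (XT.lf (nat_lit 0) (nat_lit 5874810563) (nat_lit 760) (nat_lit 16500528609) (nat_lit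 836) (nat_lit 466471705) (nat_lit 353) (nat_lit 5) (nat_lit 363) (nat_lit 5) (nat_lit 364) (nat_lit 5) (nat_lit 627) (nat_lit 584) (nat_lit 349)) (XT.nd (nat_lit 78) (nat_lit 760) (nat_lit 0) (XT.lf (nat_lit 0) (nat_lit 2740616004) (nat_lit 836) (nat_lit 4055838675) (nat_lit 76) (nat_lit 16301454172) (nat_lit 352) (nat_lit 5) (nat_lit 363) (nat_lit 5) (nat_lit 353) (nat_lit 5) (nat_lit 628) (nat_lit 584) (nat_lit 348)) (XT.lf (nat_lit 0) (nat_lit 6082074212) (nat_lit 836) (nat_lit 14151489493) (nat_lit 76) (nat_lit 3123974016) (nat_lit 342) (nat_lit 5) (nat_lit 353) (nat_lit 5) (nat_lit 343) (nat_lit 5) (nat_lit 629) (nat_lit 584) (nat_lit 347))))) (XT.nd (nat_lit 156) (nat_lit 1444) (nat_lit 0) (XT.nd (nat_lit 78) (nat_lit 684) (nat_lit 0) (XT.lf (nat_lit 0) (nat_lit 9558823228) (nat_lit 836) (nat_lit 883359472) (nat_lit 76) (nat_lit 13178807335) (nat_lit 342) (nat_lit 5) (nat_lit 353) (nat_lit 5) (nat_lit 343) (nat_lit 5) (nat_lit 630) (nat_lit 584) (nat_lit 346)) (XT.lf (nat_lit 0) (nat_lit 12813770811)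 (nat_lit 684) (nat_lit 370664221) (nat_lit 760) (nat_lit 10703689905) (nat_lit 333) (nat_lit 5) (nat_lit 342) (nat_lit 5) (nat_lit 343) (nat_lit 5) (nat_lit 631) (nat_lit 584) (nat_lit 345))) (XT.nd (nat_lit 78) (nat_lit 760) (nat_lit 0) (XT.lf (nat_lit 0) (nat_lit 2601662704) (nat_lit 684) (nat_lit 14364223318) (nat_lit 760) (nat_lit 7193050070) (nat_lit 324) (nat_lit 5) (nat_lit 333) (nat_lit 5) (nat_lit 334) (nat_lit 5) (nat_lit 632) (nat_lit 584) (nat_lit 344)) (XT.nd (nat_lit 78) (nat_lit 760) (nat_lit 0) (XT.lf (nat_lit 0) (nat_lit 16694396651) (nat_lit 684) (nat_lit 4201544882) (nat_lit 760) (nat_lit 3537762522) (nat_lit 324) (nat_lit 5) (nat_lit 333) (nat_lit 5) (nat_lit 334) (nat_lit 5) (nat_lit 633) (nat_lit 584) (nat_lit 343)) (XT.lf (nat_lit 0) (nat_lit 266478326) (nat_lit 760) (nat_lit 18319719837) (nat_lit 76) (nat_lit 6126177595) (nat_lit 314) (nat_lit 5) (nat_lit 324) (nat_lit 5) (nat_lit 315) (nat_lit 5) (nat_lit 634) (nat_lit 584) (nat_lit 342)))))) (XT.nd (nat_lit 390) (nat_lit 1824) (nat_lit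 0) (XT.nd (nat_lit 156) (nat_lit 1216) (nat_lit 0) (XT.nd (nat_lit 78) (nat_lit 684) (nat_lit 0) (XT.lf (nat_lit 0) (nat_lit 4175893164) (nat_lit 760) (nat_lit 4139447785) (nat_lit 76) (nat_lit 16679283147) (nat_lit 314) (nat_lit 5) (nat_lit 324) (nat_lit 5) (nat_lit 315) (nat_lit 5) (nat_lit 635) (nat_lit 584) (nat_lit 341)) (XT.lf (nat_lit 0) (nat_lit 8242250952) (nat_lit 760) (nat_lit 14838476690) (nat_lit 76) (nat_lit 2200214751) (nat_lit 305) (nat_lit 5) (nat_lit 315) (nat_lit 5) (nat_lit 306) (nat_lit 5) (nat_lit 636) (nat_lit 584) (nat_lit 340))) (XT.nd (nat_lit 78) (nat_lit 1216) (nat_lit 0) (XT.lf (nat_lit 0) (nat_lit 12469388498) (nat_lit 760) (nat_lit 259941128) (nat_lit 76) (nat_lit 12842068463) (nat_lit 305) (nat_lit 5) (nat_lit 315) (nat_lit 5) (nat_lit 306) (nat_lit 5) (nat_lit 637) (nat_lit 584) (nat_lit 339)) (XT.nd (nat_lit 78) (nat_lit 608) (nat_lit 0) (XT.lf (nat_lit 0) (nat_lit 14799969453) (nat_lit 608) (nat_lit 2073682999) (nat_lit 684) (nat_lit 8992158856) (nat_lit 297) (nat_lit 5)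 (nat_lit 305) (nat_lit 5) (nat_lit 306) (nat_lit 5) (nat_lit 638) (nat_lit 584) (nat_lit 338)) (XT.lf (nat_lit 0) (nat_lit 3989394667) (nat_lit 608) (nat_lit 17457896431) (nat_lit 684) (nat_lit 4717195987) (nat_lit 289) (nat_lit 5) (nat_lit 297) (nat_lit 5) (nat_lit 298) (nat_lit 5) (nat_lit 639) (nat_lit 584) (nat_lit 337))))) (XT.nd (nat_lit 156) (nat_lit 1140) (nat_lit 0) (XT.nd (nat_lit 78) (nat_lit 684) (nat_lit 0) (XT.lf (nat_lit 0) (nat_lit 19477513491) (nat_lit 608) (nat_lit 6719357660) (nat_lit 684) (nat_lit 270575934) (nat_lit 289) (nat_lit 5) (nat_lit 297) (nat_lit 5) (nat_lit 298) (nat_lit 5) (nat_lit 640) (nat_lit 584) (nat_lit 336)) (XT.lf (nat_lit 0) (nat_lit 4289393807) (nat_lit 684) (nat_lit 18223411418) (nat_lit 76) (nat_lit 4261500250) (nat_lit 280) (nat_lit 5) (nat_lit 289) (nat_lit 5) (nat_lit 281) (nat_lit 5) (nat_lit 641) (nat_lit 584) (nat_lit 335))) (XT.nd (nat_lit 78) (nat_lit 1140) (nat_lit 0) (XT.lf (nat_lit 0) (nat_lit 9025305520) (nat_lit 684) (nat_lit 2639976959) (nat_lit 76)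 (nat_lit 15420215548) (nat_lit 280) (nat_lit 5) (nat_lit 289) (nat_lit 5) (nat_lit 281) (nat_lit 5) (nat_lit 642) (nat_lit 584) (nat_lit 334)) (XT.nd (nat_lit 78) (nat_lit 532) (nat_lit 0) (XT.lf (nat_lit 0) (nat_lit 13427007025) (nat_lit 608) (nat_lit 512817612) (nat_lit 684) (nat_lit 13461412084) (nat_lit 272) (nat_lit 5) (nat_lit 280) (nat_lit 5) (nat_lit 281) (nat_lit 5) (nat_lit 643) (nat_lit 584) (nat_lit 333)) (XT.lf (nat_lit 0) (nat_lit 2080574323) (nat_lit 532) (nat_lit 16970672379) (nat_lit 608) (nat_lit 8670071306) (nat_lit 265) (nat_lit 5) (nat_lit 272) (nat_lit 5) (nat_lit 273) (nat_lit 5) (nat_lit 644) (nat_lit 584) (nat_lit 332))))))) (XT.nd (nat_lit 780) (nat_lit 3192) (nat_lit 0) (XT.nd (nat_lit 390) (nat_lit 1064) (nat_lit 0) (XT.nd (nat_lit 156) (nat_lit 1064) (nat_lit 0) (XT.nd (nat_lit 78) (nat_lit 684) (nat_lit 0) (XT.lf (nat_lit 0) (nat_lit 18638237430) (nat_lit 532) (nat_lit 5720587781) (nat_lit 608) (nat_lit 3687097221) (nat_lit 265) (nat_lit 5) (nat_lit 272) (nat_lit 5) (nat_lit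 273) (nat_lit 5) (nat_lit 645) (nat_lit 584) (nat_lit 331)) (XT.lf (nat_lit 0) (nat_lit 1458734630) (nat_lit 684) (nat_lit 21182050063) (nat_lit 76) (nat_lit 5734423086) (nat_lit 256) (nat_lit 5) (nat_lit 265) (nat_lit 5) (nat_lit 257) (nat_lit 5) (nat_lit 646) (nat_lit 584) (nat_lit 330))) (XT.nd (nat_lit 78) (nat_lit 1064) (nat_lit 0) (XT.lf (nat_lit 0) (nat_lit 6756443060) (nat_lit 684) (nat_lit 4523204422) (nat_lit 76) (nat_lit 17428977379) (nat_lit 256) (nat_lit 5) (nat_lit 265) (nat_lit 5) (nat_lit 257) (nat_lit 5) (nat_lit 647) (nat_lit 584) (nat_lit 329)) (XT.nd (nat_lit 78) (nat_lit 532) (nat_lit 0) (XT.lf (nat_lit 0) (nat_lit 12241563397) (nat_lit 608) (nat_lit 16419331365) (nat_lit 76) (nat_lit 386186433) (nat_lit 249) (nat_lit 5) (nat_lit 257) (nat_lit 5) (nat_lit 250) (nat_lit 5) (nat_lit 648) (nat_lit 584) (nat_lit 328)) (XT.lf (nat_lit 0) (nat_lit 721748810) (nat_lit 532) (nat_lit 17221516777) (nat_lit 608) (nat_lit 11446903544) (nat_lit 242) (nat_lit 5) (nat_lit 249) (nat_lit 5) (nat_lit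 250) (nat_lit 5) (nat_lit 649) (nat_lit 584) (nat_lit 327))))) (XT.nd (nat_lit 156) (nat_lit 608) (nat_lit 0) (XT.nd (nat_lit 78) (nat_lit 456) (nat_lit 0) (XT.lf (nat_lit 0) (nat_lit 18424093082) (nat_lit 532) (nat_lit 5442063941) (nat_lit 608) (nat_lit 5871818762) (nat_lit 242) (nat_lit 5) (nat_lit 249) (nat_lit 5) (nat_lit 250) (nat_lit 5) (nat_lit 650) (nat_lit 584) (nat_lit 326)) (XT.lf (nat_lit 0) (nat_lit 6425240326) (nat_lit 456) (nat_lit 23563684223) (nat_lit 532) (nat_lit 102185719) (nat_lit 236) (nat_lit 5) (nat_lit 242) (nat_lit 5) (nat_lit 243) (nat_lit 5) (nat_lit 651) (nat_lit 584) (nat_lit 325))) (XT.nd (nat_lit 78) (nat_lit 532) (nat_lit 0) (XT.lf (nat_lit 0) (nat_lit 5816499619) (nat_lit 532) (nat_lit 5855479375) (nat_lit 76) (nat_lit 18776387534) (nat_lit 235) (nat_lit 5) (nat_lit 242) (nat_lit 5) (nat_lit 236) (nat_lit 5) (nat_lit 652) (nat_lit 584) (nat_lit 324)) (XT.nd (nat_lit 78) (nat_lit 0) (nat_lit 0) (XT.lf (nat_lit 0) (nat_lit 11933754711) (nat_lit 608) (nat_lit 18344738649) (nat_lit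 76) (nat_lit 532629815) (nat_lit 228) (nat_lit 5) (nat_lit 236) (nat_lit 5) (nat_lit 229) (nat_lit 5) (nat_lit 653) (nat_lit 584) (nat_lit 323)) (XT.lf (nat_lit 0) (nat_lit 18287325623) (nat_lit 608) (nat_lit 27901874) (nat_lit 76) (nat_lit 12863628102) (nat_lit 228) (nat_lit 5) (nat_lit 236) (nat_lit 5) (nat_lit 229) (nat_lit 5) (nat_lit 654) (nat_lit 584) (nat_lit 322)))))) (XT.nd (nat_lit 390) (nat_lit 1748) (nat_lit 0) (XT.nd (nat_lit 156) (nat_lit 532) (nat_lit 0) (XT.nd (nat_lit 78) (nat_lit 456) (nat_lit 0) (XT.lf (nat_lit 0) (nat_lit 18899164082) (nat_lit 456) (nat_lit 5988685538) (nat_lit 532) (nat_lit 6663695472) (nat_lit 222) (nat_lit 5) (nat_lit 228) (nat_lit 5) (nat_lit 229) (nat_lit 5) (nat_lit 655) (nat_lit 584) (nat_lit 321)) (XT.lf (nat_lit 0) (nat_lit 6309467485) (nat_lit 456) (nat_lit 25392018567) (nat_lit 532) (nat_lit 228580338) (nat_lit 216) (nat_lit 5) (nat_lit 222) (nat_lit 5) (nat_lit 223) (nat_lit 5) (nat_lit 656) (nat_lit 584) (nat_lit 320))) (XT.nd (nat_lit 78) (nat_lit 456) (nat_lit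 0) (XT.lf (nat_lit 0) (nat_lit 6374484681) (nat_lit 532) (nat_lit 6577762405) (nat_lit 76) (nat_lit 19360641725) (nat_lit 215) (nat_lit 5) (nat_lit 222) (nat_lit 5) (nat_lit 216) (nat_lit 5) (nat_lit 657) (nat_lit 584) (nat_lit 319)) (XT.nd (nat_lit 78) (nat_lit 0) (nat_lit 0) (XT.lf (nat_lit 0) (nat_lit 13011132284) (nat_lit 456) (nat_lit 177161293) (nat_lit 532) (nat_lit 19513409070) (nat_lit 209) (nat_lit 5) (nat_lit 215) (nat_lit 5) (nat_lit 216) (nat_lit 5) (nat_lit 658) (nat_lit 584) (nat_lit 318)) (XT.lf (nat_lit 0) (nat_lit 20263548259) (nat_lit 532) (nat_lit 104135798) (nat_lit 76) (nat_lit 12728105361) (nat_lit 209) (nat_lit 5) (nat_lit 216) (nat_lit 5) (nat_lit 210) (nat_lit 5) (nat_lit 659) (nat_lit 584) (nat_lit 317))))) (XT.nd (nat_lit 234) (nat_lit 836) (nat_lit 0) (XT.nd (nat_lit 78) (nat_lit 456) (nat_lit 0) (XT.lf (nat_lit 0) (nat_lit 20133031232) (nat_lit 456) (nat_lit 7476504374) (nat_lit 532) (nat_lit 5885637816) (nat_lit 203) (nat_lit 5) (nat_lit 209) (nat_lit 5) (nat_lit 210) (nat_lit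 5) (nat_lit 660) (nat_lit 584) (nat_lit 316)) (XT.nd (nat_lit 78) (nat_lit 0) (nat_lit 0) (XT.lf (nat_lit 0) (nat_lit 1264533794) (nat_lit 456) (nat_lit 26985362228) (nat_lit 76) (nat_lit 5650885861) (nat_lit 197) (nat_lit 5) (nat_lit 203) (nat_lit 5) (nat_lit 198) (nat_lit 5) (nat_lit 661) (nat_lit 584) (nat_lit 315)) (XT.lf (nat_lit 0) (nat_lit 8616113983) (nat_lit 456) (nat_lit 6626034088) (nat_lit 76) (nat_lit 19068832130) (nat_lit 197) (nat_lit 5) (nat_lit 203) (nat_lit 5) (nat_lit 198) (nat_lit 5) (nat_lit 662) (nat_lit 584) (nat_lit 314)))) (XT.nd (nat_lit 78) (nat_lit 380) (nat_lit 0) (XT.lf (nat_lit 0) (nat_lit 14324525637) (nat_lit 456) (nat_lit 1880622172) (nat_lit 532) (nat_lit 18522426283) (nat_lit 191) (nat_lit 5) (nat_lit 197) (nat_lit 5) (nat_lit 198) (nat_lit 5) (nat_lit 663) (nat_lit 584) (nat_lit 313)) (XT.nd (nat_lit 78) (nat_lit 0) (nat_lit 0) (XT.lf (nat_lit 0) (nat_lit 559225154) (nat_lit 380) (nat_lit 23508838954) (nat_lit 456) (nat_lit 11081993760) (nat_lit 186) (nat_lit 5) (nat_lit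 191) (nat_lit 5) (nat_lit 192) (nat_lit 5) (nat_lit 664) (nat_lit 584) (nat_lit 312)) (XT.lf (nat_lit 0) (nat_lit 22200876580) (nat_lit 380) (nat_lit 10034110981) (nat_lit 456) (nat_lit 3343068826) (nat_lit 186) (nat_lit 5) (nat_lit 191) (nat_lit 5) (nat_lit 192) (nat_lit 5) (nat_lit 665) (nat_lit 584) (nat_lit 311))))))))
noncomputable def xc174 : XT := (XT.nd (nat_lit 78000) (nat_lit 0) (nat_lit 7676) (XT.nd (nat_lit 75192) (nat_lit 0) (nat_lit 15884) (XT.nd (nat_lit 390) (nat_lit 380) (nat_lit 0) (XT.nd (nat_lit 156) (nat_lit 836) (nat_lit 0) (XT.nd (nat_lit 78) (nat_lit 0) (nat_lit 0) (XT.lf (nat_lit 0) (nat_lit 4567208783) (nat_lit 456) (nat_lit 27700862273) (nat_lit 76) (nat_lit 3744427817) (nat_lit 180) (nat_lit 5) (nat_lit 186) (nat_lit 5) (nat_lit 181) (nat_lit 5) (nat_lit 666) (nat_lit 584) (nat_lit 310)) (XT.lf (nat_lit 0) (nat_lit 12745294486) (nat_lit 456) (nat_lit 5931250880) (nat_lit 76) (nat_lit 17775555606) (nat_lit 180) (nat_lit 5) (nat_lit 186) (nat_lit 5) (nat_lit 181) (nat_lit 5) (nat_lit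 667) (nat_lit 584) (nat_lit 309))) (XT.nd (nat_lit 78) (nat_lit 456) (nat_lit 0) (XT.lf (nat_lit 0) (nat_lit 16486255817) (nat_lit 380) (nat_lit 4705285516) (nat_lit 456) (nat_lit 15706861832) (nat_lit 175) (nat_lit 5) (nat_lit 180) (nat_lit 5) (nat_lit 181) (nat_lit 5) (nat_lit 668) (nat_lit 584) (nat_lit 308)) (XT.nd (nat_lit 78) (nat_lit 76) (nat_lit 0) (XT.lf (nat_lit 0) (nat_lit 2040466623) (nat_lit 380) (nat_lit 27879110333) (nat_lit 456) (nat_lit 7431797208) (nat_lit 170) (nat_lit 5) (nat_lit 175) (nat_lit 5) (nat_lit 176) (nat_lit 5) (nat_lit 669) (nat_lit 584) (nat_lit 307)) (XT.lf (nat_lit 0) (nat_lit 1162165570) (nat_lit 456) (nat_lit 12634198072) (nat_lit 76) (nat_lit 24013577448) (nat_lit 169) (nat_lit 5) (nat_lit 175) (nat_lit 5) (nat_lit 170) (nat_lit 5) (nat_lit 670) (nat_lit 584) (nat_lit 306))))) (XT.nd (nat_lit 74568) (nat_lit 0) (nat_lit 25992) (XT.nd (nat_lit 74490) (nat_lit 0) (nat_lit 25992) (XT.lf (nat_lit 0) (nat_lit 9899384699) (nat_lit 456) (nat_lit 27697883461) (nat_lit 76) (nat_lit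 678010971) (nat_lit 164) (nat_lit 5) (nat_lit 170) (nat_lit 5) (nat_lit 165) (nat_lit 5) (nat_lit 671) (nat_lit 584) (nat_lit 305)) (XT.lf (nat_lit 0) (nat_lit 2120521602) (nat_lit 0) (nat_lit 2120521602) (nat_lit 1748) (nat_lit 3214688005) (nat_lit 506) (nat_lit 5) (nat_lit 506) (nat_lit 3) (nat_lit 529) (nat_lit 3) (nat_lit 585) (nat_lit 585) (nat_lit 390))) (XT.nd (nat_lit 78) (nat_lit 0) (nat_lit 0) (XT.lf (nat_lit 0) (nat_lit 8888597226) (nat_lit 1748) (nat_lit 3261540061) (nat_lit 1824) (nat_lit 2903996557) (nat_lit 506) (nat_lit 5) (nat_lit 529) (nat_lit 3) (nat_lit 530) (nat_lit 5) (nat_lit 586) (nat_lit 585) (nat_lit 389)) (XT.nd (nat_lit 78) (nat_lit 0) (nat_lit 76) (XT.lf (nat_lit 76) (nat_lit 4319933802) (nat_lit 0) (nat_lit 5031527570) (nat_lit 1824) (nat_lit 5847233108) (nat_lit 507) (nat_lit 5) (nat_lit 506) (nat_lit 5) (nat_lit 530) (nat_lit 5) (nat_lit 587) (nat_lit 585) (nat_lit 388)) (XT.lf (nat_lit 0) (nat_lit 9852330428) (nat_lit 1748) (nat_lit 3267385980) (nat_lit 1824) (nat_lit 2225855210)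 (nat_lit 507) (nat_lit 5) (nat_lit 530) (nat_lit 5) (nat_lit 531) (nat_lit 5) (nat_lit 588) (nat_lit 585) (nat_lit 387)))))) (XT.nd (nat_lit 2418) (nat_lit 10184) (nat_lit 0) (XT.nd (nat_lit 156) (nat_lit 0) (nat_lit 76) (XT.nd (nat_lit 78) (nat_lit 0) (nat_lit 76) (XT.lf (nat_lit 76) (nat_lit 4517927165) (nat_lit 0) (nat_lit 5900337529) (nat_lit 1824) (nat_lit 5076020885) (nat_lit 508) (nat_lit 5) (nat_lit 507) (nat_lit 5) (nat_lit 531) (nat_lit 5) (nat_lit 589) (nat_lit 585) (nat_lit 386)) (XT.lf (nat_lit 0) (nat_lit 11019626656) (nat_lit 1748) (nat_lit 3156309839) (nat_lit 1824) (nat_lit 1469555376) (nat_lit 508) (nat_lit 5) (nat_lit 531) (nat_lit 5) (nat_lit 532) (nat_lit 5) (nat_lit 590) (nat_lit 585) (nat_lit 385))) (XT.nd (nat_lit 78) (nat_lit 0) (nat_lit 76) (XT.lf (nat_lit 76) (nat_lit 4840266538) (nat_lit 0) (nat_lit 6855933344) (nat_lit 1824) (nat_lit 4102258955) (nat_lit 509) (nat_lit 5) (nat_lit 508) (nat_lit 5) (nat_lit 532) (nat_lit 5) (nat_lit 591) (nat_lit 585) (nat_lit 384)) (XT.nd (nat_lit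 78) (nat_lit 0) (nat_lit 0) (XT.lf (nat_lit 0) (nat_lit 12404406671) (nat_lit 1748) (nat_lit 2923020629) (nat_lit 1824) (nat_lit 626696023) (nat_lit 509) (nat_lit 5) (nat_lit 532) (nat_lit 5) (nat_lit 533) (nat_lit 5) (nat_lit 592) (nat_lit 585) (nat_lit 383)) (XT.lf (nat_lit 76) (nat_lit 5292535747) (nat_lit 0) (nat_lit 7906966615) (nat_lit 1824) (nat_lit 2911944461) (nat_lit 510) (nat_lit 5) (nat_lit 509) (nat_lit 5) (nat_lit 533) (nat_lit 5) (nat_lit 593) (nat_lit 585) (nat_lit 382))))) (XT.nd (nat_lit 156) (nat_lit 1596) (nat_lit 0) (XT.nd (nat_lit 78) (nat_lit 912) (nat_lit 0) (XT.lf (nat_lit 0) (nat_lit 16616027026) (nat_lit 912) (nat_lit 4090851824) (nat_lit 988) (nat_lit 621107619) (nat_lit 406) (nat_lit 5) (nat_lit 418) (nat_lit 5) (nat_lit 419) (nat_lit 5) (nat_lit 620) (nat_lit 585) (nat_lit 355)) (XT.lf (nat_lit 0) (nat_lit 1923127965) (nat_lit 912) (nat_lit 14320336980) (nat_lit 76) (nat_lit 5318080996) (nat_lit 394) (nat_lit 5) (nat_lit 406) (nat_lit 5) (nat_lit 395) (nat_lit 5) (nat_lit 621)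 (nat_lit 585) (nat_lit 354))) (XT.nd (nat_lit 78) (nat_lit 1596) (nat_lit 0) (XT.lf (nat_lit 0) (nat_lit 4564523163) (nat_lit 912) (nat_lit 2337700340) (nat_lit 76) (nat_lit 14896379274) (nat_lit 394) (nat_lit 5) (nat_lit 406) (nat_lit 5) (nat_lit 395) (nat_lit 5) (nat_lit 622) (nat_lit 585) (nat_lit 353)) (XT.nd (nat_lit 78) (nat_lit 760) (nat_lit 0) (XT.lf (nat_lit 0) (nat_lit 7336974102) (nat_lit 912) (nat_lit 12045139280) (nat_lit 76) (nat_lit 2656722924) (nat_lit 383) (nat_lit 5) (nat_lit 395) (nat_lit 5) (nat_lit 384) (nat_lit 5) (nat_lit 623) (nat_lit 585) (nat_lit 352)) (XT.lf (nat_lit 0) (nat_lit 273197427) (nat_lit 760) (nat_lit 9950753814) (nat_lit 836) (nat_lit 12058741833) (nat_lit 373) (nat_lit 5) (nat_lit 383) (nat_lit 5) (nat_lit 384) (nat_lit 5) (nat_lit 624) (nat_lit 585) (nat_lit 351))))))) (XT.nd (nat_lit 780) (nat_lit 4484) (nat_lit 0) (XT.nd (nat_lit 390) (nat_lit 2128) (nat_lit 0) (XT.nd (nat_lit 156) (nat_lit 836) (nat_lit 0) (XT.nd (nat_lit 78) (nat_lit 760) (nat_lit 0) (XT.lf (nat_lit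 0) (nat_lit 12996783640) (nat_lit 760) (nat_lit 248569525) (nat_lit 836) (nat_lit 9284540217) (nat_lit 373) (nat_lit 5) (nat_lit 383) (nat_lit 5) (nat_lit 384) (nat_lit 5) (nat_lit 625) (nat_lit 585) (nat_lit 350)) (XT.lf (nat_lit 0) (nat_lit 3167318919) (nat_lit 760) (nat_lit 13239003232) (nat_lit 836) (nat_lit 6374132872) (nat_lit 363) (nat_lit 5) (nat_lit 373) (nat_lit 5) (nat_lit 374) (nat_lit 5) (nat_lit 626) (nat_lit 585) (nat_lit 349))) (XT.nd (nat_lit 78) (nat_lit 836) (nat_lit 0) (XT.lf (nat_lit 0) (nat_lit 16244954867) (nat_lit 760) (nat_lit 3447150253) (nat_lit 836) (nat_lit 3342690989) (nat_lit 363) (nat_lit 5) (nat_lit 373) (nat_lit 5) (nat_lit 374) (nat_lit 5) (nat_lit 627) (nat_lit 585) (nat_lit 348)) (XT.nd (nat_lit 78) (nat_lit 76) (nat_lit 0) (XT.lf (nat_lit 0) (nat_lit 6326073352) (nat_lit 760) (nat_lit 16797132573) (nat_lit 836) (nat_lit 169426153) (nat_lit 353) (nat_lit 5) (nat_lit 363) (nat_lit 5) (nat_lit 364) (nat_lit 5) (nat_lit 628) (nat_lit 585) (nat_lit 347)) (XT.lf (nat_lit 0)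 (nat_lit 3091856581) (nat_lit 836) (nat_lit 3805786424) (nat_lit 76) (nat_lit 16656287943) (nat_lit 352) (nat_lit 5) (nat_lit 363) (nat_lit 5) (nat_lit 353) (nat_lit 5) (nat_lit 629) (nat_lit 585) (nat_lit 346))))) (XT.nd (nat_lit 156) (nat_lit 1368) (nat_lit 0) (XT.nd (nat_lit 78) (nat_lit 0) (nat_lit 0) (XT.lf (nat_lit 0) (nat_lit 6496702941) (nat_lit 836) (nat_lit 14099901881) (nat_lit 76) (nat_lit 3222216542) (nat_lit 342) (nat_lit 5) (nat_lit 353) (nat_lit 5) (nat_lit 343) (nat_lit 5) (nat_lit 630) (nat_lit 585) (nat_lit 345)) (XT.lf (nat_lit 0) (nat_lit 10037242090) (nat_lit 836) (nat_lit 572970384) (nat_lit 76) (nat_lit 13477445292) (nat_lit 342) (nat_lit 5) (nat_lit 353) (nat_lit 5) (nat_lit 343) (nat_lit 5) (nat_lit 631) (nat_lit 585) (nat_lit 344))) (XT.nd (nat_lit 78) (nat_lit 684) (nat_lit 0) (XT.lf (nat_lit 0) (nat_lit 13395944239) (nat_lit 684) (nat_lit 335905632) (nat_lit 760) (nat_lit 10628355961) (nat_lit 333) (nat_lit 5) (nat_lit 342) (nat_lit 5) (nat_lit 343) (nat_lit 5) (nat_lit 632)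 (nat_lit 585) (nat_lit 343)) (XT.nd (nat_lit 78) (nat_lit 0) (nat_lit 0) (XT.lf (nat_lit 0) (nat_lit 2982822122) (nat_lit 684) (nat_lit 14602949847) (nat_lit 760) (nat_lit 7050724540) (nat_lit 324) (nat_lit 5) (nat_lit 333) (nat_lit 5) (nat_lit 334) (nat_lit 5) (nat_lit 633) (nat_lit 585) (nat_lit 342)) (XT.lf (nat_lit 0) (nat_lit 17350957294) (nat_lit 684) (nat_lit 4237969958) (nat_lit 760) (nat_lit 3327942741) (nat_lit 324) (nat_lit 5) (nat_lit 333) (nat_lit 5) (nat_lit 334) (nat_lit 5) (nat_lit 634) (nat_lit 585) (nat_lit 341)))))) (XT.nd (nat_lit 390) (nat_lit 2432) (nat_lit 0) (XT.nd (nat_lit 156) (nat_lit 1292) (nat_lit 0) (XT.nd (nat_lit 78) (nat_lit 0) (nat_lit 0) (XT.lf (nat_lit 0) (nat_lit 545707609) (nat_lit 760) (nat_lit 18356752998) (nat_lit 76) (nat_lit 6298678132) (nat_lit 314) (nat_lit 5) (nat_lit 324) (nat_lit 5) (nat_lit 315) (nat_lit 5) (nat_lit 635) (nat_lit 585) (nat_lit 340)) (XT.lf (nat_lit 0) (nat_lit 4527940161) (nat_lit 760) (nat_lit 3899333568) (nat_lit 76) (nat_lit 17061865853)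 (nat_lit 314) (nat_lit 5) (nat_lit 324) (nat_lit 5) (nat_lit 315) (nat_lit 5) (nat_lit 636) (nat_lit 585) (nat_lit 339))) (XT.nd (nat_lit 78) (nat_lit 608) (nat_lit 0) (XT.lf (nat_lit 0) (nat_lit 8672802439) (nat_lit 760) (nat_lit 14809514099) (nat_lit 76) (nat_lit 2298924287) (nat_lit 305) (nat_lit 5) (nat_lit 315) (nat_lit 5) (nat_lit 306) (nat_lit 5) (nat_lit 637) (nat_lit 585) (nat_lit 338)) (XT.nd (nat_lit 78) (nat_lit 0) (nat_lit 0) (XT.lf (nat_lit 0) (nat_lit 54925629) (nat_lit 608) (nat_lit 12924703790) (nat_lit 684) (nat_lit 13097973405) (nat_lit 297) (nat_lit 5) (nat_lit 305) (nat_lit 5) (nat_lit 306) (nat_lit 5) (nat_lit 638) (nat_lit 585) (nat_lit 337)) (XT.lf (nat_lit 0) (nat_lit 15413213107) (nat_lit 608) (nat_lit 2055360917) (nat_lit 684) (nat_lit 8909398498) (nat_lit 297) (nat_lit 5) (nat_lit 305) (nat_lit 5) (nat_lit 306) (nat_lit 5) (nat_lit 639) (nat_lit 585) (nat_lit 336))))) (XT.nd (nat_lit 234) (nat_lit 1140) (nat_lit 0) (XT.nd (nat_lit 78) (nat_lit 684) (nat_lit 0) (XT.lf (nat_lit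 0) (nat_lit 4389075111) (nat_lit 608) (nat_lit 17742019897) (nat_lit 684) (nat_lit 4551578733) (nat_lit 289) (nat_lit 5) (nat_lit 297) (nat_lit 5) (nat_lit 298) (nat_lit 5) (nat_lit 640) (nat_lit 585) (nat_lit 335)) (XT.nd (nat_lit 78) (nat_lit 684) (nat_lit 0) (XT.lf (nat_lit 0) (nat_lit 20180683909) (nat_lit 608) (nat_lit 6789985536) (nat_lit 684) (nat_lit 21123556) (nat_lit 289) (nat_lit 5) (nat_lit 297) (nat_lit 5) (nat_lit 298) (nat_lit 5) (nat_lit 641) (nat_lit 585) (nat_lit 334)) (XT.lf (nat_lit 0) (nat_lit 4624245766) (nat_lit 684) (nat_lit 18268448410) (nat_lit 76) (nat_lit 4412110545) (nat_lit 280) (nat_lit 5) (nat_lit 289) (nat_lit 5) (nat_lit 281) (nat_lit 5) (nat_lit 642) (nat_lit 585) (nat_lit 333)))) (XT.nd (nat_lit 78) (nat_lit 1140) (nat_lit 0) (XT.lf (nat_lit 0) (nat_lit 9449992105) (nat_lit 684) (nat_lit 2379608619) (nat_lit 76) (nat_lit 15792718182) (nat_lit 280) (nat_lit 5) (nat_lit 289) (nat_lit 5) (nat_lit 281) (nat_lit 5) (nat_lit 643) (nat_lit 585) (nat_lit 332)) (XT.nd (nat_lit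 78) (nat_lit 532) (nat_lit 0) (XT.lf (nat_lit 0) (nat_lit 14006654729) (nat_lit 608) (nat_lit 453378938) (nat_lit 684) (nat_lit 13484394171) (nat_lit 272) (nat_lit 5) (nat_lit 280) (nat_lit 5) (nat_lit 281) (nat_lit 5) (nat_lit 644) (nat_lit 585) (nat_lit 331)) (XT.lf (nat_lit 0) (nat_lit 2435598900) (nat_lit 532) (nat_lit 17235830213) (nat_lit 608) (nat_lit 8599526844) (nat_lit 265) (nat_lit 5) (nat_lit 272) (nat_lit 5) (nat_lit 273) (nat_lit 5) (nat_lit 645) (nat_lit 585) (nat_lit 330))))))))
noncomputable def xc175 : XT := (XT.nd (nat_lit 1560) (nat_lit 1292) (nat_lit 0) (XT.nd (nat_lit 780) (nat_lit 2736) (nat_lit 0) (XT.nd (nat_lit 390) (nat_lit 1520) (nat_lit 0) (XT.nd (nat_lit 156) (nat_lit 1064) (nat_lit 0) (XT.nd (nat_lit 78) (nat_lit 684) (nat_lit 0) (XT.lf (nat_lit 0) (nat_lit 19318269915) (nat_lit 532) (nat_lit 5762199916) (nat_lit 608) (nat_lit 3521676530) (nat_lit 265) (nat_lit 5) (nat_lit 272) (nat_lit 5) (nat_lit 273) (nat_lit 5) (nat_lit 646) (nat_lit 585) (nat_lit 329)) (XT.lf (nat_lit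 0) (nat_lit 1721796198) (nat_lit 684) (nat_lit 21293137555) (nat_lit 76) (nat_lit 5923095487) (nat_lit 256) (nat_lit 5) (nat_lit 265) (nat_lit 5) (nat_lit 257) (nat_lit 5) (nat_lit 647) (nat_lit 585) (nat_lit 328))) (XT.nd (nat_lit 78) (nat_lit 1064) (nat_lit 0) (XT.lf (nat_lit 0) (nat_lit 7120872779) (nat_lit 684) (nat_lit 4307243501) (nat_lit 76) (nat_lit 17850090200) (nat_lit 256) (nat_lit 5) (nat_lit 265) (nat_lit 5) (nat_lit 257) (nat_lit 5) (nat_lit 648) (nat_lit 585) (nat_lit 327)) (XT.nd (nat_lit 78) (nat_lit 532) (nat_lit 0) (XT.lf (nat_lit 0) (nat_lit 12713679866) (nat_lit 608) (nat_lit 16439272560) (nat_lit 76) (nat_lit 470519925) (nat_lit 249) (nat_lit 5) (nat_lit 257) (nat_lit 5) (nat_lit 250) (nat_lit 5) (nat_lit 649) (nat_lit 585) (nat_lit 326)) (XT.lf (nat_lit 0) (nat_lit 1042599972) (nat_lit 532) (nat_lit 17484349012) (nat_lit 608) (nat_lit 11446522497) (nat_lit 242) (nat_lit 5) (nat_lit 249) (nat_lit 5) (nat_lit 250) (nat_lit 5) (nat_lit 650) (nat_lit 585) (nat_lit 325))))) (XT.nd (nat_lit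 156) (nat_lit 988) (nat_lit 0) (XT.nd (nat_lit 78) (nat_lit 532) (nat_lit 0) (XT.lf (nat_lit 0) (nat_lit 19092982969) (nat_lit 532) (nat_lit 5470907081) (nat_lit 608) (nat_lit 5764432473) (nat_lit 242) (nat_lit 5) (nat_lit 249) (nat_lit 5) (nat_lit 250) (nat_lit 5) (nat_lit 651) (nat_lit 585) (nat_lit 324)) (XT.lf (nat_lit 0) (nat_lit 117149471) (nat_lit 532) (nat_lit 23833282953) (nat_lit 76) (nat_lit 6738108944) (nat_lit 235) (nat_lit 5) (nat_lit 242) (nat_lit 5) (nat_lit 236) (nat_lit 5) (nat_lit 652) (nat_lit 585) (nat_lit 323))) (XT.nd (nat_lit 78) (nat_lit 988) (nat_lit 0) (XT.lf (nat_lit 0) (nat_lit 6148527570) (nat_lit 532) (nat_lit 5673346155) (nat_lit 76) (nat_lit 19231141858) (nat_lit 235) (nat_lit 5) (nat_lit 242) (nat_lit 5) (nat_lit 236) (nat_lit 5) (nat_lit 653) (nat_lit 585) (nat_lit 322)) (XT.nd (nat_lit 78) (nat_lit 456) (nat_lit 0) (XT.lf (nat_lit 0) (nat_lit 12386373068) (nat_lit 608) (nat_lit 18410631688) (nat_lit 76) (nat_lit 626057786) (nat_lit 228) (nat_lit 5) (nat_lit 236) (nat_lit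 5) (nat_lit 229) (nat_lit 5) (nat_lit 654) (nat_lit 585) (nat_lit 321)) (XT.lf (nat_lit 0) (nat_lit 270183330) (nat_lit 456) (nat_lit 18594391311) (nat_lit 532) (nat_lit 12933623871) (nat_lit 222) (nat_lit 5) (nat_lit 228) (nat_lit 5) (nat_lit 229) (nat_lit 5) (nat_lit 655) (nat_lit 585) (nat_lit 320)))))) (XT.nd (nat_lit 390) (nat_lit 1292) (nat_lit 0) (XT.nd (nat_lit 156) (nat_lit 988) (nat_lit 0) (XT.nd (nat_lit 78) (nat_lit 456) (nat_lit 0) (XT.lf (nat_lit 0) (nat_lit 19570305657) (nat_lit 456) (nat_lit 6022839918) (nat_lit 532) (nat_lit 6585275573) (nat_lit 222) (nat_lit 5) (nat_lit 228) (nat_lit 5) (nat_lit 229) (nat_lit 5) (nat_lit 656) (nat_lit 585) (nat_lit 319)) (XT.lf (nat_lit 0) (nat_lit 6730461726) (nat_lit 456) (nat_lit 25810982686) (nat_lit 532) (nat_lit 23100748) (nat_lit 216) (nat_lit 5) (nat_lit 222) (nat_lit 5) (nat_lit 223) (nat_lit 5) (nat_lit 657) (nat_lit 585) (nat_lit 318))) (XT.nd (nat_lit 78) (nat_lit 912) (nat_lit 0) (XT.lf (nat_lit 0) (nat_lit 6705206079) (nat_lit 532) (nat_lit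 6417588575) (nat_lit 76) (nat_lit 19832283467) (nat_lit 215) (nat_lit 5) (nat_lit 222) (nat_lit 5) (nat_lit 216) (nat_lit 5) (nat_lit 658) (nat_lit 585) (nat_lit 317)) (XT.nd (nat_lit 78) (nat_lit 456) (nat_lit 0) (XT.lf (nat_lit 0) (nat_lit 13561164737) (nat_lit 456) (nat_lit 92023118) (nat_lit 532) (nat_lit 19698522520) (nat_lit 209) (nat_lit 5) (nat_lit 215) (nat_lit 5) (nat_lit 216) (nat_lit 5) (nat_lit 659) (nat_lit 585) (nat_lit 316)) (XT.lf (nat_lit 0) (nat_lit 183700906) (nat_lit 456) (nat_lit 20684060227) (nat_lit 532) (nat_lit 12885961552) (nat_lit 203) (nat_lit 5) (nat_lit 209) (nat_lit 5) (nat_lit 210) (nat_lit 5) (nat_lit 660) (nat_lit 585) (nat_lit 315))))) (XT.nd (nat_lit 156) (nat_lit 836) (nat_lit 0) (XT.nd (nat_lit 78) (nat_lit 456) (nat_lit 0) (XT.lf (nat_lit 0) (nat_lit 20821310493) (nat_lit 456) (nat_lit 7536142017) (nat_lit 532) (nat_lit 5803706246) (nat_lit 203) (nat_lit 5) (nat_lit 209) (nat_lit 5) (nat_lit 210) (nat_lit 5) (nat_lit 661) (nat_lit 585) (nat_lit 314)) (XT.lf (nat_lit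 0) (nat_lit 1485439233) (nat_lit 456) (nat_lit 27235414262) (nat_lit 76) (nat_lit 5854028260) (nat_lit 197) (nat_lit 5) (nat_lit 203) (nat_lit 5) (nat_lit 198) (nat_lit 5) (nat_lit 662) (nat_lit 585) (nat_lit 313))) (XT.nd (nat_lit 78) (nat_lit 836) (nat_lit 0) (XT.lf (nat_lit 0) (nat_lit 8980215442) (nat_lit 456) (nat_lit 6474579074) (nat_lit 76) (nat_lit 19538566303) (nat_lit 197) (nat_lit 5) (nat_lit 203) (nat_lit 5) (nat_lit 198) (nat_lit 5) (nat_lit 663) (nat_lit 585) (nat_lit 312)) (XT.nd (nat_lit 78) (nat_lit 380) (nat_lit 0) (XT.lf (nat_lit 0) (nat_lit 14893123585) (nat_lit 456) (nat_lit 1825977611) (nat_lit 532) (nat_lit 18699224032) (nat_lit 191) (nat_lit 5) (nat_lit 197) (nat_lit 5) (nat_lit 198) (nat_lit 5) (nat_lit 664) (nat_lit 585) (nat_lit 311)) (XT.lf (nat_lit 0) (nat_lit 853841412) (nat_lit 380) (nat_lit 23884139328) (nat_lit 456) (nat_lit 11111303907) (nat_lit 186) (nat_lit 5) (nat_lit 191) (nat_lit 5) (nat_lit 192) (nat_lit 5) (nat_lit 665) (nat_lit 585) (nat_lit 310))))))) (XT.nd (nat_lit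 75270) (nat_lit 0) (nat_lit 15504) (XT.nd (nat_lit 390) (nat_lit 76) (nat_lit 0) (XT.nd (nat_lit 156) (nat_lit 760) (nat_lit 0) (XT.nd (nat_lit 78) (nat_lit 456) (nat_lit 0) (XT.lf (nat_lit 0) (nat_lit 22922768381) (nat_lit 380) (nat_lit 10141777117) (nat_lit 456) (nat_lit 3221371646) (nat_lit 186) (nat_lit 5) (nat_lit 191) (nat_lit 5) (nat_lit 192) (nat_lit 5) (nat_lit 666) (nat_lit 585) (nat_lit 309)) (XT.lf (nat_lit 0) (nat_lit 4843410049) (nat_lit 456) (nat_lit 27973297557) (nat_lit 76) (nat_lit 3912341021) (nat_lit 180) (nat_lit 5) (nat_lit 186) (nat_lit 5) (nat_lit 181) (nat_lit 5) (nat_lit 667) (nat_lit 585) (nat_lit 308))) (XT.nd (nat_lit 78) (nat_lit 760) (nat_lit 0) (XT.lf (nat_lit 0) (nat_lit 13181432817) (nat_lit 456) (nat_lit 5773815152) (nat_lit 76) (nat_lit 18222267353) (nat_lit 180) (nat_lit 5) (nat_lit 186) (nat_lit 5) (nat_lit 181) (nat_lit 5) (nat_lit 668) (nat_lit 585) (nat_lit 307)) (XT.nd (nat_lit 78) (nat_lit 380) (nat_lit 0) (XT.lf (nat_lit 0) (nat_lit 17090225491) (nat_lit 380) (nat_lit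 4704606110) (nat_lit 456) (nat_lit 15837947476) (nat_lit 175) (nat_lit 5) (nat_lit 180) (nat_lit 5) (nat_lit 181) (nat_lit 5) (nat_lit 669) (nat_lit 585) (nat_lit 306)) (XT.lf (nat_lit 0) (nat_lit 2356673432) (nat_lit 380) (nat_lit 28339627097) (nat_lit 456) (nat_lit 7398531574) (nat_lit 170) (nat_lit 5) (nat_lit 175) (nat_lit 5) (nat_lit 176) (nat_lit 5) (nat_lit 670) (nat_lit 585) (nat_lit 305))))) (XT.nd (nat_lit 74646) (nat_lit 0) (nat_lit 25612) (XT.nd (nat_lit 74568) (nat_lit 0) (nat_lit 25612) (XT.lf (nat_lit 0) (nat_lit 1361404868) (nat_lit 456) (nat_lit 12614542823) (nat_lit 76) (nat_lit 24586669510) (nat_lit 169) (nat_lit 5) (nat_lit 175) (nat_lit 5) (nat_lit 170) (nat_lit 5) (nat_lit 671) (nat_lit 585) (nat_lit 304)) (XT.lf (nat_lit 0) (nat_lit 2313242099) (nat_lit 0) (nat_lit 2313242099) (nat_lit 1748) (nat_lit 2972339891) (nat_lit 506) (nat_lit 5) (nat_lit 506) (nat_lit 3) (nat_lit 529) (nat_lit 3) (nat_lit 586) (nat_lit 586) (nat_lit 388))) (XT.nd (nat_lit 78) (nat_lit 0) (nat_lit 0) (XT.lf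 (nat_lit 0) (nat_lit 9653906852) (nat_lit 1748) (nat_lit 3018324350) (nat_lit 1824) (nat_lit 2671216250) (nat_lit 506) (nat_lit 5) (nat_lit 529) (nat_lit 3) (nat_lit 530) (nat_lit 5) (nat_lit 587) (nat_lit 586) (nat_lit 387)) (XT.nd (nat_lit 78) (nat_lit 0) (nat_lit 76) (XT.lf (nat_lit 76) (nat_lit 4712749738) (nat_lit 0) (nat_lit 5403747660) (nat_lit 1824) (nat_lit 5374592879) (nat_lit 507) (nat_lit 5) (nat_lit 506) (nat_lit 5) (nat_lit 530) (nat_lit 5) (nat_lit 588) (nat_lit 586) (nat_lit 386)) (XT.lf (nat_lit 0) (nat_lit 10614321605) (nat_lit 1748) (nat_lit 3019244786) (nat_lit 1824) (nat_lit 2007600163) (nat_lit 507) (nat_lit 5) (nat_lit 530) (nat_lit 5) (nat_lit 531) (nat_lit 5) (nat_lit 589) (nat_lit 586) (nat_lit 385)))))) (XT.nd (nat_lit 2418) (nat_lit 2508) (nat_lit 0) (XT.nd (nat_lit 156) (nat_lit 7676) (nat_lit 0) (XT.nd (nat_lit 78) (nat_lit 0) (nat_lit 76) (XT.lf (nat_lit 76) (nat_lit 4919712195) (nat_lit 0) (nat_lit 6262807003) (nat_lit 1824) (nat_lit 4610517048) (nat_lit 508) (nat_lit 5) (nat_lit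 507) (nat_lit 5) (nat_lit 531) (nat_lit 5) (nat_lit 590) (nat_lit 586) (nat_lit 384)) (XT.lf (nat_lit 0) (nat_lit 11783452519) (nat_lit 1748) (nat_lit 2901643149) (nat_lit 1824) (nat_lit 1262420452) (nat_lit 508) (nat_lit 5) (nat_lit 531) (nat_lit 5) (nat_lit 532) (nat_lit 5) (nat_lit 591) (nat_lit 586) (nat_lit 383))) (XT.nd (nat_lit 2106) (nat_lit 7752) (nat_lit 0) (XT.lf (nat_lit 76) (nat_lit 5252774013) (nat_lit 0) (nat_lit 7212177389) (nat_lit 1824) (nat_lit 3638763472) (nat_lit 509) (nat_lit 5) (nat_lit 508) (nat_lit 5) (nat_lit 532) (nat_lit 5) (nat_lit 592) (nat_lit 586) (nat_lit 382)) (XT.nd (nat_lit 78) (nat_lit 912) (nat_lit 0) (XT.lf (nat_lit 0) (nat_lit 14586277872) (nat_lit 836) (nat_lit 1522372701) (nat_lit 912) (nat_lit 5172048729) (nat_lit 418) (nat_lit 5) (nat_lit 429) (nat_lit 5) (nat_lit 430) (nat_lit 5) (nat_lit 619) (nat_lit 586) (nat_lit 355)) (XT.lf (nat_lit 0) (nat_lit 5131651179) (nat_lit 912) (nat_lit 13593798599) (nat_lit 988) (nat_lit 2787114093) (nat_lit 406) (nat_lit 5) (nat_lit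 418) (nat_lit 5) (nat_lit 419) (nat_lit 5) (nat_lit 620) (nat_lit 586) (nat_lit 354))))) (XT.nd (nat_lit 234) (nat_lit 1596) (nat_lit 0) (XT.nd (nat_lit 78) (nat_lit 912) (nat_lit 0) (XT.lf (nat_lit 0) (nat_lit 17270520990) (nat_lit 912) (nat_lit 4174722592) (nat_lit 988) (nat_lit 302809095) (nat_lit 406) (nat_lit 5) (nat_lit 418) (nat_lit 5) (nat_lit 419) (nat_lit 5) (nat_lit 621) (nat_lit 586) (nat_lit 353)) (XT.nd (nat_lit 78) (nat_lit 0) (nat_lit 0) (XT.lf (nat_lit 0) (nat_lit 2283694920) (nat_lit 912) (nat_lit 14275936582) (nat_lit 76) (nat_lit 5426694639) (nat_lit 394) (nat_lit 5) (nat_lit 406) (nat_lit 5) (nat_lit 395) (nat_lit 5) (nat_lit 622) (nat_lit 586) (nat_lit 352)) (XT.lf (nat_lit 0) (nat_lit 4971602249) (nat_lit 912) (nat_lit 2060133624) (nat_lit 76) (nat_lit 15196514725) (nat_lit 394) (nat_lit 5) (nat_lit 406) (nat_lit 5) (nat_lit 395) (nat_lit 5) (nat_lit 623) (nat_lit 586) (nat_lit 351)))) (XT.nd (nat_lit 78) (nat_lit 760) (nat_lit 0) (XT.lf (nat_lit 0) (nat_lit 7795470288) (nat_lit 912)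 (nat_lit 11957681128) (nat_lit 76) (nat_lit 2720218185) (nat_lit 383) (nat_lit 5) (nat_lit 395) (nat_lit 5) (nat_lit 384) (nat_lit 5) (nat_lit 624) (nat_lit 586) (nat_lit 350)) (XT.nd (nat_lit 78) (nat_lit 0) (nat_lit 0) (XT.lf (nat_lit 0) (nat_lit 604862043) (nat_lit 760) (nat_lit 10131329962) (nat_lit 836) (nat_lit 11985991563) (nat_lit 373) (nat_lit 5) (nat_lit 383) (nat_lit 5) (nat_lit 384) (nat_lit 5) (nat_lit 625) (nat_lit 586) (nat_lit 349)) (XT.lf (nat_lit 0) (nat_lit 13576523889) (nat_lit 760) (nat_lit 235463534) (nat_lit 836) (nat_lit 9162461309) (nat_lit 373) (nat_lit 5) (nat_lit 383) (nat_lit 5) (nat_lit 384) (nat_lit 5) (nat_lit 626) (nat_lit 586) (nat_lit 348))))))))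
noncomputable def xc176 : XT := (XT.nd (nat_lit 1560) (nat_lit 6004) (nat_lit 0) (XT.nd (nat_lit 780) (nat_lit 3724) (nat_lit 0) (XT.nd (nat_lit 390) (nat_lit 2128) (nat_lit 0) (XT.nd (nat_lit 156) (nat_lit 1596) (nat_lit 0) (XT.nd (nat_lit 78) (nat_lit 0) (nat_lit 0) (XT.lf (nat_lit 0) (nat_lit 3554252061) (nat_lit 760) (nat_lit 13478223517) (nat_lit 836) (nat_lit 6197620188) (nat_lit 363) (nat_lit 5) (nat_lit 373) (nat_lit 5) (nat_lit 374) (nat_lit 5) (nat_lit 627) (nat_lit 586) (nat_lit 347)) (XT.lf (nat_lit 0) (nat_lit 16887095890) (nat_lit 760) (nat_lit 3491034651) (nat_lit 836) (nat_lit 3111510161) (nat_lit 363) (nat_lit 5) (nat_lit 373) (nat_lit 5) (nat_lit 374) (nat_lit 5) (nat_lit 628) (nat_lit 586) (nat_lit 346))) (XT.nd (nat_lit 78) (nat_lit 760) (nat_lit 0) (XT.lf (nat_lit 0) (nat_lit 120067757) (nat_lit 836) (nat_lit 16980092359) (nat_lit 76) (nat_lit 6652527359) (nat_lit 352) (nat_lit 5) (nat_lit 363) (nat_lit 5) (nat_lit 353) (nat_lit 5) (nat_lit 629) (nat_lit 586) (nat_lit 345)) (XT.nd (nat_lit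 78) (nat_lit 760) (nat_lit 0) (XT.lf (nat_lit 0) (nat_lit 3438611300) (nat_lit 836) (nat_lit 3563592825) (nat_lit 76) (nat_lit 17017099869) (nat_lit 352) (nat_lit 5) (nat_lit 363) (nat_lit 5) (nat_lit 353) (nat_lit 5) (nat_lit 630) (nat_lit 586) (nat_lit 344)) (XT.lf (nat_lit 0) (nat_lit 6908247194) (nat_lit 836) (nat_lit 14060276117) (nat_lit 76) (nat_lit 3321035197) (nat_lit 342) (nat_lit 5) (nat_lit 353) (nat_lit 5) (nat_lit 343) (nat_lit 5) (nat_lit 631) (nat_lit 586) (nat_lit 343))))) (XT.nd (nat_lit 156) (nat_lit 1444) (nat_lit 0) (XT.nd (nat_lit 78) (nat_lit 684) (nat_lit 0) (XT.lf (nat_lit 0) (nat_lit 10514075356) (nat_lit 836) (nat_lit 269112340) (nat_lit 76) (nat_lit 13780694516) (nat_lit 342) (nat_lit 5) (nat_lit 353) (nat_lit 5) (nat_lit 343) (nat_lit 5) (nat_lit 632) (nat_lit 586) (nat_lit 342)) (XT.lf (nat_lit 0) (nat_lit 13977106119) (nat_lit 684) (nat_lit 302089458) (nat_lit 760) (nat_lit 10562753394) (nat_lit 333) (nat_lit 5) (nat_lit 342) (nat_lit 5) (nat_lit 343) (nat_lit 5) (nat_lit 633)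 (nat_lit 586) (nat_lit 341))) (XT.nd (nat_lit 78) (nat_lit 760) (nat_lit 0) (XT.lf (nat_lit 0) (nat_lit 3358824357) (nat_lit 684) (nat_lit 14848336471) (nat_lit 760) (nat_lit 6916665471) (nat_lit 324) (nat_lit 5) (nat_lit 333) (nat_lit 5) (nat_lit 334) (nat_lit 5) (nat_lit 634) (nat_lit 586) (nat_lit 340)) (XT.nd (nat_lit 78) (nat_lit 760) (nat_lit 0) (XT.lf (nat_lit 0) (nat_lit 18008119374) (nat_lit 684) (nat_lit 4276972129) (nat_lit 760) (nat_lit 3124821635) (nat_lit 324) (nat_lit 5) (nat_lit 333) (nat_lit 5) (nat_lit 334) (nat_lit 5) (nat_lit 635) (nat_lit 586) (nat_lit 339)) (XT.lf (nat_lit 0) (nat_lit 819885618) (nat_lit 760) (nat_lit 18407316320) (nat_lit 76) (nat_lit 6472688012) (nat_lit 314) (nat_lit 5) (nat_lit 324) (nat_lit 5) (nat_lit 315) (nat_lit 5) (nat_lit 636) (nat_lit 586) (nat_lit 338)))))) (XT.nd (nat_lit 390) (nat_lit 1824) (nat_lit 0) (XT.nd (nat_lit 156) (nat_lit 1216) (nat_lit 0) (XT.nd (nat_lit 78) (nat_lit 684) (nat_lit 0) (XT.lf (nat_lit 0) (nat_lit 4876600785) (nat_lit 760) (nat_lit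 3666955790) (nat_lit 76) (nat_lit 17450197599) (nat_lit 314) (nat_lit 5) (nat_lit 324) (nat_lit 5) (nat_lit 315) (nat_lit 5) (nat_lit 637) (nat_lit 586) (nat_lit 337)) (XT.lf (nat_lit 0) (nat_lit 9101647250) (nat_lit 760) (nat_lit 14792620831) (nat_lit 76) (nat_lit 2397483741) (nat_lit 305) (nat_lit 5) (nat_lit 315) (nat_lit 5) (nat_lit 306) (nat_lit 5) (nat_lit 638) (nat_lit 586) (nat_lit 336))) (XT.nd (nat_lit 78) (nat_lit 608) (nat_lit 0) (XT.lf (nat_lit 0) (nat_lit 367047931) (nat_lit 608) (nat_lit 13124574589) (nat_lit 684) (nat_lit 13102478426) (nat_lit 297) (nat_lit 5) (nat_lit 305) (nat_lit 5) (nat_lit 306) (nat_lit 5) (nat_lit 639) (nat_lit 586) (nat_lit 335)) (XT.nd (nat_lit 78) (nat_lit 608) (nat_lit 0) (XT.lf (nat_lit 0) (nat_lit 16026402652) (nat_lit 608) (nat_lit 2038994334) (nat_lit 684) (nat_lit 8835180147) (nat_lit 297) (nat_lit 5) (nat_lit 305) (nat_lit 5) (nat_lit 306) (nat_lit 5) (nat_lit 640) (nat_lit 586) (nat_lit 334)) (XT.lf (nat_lit 0) (nat_lit 4784327346) (nat_lit 608) (nat_lit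 18034351200) (nat_lit 684) (nat_lit 4392743743) (nat_lit 289) (nat_lit 5) (nat_lit 297) (nat_lit 5) (nat_lit 298) (nat_lit 5) (nat_lit 641) (nat_lit 586) (nat_lit 333))))) (XT.nd (nat_lit 156) (nat_lit 1140) (nat_lit 0) (XT.nd (nat_lit 78) (nat_lit 608) (nat_lit 0) (XT.lf (nat_lit 0) (nat_lit 220490983) (nat_lit 684) (nat_lit 6642531226) (nat_lit 76) (nat_lit 20663768888) (nat_lit 288) (nat_lit 5) (nat_lit 297) (nat_lit 5) (nat_lit 289) (nat_lit 5) (nat_lit 642) (nat_lit 586) (nat_lit 332)) (XT.lf (nat_lit 0) (nat_lit 4956123303) (nat_lit 684) (nat_lit 18326790045) (nat_lit 76) (nat_lit 4563194249) (nat_lit 280) (nat_lit 5) (nat_lit 289) (nat_lit 5) (nat_lit 281) (nat_lit 5) (nat_lit 643) (nat_lit 586) (nat_lit 331))) (XT.nd (nat_lit 78) (nat_lit 1140) (nat_lit 0) (XT.lf (nat_lit 0) (nat_lit 9873690595) (nat_lit 684) (nat_lit 2126193602) (nat_lit 76) (nat_lit 16170181852) (nat_lit 280) (nat_lit 5) (nat_lit 289) (nat_lit 5) (nat_lit 281) (nat_lit 5) (nat_lit 644) (nat_lit 586) (nat_lit 330)) (XT.nd (nat_lit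 78) (nat_lit 532) (nat_lit 0) (XT.lf (nat_lit 0) (nat_lit 14585814702) (nat_lit 608) (nat_lit 395457833) (nat_lit 684) (nat_lit 13517397938) (nat_lit 272) (nat_lit 5) (nat_lit 280) (nat_lit 5) (nat_lit 281) (nat_lit 5) (nat_lit 645) (nat_lit 586) (nat_lit 329)) (XT.lf (nat_lit 0) (nat_lit 2785553757) (nat_lit 532) (nat_lit 17509174641) (nat_lit 608) (nat_lit 8537044209) (nat_lit 265) (nat_lit 5) (nat_lit 272) (nat_lit 5) (nat_lit 273) (nat_lit 5) (nat_lit 646) (nat_lit 586) (nat_lit 328))))))) (XT.nd (nat_lit 780) (nat_lit 2736) (nat_lit 0) (XT.nd (nat_lit 390) (nat_lit 1520) (nat_lit 0) (XT.nd (nat_lit 156) (nat_lit 1064) (nat_lit 0) (XT.nd (nat_lit 78) (nat_lit 684) (nat_lit 0) (XT.lf (nat_lit 0) (nat_lit 19999971469) (nat_lit 532) (nat_lit 5807471192) (nat_lit 608) (nat_lit 3362234402) (nat_lit 265) (nat_lit 5) (nat_lit 272) (nat_lit 5) (nat_lit 273) (nat_lit 5) (nat_lit 647) (nat_lit 586) (nat_lit 327)) (XT.lf (nat_lit 0) (nat_lit 1981036885) (nat_lit 684) (nat_lit 21418583630) (nat_lit 76) (nat_lit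 6112668449) (nat_lit 256) (nat_lit 5) (nat_lit 265) (nat_lit 5) (nat_lit 257) (nat_lit 5) (nat_lit 648) (nat_lit 586) (nat_lit 326))) (XT.nd (nat_lit 78) (nat_lit 1064) (nat_lit 0) (XT.lf (nat_lit 0) (nat_lit 7483687062) (nat_lit 684) (nat_lit 4098862219) (nat_lit 76) (nat_lit 18276808722) (nat_lit 256) (nat_lit 5) (nat_lit 265) (nat_lit 5) (nat_lit 257) (nat_lit 5) (nat_lit 649) (nat_lit 586) (nat_lit 325)) (XT.nd (nat_lit 78) (nat_lit 532) (nat_lit 0) (XT.lf (nat_lit 0) (nat_lit 13186412902) (nat_lit 608) (nat_lit 16471589892) (nat_lit 76) (nat_lit 553565236) (nat_lit 249) (nat_lit 5) (nat_lit 257) (nat_lit 5) (nat_lit 250) (nat_lit 5) (nat_lit 650) (nat_lit 586) (nat_lit 324)) (XT.lf (nat_lit 0) (nat_lit 1357969643) (nat_lit 532) (nat_lit 17755606445) (nat_lit 608) (nat_lit 11455038570) (nat_lit 242) (nat_lit 5) (nat_lit 249) (nat_lit 5) (nat_lit 250) (nat_lit 5) (nat_lit 651) (nat_lit 586) (nat_lit 323))))) (XT.nd (nat_lit 156) (nat_lit 988) (nat_lit 0) (XT.nd (nat_lit 78) (nat_lit 532) (nat_lit 0) (XT.lf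 (nat_lit 0) (nat_lit 19763585444) (nat_lit 532) (nat_lit 5503433510) (nat_lit 608) (nat_lit 5663628596) (nat_lit 242) (nat_lit 5) (nat_lit 249) (nat_lit 5) (nat_lit 250) (nat_lit 5) (nat_lit 652) (nat_lit 586) (nat_lit 322)) (XT.lf (nat_lit 0) (nat_lit 330961048) (nat_lit 532) (nat_lit 24016573311) (nat_lit 76) (nat_lit 6950544234) (nat_lit 235) (nat_lit 5) (nat_lit 242) (nat_lit 5) (nat_lit 236) (nat_lit 5) (nat_lit 653) (nat_lit 586) (nat_lit 321))) (XT.nd (nat_lit 78) (nat_lit 988) (nat_lit 0) (XT.lf (nat_lit 0) (nat_lit 6478820266) (nat_lit 532) (nat_lit 5499190235) (nat_lit 76) (nat_lit 19691914804) (nat_lit 235) (nat_lit 5) (nat_lit 242) (nat_lit 5) (nat_lit 236) (nat_lit 5) (nat_lit 654) (nat_lit 586) (nat_lit 320)) (XT.nd (nat_lit 78) (nat_lit 456) (nat_lit 0) (XT.lf (nat_lit 0) (nat_lit 12839736115) (nat_lit 608) (nat_lit 18489530853) (nat_lit 76) (nat_lit 718140048) (nat_lit 228) (nat_lit 5) (nat_lit 236) (nat_lit 5) (nat_lit 229) (nat_lit 5) (nat_lit 655) (nat_lit 586) (nat_lit 319)) (XT.lf (nat_lit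 0) (nat_lit 562997088) (nat_lit 456) (nat_lit 18882338618) (nat_lit 532) (nat_lit 12984753399) (nat_lit 222) (nat_lit 5) (nat_lit 228) (nat_lit 5) (nat_lit 229) (nat_lit 5) (nat_lit 656) (nat_lit 586) (nat_lit 318)))))) (XT.nd (nat_lit 390) (nat_lit 1292) (nat_lit 0) (XT.nd (nat_lit 156) (nat_lit 912) (nat_lit 0) (XT.nd (nat_lit 78) (nat_lit 532) (nat_lit 0) (XT.lf (nat_lit 0) (nat_lit 20243486369) (nat_lit 456) (nat_lit 6061002090) (nat_lit 532) (nat_lit 6513507604) (nat_lit 222) (nat_lit 5) (nat_lit 228) (nat_lit 5) (nat_lit 229) (nat_lit 5) (nat_lit 657) (nat_lit 586) (nat_lit 317)) (XT.lf (nat_lit 0) (nat_lit 175993035) (nat_lit 532) (nat_lit 26064603218) (nat_lit 76) (nat_lit 6971254177) (nat_lit 215) (nat_lit 5) (nat_lit 222) (nat_lit 5) (nat_lit 216) (nat_lit 5) (nat_lit 658) (nat_lit 586) (nat_lit 316))) (XT.nd (nat_lit 78) (nat_lit 912) (nat_lit 0) (XT.lf (nat_lit 0) (nat_lit 7034650170) (nat_lit 532) (nat_lit 6265539465) (nat_lit 76) (nat_lit 20310079566) (nat_lit 215) (nat_lit 5) (nat_lit 222)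 (nat_lit 5) (nat_lit 216) (nat_lit 5) (nat_lit 659) (nat_lit 586) (nat_lit 315)) (XT.nd (nat_lit 78) (nat_lit 456) (nat_lit 0) (XT.lf (nat_lit 0) (nat_lit 14110944171) (nat_lit 456) (nat_lit 8625786) (nat_lit 532) (nat_lit 19895304647) (nat_lit 209) (nat_lit 5) (nat_lit 215) (nat_lit 5) (nat_lit 216) (nat_lit 5) (nat_lit 660) (nat_lit 586) (nat_lit 314)) (XT.lf (nat_lit 0) (nat_lit 467393196) (nat_lit 456) (nat_lit 21009611583) (nat_lit 532) (nat_lit 12947951051) (nat_lit 203) (nat_lit 5) (nat_lit 209) (nat_lit 5) (nat_lit 210) (nat_lit 5) (nat_lit 661) (nat_lit 586) (nat_lit 313))))) (XT.nd (nat_lit 156) (nat_lit 836) (nat_lit 0) (XT.nd (nat_lit 78) (nat_lit 456) (nat_lit 0) (XT.lf (nat_lit 0) (nat_lit 21512264420) (nat_lit 456) (nat_lit 7600463045) (nat_lit 532) (nat_lit 5727888478) (nat_lit 203) (nat_lit 5) (nat_lit 209) (nat_lit 5) (nat_lit 210) (nat_lit 5) (nat_lit 662) (nat_lit 586) (nat_lit 312)) (XT.lf (nat_lit 0) (nat_lit 1703166821) (nat_lit 456) (nat_lit 27501715001) (nat_lit 76) (nat_lit 6057733855)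 (nat_lit 197) (nat_lit 5) (nat_lit 203) (nat_lit 5) (nat_lit 198) (nat_lit 5) (nat_lit 663) (nat_lit 586) (nat_lit 311))) (XT.nd (nat_lit 78) (nat_lit 836) (nat_lit 0) (XT.lf (nat_lit 0) (nat_lit 9344151911) (nat_lit 456) (nat_lit 6331122081) (nat_lit 76) (nat_lit 20014264130) (nat_lit 197) (nat_lit 5) (nat_lit 203) (nat_lit 5) (nat_lit 198) (nat_lit 5) (nat_lit 664) (nat_lit 586) (nat_lit 310)) (XT.nd (nat_lit 78) (nat_lit 380) (nat_lit 0) (XT.lf (nat_lit 0) (nat_lit 15462138916) (nat_lit 456) (nat_lit 1773822612) (nat_lit 532) (nat_lit 18887077432) (nat_lit 191) (nat_lit 5) (nat_lit 197) (nat_lit 5) (nat_lit 198) (nat_lit 5) (nat_lit 665) (nat_lit 586) (nat_lit 309)) (XT.lf (nat_lit 0) (nat_lit 1143343994) (nat_lit 380) (nat_lit 24270629876) (nat_lit 456) (nat_lit 11148668655) (nat_lit 186) (nat_lit 5) (nat_lit 191) (nat_lit 5) (nat_lit 192) (nat_lit 5) (nat_lit 666) (nat_lit 586) (nat_lit 308))))))))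
noncomputable def xc177 : XT := (XT.nd (nat_lit 78156) (nat_lit 0) (nat_lit 7220) (XT.nd (nat_lit 77376) (nat_lit 0) (nat_lit 15428) (XT.nd (nat_lit 74958) (nat_lit 0) (nat_lit 25536) (XT.nd (nat_lit 156) (nat_lit 760) (nat_lit 0) (XT.nd (nat_lit 78) (nat_lit 456) (nat_lit 0) (XT.lf (nat_lit 0) (nat_lit 23648307822) (nat_lit 380) (nat_lit 10255208505) (nat_lit 456) (nat_lit 3104562481) (nat_lit 186) (nat_lit 5) (nat_lit 191) (nat_lit 5) (nat_lit 192) (nat_lit 5) (nat_lit 667) (nat_lit 586) (nat_lit 307)) (XT.lf (nat_lit 0) (nat_lit 5117957114) (nat_lit 456) (nat_lit 28262115718) (nat_lit 76) (nat_lit 4080000228) (nat_lit 180) (nat_lit 5) (nat_lit 186) (nat_lit 5) (nat_lit 181) (nat_lit 5) (nat_lit 668) (nat_lit 586) (nat_lit 306))) (XT.nd (nat_lit 78) (nat_lit 760) (nat_lit 0) (XT.lf (nat_lit 0) (nat_lit 13619256438) (nat_lit 456) (nat_lit 5623950484) (nat_lit 76) (nat_lit 18674371903) (nat_lit 180) (nat_lit 5) (nat_lit 186) (nat_lit 5) (nat_lit 181) (nat_lit 5) (nat_lit 669) (nat_lit 586) (nat_lit 305))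 (XT.nd (nat_lit 78) (nat_lit 380) (nat_lit 0) (XT.lf (nat_lit 0) (nat_lit 17695625307) (nat_lit 380) (nat_lit 4707593738) (nat_lit 456) (nat_lit 15978762950) (nat_lit 175) (nat_lit 5) (nat_lit 180) (nat_lit 5) (nat_lit 181) (nat_lit 5) (nat_lit 670) (nat_lit 586) (nat_lit 304)) (XT.lf (nat_lit 0) (nat_lit 2668510357) (nat_lit 380) (nat_lit 28813123366) (nat_lit 456) (nat_lit 7371664088) (nat_lit 170) (nat_lit 5) (nat_lit 175) (nat_lit 5) (nat_lit 176) (nat_lit 5) (nat_lit 671) (nat_lit 586) (nat_lit 303))))) (XT.nd (nat_lit 156) (nat_lit 0) (nat_lit 0) (XT.nd (nat_lit 78) (nat_lit 0) (nat_lit 0) (XT.lf (nat_lit 0) (nat_lit 2503980283) (nat_lit 0) (nat_lit 2503980283) (nat_lit 1748) (nat_lit 2737052093) (nat_lit 506) (nat_lit 5) (nat_lit 506) (nat_lit 3) (nat_lit 529) (nat_lit 3) (nat_lit 587) (nat_lit 587) (nat_lit 386)) (XT.lf (nat_lit 0) (nat_lit 10411707866) (nat_lit 1748) (nat_lit 2782221678) (nat_lit 1824) (nat_lit 2445074794) (nat_lit 506) (nat_lit 5) (nat_lit 529) (nat_lit 3) (nat_lit 530) (nat_lit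 5) (nat_lit 588) (nat_lit 587) (nat_lit 385))) (XT.nd (nat_lit 78) (nat_lit 0) (nat_lit 76) (XT.lf (nat_lit 76) (nat_lit 5101523436) (nat_lit 0) (nat_lit 5772866000) (nat_lit 1824) (nat_lit 4915394145) (nat_lit 507) (nat_lit 5) (nat_lit 506) (nat_lit 5) (nat_lit 530) (nat_lit 5) (nat_lit 589) (nat_lit 587) (nat_lit 384)) (XT.nd (nat_lit 78) (nat_lit 0) (nat_lit 0) (XT.lf (nat_lit 0) (nat_lit 11369615118) (nat_lit 1748) (nat_lit 2778313925) (nat_lit 1824) (nat_lit 1795183779) (nat_lit 507) (nat_lit 5) (nat_lit 530) (nat_lit 5) (nat_lit 531) (nat_lit 5) (nat_lit 590) (nat_lit 587) (nat_lit 383)) (XT.lf (nat_lit 76) (nat_lit 5317439855) (nat_lit 0) (nat_lit 6623033082) (nat_lit 1824) (nat_lit 4157721378) (nat_lit 508) (nat_lit 5) (nat_lit 507) (nat_lit 5) (nat_lit 531) (nat_lit 5) (nat_lit 591) (nat_lit 587) (nat_lit 382)))))) (XT.nd (nat_lit 390) (nat_lit 2432) (nat_lit 0) (XT.nd (nat_lit 156) (nat_lit 988) (nat_lit 0) (XT.nd (nat_lit 78) (nat_lit 836) (nat_lit 0) (XT.lf (nat_lit 0) (nat_lit 11795706815) (nat_lit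 988) (nat_lit 8549228758) (nat_lit 76) (nat_lit 891242528) (nat_lit 429) (nat_lit 5) (nat_lit 442) (nat_lit 5) (nat_lit 430) (nat_lit 5) (nat_lit 618) (nat_lit 587) (nat_lit 355)) (XT.lf (nat_lit 0) (nat_lit 3147247088) (nat_lit 836) (nat_lit 11076284345) (nat_lit 912) (nat_lit 7242718110) (nat_lit 418) (nat_lit 5) (nat_lit 429) (nat_lit 5) (nat_lit 430) (nat_lit 5) (nat_lit 619) (nat_lit 587) (nat_lit 354))) (XT.nd (nat_lit 78) (nat_lit 988) (nat_lit 0) (XT.lf (nat_lit 0) (nat_lit 15189428411) (nat_lit 836) (nat_lit 1563600559) (nat_lit 912) (nat_lit 4946831232) (nat_lit 418) (nat_lit 5) (nat_lit 429) (nat_lit 5) (nat_lit 430) (nat_lit 5) (nat_lit 620) (nat_lit 587) (nat_lit 353)) (XT.nd (nat_lit 78) (nat_lit 76) (nat_lit 0) (XT.lf (nat_lit 0) (nat_lit 5550140501) (nat_lit 912) (nat_lit 13867688033) (nat_lit 988) (nat_lit 2518620417) (nat_lit 406) (nat_lit 5) (nat_lit 418) (nat_lit 5) (nat_lit 419) (nat_lit 5) (nat_lit 621) (nat_lit 587) (nat_lit 352)) (XT.lf (nat_lit 0) (nat_lit 8894904) (nat_lit 988)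 (nat_lit 4251236433) (nat_lit 76) (nat_lit 17916639853) (nat_lit 405) (nat_lit 5) (nat_lit 418) (nat_lit 5) (nat_lit 406) (nat_lit 5) (nat_lit 622) (nat_lit 587) (nat_lit 351))))) (XT.nd (nat_lit 156) (nat_lit 1596) (nat_lit 0) (XT.nd (nat_lit 78) (nat_lit 0) (nat_lit 0) (XT.lf (nat_lit 0) (nat_lit 2638965508) (nat_lit 912) (nat_lit 14243493820) (nat_lit 76) (nat_lit 5537393107) (nat_lit 394) (nat_lit 5) (nat_lit 406) (nat_lit 5) (nat_lit 395) (nat_lit 5) (nat_lit 623) (nat_lit 587) (nat_lit 350)) (XT.lf (nat_lit 0) (nat_lit 5374560460) (nat_lit 912) (nat_lit 1789609342) (nat_lit 76) (nat_lit 15502567152) (nat_lit 394) (nat_lit 5) (nat_lit 406) (nat_lit 5) (nat_lit 395) (nat_lit 5) (nat_lit 624) (nat_lit 587) (nat_lit 349))) (XT.nd (nat_lit 78) (nat_lit 760) (nat_lit 0) (XT.lf (nat_lit 0) (nat_lit 8251030506) (nat_lit 912) (nat_lit 11881224469) (nat_lit 76) (nat_lit 2784581030) (nat_lit 383) (nat_lit 5) (nat_lit 395) (nat_lit 5) (nat_lit 384) (nat_lit 5) (nat_lit 625) (nat_lit 587) (nat_lit 348)) (XT.nd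 (nat_lit 78) (nat_lit 0) (nat_lit 0) (XT.lf (nat_lit 0) (nat_lit 930493182) (nat_lit 760) (nat_lit 10316233639) (nat_lit 836) (nat_lit 11923976382) (nat_lit 373) (nat_lit 5) (nat_lit 383) (nat_lit 5) (nat_lit 384) (nat_lit 5) (nat_lit 626) (nat_lit 587) (nat_lit 347)) (XT.lf (nat_lit 0) (nat_lit 14155440541) (nat_lit 760) (nat_lit 222797391) (nat_lit 836) (nat_lit 9049891896) (nat_lit 373) (nat_lit 5) (nat_lit 383) (nat_lit 5) (nat_lit 384) (nat_lit 5) (nat_lit 627) (nat_lit 587) (nat_lit 346))))))) (XT.nd (nat_lit 780) (nat_lit 3724) (nat_lit 0) (XT.nd (nat_lit 390) (nat_lit 2128) (nat_lit 0) (XT.nd (nat_lit 156) (nat_lit 1596) (nat_lit 0) (XT.nd (nat_lit 78) (nat_lit 0) (nat_lit 0) (XT.lf (nat_lit 0) (nat_lit 3936358598) (nat_lit 760) (nat_lit 13723220725) (nat_lit 836) (nat_lit 6029381761) (nat_lit 363) (nat_lit 5) (nat_lit 373) (nat_lit 5) (nat_lit 374) (nat_lit 5) (nat_lit 628) (nat_lit 587) (nat_lit 345)) (XT.lf (nat_lit 0) (nat_lit 17529760843) (nat_lit 760) (nat_lit 3536769793) (nat_lit 836) (nat_lit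 2887278764) (nat_lit 363) (nat_lit 5) (nat_lit 373) (nat_lit 5) (nat_lit 374) (nat_lit 5) (nat_lit 629) (nat_lit 587) (nat_lit 344))) (XT.nd (nat_lit 78) (nat_lit 760) (nat_lit 0) (XT.lf (nat_lit 0) (nat_lit 401800080) (nat_lit 836) (nat_lit 17007626238) (nat_lit 76) (nat_lit 6812721207) (nat_lit 352) (nat_lit 5) (nat_lit 363) (nat_lit 5) (nat_lit 353) (nat_lit 5) (nat_lit 630) (nat_lit 587) (nat_lit 343)) (XT.nd (nat_lit 78) (nat_lit 760) (nat_lit 0) (XT.lf (nat_lit 0) (nat_lit 3781237416) (nat_lit 836) (nat_lit 3328915694) (nat_lit 76) (nat_lit 17384052946) (nat_lit 352) (nat_lit 5) (nat_lit 363) (nat_lit 5) (nat_lit 353) (nat_lit 5) (nat_lit 631) (nat_lit 587) (nat_lit 342)) (XT.lf (nat_lit 0) (nat_lit 7317087064) (nat_lit 836) (nat_lit 14032346883) (nat_lit 76) (nat_lit 3420495428) (nat_lit 342) (nat_lit 5) (nat_lit 353) (nat_lit 5) (nat_lit 343) (nat_lit 5) (nat_lit 632) (nat_lit 587) (nat_lit 341))))) (XT.nd (nat_lit 156) (nat_lit 1444) (nat_lit 0) (XT.nd (nat_lit 78) (nat_lit 0) (nat_lit 0) (XT.lf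 (nat_lit 0) (nat_lit 28958499) (nat_lit 684) (nat_lit 10960953957) (nat_lit 760) (nat_lit 14059929617) (nat_lit 333) (nat_lit 5) (nat_lit 342) (nat_lit 5) (nat_lit 343) (nat_lit 5) (nat_lit 633) (nat_lit 587) (nat_lit 340)) (XT.lf (nat_lit 0) (nat_lit 14557727629) (nat_lit 684) (nat_lit 269170955) (nat_lit 760) (nat_lit 10506640443) (nat_lit 333) (nat_lit 5) (nat_lit 342) (nat_lit 5) (nat_lit 343) (nat_lit 5) (nat_lit 634) (nat_lit 587) (nat_lit 339))) (XT.nd (nat_lit 78) (nat_lit 760) (nat_lit 0) (XT.lf (nat_lit 0) (nat_lit 3730062545) (nat_lit 684) (nat_lit 15100443172) (nat_lit 760) (nat_lit 6790606662) (nat_lit 324) (nat_lit 5) (nat_lit 333) (nat_lit 5) (nat_lit 334) (nat_lit 5) (nat_lit 635) (nat_lit 587) (nat_lit 338)) (XT.nd (nat_lit 78) (nat_lit 760) (nat_lit 0) (XT.lf (nat_lit 0) (nat_lit 18666381468) (nat_lit 684) (nat_lit 4318531152) (nat_lit 760) (nat_lit 2928110109) (nat_lit 324) (nat_lit 5) (nat_lit 333) (nat_lit 5) (nat_lit 334) (nat_lit 5) (nat_lit 636) (nat_lit 587) (nat_lit 337)) (XT.lf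 (nat_lit 0) (nat_lit 1089324331) (nat_lit 760) (nat_lit 18471183775) (nat_lit 76) (nat_lit 6648312781) (nat_lit 314) (nat_lit 5) (nat_lit 324) (nat_lit 5) (nat_lit 315) (nat_lit 5) (nat_lit 637) (nat_lit 587) (nat_lit 336)))))) (XT.nd (nat_lit 390) (nat_lit 1824) (nat_lit 0) (XT.nd (nat_lit 156) (nat_lit 1216) (nat_lit 0) (XT.nd (nat_lit 78) (nat_lit 684) (nat_lit 0) (XT.lf (nat_lit 0) (nat_lit 5222212213) (nat_lit 760) (nat_lit 3441982287) (nat_lit 76) (nat_lit 17844467246) (nat_lit 314) (nat_lit 5) (nat_lit 324) (nat_lit 5) (nat_lit 315) (nat_lit 5) (nat_lit 638) (nat_lit 587) (nat_lit 335)) (XT.lf (nat_lit 0) (nat_lit 9529151901) (nat_lit 760) (nat_lit 14787547115) (nat_lit 76) (nat_lit 2495972602) (nat_lit 305) (nat_lit 5) (nat_lit 315) (nat_lit 5) (nat_lit 306) (nat_lit 5) (nat_lit 639) (nat_lit 587) (nat_lit 334))) (XT.nd (nat_lit 78) (nat_lit 608) (nat_lit 0) (XT.lf (nat_lit 0) (nat_lit 673335246) (nat_lit 608) (nat_lit 13330719217) (nat_lit 684) (nat_lit 13117070818) (nat_lit 297) (nat_lit 5) (nat_lit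 305) (nat_lit 5) (nat_lit 306) (nat_lit 5) (nat_lit 640) (nat_lit 587) (nat_lit 333)) (XT.nd (nat_lit 78) (nat_lit 608) (nat_lit 0) (XT.lf (nat_lit 0) (nat_lit 16640015368) (nat_lit 608) (nat_lit 2024532198) (nat_lit 684) (nat_lit 8769278675) (nat_lit 297) (nat_lit 5) (nat_lit 305) (nat_lit 5) (nat_lit 306) (nat_lit 5) (nat_lit 641) (nat_lit 587) (nat_lit 332)) (XT.lf (nat_lit 0) (nat_lit 5175545163) (nat_lit 608) (nat_lit 18334956433) (nat_lit 684) (nat_lit 4240434676) (nat_lit 289) (nat_lit 5) (nat_lit 297) (nat_lit 5) (nat_lit 298) (nat_lit 5) (nat_lit 642) (nat_lit 587) (nat_lit 331))))) (XT.nd (nat_lit 234) (nat_lit 1140) (nat_lit 0) (XT.nd (nat_lit 78) (nat_lit 608) (nat_lit 0) (XT.lf (nat_lit 0) (nat_lit 457267615) (nat_lit 684) (nat_lit 6482552019) (nat_lit 76) (nat_lit 21132854689) (nat_lit 288) (nat_lit 5) (nat_lit 297) (nat_lit 5) (nat_lit 289) (nat_lit 5) (nat_lit 643) (nat_lit 587) (nat_lit 330)) (XT.nd (nat_lit 78) (nat_lit 0) (nat_lit 0) (XT.lf (nat_lit 0) (nat_lit 5285342483) (nat_lit 684)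 (nat_lit 18398220759) (nat_lit 76) (nat_lit 4714859415) (nat_lit 280) (nat_lit 5) (nat_lit 289) (nat_lit 5) (nat_lit 281) (nat_lit 5) (nat_lit 644) (nat_lit 587) (nat_lit 329)) (XT.lf (nat_lit 0) (nat_lit 10296749421) (nat_lit 684) (nat_lit 1879398761) (nat_lit 76) (nat_lit 16552802432) (nat_lit 280) (nat_lit 5) (nat_lit 289) (nat_lit 5) (nat_lit 281) (nat_lit 5) (nat_lit 645) (nat_lit 587) (nat_lit 328)))) (XT.nd (nat_lit 78) (nat_lit 532) (nat_lit 0) (XT.lf (nat_lit 0) (nat_lit 15164946297) (nat_lit 608) (nat_lit 338979559) (nat_lit 684) (nat_lit 13560252513) (nat_lit 272) (nat_lit 5) (nat_lit 280) (nat_lit 5) (nat_lit 281) (nat_lit 5) (nat_lit 646) (nat_lit 587) (nat_lit 327)) (XT.nd (nat_lit 78) (nat_lit 0) (nat_lit 0) (XT.lf (nat_lit 0) (nat_lit 3130810083) (nat_lit 532) (nat_lit 17790757425) (nat_lit 608) (nat_lit 8482416800) (nat_lit 265) (nat_lit 5) (nat_lit 272) (nat_lit 5) (nat_lit 273) (nat_lit 5) (nat_lit 647) (nat_lit 587) (nat_lit 326)) (XT.lf (nat_lit 0) (nat_lit 20683838791) (nat_lit 532)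 (nat_lit 5856365020) (nat_lit 608) (nat_lit 3208529783) (nat_lit 265) (nat_lit 5) (nat_lit 272) (nat_lit 5) (nat_lit 273) (nat_lit 5) (nat_lit 648) (nat_lit 587) (nat_lit 325))))))))
noncomputable def xc178 : XT := (XT.nd (nat_lit 1560) (nat_lit 836) (nat_lit 0) (XT.nd (nat_lit 780) (nat_lit 2736) (nat_lit 0) (XT.nd (nat_lit 390) (nat_lit 1520) (nat_lit 0) (XT.nd (nat_lit 156) (nat_lit 1064) (nat_lit 0) (XT.nd (nat_lit 78) (nat_lit 0) (nat_lit 0) (XT.lf (nat_lit 0) (nat_lit 2236732943) (nat_lit 684) (nat_lit 21558204173) (nat_lit 76) (nat_lit 6303271542) (nat_lit 256) (nat_lit 5) (nat_lit 265) (nat_lit 5) (nat_lit 257) (nat_lit 5) (nat_lit 649) (nat_lit 587) (nat_lit 324)) (XT.lf (nat_lit 0) (nat_lit 7845199352) (nat_lit 684) (nat_lit 3897750120) (nat_lit 76) (nat_lit 18709354430) (nat_lit 256) (nat_lit 5) (nat_lit 265) (nat_lit 5) (nat_lit 257) (nat_lit 5) (nat_lit 650) (nat_lit 587) (nat_lit 323))) (XT.nd (nat_lit 78) (nat_lit 532) (nat_lit 0) (XT.lf (nat_lit 0) (nat_lit 13660117553) (nat_lit 608) (nat_lit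 16516065788) (nat_lit 76) (nat_lit 635412119) (nat_lit 249) (nat_lit 5) (nat_lit 257) (nat_lit 5) (nat_lit 250) (nat_lit 5) (nat_lit 651) (nat_lit 587) (nat_lit 322)) (XT.nd (nat_lit 78) (nat_lit 0) (nat_lit 0) (XT.lf (nat_lit 0) (nat_lit 1668210228) (nat_lit 532) (nat_lit 18035334542) (nat_lit 608) (nat_lit 11472283923) (nat_lit 242) (nat_lit 5) (nat_lit 249) (nat_lit 5) (nat_lit 250) (nat_lit 5) (nat_lit 652) (nat_lit 587) (nat_lit 321)) (XT.lf (nat_lit 0) (nat_lit 20436387733) (nat_lit 532) (nat_lit 5539596267) (nat_lit 608) (nat_lit 5569199778) (nat_lit 242) (nat_lit 5) (nat_lit 249) (nat_lit 5) (nat_lit 250) (nat_lit 5) (nat_lit 653) (nat_lit 587) (nat_lit 320))))) (XT.nd (nat_lit 156) (nat_lit 988) (nat_lit 0) (XT.nd (nat_lit 78) (nat_lit 0) (nat_lit 0) (XT.lf (nat_lit 0) (nat_lit 540837273) (nat_lit 532) (nat_lit 24214921597) (nat_lit 76) (nat_lit 7164212088) (nat_lit 235) (nat_lit 5) (nat_lit 242) (nat_lit 5) (nat_lit 236) (nat_lit 5) (nat_lit 654) (nat_lit 587) (nat_lit 319)) (XT.lf (nat_lit 0)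 (nat_lit 6807668244) (nat_lit 532) (nat_lit 5332719941) (nat_lit 76) (nat_lit 20158946207) (nat_lit 235) (nat_lit 5) (nat_lit 242) (nat_lit 5) (nat_lit 236) (nat_lit 5) (nat_lit 655) (nat_lit 587) (nat_lit 318))) (XT.nd (nat_lit 78) (nat_lit 456) (nat_lit 0) (XT.lf (nat_lit 0) (nat_lit 13294181342) (nat_lit 608) (nat_lit 18581242395) (nat_lit 76) (nat_lit 808974500) (nat_lit 228) (nat_lit 5) (nat_lit 236) (nat_lit 5) (nat_lit 229) (nat_lit 5) (nat_lit 656) (nat_lit 587) (nat_lit 317)) (XT.nd (nat_lit 78) (nat_lit 0) (nat_lit 0) (XT.lf (nat_lit 0) (nat_lit 850506637) (nat_lit 456) (nat_lit 19179304383) (nat_lit 532) (nat_lit 13044964662) (nat_lit 222) (nat_lit 5) (nat_lit 228) (nat_lit 5) (nat_lit 229) (nat_lit 5) (nat_lit 657) (nat_lit 587) (nat_lit 316)) (XT.lf (nat_lit 0) (nat_lit 20919189045) (nat_lit 456) (nat_lit 6103123105) (nat_lit 532) (nat_lit 6448205399) (nat_lit 222) (nat_lit 5) (nat_lit 228) (nat_lit 5) (nat_lit 229) (nat_lit 5) (nat_lit 658) (nat_lit 587) (nat_lit 315)))))) (XT.nd (nat_lit 390)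 (nat_lit 1292) (nat_lit 0) (XT.nd (nat_lit 156) (nat_lit 912) (nat_lit 0) (XT.nd (nat_lit 78) (nat_lit 0) (nat_lit 0) (XT.lf (nat_lit 0) (nat_lit 371022670) (nat_lit 532) (nat_lit 26310992457) (nat_lit 76) (nat_lit 7190238506) (nat_lit 215) (nat_lit 5) (nat_lit 222) (nat_lit 5) (nat_lit 216) (nat_lit 5) (nat_lit 659) (nat_lit 587) (nat_lit 314)) (XT.lf (nat_lit 0) (nat_lit 7363097854) (nat_lit 532) (nat_lit 6121337680) (nat_lit 76) (nat_lit 20794280417) (nat_lit 215) (nat_lit 5) (nat_lit 222) (nat_lit 5) (nat_lit 216) (nat_lit 5) (nat_lit 660) (nat_lit 587) (nat_lit 313))) (XT.nd (nat_lit 78) (nat_lit 456) (nat_lit 0) (XT.lf (nat_lit 0) (nat_lit 14588247721) (nat_lit 532) (nat_lit 20031024681) (nat_lit 76) (nat_lit 72170496) (nat_lit 209) (nat_lit 5) (nat_lit 216) (nat_lit 5) (nat_lit 210) (nat_lit 5) (nat_lit 661) (nat_lit 587) (nat_lit 312)) (XT.nd (nat_lit 78) (nat_lit 0) (nat_lit 0) (XT.lf (nat_lit 0) (nat_lit 745885880) (nat_lit 456) (nat_lit 21345096156) (nat_lit 532) (nat_lit 13018780765) (nat_lit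 203) (nat_lit 5) (nat_lit 209) (nat_lit 5) (nat_lit 210) (nat_lit 5) (nat_lit 662) (nat_lit 587) (nat_lit 311)) (XT.lf (nat_lit 0) (nat_lit 22206377180) (nat_lit 456) (nat_lit 7669425581) (nat_lit 532) (nat_lit 5658005750) (nat_lit 203) (nat_lit 5) (nat_lit 209) (nat_lit 5) (nat_lit 210) (nat_lit 5) (nat_lit 663) (nat_lit 587) (nat_lit 310))))) (XT.nd (nat_lit 156) (nat_lit 836) (nat_lit 0) (XT.nd (nat_lit 78) (nat_lit 0) (nat_lit 0) (XT.lf (nat_lit 0) (nat_lit 1917947962) (nat_lit 456) (nat_lit 27784152660) (nat_lit 76) (nat_lit 6262149807) (nat_lit 197) (nat_lit 5) (nat_lit 203) (nat_lit 5) (nat_lit 198) (nat_lit 5) (nat_lit 664) (nat_lit 587) (nat_lit 309)) (XT.lf (nat_lit 0) (nat_lit 9708209267) (nat_lit 456) (nat_lit 6195394874) (nat_lit 76) (nat_lit 20496178113) (nat_lit 197) (nat_lit 5) (nat_lit 203) (nat_lit 5) (nat_lit 198) (nat_lit 5) (nat_lit 665) (nat_lit 587) (nat_lit 308))) (XT.nd (nat_lit 78) (nat_lit 380) (nat_lit 0) (XT.lf (nat_lit 0) (nat_lit 16032005358) (nat_lit 456) (nat_lit 1724067854)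 (nat_lit 532) (nat_lit 19085915596) (nat_lit 191) (nat_lit 5) (nat_lit 197) (nat_lit 5) (nat_lit 198) (nat_lit 5) (nat_lit 666) (nat_lit 587) (nat_lit 307)) (XT.nd (nat_lit 78) (nat_lit 0) (nat_lit 0) (XT.lf (nat_lit 0) (nat_lit 1428058005) (nat_lit 380) (nat_lit 24668391341) (nat_lit 456) (nat_lit 11193959089) (nat_lit 186) (nat_lit 5) (nat_lit 191) (nat_lit 5) (nat_lit 192) (nat_lit 5) (nat_lit 667) (nat_lit 587) (nat_lit 306)) (XT.lf (nat_lit 0) (nat_lit 24377986851) (nat_lit 380) (nat_lit 10374380192) (nat_lit 456) (nat_lit 2992454770) (nat_lit 186) (nat_lit 5) (nat_lit 191) (nat_lit 5) (nat_lit 192) (nat_lit 5) (nat_lit 668) (nat_lit 587) (nat_lit 305))))))) (XT.nd (nat_lit 77454) (nat_lit 0) (nat_lit 13452) (XT.nd (nat_lit 77064) (nat_lit 0) (nat_lit 18468) (XT.nd (nat_lit 156) (nat_lit 380) (nat_lit 0) (XT.nd (nat_lit 78) (nat_lit 0) (nat_lit 0) (XT.lf (nat_lit 0) (nat_lit 5391095633) (nat_lit 456) (nat_lit 28567219825) (nat_lit 76) (nat_lit 4247540628) (nat_lit 180) (nat_lit 5) (nat_lit 186) (nat_lit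 5) (nat_lit 181) (nat_lit 5) (nat_lit 669) (nat_lit 587) (nat_lit 304)) (XT.lf (nat_lit 0) (nat_lit 14059072329) (nat_lit 456) (nat_lit 5481392036) (nat_lit 76) (nat_lit 19132114630) (nat_lit 180) (nat_lit 5) (nat_lit 186) (nat_lit 5) (nat_lit 181) (nat_lit 5) (nat_lit 670) (nat_lit 587) (nat_lit 303))) (XT.nd (nat_lit 74802) (nat_lit 0) (nat_lit 25156) (XT.lf (nat_lit 0) (nat_lit 18302897393) (nat_lit 380) (nat_lit 4714178818) (nat_lit 456) (nat_lit 16129226832) (nat_lit 175) (nat_lit 5) (nat_lit 180) (nat_lit 5) (nat_lit 181) (nat_lit 5) (nat_lit 671) (nat_lit 587) (nat_lit 302)) (XT.nd (nat_lit 78) (nat_lit 0) (nat_lit 0) (XT.lf (nat_lit 0) (nat_lit 11162736022) (nat_lit 1748) (nat_lit 2552909212) (nat_lit 1824) (nat_lit 2225266389) (nat_lit 506) (nat_lit 5) (nat_lit 529) (nat_lit 3) (nat_lit 530) (nat_lit 5) (nat_lit 589) (nat_lit 588) (nat_lit 383)) (XT.lf (nat_lit 76) (nat_lit 5486636088) (nat_lit 0) (nat_lit 6139230073) (nat_lit 1824) (nat_lit 4469016723) (nat_lit 507) (nat_lit 5) (nat_lit 506) (nat_lit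 5) (nat_lit 530) (nat_lit 5) (nat_lit 590) (nat_lit 588) (nat_lit 382))))) (XT.nd (nat_lit 156) (nat_lit 1748) (nat_lit 0) (XT.nd (nat_lit 78) (nat_lit 912) (nat_lit 0) (XT.lf (nat_lit 0) (nat_lit 5629359048) (nat_lit 1216) (nat_lit 683040793) (nat_lit 76) (nat_lit 14656937211) (nat_lit 453) (nat_lit 5) (nat_lit 469) (nat_lit 5) (nat_lit 454) (nat_lit 5) (nat_lit 616) (nat_lit 588) (nat_lit 356)) (XT.lf (nat_lit 0) (nat_lit 7769496497) (nat_lit 988) (nat_lit 10280063438) (nat_lit 76) (nat_lit 3144782663) (nat_lit 441) (nat_lit 5) (nat_lit 454) (nat_lit 5) (nat_lit 442) (nat_lit 5) (nat_lit 617) (nat_lit 588) (nat_lit 355))) (XT.nd (nat_lit 78) (nat_lit 836) (nat_lit 0) (XT.lf (nat_lit 0) (nat_lit 1300269561) (nat_lit 912) (nat_lit 8702740588) (nat_lit 988) (nat_lit 11419826759) (nat_lit 429) (nat_lit 5) (nat_lit 441) (nat_lit 5) (nat_lit 442) (nat_lit 5) (nat_lit 618) (nat_lit 588) (nat_lit 354)) (XT.nd (nat_lit 78) (nat_lit 836) (nat_lit 0) (XT.lf (nat_lit 0) (nat_lit 12351804359) (nat_lit 988) (nat_lit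 8412872747) (nat_lit 76) (nat_lit 889811910) (nat_lit 429) (nat_lit 5) (nat_lit 442) (nat_lit 5) (nat_lit 430) (nat_lit 5) (nat_lit 619) (nat_lit 588) (nat_lit 353)) (XT.lf (nat_lit 0) (nat_lit 3515510638) (nat_lit 836) (nat_lit 11308379055) (nat_lit 912) (nat_lit 7065358284) (nat_lit 418) (nat_lit 5) (nat_lit 429) (nat_lit 5) (nat_lit 430) (nat_lit 5) (nat_lit 620) (nat_lit 588) (nat_lit 352)))))) (XT.nd (nat_lit 390) (nat_lit 3192) (nat_lit 0) (XT.nd (nat_lit 156) (nat_lit 912) (nat_lit 0) (XT.nd (nat_lit 78) (nat_lit 912) (nat_lit 0) (XT.lf (nat_lit 0) (nat_lit 15792548948) (nat_lit 836) (nat_lit 1605234358) (nat_lit 912) (nat_lit 4729871595) (nat_lit 418) (nat_lit 5) (nat_lit 429) (nat_lit 5) (nat_lit 430) (nat_lit 5) (nat_lit 621) (nat_lit 588) (nat_lit 351)) (XT.lf (nat_lit 0) (nat_lit 5964734523) (nat_lit 912) (nat_lit 14146977071) (nat_lit 988) (nat_lit 2257347345) (nat_lit 406) (nat_lit 5) (nat_lit 418) (nat_lit 5) (nat_lit 419) (nat_lit 5) (nat_lit 622) (nat_lit 588) (nat_lit 350))) (XT.nd (nat_lit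 78) (nat_lit 836) (nat_lit 0) (XT.lf (nat_lit 0) (nat_lit 310600443) (nat_lit 988) (nat_lit 4034607442) (nat_lit 76) (nat_lit 18269060043) (nat_lit 405) (nat_lit 5) (nat_lit 418) (nat_lit 5) (nat_lit 406) (nat_lit 5) (nat_lit 623) (nat_lit 588) (nat_lit 349)) (XT.nd (nat_lit 78) (nat_lit 0) (nat_lit 0) (XT.lf (nat_lit 0) (nat_lit 2989319491) (nat_lit 912) (nat_lit 14222749036) (nat_lit 76) (nat_lit 5650221491) (nat_lit 394) (nat_lit 5) (nat_lit 406) (nat_lit 5) (nat_lit 395) (nat_lit 5) (nat_lit 624) (nat_lit 588) (nat_lit 348)) (XT.lf (nat_lit 0) (nat_lit 5773791545) (nat_lit 912) (nat_lit 1525779312) (nat_lit 76) (nat_lit 15814658222) (nat_lit 394) (nat_lit 5) (nat_lit 406) (nat_lit 5) (nat_lit 395) (nat_lit 5) (nat_lit 625) (nat_lit 588) (nat_lit 347))))) (XT.nd (nat_lit 234) (nat_lit 1596) (nat_lit 0) (XT.nd (nat_lit 78) (nat_lit 760) (nat_lit 0) (XT.lf (nat_lit 0) (nat_lit 8704066122) (nat_lit 912) (nat_lit 11815494209) (nat_lit 76) (nat_lit 2849844431) (nat_lit 383) (nat_lit 5) (nat_lit 395) (nat_lit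 5) (nat_lit 384) (nat_lit 5) (nat_lit 626) (nat_lit 588) (nat_lit 346)) (XT.nd (nat_lit 78) (nat_lit 0) (nat_lit 0) (XT.lf (nat_lit 0) (nat_lit 1250462040) (nat_lit 760) (nat_lit 10505523592) (nat_lit 836) (nat_lit 11872437636) (nat_lit 373) (nat_lit 5) (nat_lit 383) (nat_lit 5) (nat_lit 384) (nat_lit 5) (nat_lit 627) (nat_lit 588) (nat_lit 345)) (XT.lf (nat_lit 0) (nat_lit 14733999347) (nat_lit 760) (nat_lit 210552633) (nat_lit 836) (nat_lit 8946558093) (nat_lit 373) (nat_lit 5) (nat_lit 383) (nat_lit 5) (nat_lit 384) (nat_lit 5) (nat_lit 628) (nat_lit 588) (nat_lit 344)))) (XT.nd (nat_lit 78) (nat_lit 836) (nat_lit 0) (XT.lf (nat_lit 0) (nat_lit 4314029922) (nat_lit 760) (nat_lit 13974071855) (nat_lit 836) (nat_lit 5869124690) (nat_lit 363) (nat_lit 5) (nat_lit 373) (nat_lit 5) (nat_lit 374) (nat_lit 5) (nat_lit 629) (nat_lit 588) (nat_lit 343)) (XT.nd (nat_lit 78) (nat_lit 836) (nat_lit 0) (XT.lf (nat_lit 0) (nat_lit 18173438562) (nat_lit 760) (nat_lit 3584354909) (nat_lit 836) (nat_lit 2669686393) (nat_lit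 363) (nat_lit 5) (nat_lit 373) (nat_lit 5) (nat_lit 374) (nat_lit 5) (nat_lit 630) (nat_lit 588) (nat_lit 342)) (XT.lf (nat_lit 0) (nat_lit 678320288) (nat_lit 836) (nat_lit 17047828775) (nat_lit 76) (nat_lit 6975064925) (nat_lit 352) (nat_lit 5) (nat_lit 363) (nat_lit 5) (nat_lit 353) (nat_lit 5) (nat_lit 631) (nat_lit 588) (nat_lit 341))))))))
noncomputable def xc179 : XT := (XT.nd (nat_lit 1560) (nat_lit 5776) (nat_lit 0) (XT.nd (nat_lit 780) (nat_lit 3116) (nat_lit 0) (XT.nd (nat_lit 390) (nat_lit 2052) (nat_lit 0) (XT.nd (nat_lit 156) (nat_lit 1368) (nat_lit 0) (XT.nd (nat_lit 78) (nat_lit 760) (nat_lit 0) (XT.lf (nat_lit 0) (nat_lit 4120081974) (nat_lit 836) (nat_lit 3101425391) (nat_lit 76) (nat_lit 17757311744) (nat_lit 352) (nat_lit 5) (nat_lit 363) (nat_lit 5) (nat_lit 353) (nat_lit 5) (nat_lit 632) (nat_lit 588) (nat_lit 340)) (XT.lf (nat_lit 0) (nat_lit 7723593094) (nat_lit 836) (nat_lit 14015863143) (nat_lit 76) (nat_lit 3520661899) (nat_lit 342) (nat_lit 5) (nat_lit 353) (nat_lit 5) (nat_lit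 343) (nat_lit 5) (nat_lit 633) (nat_lit 588) (nat_lit 339))) (XT.nd (nat_lit 78) (nat_lit 684) (nat_lit 0) (XT.lf (nat_lit 0) (nat_lit 324713539) (nat_lit 684) (nat_lit 11141976672) (nat_lit 760) (nat_lit 14079002701) (nat_lit 333) (nat_lit 5) (nat_lit 342) (nat_lit 5) (nat_lit 343) (nat_lit 5) (nat_lit 634) (nat_lit 588) (nat_lit 338)) (XT.nd (nat_lit 78) (nat_lit 684) (nat_lit 0) (XT.lf (nat_lit 0) (nat_lit 15138270290) (nat_lit 684) (nat_lit 237106959) (nat_lit 760) (nat_lit 10459787459) (nat_lit 333) (nat_lit 5) (nat_lit 342) (nat_lit 5) (nat_lit 343) (nat_lit 5) (nat_lit 635) (nat_lit 588) (nat_lit 337)) (XT.lf (nat_lit 0) (nat_lit 4096918410) (nat_lit 684) (nat_lit 15359333977) (nat_lit 760) (nat_lit 6672293345) (nat_lit 324) (nat_lit 5) (nat_lit 333) (nat_lit 5) (nat_lit 334) (nat_lit 5) (nat_lit 636) (nat_lit 588) (nat_lit 336))))) (XT.nd (nat_lit 156) (nat_lit 1292) (nat_lit 0) (XT.nd (nat_lit 78) (nat_lit 760) (nat_lit 0) (XT.lf (nat_lit 0) (nat_lit 19326233229) (nat_lit 684) (nat_lit 4362629168)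 (nat_lit 760) (nat_lit 2737529713) (nat_lit 324) (nat_lit 5) (nat_lit 333) (nat_lit 5) (nat_lit 334) (nat_lit 5) (nat_lit 637) (nat_lit 588) (nat_lit 335)) (XT.lf (nat_lit 0) (nat_lit 1354325927) (nat_lit 760) (nat_lit 18548144098) (nat_lit 76) (nat_lit 6825657168) (nat_lit 314) (nat_lit 5) (nat_lit 324) (nat_lit 5) (nat_lit 315) (nat_lit 5) (nat_lit 638) (nat_lit 588) (nat_lit 334))) (XT.nd (nat_lit 78) (nat_lit 1292) (nat_lit 0) (XT.lf (nat_lit 0) (nat_lit 5565102643) (nat_lit 760) (nat_lit 3224093156) (nat_lit 76) (nat_lit 18244864563) (nat_lit 314) (nat_lit 5) (nat_lit 324) (nat_lit 5) (nat_lit 315) (nat_lit 5) (nat_lit 639) (nat_lit 588) (nat_lit 333)) (XT.nd (nat_lit 78) (nat_lit 608) (nat_lit 0) (XT.lf (nat_lit 0) (nat_lit 9955674679) (nat_lit 760) (nat_lit 14794057252) (nat_lit 76) (nat_lit 2594468742) (nat_lit 305) (nat_lit 5) (nat_lit 315) (nat_lit 5) (nat_lit 306) (nat_lit 5) (nat_lit 640) (nat_lit 588) (nat_lit 332)) (XT.lf (nat_lit 0) (nat_lit 974139855) (nat_lit 608) (nat_lit 13543174755) (nat_lit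 684) (nat_lit 13141564122) (nat_lit 297) (nat_lit 5) (nat_lit 305) (nat_lit 5) (nat_lit 306) (nat_lit 5) (nat_lit 641) (nat_lit 588) (nat_lit 331)))))) (XT.nd (nat_lit 390) (nat_lit 1824) (nat_lit 0) (XT.nd (nat_lit 156) (nat_lit 684) (nat_lit 0) (XT.nd (nat_lit 78) (nat_lit 608) (nat_lit 0) (XT.lf (nat_lit 0) (nat_lit 17254519504) (nat_lit 608) (nat_lit 2011925934) (nat_lit 684) (nat_lit 8711479824) (nat_lit 297) (nat_lit 5) (nat_lit 305) (nat_lit 5) (nat_lit 306) (nat_lit 5) (nat_lit 642) (nat_lit 588) (nat_lit 330)) (XT.lf (nat_lit 0) (nat_lit 5563111496) (nat_lit 608) (nat_lit 18643906821) (nat_lit 684) (nat_lit 4094405287) (nat_lit 289) (nat_lit 5) (nat_lit 297) (nat_lit 5) (nat_lit 298) (nat_lit 5) (nat_lit 643) (nat_lit 588) (nat_lit 329))) (XT.nd (nat_lit 78) (nat_lit 608) (nat_lit 0) (XT.lf (nat_lit 0) (nat_lit 689756692) (nat_lit 684) (nat_lit 6330744166) (nat_lit 76) (nat_lit 21609155020) (nat_lit 288) (nat_lit 5) (nat_lit 297) (nat_lit 5) (nat_lit 289) (nat_lit 5) (nat_lit 644) (nat_lit 588)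 (nat_lit 328)) (XT.nd (nat_lit 78) (nat_lit 0) (nat_lit 0) (XT.lf (nat_lit 0) (nat_lit 5612211111) (nat_lit 684) (nat_lit 18482539377) (nat_lit 76) (nat_lit 4867212430) (nat_lit 280) (nat_lit 5) (nat_lit 289) (nat_lit 5) (nat_lit 281) (nat_lit 5) (nat_lit 645) (nat_lit 588) (nat_lit 327)) (XT.lf (nat_lit 0) (nat_lit 10719509682) (nat_lit 684) (nat_lit 1638902622) (nat_lit 76) (nat_lit 16940775957) (nat_lit 280) (nat_lit 5) (nat_lit 289) (nat_lit 5) (nat_lit 281) (nat_lit 5) (nat_lit 646) (nat_lit 588) (nat_lit 326))))) (XT.nd (nat_lit 156) (nat_lit 684) (nat_lit 0) (XT.nd (nat_lit 78) (nat_lit 532) (nat_lit 0) (XT.lf (nat_lit 0) (nat_lit 15744499837) (nat_lit 608) (nat_lit 283871961) (nat_lit 684) (nat_lit 13612798025) (nat_lit 272) (nat_lit 5) (nat_lit 280) (nat_lit 5) (nat_lit 281) (nat_lit 5) (nat_lit 647) (nat_lit 588) (nat_lit 325)) (XT.lf (nat_lit 0) (nat_lit 3471728140) (nat_lit 532) (nat_lit 18080635715) (nat_lit 608) (nat_lit 8435448169) (nat_lit 265) (nat_lit 5) (nat_lit 272) (nat_lit 5) (nat_lit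 273) (nat_lit 5) (nat_lit 648) (nat_lit 588) (nat_lit 324))) (XT.nd (nat_lit 78) (nat_lit 684) (nat_lit 0) (XT.lf (nat_lit 0) (nat_lit 21370360523) (nat_lit 532) (nat_lit 5908848341) (nat_lit 608) (nat_lit 3060330803) (nat_lit 265) (nat_lit 5) (nat_lit 272) (nat_lit 5) (nat_lit 273) (nat_lit 5) (nat_lit 649) (nat_lit 588) (nat_lit 323)) (XT.nd (nat_lit 78) (nat_lit 0) (nat_lit 0) (XT.lf (nat_lit 0) (nat_lit 2489152454) (nat_lit 684) (nat_lit 21711829685) (nat_lit 76) (nat_lit 6495032593) (nat_lit 256) (nat_lit 5) (nat_lit 265) (nat_lit 5) (nat_lit 257) (nat_lit 5) (nat_lit 650) (nat_lit 588) (nat_lit 322)) (XT.lf (nat_lit 0) (nat_lit 8205715939) (nat_lit 684) (nat_lit 3703608483) (nat_lit 76) (nat_lit 19147948990) (nat_lit 256) (nat_lit 5) (nat_lit 265) (nat_lit 5) (nat_lit 257) (nat_lit 5) (nat_lit 651) (nat_lit 588) (nat_lit 321))))))) (XT.nd (nat_lit 780) (nat_lit 2660) (nat_lit 0) (XT.nd (nat_lit 390) (nat_lit 1520) (nat_lit 0) (XT.nd (nat_lit 156) (nat_lit 532) (nat_lit 0) (XT.nd (nat_lit 78) (nat_lit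 532) (nat_lit 0) (XT.lf (nat_lit 0) (nat_lit 14135142657) (nat_lit 608) (nat_lit 16572496387) (nat_lit 76) (nat_lit 716147639) (nat_lit 249) (nat_lit 5) (nat_lit 257) (nat_lit 5) (nat_lit 250) (nat_lit 5) (nat_lit 652) (nat_lit 588) (nat_lit 320)) (XT.lf (nat_lit 0) (nat_lit 1973663236) (nat_lit 532) (nat_lit 18323584455) (nat_lit 608) (nat_lit 11498100788) (nat_lit 242) (nat_lit 5) (nat_lit 249) (nat_lit 5) (nat_lit 250) (nat_lit 5) (nat_lit 653) (nat_lit 588) (nat_lit 319))) (XT.nd (nat_lit 78) (nat_lit 532) (nat_lit 0) (XT.lf (nat_lit 0) (nat_lit 21111869217) (nat_lit 532) (nat_lit 5579352135) (nat_lit 608) (nat_lit 5480947681) (nat_lit 242) (nat_lit 5) (nat_lit 249) (nat_lit 5) (nat_lit 250) (nat_lit 5) (nat_lit 654) (nat_lit 588) (nat_lit 318)) (XT.nd (nat_lit 78) (nat_lit 0) (nat_lit 0) (XT.lf (nat_lit 0) (nat_lit 747018306) (nat_lit 532) (nat_lit 24428186599) (nat_lit 76) (nat_lit 7379254278) (nat_lit 235) (nat_lit 5) (nat_lit 242) (nat_lit 5) (nat_lit 236) (nat_lit 5) (nat_lit 655) (nat_lit 588)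 (nat_lit 317)) (XT.lf (nat_lit 0) (nat_lit 7135355224) (nat_lit 532) (nat_lit 5173655291) (nat_lit 76) (nat_lit 20632476061) (nat_lit 235) (nat_lit 5) (nat_lit 242) (nat_lit 5) (nat_lit 236) (nat_lit 5) (nat_lit 656) (nat_lit 588) (nat_lit 316))))) (XT.nd (nat_lit 156) (nat_lit 532) (nat_lit 0) (XT.nd (nat_lit 78) (nat_lit 456) (nat_lit 0) (XT.lf (nat_lit 0) (nat_lit 13750040463) (nat_lit 608) (nat_lit 18685586317) (nat_lit 76) (nat_lit 898656155) (nat_lit 228) (nat_lit 5) (nat_lit 236) (nat_lit 5) (nat_lit 229) (nat_lit 5) (nat_lit 657) (nat_lit 588) (nat_lit 315)) (XT.lf (nat_lit 0) (nat_lit 1133039268) (nat_lit 456) (nat_lit 19485342406) (nat_lit 532) (nat_lit 13114126351) (nat_lit 222) (nat_lit 5) (nat_lit 228) (nat_lit 5) (nat_lit 229) (nat_lit 5) (nat_lit 658) (nat_lit 588) (nat_lit 314))) (XT.nd (nat_lit 78) (nat_lit 532) (nat_lit 0) (XT.lf (nat_lit 0) (nat_lit 21597889001) (nat_lit 456) (nat_lit 6149158052) (nat_lit 532) (nat_lit 6389191463) (nat_lit 222) (nat_lit 5) (nat_lit 228) (nat_lit 5) (nat_lit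 229) (nat_lit 5) (nat_lit 659) (nat_lit 588) (nat_lit 313)) (XT.nd (nat_lit 78) (nat_lit 0) (nat_lit 0) (XT.lf (nat_lit 0) (nat_lit 562516340) (nat_lit 532) (nat_lit 26572984292) (nat_lit 76) (nat_lit 7410513138) (nat_lit 215) (nat_lit 5) (nat_lit 222) (nat_lit 5) (nat_lit 216) (nat_lit 5) (nat_lit 660) (nat_lit 588) (nat_lit 312)) (XT.lf (nat_lit 0) (nat_lit 7690823749) (nat_lit 532) (nat_lit 5984717362) (nat_lit 76) (nat_lit 21285136479) (nat_lit 215) (nat_lit 5) (nat_lit 222) (nat_lit 5) (nat_lit 216) (nat_lit 5) (nat_lit 661) (nat_lit 588) (nat_lit 311)))))) (XT.nd (nat_lit 390) (nat_lit 1292) (nat_lit 0) (XT.nd (nat_lit 156) (nat_lit 456) (nat_lit 0) (XT.nd (nat_lit 78) (nat_lit 456) (nat_lit 0) (XT.lf (nat_lit 0) (nat_lit 15059120220) (nat_lit 532) (nat_lit 20171238373) (nat_lit 76) (nat_lit 151327677) (nat_lit 209) (nat_lit 5) (nat_lit 216) (nat_lit 5) (nat_lit 210) (nat_lit 5) (nat_lit 662) (nat_lit 588) (nat_lit 310)) (XT.lf (nat_lit 0) (nat_lit 1019497197) (nat_lit 456) (nat_lit 21690579722) (nat_lit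 532) (nat_lit 13098332363) (nat_lit 203) (nat_lit 5) (nat_lit 209) (nat_lit 5) (nat_lit 210) (nat_lit 5) (nat_lit 663) (nat_lit 588) (nat_lit 309))) (XT.nd (nat_lit 78) (nat_lit 456) (nat_lit 0) (XT.lf (nat_lit 0) (nat_lit 22904125899) (nat_lit 456) (nat_lit 7742992174) (nat_lit 532) (nat_lit 5593887417) (nat_lit 203) (nat_lit 5) (nat_lit 209) (nat_lit 5) (nat_lit 210) (nat_lit 5) (nat_lit 664) (nat_lit 588) (nat_lit 308)) (XT.nd (nat_lit 78) (nat_lit 0) (nat_lit 0) (XT.lf (nat_lit 0) (nat_lit 2130007232) (nat_lit 456) (nat_lit 28082630176) (nat_lit 76) (nat_lit 6467420941) (nat_lit 197) (nat_lit 5) (nat_lit 203) (nat_lit 5) (nat_lit 198) (nat_lit 5) (nat_lit 665) (nat_lit 588) (nat_lit 307)) (XT.lf (nat_lit 0) (nat_lit 10072667875) (nat_lit 456) (nat_lit 6067140480) (nat_lit 76) (nat_lit 20984560634) (nat_lit 197) (nat_lit 5) (nat_lit 203) (nat_lit 5) (nat_lit 198) (nat_lit 5) (nat_lit 666) (nat_lit 588) (nat_lit 306))))) (XT.nd (nat_lit 234) (nat_lit 456) (nat_lit 0) (XT.nd (nat_lit 78) (nat_lit 380) (nat_lit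 0) (XT.lf (nat_lit 0) (nat_lit 16603148795) (nat_lit 456) (nat_lit 1676627632) (nat_lit 532) (nat_lit 19295677561) (nat_lit 191) (nat_lit 5) (nat_lit 197) (nat_lit 5) (nat_lit 198) (nat_lit 5) (nat_lit 667) (nat_lit 588) (nat_lit 305)) (XT.nd (nat_lit 78) (nat_lit 0) (nat_lit 0) (XT.lf (nat_lit 0) (nat_lit 1708298452) (nat_lit 380) (nat_lit 25077511636) (nat_lit 456) (nat_lit 11247054977) (nat_lit 186) (nat_lit 5) (nat_lit 191) (nat_lit 5) (nat_lit 192) (nat_lit 5) (nat_lit 668) (nat_lit 588) (nat_lit 304)) (XT.lf (nat_lit 0) (nat_lit 25112290987) (nat_lit 380) (nat_lit 10499272176) (nat_lit 456) (nat_lit 2884869264) (nat_lit 186) (nat_lit 5) (nat_lit 191) (nat_lit 5) (nat_lit 192) (nat_lit 5) (nat_lit 669) (nat_lit 588) (nat_lit 303)))) (XT.nd (nat_lit 78) (nat_lit 0) (nat_lit 0) (XT.lf (nat_lit 0) (nat_lit 5663065351) (nat_lit 456) (nat_lit 28888527499) (nat_lit 76) (nat_lit 4415094665) (nat_lit 180) (nat_lit 5) (nat_lit 186) (nat_lit 5) (nat_lit 181) (nat_lit 5) (nat_lit 670) (nat_lit 588) (nat_lit 302))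 (XT.nd (nat_lit 76830) (nat_lit 0) (nat_lit 21888) (XT.lf (nat_lit 0) (nat_lit 14501182997) (nat_lit 456) (nat_lit 5345885834) (nat_lit 76) (nat_lit 19595740476) (nat_lit 180) (nat_lit 5) (nat_lit 186) (nat_lit 5) (nat_lit 181) (nat_lit 5) (nat_lit 671) (nat_lit 588) (nat_lit 301)) (XT.lf (nat_lit 0) (nat_lit 2050310579) (nat_lit 1900) (nat_lit 2195510171) (nat_lit 76) (nat_lit 16686361149) (nat_lit 468) (nat_lit 5) (nat_lit 493) (nat_lit 5) (nat_lit 469) (nat_lit 5) (nat_lit 615) (nat_lit 589) (nat_lit 356))))))))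
noncomputable def xc180 : XT := (XT.nd (nat_lit 1560) (nat_lit 7448) (nat_lit 0) (XT.nd (nat_lit 780) (nat_lit 4636) (nat_lit 0) (XT.nd (nat_lit 390) (nat_lit 2660) (nat_lit 0) (XT.nd (nat_lit 156) (nat_lit 1824) (nat_lit 0) (XT.nd (nat_lit 78) (nat_lit 0) (nat_lit 0) (XT.lf (nat_lit 0) (nat_lit 4018597535) (nat_lit 1216) (nat_lit 11877582624) (nat_lit 76) (nat_lit 5259193093) (nat_lit 453) (nat_lit 5) (nat_lit 469) (nat_lit 5) (nat_lit 454) (nat_lit 5) (nat_lit 616) (nat_lit 589) (nat_lit 355)) (XT.lf (nat_lit 0) (nat_lit 6064935107) (nat_lit 1216) (nat_lit 404488667) (nat_lit 76) (nat_lit 14912831082) (nat_lit 453) (nat_lit 5) (nat_lit 469) (nat_lit 5) (nat_lit 454) (nat_lit 5) (nat_lit 617) (nat_lit 589) (nat_lit 354))) (XT.nd (nat_lit 78) (nat_lit 912) (nat_lit 0) (XT.lf (nat_lit 0) (nat_lit 8243243530) (nat_lit 988) (nat_lit 10188811011) (nat_lit 76) (nat_lit 3179798788) (nat_lit 441) (nat_lit 5) (nat_lit 454) (nat_lit 5) (nat_lit 442) (nat_lit 5) (nat_lit 618) (nat_lit 589) (nat_lit 353)) (XT.nd (nat_lit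 78) (nat_lit 0) (nat_lit 0) (XT.lf (nat_lit 0) (nat_lit 1621175663) (nat_lit 912) (nat_lit 8895924187) (nat_lit 988) (nat_lit 11327904403) (nat_lit 429) (nat_lit 5) (nat_lit 441) (nat_lit 5) (nat_lit 442) (nat_lit 5) (nat_lit 619) (nat_lit 589) (nat_lit 352)) (XT.lf (nat_lit 0) (nat_lit 12906590741) (nat_lit 988) (nat_lit 8285724025) (nat_lit 76) (nat_lit 889100394) (nat_lit 429) (nat_lit 5) (nat_lit 442) (nat_lit 5) (nat_lit 430) (nat_lit 5) (nat_lit 620) (nat_lit 589) (nat_lit 351))))) (XT.nd (nat_lit 156) (nat_lit 1824) (nat_lit 0) (XT.nd (nat_lit 78) (nat_lit 0) (nat_lit 0) (XT.lf (nat_lit 0) (nat_lit 3879283566) (nat_lit 836) (nat_lit 11544705251) (nat_lit 912) (nat_lit 6896963232) (nat_lit 418) (nat_lit 5) (nat_lit 429) (nat_lit 5) (nat_lit 430) (nat_lit 5) (nat_lit 621) (nat_lit 589) (nat_lit 350)) (XT.lf (nat_lit 0) (nat_lit 16396108471) (nat_lit 836) (nat_lit 1647298472) (nat_lit 912) (nat_lit 4520839401) (nat_lit 418) (nat_lit 5) (nat_lit 429) (nat_lit 5) (nat_lit 430) (nat_lit 5) (nat_lit 622)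 (nat_lit 589) (nat_lit 349))) (XT.nd (nat_lit 78) (nat_lit 912) (nat_lit 0) (XT.lf (nat_lit 0) (nat_lit 6375831609) (nat_lit 912) (nat_lit 14431776740) (nat_lit 988) (nat_lit 2002950385) (nat_lit 406) (nat_lit 5) (nat_lit 418) (nat_lit 5) (nat_lit 419) (nat_lit 5) (nat_lit 623) (nat_lit 589) (nat_lit 348)) (XT.nd (nat_lit 78) (nat_lit 836) (nat_lit 0) (XT.lf (nat_lit 0) (nat_lit 606631407) (nat_lit 988) (nat_lit 3825359453) (nat_lit 76) (nat_lit 18628758231) (nat_lit 405) (nat_lit 5) (nat_lit 418) (nat_lit 5) (nat_lit 406) (nat_lit 5) (nat_lit 624) (nat_lit 589) (nat_lit 347)) (XT.lf (nat_lit 0) (nat_lit 3335125366) (nat_lit 912) (nat_lit 14213456745) (nat_lit 76) (nat_lit 5765225653) (nat_lit 394) (nat_lit 5) (nat_lit 406) (nat_lit 5) (nat_lit 395) (nat_lit 5) (nat_lit 625) (nat_lit 589) (nat_lit 346)))))) (XT.nd (nat_lit 390) (nat_lit 2280) (nat_lit 0) (XT.nd (nat_lit 156) (nat_lit 1520) (nat_lit 0) (XT.nd (nat_lit 78) (nat_lit 836) (nat_lit 0) (XT.lf (nat_lit 0) (nat_lit 6169678636) (nat_lit 912) (nat_lit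 1268307378) (nat_lit 76) (nat_lit 16132911908) (nat_lit 394) (nat_lit 5) (nat_lit 406) (nat_lit 5) (nat_lit 395) (nat_lit 5) (nat_lit 626) (nat_lit 589) (nat_lit 345)) (XT.lf (nat_lit 0) (nat_lit 9154978476) (nat_lit 912) (nat_lit 11760228978) (nat_lit 76) (nat_lit 2916041416) (nat_lit 383) (nat_lit 5) (nat_lit 395) (nat_lit 5) (nat_lit 384) (nat_lit 5) (nat_lit 627) (nat_lit 589) (nat_lit 344))) (XT.nd (nat_lit 78) (nat_lit 760) (nat_lit 0) (XT.lf (nat_lit 0) (nat_lit 1565128139) (nat_lit 760) (nat_lit 10699260823) (nat_lit 836) (nat_lit 11831129878) (nat_lit 373) (nat_lit 5) (nat_lit 383) (nat_lit 5) (nat_lit 384) (nat_lit 5) (nat_lit 628) (nat_lit 589) (nat_lit 343)) (XT.nd (nat_lit 78) (nat_lit 760) (nat_lit 0) (XT.lf (nat_lit 0) (nat_lit 15312656645) (nat_lit 760) (nat_lit 198711489) (nat_lit 836) (nat_lit 8852198558) (nat_lit 373) (nat_lit 5) (nat_lit 383) (nat_lit 5) (nat_lit 384) (nat_lit 5) (nat_lit 629) (nat_lit 589) (nat_lit 342)) (XT.lf (nat_lit 0) (nat_lit 4687646307) (nat_lit 760) (nat_lit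 14230856939) (nat_lit 836) (nat_lit 5716568021) (nat_lit 363) (nat_lit 5) (nat_lit 373) (nat_lit 5) (nat_lit 374) (nat_lit 5) (nat_lit 630) (nat_lit 589) (nat_lit 341))))) (XT.nd (nat_lit 156) (nat_lit 1444) (nat_lit 0) (XT.nd (nat_lit 78) (nat_lit 836) (nat_lit 0) (XT.lf (nat_lit 0) (nat_lit 18818609084) (nat_lit 760) (nat_lit 3633790681) (nat_lit 836) (nat_lit 2458433883) (nat_lit 363) (nat_lit 5) (nat_lit 373) (nat_lit 5) (nat_lit 374) (nat_lit 5) (nat_lit 631) (nat_lit 589) (nat_lit 340)) (XT.lf (nat_lit 0) (nat_lit 949945331) (nat_lit 836) (nat_lit 17100482785) (nat_lit 76) (nat_lit 7139642438) (nat_lit 352) (nat_lit 5) (nat_lit 363) (nat_lit 5) (nat_lit 353) (nat_lit 5) (nat_lit 632) (nat_lit 589) (nat_lit 339))) (XT.nd (nat_lit 78) (nat_lit 1444) (nat_lit 0) (XT.lf (nat_lit 0) (nat_lit 4455482277) (nat_lit 836) (nat_lit 2880804326) (nat_lit 76) (nat_lit 18137042502) (nat_lit 352) (nat_lit 5) (nat_lit 363) (nat_lit 5) (nat_lit 353) (nat_lit 5) (nat_lit 633) (nat_lit 589) (nat_lit 338)) (XT.nd (nat_lit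 78) (nat_lit 684) (nat_lit 0) (XT.lf (nat_lit 0) (nat_lit 8128126749) (nat_lit 836) (nat_lit 14010587675) (nat_lit 76) (nat_lit 3621598552) (nat_lit 342) (nat_lit 5) (nat_lit 353) (nat_lit 5) (nat_lit 343) (nat_lit 5) (nat_lit 634) (nat_lit 589) (nat_lit 337)) (XT.lf (nat_lit 0) (nat_lit 614921642) (nat_lit 684) (nat_lit 11328103052) (nat_lit 760) (nat_lit 14108635899) (nat_lit 333) (nat_lit 5) (nat_lit 342) (nat_lit 5) (nat_lit 343) (nat_lit 5) (nat_lit 635) (nat_lit 589) (nat_lit 336))))))) (XT.nd (nat_lit 780) (nat_lit 4028) (nat_lit 0) (XT.nd (nat_lit 390) (nat_lit 1976) (nat_lit 0) (XT.nd (nat_lit 156) (nat_lit 760) (nat_lit 0) (XT.nd (nat_lit 78) (nat_lit 684) (nat_lit 0) (XT.lf (nat_lit 0) (nat_lit 15719186511) (nat_lit 684) (nat_lit 205855811) (nat_lit 760) (nat_lit 10421976487) (nat_lit 333) (nat_lit 5) (nat_lit 342) (nat_lit 5) (nat_lit 343) (nat_lit 5) (nat_lit 636) (nat_lit 589) (nat_lit 335)) (XT.lf (nat_lit 0) (nat_lit 4459762790) (nat_lit 684) (nat_lit 15625076924) (nat_lit 760) (nat_lit 6561481763)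 (nat_lit 324) (nat_lit 5) (nat_lit 333) (nat_lit 5) (nat_lit 334) (nat_lit 5) (nat_lit 637) (nat_lit 589) (nat_lit 334))) (XT.nd (nat_lit 78) (nat_lit 760) (nat_lit 0) (XT.lf (nat_lit 0) (nat_lit 19988155944) (nat_lit 684) (nat_lit 4409250642) (nat_lit 760) (nat_lit 2552812220) (nat_lit 324) (nat_lit 5) (nat_lit 333) (nat_lit 5) (nat_lit 334) (nat_lit 5) (nat_lit 638) (nat_lit 589) (nat_lit 333)) (XT.nd (nat_lit 78) (nat_lit 0) (nat_lit 0) (XT.lf (nat_lit 0) (nat_lit 1615183216) (nat_lit 760) (nat_lit 18638000336) (nat_lit 76) (nat_lit 7004825187) (nat_lit 314) (nat_lit 5) (nat_lit 324) (nat_lit 5) (nat_lit 315) (nat_lit 5) (nat_lit 639) (nat_lit 589) (nat_lit 332)) (XT.lf (nat_lit 0) (nat_lit 5905591726) (nat_lit 760) (nat_lit 3012980271) (nat_lit 76) (nat_lit 18651580359) (nat_lit 314) (nat_lit 5) (nat_lit 324) (nat_lit 5) (nat_lit 315) (nat_lit 5) (nat_lit 640) (nat_lit 589) (nat_lit 331))))) (XT.nd (nat_lit 156) (nat_lit 684) (nat_lit 0) (XT.nd (nat_lit 78) (nat_lit 608) (nat_lit 0) (XT.lf (nat_lit 0)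 (nat_lit 10381566085) (nat_lit 760) (nat_lit 14811929165) (nat_lit 76) (nat_lit 2693048513) (nat_lit 305) (nat_lit 5) (nat_lit 315) (nat_lit 5) (nat_lit 306) (nat_lit 5) (nat_lit 641) (nat_lit 589) (nat_lit 330)) (XT.lf (nat_lit 0) (nat_lit 1269802877) (nat_lit 608) (nat_lit 13761982458) (nat_lit 684) (nat_lit 13175783223) (nat_lit 297) (nat_lit 5) (nat_lit 305) (nat_lit 5) (nat_lit 306) (nat_lit 5) (nat_lit 642) (nat_lit 589) (nat_lit 329))) (XT.nd (nat_lit 78) (nat_lit 684) (nat_lit 0) (XT.lf (nat_lit 0) (nat_lit 17870374820) (nat_lit 608) (nat_lit 2001129362) (nat_lit 684) (nat_lit 8661579832) (nat_lit 297) (nat_lit 5) (nat_lit 305) (nat_lit 5) (nat_lit 306) (nat_lit 5) (nat_lit 643) (nat_lit 589) (nat_lit 328)) (XT.nd (nat_lit 78) (nat_lit 76) (nat_lit 0) (XT.lf (nat_lit 0) (nat_lit 5947398938) (nat_lit 608) (nat_lit 18961278669) (nat_lit 684) (nat_lit 3954419033) (nat_lit 289) (nat_lit 5) (nat_lit 297) (nat_lit 5) (nat_lit 298) (nat_lit 5) (nat_lit 644) (nat_lit 589) (nat_lit 327)) (XT.lf (nat_lit 0)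 (nat_lit 918222843) (nat_lit 684) (nat_lit 6186829549) (nat_lit 76) (nat_lit 22092898324) (nat_lit 288) (nat_lit 5) (nat_lit 297) (nat_lit 5) (nat_lit 289) (nat_lit 5) (nat_lit 645) (nat_lit 589) (nat_lit 326)))))) (XT.nd (nat_lit 390) (nat_lit 2280) (nat_lit 0) (XT.nd (nat_lit 156) (nat_lit 1140) (nat_lit 0) (XT.nd (nat_lit 78) (nat_lit 0) (nat_lit 0) (XT.lf (nat_lit 0) (nat_lit 5937029130) (nat_lit 684) (nat_lit 18579558680) (nat_lit 76) (nat_lit 5020358126) (nat_lit 280) (nat_lit 5) (nat_lit 289) (nat_lit 5) (nat_lit 281) (nat_lit 5) (nat_lit 646) (nat_lit 589) (nat_lit 325)) (XT.lf (nat_lit 0) (nat_lit 11142305559) (nat_lit 684) (nat_lit 1404394905) (nat_lit 76) (nat_lit 17334298778) (nat_lit 280) (nat_lit 5) (nat_lit 289) (nat_lit 5) (nat_lit 281) (nat_lit 5) (nat_lit 647) (nat_lit 589) (nat_lit 324))) (XT.nd (nat_lit 78) (nat_lit 532) (nat_lit 0) (XT.lf (nat_lit 0) (nat_lit 16324917144) (nat_lit 608) (nat_lit 230065366) (nat_lit 684) (nat_lit 13674885264) (nat_lit 272) (nat_lit 5) (nat_lit 280) (nat_lit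 5) (nat_lit 281) (nat_lit 5) (nat_lit 648) (nat_lit 589) (nat_lit 323)) (XT.nd (nat_lit 78) (nat_lit 0) (nat_lit 0) (XT.lf (nat_lit 0) (nat_lit 3808657758) (nat_lit 532) (nat_lit 18378871979) (nat_lit 608) (nat_lit 8395951665) (nat_lit 265) (nat_lit 5) (nat_lit 272) (nat_lit 5) (nat_lit 273) (nat_lit 5) (nat_lit 649) (nat_lit 589) (nat_lit 322)) (XT.lf (nat_lit 0) (nat_lit 22060017788) (nat_lit 532) (nat_lit 5964891533) (nat_lit 608) (nat_lit 2917414412) (nat_lit 265) (nat_lit 5) (nat_lit 272) (nat_lit 5) (nat_lit 273) (nat_lit 5) (nat_lit 650) (nat_lit 589) (nat_lit 321))))) (XT.nd (nat_lit 234) (nat_lit 1064) (nat_lit 0) (XT.nd (nat_lit 78) (nat_lit 532) (nat_lit 0) (XT.lf (nat_lit 0) (nat_lit 2738555700) (nat_lit 684) (nat_lit 21879304868) (nat_lit 76) (nat_lit 6688077825) (nat_lit 256) (nat_lit 5) (nat_lit 265) (nat_lit 5) (nat_lit 257) (nat_lit 5) (nat_lit 651) (nat_lit 589) (nat_lit 320)) (XT.nd (nat_lit 78) (nat_lit 532) (nat_lit 0) (XT.lf (nat_lit 0) (nat_lit 8565536333) (nat_lit 684) (nat_lit 3516149858)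 (nat_lit 76) (nat_lit 19592814420) (nat_lit 256) (nat_lit 5) (nat_lit 265) (nat_lit 5) (nat_lit 257) (nat_lit 5) (nat_lit 652) (nat_lit 589) (nat_lit 319)) (XT.lf (nat_lit 0) (nat_lit 14611831240) (nat_lit 608) (nat_lit 16640691109) (nat_lit 76) (nat_lit 795856287) (nat_lit 249) (nat_lit 5) (nat_lit 257) (nat_lit 5) (nat_lit 250) (nat_lit 5) (nat_lit 653) (nat_lit 589) (nat_lit 318)))) (XT.nd (nat_lit 78) (nat_lit 532) (nat_lit 0) (XT.lf (nat_lit 0) (nat_lit 2274659765) (nat_lit 532) (nat_lit 18620412950) (nat_lit 608) (nat_lit 11532341145) (nat_lit 242) (nat_lit 5) (nat_lit 249) (nat_lit 5) (nat_lit 250) (nat_lit 5) (nat_lit 654) (nat_lit 589) (nat_lit 317)) (XT.nd (nat_lit 78) (nat_lit 532) (nat_lit 0) (XT.lf (nat_lit 0) (nat_lit 21790501958) (nat_lit 532) (nat_lit 5622661537) (nat_lit 608) (nat_lit 5398682656) (nat_lit 242) (nat_lit 5) (nat_lit 249) (nat_lit 5) (nat_lit 250) (nat_lit 5) (nat_lit 655) (nat_lit 589) (nat_lit 316)) (XT.lf (nat_lit 0) (nat_lit 949736726) (nat_lit 532) (nat_lit 24656241460)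 (nat_lit 76) (nat_lit 7595810864) (nat_lit 235) (nat_lit 5) (nat_lit 242) (nat_lit 5) (nat_lit 236) (nat_lit 5) (nat_lit 656) (nat_lit 589) (nat_lit 315))))))))
noncomputable def xc181 : XT := (XT.nd (nat_lit 78234) (nat_lit 0) (nat_lit 10944) (XT.nd (nat_lit 780) (nat_lit 1292) (nat_lit 0) (XT.nd (nat_lit 390) (nat_lit 1368) (nat_lit 0) (XT.nd (nat_lit 156) (nat_lit 988) (nat_lit 0) (XT.nd (nat_lit 78) (nat_lit 532) (nat_lit 0) (XT.lf (nat_lit 0) (nat_lit 7462158460) (nat_lit 532) (nat_lit 5021727543) (nat_lit 76) (nat_lit 21112744699) (nat_lit 235) (nat_lit 5) (nat_lit 242) (nat_lit 5) (nat_lit 236) (nat_lit 5) (nat_lit 657) (nat_lit 589) (nat_lit 314)) (XT.lf (nat_lit 0) (nat_lit 14207639787) (nat_lit 608) (nat_lit 18802395962) (nat_lit 76) (nat_lit 987277263) (nat_lit 228) (nat_lit 5) (nat_lit 236) (nat_lit 5) (nat_lit 229) (nat_lit 5) (nat_lit 658) (nat_lit 589) (nat_lit 313))) (XT.nd (nat_lit 78) (nat_lit 532) (nat_lit 0) (XT.lf (nat_lit 0) (nat_lit 1410911990) (nat_lit 456) (nat_lit 19800512474) (nat_lit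 532) (nat_lit 13192116677) (nat_lit 222) (nat_lit 5) (nat_lit 228) (nat_lit 5) (nat_lit 229) (nat_lit 5) (nat_lit 659) (nat_lit 589) (nat_lit 312)) (XT.nd (nat_lit 78) (nat_lit 532) (nat_lit 0) (XT.lf (nat_lit 0) (nat_lit 22280054562) (nat_lit 456) (nat_lit 6199065939) (nat_lit 532) (nat_lit 6336296664) (nat_lit 222) (nat_lit 5) (nat_lit 228) (nat_lit 5) (nat_lit 229) (nat_lit 5) (nat_lit 660) (nat_lit 589) (nat_lit 311)) (XT.lf (nat_lit 0) (nat_lit 750692096) (nat_lit 532) (nat_lit 26850476260) (nat_lit 76) (nat_lit 7632223845) (nat_lit 215) (nat_lit 5) (nat_lit 222) (nat_lit 5) (nat_lit 216) (nat_lit 5) (nat_lit 661) (nat_lit 589) (nat_lit 310))))) (XT.nd (nat_lit 156) (nat_lit 912) (nat_lit 0) (XT.nd (nat_lit 78) (nat_lit 456) (nat_lit 0) (XT.lf (nat_lit 0) (nat_lit 8018096527) (nat_lit 532) (nat_lit 5855423750) (nat_lit 76) (nat_lit 21782898468) (nat_lit 215) (nat_lit 5) (nat_lit 222) (nat_lit 5) (nat_lit 216) (nat_lit 5) (nat_lit 662) (nat_lit 589) (nat_lit 309)) (XT.lf (nat_lit 0) (nat_lit 15532455204)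 (nat_lit 532) (nat_lit 20324368253) (nat_lit 76) (nat_lit 229050281) (nat_lit 209) (nat_lit 5) (nat_lit 216) (nat_lit 5) (nat_lit 210) (nat_lit 5) (nat_lit 663) (nat_lit 589) (nat_lit 308))) (XT.nd (nat_lit 78) (nat_lit 456) (nat_lit 0) (XT.lf (nat_lit 0) (nat_lit 1288535352) (nat_lit 456) (nat_lit 22046134533) (nat_lit 532) (nat_lit 13186496610) (nat_lit 203) (nat_lit 5) (nat_lit 209) (nat_lit 5) (nat_lit 210) (nat_lit 5) (nat_lit 664) (nat_lit 589) (nat_lit 307)) (XT.nd (nat_lit 78) (nat_lit 456) (nat_lit 0) (XT.lf (nat_lit 0) (nat_lit 23605981173) (nat_lit 456) (nat_lit 7821129681) (nat_lit 532) (nat_lit 5535370655) (nat_lit 203) (nat_lit 5) (nat_lit 209) (nat_lit 5) (nat_lit 210) (nat_lit 5) (nat_lit 665) (nat_lit 589) (nat_lit 306)) (XT.lf (nat_lit 0) (nat_lit 2339562694) (nat_lit 456) (nat_lit 28397064846) (nat_lit 76) (nat_lit 6673689908) (nat_lit 197) (nat_lit 5) (nat_lit 203) (nat_lit 5) (nat_lit 198) (nat_lit 5) (nat_lit 666) (nat_lit 589) (nat_lit 305)))))) (XT.nd (nat_lit 77064) (nat_lit 0) (nat_lit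 20748) (XT.nd (nat_lit 156) (nat_lit 836) (nat_lit 0) (XT.nd (nat_lit 78) (nat_lit 456) (nat_lit 0) (XT.lf (nat_lit 0) (nat_lit 10437802916) (nat_lit 456) (nat_lit 5946112767) (nat_lit 76) (nat_lit 21479664149) (nat_lit 197) (nat_lit 5) (nat_lit 203) (nat_lit 5) (nat_lit 198) (nat_lit 5) (nat_lit 667) (nat_lit 589) (nat_lit 304)) (XT.lf (nat_lit 0) (nat_lit 17175987751) (nat_lit 456) (nat_lit 1631419720) (nat_lit 532) (nat_lit 19516312039) (nat_lit 191) (nat_lit 5) (nat_lit 197) (nat_lit 5) (nat_lit 198) (nat_lit 5) (nat_lit 668) (nat_lit 589) (nat_lit 303))) (XT.nd (nat_lit 78) (nat_lit 456) (nat_lit 0) (XT.lf (nat_lit 0) (nat_lit 1984370695) (nat_lit 380) (nat_lit 25498085771) (nat_lit 456) (nat_lit 11307844506) (nat_lit 186) (nat_lit 5) (nat_lit 191) (nat_lit 5) (nat_lit 192) (nat_lit 5) (nat_lit 669) (nat_lit 589) (nat_lit 302)) (XT.nd (nat_lit 78) (nat_lit 456) (nat_lit 0) (XT.lf (nat_lit 0) (nat_lit 25851699820) (nat_lit 380) (nat_lit 10629869288) (nat_lit 456) (nat_lit 2781633737) (nat_lit 186) (nat_lit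 5) (nat_lit 191) (nat_lit 5) (nat_lit 192) (nat_lit 5) (nat_lit 670) (nat_lit 589) (nat_lit 301)) (XT.lf (nat_lit 0) (nat_lit 5934100405) (nat_lit 456) (nat_lit 29225970556) (nat_lit 76) (nat_lit 4582792199) (nat_lit 180) (nat_lit 5) (nat_lit 186) (nat_lit 5) (nat_lit 181) (nat_lit 5) (nat_lit 671) (nat_lit 589) (nat_lit 300))))) (XT.nd (nat_lit 156) (nat_lit 1140) (nat_lit 0) (XT.nd (nat_lit 78) (nat_lit 1824) (nat_lit 0) (XT.lf (nat_lit 76) (nat_lit 17312728114) (nat_lit 0) (nat_lit 2309952148) (nat_lit 1900) (nat_lit 1274996374) (nat_lit 493) (nat_lit 5) (nat_lit 492) (nat_lit 5) (nat_lit 517) (nat_lit 5) (nat_lit 614) (nat_lit 590) (nat_lit 356)) (XT.lf (nat_lit 0) (nat_lit 541577042) (nat_lit 1900) (nat_lit 13342279349) (nat_lit 76) (nat_lit 7235397631) (nat_lit 468) (nat_lit 5) (nat_lit 493) (nat_lit 5) (nat_lit 469) (nat_lit 5) (nat_lit 615) (nat_lit 590) (nat_lit 355))) (XT.nd (nat_lit 78) (nat_lit 1140) (nat_lit 0) (XT.lf (nat_lit 0) (nat_lit 2412697083) (nat_lit 1900) (nat_lit 1957670608) (nat_lit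 76) (nat_lit 16974021081) (nat_lit 468) (nat_lit 5) (nat_lit 493) (nat_lit 5) (nat_lit 469) (nat_lit 5) (nat_lit 616) (nat_lit 590) (nat_lit 354)) (XT.nd (nat_lit 78) (nat_lit 0) (nat_lit 0) (XT.lf (nat_lit 0) (nat_lit 4415625248) (nat_lit 1216) (nat_lit 11828651001) (nat_lit 76) (nat_lit 5327862375) (nat_lit 453) (nat_lit 5) (nat_lit 469) (nat_lit 5) (nat_lit 454) (nat_lit 5) (nat_lit 617) (nat_lit 590) (nat_lit 353)) (XT.lf (nat_lit 0) (nat_lit 6496680635) (nat_lit 1216) (nat_lit 131712484) (nat_lit 76) (nat_lit 15175289096) (nat_lit 453) (nat_lit 5) (nat_lit 469) (nat_lit 5) (nat_lit 454) (nat_lit 5) (nat_lit 618) (nat_lit 590) (nat_lit 352))))))) (XT.nd (nat_lit 780) (nat_lit 4484) (nat_lit 0) (XT.nd (nat_lit 390) (nat_lit 2660) (nat_lit 0) (XT.nd (nat_lit 156) (nat_lit 836) (nat_lit 0) (XT.nd (nat_lit 78) (nat_lit 912) (nat_lit 0) (XT.lf (nat_lit 0) (nat_lit 8714103309) (nat_lit 988) (nat_lit 10107260727) (nat_lit 76) (nat_lit 3216597831) (nat_lit 441) (nat_lit 5) (nat_lit 454) (nat_lit 5) (nat_lit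 442) (nat_lit 5) (nat_lit 619) (nat_lit 590) (nat_lit 351)) (XT.lf (nat_lit 0) (nat_lit 1937048533) (nat_lit 912) (nat_lit 9092228664) (nat_lit 988) (nat_lit 11246581973) (nat_lit 429) (nat_lit 5) (nat_lit 441) (nat_lit 5) (nat_lit 442) (nat_lit 5) (nat_lit 620) (nat_lit 590) (nat_lit 350))) (XT.nd (nat_lit 78) (nat_lit 836) (nat_lit 0) (XT.lf (nat_lit 0) (nat_lit 13460522532) (nat_lit 988) (nat_lit 8167503311) (nat_lit 76) (nat_lit 889093325) (nat_lit 429) (nat_lit 5) (nat_lit 442) (nat_lit 5) (nat_lit 430) (nat_lit 5) (nat_lit 621) (nat_lit 590) (nat_lit 349)) (XT.nd (nat_lit 78) (nat_lit 0) (nat_lit 0) (XT.lf (nat_lit 0) (nat_lit 4238936438) (nat_lit 836) (nat_lit 11785363500) (nat_lit 912) (nat_lit 6737226393) (nat_lit 418) (nat_lit 5) (nat_lit 429) (nat_lit 5) (nat_lit 430) (nat_lit 5) (nat_lit 622) (nat_lit 590) (nat_lit 348)) (XT.lf (nat_lit 0) (nat_lit 17000567111) (nat_lit 836) (nat_lit 1689817132) (nat_lit 912) (nat_lit 4319416872) (nat_lit 418) (nat_lit 5) (nat_lit 429) (nat_lit 5) (nat_lit 430)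 (nat_lit 5) (nat_lit 623) (nat_lit 590) (nat_lit 347))))) (XT.nd (nat_lit 156) (nat_lit 1672) (nat_lit 0) (XT.nd (nat_lit 78) (nat_lit 76) (nat_lit 0) (XT.lf (nat_lit 0) (nat_lit 6783819594) (nat_lit 912) (nat_lit 14722200172) (nat_lit 988) (nat_lit 1755097141) (nat_lit 406) (nat_lit 5) (nat_lit 418) (nat_lit 5) (nat_lit 419) (nat_lit 5) (nat_lit 624) (nat_lit 590) (nat_lit 346)) (XT.lf (nat_lit 0) (nat_lit 897328967) (nat_lit 988) (nat_lit 3623185232) (nat_lit 76) (nat_lit 18995871062) (nat_lit 405) (nat_lit 5) (nat_lit 418) (nat_lit 5) (nat_lit 406) (nat_lit 5) (nat_lit 625) (nat_lit 590) (nat_lit 345))) (XT.nd (nat_lit 78) (nat_lit 836) (nat_lit 0) (XT.lf (nat_lit 0) (nat_lit 3676740874) (nat_lit 912) (nat_lit 14215385174) (nat_lit 76) (nat_lit 5882452246) (nat_lit 394) (nat_lit 5) (nat_lit 406) (nat_lit 5) (nat_lit 395) (nat_lit 5) (nat_lit 626) (nat_lit 590) (nat_lit 344)) (XT.nd (nat_lit 78) (nat_lit 836) (nat_lit 0) (XT.lf (nat_lit 0) (nat_lit 6562594758) (nat_lit 912) (nat_lit 1016868911) (nat_lit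 76) (nat_lit 16457454539) (nat_lit 394) (nat_lit 5) (nat_lit 406) (nat_lit 5) (nat_lit 395) (nat_lit 5) (nat_lit 627) (nat_lit 590) (nat_lit 343)) (XT.lf (nat_lit 0) (nat_lit 9604159391) (nat_lit 912) (nat_lit 11715180660) (nat_lit 76) (nat_lit 2983205090) (nat_lit 383) (nat_lit 5) (nat_lit 395) (nat_lit 5) (nat_lit 384) (nat_lit 5) (nat_lit 628) (nat_lit 590) (nat_lit 342)))))) (XT.nd (nat_lit 390) (nat_lit 2128) (nat_lit 0) (XT.nd (nat_lit 156) (nat_lit 1596) (nat_lit 0) (XT.nd (nat_lit 78) (nat_lit 0) (nat_lit 0) (XT.lf (nat_lit 0) (nat_lit 1874839831) (nat_lit 760) (nat_lit 10897508592) (nat_lit 836) (nat_lit 11799820420) (nat_lit 373) (nat_lit 5) (nat_lit 383) (nat_lit 5) (nat_lit 384) (nat_lit 5) (nat_lit 629) (nat_lit 590) (nat_lit 341)) (XT.lf (nat_lit 0) (nat_lit 15891859905) (nat_lit 760) (nat_lit 187256848) (nat_lit 836) (nat_lit 8766564043) (nat_lit 373) (nat_lit 5) (nat_lit 383) (nat_lit 5) (nat_lit 384) (nat_lit 5) (nat_lit 630) (nat_lit 590) (nat_lit 340))) (XT.nd (nat_lit 78) (nat_lit 836)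 (nat_lit 0) (XT.lf (nat_lit 0) (nat_lit 5057577420) (nat_lit 760) (nat_lit 14493659052) (nat_lit 836) (nat_lit 5571442285) (nat_lit 363) (nat_lit 5) (nat_lit 373) (nat_lit 5) (nat_lit 374) (nat_lit 5) (nat_lit 631) (nat_lit 590) (nat_lit 339)) (XT.nd (nat_lit 78) (nat_lit 836) (nat_lit 0) (XT.lf (nat_lit 0) (nat_lit 19465744195) (nat_lit 760) (nat_lit 3685079215) (nat_lit 836) (nat_lit 2253232858) (nat_lit 363) (nat_lit 5) (nat_lit 373) (nat_lit 5) (nat_lit 374) (nat_lit 5) (nat_lit 632) (nat_lit 590) (nat_lit 338)) (XT.lf (nat_lit 0) (nat_lit 1216982143) (nat_lit 836) (nat_lit 17165385016) (nat_lit 76) (nat_lit 7306537761) (nat_lit 352) (nat_lit 5) (nat_lit 363) (nat_lit 5) (nat_lit 353) (nat_lit 5) (nat_lit 633) (nat_lit 590) (nat_lit 337))))) (XT.nd (nat_lit 234) (nat_lit 684) (nat_lit 0) (XT.nd (nat_lit 78) (nat_lit 1444) (nat_lit 0) (XT.lf (nat_lit 0) (nat_lit 4787766340) (nat_lit 836) (nat_lit 2666746466) (nat_lit 76) (nat_lit 18523413229) (nat_lit 352) (nat_lit 5) (nat_lit 363) (nat_lit 5) (nat_lit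 353) (nat_lit 5) (nat_lit 634) (nat_lit 590) (nat_lit 336)) (XT.nd (nat_lit 78) (nat_lit 684) (nat_lit 0) (XT.lf (nat_lit 0) (nat_lit 8531040872) (nat_lit 836) (nat_lit 14016296611) (nat_lit 76) (nat_lit 3723368678) (nat_lit 342) (nat_lit 5) (nat_lit 353) (nat_lit 5) (nat_lit 343) (nat_lit 5) (nat_lit 635) (nat_lit 590) (nat_lit 335)) (XT.lf (nat_lit 0) (nat_lit 899916952) (nat_lit 684) (nat_lit 11519377577) (nat_lit 760) (nat_lit 14148645165) (nat_lit 333) (nat_lit 5) (nat_lit 342) (nat_lit 5) (nat_lit 343) (nat_lit 5) (nat_lit 636) (nat_lit 590) (nat_lit 334)))) (XT.nd (nat_lit 78) (nat_lit 684) (nat_lit 0) (XT.lf (nat_lit 0) (nat_lit 16300920121) (nat_lit 684) (nat_lit 175377303) (nat_lit 760) (nat_lit 10393000867) (nat_lit 333) (nat_lit 5) (nat_lit 342) (nat_lit 5) (nat_lit 343) (nat_lit 5) (nat_lit 637) (nat_lit 590) (nat_lit 333)) (XT.nd (nat_lit 78) (nat_lit 0) (nat_lit 0) (XT.lf (nat_lit 0) (nat_lit 4818956134) (nat_lit 684) (nat_lit 15897744042) (nat_lit 760) (nat_lit 6457938763) (nat_lit 324) (nat_lit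 5) (nat_lit 333) (nat_lit 5) (nat_lit 334) (nat_lit 5) (nat_lit 638) (nat_lit 590) (nat_lit 332)) (XT.lf (nat_lit 0) (nat_lit 20652623072) (nat_lit 684) (nat_lit 4458382300) (nat_lit 760) (nat_lit 2373699214) (nat_lit 324) (nat_lit 5) (nat_lit 333) (nat_lit 5) (nat_lit 334) (nat_lit 5) (nat_lit 639) (nat_lit 590) (nat_lit 331))))))))
noncomputable def xc182 : XT := (XT.nd (nat_lit 1560) (nat_lit 4408) (nat_lit 0) (XT.nd (nat_lit 780) (nat_lit 3344) (nat_lit 0) (XT.nd (nat_lit 390) (nat_lit 1900) (nat_lit 0) (XT.nd (nat_lit 156) (nat_lit 1292) (nat_lit 0) (XT.nd (nat_lit 78) (nat_lit 0) (nat_lit 0) (XT.lf (nat_lit 0) (nat_lit 1872180047) (nat_lit 760) (nat_lit 18740569413) (nat_lit 76) (nat_lit 7185920225) (nat_lit 314) (nat_lit 5) (nat_lit 324) (nat_lit 5) (nat_lit 315) (nat_lit 5) (nat_lit 640) (nat_lit 590) (nat_lit 330)) (XT.lf (nat_lit 0) (nat_lit 6243990979) (nat_lit 760) (nat_lit 2808346808) (nat_lit 76) (nat_lit 19064806608) (nat_lit 314) (nat_lit 5) (nat_lit 324) (nat_lit 5) (nat_lit 315) (nat_lit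 5) (nat_lit 641) (nat_lit 590) (nat_lit 329))) (XT.nd (nat_lit 78) (nat_lit 608) (nat_lit 0) (XT.lf (nat_lit 0) (nat_lit 10807169256) (nat_lit 760) (nat_lit 14840953953) (nat_lit 76) (nat_lit 2791786834) (nat_lit 305) (nat_lit 5) (nat_lit 315) (nat_lit 5) (nat_lit 306) (nat_lit 5) (nat_lit 642) (nat_lit 590) (nat_lit 328)) (XT.nd (nat_lit 78) (nat_lit 0) (nat_lit 0) (XT.lf (nat_lit 0) (nat_lit 1560654743) (nat_lit 608) (nat_lit 13987187705) (nat_lit 684) (nat_lit 13219563996) (nat_lit 297) (nat_lit 5) (nat_lit 305) (nat_lit 5) (nat_lit 306) (nat_lit 5) (nat_lit 643) (nat_lit 590) (nat_lit 327)) (XT.lf (nat_lit 0) (nat_lit 18488033110) (nat_lit 608) (nat_lit 1992098614) (nat_lit 684) (nat_lit 8619385064) (nat_lit 297) (nat_lit 5) (nat_lit 305) (nat_lit 5) (nat_lit 306) (nat_lit 5) (nat_lit 644) (nat_lit 590) (nat_lit 326))))) (XT.nd (nat_lit 156) (nat_lit 1216) (nat_lit 0) (XT.nd (nat_lit 78) (nat_lit 76) (nat_lit 0) (XT.lf (nat_lit 0) (nat_lit 6328770227) (nat_lit 608) (nat_lit 19287153332) (nat_lit 684)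 (nat_lit 3820248707) (nat_lit 289) (nat_lit 5) (nat_lit 297) (nat_lit 5) (nat_lit 298) (nat_lit 5) (nat_lit 645) (nat_lit 590) (nat_lit 325)) (XT.lf (nat_lit 0) (nat_lit 1142922379) (nat_lit 684) (nat_lit 6050541629) (nat_lit 76) (nat_lit 22584314350) (nat_lit 288) (nat_lit 5) (nat_lit 297) (nat_lit 5) (nat_lit 289) (nat_lit 5) (nat_lit 646) (nat_lit 590) (nat_lit 324))) (XT.nd (nat_lit 78) (nat_lit 608) (nat_lit 0) (XT.lf (nat_lit 0) (nat_lit 6260089010) (nat_lit 684) (nat_lit 18689104981) (nat_lit 76) (nat_lit 5174399898) (nat_lit 280) (nat_lit 5) (nat_lit 289) (nat_lit 5) (nat_lit 281) (nat_lit 5) (nat_lit 647) (nat_lit 590) (nat_lit 323)) (XT.nd (nat_lit 78) (nat_lit 608) (nat_lit 0) (XT.lf (nat_lit 0) (nat_lit 11565464707) (nat_lit 684) (nat_lit 1175576065) (nat_lit 76) (nat_lit 17733567704) (nat_lit 280) (nat_lit 5) (nat_lit 289) (nat_lit 5) (nat_lit 281) (nat_lit 5) (nat_lit 648) (nat_lit 590) (nat_lit 322)) (XT.lf (nat_lit 0) (nat_lit 16906632048) (nat_lit 608) (nat_lit 177492477) (nat_lit 684) (nat_lit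 13746375355) (nat_lit 272) (nat_lit 5) (nat_lit 280) (nat_lit 5) (nat_lit 281) (nat_lit 5) (nat_lit 649) (nat_lit 590) (nat_lit 321)))))) (XT.nd (nat_lit 390) (nat_lit 1596) (nat_lit 0) (XT.nd (nat_lit 156) (nat_lit 1216) (nat_lit 0) (XT.nd (nat_lit 78) (nat_lit 0) (nat_lit 0) (XT.lf (nat_lit 0) (nat_lit 4141938810) (nat_lit 532) (nat_lit 18685533953) (nat_lit 608) (nat_lit 8363750104) (nat_lit 265) (nat_lit 5) (nat_lit 272) (nat_lit 5) (nat_lit 273) (nat_lit 5) (nat_lit 650) (nat_lit 590) (nat_lit 320)) (XT.lf (nat_lit 0) (nat_lit 22753284709) (nat_lit 532) (nat_lit 6024468318) (nat_lit 608) (nat_lit 2779566039) (nat_lit 265) (nat_lit 5) (nat_lit 272) (nat_lit 5) (nat_lit 273) (nat_lit 5) (nat_lit 651) (nat_lit 590) (nat_lit 319))) (XT.nd (nat_lit 78) (nat_lit 532) (nat_lit 0) (XT.lf (nat_lit 0) (nat_lit 2985195515) (nat_lit 684) (nat_lit 22060488225) (nat_lit 76) (nat_lit 6882531980) (nat_lit 256) (nat_lit 5) (nat_lit 265) (nat_lit 5) (nat_lit 257) (nat_lit 5) (nat_lit 652) (nat_lit 590) (nat_lit 318))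 (XT.nd (nat_lit 78) (nat_lit 532) (nat_lit 0) (XT.lf (nat_lit 0) (nat_lit 8924953629) (nat_lit 684) (nat_lit 3335097620) (nat_lit 76) (nat_lit 20044173257) (nat_lit 256) (nat_lit 5) (nat_lit 265) (nat_lit 5) (nat_lit 257) (nat_lit 5) (nat_lit 653) (nat_lit 590) (nat_lit 317)) (XT.lf (nat_lit 0) (nat_lit 15090520893) (nat_lit 608) (nat_lit 16720472245) (nat_lit 76) (nat_lit 874620101) (nat_lit 249) (nat_lit 5) (nat_lit 257) (nat_lit 5) (nat_lit 250) (nat_lit 5) (nat_lit 654) (nat_lit 590) (nat_lit 316))))) (XT.nd (nat_lit 156) (nat_lit 1064) (nat_lit 0) (XT.nd (nat_lit 78) (nat_lit 0) (nat_lit 0) (XT.lf (nat_lit 0) (nat_lit 2571520957) (nat_lit 532) (nat_lit 18925882346) (nat_lit 608) (nat_lit 11574866419) (nat_lit 242) (nat_lit 5) (nat_lit 249) (nat_lit 5) (nat_lit 250) (nat_lit 5) (nat_lit 655) (nat_lit 590) (nat_lit 315)) (XT.lf (nat_lit 0) (nat_lit 22472751210) (nat_lit 532) (nat_lit 5669488431) (nat_lit 608) (nat_lit 5322223418) (nat_lit 242) (nat_lit 5) (nat_lit 249) (nat_lit 5) (nat_lit 250) (nat_lit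 5) (nat_lit 656) (nat_lit 590) (nat_lit 314))) (XT.nd (nat_lit 78) (nat_lit 532) (nat_lit 0) (XT.lf (nat_lit 0) (nat_lit 1149217863) (nat_lit 532) (nat_lit 24898973295) (nat_lit 76) (nat_lit 7814020333) (nat_lit 235) (nat_lit 5) (nat_lit 242) (nat_lit 5) (nat_lit 236) (nat_lit 5) (nat_lit 657) (nat_lit 590) (nat_lit 313)) (XT.nd (nat_lit 78) (nat_lit 532) (nat_lit 0) (XT.lf (nat_lit 0) (nat_lit 7788349083) (nat_lit 532) (nat_lit 4876678766) (nat_lit 76) (nat_lit 21599992978) (nat_lit 235) (nat_lit 5) (nat_lit 242) (nat_lit 5) (nat_lit 236) (nat_lit 5) (nat_lit 658) (nat_lit 590) (nat_lit 312)) (XT.lf (nat_lit 0) (nat_lit 14667300575) (nat_lit 608) (nat_lit 18931517621) (nat_lit 76) (nat_lit 1074927446) (nat_lit 228) (nat_lit 5) (nat_lit 236) (nat_lit 5) (nat_lit 229) (nat_lit 5) (nat_lit 659) (nat_lit 590) (nat_lit 311))))))) (XT.nd (nat_lit 780) (nat_lit 1596) (nat_lit 0) (XT.nd (nat_lit 390) (nat_lit 1368) (nat_lit 0) (XT.nd (nat_lit 156) (nat_lit 988) (nat_lit 0) (XT.nd (nat_lit 78) (nat_lit 0) (nat_lit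 0) (XT.lf (nat_lit 0) (nat_lit 1684431975) (nat_lit 456) (nat_lit 20124880299) (nat_lit 532) (nat_lit 13278823102) (nat_lit 222) (nat_lit 5) (nat_lit 228) (nat_lit 5) (nat_lit 229) (nat_lit 5) (nat_lit 660) (nat_lit 590) (nat_lit 310)) (XT.lf (nat_lit 0) (nat_lit 22966147560) (nat_lit 456) (nat_lit 6252809586) (nat_lit 532) (nat_lit 6289359941) (nat_lit 222) (nat_lit 5) (nat_lit 228) (nat_lit 5) (nat_lit 229) (nat_lit 5) (nat_lit 661) (nat_lit 590) (nat_lit 309))) (XT.nd (nat_lit 78) (nat_lit 456) (nat_lit 0) (XT.lf (nat_lit 0) (nat_lit 935761136) (nat_lit 532) (nat_lit 27143379944) (nat_lit 76) (nat_lit 7855514655) (nat_lit 215) (nat_lit 5) (nat_lit 222) (nat_lit 5) (nat_lit 216) (nat_lit 5) (nat_lit 662) (nat_lit 590) (nat_lit 308)) (XT.nd (nat_lit 78) (nat_lit 456) (nat_lit 0) (XT.lf (nat_lit 0) (nat_lit 8345179240) (nat_lit 532) (nat_lit 5733212772) (nat_lit 76) (nat_lit 22287817547) (nat_lit 215) (nat_lit 5) (nat_lit 222) (nat_lit 5) (nat_lit 216) (nat_lit 5) (nat_lit 663) (nat_lit 590) (nat_lit 307))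 (XT.lf (nat_lit 0) (nat_lit 16008571993) (nat_lit 532) (nat_lit 20490279985) (nat_lit 76) (nat_lit 305426798) (nat_lit 209) (nat_lit 5) (nat_lit 216) (nat_lit 5) (nat_lit 210) (nat_lit 5) (nat_lit 664) (nat_lit 590) (nat_lit 306))))) (XT.nd (nat_lit 156) (nat_lit 912) (nat_lit 0) (XT.nd (nat_lit 78) (nat_lit 0) (nat_lit 0) (XT.lf (nat_lit 0) (nat_lit 1553298957) (nat_lit 456) (nat_lit 22411839246) (nat_lit 532) (nat_lit 13283173101) (nat_lit 203) (nat_lit 5) (nat_lit 209) (nat_lit 5) (nat_lit 210) (nat_lit 5) (nat_lit 665) (nat_lit 590) (nat_lit 305)) (XT.lf (nat_lit 0) (nat_lit 24312407559) (nat_lit 456) (nat_lit 7903809160) (nat_lit 532) (nat_lit 5482300185) (nat_lit 203) (nat_lit 5) (nat_lit 209) (nat_lit 5) (nat_lit 210) (nat_lit 5) (nat_lit 666) (nat_lit 590) (nat_lit 304))) (XT.nd (nat_lit 78) (nat_lit 456) (nat_lit 0) (XT.lf (nat_lit 0) (nat_lit 2546826186) (nat_lit 456) (nat_lit 28727387984) (nat_lit 76) (nat_lit 6881097335) (nat_lit 197) (nat_lit 5) (nat_lit 203) (nat_lit 5) (nat_lit 198) (nat_lit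 5) (nat_lit 667) (nat_lit 590) (nat_lit 303)) (XT.nd (nat_lit 78) (nat_lit 456) (nat_lit 0) (XT.lf (nat_lit 0) (nat_lit 10803884698) (nat_lit 456) (nat_lit 5832076042) (nat_lit 76) (nat_lit 21981741382) (nat_lit 197) (nat_lit 5) (nat_lit 203) (nat_lit 5) (nat_lit 198) (nat_lit 5) (nat_lit 668) (nat_lit 590) (nat_lit 302)) (XT.lf (nat_lit 0) (nat_lit 17750933861) (nat_lit 456) (nat_lit 1588365239) (nat_lit 532) (nat_lit 19747777194) (nat_lit 191) (nat_lit 5) (nat_lit 197) (nat_lit 5) (nat_lit 198) (nat_lit 5) (nat_lit 669) (nat_lit 590) (nat_lit 301)))))) (XT.nd (nat_lit 76752) (nat_lit 0) (nat_lit 21508) (XT.nd (nat_lit 156) (nat_lit 1216) (nat_lit 0) (XT.nd (nat_lit 78) (nat_lit 0) (nat_lit 0) (XT.lf (nat_lit 0) (nat_lit 2256570867) (nat_lit 380) (nat_lit 25930215789) (nat_lit 456) (nat_lit 11376224031) (nat_lit 186) (nat_lit 5) (nat_lit 191) (nat_lit 5) (nat_lit 192) (nat_lit 5) (nat_lit 670) (nat_lit 590) (nat_lit 300)) (XT.lf (nat_lit 0) (nat_lit 26596687501) (nat_lit 380) (nat_lit 10766161088) (nat_lit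 456) (nat_lit 2682582720) (nat_lit 186) (nat_lit 5) (nat_lit 191) (nat_lit 5) (nat_lit 192) (nat_lit 5) (nat_lit 671) (nat_lit 590) (nat_lit 299))) (XT.nd (nat_lit 156) (nat_lit 760) (nat_lit 0) (XT.lf (nat_lit 0) (nat_lit 6204429613) (nat_lit 456) (nat_lit 29579494684) (nat_lit 76) (nat_lit 4750760655) (nat_lit 180) (nat_lit 5) (nat_lit 186) (nat_lit 5) (nat_lit 181) (nat_lit 5) (nat_lit 672) (nat_lit 590) (nat_lit 298)) (XT.nd (nat_lit 78) (nat_lit 380) (nat_lit 0) (XT.lf (nat_lit 0) (nat_lit 20140263163) (nat_lit 380) (nat_lit 4754884524) (nat_lit 456) (nat_lit 16637829682) (nat_lit 175) (nat_lit 5) (nat_lit 180) (nat_lit 5) (nat_lit 181) (nat_lit 5) (nat_lit 674) (nat_lit 590) (nat_lit 296)) (XT.lf (nat_lit 0) (nat_lit 3878575581) (nat_lit 380) (nat_lit 30839286916) (nat_lit 456) (nat_lit 7325363540) (nat_lit 170) (nat_lit 5) (nat_lit 175) (nat_lit 5) (nat_lit 176) (nat_lit 5) (nat_lit 675) (nat_lit 590) (nat_lit 295))))) (XT.nd (nat_lit 234) (nat_lit 2888) (nat_lit 0) (XT.nd (nat_lit 78) (nat_lit 0)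 (nat_lit 76) (XT.lf (nat_lit 76) (nat_lit 16010527009) (nat_lit 0) (nat_lit 500436389) (nat_lit 1900) (nat_lit 4354774953) (nat_lit 492) (nat_lit 5) (nat_lit 491) (nat_lit 5) (nat_lit 516) (nat_lit 5) (nat_lit 613) (nat_lit 591) (nat_lit 356)) (XT.nd (nat_lit 78) (nat_lit 0) (nat_lit 0) (XT.lf (nat_lit 76) (nat_lit 6393502367) (nat_lit 0) (nat_lit 11993835409) (nat_lit 1900) (nat_lit 2698281881) (nat_lit 493) (nat_lit 5) (nat_lit 492) (nat_lit 5) (nat_lit 517) (nat_lit 5) (nat_lit 614) (nat_lit 591) (nat_lit 355)) (XT.lf (nat_lit 76) (nat_lit 17926119385) (nat_lit 0) (nat_lit 2406798592) (nat_lit 1900) (nat_lit 976347168) (nat_lit 493) (nat_lit 5) (nat_lit 492) (nat_lit 5) (nat_lit 517) (nat_lit 5) (nat_lit 615) (nat_lit 591) (nat_lit 354)))) (XT.nd (nat_lit 78) (nat_lit 1140) (nat_lit 0) (XT.lf (nat_lit 0) (nat_lit 867487301) (nat_lit 1900) (nat_lit 13332899674) (nat_lit 76) (nat_lit 7334941573) (nat_lit 468) (nat_lit 5) (nat_lit 493) (nat_lit 5) (nat_lit 469) (nat_lit 5) (nat_lit 616) (nat_lit 591) (nat_lit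 353)) (XT.nd (nat_lit 78) (nat_lit 1140) (nat_lit 0) (XT.lf (nat_lit 0) (nat_lit 2769851730) (nat_lit 1900) (nat_lit 1726014940) (nat_lit 76) (nat_lit 17269223061) (nat_lit 468) (nat_lit 5) (nat_lit 493) (nat_lit 5) (nat_lit 469) (nat_lit 5) (nat_lit 617) (nat_lit 591) (nat_lit 352)) (XT.lf (nat_lit 0) (nat_lit 4808297387) (nat_lit 1216) (nat_lit 11789865239) (nat_lit 76) (nat_lit 5399322947) (nat_lit 453) (nat_lit 5) (nat_lit 469) (nat_lit 5) (nat_lit 454) (nat_lit 5) (nat_lit 618) (nat_lit 591) (nat_lit 351))))))))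
noncomputable def xc183 : XT := (XT.nd (nat_lit 1560) (nat_lit 7448) (nat_lit 0) (XT.nd (nat_lit 780) (nat_lit 4636) (nat_lit 0) (XT.nd (nat_lit 390) (nat_lit 1824) (nat_lit 0) (XT.nd (nat_lit 156) (nat_lit 1748) (nat_lit 0) (XT.nd (nat_lit 78) (nat_lit 0) (nat_lit 0) (XT.lf (nat_lit 0) (nat_lit 137415079) (nat_lit 912) (nat_lit 6788483156) (nat_lit 988) (nat_lit 15307863483) (nat_lit 441) (nat_lit 5) (nat_lit 453) (nat_lit 5) (nat_lit 454) (nat_lit 5) (nat_lit 619) (nat_lit 591) (nat_lit 350)) (XT.lf (nat_lit 0) (nat_lit 9182498129) (nat_lit 988) (nat_lit 10035159013) (nat_lit 76) (nat_lit 3255173412) (nat_lit 441) (nat_lit 5) (nat_lit 454) (nat_lit 5) (nat_lit 442) (nat_lit 5) (nat_lit 620) (nat_lit 591) (nat_lit 349))) (XT.nd (nat_lit 78) (nat_lit 836) (nat_lit 0) (XT.lf (nat_lit 0) (nat_lit 2248232176) (nat_lit 912) (nat_lit 9291745280) (nat_lit 988) (nat_lit 11175588470) (nat_lit 429) (nat_lit 5) (nat_lit 441) (nat_lit 5) (nat_lit 442) (nat_lit 5) (nat_lit 621) (nat_lit 591) (nat_lit 348)) (XT.nd (nat_lit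 78) (nat_lit 836) (nat_lit 0) (XT.lf (nat_lit 0) (nat_lit 14014046685) (nat_lit 988) (nat_lit 8057943732) (nat_lit 76) (nat_lit 889776887) (nat_lit 429) (nat_lit 5) (nat_lit 442) (nat_lit 5) (nat_lit 430) (nat_lit 5) (nat_lit 622) (nat_lit 591) (nat_lit 347)) (XT.lf (nat_lit 0) (nat_lit 4594829353) (nat_lit 836) (nat_lit 12030455761) (nat_lit 912) (nat_lit 6585853943) (nat_lit 418) (nat_lit 5) (nat_lit 429) (nat_lit 5) (nat_lit 430) (nat_lit 5) (nat_lit 623) (nat_lit 591) (nat_lit 346))))) (XT.nd (nat_lit 156) (nat_lit 912) (nat_lit 0) (XT.nd (nat_lit 78) (nat_lit 912) (nat_lit 0) (XT.lf (nat_lit 0) (nat_lit 17606376676) (nat_lit 836) (nat_lit 1732814445) (nat_lit 912) (nat_lit 4125298369) (nat_lit 418) (nat_lit 5) (nat_lit 429) (nat_lit 5) (nat_lit 430) (nat_lit 5) (nat_lit 624) (nat_lit 591) (nat_lit 345)) (XT.lf (nat_lit 0) (nat_lit 7189076295) (nat_lit 912) (nat_lit 15018362645) (nat_lit 988) (nat_lit 1513466816) (nat_lit 406) (nat_lit 5) (nat_lit 418) (nat_lit 5) (nat_lit 419) (nat_lit 5) (nat_lit 625)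 (nat_lit 591) (nat_lit 344))) (XT.nd (nat_lit 78) (nat_lit 836) (nat_lit 0) (XT.lf (nat_lit 0) (nat_lit 1183023462) (nat_lit 988) (nat_lit 3427789067) (nat_lit 76) (nat_lit 19370538258) (nat_lit 405) (nat_lit 5) (nat_lit 418) (nat_lit 5) (nat_lit 406) (nat_lit 5) (nat_lit 626) (nat_lit 591) (nat_lit 343)) (XT.nd (nat_lit 78) (nat_lit 0) (nat_lit 0) (XT.lf (nat_lit 0) (nat_lit 4014513485) (nat_lit 912) (nat_lit 14228315804) (nat_lit 76) (nat_lit 6001948735) (nat_lit 394) (nat_lit 5) (nat_lit 406) (nat_lit 5) (nat_lit 395) (nat_lit 5) (nat_lit 627) (nat_lit 591) (nat_lit 342)) (XT.lf (nat_lit 0) (nat_lit 6952903314) (nat_lit 912) (nat_lit 771150335) (nat_lit 76) (nat_lit 16788414849) (nat_lit 394) (nat_lit 5) (nat_lit 406) (nat_lit 5) (nat_lit 395) (nat_lit 5) (nat_lit 628) (nat_lit 591) (nat_lit 341)))))) (XT.nd (nat_lit 390) (nat_lit 2280) (nat_lit 0) (XT.nd (nat_lit 156) (nat_lit 760) (nat_lit 0) (XT.nd (nat_lit 78) (nat_lit 760) (nat_lit 0) (XT.lf (nat_lit 0) (nat_lit 10051991662) (nat_lit 912) (nat_lit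 11680113936) (nat_lit 76) (nat_lit 3051368659) (nat_lit 383) (nat_lit 5) (nat_lit 395) (nat_lit 5) (nat_lit 384) (nat_lit 5) (nat_lit 629) (nat_lit 591) (nat_lit 340)) (XT.lf (nat_lit 0) (nat_lit 2179934791) (nat_lit 760) (nat_lit 11100332420) (nat_lit 836) (nat_lit 11778288900) (nat_lit 373) (nat_lit 5) (nat_lit 383) (nat_lit 5) (nat_lit 384) (nat_lit 5) (nat_lit 630) (nat_lit 591) (nat_lit 339))) (XT.nd (nat_lit 78) (nat_lit 760) (nat_lit 0) (XT.lf (nat_lit 0) (nat_lit 16472048243) (nat_lit 760) (nat_lit 176172237) (nat_lit 836) (nat_lit 8689416964) (nat_lit 373) (nat_lit 5) (nat_lit 383) (nat_lit 5) (nat_lit 384) (nat_lit 5) (nat_lit 631) (nat_lit 591) (nat_lit 338)) (XT.nd (nat_lit 78) (nat_lit 0) (nat_lit 0) (XT.lf (nat_lit 0) (nat_lit 5424182820) (nat_lit 760) (nat_lit 14762564312) (nat_lit 836) (nat_lit 5433489069) (nat_lit 363) (nat_lit 5) (nat_lit 373) (nat_lit 5) (nat_lit 374) (nat_lit 5) (nat_lit 632) (nat_lit 591) (nat_lit 337)) (XT.lf (nat_lit 0) (nat_lit 20115307953) (nat_lit 760) (nat_lit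 3738224014) (nat_lit 836) (nat_lit 2053805298) (nat_lit 363) (nat_lit 5) (nat_lit 373) (nat_lit 5) (nat_lit 374) (nat_lit 5) (nat_lit 633) (nat_lit 591) (nat_lit 336))))) (XT.nd (nat_lit 156) (nat_lit 1444) (nat_lit 0) (XT.nd (nat_lit 78) (nat_lit 0) (nat_lit 0) (XT.lf (nat_lit 0) (nat_lit 1479728077) (nat_lit 836) (nat_lit 17242345711) (nat_lit 76) (nat_lit 7475835062) (nat_lit 352) (nat_lit 5) (nat_lit 363) (nat_lit 5) (nat_lit 353) (nat_lit 5) (nat_lit 634) (nat_lit 591) (nat_lit 335)) (XT.lf (nat_lit 0) (nat_lit 5117253325) (nat_lit 836) (nat_lit 2458956880) (nat_lit 76) (nat_lit 18916593794) (nat_lit 352) (nat_lit 5) (nat_lit 363) (nat_lit 5) (nat_lit 353) (nat_lit 5) (nat_lit 635) (nat_lit 591) (nat_lit 334))) (XT.nd (nat_lit 78) (nat_lit 684) (nat_lit 0) (XT.lf (nat_lit 0) (nat_lit 8932680133) (nat_lit 836) (nat_lit 14032779005) (nat_lit 76) (nat_lit 3826034969) (nat_lit 342) (nat_lit 5) (nat_lit 353) (nat_lit 5) (nat_lit 343) (nat_lit 5) (nat_lit 636) (nat_lit 591) (nat_lit 333)) (XT.nd (nat_lit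 78) (nat_lit 0) (nat_lit 0) (XT.lf (nat_lit 0) (nat_lit 1180023017) (nat_lit 684) (nat_lit 11715847850) (nat_lit 760) (nat_lit 14198858118) (nat_lit 333) (nat_lit 5) (nat_lit 342) (nat_lit 5) (nat_lit 343) (nat_lit 5) (nat_lit 637) (nat_lit 591) (nat_lit 332)) (XT.lf (nat_lit 0) (nat_lit 16883906882) (nat_lit 684) (nat_lit 145632615) (nat_lit 760) (nat_lit 10372664855) (nat_lit 333) (nat_lit 5) (nat_lit 342) (nat_lit 5) (nat_lit 343) (nat_lit 5) (nat_lit 638) (nat_lit 591) (nat_lit 331))))))) (XT.nd (nat_lit 780) (nat_lit 3420) (nat_lit 0) (XT.nd (nat_lit 390) (nat_lit 1900) (nat_lit 0) (XT.nd (nat_lit 156) (nat_lit 1444) (nat_lit 0) (XT.nd (nat_lit 78) (nat_lit 0) (nat_lit 0) (XT.lf (nat_lit 0) (nat_lit 5174848991) (nat_lit 684) (nat_lit 16177411320) (nat_lit 760) (nat_lit 6361441411) (nat_lit 324) (nat_lit 5) (nat_lit 333) (nat_lit 5) (nat_lit 334) (nat_lit 5) (nat_lit 639) (nat_lit 591) (nat_lit 330)) (XT.lf (nat_lit 0) (nat_lit 21320100762) (nat_lit 684) (nat_lit 4510013082) (nat_lit 760) (nat_lit 2199941701)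 (nat_lit 324) (nat_lit 5) (nat_lit 333) (nat_lit 5) (nat_lit 334) (nat_lit 5) (nat_lit 640) (nat_lit 591) (nat_lit 329))) (XT.nd (nat_lit 78) (nat_lit 684) (nat_lit 0) (XT.lf (nat_lit 0) (nat_lit 2125591706) (nat_lit 760) (nat_lit 18855681715) (nat_lit 76) (nat_lit 7369045141) (nat_lit 314) (nat_lit 5) (nat_lit 324) (nat_lit 5) (nat_lit 315) (nat_lit 5) (nat_lit 641) (nat_lit 591) (nat_lit 328)) (XT.nd (nat_lit 78) (nat_lit 684) (nat_lit 0) (XT.lf (nat_lit 0) (nat_lit 6580604188) (nat_lit 760) (nat_lit 2609906796) (nat_lit 76) (nat_lit 19484736575) (nat_lit 314) (nat_lit 5) (nat_lit 324) (nat_lit 5) (nat_lit 315) (nat_lit 5) (nat_lit 642) (nat_lit 591) (nat_lit 327)) (XT.lf (nat_lit 0) (nat_lit 11232820378) (nat_lit 760) (nat_lit 14880935475) (nat_lit 76) (nat_lit 2890757279) (nat_lit 305) (nat_lit 5) (nat_lit 315) (nat_lit 5) (nat_lit 306) (nat_lit 5) (nat_lit 643) (nat_lit 591) (nat_lit 326))))) (XT.nd (nat_lit 156) (nat_lit 1292) (nat_lit 0) (XT.nd (nat_lit 78) (nat_lit 0) (nat_lit 0) (XT.lf (nat_lit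 0) (nat_lit 1847015675) (nat_lit 608) (nat_lit 14218839954) (nat_lit 684) (nat_lit 13272752959) (nat_lit 297) (nat_lit 5) (nat_lit 305) (nat_lit 5) (nat_lit 306) (nat_lit 5) (nat_lit 644) (nat_lit 591) (nat_lit 325)) (XT.lf (nat_lit 0) (nat_lit 19107938710) (nat_lit 608) (nat_lit 1984792051) (nat_lit 684) (nat_lit 8584711670) (nat_lit 297) (nat_lit 5) (nat_lit 305) (nat_lit 5) (nat_lit 306) (nat_lit 5) (nat_lit 645) (nat_lit 591) (nat_lit 324))) (XT.nd (nat_lit 78) (nat_lit 684) (nat_lit 0) (XT.lf (nat_lit 0) (nat_lit 6707578724) (nat_lit 608) (nat_lit 19621617169) (nat_lit 684) (nat_lit 3691676069) (nat_lit 289) (nat_lit 5) (nat_lit 297) (nat_lit 5) (nat_lit 298) (nat_lit 5) (nat_lit 646) (nat_lit 591) (nat_lit 323)) (XT.nd (nat_lit 78) (nat_lit 608) (nat_lit 0) (XT.lf (nat_lit 0) (nat_lit 1364103663) (nat_lit 684) (nat_lit 5921625019) (nat_lit 76) (nat_lit 23083634296) (nat_lit 288) (nat_lit 5) (nat_lit 297) (nat_lit 5) (nat_lit 289) (nat_lit 5) (nat_lit 647) (nat_lit 591) (nat_lit 322)) (XT.lf (nat_lit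 0) (nat_lit 6581676121) (nat_lit 684) (nat_lit 18811017730) (nat_lit 76) (nat_lit 5329439808) (nat_lit 280) (nat_lit 5) (nat_lit 289) (nat_lit 5) (nat_lit 281) (nat_lit 5) (nat_lit 648) (nat_lit 591) (nat_lit 321)))))) (XT.nd (nat_lit 390) (nat_lit 1596) (nat_lit 0) (XT.nd (nat_lit 156) (nat_lit 1216) (nat_lit 0) (XT.nd (nat_lit 78) (nat_lit 608) (nat_lit 0) (XT.lf (nat_lit 0) (nat_lit 11989308639) (nat_lit 684) (nat_lit 952156851) (nat_lit 76) (nat_lit 18138780148) (nat_lit 280) (nat_lit 5) (nat_lit 289) (nat_lit 5) (nat_lit 281) (nat_lit 5) (nat_lit 649) (nat_lit 591) (nat_lit 320)) (XT.lf (nat_lit 0) (nat_lit 17490070881) (nat_lit 608) (nat_lit 126088274) (nat_lit 684) (nat_lit 13827139450) (nat_lit 272) (nat_lit 5) (nat_lit 280) (nat_lit 5) (nat_lit 281) (nat_lit 5) (nat_lit 650) (nat_lit 591) (nat_lit 319))) (XT.nd (nat_lit 78) (nat_lit 684) (nat_lit 0) (XT.lf (nat_lit 0) (nat_lit 4471901670) (nat_lit 532) (nat_lit 19000694588) (nat_lit 608) (nat_lit 8338675438) (nat_lit 265) (nat_lit 5) (nat_lit 272)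 (nat_lit 5) (nat_lit 273) (nat_lit 5) (nat_lit 651) (nat_lit 591) (nat_lit 318)) (XT.nd (nat_lit 78) (nat_lit 684) (nat_lit 0) (XT.lf (nat_lit 0) (nat_lit 23450628916) (nat_lit 532) (nat_lit 6087555681) (nat_lit 608) (nat_lit 2646579254) (nat_lit 265) (nat_lit 5) (nat_lit 272) (nat_lit 5) (nat_lit 273) (nat_lit 5) (nat_lit 652) (nat_lit 591) (nat_lit 317)) (XT.lf (nat_lit 0) (nat_lit 3229317630) (nat_lit 684) (nat_lit 22255251680) (nat_lit 76) (nat_lit 7078518451) (nat_lit 256) (nat_lit 5) (nat_lit 265) (nat_lit 5) (nat_lit 257) (nat_lit 5) (nat_lit 653) (nat_lit 591) (nat_lit 316))))) (XT.nd (nat_lit 234) (nat_lit 532) (nat_lit 0) (XT.nd (nat_lit 78) (nat_lit 1064) (nat_lit 0) (XT.lf (nat_lit 0) (nat_lit 9284254864) (nat_lit 684) (nat_lit 3160185544) (nat_lit 76) (nat_lit 20502248713) (nat_lit 256) (nat_lit 5) (nat_lit 265) (nat_lit 5) (nat_lit 257) (nat_lit 5) (nat_lit 654) (nat_lit 591) (nat_lit 315)) (XT.nd (nat_lit 78) (nat_lit 532) (nat_lit 0) (XT.lf (nat_lit 0) (nat_lit 15571544140) (nat_lit 608)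 (nat_lit 16811674572) (nat_lit 76) (nat_lit 952518779) (nat_lit 249) (nat_lit 5) (nat_lit 257) (nat_lit 5) (nat_lit 250) (nat_lit 5) (nat_lit 655) (nat_lit 591) (nat_lit 314)) (XT.lf (nat_lit 0) (nat_lit 2864558448) (nat_lit 532) (nat_lit 19240060448) (nat_lit 608) (nat_lit 11625547188) (nat_lit 242) (nat_lit 5) (nat_lit 249) (nat_lit 5) (nat_lit 250) (nat_lit 5) (nat_lit 656) (nat_lit 591) (nat_lit 313)))) (XT.nd (nat_lit 78) (nat_lit 532) (nat_lit 0) (XT.lf (nat_lit 0) (nat_lit 23159075912) (nat_lit 532) (nat_lit 5719800214) (nat_lit 608) (nat_lit 5251396750) (nat_lit 242) (nat_lit 5) (nat_lit 249) (nat_lit 5) (nat_lit 250) (nat_lit 5) (nat_lit 657) (nat_lit 591) (nat_lit 312)) (XT.nd (nat_lit 78) (nat_lit 0) (nat_lit 0) (XT.lf (nat_lit 0) (nat_lit 1345680117) (nat_lit 532) (nat_lit 25156282832) (nat_lit 76) (nat_lit 8034019744) (nat_lit 235) (nat_lit 5) (nat_lit 242) (nat_lit 5) (nat_lit 236) (nat_lit 5) (nat_lit 658) (nat_lit 591) (nat_lit 311)) (XT.lf (nat_lit 0) (nat_lit 8114192433) (nat_lit 532) (nat_lit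 4738261431) (nat_lit 76) (nat_lit 22094462450) (nat_lit 235) (nat_lit 5) (nat_lit 242) (nat_lit 5) (nat_lit 236) (nat_lit 5) (nat_lit 659) (nat_lit 591) (nat_lit 310))))))))
noncomputable def xc184 : XT := (XT.nd (nat_lit 77844) (nat_lit 0) (nat_lit 13452) (XT.nd (nat_lit 780) (nat_lit 1672) (nat_lit 0) (XT.nd (nat_lit 390) (nat_lit 1368) (nat_lit 0) (XT.nd (nat_lit 156) (nat_lit 532) (nat_lit 0) (XT.nd (nat_lit 78) (nat_lit 456) (nat_lit 0) (XT.lf (nat_lit 0) (nat_lit 15129339389) (nat_lit 608) (nat_lit 19072810160) (nat_lit 76) (nat_lit 1161693814) (nat_lit 228) (nat_lit 5) (nat_lit 236) (nat_lit 5) (nat_lit 229) (nat_lit 5) (nat_lit 660) (nat_lit 591) (nat_lit 309)) (XT.lf (nat_lit 0) (nat_lit 1953896995) (nat_lit 456) (nat_lit 20458517442) (nat_lit 532) (nat_lit 13374142057) (nat_lit 222) (nat_lit 5) (nat_lit 228) (nat_lit 5) (nat_lit 229) (nat_lit 5) (nat_lit 661) (nat_lit 591) (nat_lit 308))) (XT.nd (nat_lit 78) (nat_lit 532) (nat_lit 0) (XT.lf (nat_lit 0) (nat_lit 23656623825) (nat_lit 456) (nat_lit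 6310355521) (nat_lit 532) (nat_lit 6248228016) (nat_lit 222) (nat_lit 5) (nat_lit 228) (nat_lit 5) (nat_lit 229) (nat_lit 5) (nat_lit 662) (nat_lit 591) (nat_lit 307)) (XT.nd (nat_lit 78) (nat_lit 0) (nat_lit 0) (XT.lf (nat_lit 0) (nat_lit 1117928107) (nat_lit 532) (nat_lit 27451620628) (nat_lit 76) (nat_lit 8080527997) (nat_lit 215) (nat_lit 5) (nat_lit 222) (nat_lit 5) (nat_lit 216) (nat_lit 5) (nat_lit 663) (nat_lit 591) (nat_lit 306)) (XT.lf (nat_lit 0) (nat_lit 8672329637) (nat_lit 532) (nat_lit 5617850641) (nat_lit 76) (nat_lit 22800145515) (nat_lit 215) (nat_lit 5) (nat_lit 222) (nat_lit 5) (nat_lit 216) (nat_lit 5) (nat_lit 664) (nat_lit 591) (nat_lit 305))))) (XT.nd (nat_lit 156) (nat_lit 456) (nat_lit 0) (XT.nd (nat_lit 78) (nat_lit 456) (nat_lit 0) (XT.lf (nat_lit 0) (nat_lit 16487785806) (nat_lit 532) (nat_lit 20668851797) (nat_lit 76) (nat_lit 380542939) (nat_lit 209) (nat_lit 5) (nat_lit 216) (nat_lit 5) (nat_lit 210) (nat_lit 5) (nat_lit 665) (nat_lit 591) (nat_lit 304)) (XT.lf (nat_lit 0)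 (nat_lit 1814077449) (nat_lit 456) (nat_lit 22787778860) (nat_lit 532) (nat_lit 13388270011) (nat_lit 203) (nat_lit 5) (nat_lit 209) (nat_lit 5) (nat_lit 210) (nat_lit 5) (nat_lit 666) (nat_lit 591) (nat_lit 303))) (XT.nd (nat_lit 78) (nat_lit 456) (nat_lit 0) (XT.lf (nat_lit 0) (nat_lit 25023864056) (nat_lit 456) (nat_lit 7991005763) (nat_lit 532) (nat_lit 5434528000) (nat_lit 203) (nat_lit 5) (nat_lit 209) (nat_lit 5) (nat_lit 210) (nat_lit 5) (nat_lit 667) (nat_lit 591) (nat_lit 302)) (XT.nd (nat_lit 78) (nat_lit 0) (nat_lit 0) (XT.lf (nat_lit 0) (nat_lit 2752003615) (nat_lit 456) (nat_lit 29073544586) (nat_lit 76) (nat_lit 7089781978) (nat_lit 197) (nat_lit 5) (nat_lit 203) (nat_lit 5) (nat_lit 198) (nat_lit 5) (nat_lit 668) (nat_lit 591) (nat_lit 301)) (XT.lf (nat_lit 0) (nat_lit 11171178966) (nat_lit 456) (nat_lit 5724804664) (nat_lit 76) (nat_lit 22491045520) (nat_lit 197) (nat_lit 5) (nat_lit 203) (nat_lit 5) (nat_lit 198) (nat_lit 5) (nat_lit 669) (nat_lit 591) (nat_lit 300)))))) (XT.nd (nat_lit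 76674) (nat_lit 0) (nat_lit 24016) (XT.nd (nat_lit 156) (nat_lit 836) (nat_lit 0) (XT.nd (nat_lit 78) (nat_lit 380) (nat_lit 0) (XT.lf (nat_lit 0) (nat_lit 18328392325) (nat_lit 456) (nat_lit 1547388526) (nat_lit 532) (nat_lit 19990040422) (nat_lit 191) (nat_lit 5) (nat_lit 197) (nat_lit 5) (nat_lit 198) (nat_lit 5) (nat_lit 670) (nat_lit 591) (nat_lit 299)) (XT.lf (nat_lit 0) (nat_lit 2525186288) (nat_lit 380) (nat_lit 26374010707) (nat_lit 456) (nat_lit 11452097834) (nat_lit 186) (nat_lit 5) (nat_lit 191) (nat_lit 5) (nat_lit 192) (nat_lit 5) (nat_lit 671) (nat_lit 591) (nat_lit 298))) (XT.nd (nat_lit 156) (nat_lit 836) (nat_lit 0) (XT.lf (nat_lit 0) (nat_lit 27347723217) (nat_lit 380) (nat_lit 10908141763) (nat_lit 456) (nat_lit 2587557240) (nat_lit 186) (nat_lit 5) (nat_lit 191) (nat_lit 5) (nat_lit 192) (nat_lit 5) (nat_lit 672) (nat_lit 591) (nat_lit 297)) (XT.nd (nat_lit 78) (nat_lit 380) (nat_lit 0) (XT.lf (nat_lit 0) (nat_lit 15844248370) (nat_lit 456) (nat_lit 4979295474) (nat_lit 76) (nat_lit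 21024363802) (nat_lit 180) (nat_lit 5) (nat_lit 186) (nat_lit 5) (nat_lit 181) (nat_lit 5) (nat_lit 674) (nat_lit 591) (nat_lit 295)) (XT.lf (nat_lit 0) (nat_lit 20759308388) (nat_lit 380) (nat_lit 4775244797) (nat_lit 456) (nat_lit 16826251344) (nat_lit 175) (nat_lit 5) (nat_lit 180) (nat_lit 5) (nat_lit 181) (nat_lit 5) (nat_lit 675) (nat_lit 591) (nat_lit 294))))) (XT.nd (nat_lit 156) (nat_lit 0) (nat_lit 0) (XT.nd (nat_lit 78) (nat_lit 0) (nat_lit 0) (XT.lf (nat_lit 0) (nat_lit 13681263401) (nat_lit 1824) (nat_lit 6000780070) (nat_lit 1900) (nat_lit 1154428335) (nat_lit 491) (nat_lit 5) (nat_lit 515) (nat_lit 5) (nat_lit 516) (nat_lit 5) (nat_lit 612) (nat_lit 592) (nat_lit 356)) (XT.lf (nat_lit 76) (nat_lit 5143019678) (nat_lit 0) (nat_lit 10241344853) (nat_lit 1900) (nat_lit 5670406753) (nat_lit 492) (nat_lit 5) (nat_lit 491) (nat_lit 5) (nat_lit 516) (nat_lit 5) (nat_lit 613) (nat_lit 592) (nat_lit 355))) (XT.nd (nat_lit 78) (nat_lit 0) (nat_lit 76) (XT.lf (nat_lit 76) (nat_lit 16587646154) (nat_lit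 0) (nat_lit 569972685) (nat_lit 1900) (nat_lit 4119096213) (nat_lit 492) (nat_lit 5) (nat_lit 491) (nat_lit 5) (nat_lit 516) (nat_lit 5) (nat_lit 614) (nat_lit 592) (nat_lit 354)) (XT.nd (nat_lit 78) (nat_lit 0) (nat_lit 0) (XT.lf (nat_lit 76) (nat_lit 6783271148) (nat_lit 0) (nat_lit 12283366432) (nat_lit 1900) (nat_lit 2434454250) (nat_lit 493) (nat_lit 5) (nat_lit 492) (nat_lit 5) (nat_lit 517) (nat_lit 5) (nat_lit 615) (nat_lit 592) (nat_lit 353)) (XT.lf (nat_lit 76) (nat_lit 18541405238) (nat_lit 0) (nat_lit 2503615265) (nat_lit 1900) (nat_lit 684312083) (nat_lit 493) (nat_lit 5) (nat_lit 492) (nat_lit 5) (nat_lit 517) (nat_lit 5) (nat_lit 616) (nat_lit 592) (nat_lit 352))))))) (XT.nd (nat_lit 780) (nat_lit 4104) (nat_lit 0) (XT.nd (nat_lit 390) (nat_lit 2660) (nat_lit 0) (XT.nd (nat_lit 156) (nat_lit 2052) (nat_lit 0) (XT.nd (nat_lit 78) (nat_lit 0) (nat_lit 0) (XT.lf (nat_lit 0) (nat_lit 1187680875) (nat_lit 1900) (nat_lit 13334058570) (nat_lit 76) (nat_lit 7438230167) (nat_lit 468) (nat_lit 5) (nat_lit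 493) (nat_lit 5) (nat_lit 469) (nat_lit 5) (nat_lit 617) (nat_lit 592) (nat_lit 351)) (XT.lf (nat_lit 0) (nat_lit 3122154478) (nat_lit 1900) (nat_lit 1500242006) (nat_lit 76) (nat_lit 17572048466) (nat_lit 468) (nat_lit 5) (nat_lit 493) (nat_lit 5) (nat_lit 469) (nat_lit 5) (nat_lit 618) (nat_lit 592) (nat_lit 350))) (XT.nd (nat_lit 78) (nat_lit 912) (nat_lit 0) (XT.lf (nat_lit 0) (nat_lit 5197004312) (nat_lit 1216) (nat_lit 11760996280) (nat_lit 76) (nat_lit 5473575577) (nat_lit 453) (nat_lit 5) (nat_lit 469) (nat_lit 5) (nat_lit 454) (nat_lit 5) (nat_lit 619) (nat_lit 592) (nat_lit 349)) (XT.nd (nat_lit 78) (nat_lit 0) (nat_lit 0) (XT.lf (nat_lit 0) (nat_lit 403088419) (nat_lit 912) (nat_lit 6949839744) (nat_lit 988) (nat_lit 15319730417) (nat_lit 441) (nat_lit 5) (nat_lit 453) (nat_lit 5) (nat_lit 454) (nat_lit 5) (nat_lit 620) (nat_lit 592) (nat_lit 348)) (XT.lf (nat_lit 0) (nat_lit 9648840088) (nat_lit 988) (nat_lit 9972264607) (nat_lit 76) (nat_lit 3295520657) (nat_lit 441) (nat_lit 5) (nat_lit 454)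 (nat_lit 5) (nat_lit 442) (nat_lit 5) (nat_lit 621) (nat_lit 592) (nat_lit 347))))) (XT.nd (nat_lit 156) (nat_lit 1748) (nat_lit 0) (XT.nd (nat_lit 78) (nat_lit 0) (nat_lit 0) (XT.lf (nat_lit 0) (nat_lit 2555060211) (nat_lit 912) (nat_lit 9494566001) (nat_lit 988) (nat_lit 11114666232) (nat_lit 429) (nat_lit 5) (nat_lit 441) (nat_lit 5) (nat_lit 442) (nat_lit 5) (nat_lit 622) (nat_lit 592) (nat_lit 346)) (XT.lf (nat_lit 0) (nat_lit 14567601074) (nat_lit 988) (nat_lit 7956790376) (nat_lit 76) (nat_lit 891138068) (nat_lit 429) (nat_lit 5) (nat_lit 442) (nat_lit 5) (nat_lit 430) (nat_lit 5) (nat_lit 623) (nat_lit 592) (nat_lit 345))) (XT.nd (nat_lit 78) (nat_lit 912) (nat_lit 0) (XT.lf (nat_lit 0) (nat_lit 4947312433) (nat_lit 836) (nat_lit 12280085436) (nat_lit 912) (nat_lit 6442564316) (nat_lit 418) (nat_lit 5) (nat_lit 429) (nat_lit 5) (nat_lit 430) (nat_lit 5) (nat_lit 624) (nat_lit 592) (nat_lit 344)) (XT.nd (nat_lit 78) (nat_lit 912) (nat_lit 0) (XT.lf (nat_lit 0) (nat_lit 18213981163) (nat_lit 836) (nat_lit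 1776314420) (nat_lit 912) (nat_lit 3938189918) (nat_lit 418) (nat_lit 5) (nat_lit 429) (nat_lit 5) (nat_lit 430) (nat_lit 5) (nat_lit 625) (nat_lit 592) (nat_lit 343)) (XT.lf (nat_lit 0) (nat_lit 7591969997) (nat_lit 912) (nat_lit 15320381639) (nat_lit 988) (nat_lit 1277749736) (nat_lit 406) (nat_lit 5) (nat_lit 418) (nat_lit 5) (nat_lit 419) (nat_lit 5) (nat_lit 626) (nat_lit 592) (nat_lit 342)))))) (XT.nd (nat_lit 390) (nat_lit 1596) (nat_lit 0) (XT.nd (nat_lit 156) (nat_lit 1596) (nat_lit 0) (XT.nd (nat_lit 78) (nat_lit 836) (nat_lit 0) (XT.lf (nat_lit 0) (nat_lit 1464034869) (nat_lit 988) (nat_lit 3238886303) (nat_lit 76) (nat_lit 19752902670) (nat_lit 405) (nat_lit 5) (nat_lit 418) (nat_lit 5) (nat_lit 406) (nat_lit 5) (nat_lit 627) (nat_lit 592) (nat_lit 341)) (XT.lf (nat_lit 0) (nat_lit 4348780873) (nat_lit 912) (nat_lit 14252042950) (nat_lit 76) (nat_lit 6123763415) (nat_lit 394) (nat_lit 5) (nat_lit 406) (nat_lit 5) (nat_lit 395) (nat_lit 5) (nat_lit 628) (nat_lit 592) (nat_lit 340))) (XT.nd (nat_lit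 78) (nat_lit 1596) (nat_lit 0) (XT.lf (nat_lit 0) (nat_lit 7340958555) (nat_lit 912) (nat_lit 530848665) (nat_lit 76) (nat_lit 17125924034) (nat_lit 394) (nat_lit 5) (nat_lit 406) (nat_lit 5) (nat_lit 395) (nat_lit 5) (nat_lit 629) (nat_lit 592) (nat_lit 339)) (XT.nd (nat_lit 78) (nat_lit 760) (nat_lit 0) (XT.lf (nat_lit 0) (nat_lit 10498849529) (nat_lit 912) (nat_lit 11654805857) (nat_lit 76) (nat_lit 3120565454) (nat_lit 383) (nat_lit 5) (nat_lit 395) (nat_lit 5) (nat_lit 384) (nat_lit 5) (nat_lit 630) (nat_lit 592) (nat_lit 338)) (XT.lf (nat_lit 0) (nat_lit 2480740487) (nat_lit 760) (nat_lit 11307800099) (nat_lit 836) (nat_lit 11766326874) (nat_lit 373) (nat_lit 5) (nat_lit 383) (nat_lit 5) (nat_lit 384) (nat_lit 5) (nat_lit 631) (nat_lit 592) (nat_lit 337))))) (XT.nd (nat_lit 156) (nat_lit 836) (nat_lit 0) (XT.nd (nat_lit 78) (nat_lit 760) (nat_lit 0) (XT.lf (nat_lit 0) (nat_lit 17053652934) (nat_lit 760) (nat_lit 165441790) (nat_lit 836) (nat_lit 8620530985) (nat_lit 373) (nat_lit 5) (nat_lit 383) (nat_lit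 5) (nat_lit 384) (nat_lit 5) (nat_lit 632) (nat_lit 592) (nat_lit 336)) (XT.lf (nat_lit 0) (nat_lit 5787812432) (nat_lit 760) (nat_lit 15037661886) (nat_lit 836) (nat_lit 5302460599) (nat_lit 363) (nat_lit 5) (nat_lit 373) (nat_lit 5) (nat_lit 374) (nat_lit 5) (nat_lit 633) (nat_lit 592) (nat_lit 335))) (XT.nd (nat_lit 78) (nat_lit 836) (nat_lit 0) (XT.lf (nat_lit 0) (nat_lit 20767757205) (nat_lit 760) (nat_lit 3793229953) (nat_lit 836) (nat_lit 1859883118) (nat_lit 363) (nat_lit 5) (nat_lit 373) (nat_lit 5) (nat_lit 374) (nat_lit 5) (nat_lit 634) (nat_lit 592) (nat_lit 334)) (XT.nd (nat_lit 78) (nat_lit 0) (nat_lit 0) (XT.lf (nat_lit 0) (nat_lit 1738471323) (nat_lit 836) (nat_lit 17331188198) (nat_lit 76) (nat_lit 7647618724) (nat_lit 352) (nat_lit 5) (nat_lit 363) (nat_lit 5) (nat_lit 353) (nat_lit 5) (nat_lit 635) (nat_lit 592) (nat_lit 333)) (XT.lf (nat_lit 0) (nat_lit 5444253965) (nat_lit 836) (nat_lit 2257151286) (nat_lit 76) (nat_lit 19316756024) (nat_lit 352) (nat_lit 5) (nat_lit 363) (nat_lit 5)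 (nat_lit 353) (nat_lit 5) (nat_lit 636) (nat_lit 592) (nat_lit 332))))))))
noncomputable def xc185 : XT := (XT.nd (nat_lit 1560) (nat_lit 5244) (nat_lit 0) (XT.nd (nat_lit 780) (nat_lit 3648) (nat_lit 0) (XT.nd (nat_lit 390) (nat_lit 2052) (nat_lit 0) (XT.nd (nat_lit 156) (nat_lit 684) (nat_lit 0) (XT.nd (nat_lit 78) (nat_lit 684) (nat_lit 0) (XT.lf (nat_lit 0) (nat_lit 9333381451) (nat_lit 836) (nat_lit 14059836413) (nat_lit 76) (nat_lit 3929659589) (nat_lit 342) (nat_lit 5) (nat_lit 353) (nat_lit 5) (nat_lit 343) (nat_lit 5) (nat_lit 637) (nat_lit 592) (nat_lit 331)) (XT.lf (nat_lit 0) (nat_lit 1455553240) (nat_lit 684) (nat_lit 11917564578) (nat_lit 760) (nat_lit 14259113683) (nat_lit 333) (nat_lit 5) (nat_lit 342) (nat_lit 5) (nat_lit 343) (nat_lit 5) (nat_lit 638) (nat_lit 592) (nat_lit 330))) (XT.nd (nat_lit 78) (nat_lit 684) (nat_lit 0) (XT.lf (nat_lit 0) (nat_lit 17468574983) (nat_lit 684) (nat_lit 116584259) (nat_lit 760) (nat_lit 10360783253) (nat_lit 333) (nat_lit 5) (nat_lit 342) (nat_lit 5)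 (nat_lit 343) (nat_lit 5) (nat_lit 639) (nat_lit 592) (nat_lit 329)) (XT.nd (nat_lit 78) (nat_lit 0) (nat_lit 0) (XT.lf (nat_lit 0) (nat_lit 5527782470) (nat_lit 684) (nat_lit 16464158699) (nat_lit 760) (nat_lit 6271776615) (nat_lit 324) (nat_lit 5) (nat_lit 333) (nat_lit 5) (nat_lit 334) (nat_lit 5) (nat_lit 640) (nat_lit 592) (nat_lit 328)) (XT.lf (nat_lit 0) (nat_lit 21991048365) (nat_lit 684) (nat_lit 4564134081) (nat_lit 760) (nat_lit 2031299727) (nat_lit 324) (nat_lit 5) (nat_lit 333) (nat_lit 5) (nat_lit 334) (nat_lit 5) (nat_lit 641) (nat_lit 592) (nat_lit 327))))) (XT.nd (nat_lit 156) (nat_lit 1292) (nat_lit 0) (XT.nd (nat_lit 78) (nat_lit 0) (nat_lit 0) (XT.lf (nat_lit 0) (nat_lit 2375685294) (nat_lit 760) (nat_lit 18983180694) (nat_lit 76) (nat_lit 7554302352) (nat_lit 314) (nat_lit 5) (nat_lit 324) (nat_lit 5) (nat_lit 315) (nat_lit 5) (nat_lit 642) (nat_lit 592) (nat_lit 326)) (XT.lf (nat_lit 0) (nat_lit 6915727795) (nat_lit 760) (nat_lit 2417384682) (nat_lit 76) (nat_lit 19911564942) (nat_lit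 314) (nat_lit 5) (nat_lit 324) (nat_lit 5) (nat_lit 315) (nat_lit 5) (nat_lit 643) (nat_lit 592) (nat_lit 325))) (XT.nd (nat_lit 78) (nat_lit 608) (nat_lit 0) (XT.lf (nat_lit 0) (nat_lit 11658849082) (nat_lit 760) (nat_lit 14931689942) (nat_lit 76) (nat_lit 2990032160) (nat_lit 305) (nat_lit 5) (nat_lit 315) (nat_lit 5) (nat_lit 306) (nat_lit 5) (nat_lit 644) (nat_lit 592) (nat_lit 324)) (XT.nd (nat_lit 78) (nat_lit 0) (nat_lit 0) (XT.lf (nat_lit 0) (nat_lit 2129196124) (nat_lit 608) (nat_lit 14456992699) (nat_lit 684) (nat_lit 13335206944) (nat_lit 297) (nat_lit 5) (nat_lit 305) (nat_lit 5) (nat_lit 306) (nat_lit 5) (nat_lit 645) (nat_lit 592) (nat_lit 323)) (XT.lf (nat_lit 0) (nat_lit 19730528989) (nat_lit 608) (nat_lit 1979170192) (nat_lit 684) (nat_lit 8557385242) (nat_lit 297) (nat_lit 5) (nat_lit 305) (nat_lit 5) (nat_lit 306) (nat_lit 5) (nat_lit 646) (nat_lit 592) (nat_lit 322)))))) (XT.nd (nat_lit 390) (nat_lit 1748) (nat_lit 0) (XT.nd (nat_lit 156) (nat_lit 1216) (nat_lit 0) (XT.nd (nat_lit 78)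 (nat_lit 76) (nat_lit 0) (XT.lf (nat_lit 0) (nat_lit 7084168874) (nat_lit 608) (nat_lit 19964761517) (nat_lit 684) (nat_lit 3568491510) (nat_lit 289) (nat_lit 5) (nat_lit 297) (nat_lit 5) (nat_lit 298) (nat_lit 5) (nat_lit 647) (nat_lit 592) (nat_lit 321)) (XT.lf (nat_lit 0) (nat_lit 1582007455) (nat_lit 684) (nat_lit 5799835065) (nat_lit 76) (nat_lit 23591090967) (nat_lit 288) (nat_lit 5) (nat_lit 297) (nat_lit 5) (nat_lit 289) (nat_lit 5) (nat_lit 648) (nat_lit 592) (nat_lit 320))) (XT.nd (nat_lit 78) (nat_lit 608) (nat_lit 0) (XT.lf (nat_lit 0) (nat_lit 6902069091) (nat_lit 684) (nat_lit 18945149128) (nat_lit 76) (nat_lit 5485578693) (nat_lit 280) (nat_lit 5) (nat_lit 289) (nat_lit 5) (nat_lit 281) (nat_lit 5) (nat_lit 649) (nat_lit 592) (nat_lit 319)) (XT.nd (nat_lit 78) (nat_lit 608) (nat_lit 0) (XT.lf (nat_lit 0) (nat_lit 12414153094) (nat_lit 684) (nat_lit 733857874) (nat_lit 76) (nat_lit 18550134269) (nat_lit 280) (nat_lit 5) (nat_lit 289) (nat_lit 5) (nat_lit 281) (nat_lit 5) (nat_lit 650) (nat_lit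 592) (nat_lit 318)) (XT.lf (nat_lit 0) (nat_lit 18075652951) (nat_lit 608) (nat_lit 75789920) (nat_lit 684) (nat_lit 13917058429) (nat_lit 272) (nat_lit 5) (nat_lit 280) (nat_lit 5) (nat_lit 281) (nat_lit 5) (nat_lit 651) (nat_lit 592) (nat_lit 317))))) (XT.nd (nat_lit 156) (nat_lit 1216) (nat_lit 0) (XT.nd (nat_lit 78) (nat_lit 0) (nat_lit 0) (XT.lf (nat_lit 0) (nat_lit 4798867657) (nat_lit 532) (nat_lit 19324432005) (nat_lit 608) (nat_lit 8320568451) (nat_lit 265) (nat_lit 5) (nat_lit 272) (nat_lit 5) (nat_lit 273) (nat_lit 5) (nat_lit 652) (nat_lit 592) (nat_lit 316)) (XT.lf (nat_lit 0) (nat_lit 24152512038) (nat_lit 532) (nat_lit 6154133780) (nat_lit 608) (nat_lit 2518255450) (nat_lit 265) (nat_lit 5) (nat_lit 272) (nat_lit 5) (nat_lit 273) (nat_lit 5) (nat_lit 653) (nat_lit 592) (nat_lit 315))) (XT.nd (nat_lit 78) (nat_lit 532) (nat_lit 0) (XT.lf (nat_lit 0) (nat_lit 3471161005) (nat_lit 684) (nat_lit 22463480215) (nat_lit 76) (nat_lit 7276159400) (nat_lit 256) (nat_lit 5) (nat_lit 265) (nat_lit 5)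 (nat_lit 257) (nat_lit 5) (nat_lit 654) (nat_lit 592) (nat_lit 314)) (XT.nd (nat_lit 78) (nat_lit 532) (nat_lit 0) (XT.lf (nat_lit 0) (nat_lit 9643721355) (nat_lit 684) (nat_lit 2991157393) (nat_lit 76) (nat_lit 20967264844) (nat_lit 256) (nat_lit 5) (nat_lit 265) (nat_lit 5) (nat_lit 257) (nat_lit 5) (nat_lit 655) (nat_lit 592) (nat_lit 313)) (XT.lf (nat_lit 0) (nat_lit 16055228800) (nat_lit 608) (nat_lit 16914144974) (nat_lit 76) (nat_lit 1029629780) (nat_lit 249) (nat_lit 5) (nat_lit 257) (nat_lit 5) (nat_lit 250) (nat_lit 5) (nat_lit 656) (nat_lit 592) (nat_lit 312))))))) (XT.nd (nat_lit 780) (nat_lit 2204) (nat_lit 0) (XT.nd (nat_lit 390) (nat_lit 1444) (nat_lit 0) (XT.nd (nat_lit 156) (nat_lit 1064) (nat_lit 0) (XT.nd (nat_lit 78) (nat_lit 0) (nat_lit 0) (XT.lf (nat_lit 0) (nat_lit 3154074791) (nat_lit 532) (nat_lit 19563020494) (nat_lit 608) (nat_lit 11684262900) (nat_lit 242) (nat_lit 5) (nat_lit 249) (nat_lit 5) (nat_lit 250) (nat_lit 5) (nat_lit 657) (nat_lit 592) (nat_lit 311)) (XT.lf (nat_lit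 0) (nat_lit 23849929169) (nat_lit 532) (nat_lit 5773567628) (nat_lit 608) (nat_lit 5186037203) (nat_lit 242) (nat_lit 5) (nat_lit 249) (nat_lit 5) (nat_lit 250) (nat_lit 5) (nat_lit 658) (nat_lit 592) (nat_lit 310))) (XT.nd (nat_lit 78) (nat_lit 532) (nat_lit 0) (XT.lf (nat_lit 0) (nat_lit 1539335257) (nat_lit 532) (nat_lit 25428084066) (nat_lit 76) (nat_lit 8255944857) (nat_lit 235) (nat_lit 5) (nat_lit 242) (nat_lit 5) (nat_lit 236) (nat_lit 5) (nat_lit 659) (nat_lit 592) (nat_lit 309)) (XT.nd (nat_lit 78) (nat_lit 532) (nat_lit 0) (XT.lf (nat_lit 0) (nat_lit 8439948378) (nat_lit 532) (nat_lit 4606238010) (nat_lit 76) (nat_lit 22596395540) (nat_lit 235) (nat_lit 5) (nat_lit 242) (nat_lit 5) (nat_lit 236) (nat_lit 5) (nat_lit 660) (nat_lit 592) (nat_lit 308)) (XT.lf (nat_lit 0) (nat_lit 15594068432) (nat_lit 608) (nat_lit 19226144667) (nat_lit 76) (nat_lit 1247661079) (nat_lit 228) (nat_lit 5) (nat_lit 236) (nat_lit 5) (nat_lit 229) (nat_lit 5) (nat_lit 661) (nat_lit 592) (nat_lit 307))))) (XT.nd (nat_lit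 156) (nat_lit 988) (nat_lit 0) (XT.nd (nat_lit 78) (nat_lit 0) (nat_lit 0) (XT.lf (nat_lit 0) (nat_lit 2219595830) (nat_lit 456) (nat_lit 20801501264) (nat_lit 532) (nat_lit 13477978699) (nat_lit 222) (nat_lit 5) (nat_lit 228) (nat_lit 5) (nat_lit 229) (nat_lit 5) (nat_lit 662) (nat_lit 592) (nat_lit 306)) (XT.lf (nat_lit 0) (nat_lit 24351933650) (nat_lit 456) (nat_lit 6371673879) (nat_lit 532) (nat_lit 6212755126) (nat_lit 222) (nat_lit 5) (nat_lit 228) (nat_lit 5) (nat_lit 229) (nat_lit 5) (nat_lit 663) (nat_lit 592) (nat_lit 305))) (XT.nd (nat_lit 78) (nat_lit 456) (nat_lit 0) (XT.lf (nat_lit 0) (nat_lit 1297391387) (nat_lit 532) (nat_lit 27775136975) (nat_lit 76) (nat_lit 8307404849) (nat_lit 215) (nat_lit 5) (nat_lit 222) (nat_lit 5) (nat_lit 216) (nat_lit 5) (nat_lit 664) (nat_lit 592) (nat_lit 304)) (XT.nd (nat_lit 78) (nat_lit 456) (nat_lit 0) (XT.lf (nat_lit 0) (nat_lit 8999800463) (nat_lit 532) (nat_lit 5509113472) (nat_lit 76) (nat_lit 23320134986) (nat_lit 215) (nat_lit 5) (nat_lit 222) (nat_lit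 5) (nat_lit 216) (nat_lit 5) (nat_lit 665) (nat_lit 592) (nat_lit 303)) (XT.lf (nat_lit 0) (nat_lit 16970408087) (nat_lit 532) (nat_lit 20859974135) (nat_lit 76) (nat_lit 454481753) (nat_lit 209) (nat_lit 5) (nat_lit 216) (nat_lit 5) (nat_lit 210) (nat_lit 5) (nat_lit 666) (nat_lit 592) (nat_lit 302)))))) (XT.nd (nat_lit 390) (nat_lit 836) (nat_lit 0) (XT.nd (nat_lit 156) (nat_lit 912) (nat_lit 0) (XT.nd (nat_lit 78) (nat_lit 0) (nat_lit 0) (XT.lf (nat_lit 0) (nat_lit 2071151494) (nat_lit 456) (nat_lit 23174044653) (nat_lit 532) (nat_lit 13501703854) (nat_lit 203) (nat_lit 5) (nat_lit 209) (nat_lit 5) (nat_lit 210) (nat_lit 5) (nat_lit 667) (nat_lit 592) (nat_lit 301)) (XT.lf (nat_lit 0) (nat_lit 25740804569) (nat_lit 456) (nat_lit 8082698639) (nat_lit 532) (nat_lit 5391913111) (nat_lit 203) (nat_lit 5) (nat_lit 209) (nat_lit 5) (nat_lit 210) (nat_lit 5) (nat_lit 668) (nat_lit 592) (nat_lit 300))) (XT.nd (nat_lit 78) (nat_lit 456) (nat_lit 0) (XT.lf (nat_lit 0) (nat_lit 2955295231) (nat_lit 456) (nat_lit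 29435493028) (nat_lit 76) (nat_lit 7299880863) (nat_lit 197) (nat_lit 5) (nat_lit 203) (nat_lit 5) (nat_lit 198) (nat_lit 5) (nat_lit 669) (nat_lit 592) (nat_lit 299)) (XT.nd (nat_lit 78) (nat_lit 456) (nat_lit 0) (XT.lf (nat_lit 0) (nat_lit 11539947196) (nat_lit 456) (nat_lit 5624082670) (nat_lit 76) (nat_lit 23007830396) (nat_lit 197) (nat_lit 5) (nat_lit 203) (nat_lit 5) (nat_lit 198) (nat_lit 5) (nat_lit 670) (nat_lit 592) (nat_lit 298)) (XT.lf (nat_lit 0) (nat_lit 18908762352) (nat_lit 456) (nat_lit 1508417018) (nat_lit 532) (nat_lit 20243078144) (nat_lit 191) (nat_lit 5) (nat_lit 197) (nat_lit 5) (nat_lit 198) (nat_lit 5) (nat_lit 671) (nat_lit 592) (nat_lit 297))))) (XT.nd (nat_lit 76440) (nat_lit 0) (nat_lit 23560) (XT.nd (nat_lit 156) (nat_lit 456) (nat_lit 0) (XT.lf (nat_lit 0) (nat_lit 2790495862) (nat_lit 380) (nat_lit 26829586463) (nat_lit 456) (nat_lit 11535377894) (nat_lit 186) (nat_lit 5) (nat_lit 191) (nat_lit 5) (nat_lit 192) (nat_lit 5) (nat_lit 672) (nat_lit 592) (nat_lit 296)) (XT.nd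 (nat_lit 78) (nat_lit 0) (nat_lit 0) (XT.lf (nat_lit 0) (nat_lit 6743860866) (nat_lit 456) (nat_lit 30334636370) (nat_lit 76) (nat_lit 5088008728) (nat_lit 180) (nat_lit 5) (nat_lit 186) (nat_lit 5) (nat_lit 181) (nat_lit 5) (nat_lit 674) (nat_lit 592) (nat_lit 294)) (XT.lf (nat_lit 0) (nat_lit 16298484878) (nat_lit 456) (nat_lit 4869661839) (nat_lit 76) (nat_lit 21513969762) (nat_lit 180) (nat_lit 5) (nat_lit 186) (nat_lit 5) (nat_lit 181) (nat_lit 5) (nat_lit 675) (nat_lit 592) (nat_lit 293)))) (XT.nd (nat_lit 78) (nat_lit 0) (nat_lit 0) (XT.lf (nat_lit 0) (nat_lit 11127248981) (nat_lit 1824) (nat_lit 7016735974) (nat_lit 1900) (nat_lit 2665985002) (nat_lit 490) (nat_lit 5) (nat_lit 514) (nat_lit 5) (nat_lit 515) (nat_lit 5) (nat_lit 611) (nat_lit 593) (nat_lit 356)) (XT.nd (nat_lit 78) (nat_lit 0) (nat_lit 76) (XT.lf (nat_lit 76) (nat_lit 4028793057) (nat_lit 0) (nat_lit 8629238306) (nat_lit 1900) (nat_lit 8368736121) (nat_lit 491) (nat_lit 5) (nat_lit 490) (nat_lit 5) (nat_lit 515) (nat_lit 5) (nat_lit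 612) (nat_lit 593) (nat_lit 355)) (XT.lf (nat_lit 0) (nat_lit 14269656822) (nat_lit 1824) (nat_lit 5867256469) (nat_lit 1900) (nat_lit 1109983246) (nat_lit 491) (nat_lit 5) (nat_lit 515) (nat_lit 5) (nat_lit 516) (nat_lit 5) (nat_lit 613) (nat_lit 593) (nat_lit 354))))))))
noncomputable def xc186 : XT := (XT.nd (nat_lit 1560) (nat_lit 8208) (nat_lit 0) (XT.nd (nat_lit 780) (nat_lit 4256) (nat_lit 0) (XT.nd (nat_lit 390) (nat_lit 2964) (nat_lit 0) (XT.nd (nat_lit 156) (nat_lit 1748) (nat_lit 0) (XT.nd (nat_lit 78) (nat_lit 0) (nat_lit 0) (XT.lf (nat_lit 76) (nat_lit 5497751253) (nat_lit 0) (nat_lit 10504532112) (nat_lit 1900) (nat_lit 5467369555) (nat_lit 492) (nat_lit 5) (nat_lit 491) (nat_lit 5) (nat_lit 516) (nat_lit 5) (nat_lit 614) (nat_lit 593) (nat_lit 353)) (XT.lf (nat_lit 76) (nat_lit 17166331608) (nat_lit 0) (nat_lit 638588180) (nat_lit 1900) (nat_lit 3891237615) (nat_lit 492) (nat_lit 5) (nat_lit 491) (nat_lit 5) (nat_lit 516) (nat_lit 5) (nat_lit 615) (nat_lit 593) (nat_lit 352))) (XT.nd (nat_lit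 78) (nat_lit 1824) (nat_lit 0) (XT.lf (nat_lit 76) (nat_lit 7170665458) (nat_lit 0) (nat_lit 12576759939) (nat_lit 1900) (nat_lit 2177690366) (nat_lit 493) (nat_lit 5) (nat_lit 492) (nat_lit 5) (nat_lit 517) (nat_lit 5) (nat_lit 616) (nat_lit 593) (nat_lit 351)) (XT.nd (nat_lit 78) (nat_lit 1824) (nat_lit 0) (XT.lf (nat_lit 76) (nat_lit 19159026369) (nat_lit 0) (nat_lit 2600477941) (nat_lit 1900) (nat_lit 398534630) (nat_lit 493) (nat_lit 5) (nat_lit 492) (nat_lit 5) (nat_lit 517) (nat_lit 5) (nat_lit 617) (nat_lit 593) (nat_lit 350)) (XT.lf (nat_lit 0) (nat_lit 1502518526) (nat_lit 1900) (nat_lit 13345550297) (nat_lit 76) (nat_lit 7545270206) (nat_lit 468) (nat_lit 5) (nat_lit 493) (nat_lit 5) (nat_lit 469) (nat_lit 5) (nat_lit 618) (nat_lit 593) (nat_lit 349))))) (XT.nd (nat_lit 156) (nat_lit 1824) (nat_lit 0) (XT.nd (nat_lit 78) (nat_lit 1140) (nat_lit 0) (XT.lf (nat_lit 0) (nat_lit 3469974071) (nat_lit 1900) (nat_lit 1280061116) (nat_lit 76) (nat_lit 17882583000) (nat_lit 468) (nat_lit 5) (nat_lit 493)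 (nat_lit 5) (nat_lit 469) (nat_lit 5) (nat_lit 619) (nat_lit 593) (nat_lit 348)) (XT.lf (nat_lit 0) (nat_lit 5582125654) (nat_lit 1216) (nat_lit 11741827255) (nat_lit 76) (nat_lit 5550623186) (nat_lit 453) (nat_lit 5) (nat_lit 469) (nat_lit 5) (nat_lit 454) (nat_lit 5) (nat_lit 620) (nat_lit 593) (nat_lit 347))) (XT.nd (nat_lit 78) (nat_lit 912) (nat_lit 0) (XT.lf (nat_lit 0) (nat_lit 663865527) (nat_lit 912) (nat_lit 7113429893) (nat_lit 988) (nat_lit 15343262342) (nat_lit 441) (nat_lit 5) (nat_lit 453) (nat_lit 5) (nat_lit 454) (nat_lit 5) (nat_lit 621) (nat_lit 593) (nat_lit 346)) (XT.nd (nat_lit 78) (nat_lit 912) (nat_lit 0) (XT.lf (nat_lit 0) (nat_lit 10113531612) (nat_lit 988) (nat_lit 9918348128) (nat_lit 76) (nat_lit 3337636161) (nat_lit 441) (nat_lit 5) (nat_lit 454) (nat_lit 5) (nat_lit 442) (nat_lit 5) (nat_lit 622) (nat_lit 593) (nat_lit 345)) (XT.lf (nat_lit 0) (nat_lit 2857856332) (nat_lit 912) (nat_lit 9700783557) (nat_lit 988) (nat_lit 11063570467) (nat_lit 429) (nat_lit 5) (nat_lit 441)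 (nat_lit 5) (nat_lit 442) (nat_lit 5) (nat_lit 623) (nat_lit 593) (nat_lit 344)))))) (XT.nd (nat_lit 390) (nat_lit 2432) (nat_lit 0) (XT.nd (nat_lit 156) (nat_lit 988) (nat_lit 0) (XT.nd (nat_lit 78) (nat_lit 836) (nat_lit 0) (XT.lf (nat_lit 0) (nat_lit 15121615009) (nat_lit 988) (nat_lit 7863799856) (nat_lit 76) (nat_lit 893164639) (nat_lit 429) (nat_lit 5) (nat_lit 442) (nat_lit 5) (nat_lit 430) (nat_lit 5) (nat_lit 624) (nat_lit 593) (nat_lit 343)) (XT.lf (nat_lit 0) (nat_lit 5296726283) (nat_lit 836) (nat_lit 12534357425) (nat_lit 912) (nat_lit 6307087741) (nat_lit 418) (nat_lit 5) (nat_lit 429) (nat_lit 5) (nat_lit 430) (nat_lit 5) (nat_lit 625) (nat_lit 593) (nat_lit 342))) (XT.nd (nat_lit 78) (nat_lit 988) (nat_lit 0) (XT.lf (nat_lit 0) (nat_lit 18823817259) (nat_lit 836) (nat_lit 1820340984) (nat_lit 912) (nat_lit 3757808754) (nat_lit 418) (nat_lit 5) (nat_lit 429) (nat_lit 5) (nat_lit 430) (nat_lit 5) (nat_lit 626) (nat_lit 593) (nat_lit 341)) (XT.nd (nat_lit 78) (nat_lit 76) (nat_lit 0) (XT.lf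 (nat_lit 0) (nat_lit 7992859932) (nat_lit 912) (nat_lit 15628376873) (nat_lit 988) (nat_lit 1047646891) (nat_lit 406) (nat_lit 5) (nat_lit 418) (nat_lit 5) (nat_lit 419) (nat_lit 5) (nat_lit 627) (nat_lit 593) (nat_lit 340)) (XT.lf (nat_lit 0) (nat_lit 1740673254) (nat_lit 988) (nat_lit 3056202913) (nat_lit 76) (nat_lit 20143110327) (nat_lit 405) (nat_lit 5) (nat_lit 418) (nat_lit 5) (nat_lit 406) (nat_lit 5) (nat_lit 628) (nat_lit 593) (nat_lit 339))))) (XT.nd (nat_lit 156) (nat_lit 1596) (nat_lit 0) (XT.nd (nat_lit 78) (nat_lit 0) (nat_lit 0) (XT.lf (nat_lit 0) (nat_lit 4679871367) (nat_lit 912) (nat_lit 14286373341) (nat_lit 76) (nat_lit 6247945436) (nat_lit 394) (nat_lit 5) (nat_lit 406) (nat_lit 5) (nat_lit 395) (nat_lit 5) (nat_lit 629) (nat_lit 593) (nat_lit 338)) (XT.lf (nat_lit 0) (nat_lit 7727106037) (nat_lit 912) (nat_lit 295671062) (nat_lit 76) (nat_lit 17470115801) (nat_lit 394) (nat_lit 5) (nat_lit 406) (nat_lit 5) (nat_lit 395) (nat_lit 5) (nat_lit 630) (nat_lit 593) (nat_lit 337))) (XT.nd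 (nat_lit 78) (nat_lit 760) (nat_lit 0) (XT.lf (nat_lit 0) (nat_lit 10945099140) (nat_lit 912) (nat_lit 11639045421) (nat_lit 76) (nat_lit 3190828957) (nat_lit 383) (nat_lit 5) (nat_lit 395) (nat_lit 5) (nat_lit 384) (nat_lit 5) (nat_lit 631) (nat_lit 593) (nat_lit 336)) (XT.nd (nat_lit 78) (nat_lit 0) (nat_lit 0) (XT.lf (nat_lit 0) (nat_lit 2777574635) (nat_lit 760) (nat_lit 11519981698) (nat_lit 836) (nat_lit 11763737414) (nat_lit 373) (nat_lit 5) (nat_lit 383) (nat_lit 5) (nat_lit 384) (nat_lit 5) (nat_lit 632) (nat_lit 593) (nat_lit 335)) (XT.lf (nat_lit 0) (nat_lit 17637097893) (nat_lit 760) (nat_lit 155050230) (nat_lit 836) (nat_lit 8559690627) (nat_lit 373) (nat_lit 5) (nat_lit 383) (nat_lit 5) (nat_lit 384) (nat_lit 5) (nat_lit 633) (nat_lit 593) (nat_lit 334))))))) (XT.nd (nat_lit 780) (nat_lit 3724) (nat_lit 0) (XT.nd (nat_lit 390) (nat_lit 2128) (nat_lit 0) (XT.nd (nat_lit 156) (nat_lit 1596) (nat_lit 0) (XT.nd (nat_lit 78) (nat_lit 0) (nat_lit 0) (XT.lf (nat_lit 0) (nat_lit 6148807007) (nat_lit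 760) (nat_lit 15319044006) (nat_lit 836) (nat_lit 5178119334) (nat_lit 363) (nat_lit 5) (nat_lit 373) (nat_lit 5) (nat_lit 374) (nat_lit 5) (nat_lit 634) (nat_lit 593) (nat_lit 333)) (XT.lf (nat_lit 0) (nat_lit 21423542082) (nat_lit 760) (nat_lit 3850103260) (nat_lit 836) (nat_lit 1671207764) (nat_lit 363) (nat_lit 5) (nat_lit 373) (nat_lit 5) (nat_lit 374) (nat_lit 5) (nat_lit 635) (nat_lit 593) (nat_lit 332))) (XT.nd (nat_lit 78) (nat_lit 760) (nat_lit 0) (XT.lf (nat_lit 0) (nat_lit 1993491311) (nat_lit 836) (nat_lit 17431748499) (nat_lit 76) (nat_lit 7821973406) (nat_lit 352) (nat_lit 5) (nat_lit 363) (nat_lit 5) (nat_lit 353) (nat_lit 5) (nat_lit 636) (nat_lit 593) (nat_lit 331)) (XT.nd (nat_lit 78) (nat_lit 760) (nat_lit 0) (XT.lf (nat_lit 0) (nat_lit 5769070967) (nat_lit 836) (nat_lit 2061055622) (nat_lit 76) (nat_lit 19724073799) (nat_lit 352) (nat_lit 5) (nat_lit 363) (nat_lit 5) (nat_lit 353) (nat_lit 5) (nat_lit 637) (nat_lit 593) (nat_lit 330)) (XT.lf (nat_lit 0) (nat_lit 9733474413) (nat_lit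 836) (nat_lit 14097282495) (nat_lit 76) (nat_lit 4034304222) (nat_lit 342) (nat_lit 5) (nat_lit 353) (nat_lit 5) (nat_lit 343) (nat_lit 5) (nat_lit 638) (nat_lit 593) (nat_lit 329))))) (XT.nd (nat_lit 156) (nat_lit 1444) (nat_lit 0) (XT.nd (nat_lit 78) (nat_lit 0) (nat_lit 0) (XT.lf (nat_lit 0) (nat_lit 1726811329) (nat_lit 684) (nat_lit 12124581547) (nat_lit 760) (nat_lit 14329261741) (nat_lit 333) (nat_lit 5) (nat_lit 342) (nat_lit 5) (nat_lit 343) (nat_lit 5) (nat_lit 639) (nat_lit 593) (nat_lit 328)) (XT.lf (nat_lit 0) (nat_lit 18055345526) (nat_lit 684) (nat_lit 88196020) (nat_lit 760) (nat_lit 10357181059) (nat_lit 333) (nat_lit 5) (nat_lit 342) (nat_lit 5) (nat_lit 343) (nat_lit 5) (nat_lit 640) (nat_lit 593) (nat_lit 327))) (XT.nd (nat_lit 78) (nat_lit 760) (nat_lit 0) (XT.lf (nat_lit 0) (nat_lit 5878088695) (nat_lit 684) (nat_lit 16758070047) (nat_lit 760) (nat_lit 6188740766) (nat_lit 324) (nat_lit 5) (nat_lit 333) (nat_lit 5) (nat_lit 334) (nat_lit 5) (nat_lit 641) (nat_lit 593) (nat_lit 326))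 (XT.nd (nat_lit 78) (nat_lit 760) (nat_lit 0) (XT.lf (nat_lit 0) (nat_lit 22665918917) (nat_lit 684) (nat_lit 4620738501) (nat_lit 760) (nat_lit 1867542014) (nat_lit 324) (nat_lit 5) (nat_lit 333) (nat_lit 5) (nat_lit 334) (nat_lit 5) (nat_lit 642) (nat_lit 593) (nat_lit 325)) (XT.lf (nat_lit 0) (nat_lit 2622720102) (nat_lit 760) (nat_lit 19122922494) (nat_lit 76) (nat_lit 7741793924) (nat_lit 314) (nat_lit 5) (nat_lit 324) (nat_lit 5) (nat_lit 315) (nat_lit 5) (nat_lit 643) (nat_lit 593) (nat_lit 324)))))) (XT.nd (nat_lit 390) (nat_lit 1824) (nat_lit 0) (XT.nd (nat_lit 156) (nat_lit 1216) (nat_lit 0) (XT.nd (nat_lit 78) (nat_lit 684) (nat_lit 0) (XT.lf (nat_lit 0) (nat_lit 7249651275) (nat_lit 760) (nat_lit 2230514911) (nat_lit 76) (nat_lit 20345487932) (nat_lit 314) (nat_lit 5) (nat_lit 324) (nat_lit 5) (nat_lit 315) (nat_lit 5) (nat_lit 644) (nat_lit 593) (nat_lit 323)) (XT.lf (nat_lit 0) (nat_lit 12085578828) (nat_lit 760) (nat_lit 14993045539) (nat_lit 76) (nat_lit 3089682607) (nat_lit 305) (nat_lit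 5) (nat_lit 315) (nat_lit 5) (nat_lit 306) (nat_lit 5) (nat_lit 645) (nat_lit 593) (nat_lit 322))) (XT.nd (nat_lit 78) (nat_lit 608) (nat_lit 0) (XT.lf (nat_lit 0) (nat_lit 2407497208) (nat_lit 608) (nat_lit 14701703436) (nat_lit 684) (nat_lit 13406792787) (nat_lit 297) (nat_lit 5) (nat_lit 305) (nat_lit 5) (nat_lit 306) (nat_lit 5) (nat_lit 646) (nat_lit 593) (nat_lit 321)) (XT.nd (nat_lit 78) (nat_lit 608) (nat_lit 0) (XT.lf (nat_lit 0) (nat_lit 20356234826) (nat_lit 608) (nat_lit 1975195638) (nat_lit 684) (nat_lit 8537240501) (nat_lit 297) (nat_lit 5) (nat_lit 305) (nat_lit 5) (nat_lit 306) (nat_lit 5) (nat_lit 647) (nat_lit 593) (nat_lit 320)) (XT.lf (nat_lit 0) (nat_lit 7458876640) (nat_lit 608) (nat_lit 20316682666) (nat_lit 684) (nat_lit 3450493711) (nat_lit 289) (nat_lit 5) (nat_lit 297) (nat_lit 5) (nat_lit 298) (nat_lit 5) (nat_lit 648) (nat_lit 593) (nat_lit 319))))) (XT.nd (nat_lit 234) (nat_lit 1140) (nat_lit 0) (XT.nd (nat_lit 78) (nat_lit 608) (nat_lit 0) (XT.lf (nat_lit 0) (nat_lit 1796867250)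 (nat_lit 684) (nat_lit 5684937442) (nat_lit 76) (nat_lit 24106918925) (nat_lit 288) (nat_lit 5) (nat_lit 297) (nat_lit 5) (nat_lit 289) (nat_lit 5) (nat_lit 649) (nat_lit 593) (nat_lit 318)) (XT.nd (nat_lit 78) (nat_lit 0) (nat_lit 0) (XT.lf (nat_lit 0) (nat_lit 7221540162) (nat_lit 684) (nat_lit 19091363764) (nat_lit 76) (nat_lit 5642916265) (nat_lit 280) (nat_lit 5) (nat_lit 289) (nat_lit 5) (nat_lit 281) (nat_lit 5) (nat_lit 650) (nat_lit 593) (nat_lit 317)) (XT.lf (nat_lit 0) (nat_lit 12840308400) (nat_lit 684) (nat_lit 520409200) (nat_lit 76) (nat_lit 18967829110) (nat_lit 280) (nat_lit 5) (nat_lit 289) (nat_lit 5) (nat_lit 281) (nat_lit 5) (nat_lit 651) (nat_lit 593) (nat_lit 316)))) (XT.nd (nat_lit 78) (nat_lit 532) (nat_lit 0) (XT.lf (nat_lit 0) (nat_lit 18663791013) (nat_lit 608) (nat_lit 26536668) (nat_lit 684) (nat_lit 14016022617) (nat_lit 272) (nat_lit 5) (nat_lit 280) (nat_lit 5) (nat_lit 281) (nat_lit 5) (nat_lit 652) (nat_lit 593) (nat_lit 315)) (XT.nd (nat_lit 78) (nat_lit 0) (nat_lit 0)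 (XT.lf (nat_lit 0) (nat_lit 5123149464) (nat_lit 532) (nat_lit 19656829455) (nat_lit 608) (nat_lit 8309278459) (nat_lit 265) (nat_lit 5) (nat_lit 272) (nat_lit 5) (nat_lit 273) (nat_lit 5) (nat_lit 653) (nat_lit 593) (nat_lit 314)) (XT.lf (nat_lit 0) (nat_lit 24859390175) (nat_lit 532) (nat_lit 6224185877) (nat_lit 608) (nat_lit 2394403539) (nat_lit 265) (nat_lit 5) (nat_lit 272) (nat_lit 5) (nat_lit 273) (nat_lit 5) (nat_lit 654) (nat_lit 593) (nat_lit 313))))))))
noncomputable def xc187 : XT := (XT.nd (nat_lit 1560) (nat_lit 456) (nat_lit 0) (XT.nd (nat_lit 780) (nat_lit 2736) (nat_lit 0) (XT.nd (nat_lit 390) (nat_lit 1520) (nat_lit 0) (XT.nd (nat_lit 156) (nat_lit 1064) (nat_lit 0) (XT.nd (nat_lit 78) (nat_lit 0) (nat_lit 0) (XT.lf (nat_lit 0) (nat_lit 3710958140) (nat_lit 684) (nat_lit 22685071524) (nat_lit 76) (nat_lit 7475575878) (nat_lit 256) (nat_lit 5) (nat_lit 265) (nat_lit 5) (nat_lit 257) (nat_lit 5) (nat_lit 655) (nat_lit 593) (nat_lit 312)) (XT.lf (nat_lit 0) (nat_lit 10003629033) (nat_lit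 684) (nat_lit 2827766526) (nat_lit 76) (nat_lit 21439446700) (nat_lit 256) (nat_lit 5) (nat_lit 265) (nat_lit 5) (nat_lit 257) (nat_lit 5) (nat_lit 656) (nat_lit 593) (nat_lit 311))) (XT.nd (nat_lit 78) (nat_lit 532) (nat_lit 0) (XT.lf (nat_lit 0) (nat_lit 16541898329) (nat_lit 608) (nat_lit 17027742090) (nat_lit 76) (nat_lit 1106028437) (nat_lit 249) (nat_lit 5) (nat_lit 257) (nat_lit 5) (nat_lit 250) (nat_lit 5) (nat_lit 657) (nat_lit 593) (nat_lit 310)) (XT.nd (nat_lit 78) (nat_lit 0) (nat_lit 0) (XT.lf (nat_lit 0) (nat_lit 3440363874) (nat_lit 532) (nat_lit 19894841109) (nat_lit 608) (nat_lit 11750901607) (nat_lit 242) (nat_lit 5) (nat_lit 249) (nat_lit 5) (nat_lit 250) (nat_lit 5) (nat_lit 658) (nat_lit 593) (nat_lit 309)) (XT.lf (nat_lit 0) (nat_lit 24545758721) (nat_lit 532) (nat_lit 5830764671) (nat_lit 608) (nat_lit 5125986818) (nat_lit 242) (nat_lit 5) (nat_lit 249) (nat_lit 5) (nat_lit 250) (nat_lit 5) (nat_lit 659) (nat_lit 593) (nat_lit 308))))) (XT.nd (nat_lit 156) (nat_lit 988) (nat_lit 0)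 (XT.nd (nat_lit 78) (nat_lit 0) (nat_lit 0) (XT.lf (nat_lit 0) (nat_lit 1730388723) (nat_lit 532) (nat_lit 25714303934) (nat_lit 76) (nat_lit 8479930265) (nat_lit 235) (nat_lit 5) (nat_lit 242) (nat_lit 5) (nat_lit 236) (nat_lit 5) (nat_lit 660) (nat_lit 593) (nat_lit 307)) (XT.lf (nat_lit 0) (nat_lit 8765871621) (nat_lit 532) (nat_lit 4480380600) (nat_lit 76) (nat_lit 23106035716) (nat_lit 235) (nat_lit 5) (nat_lit 242) (nat_lit 5) (nat_lit 236) (nat_lit 5) (nat_lit 661) (nat_lit 593) (nat_lit 306))) (XT.nd (nat_lit 78) (nat_lit 456) (nat_lit 0) (XT.lf (nat_lit 0) (nat_lit 16061795875) (nat_lit 608) (nat_lit 19391404108) (nat_lit 76) (nat_lit 1332911676) (nat_lit 228) (nat_lit 5) (nat_lit 236) (nat_lit 5) (nat_lit 229) (nat_lit 5) (nat_lit 662) (nat_lit 593) (nat_lit 305)) (XT.nd (nat_lit 78) (nat_lit 0) (nat_lit 0) (XT.lf (nat_lit 0) (nat_lit 2481808677) (nat_lit 456) (nat_lit 21153914866) (nat_lit 532) (nat_lit 13590246655) (nat_lit 222) (nat_lit 5) (nat_lit 228) (nat_lit 5) (nat_lit 229) (nat_lit 5)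 (nat_lit 663) (nat_lit 593) (nat_lit 304)) (XT.lf (nat_lit 0) (nat_lit 25052522255) (nat_lit 456) (nat_lit 6436738314) (nat_lit 532) (nat_lit 6182802760) (nat_lit 222) (nat_lit 5) (nat_lit 228) (nat_lit 5) (nat_lit 229) (nat_lit 5) (nat_lit 664) (nat_lit 593) (nat_lit 303)))))) (XT.nd (nat_lit 390) (nat_lit 1292) (nat_lit 0) (XT.nd (nat_lit 156) (nat_lit 912) (nat_lit 0) (XT.nd (nat_lit 78) (nat_lit 0) (nat_lit 0) (XT.lf (nat_lit 0) (nat_lit 1474343365) (nat_lit 532) (nat_lit 28113880713) (nat_lit 76) (nat_lit 8536284867) (nat_lit 215) (nat_lit 5) (nat_lit 222) (nat_lit 5) (nat_lit 216) (nat_lit 5) (nat_lit 665) (nat_lit 593) (nat_lit 302)) (XT.lf (nat_lit 0) (nat_lit 9327839756) (nat_lit 532) (nat_lit 5406786916) (nat_lit 76) (nat_lit 23848039569) (nat_lit 215) (nat_lit 5) (nat_lit 222) (nat_lit 5) (nat_lit 216) (nat_lit 5) (nat_lit 666) (nat_lit 593) (nat_lit 301))) (XT.nd (nat_lit 78) (nat_lit 456) (nat_lit 0) (XT.lf (nat_lit 0) (nat_lit 17456746818) (nat_lit 532) (nat_lit 21063549341) (nat_lit 76) (nat_lit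 527323748) (nat_lit 209) (nat_lit 5) (nat_lit 216) (nat_lit 5) (nat_lit 210) (nat_lit 5) (nat_lit 667) (nat_lit 593) (nat_lit 300)) (XT.nd (nat_lit 78) (nat_lit 0) (nat_lit 0) (XT.lf (nat_lit 0) (nat_lit 2324793378) (nat_lit 456) (nat_lit 23570734135) (nat_lit 532) (nat_lit 13623399256) (nat_lit 203) (nat_lit 5) (nat_lit 209) (nat_lit 5) (nat_lit 210) (nat_lit 5) (nat_lit 668) (nat_lit 593) (nat_lit 299)) (XT.lf (nat_lit 0) (nat_lit 26463678360) (nat_lit 456) (nat_lit 8178870837) (nat_lit 532) (nat_lit 5354321300) (nat_lit 203) (nat_lit 5) (nat_lit 209) (nat_lit 5) (nat_lit 210) (nat_lit 5) (nat_lit 669) (nat_lit 593) (nat_lit 298))))) (XT.nd (nat_lit 156) (nat_lit 836) (nat_lit 0) (XT.nd (nat_lit 78) (nat_lit 0) (nat_lit 0) (XT.lf (nat_lit 0) (nat_lit 3156895891) (nat_lit 456) (nat_lit 29813204763) (nat_lit 76) (nat_lit 7511529428) (nat_lit 197) (nat_lit 5) (nat_lit 203) (nat_lit 5) (nat_lit 198) (nat_lit 5) (nat_lit 670) (nat_lit 593) (nat_lit 297)) (XT.lf (nat_lit 0) (nat_lit 11910446880) (nat_lit 456)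 (nat_lit 5529703416) (nat_lit 76) (nat_lit 23532350678) (nat_lit 197) (nat_lit 5) (nat_lit 203) (nat_lit 5) (nat_lit 198) (nat_lit 5) (nat_lit 671) (nat_lit 593) (nat_lit 296))) (XT.nd (nat_lit 78) (nat_lit 380) (nat_lit 0) (XT.lf (nat_lit 0) (nat_lit 19492437579) (nat_lit 456) (nat_lit 1471381130) (nat_lit 532) (nat_lit 20506875609) (nat_lit 191) (nat_lit 5) (nat_lit 197) (nat_lit 5) (nat_lit 198) (nat_lit 5) (nat_lit 672) (nat_lit 593) (nat_lit 295)) (XT.nd (nat_lit 78) (nat_lit 0) (nat_lit 0) (XT.lf (nat_lit 0) (nat_lit 3052770455) (nat_lit 380) (nat_lit 27297065873) (nat_lit 456) (nat_lit 11625983667) (nat_lit 186) (nat_lit 5) (nat_lit 191) (nat_lit 5) (nat_lit 192) (nat_lit 5) (nat_lit 673) (nat_lit 593) (nat_lit 294)) (XT.lf (nat_lit 0) (nat_lit 28869793431) (nat_lit 380) (nat_lit 11209169056) (nat_lit 456) (nat_lit 2408977964) (nat_lit 186) (nat_lit 5) (nat_lit 191) (nat_lit 5) (nat_lit 192) (nat_lit 5) (nat_lit 674) (nat_lit 593) (nat_lit 293))))))) (XT.nd (nat_lit 76830) (nat_lit 0) (nat_lit 17100)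 (XT.nd (nat_lit 76440) (nat_lit 0) (nat_lit 23636) (XT.nd (nat_lit 76206) (nat_lit 0) (nat_lit 23484) (XT.nd (nat_lit 76128) (nat_lit 0) (nat_lit 23484) (XT.lf (nat_lit 0) (nat_lit 7013396457) (nat_lit 456) (nat_lit 30736211896) (nat_lit 76) (nat_lit 5257532317) (nat_lit 180) (nat_lit 5) (nat_lit 186) (nat_lit 5) (nat_lit 181) (nat_lit 5) (nat_lit 675) (nat_lit 593) (nat_lit 292)) (XT.lf (nat_lit 0) (nat_lit 8844694035) (nat_lit 1824) (nat_lit 7900112248) (nat_lit 1900) (nat_lit 4041480617) (nat_lit 489) (nat_lit 5) (nat_lit 513) (nat_lit 5) (nat_lit 514) (nat_lit 5) (nat_lit 610) (nat_lit 594) (nat_lit 356))) (XT.nd (nat_lit 78) (nat_lit 0) (nat_lit 76) (XT.lf (nat_lit 76) (nat_lit 3050505055) (nat_lit 0) (nat_lit 7156790407) (nat_lit 1900) (nat_lit 10794301285) (nat_lit 490) (nat_lit 5) (nat_lit 489) (nat_lit 5) (nat_lit 514) (nat_lit 5) (nat_lit 611) (nat_lit 594) (nat_lit 355)) (XT.nd (nat_lit 78) (nat_lit 0) (nat_lit 0) (XT.lf (nat_lit 0) (nat_lit 11663404146) (nat_lit 1824) (nat_lit 6913525963) (nat_lit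 1900) (nat_lit 2642957701) (nat_lit 490) (nat_lit 5) (nat_lit 514) (nat_lit 5) (nat_lit 515) (nat_lit 5) (nat_lit 612) (nat_lit 594) (nat_lit 354)) (XT.lf (nat_lit 76) (nat_lit 4351311381) (nat_lit 0) (nat_lit 8868912427) (nat_lit 1900) (nat_lit 8220889232) (nat_lit 491) (nat_lit 5) (nat_lit 490) (nat_lit 5) (nat_lit 515) (nat_lit 5) (nat_lit 613) (nat_lit 594) (nat_lit 353))))) (XT.nd (nat_lit 156) (nat_lit 0) (nat_lit 0) (XT.nd (nat_lit 78) (nat_lit 0) (nat_lit 0) (XT.lf (nat_lit 0) (nat_lit 14857595280) (nat_lit 1824) (nat_lit 5740907633) (nat_lit 1900) (nat_lit 1067271670) (nat_lit 491) (nat_lit 5) (nat_lit 515) (nat_lit 5) (nat_lit 516) (nat_lit 5) (nat_lit 614) (nat_lit 594) (nat_lit 352)) (XT.lf (nat_lit 76) (nat_lit 5849796995) (nat_lit 0) (nat_lit 10770716912) (nat_lit 1900) (nat_lit 5272559572) (nat_lit 492) (nat_lit 5) (nat_lit 491) (nat_lit 5) (nat_lit 516) (nat_lit 5) (nat_lit 615) (nat_lit 594) (nat_lit 351))) (XT.nd (nat_lit 78) (nat_lit 0) (nat_lit 76) (XT.lf (nat_lit 76) (nat_lit 17747002080)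 (nat_lit 0) (nat_lit 706354216) (nat_lit 1900) (nat_lit 3670868863) (nat_lit 492) (nat_lit 5) (nat_lit 491) (nat_lit 5) (nat_lit 516) (nat_lit 5) (nat_lit 616) (nat_lit 594) (nat_lit 350)) (XT.nd (nat_lit 78) (nat_lit 0) (nat_lit 0) (XT.lf (nat_lit 76) (nat_lit 7556032715) (nat_lit 0) (nat_lit 12874168049) (nat_lit 1900) (nat_lit 1927652315) (nat_lit 493) (nat_lit 5) (nat_lit 492) (nat_lit 5) (nat_lit 517) (nat_lit 5) (nat_lit 617) (nat_lit 594) (nat_lit 349)) (XT.lf (nat_lit 76) (nat_lit 19779416649) (nat_lit 0) (nat_lit 2697460942) (nat_lit 1900) (nat_lit 118670168) (nat_lit 493) (nat_lit 5) (nat_lit 492) (nat_lit 5) (nat_lit 517) (nat_lit 5) (nat_lit 618) (nat_lit 594) (nat_lit 348)))))) (XT.nd (nat_lit 390) (nat_lit 2736) (nat_lit 0) (XT.nd (nat_lit 156) (nat_lit 2052) (nat_lit 0) (XT.nd (nat_lit 78) (nat_lit 0) (nat_lit 0) (XT.lf (nat_lit 0) (nat_lit 1812349782) (nat_lit 1900) (nat_lit 13367181176) (nat_lit 76) (nat_lit 7656071261) (nat_lit 468) (nat_lit 5) (nat_lit 493) (nat_lit 5) (nat_lit 469) (nat_lit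 5) (nat_lit 619) (nat_lit 594) (nat_lit 347)) (XT.lf (nat_lit 0) (nat_lit 3813668538) (nat_lit 1900) (nat_lit 1065191626) (nat_lit 76) (nat_lit 18200916671) (nat_lit 468) (nat_lit 5) (nat_lit 493) (nat_lit 5) (nat_lit 469) (nat_lit 5) (nat_lit 620) (nat_lit 594) (nat_lit 346))) (XT.nd (nat_lit 78) (nat_lit 912) (nat_lit 0) (XT.lf (nat_lit 0) (nat_lit 5964030811) (nat_lit 1216) (nat_lit 11732153082) (nat_lit 76) (nat_lit 5630470807) (nat_lit 453) (nat_lit 5) (nat_lit 469) (nat_lit 5) (nat_lit 454) (nat_lit 5) (nat_lit 621) (nat_lit 594) (nat_lit 345)) (XT.nd (nat_lit 78) (nat_lit 0) (nat_lit 0) (XT.lf (nat_lit 0) (nat_lit 920044932) (nat_lit 912) (nat_lit 7279336855) (nat_lit 988) (nat_lit 15378248808) (nat_lit 441) (nat_lit 5) (nat_lit 453) (nat_lit 5) (nat_lit 454) (nat_lit 5) (nat_lit 622) (nat_lit 594) (nat_lit 344)) (XT.lf (nat_lit 0) (nat_lit 10576965953) (nat_lit 988) (nat_lit 9873191667) (nat_lit 76) (nat_lit 3381517960) (nat_lit 441) (nat_lit 5) (nat_lit 454) (nat_lit 5) (nat_lit 442) (nat_lit 5)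 (nat_lit 623) (nat_lit 594) (nat_lit 343))))) (XT.nd (nat_lit 234) (nat_lit 988) (nat_lit 0) (XT.nd (nat_lit 78) (nat_lit 836) (nat_lit 0) (XT.lf (nat_lit 0) (nat_lit 3156934755) (nat_lit 912) (nat_lit 9910491497) (nat_lit 988) (nat_lit 11022068819) (nat_lit 429) (nat_lit 5) (nat_lit 441) (nat_lit 5) (nat_lit 442) (nat_lit 5) (nat_lit 624) (nat_lit 594) (nat_lit 342)) (XT.nd (nat_lit 78) (nat_lit 836) (nat_lit 0) (XT.lf (nat_lit 0) (nat_lit 15676509741) (nat_lit 988) (nat_lit 7778739898) (nat_lit 76) (nat_lit 895845127) (nat_lit 429) (nat_lit 5) (nat_lit 442) (nat_lit 5) (nat_lit 430) (nat_lit 5) (nat_lit 625) (nat_lit 594) (nat_lit 341)) (XT.lf (nat_lit 0) (nat_lit 5643402448) (nat_lit 836) (nat_lit 12793378176) (nat_lit 912) (nat_lit 6179165808) (nat_lit 418) (nat_lit 5) (nat_lit 429) (nat_lit 5) (nat_lit 430) (nat_lit 5) (nat_lit 626) (nat_lit 594) (nat_lit 340)))) (XT.nd (nat_lit 78) (nat_lit 988) (nat_lit 0) (XT.lf (nat_lit 0) (nat_lit 19436314819) (nat_lit 836) (nat_lit 1864918002) (nat_lit 912) (nat_lit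 3583882882) (nat_lit 418) (nat_lit 5) (nat_lit 429) (nat_lit 5) (nat_lit 430) (nat_lit 5) (nat_lit 627) (nat_lit 594) (nat_lit 339)) (XT.nd (nat_lit 78) (nat_lit 76) (nat_lit 0) (XT.lf (nat_lit 0) (nat_lit 8392096730) (nat_lit 912) (nat_lit 15942470363) (nat_lit 988) (nat_lit 822869494) (nat_lit 406) (nat_lit 5) (nat_lit 418) (nat_lit 5) (nat_lit 419) (nat_lit 5) (nat_lit 628) (nat_lit 594) (nat_lit 338)) (XT.lf (nat_lit 0) (nat_lit 2013239207) (nat_lit 988) (nat_lit 2879475071) (nat_lit 76) (nat_lit 20541310483) (nat_lit 405) (nat_lit 5) (nat_lit 418) (nat_lit 5) (nat_lit 406) (nat_lit 5) (nat_lit 629) (nat_lit 594) (nat_lit 337))))))))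
noncomputable def xc188 : XT := (XT.nd (nat_lit 1560) (nat_lit 6536) (nat_lit 0) (XT.nd (nat_lit 780) (nat_lit 4028) (nat_lit 0) (XT.nd (nat_lit 390) (nat_lit 2356) (nat_lit 0) (XT.nd (nat_lit 156) (nat_lit 1596) (nat_lit 0) (XT.nd (nat_lit 78) (nat_lit 0) (nat_lit 0) (XT.lf (nat_lit 0) (nat_lit 5008104393) (nat_lit 912) (nat_lit 14331125734) (nat_lit 76) (nat_lit 6374544821) (nat_lit 394) (nat_lit 5) (nat_lit 406) (nat_lit 5) (nat_lit 395) (nat_lit 5) (nat_lit 630) (nat_lit 594) (nat_lit 336)) (XT.lf (nat_lit 0) (nat_lit 8111683058) (nat_lit 912) (nat_lit 65334410) (nat_lit 76) (nat_lit 17821126428) (nat_lit 394) (nat_lit 5) (nat_lit 406) (nat_lit 5) (nat_lit 395) (nat_lit 5) (nat_lit 631) (nat_lit 594) (nat_lit 335))) (XT.nd (nat_lit 78) (nat_lit 760) (nat_lit 0) (XT.lf (nat_lit 0) (nat_lit 11391098989) (nat_lit 912) (nat_lit 11632633180) (nat_lit 76) (nat_lit 3262192820) (nat_lit 383) (nat_lit 5) (nat_lit 395) (nat_lit 5) (nat_lit 384) (nat_lit 5) (nat_lit 632) (nat_lit 594) (nat_lit 334)) (XT.nd (nat_lit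 78) (nat_lit 0) (nat_lit 0) (XT.lf (nat_lit 0) (nat_lit 3070745639) (nat_lit 760) (nat_lit 11736949571) (nat_lit 836) (nat_lit 11770334733) (nat_lit 373) (nat_lit 5) (nat_lit 383) (nat_lit 5) (nat_lit 384) (nat_lit 5) (nat_lit 633) (nat_lit 594) (nat_lit 333)) (XT.lf (nat_lit 0) (nat_lit 18222800156) (nat_lit 760) (nat_lit 144982843) (nat_lit 836) (nat_lit 8506690881) (nat_lit 373) (nat_lit 5) (nat_lit 383) (nat_lit 5) (nat_lit 384) (nat_lit 5) (nat_lit 634) (nat_lit 594) (nat_lit 332))))) (XT.nd (nat_lit 156) (nat_lit 1596) (nat_lit 0) (XT.nd (nat_lit 78) (nat_lit 0) (nat_lit 0) (XT.lf (nat_lit 0) (nat_lit 6507498571) (nat_lit 760) (nat_lit 15606805972) (nat_lit 836) (nat_lit 5060237587) (nat_lit 363) (nat_lit 5) (nat_lit 373) (nat_lit 5) (nat_lit 374) (nat_lit 5) (nat_lit 635) (nat_lit 594) (nat_lit 331)) (XT.lf (nat_lit 0) (nat_lit 22083106476) (nat_lit 760) (nat_lit 3908851487) (nat_lit 836) (nat_lit 1487529827) (nat_lit 363) (nat_lit 5) (nat_lit 373) (nat_lit 5) (nat_lit 374) (nat_lit 5) (nat_lit 636)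 (nat_lit 594) (nat_lit 330))) (XT.nd (nat_lit 78) (nat_lit 760) (nat_lit 0) (XT.lf (nat_lit 0) (nat_lit 2245059102) (nat_lit 836) (nat_lit 17543874950) (nat_lit 76) (nat_lit 7998984104) (nat_lit 352) (nat_lit 5) (nat_lit 363) (nat_lit 5) (nat_lit 353) (nat_lit 5) (nat_lit 637) (nat_lit 594) (nat_lit 329)) (XT.nd (nat_lit 78) (nat_lit 760) (nat_lit 0) (XT.lf (nat_lit 0) (nat_lit 6091999410) (nat_lit 836) (nat_lit 1870405637) (nat_lit 76) (nat_lit 20138723147) (nat_lit 352) (nat_lit 5) (nat_lit 363) (nat_lit 5) (nat_lit 353) (nat_lit 5) (nat_lit 638) (nat_lit 594) (nat_lit 328)) (XT.lf (nat_lit 0) (nat_lit 10133281667) (nat_lit 836) (nat_lit 14144942634) (nat_lit 76) (nat_lit 4140030139) (nat_lit 342) (nat_lit 5) (nat_lit 353) (nat_lit 5) (nat_lit 343) (nat_lit 5) (nat_lit 639) (nat_lit 594) (nat_lit 327)))))) (XT.nd (nat_lit 390) (nat_lit 1900) (nat_lit 0) (XT.nd (nat_lit 156) (nat_lit 1444) (nat_lit 0) (XT.nd (nat_lit 78) (nat_lit 0) (nat_lit 0) (XT.lf (nat_lit 0) (nat_lit 1994091715) (nat_lit 684) (nat_lit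 12336955605) (nat_lit 760) (nat_lit 14409162801) (nat_lit 333) (nat_lit 5) (nat_lit 342) (nat_lit 5) (nat_lit 343) (nat_lit 5) (nat_lit 640) (nat_lit 594) (nat_lit 326)) (XT.lf (nat_lit 0) (nat_lit 18644632984) (nat_lit 684) (nat_lit 60432908) (nat_lit 760) (nat_lit 10361693137) (nat_lit 333) (nat_lit 5) (nat_lit 342) (nat_lit 5) (nat_lit 343) (nat_lit 5) (nat_lit 641) (nat_lit 594) (nat_lit 325))) (XT.nd (nat_lit 78) (nat_lit 760) (nat_lit 0) (XT.lf (nat_lit 0) (nat_lit 6226091238) (nat_lit 684) (nat_lit 17059233153) (nat_lit 760) (nat_lit 6112139398) (nat_lit 324) (nat_lit 5) (nat_lit 333) (nat_lit 5) (nat_lit 334) (nat_lit 5) (nat_lit 642) (nat_lit 594) (nat_lit 324)) (XT.nd (nat_lit 78) (nat_lit 760) (nat_lit 0) (XT.lf (nat_lit 0) (nat_lit 23345159617) (nat_lit 684) (nat_lit 4679821610) (nat_lit 760) (nat_lit 1708445616) (nat_lit 324) (nat_lit 5) (nat_lit 333) (nat_lit 5) (nat_lit 334) (nat_lit 5) (nat_lit 643) (nat_lit 594) (nat_lit 323)) (XT.lf (nat_lit 0) (nat_lit 2866947958) (nat_lit 760) (nat_lit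 19274775587) (nat_lit 76) (nat_lit 7931621657) (nat_lit 314) (nat_lit 5) (nat_lit 324) (nat_lit 5) (nat_lit 315) (nat_lit 5) (nat_lit 644) (nat_lit 594) (nat_lit 322))))) (XT.nd (nat_lit 156) (nat_lit 1216) (nat_lit 0) (XT.nd (nat_lit 78) (nat_lit 684) (nat_lit 0) (XT.lf (nat_lit 0) (nat_lit 7582657491) (nat_lit 760) (nat_lit 2049041526) (nat_lit 76) (nat_lit 20786703430) (nat_lit 314) (nat_lit 5) (nat_lit 324) (nat_lit 5) (nat_lit 315) (nat_lit 5) (nat_lit 645) (nat_lit 594) (nat_lit 321)) (XT.lf (nat_lit 0) (nat_lit 12513327280) (nat_lit 760) (nat_lit 15064842048) (nat_lit 76) (nat_lit 3189778646) (nat_lit 305) (nat_lit 5) (nat_lit 315) (nat_lit 5) (nat_lit 306) (nat_lit 5) (nat_lit 646) (nat_lit 594) (nat_lit 320))) (XT.nd (nat_lit 78) (nat_lit 608) (nat_lit 0) (XT.lf (nat_lit 0) (nat_lit 2682211129) (nat_lit 608) (nat_lit 14953033624) (nat_lit 684) (nat_lit 13487387029) (nat_lit 297) (nat_lit 5) (nat_lit 305) (nat_lit 5) (nat_lit 306) (nat_lit 5) (nat_lit 647) (nat_lit 594) (nat_lit 319)) (XT.nd (nat_lit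 78) (nat_lit 608) (nat_lit 0) (XT.lf (nat_lit 0) (nat_lit 20985481068) (nat_lit 608) (nat_lit 1972833001) (nat_lit 684) (nat_lit 8524120984) (nat_lit 297) (nat_lit 5) (nat_lit 305) (nat_lit 5) (nat_lit 306) (nat_lit 5) (nat_lit 648) (nat_lit 594) (nat_lit 318)) (XT.lf (nat_lit 0) (nat_lit 7832029942) (nat_lit 608) (nat_lit 20677481830) (nat_lit 684) (nat_lit 3337489332) (nat_lit 289) (nat_lit 5) (nat_lit 297) (nat_lit 5) (nat_lit 298) (nat_lit 5) (nat_lit 649) (nat_lit 594) (nat_lit 317))))))) (XT.nd (nat_lit 780) (nat_lit 2964) (nat_lit 0) (XT.nd (nat_lit 390) (nat_lit 1748) (nat_lit 0) (XT.nd (nat_lit 156) (nat_lit 1140) (nat_lit 0) (XT.nd (nat_lit 78) (nat_lit 608) (nat_lit 0) (XT.lf (nat_lit 0) (nat_lit 2008909598) (nat_lit 684) (nat_lit 5576707775) (nat_lit 76) (nat_lit 24631354629) (nat_lit 288) (nat_lit 5) (nat_lit 297) (nat_lit 5) (nat_lit 289) (nat_lit 5) (nat_lit 650) (nat_lit 594) (nat_lit 316)) (XT.lf (nat_lit 0) (nat_lit 7540355518) (nat_lit 684) (nat_lit 19249538264) (nat_lit 76) (nat_lit 5801551213)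 (nat_lit 280) (nat_lit 5) (nat_lit 289) (nat_lit 5) (nat_lit 281) (nat_lit 5) (nat_lit 651) (nat_lit 594) (nat_lit 315))) (XT.nd (nat_lit 78) (nat_lit 1140) (nat_lit 0) (XT.lf (nat_lit 0) (nat_lit 13268079816) (nat_lit 684) (nat_lit 311549958) (nat_lit 76) (nat_lit 19392064734) (nat_lit 280) (nat_lit 5) (nat_lit 289) (nat_lit 5) (nat_lit 281) (nat_lit 5) (nat_lit 652) (nat_lit 594) (nat_lit 314)) (XT.nd (nat_lit 78) (nat_lit 532) (nat_lit 0) (XT.lf (nat_lit 0) (nat_lit 19233302575) (nat_lit 684) (nat_lit 14102342379) (nat_lit 76) (nat_lit 21445227) (nat_lit 272) (nat_lit 5) (nat_lit 281) (nat_lit 5) (nat_lit 273) (nat_lit 5) (nat_lit 653) (nat_lit 594) (nat_lit 313)) (XT.lf (nat_lit 0) (nat_lit 5445051568) (nat_lit 532) (nat_lit 19997975281) (nat_lit 608) (nat_lit 8304663027) (nat_lit 265) (nat_lit 5) (nat_lit 272) (nat_lit 5) (nat_lit 273) (nat_lit 5) (nat_lit 654) (nat_lit 594) (nat_lit 312))))) (XT.nd (nat_lit 156) (nat_lit 1064) (nat_lit 0) (XT.nd (nat_lit 78) (nat_lit 684) (nat_lit 0) (XT.lf (nat_lit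 0) (nat_lit 25571714365) (nat_lit 532) (nat_lit 6297698258) (nat_lit 608) (nat_lit 2274839648) (nat_lit 265) (nat_lit 5) (nat_lit 272) (nat_lit 5) (nat_lit 273) (nat_lit 5) (nat_lit 655) (nat_lit 594) (nat_lit 311)) (XT.lf (nat_lit 0) (nat_lit 3948935392) (nat_lit 684) (nat_lit 22919935685) (nat_lit 76) (nat_lit 7676887945) (nat_lit 256) (nat_lit 5) (nat_lit 265) (nat_lit 5) (nat_lit 257) (nat_lit 5) (nat_lit 656) (nat_lit 594) (nat_lit 310))) (XT.nd (nat_lit 78) (nat_lit 1064) (nat_lit 0) (XT.lf (nat_lit 0) (nat_lit 10364248759) (nat_lit 684) (nat_lit 2669775514) (nat_lit 76) (nat_lit 21919020486) (nat_lit 256) (nat_lit 5) (nat_lit 265) (nat_lit 5) (nat_lit 257) (nat_lit 5) (nat_lit 657) (nat_lit 594) (nat_lit 309)) (XT.nd (nat_lit 78) (nat_lit 532) (nat_lit 0) (XT.lf (nat_lit 0) (nat_lit 17031872159) (nat_lit 608) (nat_lit 17152335971) (nat_lit 76) (nat_lit 1181788050) (nat_lit 249) (nat_lit 5) (nat_lit 257) (nat_lit 5) (nat_lit 250) (nat_lit 5) (nat_lit 658) (nat_lit 594) (nat_lit 308)) (XT.lf (nat_lit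 0) (nat_lit 3723711317) (nat_lit 532) (nat_lit 20235606256) (nat_lit 608) (nat_lit 11825359709) (nat_lit 242) (nat_lit 5) (nat_lit 249) (nat_lit 5) (nat_lit 250) (nat_lit 5) (nat_lit 659) (nat_lit 594) (nat_lit 307)))))) (XT.nd (nat_lit 390) (nat_lit 1444) (nat_lit 0) (XT.nd (nat_lit 156) (nat_lit 988) (nat_lit 0) (XT.nd (nat_lit 78) (nat_lit 532) (nat_lit 0) (XT.lf (nat_lit 0) (nat_lit 25247007391) (nat_lit 532) (nat_lit 5891368519) (nat_lit 608) (nat_lit 5071094858) (nat_lit 242) (nat_lit 5) (nat_lit 249) (nat_lit 5) (nat_lit 250) (nat_lit 5) (nat_lit 660) (nat_lit 594) (nat_lit 306)) (XT.lf (nat_lit 0) (nat_lit 1919039904) (nat_lit 532) (nat_lit 26014882003) (nat_lit 76) (nat_lit 8706109523) (nat_lit 235) (nat_lit 5) (nat_lit 242) (nat_lit 5) (nat_lit 236) (nat_lit 5) (nat_lit 661) (nat_lit 594) (nat_lit 305))) (XT.nd (nat_lit 78) (nat_lit 988) (nat_lit 0) (XT.lf (nat_lit 0) (nat_lit 9092212001) (nat_lit 532) (nat_lit 4360470556) (nat_lit 76) (nat_lit 23623627658) (nat_lit 235) (nat_lit 5) (nat_lit 242)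 (nat_lit 5) (nat_lit 236) (nat_lit 5) (nat_lit 662) (nat_lit 594) (nat_lit 304)) (XT.nd (nat_lit 78) (nat_lit 456) (nat_lit 0) (XT.lf (nat_lit 0) (nat_lit 16532826174) (nat_lit 608) (nat_lit 19568483004) (nat_lit 76) (nat_lit 1417525865) (nat_lit 228) (nat_lit 5) (nat_lit 236) (nat_lit 5) (nat_lit 229) (nat_lit 5) (nat_lit 663) (nat_lit 594) (nat_lit 303)) (XT.lf (nat_lit 0) (nat_lit 2740807528) (nat_lit 456) (nat_lit 21515847043) (nat_lit 532) (nat_lit 13710867795) (nat_lit 222) (nat_lit 5) (nat_lit 228) (nat_lit 5) (nat_lit 229) (nat_lit 5) (nat_lit 664) (nat_lit 594) (nat_lit 302))))) (XT.nd (nat_lit 234) (nat_lit 912) (nat_lit 0) (XT.nd (nat_lit 78) (nat_lit 532) (nat_lit 0) (XT.lf (nat_lit 0) (nat_lit 25758830227) (nat_lit 456) (nat_lit 6505525904) (nat_lit 532) (nat_lit 6158239410) (nat_lit 222) (nat_lit 5) (nat_lit 228) (nat_lit 5) (nat_lit 229) (nat_lit 5) (nat_lit 665) (nat_lit 594) (nat_lit 301)) (XT.nd (nat_lit 78) (nat_lit 0) (nat_lit 0) (XT.lf (nat_lit 0) (nat_lit 1648970707) (nat_lit 532) (nat_lit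 28467816342) (nat_lit 76) (nat_lit 8767306529) (nat_lit 215) (nat_lit 5) (nat_lit 222) (nat_lit 5) (nat_lit 216) (nat_lit 5) (nat_lit 666) (nat_lit 594) (nat_lit 300)) (XT.lf (nat_lit 0) (nat_lit 9656691135) (nat_lit 532) (nat_lit 5310665806) (nat_lit 76) (nat_lit 24384114052) (nat_lit 215) (nat_lit 5) (nat_lit 222) (nat_lit 5) (nat_lit 216) (nat_lit 5) (nat_lit 667) (nat_lit 594) (nat_lit 299)))) (XT.nd (nat_lit 78) (nat_lit 456) (nat_lit 0) (XT.lf (nat_lit 0) (nat_lit 17947106830) (nat_lit 532) (nat_lit 21279491342) (nat_lit 76) (nat_lit 599147001) (nat_lit 209) (nat_lit 5) (nat_lit 216) (nat_lit 5) (nat_lit 210) (nat_lit 5) (nat_lit 668) (nat_lit 594) (nat_lit 298)) (XT.nd (nat_lit 78) (nat_lit 0) (nat_lit 0) (XT.lf (nat_lit 0) (nat_lit 2575267383) (nat_lit 456) (nat_lit 23977950999) (nat_lit 532) (nat_lit 13753288738) (nat_lit 203) (nat_lit 5) (nat_lit 209) (nat_lit 5) (nat_lit 210) (nat_lit 5) (nat_lit 669) (nat_lit 594) (nat_lit 297)) (XT.lf (nat_lit 0) (nat_lit 27192930494) (nat_lit 456) (nat_lit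 8279509215) (nat_lit 532) (nat_lit 5321624880) (nat_lit 203) (nat_lit 5) (nat_lit 209) (nat_lit 5) (nat_lit 210) (nat_lit 5) (nat_lit 670) (nat_lit 594) (nat_lit 296))))))))
noncomputable def xc189 : XT := (XT.nd (nat_lit 77454) (nat_lit 0) (nat_lit 10488) (XT.nd (nat_lit 76674) (nat_lit 0) (nat_lit 20292) (XT.nd (nat_lit 76284) (nat_lit 0) (nat_lit 22876) (XT.nd (nat_lit 156) (nat_lit 836) (nat_lit 0) (XT.nd (nat_lit 78) (nat_lit 0) (nat_lit 0) (XT.lf (nat_lit 0) (nat_lit 3356995319) (nat_lit 456) (nat_lit 30206664048) (nat_lit 76) (nat_lit 7724861657) (nat_lit 197) (nat_lit 5) (nat_lit 203) (nat_lit 5) (nat_lit 198) (nat_lit 5) (nat_lit 671) (nat_lit 594) (nat_lit 295)) (XT.lf (nat_lit 0) (nat_lit 12282931808) (nat_lit 456) (nat_lit 5441469238) (nat_lit 76) (nat_lit 24064862045) (nat_lit 197) (nat_lit 5) (nat_lit 203) (nat_lit 5) (nat_lit 198) (nat_lit 5) (nat_lit 672) (nat_lit 594) (nat_lit 294))) (XT.nd (nat_lit 78) (nat_lit 380) (nat_lit 0) (XT.lf (nat_lit 0) (nat_lit 20079806496) (nat_lit 456) (nat_lit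 1436214147) (nat_lit 532) (nat_lit 20781426715) (nat_lit 191) (nat_lit 5) (nat_lit 197) (nat_lit 5) (nat_lit 198) (nat_lit 5) (nat_lit 673) (nat_lit 594) (nat_lit 293)) (XT.nd (nat_lit 78) (nat_lit 0) (nat_lit 0) (XT.lf (nat_lit 0) (nat_lit 3312273264) (nat_lit 380) (nat_lit 27776578586) (nat_lit 456) (nat_lit 11723841878) (nat_lit 186) (nat_lit 5) (nat_lit 191) (nat_lit 5) (nat_lit 192) (nat_lit 5) (nat_lit 674) (nat_lit 594) (nat_lit 292)) (XT.lf (nat_lit 0) (nat_lit 29641745574) (nat_lit 380) (nat_lit 11368226355) (nat_lit 456) (nat_lit 2325136482) (nat_lit 186) (nat_lit 5) (nat_lit 191) (nat_lit 5) (nat_lit 192) (nat_lit 5) (nat_lit 675) (nat_lit 594) (nat_lit 291))))) (XT.nd (nat_lit 156) (nat_lit 0) (nat_lit 76) (XT.nd (nat_lit 78) (nat_lit 0) (nat_lit 76) (XT.lf (nat_lit 76) (nat_lit 1254336558) (nat_lit 0) (nat_lit 4442176059) (nat_lit 1900) (nat_lit 14858481832) (nat_lit 488) (nat_lit 5) (nat_lit 487) (nat_lit 5) (nat_lit 512) (nat_lit 5) (nat_lit 608) (nat_lit 595) (nat_lit 357)) (XT.lf (nat_lit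 0) (nat_lit 6832725382) (nat_lit 1824) (nat_lit 8651142029) (nat_lit 1900) (nat_lit 5281545500) (nat_lit 488) (nat_lit 5) (nat_lit 512) (nat_lit 5) (nat_lit 513) (nat_lit 5) (nat_lit 609) (nat_lit 595) (nat_lit 356))) (XT.nd (nat_lit 78) (nat_lit 0) (nat_lit 76) (XT.lf (nat_lit 76) (nat_lit 2207888655) (nat_lit 0) (nat_lit 5823330694) (nat_lit 1900) (nat_lit 12948029383) (nat_lit 489) (nat_lit 5) (nat_lit 488) (nat_lit 5) (nat_lit 513) (nat_lit 5) (nat_lit 610) (nat_lit 595) (nat_lit 355)) (XT.nd (nat_lit 78) (nat_lit 0) (nat_lit 0) (XT.lf (nat_lit 0) (nat_lit 9334163240) (nat_lit 1824) (nat_lit 7824468667) (nat_lit 1900) (nat_lit 4037119883) (nat_lit 489) (nat_lit 5) (nat_lit 513) (nat_lit 5) (nat_lit 514) (nat_lit 5) (nat_lit 611) (nat_lit 595) (nat_lit 354)) (XT.lf (nat_lit 76) (nat_lit 3343623839) (nat_lit 0) (nat_lit 7375770933) (nat_lit 1900) (nat_lit 10696065684) (nat_lit 490) (nat_lit 5) (nat_lit 489) (nat_lit 5) (nat_lit 514) (nat_lit 5) (nat_lit 612) (nat_lit 595) (nat_lit 353)))))) (XT.nd (nat_lit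 390) (nat_lit 2812) (nat_lit 0) (XT.nd (nat_lit 156) (nat_lit 0) (nat_lit 76) (XT.nd (nat_lit 78) (nat_lit 0) (nat_lit 0) (XT.lf (nat_lit 0) (nat_lit 12198104548) (nat_lit 1824) (nat_lit 6817708891) (nat_lit 1900) (nat_lit 2622434501) (nat_lit 490) (nat_lit 5) (nat_lit 514) (nat_lit 5) (nat_lit 515) (nat_lit 5) (nat_lit 613) (nat_lit 595) (nat_lit 352)) (XT.lf (nat_lit 76) (nat_lit 4670885150) (nat_lit 0) (nat_lit 9110774868) (nat_lit 1900) (nat_lit 8082325844) (nat_lit 491) (nat_lit 5) (nat_lit 490) (nat_lit 5) (nat_lit 515) (nat_lit 5) (nat_lit 614) (nat_lit 595) (nat_lit 351))) (XT.nd (nat_lit 78) (nat_lit 0) (nat_lit 0) (XT.lf (nat_lit 0) (nat_lit 15445544304) (nat_lit 1824) (nat_lit 5621494753) (nat_lit 1900) (nat_lit 1026226445) (nat_lit 491) (nat_lit 5) (nat_lit 515) (nat_lit 5) (nat_lit 516) (nat_lit 5) (nat_lit 615) (nat_lit 595) (nat_lit 350)) (XT.nd (nat_lit 78) (nat_lit 0) (nat_lit 0) (XT.lf (nat_lit 76) (nat_lit 6199482974) (nat_lit 0) (nat_lit 11040047203) (nat_lit 1900) (nat_lit 5085664190)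 (nat_lit 492) (nat_lit 5) (nat_lit 491) (nat_lit 5) (nat_lit 516) (nat_lit 5) (nat_lit 616) (nat_lit 595) (nat_lit 349)) (XT.lf (nat_lit 76) (nat_lit 18330069611) (nat_lit 0) (nat_lit 773340078) (nat_lit 1900) (nat_lit 3457671953) (nat_lit 492) (nat_lit 5) (nat_lit 491) (nat_lit 5) (nat_lit 516) (nat_lit 5) (nat_lit 617) (nat_lit 595) (nat_lit 348))))) (XT.nd (nat_lit 156) (nat_lit 1064) (nat_lit 0) (XT.nd (nat_lit 78) (nat_lit 1900) (nat_lit 0) (XT.lf (nat_lit 76) (nat_lit 7939711950) (nat_lit 0) (nat_lit 13175743021) (nat_lit 1900) (nat_lit 1684014034) (nat_lit 493) (nat_lit 5) (nat_lit 492) (nat_lit 5) (nat_lit 517) (nat_lit 5) (nat_lit 618) (nat_lit 595) (nat_lit 347)) (XT.lf (nat_lit 0) (nat_lit 153573679) (nat_lit 1900) (nat_lit 2640032991) (nat_lit 1976) (nat_lit 20248399350) (nat_lit 467) (nat_lit 5) (nat_lit 492) (nat_lit 5) (nat_lit 493) (nat_lit 5) (nat_lit 619) (nat_lit 595) (nat_lit 346))) (XT.nd (nat_lit 78) (nat_lit 1140) (nat_lit 0) (XT.lf (nat_lit 0) (nat_lit 2117513430) (nat_lit 1900) (nat_lit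 13398769198) (nat_lit 76) (nat_lit 7770645638) (nat_lit 468) (nat_lit 5) (nat_lit 493) (nat_lit 5) (nat_lit 469) (nat_lit 5) (nat_lit 620) (nat_lit 595) (nat_lit 345)) (XT.nd (nat_lit 78) (nat_lit 1140) (nat_lit 0) (XT.lf (nat_lit 0) (nat_lit 4153585686) (nat_lit 1900) (nat_lit 855362516) (nat_lit 76) (nat_lit 18527143781) (nat_lit 468) (nat_lit 5) (nat_lit 493) (nat_lit 5) (nat_lit 469) (nat_lit 5) (nat_lit 621) (nat_lit 595) (nat_lit 344)) (XT.lf (nat_lit 0) (nat_lit 6343079444) (nat_lit 1216) (nat_lit 11731780075) (nat_lit 76) (nat_lit 5713125549) (nat_lit 453) (nat_lit 5) (nat_lit 469) (nat_lit 5) (nat_lit 454) (nat_lit 5) (nat_lit 622) (nat_lit 595) (nat_lit 343))))))) (XT.nd (nat_lit 780) (nat_lit 4484) (nat_lit 0) (XT.nd (nat_lit 390) (nat_lit 2660) (nat_lit 0) (XT.nd (nat_lit 156) (nat_lit 1748) (nat_lit 0) (XT.nd (nat_lit 78) (nat_lit 0) (nat_lit 0) (XT.lf (nat_lit 0) (nat_lit 1171915740) (nat_lit 912) (nat_lit 7447644049) (nat_lit 988) (nat_lit 15424492388) (nat_lit 441) (nat_lit 5) (nat_lit 453)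 (nat_lit 5) (nat_lit 454) (nat_lit 5) (nat_lit 623) (nat_lit 595) (nat_lit 342)) (XT.lf (nat_lit 0) (nat_lit 11039527675) (nat_lit 988) (nat_lit 9836588387) (nat_lit 76) (nat_lit 3427165501) (nat_lit 441) (nat_lit 5) (nat_lit 454) (nat_lit 5) (nat_lit 442) (nat_lit 5) (nat_lit 624) (nat_lit 595) (nat_lit 341))) (XT.nd (nat_lit 78) (nat_lit 836) (nat_lit 0) (XT.lf (nat_lit 0) (nat_lit 3452600648) (nat_lit 912) (nat_lit 10123784245) (nat_lit 988) (nat_lit 10989940936) (nat_lit 429) (nat_lit 5) (nat_lit 441) (nat_lit 5) (nat_lit 442) (nat_lit 5) (nat_lit 625) (nat_lit 595) (nat_lit 340)) (XT.nd (nat_lit 78) (nat_lit 836) (nat_lit 0) (XT.lf (nat_lit 0) (nat_lit 16232698944) (nat_lit 988) (nat_lit 7701388942) (nat_lit 76) (nat_lit 899168791) (nat_lit 429) (nat_lit 5) (nat_lit 442) (nat_lit 5) (nat_lit 430) (nat_lit 5) (nat_lit 626) (nat_lit 595) (nat_lit 339)) (XT.lf (nat_lit 0) (nat_lit 5987663845) (nat_lit 836) (nat_lit 13057255739) (nat_lit 912) (nat_lit 6058551038) (nat_lit 418) (nat_lit 5) (nat_lit 429)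 (nat_lit 5) (nat_lit 430) (nat_lit 5) (nat_lit 627) (nat_lit 595) (nat_lit 338))))) (XT.nd (nat_lit 156) (nat_lit 1748) (nat_lit 0) (XT.nd (nat_lit 78) (nat_lit 912) (nat_lit 0) (XT.lf (nat_lit 0) (nat_lit 20051897339) (nat_lit 836) (nat_lit 1910069302) (nat_lit 912) (nat_lit 3416150652) (nat_lit 418) (nat_lit 5) (nat_lit 429) (nat_lit 5) (nat_lit 430) (nat_lit 5) (nat_lit 628) (nat_lit 595) (nat_lit 337)) (XT.lf (nat_lit 0) (nat_lit 8790022863) (nat_lit 912) (nat_lit 16262786468) (nat_lit 988) (nat_lit 603138558) (nat_lit 406) (nat_lit 5) (nat_lit 418) (nat_lit 5) (nat_lit 419) (nat_lit 5) (nat_lit 629) (nat_lit 595) (nat_lit 336))) (XT.nd (nat_lit 78) (nat_lit 1672) (nat_lit 0) (XT.lf (nat_lit 0) (nat_lit 2282024259) (nat_lit 988) (nat_lit 2708448753) (nat_lit 76) (nat_lit 20947655676) (nat_lit 405) (nat_lit 5) (nat_lit 418) (nat_lit 5) (nat_lit 406) (nat_lit 5) (nat_lit 630) (nat_lit 595) (nat_lit 335)) (XT.nd (nat_lit 78) (nat_lit 836) (nat_lit 0) (XT.lf (nat_lit 0) (nat_lit 5333790893) (nat_lit 912)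 (nat_lit 14386130530) (nat_lit 76) (nat_lit 6503612493) (nat_lit 394) (nat_lit 5) (nat_lit 406) (nat_lit 5) (nat_lit 395) (nat_lit 5) (nat_lit 631) (nat_lit 595) (nat_lit 334)) (XT.lf (nat_lit 0) (nat_lit 162567193) (nat_lit 836) (nat_lit 8333507385) (nat_lit 912) (nat_lit 18017583115) (nat_lit 383) (nat_lit 5) (nat_lit 394) (nat_lit 5) (nat_lit 395) (nat_lit 5) (nat_lit 632) (nat_lit 595) (nat_lit 333)))))) (XT.nd (nat_lit 390) (nat_lit 2964) (nat_lit 0) (XT.nd (nat_lit 156) (nat_lit 760) (nat_lit 0) (XT.nd (nat_lit 78) (nat_lit 760) (nat_lit 0) (XT.lf (nat_lit 0) (nat_lit 11837200349) (nat_lit 912) (nat_lit 11635380855) (nat_lit 76) (nat_lit 3334690890) (nat_lit 383) (nat_lit 5) (nat_lit 395) (nat_lit 5) (nat_lit 384) (nat_lit 5) (nat_lit 633) (nat_lit 595) (nat_lit 332)) (XT.lf (nat_lit 0) (nat_lit 3360553007) (nat_lit 760) (nat_lit 11958778374) (nat_lit 836) (nat_lit 11785943821) (nat_lit 373) (nat_lit 5) (nat_lit 383) (nat_lit 5) (nat_lit 384) (nat_lit 5) (nat_lit 634) (nat_lit 595) (nat_lit 331)))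 (XT.nd (nat_lit 78) (nat_lit 760) (nat_lit 0) (XT.lf (nat_lit 0) (nat_lit 18811170331) (nat_lit 760) (nat_lit 135225452) (nat_lit 836) (nat_lit 8461336849) (nat_lit 373) (nat_lit 5) (nat_lit 383) (nat_lit 5) (nat_lit 384) (nat_lit 5) (nat_lit 635) (nat_lit 595) (nat_lit 330)) (XT.nd (nat_lit 78) (nat_lit 0) (nat_lit 0) (XT.lf (nat_lit 0) (nat_lit 6864210849) (nat_lit 760) (nat_lit 15901046172) (nat_lit 836) (nat_lit 4948597151) (nat_lit 363) (nat_lit 5) (nat_lit 373) (nat_lit 5) (nat_lit 374) (nat_lit 5) (nat_lit 636) (nat_lit 595) (nat_lit 329)) (XT.lf (nat_lit 0) (nat_lit 22746888514) (nat_lit 760) (nat_lit 3969483498) (nat_lit 836) (nat_lit 1308608671) (nat_lit 363) (nat_lit 5) (nat_lit 373) (nat_lit 5) (nat_lit 374) (nat_lit 5) (nat_lit 637) (nat_lit 595) (nat_lit 328))))) (XT.nd (nat_lit 234) (nat_lit 1368) (nat_lit 0) (XT.nd (nat_lit 78) (nat_lit 760) (nat_lit 0) (XT.lf (nat_lit 0) (nat_lit 2493437758) (nat_lit 836) (nat_lit 17667427844) (nat_lit 76) (nat_lit 8178736211) (nat_lit 352) (nat_lit 5) (nat_lit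 363) (nat_lit 5) (nat_lit 353) (nat_lit 5) (nat_lit 638) (nat_lit 595) (nat_lit 327)) (XT.nd (nat_lit 78) (nat_lit 760) (nat_lit 0) (XT.lf (nat_lit 0) (nat_lit 6413327118) (nat_lit 836) (nat_lit 1684946490) (nat_lit 76) (nat_lit 20560882339) (nat_lit 352) (nat_lit 5) (nat_lit 363) (nat_lit 5) (nat_lit 353) (nat_lit 5) (nat_lit 639) (nat_lit 595) (nat_lit 326)) (XT.lf (nat_lit 0) (nat_lit 10533119318) (nat_lit 836) (nat_lit 14202653567) (nat_lit 76) (nat_lit 4246898247) (nat_lit 342) (nat_lit 5) (nat_lit 353) (nat_lit 5) (nat_lit 343) (nat_lit 5) (nat_lit 640) (nat_lit 595) (nat_lit 325)))) (XT.nd (nat_lit 78) (nat_lit 684) (nat_lit 0) (XT.lf (nat_lit 0) (nat_lit 2257679969) (nat_lit 684) (nat_lit 12554746647) (nat_lit 760) (nat_lit 14498687681) (nat_lit 333) (nat_lit 5) (nat_lit 342) (nat_lit 5) (nat_lit 343) (nat_lit 5) (nat_lit 641) (nat_lit 595) (nat_lit 324)) (XT.nd (nat_lit 78) (nat_lit 684) (nat_lit 0) (XT.lf (nat_lit 0) (nat_lit 19236845664) (nat_lit 684) (nat_lit 33261105) (nat_lit 760) (nat_lit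 10374163886) (nat_lit 333) (nat_lit 5) (nat_lit 342) (nat_lit 5) (nat_lit 343) (nat_lit 5) (nat_lit 642) (nat_lit 595) (nat_lit 323)) (XT.lf (nat_lit 0) (nat_lit 6572105536) (nat_lit 684) (nat_lit 17367739716) (nat_lit 760) (nat_lit 6041786854) (nat_lit 324) (nat_lit 5) (nat_lit 333) (nat_lit 5) (nat_lit 334) (nat_lit 5) (nat_lit 643) (nat_lit 595) (nat_lit 322))))))))
noncomputable def xc190 : XT := (XT.nd (nat_lit 1560) (nat_lit 3724) (nat_lit 0) (XT.nd (nat_lit 780) (nat_lit 3420) (nat_lit 0) (XT.nd (nat_lit 390) (nat_lit 1292) (nat_lit 0) (XT.nd (nat_lit 156) (nat_lit 1292) (nat_lit 0) (XT.nd (nat_lit 78) (nat_lit 760) (nat_lit 0) (XT.lf (nat_lit 0) (nat_lit 24029212293) (nat_lit 684) (nat_lit 4741380689) (nat_lit 760) (nat_lit 1553795576) (nat_lit 324) (nat_lit 5) (nat_lit 333) (nat_lit 5) (nat_lit 334) (nat_lit 5) (nat_lit 644) (nat_lit 595) (nat_lit 321)) (XT.lf (nat_lit 0) (nat_lit 3108613575) (nat_lit 760) (nat_lit 19438620429) (nat_lit 76) (nat_lit 8123887168) (nat_lit 314) (nat_lit 5) (nat_lit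 324) (nat_lit 5) (nat_lit 315) (nat_lit 5) (nat_lit 645) (nat_lit 595) (nat_lit 320))) (XT.nd (nat_lit 78) (nat_lit 1292) (nat_lit 0) (XT.lf (nat_lit 0) (nat_lit 7915023050) (nat_lit 760) (nat_lit 1872717778) (nat_lit 76) (nat_lit 21235411105) (nat_lit 314) (nat_lit 5) (nat_lit 324) (nat_lit 5) (nat_lit 315) (nat_lit 5) (nat_lit 646) (nat_lit 595) (nat_lit 319)) (XT.nd (nat_lit 78) (nat_lit 608) (nat_lit 0) (XT.lf (nat_lit 0) (nat_lit 12942406661) (nat_lit 760) (nat_lit 15146930507) (nat_lit 76) (nat_lit 3290389277) (nat_lit 305) (nat_lit 5) (nat_lit 315) (nat_lit 5) (nat_lit 306) (nat_lit 5) (nat_lit 647) (nat_lit 595) (nat_lit 318)) (XT.lf (nat_lit 0) (nat_lit 2953621574) (nat_lit 608) (nat_lit 15211048659) (nat_lit 684) (nat_lit 13576875625) (nat_lit 297) (nat_lit 5) (nat_lit 305) (nat_lit 5) (nat_lit 306) (nat_lit 5) (nat_lit 648) (nat_lit 595) (nat_lit 317))))) (XT.nd (nat_lit 156) (nat_lit 684) (nat_lit 0) (XT.nd (nat_lit 78) (nat_lit 608) (nat_lit 0) (XT.lf (nat_lit 0) (nat_lit 21618686986) (nat_lit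 608) (nat_lit 1972048841) (nat_lit 684) (nat_lit 8517878752) (nat_lit 297) (nat_lit 5) (nat_lit 305) (nat_lit 5) (nat_lit 306) (nat_lit 5) (nat_lit 649) (nat_lit 595) (nat_lit 316)) (XT.lf (nat_lit 0) (nat_lit 8203949057) (nat_lit 608) (nat_lit 21047265138) (nat_lit 684) (nat_lit 3229292701) (nat_lit 289) (nat_lit 5) (nat_lit 297) (nat_lit 5) (nat_lit 298) (nat_lit 5) (nat_lit 650) (nat_lit 595) (nat_lit 315))) (XT.nd (nat_lit 78) (nat_lit 608) (nat_lit 0) (XT.lf (nat_lit 0) (nat_lit 2218354422) (nat_lit 684) (nat_lit 5474931265) (nat_lit 76) (nat_lit 25164636591) (nat_lit 288) (nat_lit 5) (nat_lit 297) (nat_lit 5) (nat_lit 289) (nat_lit 5) (nat_lit 651) (nat_lit 595) (nat_lit 314)) (XT.nd (nat_lit 78) (nat_lit 0) (nat_lit 0) (XT.lf (nat_lit 0) (nat_lit 7858775617) (nat_lit 684) (nat_lit 19419560964) (nat_lit 76) (nat_lit 5961581297) (nat_lit 280) (nat_lit 5) (nat_lit 289) (nat_lit 5) (nat_lit 281) (nat_lit 5) (nat_lit 652) (nat_lit 595) (nat_lit 313)) (XT.lf (nat_lit 0) (nat_lit 13697767871) (nat_lit 684)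 (nat_lit 107027952) (nat_lit 76) (nat_lit 19823042362) (nat_lit 280) (nat_lit 5) (nat_lit 289) (nat_lit 5) (nat_lit 281) (nat_lit 5) (nat_lit 653) (nat_lit 595) (nat_lit 312)))))) (XT.nd (nat_lit 390) (nat_lit 1596) (nat_lit 0) (XT.nd (nat_lit 156) (nat_lit 684) (nat_lit 0) (XT.nd (nat_lit 78) (nat_lit 532) (nat_lit 0) (XT.lf (nat_lit 0) (nat_lit 19780736868) (nat_lit 684) (nat_lit 14172074392) (nat_lit 76) (nat_lit 68161749) (nat_lit 272) (nat_lit 5) (nat_lit 281) (nat_lit 5) (nat_lit 273) (nat_lit 5) (nat_lit 654) (nat_lit 595) (nat_lit 311)) (XT.lf (nat_lit 0) (nat_lit 5764870625) (nat_lit 532) (nat_lit 20347962887) (nat_lit 608) (nat_lit 8306587698) (nat_lit 265) (nat_lit 5) (nat_lit 272) (nat_lit 5) (nat_lit 273) (nat_lit 5) (nat_lit 655) (nat_lit 595) (nat_lit 310))) (XT.nd (nat_lit 78) (nat_lit 684) (nat_lit 0) (XT.lf (nat_lit 0) (nat_lit 26289931030) (nat_lit 532) (nat_lit 6374660166) (nat_lit 608) (nat_lit 2159386843) (nat_lit 265) (nat_lit 5) (nat_lit 272) (nat_lit 5) (nat_lit 273) (nat_lit 5)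 (nat_lit 656) (nat_lit 595) (nat_lit 309)) (XT.nd (nat_lit 78) (nat_lit 0) (nat_lit 0) (XT.lf (nat_lit 0) (nat_lit 4185313262) (nat_lit 684) (nat_lit 23167994847) (nat_lit 76) (nat_lit 7880214774) (nat_lit 256) (nat_lit 5) (nat_lit 265) (nat_lit 5) (nat_lit 257) (nat_lit 5) (nat_lit 657) (nat_lit 595) (nat_lit 308)) (XT.lf (nat_lit 0) (nat_lit 10725846639) (nat_lit 684) (nat_lit 2516955777) (nat_lit 76) (nat_lit 22406213710) (nat_lit 256) (nat_lit 5) (nat_lit 265) (nat_lit 5) (nat_lit 257) (nat_lit 5) (nat_lit 658) (nat_lit 595) (nat_lit 307))))) (XT.nd (nat_lit 156) (nat_lit 532) (nat_lit 0) (XT.nd (nat_lit 78) (nat_lit 532) (nat_lit 0) (XT.lf (nat_lit 0) (nat_lit 17525466026) (nat_lit 608) (nat_lit 17287807757) (nat_lit 76) (nat_lit 1256979985) (nat_lit 249) (nat_lit 5) (nat_lit 257) (nat_lit 5) (nat_lit 250) (nat_lit 5) (nat_lit 659) (nat_lit 595) (nat_lit 306)) (XT.lf (nat_lit 0) (nat_lit 4004394852) (nat_lit 532) (nat_lit 20585405198) (nat_lit 608) (nat_lit 11907541711) (nat_lit 242) (nat_lit 5) (nat_lit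 249) (nat_lit 5) (nat_lit 250) (nat_lit 5) (nat_lit 660) (nat_lit 595) (nat_lit 305))) (XT.nd (nat_lit 78) (nat_lit 532) (nat_lit 0) (XT.lf (nat_lit 0) (nat_lit 25954113528) (nat_lit 532) (nat_lit 5955359435) (nat_lit 608) (nat_lit 5021217547) (nat_lit 242) (nat_lit 5) (nat_lit 249) (nat_lit 5) (nat_lit 250) (nat_lit 5) (nat_lit 661) (nat_lit 595) (nat_lit 304)) (XT.nd (nat_lit 78) (nat_lit 0) (nat_lit 0) (XT.lf (nat_lit 0) (nat_lit 2105482416) (nat_lit 532) (nat_lit 26329770176) (nat_lit 76) (nat_lit 8934615270) (nat_lit 235) (nat_lit 5) (nat_lit 242) (nat_lit 5) (nat_lit 236) (nat_lit 5) (nat_lit 662) (nat_lit 595) (nat_lit 303)) (XT.lf (nat_lit 0) (nat_lit 9419214784) (nat_lit 532) (nat_lit 4246298136) (nat_lit 76) (nat_lit 24149417424) (nat_lit 235) (nat_lit 5) (nat_lit 242) (nat_lit 5) (nat_lit 236) (nat_lit 5) (nat_lit 663) (nat_lit 595) (nat_lit 302))))))) (XT.nd (nat_lit 780) (nat_lit 836) (nat_lit 0) (XT.nd (nat_lit 390) (nat_lit 1368) (nat_lit 0) (XT.nd (nat_lit 156) (nat_lit 532) (nat_lit 0) (XT.nd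 (nat_lit 78) (nat_lit 456) (nat_lit 0) (XT.lf (nat_lit 0) (nat_lit 17007460380) (nat_lit 608) (nat_lit 19757287126) (nat_lit 76) (nat_lit 1501581836) (nat_lit 228) (nat_lit 5) (nat_lit 236) (nat_lit 5) (nat_lit 229) (nat_lit 5) (nat_lit 664) (nat_lit 595) (nat_lit 301)) (XT.lf (nat_lit 0) (nat_lit 2996856549) (nat_lit 456) (nat_lit 21887392242) (nat_lit 532) (nat_lit 13839772008) (nat_lit 222) (nat_lit 5) (nat_lit 228) (nat_lit 5) (nat_lit 229) (nat_lit 5) (nat_lit 665) (nat_lit 595) (nat_lit 300))) (XT.nd (nat_lit 78) (nat_lit 532) (nat_lit 0) (XT.lf (nat_lit 0) (nat_lit 26471293959) (nat_lit 456) (nat_lit 6578017067) (nat_lit 532) (nat_lit 6138940333) (nat_lit 222) (nat_lit 5) (nat_lit 228) (nat_lit 5) (nat_lit 229) (nat_lit 5) (nat_lit 666) (nat_lit 595) (nat_lit 299)) (XT.nd (nat_lit 78) (nat_lit 0) (nat_lit 0) (XT.lf (nat_lit 0) (nat_lit 1821454614) (nat_lit 532) (nat_lit 28836920856) (nat_lit 76) (nat_lit 9000607259) (nat_lit 215) (nat_lit 5) (nat_lit 222) (nat_lit 5) (nat_lit 216) (nat_lit 5) (nat_lit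 667) (nat_lit 595) (nat_lit 298)) (XT.lf (nat_lit 0) (nat_lit 9986594068) (nat_lit 532) (nat_lit 5220553816) (nat_lit 76) (nat_lit 24928614567) (nat_lit 215) (nat_lit 5) (nat_lit 222) (nat_lit 5) (nat_lit 216) (nat_lit 5) (nat_lit 668) (nat_lit 595) (nat_lit 297))))) (XT.nd (nat_lit 156) (nat_lit 456) (nat_lit 0) (XT.nd (nat_lit 78) (nat_lit 456) (nat_lit 0) (XT.lf (nat_lit 0) (nat_lit 18441790101) (nat_lit 532) (nat_lit 21507725357) (nat_lit 76) (nat_lit 670027267) (nat_lit 209) (nat_lit 5) (nat_lit 216) (nat_lit 5) (nat_lit 210) (nat_lit 5) (nat_lit 669) (nat_lit 595) (nat_lit 296)) (XT.lf (nat_lit 0) (nat_lit 2822830148) (nat_lit 456) (nat_lit 24395805080) (nat_lit 532) (nat_lit 13891312506) (nat_lit 203) (nat_lit 5) (nat_lit 209) (nat_lit 5) (nat_lit 210) (nat_lit 5) (nat_lit 670) (nat_lit 595) (nat_lit 295))) (XT.nd (nat_lit 78) (nat_lit 456) (nat_lit 0) (XT.lf (nat_lit 0) (nat_lit 27929002258) (nat_lit 456) (nat_lit 8384604361) (nat_lit 532) (nat_lit 5293702469) (nat_lit 203) (nat_lit 5) (nat_lit 209)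 (nat_lit 5) (nat_lit 210) (nat_lit 5) (nat_lit 671) (nat_lit 595) (nat_lit 294)) (XT.nd (nat_lit 78) (nat_lit 0) (nat_lit 0) (XT.lf (nat_lit 0) (nat_lit 3555778353) (nat_lit 456) (nat_lit 30615867675) (nat_lit 76) (nat_lit 7940010217) (nat_lit 197) (nat_lit 5) (nat_lit 203) (nat_lit 5) (nat_lit 198) (nat_lit 5) (nat_lit 672) (nat_lit 595) (nat_lit 293)) (XT.lf (nat_lit 0) (nat_lit 12657652334) (nat_lit 456) (nat_lit 5359191119) (nat_lit 76) (nat_lit 24605621371) (nat_lit 197) (nat_lit 5) (nat_lit 203) (nat_lit 5) (nat_lit 198) (nat_lit 5) (nat_lit 673) (nat_lit 595) (nat_lit 292)))))) (XT.nd (nat_lit 76206) (nat_lit 0) (nat_lit 22952) (XT.nd (nat_lit 75972) (nat_lit 0) (nat_lit 22800) (XT.nd (nat_lit 78) (nat_lit 380) (nat_lit 0) (XT.lf (nat_lit 0) (nat_lit 20671252843) (nat_lit 456) (nat_lit 1402852111) (nat_lit 532) (nat_lit 21066733828) (nat_lit 191) (nat_lit 5) (nat_lit 197) (nat_lit 5) (nat_lit 198) (nat_lit 5) (nat_lit 674) (nat_lit 595) (nat_lit 291)) (XT.lf (nat_lit 0) (nat_lit 3569260176) (nat_lit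 380) (nat_lit 28268261057) (nat_lit 456) (nat_lit 11828886323) (nat_lit 186) (nat_lit 5) (nat_lit 191) (nat_lit 5) (nat_lit 192) (nat_lit 5) (nat_lit 675) (nat_lit 595) (nat_lit 290))) (XT.nd (nat_lit 78) (nat_lit 0) (nat_lit 76) (XT.lf (nat_lit 76) (nat_lit 703441014) (nat_lit 0) (nat_lit 3396597587) (nat_lit 1900) (nat_lit 16438540280) (nat_lit 487) (nat_lit 5) (nat_lit 486) (nat_lit 5) (nat_lit 511) (nat_lit 5) (nat_lit 607) (nat_lit 596) (nat_lit 357)) (XT.nd (nat_lit 78) (nat_lit 0) (nat_lit 0) (XT.lf (nat_lit 0) (nat_lit 5090573293) (nat_lit 1824) (nat_lit 9270009142) (nat_lit 1900) (nat_lit 6386756984) (nat_lit 487) (nat_lit 5) (nat_lit 511) (nat_lit 5) (nat_lit 512) (nat_lit 5) (nat_lit 608) (nat_lit 596) (nat_lit 356)) (XT.lf (nat_lit 76) (nat_lit 1500727347) (nat_lit 0) (nat_lit 4628243190) (nat_lit 1900) (nat_lit 14830743718) (nat_lit 488) (nat_lit 5) (nat_lit 487) (nat_lit 5) (nat_lit 512) (nat_lit 5) (nat_lit 609) (nat_lit 596) (nat_lit 355))))) (XT.nd (nat_lit 234) (nat_lit 0) (nat_lit 76)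 (XT.nd (nat_lit 78) (nat_lit 0) (nat_lit 0) (XT.lf (nat_lit 0) (nat_lit 7281043054) (nat_lit 1824) (nat_lit 8600326262) (nat_lit 1900) (nat_lit 5293109249) (nat_lit 488) (nat_lit 5) (nat_lit 512) (nat_lit 5) (nat_lit 513) (nat_lit 5) (nat_lit 610) (nat_lit 596) (nat_lit 354)) (XT.nd (nat_lit 78) (nat_lit 0) (nat_lit 76) (XT.lf (nat_lit 76) (nat_lit 2474412414) (nat_lit 0) (nat_lit 6024427192) (nat_lit 1900) (nat_lit 12893845025) (nat_lit 489) (nat_lit 5) (nat_lit 488) (nat_lit 5) (nat_lit 513) (nat_lit 5) (nat_lit 611) (nat_lit 596) (nat_lit 353)) (XT.lf (nat_lit 0) (nat_lit 9821284149) (nat_lit 1824) (nat_lit 7756384967) (nat_lit 1900) (nat_lit 4035979979) (nat_lit 489) (nat_lit 5) (nat_lit 513) (nat_lit 5) (nat_lit 514) (nat_lit 5) (nat_lit 612) (nat_lit 596) (nat_lit 352)))) (XT.nd (nat_lit 78) (nat_lit 0) (nat_lit 76) (XT.lf (nat_lit 76) (nat_lit 3633591935) (nat_lit 0) (nat_lit 7596185926) (nat_lit 1900) (nat_lit 10608063097) (nat_lit 490) (nat_lit 5) (nat_lit 489) (nat_lit 5) (nat_lit 514) (nat_lit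 5) (nat_lit 613) (nat_lit 596) (nat_lit 351)) (XT.nd (nat_lit 78) (nat_lit 0) (nat_lit 0) (XT.lf (nat_lit 0) (nat_lit 12731793974) (nat_lit 1824) (nat_lit 6729065384) (nat_lit 1900) (nat_lit 2604350364) (nat_lit 490) (nat_lit 5) (nat_lit 514) (nat_lit 5) (nat_lit 515) (nat_lit 5) (nat_lit 614) (nat_lit 596) (nat_lit 350)) (XT.lf (nat_lit 76) (nat_lit 4987820289) (nat_lit 0) (nat_lit 9354970559) (nat_lit 1900) (nat_lit 7952756317) (nat_lit 491) (nat_lit 5) (nat_lit 490) (nat_lit 5) (nat_lit 515) (nat_lit 5) (nat_lit 615) (nat_lit 596) (nat_lit 349))))))))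
noncomputable def xc191 : XT := (XT.nd (nat_lit 1560) (nat_lit 8208) (nat_lit 0) (XT.nd (nat_lit 780) (nat_lit 5168) (nat_lit 0) (XT.nd (nat_lit 390) (nat_lit 1976) (nat_lit 0) (XT.nd (nat_lit 156) (nat_lit 1824) (nat_lit 0) (XT.nd (nat_lit 78) (nat_lit 0) (nat_lit 0) (XT.lf (nat_lit 0) (nat_lit 16033960302) (nat_lit 1824) (nat_lit 5508789092) (nat_lit 1900) (nat_lit 986783021) (nat_lit 491) (nat_lit 5) (nat_lit 515) (nat_lit 5) (nat_lit 516) (nat_lit 5) (nat_lit 616) (nat_lit 596) (nat_lit 348)) (XT.lf (nat_lit 76) (nat_lit 6547127034) (nat_lit 0) (nat_lit 11312670479) (nat_lit 1900) (nat_lit 4906383075) (nat_lit 492) (nat_lit 5) (nat_lit 491) (nat_lit 5) (nat_lit 516) (nat_lit 5) (nat_lit 617) (nat_lit 596) (nat_lit 347))) (XT.nd (nat_lit 78) (nat_lit 1824) (nat_lit 0) (XT.lf (nat_lit 76) (nat_lit 18915940023) (nat_lit 0) (nat_lit 839613086) (nat_lit 1900) (nat_lit 3251340687) (nat_lit 492) (nat_lit 5) (nat_lit 491) (nat_lit 5) (nat_lit 516) (nat_lit 5) (nat_lit 618) (nat_lit 596) (nat_lit 346)) (XT.nd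 (nat_lit 78) (nat_lit 1900) (nat_lit 0) (XT.lf (nat_lit 76) (nat_lit 8322034236) (nat_lit 0) (nat_lit 13481637362) (nat_lit 1900) (nat_lit 1446460820) (nat_lit 493) (nat_lit 5) (nat_lit 492) (nat_lit 5) (nat_lit 517) (nat_lit 5) (nat_lit 619) (nat_lit 596) (nat_lit 345)) (XT.lf (nat_lit 0) (nat_lit 419072818) (nat_lit 1900) (nat_lit 2470193467) (nat_lit 1976) (nat_lit 20608323789) (nat_lit 467) (nat_lit 5) (nat_lit 492) (nat_lit 5) (nat_lit 493) (nat_lit 5) (nat_lit 620) (nat_lit 596) (nat_lit 344))))) (XT.nd (nat_lit 156) (nat_lit 2052) (nat_lit 0) (XT.nd (nat_lit 78) (nat_lit 0) (nat_lit 0) (XT.lf (nat_lit 0) (nat_lit 2418337990) (nat_lit 1900) (nat_lit 13440143659) (nat_lit 76) (nat_lit 7889008332) (nat_lit 468) (nat_lit 5) (nat_lit 493) (nat_lit 5) (nat_lit 469) (nat_lit 5) (nat_lit 621) (nat_lit 596) (nat_lit 343)) (XT.lf (nat_lit 0) (nat_lit 4490063567) (nat_lit 1900) (nat_lit 650311998) (nat_lit 76) (nat_lit 18861362912) (nat_lit 468) (nat_lit 5) (nat_lit 493) (nat_lit 5) (nat_lit 469) (nat_lit 5)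 (nat_lit 622) (nat_lit 596) (nat_lit 342))) (XT.nd (nat_lit 78) (nat_lit 912) (nat_lit 0) (XT.lf (nat_lit 0) (nat_lit 6719621941) (nat_lit 1216) (nat_lit 11740525569) (nat_lit 76) (nat_lit 5798596562) (nat_lit 453) (nat_lit 5) (nat_lit 469) (nat_lit 5) (nat_lit 454) (nat_lit 5) (nat_lit 623) (nat_lit 596) (nat_lit 341)) (XT.nd (nat_lit 78) (nat_lit 0) (nat_lit 0) (XT.lf (nat_lit 0) (nat_lit 1419758044) (nat_lit 912) (nat_lit 7618435124) (nat_lit 988) (nat_lit 15481808268) (nat_lit 441) (nat_lit 5) (nat_lit 453) (nat_lit 5) (nat_lit 454) (nat_lit 5) (nat_lit 624) (nat_lit 596) (nat_lit 340)) (XT.lf (nat_lit 0) (nat_lit 11501593126) (nat_lit 988) (nat_lit 9808342153) (nat_lit 76) (nat_lit 3474579613) (nat_lit 441) (nat_lit 5) (nat_lit 454) (nat_lit 5) (nat_lit 442) (nat_lit 5) (nat_lit 625) (nat_lit 596) (nat_lit 339)))))) (XT.nd (nat_lit 390) (nat_lit 2508) (nat_lit 0) (XT.nd (nat_lit 156) (nat_lit 1748) (nat_lit 0) (XT.nd (nat_lit 78) (nat_lit 0) (nat_lit 0) (XT.lf (nat_lit 0) (nat_lit 3745150544) (nat_lit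 912) (nat_lit 10340757160) (nat_lit 988) (nat_lit 10966978068) (nat_lit 429) (nat_lit 5) (nat_lit 441) (nat_lit 5) (nat_lit 442) (nat_lit 5) (nat_lit 626) (nat_lit 596) (nat_lit 338)) (XT.lf (nat_lit 0) (nat_lit 16790589185) (nat_lit 988) (nat_lit 7631535757) (nat_lit 76) (nat_lit 903125602) (nat_lit 429) (nat_lit 5) (nat_lit 442) (nat_lit 5) (nat_lit 430) (nat_lit 5) (nat_lit 627) (nat_lit 596) (nat_lit 337))) (XT.nd (nat_lit 78) (nat_lit 912) (nat_lit 0) (XT.lf (nat_lit 0) (nat_lit 6329825184) (nat_lit 836) (nat_lit 13326099814) (nat_lit 912) (nat_lit 5945006483) (nat_lit 418) (nat_lit 5) (nat_lit 429) (nat_lit 5) (nat_lit 430) (nat_lit 5) (nat_lit 628) (nat_lit 596) (nat_lit 336)) (XT.nd (nat_lit 78) (nat_lit 912) (nat_lit 0) (XT.lf (nat_lit 0) (nat_lit 20670982405) (nat_lit 836) (nat_lit 1955818689) (nat_lit 912) (nat_lit 3254360356) (nat_lit 418) (nat_lit 5) (nat_lit 429) (nat_lit 5) (nat_lit 430) (nat_lit 5) (nat_lit 629) (nat_lit 596) (nat_lit 335)) (XT.lf (nat_lit 0) (nat_lit 9186973068) (nat_lit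 912) (nat_lit 16589451942) (nat_lit 988) (nat_lit 388184484) (nat_lit 406) (nat_lit 5) (nat_lit 418) (nat_lit 5) (nat_lit 419) (nat_lit 5) (nat_lit 630) (nat_lit 596) (nat_lit 334))))) (XT.nd (nat_lit 156) (nat_lit 1596) (nat_lit 0) (XT.nd (nat_lit 78) (nat_lit 836) (nat_lit 0) (XT.lf (nat_lit 0) (nat_lit 2547311292) (nat_lit 988) (nat_lit 2542879338) (nat_lit 76) (nat_lit 21362301776) (nat_lit 405) (nat_lit 5) (nat_lit 418) (nat_lit 5) (nat_lit 406) (nat_lit 5) (nat_lit 631) (nat_lit 596) (nat_lit 333)) (XT.lf (nat_lit 0) (nat_lit 5657233736) (nat_lit 912) (nat_lit 14451229420) (nat_lit 76) (nat_lit 6635200290) (nat_lit 394) (nat_lit 5) (nat_lit 406) (nat_lit 5) (nat_lit 395) (nat_lit 5) (nat_lit 632) (nat_lit 596) (nat_lit 332))) (XT.nd (nat_lit 78) (nat_lit 760) (nat_lit 0) (XT.lf (nat_lit 0) (nat_lit 386977628) (nat_lit 836) (nat_lit 8492971044) (nat_lit 912) (nat_lit 18159697429) (nat_lit 383) (nat_lit 5) (nat_lit 394) (nat_lit 5) (nat_lit 395) (nat_lit 5) (nat_lit 633) (nat_lit 596) (nat_lit 331))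 (XT.nd (nat_lit 78) (nat_lit 760) (nat_lit 0) (XT.lf (nat_lit 0) (nat_lit 12283747681) (nat_lit 912) (nat_lit 11647110974) (nat_lit 76) (nat_lit 3408357231) (nat_lit 383) (nat_lit 5) (nat_lit 395) (nat_lit 5) (nat_lit 384) (nat_lit 5) (nat_lit 634) (nat_lit 596) (nat_lit 330)) (XT.lf (nat_lit 0) (nat_lit 3647287766) (nat_lit 760) (nat_lit 12185545071) (nat_lit 836) (nat_lit 11810400100) (nat_lit 373) (nat_lit 5) (nat_lit 383) (nat_lit 5) (nat_lit 384) (nat_lit 5) (nat_lit 635) (nat_lit 596) (nat_lit 329))))))) (XT.nd (nat_lit 780) (nat_lit 4484) (nat_lit 0) (XT.nd (nat_lit 390) (nat_lit 2128) (nat_lit 0) (XT.nd (nat_lit 156) (nat_lit 836) (nat_lit 0) (XT.nd (nat_lit 78) (nat_lit 760) (nat_lit 0) (XT.lf (nat_lit 0) (nat_lit 19402613050) (nat_lit 760) (nat_lit 125764402) (nat_lit 836) (nat_lit 8423443392) (nat_lit 373) (nat_lit 5) (nat_lit 383) (nat_lit 5) (nat_lit 384) (nat_lit 5) (nat_lit 636) (nat_lit 596) (nat_lit 328)) (XT.lf (nat_lit 0) (nat_lit 7219259682) (nat_lit 760) (nat_lit 16201866097) (nat_lit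 836) (nat_lit 4842988944) (nat_lit 363) (nat_lit 5) (nat_lit 373) (nat_lit 5) (nat_lit 374) (nat_lit 5) (nat_lit 637) (nat_lit 596) (nat_lit 327))) (XT.nd (nat_lit 78) (nat_lit 836) (nat_lit 0) (XT.lf (nat_lit 0) (nat_lit 23415321005) (nat_lit 760) (nat_lit 4032009444) (nat_lit 836) (nat_lit 1134212070) (nat_lit 363) (nat_lit 5) (nat_lit 373) (nat_lit 5) (nat_lit 374) (nat_lit 5) (nat_lit 638) (nat_lit 596) (nat_lit 326)) (XT.nd (nat_lit 78) (nat_lit 0) (nat_lit 0) (XT.lf (nat_lit 0) (nat_lit 2738882709) (nat_lit 836) (nat_lit 17802279087) (nat_lit 76) (nat_lit 8361315571) (nat_lit 352) (nat_lit 5) (nat_lit 363) (nat_lit 5) (nat_lit 353) (nat_lit 5) (nat_lit 639) (nat_lit 596) (nat_lit 325)) (XT.lf (nat_lit 0) (nat_lit 6733335029) (nat_lit 836) (nat_lit 1504432368) (nat_lit 76) (nat_lit 20990731983) (nat_lit 352) (nat_lit 5) (nat_lit 363) (nat_lit 5) (nat_lit 353) (nat_lit 5) (nat_lit 640) (nat_lit 596) (nat_lit 324))))) (XT.nd (nat_lit 156) (nat_lit 684) (nat_lit 0) (XT.nd (nat_lit 78) (nat_lit 684) (nat_lit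 0) (XT.lf (nat_lit 0) (nat_lit 10933297291) (nat_lit 836) (nat_lit 14270263040) (nat_lit 76) (nat_lit 4354969146) (nat_lit 342) (nat_lit 5) (nat_lit 353) (nat_lit 5) (nat_lit 343) (nat_lit 5) (nat_lit 641) (nat_lit 596) (nat_lit 323)) (XT.lf (nat_lit 0) (nat_lit 2517853195) (nat_lit 684) (nat_lit 12778017598) (nat_lit 760) (nat_lit 14597717205) (nat_lit 333) (nat_lit 5) (nat_lit 342) (nat_lit 5) (nat_lit 343) (nat_lit 5) (nat_lit 642) (nat_lit 596) (nat_lit 322))) (XT.nd (nat_lit 78) (nat_lit 684) (nat_lit 0) (XT.lf (nat_lit 0) (nat_lit 19832386133) (nat_lit 684) (nat_lit 6647914) (nat_lit 760) (nat_lit 10394446938) (nat_lit 333) (nat_lit 5) (nat_lit 342) (nat_lit 5) (nat_lit 343) (nat_lit 5) (nat_lit 643) (nat_lit 596) (nat_lit 321)) (XT.nd (nat_lit 78) (nat_lit 0) (nat_lit 0) (XT.lf (nat_lit 0) (nat_lit 6916439297) (nat_lit 684) (nat_lit 17683685341) (nat_lit 760) (nat_lit 5977505971) (nat_lit 324) (nat_lit 5) (nat_lit 333) (nat_lit 5) (nat_lit 334) (nat_lit 5) (nat_lit 644) (nat_lit 596) (nat_lit 320))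 (XT.lf (nat_lit 0) (nat_lit 24718513843) (nat_lit 684) (nat_lit 4805415000) (nat_lit 760) (nat_lit 1403384605) (nat_lit 324) (nat_lit 5) (nat_lit 333) (nat_lit 5) (nat_lit 334) (nat_lit 5) (nat_lit 645) (nat_lit 596) (nat_lit 319)))))) (XT.nd (nat_lit 390) (nat_lit 2432) (nat_lit 0) (XT.nd (nat_lit 156) (nat_lit 1292) (nat_lit 0) (XT.nd (nat_lit 78) (nat_lit 0) (nat_lit 0) (XT.lf (nat_lit 0) (nat_lit 3347954875) (nat_lit 760) (nat_lit 19614349133) (nat_lit 76) (nat_lit 8318691976) (nat_lit 314) (nat_lit 5) (nat_lit 324) (nat_lit 5) (nat_lit 315) (nat_lit 5) (nat_lit 646) (nat_lit 596) (nat_lit 318)) (XT.lf (nat_lit 0) (nat_lit 8247018637) (nat_lit 760) (nat_lit 1701305757) (nat_lit 76) (nat_lit 21691812528) (nat_lit 314) (nat_lit 5) (nat_lit 324) (nat_lit 5) (nat_lit 315) (nat_lit 5) (nat_lit 647) (nat_lit 596) (nat_lit 317))) (XT.nd (nat_lit 78) (nat_lit 608) (nat_lit 0) (XT.lf (nat_lit 0) (nat_lit 13373124111) (nat_lit 760) (nat_lit 15239172864) (nat_lit 76) (nat_lit 3391582548) (nat_lit 305) (nat_lit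 5) (nat_lit 315) (nat_lit 5) (nat_lit 306) (nat_lit 5) (nat_lit 648) (nat_lit 596) (nat_lit 316)) (XT.nd (nat_lit 78) (nat_lit 0) (nat_lit 0) (XT.lf (nat_lit 0) (nat_lit 3222004099) (nat_lit 608) (nat_lit 15475817848) (nat_lit 684) (nat_lit 13675153676) (nat_lit 297) (nat_lit 5) (nat_lit 305) (nat_lit 5) (nat_lit 306) (nat_lit 5) (nat_lit 649) (nat_lit 596) (nat_lit 315)) (XT.lf (nat_lit 0) (nat_lit 22256266700) (nat_lit 608) (nat_lit 1972811597) (nat_lit 684) (nat_lit 8518374109) (nat_lit 297) (nat_lit 5) (nat_lit 305) (nat_lit 5) (nat_lit 306) (nat_lit 5) (nat_lit 650) (nat_lit 596) (nat_lit 314))))) (XT.nd (nat_lit 234) (nat_lit 1140) (nat_lit 0) (XT.nd (nat_lit 78) (nat_lit 684) (nat_lit 0) (XT.lf (nat_lit 0) (nat_lit 8574947027) (nat_lit 608) (nat_lit 21426143612) (nat_lit 684) (nat_lit 3125725520) (nat_lit 289) (nat_lit 5) (nat_lit 297) (nat_lit 5) (nat_lit 298) (nat_lit 5) (nat_lit 651) (nat_lit 596) (nat_lit 313)) (XT.nd (nat_lit 78) (nat_lit 608) (nat_lit 0) (XT.lf (nat_lit 0) (nat_lit 2425415312)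 (nat_lit 684) (nat_lit 5379402338) (nat_lit 76) (nat_lit 25707005514) (nat_lit 288) (nat_lit 5) (nat_lit 297) (nat_lit 5) (nat_lit 289) (nat_lit 5) (nat_lit 652) (nat_lit 596) (nat_lit 312)) (XT.lf (nat_lit 0) (nat_lit 8177055501) (nat_lit 684) (nat_lit 19601331589) (nat_lit 76) (nat_lit 6123103447) (nat_lit 280) (nat_lit 5) (nat_lit 289) (nat_lit 5) (nat_lit 281) (nat_lit 5) (nat_lit 653) (nat_lit 596) (nat_lit 311)))) (XT.nd (nat_lit 78) (nat_lit 532) (nat_lit 0) (XT.lf (nat_lit 0) (nat_lit 94641944) (nat_lit 608) (nat_lit 14035641225) (nat_lit 684) (nat_lit 20166937041) (nat_lit 272) (nat_lit 5) (nat_lit 280) (nat_lit 5) (nat_lit 281) (nat_lit 5) (nat_lit 654) (nat_lit 596) (nat_lit 310)) (XT.nd (nat_lit 78) (nat_lit 532) (nat_lit 0) (XT.lf (nat_lit 0) (nat_lit 20332799357) (nat_lit 684) (nat_lit 14251445490) (nat_lit 76) (nat_lit 114015196) (nat_lit 272) (nat_lit 5) (nat_lit 281) (nat_lit 5) (nat_lit 273) (nat_lit 5) (nat_lit 655) (nat_lit 596) (nat_lit 309)) (XT.lf (nat_lit 0) (nat_lit 6082895859) (nat_lit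 532) (nat_lit 20706890716) (nat_lit 608) (nat_lit 8314925729) (nat_lit 265) (nat_lit 5) (nat_lit 272) (nat_lit 5) (nat_lit 273) (nat_lit 5) (nat_lit 656) (nat_lit 596) (nat_lit 308))))))))
noncomputable def xc192 : XT := (XT.nd (nat_lit 77298) (nat_lit 0) (nat_lit 19000) (XT.nd (nat_lit 780) (nat_lit 2356) (nat_lit 0) (XT.nd (nat_lit 390) (nat_lit 1520) (nat_lit 0) (XT.nd (nat_lit 156) (nat_lit 1064) (nat_lit 0) (XT.nd (nat_lit 78) (nat_lit 684) (nat_lit 0) (XT.lf (nat_lit 0) (nat_lit 27014482417) (nat_lit 532) (nat_lit 6455063733) (nat_lit 608) (nat_lit 2047874852) (nat_lit 265) (nat_lit 5) (nat_lit 272) (nat_lit 5) (nat_lit 273) (nat_lit 5) (nat_lit 657) (nat_lit 596) (nat_lit 307)) (XT.lf (nat_lit 0) (nat_lit 4420306688) (nat_lit 684) (nat_lit 23429182933) (nat_lit 76) (nat_lit 8085674769) (nat_lit 256) (nat_lit 5) (nat_lit 265) (nat_lit 5) (nat_lit 257) (nat_lit 5) (nat_lit 658) (nat_lit 596) (nat_lit 306))) (XT.nd (nat_lit 78) (nat_lit 1064) (nat_lit 0) (XT.lf (nat_lit 0) (nat_lit 11088684318) (nat_lit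 684) (nat_lit 2369087235) (nat_lit 76) (nat_lit 22901255337) (nat_lit 256) (nat_lit 5) (nat_lit 265) (nat_lit 5) (nat_lit 257) (nat_lit 5) (nat_lit 659) (nat_lit 596) (nat_lit 305)) (XT.nd (nat_lit 78) (nat_lit 532) (nat_lit 0) (XT.lf (nat_lit 0) (nat_lit 18022992287) (nat_lit 608) (nat_lit 17434049366) (nat_lit 76) (nat_lit 1331673770) (nat_lit 249) (nat_lit 5) (nat_lit 257) (nat_lit 5) (nat_lit 250) (nat_lit 5) (nat_lit 660) (nat_lit 596) (nat_lit 304)) (XT.lf (nat_lit 0) (nat_lit 4282684699) (nat_lit 532) (nat_lit 20944332466) (nat_lit 608) (nat_lit 11997359988) (nat_lit 242) (nat_lit 5) (nat_lit 249) (nat_lit 5) (nat_lit 250) (nat_lit 5) (nat_lit 661) (nat_lit 596) (nat_lit 303))))) (XT.nd (nat_lit 156) (nat_lit 988) (nat_lit 0) (XT.nd (nat_lit 78) (nat_lit 532) (nat_lit 0) (XT.lf (nat_lit 0) (nat_lit 26667511436) (nat_lit 532) (nat_lit 6022720706) (nat_lit 608) (nat_lit 4976217823) (nat_lit 242) (nat_lit 5) (nat_lit 249) (nat_lit 5) (nat_lit 250) (nat_lit 5) (nat_lit 662) (nat_lit 596) (nat_lit 302))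 (XT.lf (nat_lit 0) (nat_lit 2289904362) (nat_lit 532) (nat_lit 26658932412) (nat_lit 76) (nat_lit 9165579352) (nat_lit 235) (nat_lit 5) (nat_lit 242) (nat_lit 5) (nat_lit 236) (nat_lit 5) (nat_lit 663) (nat_lit 596) (nat_lit 301))) (XT.nd (nat_lit 78) (nat_lit 988) (nat_lit 0) (XT.lf (nat_lit 0) (nat_lit 9747120940) (nat_lit 532) (nat_lit 4137662170) (nat_lit 76) (nat_lit 24683652613) (nat_lit 235) (nat_lit 5) (nat_lit 242) (nat_lit 5) (nat_lit 236) (nat_lit 5) (nat_lit 664) (nat_lit 596) (nat_lit 300)) (XT.nd (nat_lit 78) (nat_lit 456) (nat_lit 0) (XT.lf (nat_lit 0) (nat_lit 17485996442) (nat_lit 608) (nat_lit 19957733198) (nat_lit 76) (nat_lit 1585155817) (nat_lit 228) (nat_lit 5) (nat_lit 236) (nat_lit 5) (nat_lit 229) (nat_lit 5) (nat_lit 665) (nat_lit 596) (nat_lit 299)) (XT.lf (nat_lit 0) (nat_lit 3250212432) (nat_lit 456) (nat_lit 22268650523) (nat_lit 532) (nat_lit 13976896993) (nat_lit 222) (nat_lit 5) (nat_lit 228) (nat_lit 5) (nat_lit 229) (nat_lit 5) (nat_lit 666) (nat_lit 596) (nat_lit 298))))))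 (XT.nd (nat_lit 390) (nat_lit 912) (nat_lit 0) (XT.nd (nat_lit 156) (nat_lit 912) (nat_lit 0) (XT.nd (nat_lit 78) (nat_lit 532) (nat_lit 0) (XT.lf (nat_lit 0) (nat_lit 27190346067) (nat_lit 456) (nat_lit 6654195484) (nat_lit 532) (nat_lit 6124787321) (nat_lit 222) (nat_lit 5) (nat_lit 228) (nat_lit 5) (nat_lit 229) (nat_lit 5) (nat_lit 667) (nat_lit 596) (nat_lit 297)) (XT.lf (nat_lit 0) (nat_lit 1991971070) (nat_lit 532) (nat_lit 29221183483) (nat_lit 76) (nat_lit 9236323555) (nat_lit 215) (nat_lit 5) (nat_lit 222) (nat_lit 5) (nat_lit 216) (nat_lit 5) (nat_lit 668) (nat_lit 596) (nat_lit 296))) (XT.nd (nat_lit 78) (nat_lit 912) (nat_lit 0) (XT.lf (nat_lit 0) (nat_lit 10317784150) (nat_lit 532) (nat_lit 5136263137) (nat_lit 76) (nat_lit 25481798771) (nat_lit 215) (nat_lit 5) (nat_lit 222) (nat_lit 5) (nat_lit 216) (nat_lit 5) (nat_lit 669) (nat_lit 596) (nat_lit 295)) (XT.nd (nat_lit 78) (nat_lit 456) (nat_lit 0) (XT.lf (nat_lit 0) (nat_lit 18941096044) (nat_lit 532) (nat_lit 21748187620) (nat_lit 76) (nat_lit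 740038083) (nat_lit 209) (nat_lit 5) (nat_lit 216) (nat_lit 5) (nat_lit 210) (nat_lit 5) (nat_lit 670) (nat_lit 596) (nat_lit 294)) (XT.lf (nat_lit 0) (nat_lit 3067731021) (nat_lit 456) (nat_lit 24824412320) (nat_lit 532) (nat_lit 14037418258) (nat_lit 203) (nat_lit 5) (nat_lit 209) (nat_lit 5) (nat_lit 210) (nat_lit 5) (nat_lit 671) (nat_lit 596) (nat_lit 293))))) (XT.nd (nat_lit 156) (nat_lit 456) (nat_lit 0) (XT.nd (nat_lit 78) (nat_lit 456) (nat_lit 0) (XT.lf (nat_lit 0) (nat_lit 28672331587) (nat_lit 456) (nat_lit 8494150505) (nat_lit 532) (nat_lit 5270438775) (nat_lit 203) (nat_lit 5) (nat_lit 209) (nat_lit 5) (nat_lit 210) (nat_lit 5) (nat_lit 672) (nat_lit 596) (nat_lit 292)) (XT.lf (nat_lit 0) (nat_lit 3753425185) (nat_lit 456) (nat_lit 31040824732) (nat_lit 76) (nat_lit 8157106584) (nat_lit 197) (nat_lit 5) (nat_lit 203) (nat_lit 5) (nat_lit 198) (nat_lit 5) (nat_lit 673) (nat_lit 596) (nat_lit 291))) (XT.nd (nat_lit 78) (nat_lit 456) (nat_lit 0) (XT.lf (nat_lit 0) (nat_lit 13034855640) (nat_lit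 456) (nat_lit 5282688376) (nat_lit 76) (nat_lit 25154886899) (nat_lit 197) (nat_lit 5) (nat_lit 203) (nat_lit 5) (nat_lit 198) (nat_lit 5) (nat_lit 674) (nat_lit 596) (nat_lit 290)) (XT.nd (nat_lit 75816) (nat_lit 0) (nat_lit 22344) (XT.lf (nat_lit 0) (nat_lit 21267156001) (nat_lit 456) (nat_lit 1371233722) (nat_lit 532) (nat_lit 21362807623) (nat_lit 191) (nat_lit 5) (nat_lit 197) (nat_lit 5) (nat_lit 198) (nat_lit 5) (nat_lit 675) (nat_lit 596) (nat_lit 289)) (XT.lf (nat_lit 76) (nat_lit 284987680) (nat_lit 0) (nat_lit 2485588120) (nat_lit 1900) (nat_lit 17754333729) (nat_lit 486) (nat_lit 5) (nat_lit 485) (nat_lit 5) (nat_lit 510) (nat_lit 5) (nat_lit 606) (nat_lit 597) (nat_lit 357))))))) (XT.nd (nat_lit 780) (nat_lit 3420) (nat_lit 0) (XT.nd (nat_lit 390) (nat_lit 0) (nat_lit 152) (XT.nd (nat_lit 156) (nat_lit 0) (nat_lit 76) (XT.nd (nat_lit 78) (nat_lit 0) (nat_lit 0) (XT.lf (nat_lit 0) (nat_lit 3617571217) (nat_lit 1824) (nat_lit 9756847998) (nat_lit 1900) (nat_lit 7357639785) (nat_lit 486) (nat_lit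 5) (nat_lit 510) (nat_lit 5) (nat_lit 511) (nat_lit 5) (nat_lit 607) (nat_lit 597) (nat_lit 356)) (XT.lf (nat_lit 76) (nat_lit 928855228) (nat_lit 0) (nat_lit 3570966017) (nat_lit 1900) (nat_lit 16443164047) (nat_lit 487) (nat_lit 5) (nat_lit 486) (nat_lit 5) (nat_lit 511) (nat_lit 5) (nat_lit 608) (nat_lit 597) (nat_lit 355))) (XT.nd (nat_lit 78) (nat_lit 0) (nat_lit 0) (XT.lf (nat_lit 0) (nat_lit 5503258107) (nat_lit 1824) (nat_lit 9241290093) (nat_lit 1900) (nat_lit 6411511198) (nat_lit 487) (nat_lit 5) (nat_lit 511) (nat_lit 5) (nat_lit 512) (nat_lit 5) (nat_lit 609) (nat_lit 597) (nat_lit 354)) (XT.nd (nat_lit 78) (nat_lit 0) (nat_lit 76) (XT.lf (nat_lit 76) (nat_lit 1743452446) (nat_lit 0) (nat_lit 4814256352) (nat_lit 1900) (nat_lit 14815067406) (nat_lit 488) (nat_lit 5) (nat_lit 487) (nat_lit 5) (nat_lit 512) (nat_lit 5) (nat_lit 610) (nat_lit 597) (nat_lit 353)) (XT.lf (nat_lit 0) (nat_lit 7726224820) (nat_lit 1824) (nat_lit 8557186104) (nat_lit 1900) (nat_lit 5308557015) (nat_lit 488) (nat_lit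 5) (nat_lit 512) (nat_lit 5) (nat_lit 513) (nat_lit 5) (nat_lit 611) (nat_lit 597) (nat_lit 352))))) (XT.nd (nat_lit 156) (nat_lit 0) (nat_lit 76) (XT.nd (nat_lit 78) (nat_lit 0) (nat_lit 76) (XT.lf (nat_lit 76) (nat_lit 2737631906) (nat_lit 0) (nat_lit 6226259338) (nat_lit 1900) (nat_lit 12850736780) (nat_lit 489) (nat_lit 5) (nat_lit 488) (nat_lit 5) (nat_lit 513) (nat_lit 5) (nat_lit 612) (nat_lit 597) (nat_lit 351)) (XT.lf (nat_lit 0) (nat_lit 10306481115) (nat_lit 1824) (nat_lit 7695660039) (nat_lit 1900) (nat_lit 4037996866) (nat_lit 489) (nat_lit 5) (nat_lit 513) (nat_lit 5) (nat_lit 514) (nat_lit 5) (nat_lit 613) (nat_lit 597) (nat_lit 350))) (XT.nd (nat_lit 78) (nat_lit 0) (nat_lit 76) (XT.lf (nat_lit 76) (nat_lit 3920696318) (nat_lit 0) (nat_lit 7818178440) (nat_lit 1900) (nat_lit 10530024531) (nat_lit 490) (nat_lit 5) (nat_lit 489) (nat_lit 5) (nat_lit 514) (nat_lit 5) (nat_lit 614) (nat_lit 597) (nat_lit 349)) (XT.nd (nat_lit 78) (nat_lit 0) (nat_lit 0) (XT.lf (nat_lit 0) (nat_lit 13264906724)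 (nat_lit 1824) (nat_lit 6647385942) (nat_lit 1900) (nat_lit 2588643420) (nat_lit 490) (nat_lit 5) (nat_lit 514) (nat_lit 5) (nat_lit 515) (nat_lit 5) (nat_lit 615) (nat_lit 597) (nat_lit 348)) (XT.lf (nat_lit 76) (nat_lit 5302414678) (nat_lit 0) (nat_lit 9601643398) (nat_lit 1900) (nat_lit 7831903673) (nat_lit 491) (nat_lit 5) (nat_lit 490) (nat_lit 5) (nat_lit 515) (nat_lit 5) (nat_lit 616) (nat_lit 597) (nat_lit 347)))))) (XT.nd (nat_lit 390) (nat_lit 1976) (nat_lit 0) (XT.nd (nat_lit 156) (nat_lit 1824) (nat_lit 0) (XT.nd (nat_lit 78) (nat_lit 0) (nat_lit 0) (XT.lf (nat_lit 0) (nat_lit 16623291095) (nat_lit 1824) (nat_lit 5402571606) (nat_lit 1900) (nat_lit 948879357) (nat_lit 491) (nat_lit 5) (nat_lit 515) (nat_lit 5) (nat_lit 516) (nat_lit 5) (nat_lit 617) (nat_lit 597) (nat_lit 346)) (XT.lf (nat_lit 76) (nat_lit 6893039203) (nat_lit 0) (nat_lit 11588733895) (nat_lit 1900) (nat_lit 4734427692) (nat_lit 492) (nat_lit 5) (nat_lit 491) (nat_lit 5) (nat_lit 516) (nat_lit 5) (nat_lit 618) (nat_lit 597) (nat_lit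 345))) (XT.nd (nat_lit 78) (nat_lit 1824) (nat_lit 0) (XT.lf (nat_lit 76) (nat_lit 19505013361) (nat_lit 0) (nat_lit 905238688) (nat_lit 1900) (nat_lit 3051580203) (nat_lit 492) (nat_lit 5) (nat_lit 491) (nat_lit 5) (nat_lit 516) (nat_lit 5) (nat_lit 619) (nat_lit 597) (nat_lit 344)) (XT.nd (nat_lit 78) (nat_lit 1900) (nat_lit 0) (XT.lf (nat_lit 76) (nat_lit 8703323102) (nat_lit 0) (nat_lit 13792003942) (nat_lit 1900) (nat_lit 1214688868) (nat_lit 493) (nat_lit 5) (nat_lit 492) (nat_lit 5) (nat_lit 517) (nat_lit 5) (nat_lit 620) (nat_lit 597) (nat_lit 343)) (XT.lf (nat_lit 0) (nat_lit 679691554) (nat_lit 1900) (nat_lit 2305602543) (nat_lit 1976) (nat_lit 20977195812) (nat_lit 467) (nat_lit 5) (nat_lit 492) (nat_lit 5) (nat_lit 493) (nat_lit 5) (nat_lit 621) (nat_lit 597) (nat_lit 342))))) (XT.nd (nat_lit 156) (nat_lit 2052) (nat_lit 0) (XT.nd (nat_lit 78) (nat_lit 0) (nat_lit 0) (XT.lf (nat_lit 0) (nat_lit 2715142169) (nat_lit 1900) (nat_lit 13491144798) (nat_lit 76) (nat_lit 8011176984) (nat_lit 468) (nat_lit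 5) (nat_lit 493) (nat_lit 5) (nat_lit 469) (nat_lit 5) (nat_lit 622) (nat_lit 597) (nat_lit 341)) (XT.lf (nat_lit 0) (nat_lit 4823430936) (nat_lit 1900) (nat_lit 449787127) (nat_lit 76) (nat_lit 19203676921) (nat_lit 468) (nat_lit 5) (nat_lit 493) (nat_lit 5) (nat_lit 469) (nat_lit 5) (nat_lit 623) (nat_lit 597) (nat_lit 340))) (XT.nd (nat_lit 78) (nat_lit 912) (nat_lit 0) (XT.lf (nat_lit 0) (nat_lit 7093999874) (nat_lit 1216) (nat_lit 11758217560) (nat_lit 76) (nat_lit 5886895004) (nat_lit 453) (nat_lit 5) (nat_lit 469) (nat_lit 5) (nat_lit 454) (nat_lit 5) (nat_lit 624) (nat_lit 597) (nat_lit 339)) (XT.nd (nat_lit 78) (nat_lit 0) (nat_lit 0) (XT.lf (nat_lit 0) (nat_lit 1663843314) (nat_lit 912) (nat_lit 7791794017) (nat_lit 988) (nat_lit 15550023856) (nat_lit 441) (nat_lit 5) (nat_lit 453) (nat_lit 5) (nat_lit 454) (nat_lit 5) (nat_lit 625) (nat_lit 597) (nat_lit 338)) (XT.lf (nat_lit 0) (nat_lit 11963530887) (nat_lit 988) (nat_lit 9788267164) (nat_lit 76) (nat_lit 3523762479) (nat_lit 441) (nat_lit 5)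 (nat_lit 454) (nat_lit 5) (nat_lit 442) (nat_lit 5) (nat_lit 626) (nat_lit 597) (nat_lit 337))))))))
noncomputable def xc193 : XT := (XT.nd (nat_lit 1560) (nat_lit 7752) (nat_lit 0) (XT.nd (nat_lit 780) (nat_lit 3724) (nat_lit 0) (XT.nd (nat_lit 390) (nat_lit 2508) (nat_lit 0) (XT.nd (nat_lit 156) (nat_lit 1748) (nat_lit 0) (XT.nd (nat_lit 78) (nat_lit 0) (nat_lit 0) (XT.lf (nat_lit 0) (nat_lit 4034872743) (nat_lit 912) (nat_lit 10561506588) (nat_lit 988) (nat_lit 10952982674) (nat_lit 429) (nat_lit 5) (nat_lit 441) (nat_lit 5) (nat_lit 442) (nat_lit 5) (nat_lit 627) (nat_lit 597) (nat_lit 336)) (XT.lf (nat_lit 0) (nat_lit 17350580383) (nat_lit 988) (nat_lit 7568979080) (nat_lit 76) (nat_lit 907706217) (nat_lit 429) (nat_lit 5) (nat_lit 442) (nat_lit 5) (nat_lit 430) (nat_lit 5) (nat_lit 628) (nat_lit 597) (nat_lit 335))) (XT.nd (nat_lit 78) (nat_lit 912) (nat_lit 0) (XT.lf (nat_lit 0) (nat_lit 6670193374) (nat_lit 836) (nat_lit 13600021811) (nat_lit 912) (nat_lit 5838305328) (nat_lit 418) (nat_lit 5) (nat_lit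 429) (nat_lit 5) (nat_lit 430) (nat_lit 5) (nat_lit 629) (nat_lit 597) (nat_lit 334)) (XT.nd (nat_lit 78) (nat_lit 912) (nat_lit 0) (XT.lf (nat_lit 0) (nat_lit 21293982138) (nat_lit 836) (nat_lit 2002189966) (nat_lit 912) (nat_lit 3098269833) (nat_lit 418) (nat_lit 5) (nat_lit 429) (nat_lit 5) (nat_lit 430) (nat_lit 5) (nat_lit 630) (nat_lit 597) (nat_lit 333)) (XT.lf (nat_lit 0) (nat_lit 9583274763) (nat_lit 912) (nat_lit 16922595983) (nat_lit 988) (nat_lit 177746669) (nat_lit 406) (nat_lit 5) (nat_lit 418) (nat_lit 5) (nat_lit 419) (nat_lit 5) (nat_lit 631) (nat_lit 597) (nat_lit 332))))) (XT.nd (nat_lit 156) (nat_lit 1596) (nat_lit 0) (XT.nd (nat_lit 78) (nat_lit 836) (nat_lit 0) (XT.lf (nat_lit 0) (nat_lit 2809374923) (nat_lit 988) (nat_lit 2382531245) (nat_lit 76) (nat_lit 21785408045) (nat_lit 405) (nat_lit 5) (nat_lit 418) (nat_lit 5) (nat_lit 406) (nat_lit 5) (nat_lit 632) (nat_lit 597) (nat_lit 331)) (XT.lf (nat_lit 0) (nat_lit 5978728108) (nat_lit 912) (nat_lit 14526275038) (nat_lit 76) (nat_lit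 6769360993) (nat_lit 394) (nat_lit 5) (nat_lit 406) (nat_lit 5) (nat_lit 395) (nat_lit 5) (nat_lit 633) (nat_lit 597) (nat_lit 330))) (XT.nd (nat_lit 78) (nat_lit 760) (nat_lit 0) (XT.lf (nat_lit 0) (nat_lit 607288394) (nat_lit 836) (nat_lit 8655903813) (nat_lit 912) (nat_lit 18313128451) (nat_lit 383) (nat_lit 5) (nat_lit 394) (nat_lit 5) (nat_lit 395) (nat_lit 5) (nat_lit 634) (nat_lit 597) (nat_lit 329)) (XT.nd (nat_lit 78) (nat_lit 760) (nat_lit 0) (XT.lf (nat_lit 0) (nat_lit 12731079041) (nat_lit 912) (nat_lit 11667656522) (nat_lit 76) (nat_lit 3483226148) (nat_lit 383) (nat_lit 5) (nat_lit 395) (nat_lit 5) (nat_lit 384) (nat_lit 5) (nat_lit 635) (nat_lit 597) (nat_lit 328)) (XT.lf (nat_lit 0) (nat_lit 3931232846) (nat_lit 760) (nat_lit 12417328954) (nat_lit 836) (nat_lit 11843549088) (nat_lit 373) (nat_lit 5) (nat_lit 383) (nat_lit 5) (nat_lit 384) (nat_lit 5) (nat_lit 636) (nat_lit 597) (nat_lit 327)))))) (XT.nd (nat_lit 390) (nat_lit 2128) (nat_lit 0) (XT.nd (nat_lit 156) (nat_lit 836) (nat_lit 0)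 (XT.nd (nat_lit 78) (nat_lit 760) (nat_lit 0) (XT.lf (nat_lit 0) (nat_lit 19997527395) (nat_lit 760) (nat_lit 116586534) (nat_lit 836) (nat_lit 8392834796) (nat_lit 373) (nat_lit 5) (nat_lit 383) (nat_lit 5) (nat_lit 384) (nat_lit 5) (nat_lit 637) (nat_lit 597) (nat_lit 326)) (XT.lf (nat_lit 0) (nat_lit 7572953426) (nat_lit 760) (nat_lit 16509370355) (nat_lit 836) (nat_lit 4743212669) (nat_lit 363) (nat_lit 5) (nat_lit 373) (nat_lit 5) (nat_lit 374) (nat_lit 5) (nat_lit 638) (nat_lit 597) (nat_lit 325))) (XT.nd (nat_lit 78) (nat_lit 836) (nat_lit 0) (XT.lf (nat_lit 0) (nat_lit 24088831887) (nat_lit 760) (nat_lit 4096440747) (nat_lit 836) (nat_lit 964115867) (nat_lit 363) (nat_lit 5) (nat_lit 373) (nat_lit 5) (nat_lit 374) (nat_lit 5) (nat_lit 639) (nat_lit 597) (nat_lit 324)) (XT.nd (nat_lit 78) (nat_lit 0) (nat_lit 0) (XT.lf (nat_lit 0) (nat_lit 2981642097) (nat_lit 836) (nat_lit 17948311873) (nat_lit 76) (nat_lit 8546808546) (nat_lit 352) (nat_lit 5) (nat_lit 363) (nat_lit 5) (nat_lit 353) (nat_lit 5)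 (nat_lit 640) (nat_lit 597) (nat_lit 323)) (XT.lf (nat_lit 0) (nat_lit 7052297547) (nat_lit 836) (nat_lit 1328626117) (nat_lit 76) (nat_lit 21428455116) (nat_lit 352) (nat_lit 5) (nat_lit 363) (nat_lit 5) (nat_lit 353) (nat_lit 5) (nat_lit 641) (nat_lit 597) (nat_lit 322))))) (XT.nd (nat_lit 156) (nat_lit 684) (nat_lit 0) (XT.nd (nat_lit 78) (nat_lit 684) (nat_lit 0) (XT.lf (nat_lit 0) (nat_lit 11334119703) (nat_lit 836) (nat_lit 14347629471) (nat_lit 76) (nat_lit 4464303184) (nat_lit 342) (nat_lit 5) (nat_lit 353) (nat_lit 5) (nat_lit 343) (nat_lit 5) (nat_lit 642) (nat_lit 597) (nat_lit 321)) (XT.lf (nat_lit 0) (nat_lit 2774880412) (nat_lit 684) (nat_lit 13006834408) (nat_lit 760) (nat_lit 14706141917) (nat_lit 333) (nat_lit 5) (nat_lit 342) (nat_lit 5) (nat_lit 343) (nat_lit 5) (nat_lit 643) (nat_lit 597) (nat_lit 320))) (XT.nd (nat_lit 78) (nat_lit 684) (nat_lit 0) (XT.lf (nat_lit 0) (nat_lit 20412339572) (nat_lit 760) (nat_lit 10403092785) (nat_lit 76) (nat_lit 19183350) (nat_lit 333) (nat_lit 5) (nat_lit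 343) (nat_lit 5) (nat_lit 334) (nat_lit 5) (nat_lit 644) (nat_lit 597) (nat_lit 319)) (XT.nd (nat_lit 78) (nat_lit 0) (nat_lit 0) (XT.lf (nat_lit 0) (nat_lit 7259392891) (nat_lit 684) (nat_lit 18007169535) (nat_lit 760) (nat_lit 5919127774) (nat_lit 324) (nat_lit 5) (nat_lit 333) (nat_lit 5) (nat_lit 334) (nat_lit 5) (nat_lit 645) (nat_lit 597) (nat_lit 318)) (XT.lf (nat_lit 0) (nat_lit 25413496677) (nat_lit 684) (nat_lit 4871925738) (nat_lit 760) (nat_lit 1257012771) (nat_lit 324) (nat_lit 5) (nat_lit 333) (nat_lit 5) (nat_lit 334) (nat_lit 5) (nat_lit 646) (nat_lit 597) (nat_lit 317))))))) (XT.nd (nat_lit 780) (nat_lit 3800) (nat_lit 0) (XT.nd (nat_lit 390) (nat_lit 1900) (nat_lit 0) (XT.nd (nat_lit 156) (nat_lit 1292) (nat_lit 0) (XT.nd (nat_lit 78) (nat_lit 0) (nat_lit 0) (XT.lf (nat_lit 0) (nat_lit 3585203312) (nat_lit 760) (nat_lit 19801865158) (nat_lit 76) (nat_lit 8516137581) (nat_lit 314) (nat_lit 5) (nat_lit 324) (nat_lit 5) (nat_lit 315) (nat_lit 5) (nat_lit 647) (nat_lit 597) (nat_lit 316)) (XT.lf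 (nat_lit 0) (nat_lit 8578909342) (nat_lit 760) (nat_lit 1534576031) (nat_lit 76) (nat_lit 22156111293) (nat_lit 314) (nat_lit 5) (nat_lit 324) (nat_lit 5) (nat_lit 315) (nat_lit 5) (nat_lit 648) (nat_lit 597) (nat_lit 315))) (XT.nd (nat_lit 78) (nat_lit 608) (nat_lit 0) (XT.lf (nat_lit 0) (nat_lit 13805782014) (nat_lit 760) (nat_lit 15341441660) (nat_lit 76) (nat_lit 3493425622) (nat_lit 305) (nat_lit 5) (nat_lit 315) (nat_lit 5) (nat_lit 306) (nat_lit 5) (nat_lit 649) (nat_lit 597) (nat_lit 314)) (XT.nd (nat_lit 78) (nat_lit 0) (nat_lit 0) (XT.lf (nat_lit 0) (nat_lit 3487626509) (nat_lit 608) (nat_lit 15747414381) (nat_lit 684) (nat_lit 13782125163) (nat_lit 297) (nat_lit 5) (nat_lit 305) (nat_lit 5) (nat_lit 306) (nat_lit 5) (nat_lit 650) (nat_lit 597) (nat_lit 313)) (XT.lf (nat_lit 0) (nat_lit 22898629610) (nat_lit 608) (nat_lit 1975091531) (nat_lit 684) (nat_lit 8525475330) (nat_lit 297) (nat_lit 5) (nat_lit 305) (nat_lit 5) (nat_lit 306) (nat_lit 5) (nat_lit 651) (nat_lit 597) (nat_lit 312))))) (XT.nd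 (nat_lit 156) (nat_lit 1216) (nat_lit 0) (XT.nd (nat_lit 78) (nat_lit 76) (nat_lit 0) (XT.lf (nat_lit 0) (nat_lit 8945330040) (nat_lit 608) (nat_lit 21814233161) (nat_lit 684) (nat_lit 3026616582) (nat_lit 289) (nat_lit 5) (nat_lit 297) (nat_lit 5) (nat_lit 298) (nat_lit 5) (nat_lit 652) (nat_lit 597) (nat_lit 311)) (XT.lf (nat_lit 0) (nat_lit 2630299822) (nat_lit 684) (nat_lit 5289924302) (nat_lit 76) (nat_lit 26258704439) (nat_lit 288) (nat_lit 5) (nat_lit 297) (nat_lit 5) (nat_lit 289) (nat_lit 5) (nat_lit 653) (nat_lit 597) (nat_lit 310))) (XT.nd (nat_lit 78) (nat_lit 608) (nat_lit 0) (XT.lf (nat_lit 0) (nat_lit 8495445103) (nat_lit 684) (nat_lit 19794760957) (nat_lit 76) (nat_lit 6286213847) (nat_lit 280) (nat_lit 5) (nat_lit 289) (nat_lit 5) (nat_lit 281) (nat_lit 5) (nat_lit 654) (nat_lit 597) (nat_lit 309)) (XT.nd (nat_lit 78) (nat_lit 0) (nat_lit 0) (XT.lf (nat_lit 0) (nat_lit 293825485) (nat_lit 608) (nat_lit 14272156536) (nat_lit 684) (nat_lit 20414117326) (nat_lit 272) (nat_lit 5) (nat_lit 280)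 (nat_lit 5) (nat_lit 281) (nat_lit 5) (nat_lit 655) (nat_lit 597) (nat_lit 308)) (XT.lf (nat_lit 0) (nat_lit 20889828040) (nat_lit 684) (nat_lit 14340328312) (nat_lit 76) (nat_lit 159058103) (nat_lit 272) (nat_lit 5) (nat_lit 281) (nat_lit 5) (nat_lit 273) (nat_lit 5) (nat_lit 656) (nat_lit 597) (nat_lit 307)))))) (XT.nd (nat_lit 390) (nat_lit 2052) (nat_lit 0) (XT.nd (nat_lit 156) (nat_lit 1216) (nat_lit 0) (XT.nd (nat_lit 78) (nat_lit 0) (nat_lit 0) (XT.lf (nat_lit 0) (nat_lit 6399409429) (nat_lit 532) (nat_lit 21074862220) (nat_lit 608) (nat_lit 8329557843) (nat_lit 265) (nat_lit 5) (nat_lit 272) (nat_lit 5) (nat_lit 273) (nat_lit 5) (nat_lit 657) (nat_lit 597) (nat_lit 306)) (XT.lf (nat_lit 0) (nat_lit 27745807020) (nat_lit 532) (nat_lit 6538903919) (nat_lit 608) (nat_lit 1940139799) (nat_lit 265) (nat_lit 5) (nat_lit 272) (nat_lit 5) (nat_lit 273) (nat_lit 5) (nat_lit 658) (nat_lit 597) (nat_lit 305))) (XT.nd (nat_lit 78) (nat_lit 532) (nat_lit 0) (XT.lf (nat_lit 0) (nat_lit 4654125319) (nat_lit 684)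 (nat_lit 23703445359) (nat_lit 76) (nat_lit 8293385669) (nat_lit 256) (nat_lit 5) (nat_lit 265) (nat_lit 5) (nat_lit 257) (nat_lit 5) (nat_lit 659) (nat_lit 597) (nat_lit 304)) (XT.nd (nat_lit 78) (nat_lit 532) (nat_lit 0) (XT.lf (nat_lit 0) (nat_lit 11453019275) (nat_lit 684) (nat_lit 2225957967) (nat_lit 76) (nat_lit 23404375938) (nat_lit 256) (nat_lit 5) (nat_lit 265) (nat_lit 5) (nat_lit 257) (nat_lit 5) (nat_lit 660) (nat_lit 597) (nat_lit 303)) (XT.lf (nat_lit 0) (nat_lit 18524760226) (nat_lit 608) (nat_lit 17590963201) (nat_lit 76) (nat_lit 1405937181) (nat_lit 249) (nat_lit 5) (nat_lit 257) (nat_lit 5) (nat_lit 250) (nat_lit 5) (nat_lit 661) (nat_lit 597) (nat_lit 302))))) (XT.nd (nat_lit 234) (nat_lit 988) (nat_lit 0) (XT.nd (nat_lit 78) (nat_lit 532) (nat_lit 0) (XT.lf (nat_lit 0) (nat_lit 4558843920) (nat_lit 532) (nat_lit 21312487822) (nat_lit 608) (nat_lit 12094734564) (nat_lit 242) (nat_lit 5) (nat_lit 249) (nat_lit 5) (nat_lit 250) (nat_lit 5) (nat_lit 662) (nat_lit 597) (nat_lit 301)) (XT.nd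 (nat_lit 78) (nat_lit 532) (nat_lit 0) (XT.lf (nat_lit 0) (nat_lit 27387631789) (nat_lit 532) (nat_lit 6093438559) (nat_lit 608) (nat_lit 4935965098) (nat_lit 242) (nat_lit 5) (nat_lit 249) (nat_lit 5) (nat_lit 250) (nat_lit 5) (nat_lit 663) (nat_lit 597) (nat_lit 300)) (XT.lf (nat_lit 0) (nat_lit 2472488586) (nat_lit 532) (nat_lit 27002344464) (nat_lit 76) (nat_lit 9399132940) (nat_lit 235) (nat_lit 5) (nat_lit 242) (nat_lit 5) (nat_lit 236) (nat_lit 5) (nat_lit 664) (nat_lit 597) (nat_lit 299)))) (XT.nd (nat_lit 78) (nat_lit 988) (nat_lit 0) (XT.lf (nat_lit 0) (nat_lit 10076167415) (nat_lit 532) (nat_lit 4034369731) (nat_lit 76) (nat_lit 25226582528) (nat_lit 235) (nat_lit 5) (nat_lit 242) (nat_lit 5) (nat_lit 236) (nat_lit 5) (nat_lit 665) (nat_lit 597) (nat_lit 298)) (XT.nd (nat_lit 78) (nat_lit 456) (nat_lit 0) (XT.lf (nat_lit 0) (nat_lit 17968729494) (nat_lit 608) (nat_lit 20169748616) (nat_lit 76) (nat_lit 1668322162) (nat_lit 228) (nat_lit 5) (nat_lit 236) (nat_lit 5) (nat_lit 229) (nat_lit 5) (nat_lit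 666) (nat_lit 597) (nat_lit 297)) (XT.lf (nat_lit 0) (nat_lit 3501124747) (nat_lit 456) (nat_lit 22659727529) (nat_lit 532) (nat_lit 14122188051) (nat_lit 222) (nat_lit 5) (nat_lit 228) (nat_lit 5) (nat_lit 229) (nat_lit 5) (nat_lit 667) (nat_lit 597) (nat_lit 296))))))))
noncomputable def xc194 : XT := (XT.nd (nat_lit 77220) (nat_lit 0) (nat_lit 13376) (XT.nd (nat_lit 76440) (nat_lit 0) (nat_lit 21888) (XT.nd (nat_lit 390) (nat_lit 456) (nat_lit 0) (XT.nd (nat_lit 156) (nat_lit 912) (nat_lit 0) (XT.nd (nat_lit 78) (nat_lit 532) (nat_lit 0) (XT.lf (nat_lit 0) (nat_lit 27916415798) (nat_lit 456) (nat_lit 6734048016) (nat_lit 532) (nat_lit 6115668477) (nat_lit 222) (nat_lit 5) (nat_lit 228) (nat_lit 5) (nat_lit 229) (nat_lit 5) (nat_lit 668) (nat_lit 597) (nat_lit 295)) (XT.lf (nat_lit 0) (nat_lit 2160691080) (nat_lit 532) (nat_lit 29620605432) (nat_lit 76) (nat_lit 9474591117) (nat_lit 215) (nat_lit 5) (nat_lit 222) (nat_lit 5) (nat_lit 216) (nat_lit 5) (nat_lit 669) (nat_lit 597) (nat_lit 294))) (XT.nd (nat_lit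 78) (nat_lit 912) (nat_lit 0) (XT.lf (nat_lit 0) (nat_lit 10650493350) (nat_lit 532) (nat_lit 5057614163) (nat_lit 76) (nat_lit 26043926012) (nat_lit 215) (nat_lit 5) (nat_lit 222) (nat_lit 5) (nat_lit 216) (nat_lit 5) (nat_lit 670) (nat_lit 597) (nat_lit 293)) (XT.nd (nat_lit 78) (nat_lit 456) (nat_lit 0) (XT.lf (nat_lit 0) (nat_lit 19445321790) (nat_lit 532) (nat_lit 22000825109) (nat_lit 76) (nat_lit 809250870) (nat_lit 209) (nat_lit 5) (nat_lit 216) (nat_lit 5) (nat_lit 210) (nat_lit 5) (nat_lit 671) (nat_lit 597) (nat_lit 292)) (XT.lf (nat_lit 0) (nat_lit 3310212390) (nat_lit 456) (nat_lit 25263894740) (nat_lit 532) (nat_lit 14191560992) (nat_lit 203) (nat_lit 5) (nat_lit 209) (nat_lit 5) (nat_lit 210) (nat_lit 5) (nat_lit 672) (nat_lit 597) (nat_lit 291))))) (XT.nd (nat_lit 156) (nat_lit 0) (nat_lit 0) (XT.nd (nat_lit 78) (nat_lit 456) (nat_lit 0) (XT.lf (nat_lit 0) (nat_lit 29423353462) (nat_lit 456) (nat_lit 8608145451) (nat_lit 532) (nat_lit 5251724383) (nat_lit 203) (nat_lit 5) (nat_lit 209) (nat_lit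 5) (nat_lit 210) (nat_lit 5) (nat_lit 673) (nat_lit 597) (nat_lit 290)) (XT.lf (nat_lit 0) (nat_lit 3950111590) (nat_lit 456) (nat_lit 31481556358) (nat_lit 76) (nat_lit 8376281166) (nat_lit 197) (nat_lit 5) (nat_lit 203) (nat_lit 5) (nat_lit 198) (nat_lit 5) (nat_lit 674) (nat_lit 597) (nat_lit 289))) (XT.nd (nat_lit 75738) (nat_lit 0) (nat_lit 21812) (XT.lf (nat_lit 0) (nat_lit 13414785990) (nat_lit 456) (nat_lit 5211788351) (nat_lit 76) (nat_lit 25712918412) (nat_lit 197) (nat_lit 5) (nat_lit 203) (nat_lit 5) (nat_lit 198) (nat_lit 5) (nat_lit 675) (nat_lit 597) (nat_lit 288)) (XT.nd (nat_lit 78) (nat_lit 0) (nat_lit 76) (XT.lf (nat_lit 0) (nat_lit 1707622548) (nat_lit 1824) (nat_lit 1068538) (nat_lit 1900) (nat_lit 18805289549) (nat_lit 484) (nat_lit 5) (nat_lit 508) (nat_lit 5) (nat_lit 509) (nat_lit 5) (nat_lit 605) (nat_lit 598) (nat_lit 357)) (XT.lf (nat_lit 0) (nat_lit 2413155550) (nat_lit 1824) (nat_lit 10111743479) (nat_lit 1900) (nat_lit 8194666355) (nat_lit 485) (nat_lit 5) (nat_lit 509) (nat_lit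 5) (nat_lit 510) (nat_lit 5) (nat_lit 606) (nat_lit 598) (nat_lit 356)))))) (XT.nd (nat_lit 390) (nat_lit 0) (nat_lit 228) (XT.nd (nat_lit 156) (nat_lit 0) (nat_lit 76) (XT.nd (nat_lit 78) (nat_lit 0) (nat_lit 76) (XT.lf (nat_lit 76) (nat_lit 492157106) (nat_lit 0) (nat_lit 2650991031) (nat_lit 1900) (nat_lit 17785906837) (nat_lit 486) (nat_lit 5) (nat_lit 485) (nat_lit 5) (nat_lit 510) (nat_lit 5) (nat_lit 607) (nat_lit 598) (nat_lit 355)) (XT.lf (nat_lit 0) (nat_lit 4000128208) (nat_lit 1824) (nat_lit 9747501074) (nat_lit 1900) (nat_lit 7392857445) (nat_lit 486) (nat_lit 5) (nat_lit 510) (nat_lit 5) (nat_lit 511) (nat_lit 5) (nat_lit 608) (nat_lit 598) (nat_lit 354))) (XT.nd (nat_lit 78) (nat_lit 0) (nat_lit 76) (XT.lf (nat_lit 76) (nat_lit 1150570927) (nat_lit 0) (nat_lit 3744688757) (nat_lit 1900) (nat_lit 16460467315) (nat_lit 487) (nat_lit 5) (nat_lit 486) (nat_lit 5) (nat_lit 511) (nat_lit 5) (nat_lit 609) (nat_lit 598) (nat_lit 353)) (XT.nd (nat_lit 78) (nat_lit 0) (nat_lit 0) (XT.lf (nat_lit 0)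 (nat_lit 5912125027) (nat_lit 1824) (nat_lit 9220311175) (nat_lit 1900) (nat_lit 6440759371) (nat_lit 487) (nat_lit 5) (nat_lit 511) (nat_lit 5) (nat_lit 512) (nat_lit 5) (nat_lit 610) (nat_lit 598) (nat_lit 352)) (XT.lf (nat_lit 76) (nat_lit 1982772237) (nat_lit 0) (nat_lit 5000361066) (nat_lit 1900) (nat_lit 14811204215) (nat_lit 488) (nat_lit 5) (nat_lit 487) (nat_lit 5) (nat_lit 512) (nat_lit 5) (nat_lit 611) (nat_lit 598) (nat_lit 351))))) (XT.nd (nat_lit 156) (nat_lit 0) (nat_lit 76) (XT.nd (nat_lit 78) (nat_lit 0) (nat_lit 0) (XT.lf (nat_lit 0) (nat_lit 8168677905) (nat_lit 1824) (nat_lit 8521537552) (nat_lit 1900) (nat_lit 5327824638) (nat_lit 488) (nat_lit 5) (nat_lit 512) (nat_lit 5) (nat_lit 513) (nat_lit 5) (nat_lit 612) (nat_lit 598) (nat_lit 350)) (XT.lf (nat_lit 76) (nat_lit 2997816343) (nat_lit 0) (nat_lit 6428969456) (nat_lit 1900) (nat_lit 12818453989) (nat_lit 489) (nat_lit 5) (nat_lit 488) (nat_lit 5) (nat_lit 513) (nat_lit 5) (nat_lit 613) (nat_lit 598) (nat_lit 349))) (XT.nd (nat_lit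 78) (nat_lit 0) (nat_lit 0) (XT.lf (nat_lit 0) (nat_lit 10790168681) (nat_lit 1824) (nat_lit 7642102432) (nat_lit 1900) (nat_lit 4043110214) (nat_lit 489) (nat_lit 5) (nat_lit 513) (nat_lit 5) (nat_lit 514) (nat_lit 5) (nat_lit 614) (nat_lit 598) (nat_lit 348)) (XT.nd (nat_lit 78) (nat_lit 0) (nat_lit 76) (XT.lf (nat_lit 76) (nat_lit 4205216112) (nat_lit 0) (nat_lit 8041889948) (nat_lit 1900) (nat_lit 10461694007) (nat_lit 490) (nat_lit 5) (nat_lit 489) (nat_lit 5) (nat_lit 514) (nat_lit 5) (nat_lit 615) (nat_lit 598) (nat_lit 347)) (XT.lf (nat_lit 0) (nat_lit 13797868131) (nat_lit 1824) (nat_lit 6572470578) (nat_lit 1900) (nat_lit 2575254858) (nat_lit 490) (nat_lit 5) (nat_lit 514) (nat_lit 5) (nat_lit 515) (nat_lit 5) (nat_lit 616) (nat_lit 598) (nat_lit 346))))))) (XT.nd (nat_lit 780) (nat_lit 5168) (nat_lit 0) (XT.nd (nat_lit 390) (nat_lit 3724) (nat_lit 0) (XT.nd (nat_lit 156) (nat_lit 0) (nat_lit 76) (XT.nd (nat_lit 78) (nat_lit 0) (nat_lit 76) (XT.lf (nat_lit 76) (nat_lit 5614958533) (nat_lit 0) (nat_lit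 9850936384) (nat_lit 1900) (nat_lit 7719503136) (nat_lit 491) (nat_lit 5) (nat_lit 490) (nat_lit 5) (nat_lit 515) (nat_lit 5) (nat_lit 617) (nat_lit 598) (nat_lit 345)) (XT.lf (nat_lit 0) (nat_lit 17213976436) (nat_lit 1824) (nat_lit 5302632584) (nat_lit 1900) (nat_lit 912455825) (nat_lit 491) (nat_lit 5) (nat_lit 515) (nat_lit 5) (nat_lit 516) (nat_lit 5) (nat_lit 618) (nat_lit 598) (nat_lit 344))) (XT.nd (nat_lit 78) (nat_lit 0) (nat_lit 0) (XT.lf (nat_lit 76) (nat_lit 7237522082) (nat_lit 0) (nat_lit 11868384396) (nat_lit 1900) (nat_lit 4569520856) (nat_lit 492) (nat_lit 5) (nat_lit 491) (nat_lit 5) (nat_lit 516) (nat_lit 5) (nat_lit 619) (nat_lit 598) (nat_lit 343)) (XT.nd (nat_lit 78) (nat_lit 0) (nat_lit 76) (XT.lf (nat_lit 76) (nat_lit 20097684310) (nat_lit 0) (nat_lit 970280543) (nat_lit 1900) (nat_lit 2858106522) (nat_lit 492) (nat_lit 5) (nat_lit 491) (nat_lit 5) (nat_lit 516) (nat_lit 5) (nat_lit 620) (nat_lit 598) (nat_lit 342)) (XT.lf (nat_lit 76) (nat_lit 9083894929) (nat_lit 0) (nat_lit 14106996109)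 (nat_lit 1900) (nat_lit 988404822) (nat_lit 493) (nat_lit 5) (nat_lit 492) (nat_lit 5) (nat_lit 517) (nat_lit 5) (nat_lit 621) (nat_lit 598) (nat_lit 341))))) (XT.nd (nat_lit 156) (nat_lit 1976) (nat_lit 0) (XT.nd (nat_lit 78) (nat_lit 0) (nat_lit 76) (XT.lf (nat_lit 0) (nat_lit 935727983) (nat_lit 1900) (nat_lit 2146029479) (nat_lit 1976) (nat_lit 21355126452) (nat_lit 467) (nat_lit 5) (nat_lit 492) (nat_lit 5) (nat_lit 493) (nat_lit 5) (nat_lit 622) (nat_lit 598) (nat_lit 340)) (XT.lf (nat_lit 0) (nat_lit 3008235304) (nat_lit 1900) (nat_lit 13551623467) (nat_lit 76) (nat_lit 8137171848) (nat_lit 468) (nat_lit 5) (nat_lit 493) (nat_lit 5) (nat_lit 469) (nat_lit 5) (nat_lit 623) (nat_lit 598) (nat_lit 339))) (XT.nd (nat_lit 78) (nat_lit 2052) (nat_lit 0) (XT.lf (nat_lit 0) (nat_lit 5154007684) (nat_lit 1900) (nat_lit 253543431) (nat_lit 76) (nat_lit 19554192934) (nat_lit 468) (nat_lit 5) (nat_lit 493) (nat_lit 5) (nat_lit 469) (nat_lit 5) (nat_lit 624) (nat_lit 598) (nat_lit 338)) (XT.nd (nat_lit 78) (nat_lit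 912) (nat_lit 0) (XT.lf (nat_lit 0) (nat_lit 7466546436) (nat_lit 1216) (nat_lit 11784694368) (nat_lit 76) (nat_lit 5978034011) (nat_lit 453) (nat_lit 5) (nat_lit 469) (nat_lit 5) (nat_lit 454) (nat_lit 5) (nat_lit 625) (nat_lit 598) (nat_lit 337)) (XT.lf (nat_lit 0) (nat_lit 1904434779) (nat_lit 912) (nat_lit 7967805014) (nat_lit 988) (nat_lit 15628978412) (nat_lit 441) (nat_lit 5) (nat_lit 453) (nat_lit 5) (nat_lit 454) (nat_lit 5) (nat_lit 626) (nat_lit 598) (nat_lit 336)))))) (XT.nd (nat_lit 390) (nat_lit 3420) (nat_lit 0) (XT.nd (nat_lit 156) (nat_lit 836) (nat_lit 0) (XT.nd (nat_lit 78) (nat_lit 912) (nat_lit 0) (XT.lf (nat_lit 0) (nat_lit 12425702215) (nat_lit 988) (nat_lit 9776187610) (nat_lit 76) (nat_lit 3574717615) (nat_lit 441) (nat_lit 5) (nat_lit 454) (nat_lit 5) (nat_lit 442) (nat_lit 5) (nat_lit 627) (nat_lit 598) (nat_lit 335)) (XT.lf (nat_lit 0) (nat_lit 4322047695) (nat_lit 912) (nat_lit 10786129920) (nat_lit 988) (nat_lit 10947768053) (nat_lit 429) (nat_lit 5) (nat_lit 441) (nat_lit 5)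 (nat_lit 442) (nat_lit 5) (nat_lit 628) (nat_lit 598) (nat_lit 334))) (XT.nd (nat_lit 78) (nat_lit 836) (nat_lit 0) (XT.lf (nat_lit 0) (nat_lit 17913066245) (nat_lit 988) (nat_lit 7513527257) (nat_lit 76) (nat_lit 912901963) (nat_lit 429) (nat_lit 5) (nat_lit 442) (nat_lit 5) (nat_lit 430) (nat_lit 5) (nat_lit 629) (nat_lit 598) (nat_lit 333)) (XT.nd (nat_lit 78) (nat_lit 0) (nat_lit 0) (XT.lf (nat_lit 0) (nat_lit 7009067913) (nat_lit 836) (nat_lit 13879134897) (nat_lit 912) (nat_lit 5738230524) (nat_lit 418) (nat_lit 5) (nat_lit 429) (nat_lit 5) (nat_lit 430) (nat_lit 5) (nat_lit 630) (nat_lit 598) (nat_lit 332)) (XT.lf (nat_lit 0) (nat_lit 21921303615) (nat_lit 836) (nat_lit 2049206951) (nat_lit 912) (nat_lit 2947646101) (nat_lit 418) (nat_lit 5) (nat_lit 429) (nat_lit 5) (nat_lit 430) (nat_lit 5) (nat_lit 631) (nat_lit 598) (nat_lit 331))))) (XT.nd (nat_lit 234) (nat_lit 1596) (nat_lit 0) (XT.nd (nat_lit 78) (nat_lit 836) (nat_lit 0) (XT.lf (nat_lit 0) (nat_lit 28054047) (nat_lit 988) (nat_lit 17234107983)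 (nat_lit 76) (nat_lit 9951006135) (nat_lit 405) (nat_lit 5) (nat_lit 418) (nat_lit 5) (nat_lit 406) (nat_lit 5) (nat_lit 632) (nat_lit 598) (nat_lit 330)) (XT.nd (nat_lit 78) (nat_lit 836) (nat_lit 0) (XT.lf (nat_lit 0) (nat_lit 3068481879) (nat_lit 988) (nat_lit 2227177564) (nat_lit 76) (nat_lit 22217137191) (nat_lit 405) (nat_lit 5) (nat_lit 418) (nat_lit 5) (nat_lit 406) (nat_lit 5) (nat_lit 633) (nat_lit 598) (nat_lit 329)) (XT.lf (nat_lit 0) (nat_lit 6298561894) (nat_lit 912) (nat_lit 14611130633) (nat_lit 76) (nat_lit 6906148344) (nat_lit 394) (nat_lit 5) (nat_lit 406) (nat_lit 5) (nat_lit 395) (nat_lit 5) (nat_lit 634) (nat_lit 598) (nat_lit 328)))) (XT.nd (nat_lit 78) (nat_lit 760) (nat_lit 0) (XT.lf (nat_lit 0) (nat_lit 823750976) (nat_lit 836) (nat_lit 8822364209) (nat_lit 912) (nat_lit 18477773444) (nat_lit 383) (nat_lit 5) (nat_lit 394) (nat_lit 5) (nat_lit 395) (nat_lit 5) (nat_lit 635) (nat_lit 598) (nat_lit 327)) (XT.nd (nat_lit 78) (nat_lit 760) (nat_lit 0) (XT.lf (nat_lit 0) (nat_lit 13179526464)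 (nat_lit 912) (nat_lit 11696860602) (nat_lit 76) (nat_lit 3559332204) (nat_lit 383) (nat_lit 5) (nat_lit 395) (nat_lit 5) (nat_lit 384) (nat_lit 5) (nat_lit 636) (nat_lit 598) (nat_lit 326)) (XT.lf (nat_lit 0) (nat_lit 4212663468) (nat_lit 760) (nat_lit 12654211655) (nat_lit 836) (nat_lit 11885246086) (nat_lit 373) (nat_lit 5) (nat_lit 383) (nat_lit 5) (nat_lit 384) (nat_lit 5) (nat_lit 637) (nat_lit 598) (nat_lit 325))))))))
noncomputable def xc195 : XT := (XT.nd (nat_lit 1560) (nat_lit 5700) (nat_lit 0) (XT.nd (nat_lit 780) (nat_lit 3952) (nat_lit 0) (XT.nd (nat_lit 390) (nat_lit 2128) (nat_lit 0) (XT.nd (nat_lit 156) (nat_lit 836) (nat_lit 0) (XT.nd (nat_lit 78) (nat_lit 760) (nat_lit 0) (XT.lf (nat_lit 0) (nat_lit 20596307319) (nat_lit 760) (nat_lit 107679169) (nat_lit 836) (nat_lit 8369344449) (nat_lit 373) (nat_lit 5) (nat_lit 383) (nat_lit 5) (nat_lit 384) (nat_lit 5) (nat_lit 638) (nat_lit 598) (nat_lit 324)) (XT.lf (nat_lit 0) (nat_lit 7925593339) (nat_lit 760) (nat_lit 16823666698) (nat_lit 836)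 (nat_lit 4649076487) (nat_lit 363) (nat_lit 5) (nat_lit 373) (nat_lit 5) (nat_lit 374) (nat_lit 5) (nat_lit 639) (nat_lit 598) (nat_lit 323))) (XT.nd (nat_lit 78) (nat_lit 836) (nat_lit 0) (XT.lf (nat_lit 0) (nat_lit 24767844647) (nat_lit 760) (nat_lit 4162790088) (nat_lit 836) (nat_lit 798103639) (nat_lit 363) (nat_lit 5) (nat_lit 373) (nat_lit 5) (nat_lit 374) (nat_lit 5) (nat_lit 640) (nat_lit 598) (nat_lit 322)) (XT.nd (nat_lit 78) (nat_lit 0) (nat_lit 0) (XT.lf (nat_lit 0) (nat_lit 3221957113) (nat_lit 836) (nat_lit 18105420367) (nat_lit 76) (nat_lit 8735302064) (nat_lit 352) (nat_lit 5) (nat_lit 363) (nat_lit 5) (nat_lit 353) (nat_lit 5) (nat_lit 641) (nat_lit 598) (nat_lit 321)) (XT.lf (nat_lit 0) (nat_lit 7370482884) (nat_lit 836) (nat_lit 1157298891) (nat_lit 76) (nat_lit 21874237303) (nat_lit 352) (nat_lit 5) (nat_lit 363) (nat_lit 5) (nat_lit 353) (nat_lit 5) (nat_lit 642) (nat_lit 598) (nat_lit 320))))) (XT.nd (nat_lit 156) (nat_lit 684) (nat_lit 0) (XT.nd (nat_lit 78) (nat_lit 684) (nat_lit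 0) (XT.lf (nat_lit 0) (nat_lit 11735885206) (nat_lit 836) (nat_lit 14434621633) (nat_lit 76) (nat_lit 4574960503) (nat_lit 342) (nat_lit 5) (nat_lit 353) (nat_lit 5) (nat_lit 343) (nat_lit 5) (nat_lit 643) (nat_lit 598) (nat_lit 319)) (XT.lf (nat_lit 0) (nat_lit 3029022919) (nat_lit 684) (nat_lit 13241266038) (nat_lit 760) (nat_lit 14823861802) (nat_lit 333) (nat_lit 5) (nat_lit 342) (nat_lit 5) (nat_lit 343) (nat_lit 5) (nat_lit 644) (nat_lit 598) (nat_lit 318))) (XT.nd (nat_lit 78) (nat_lit 684) (nat_lit 0) (XT.lf (nat_lit 0) (nat_lit 20990298849) (nat_lit 760) (nat_lit 10413173153) (nat_lit 76) (nat_lit 44437538) (nat_lit 333) (nat_lit 5) (nat_lit 343) (nat_lit 5) (nat_lit 334) (nat_lit 5) (nat_lit 645) (nat_lit 598) (nat_lit 317)) (XT.nd (nat_lit 78) (nat_lit 0) (nat_lit 0) (XT.lf (nat_lit 0) (nat_lit 7601259726) (nat_lit 684) (nat_lit 18338295708) (nat_lit 760) (nat_lit 5866491187) (nat_lit 324) (nat_lit 5) (nat_lit 333) (nat_lit 5) (nat_lit 334) (nat_lit 5) (nat_lit 646) (nat_lit 598) (nat_lit 316))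 (XT.lf (nat_lit 0) (nat_lit 26114589137) (nat_lit 684) (nat_lit 4940916000) (nat_lit 760) (nat_lit 1114487200) (nat_lit 324) (nat_lit 5) (nat_lit 333) (nat_lit 5) (nat_lit 334) (nat_lit 5) (nat_lit 647) (nat_lit 598) (nat_lit 315)))))) (XT.nd (nat_lit 390) (nat_lit 1900) (nat_lit 0) (XT.nd (nat_lit 156) (nat_lit 1292) (nat_lit 0) (XT.nd (nat_lit 78) (nat_lit 0) (nat_lit 0) (XT.lf (nat_lit 0) (nat_lit 3820584175) (nat_lit 760) (nat_lit 20001083009) (nat_lit 76) (nat_lit 8716325543) (nat_lit 314) (nat_lit 5) (nat_lit 324) (nat_lit 5) (nat_lit 315) (nat_lit 5) (nat_lit 648) (nat_lit 598) (nat_lit 314)) (XT.lf (nat_lit 0) (nat_lit 8910954977) (nat_lit 760) (nat_lit 1372307304) (nat_lit 76) (nat_lit 22628513137) (nat_lit 314) (nat_lit 5) (nat_lit 324) (nat_lit 5) (nat_lit 315) (nat_lit 5) (nat_lit 649) (nat_lit 598) (nat_lit 313))) (XT.nd (nat_lit 78) (nat_lit 608) (nat_lit 0) (XT.lf (nat_lit 0) (nat_lit 14240678335) (nat_lit 760) (nat_lit 15453619723) (nat_lit 76) (nat_lit 3595984853) (nat_lit 305) (nat_lit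 5) (nat_lit 315) (nat_lit 5) (nat_lit 306) (nat_lit 5) (nat_lit 650) (nat_lit 598) (nat_lit 312)) (XT.nd (nat_lit 78) (nat_lit 0) (nat_lit 0) (XT.lf (nat_lit 0) (nat_lit 3750749212) (nat_lit 608) (nat_lit 16025915318) (nat_lit 684) (nat_lit 13897702705) (nat_lit 297) (nat_lit 5) (nat_lit 305) (nat_lit 5) (nat_lit 306) (nat_lit 5) (nat_lit 651) (nat_lit 598) (nat_lit 311)) (XT.lf (nat_lit 0) (nat_lit 23546180804) (nat_lit 608) (nat_lit 1978860665) (nat_lit 684) (nat_lit 8539058404) (nat_lit 297) (nat_lit 5) (nat_lit 305) (nat_lit 5) (nat_lit 306) (nat_lit 5) (nat_lit 652) (nat_lit 598) (nat_lit 310))))) (XT.nd (nat_lit 156) (nat_lit 1216) (nat_lit 0) (XT.nd (nat_lit 78) (nat_lit 76) (nat_lit 0) (XT.lf (nat_lit 0) (nat_lit 9315397803) (nat_lit 608) (nat_lit 22211654577) (nat_lit 684) (nat_lit 2931801501) (nat_lit 289) (nat_lit 5) (nat_lit 297) (nat_lit 5) (nat_lit 298) (nat_lit 5) (nat_lit 653) (nat_lit 598) (nat_lit 309)) (XT.lf (nat_lit 0) (nat_lit 2833209743) (nat_lit 684) (nat_lit 5206309022) (nat_lit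 76) (nat_lit 26819978888) (nat_lit 288) (nat_lit 5) (nat_lit 297) (nat_lit 5) (nat_lit 289) (nat_lit 5) (nat_lit 654) (nat_lit 598) (nat_lit 308))) (XT.nd (nat_lit 78) (nat_lit 608) (nat_lit 0) (XT.lf (nat_lit 0) (nat_lit 8814189542) (nat_lit 684) (nat_lit 19999770686) (nat_lit 76) (nat_lit 6451008030) (nat_lit 280) (nat_lit 5) (nat_lit 289) (nat_lit 5) (nat_lit 281) (nat_lit 5) (nat_lit 655) (nat_lit 598) (nat_lit 307)) (XT.nd (nat_lit 78) (nat_lit 0) (nat_lit 0) (XT.lf (nat_lit 0) (nat_lit 489331660) (nat_lit 608) (nat_lit 14515118397) (nat_lit 684) (nat_lit 20672305040) (nat_lit 272) (nat_lit 5) (nat_lit 280) (nat_lit 5) (nat_lit 281) (nat_lit 5) (nat_lit 656) (nat_lit 598) (nat_lit 306)) (XT.lf (nat_lit 0) (nat_lit 21452158141) (nat_lit 684) (nat_lit 14438605382) (nat_lit 76) (nat_lit 203341344) (nat_lit 272) (nat_lit 5) (nat_lit 281) (nat_lit 5) (nat_lit 273) (nat_lit 5) (nat_lit 657) (nat_lit 598) (nat_lit 305))))))) (XT.nd (nat_lit 780) (nat_lit 2356) (nat_lit 0) (XT.nd (nat_lit 390) (nat_lit 1596)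 (nat_lit 0) (XT.nd (nat_lit 156) (nat_lit 1216) (nat_lit 0) (XT.nd (nat_lit 78) (nat_lit 0) (nat_lit 0) (XT.lf (nat_lit 0) (nat_lit 6714686789) (nat_lit 532) (nat_lit 21451985849) (nat_lit 608) (nat_lit 8350371990) (nat_lit 265) (nat_lit 5) (nat_lit 272) (nat_lit 5) (nat_lit 273) (nat_lit 5) (nat_lit 658) (nat_lit 598) (nat_lit 304)) (XT.lf (nat_lit 0) (nat_lit 28484339994) (nat_lit 532) (nat_lit 6626178453) (nat_lit 608) (nat_lit 1836023958) (nat_lit 265) (nat_lit 5) (nat_lit 272) (nat_lit 5) (nat_lit 273) (nat_lit 5) (nat_lit 659) (nat_lit 598) (nat_lit 303))) (XT.nd (nat_lit 78) (nat_lit 532) (nat_lit 0) (XT.lf (nat_lit 0) (nat_lit 4886973777) (nat_lit 684) (nat_lit 23990738763) (nat_lit 76) (nat_lit 8503464652) (nat_lit 256) (nat_lit 5) (nat_lit 265) (nat_lit 5) (nat_lit 257) (nat_lit 5) (nat_lit 660) (nat_lit 598) (nat_lit 302)) (XT.nd (nat_lit 78) (nat_lit 532) (nat_lit 0) (XT.lf (nat_lit 0) (nat_lit 11819105104) (nat_lit 684) (nat_lit 2087363889) (nat_lit 76) (nat_lit 23915807839) (nat_lit 256) (nat_lit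 5) (nat_lit 265) (nat_lit 5) (nat_lit 257) (nat_lit 5) (nat_lit 661) (nat_lit 598) (nat_lit 301)) (XT.lf (nat_lit 0) (nat_lit 19031076358) (nat_lit 608) (nat_lit 17758461864) (nat_lit 76) (nat_lit 1479836332) (nat_lit 249) (nat_lit 5) (nat_lit 257) (nat_lit 5) (nat_lit 250) (nat_lit 5) (nat_lit 662) (nat_lit 598) (nat_lit 300))))) (XT.nd (nat_lit 156) (nat_lit 1064) (nat_lit 0) (XT.nd (nat_lit 78) (nat_lit 0) (nat_lit 0) (XT.lf (nat_lit 0) (nat_lit 4833128764) (nat_lit 532) (nat_lit 21689976244) (nat_lit 608) (nat_lit 12199592901) (nat_lit 242) (nat_lit 5) (nat_lit 249) (nat_lit 5) (nat_lit 250) (nat_lit 5) (nat_lit 663) (nat_lit 598) (nat_lit 299)) (XT.lf (nat_lit 0) (nat_lit 28114902037) (nat_lit 532) (nat_lit 6167502100) (nat_lit 608) (nat_lit 4900335032) (nat_lit 242) (nat_lit 5) (nat_lit 249) (nat_lit 5) (nat_lit 250) (nat_lit 5) (nat_lit 664) (nat_lit 598) (nat_lit 298))) (XT.nd (nat_lit 78) (nat_lit 532) (nat_lit 0) (XT.lf (nat_lit 0) (nat_lit 2653412923) (nat_lit 532) (nat_lit 27359993625) (nat_lit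 76) (nat_lit 9635406641) (nat_lit 235) (nat_lit 5) (nat_lit 242) (nat_lit 5) (nat_lit 236) (nat_lit 5) (nat_lit 665) (nat_lit 598) (nat_lit 297)) (XT.nd (nat_lit 78) (nat_lit 532) (nat_lit 0) (XT.lf (nat_lit 0) (nat_lit 10406587395) (nat_lit 532) (nat_lit 3936235823) (nat_lit 76) (nat_lit 25778458338) (nat_lit 235) (nat_lit 5) (nat_lit 242) (nat_lit 5) (nat_lit 236) (nat_lit 5) (nat_lit 666) (nat_lit 598) (nat_lit 296)) (XT.lf (nat_lit 0) (nat_lit 18455952146) (nat_lit 608) (nat_lit 20393271187) (nat_lit 76) (nat_lit 1751153455) (nat_lit 228) (nat_lit 5) (nat_lit 236) (nat_lit 5) (nat_lit 229) (nat_lit 5) (nat_lit 667) (nat_lit 598) (nat_lit 295)))))) (XT.nd (nat_lit 390) (nat_lit 912) (nat_lit 0) (XT.nd (nat_lit 156) (nat_lit 988) (nat_lit 0) (XT.nd (nat_lit 78) (nat_lit 0) (nat_lit 0) (XT.lf (nat_lit 0) (nat_lit 3749836272) (nat_lit 456) (nat_lit 23060734455) (nat_lit 532) (nat_lit 14275597900) (nat_lit 222) (nat_lit 5) (nat_lit 228) (nat_lit 5) (nat_lit 229) (nat_lit 5) (nat_lit 668) (nat_lit 598) (nat_lit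 294)) (XT.lf (nat_lit 0) (nat_lit 28649929437) (nat_lit 456) (nat_lit 6817564638) (nat_lit 532) (nat_lit 6111478012) (nat_lit 222) (nat_lit 5) (nat_lit 228) (nat_lit 5) (nat_lit 229) (nat_lit 5) (nat_lit 669) (nat_lit 598) (nat_lit 293))) (XT.nd (nat_lit 78) (nat_lit 456) (nat_lit 0) (XT.lf (nat_lit 0) (nat_lit 2327780899) (nat_lit 532) (nat_lit 30035199662) (nat_lit 76) (nat_lit 9715544965) (nat_lit 215) (nat_lit 5) (nat_lit 222) (nat_lit 5) (nat_lit 216) (nat_lit 5) (nat_lit 670) (nat_lit 598) (nat_lit 292)) (XT.nd (nat_lit 78) (nat_lit 456) (nat_lit 0) (XT.lf (nat_lit 0) (nat_lit 10984950274) (nat_lit 532) (nat_lit 4984435193) (nat_lit 76) (nat_lit 26615257499) (nat_lit 215) (nat_lit 5) (nat_lit 222) (nat_lit 5) (nat_lit 216) (nat_lit 5) (nat_lit 671) (nat_lit 598) (nat_lit 291)) (XT.lf (nat_lit 0) (nat_lit 19954762469) (nat_lit 532) (nat_lit 22265595299) (nat_lit 76) (nat_lit 877735027) (nat_lit 209) (nat_lit 5) (nat_lit 216) (nat_lit 5) (nat_lit 210) (nat_lit 5) (nat_lit 672) (nat_lit 598) (nat_lit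 290))))) (XT.nd (nat_lit 75816) (nat_lit 0) (nat_lit 21736) (XT.nd (nat_lit 78) (nat_lit 456) (nat_lit 0) (XT.lf (nat_lit 0) (nat_lit 3550510014) (nat_lit 456) (nat_lit 25714380414) (nat_lit 532) (nat_lit 14353702832) (nat_lit 203) (nat_lit 5) (nat_lit 209) (nat_lit 5) (nat_lit 210) (nat_lit 5) (nat_lit 673) (nat_lit 598) (nat_lit 289)) (XT.nd (nat_lit 78) (nat_lit 456) (nat_lit 0) (XT.lf (nat_lit 0) (nat_lit 30182500312) (nat_lit 456) (nat_lit 8726590496) (nat_lit 532) (nat_lit 5237455557) (nat_lit 203) (nat_lit 5) (nat_lit 209) (nat_lit 5) (nat_lit 210) (nat_lit 5) (nat_lit 674) (nat_lit 598) (nat_lit 288)) (XT.lf (nat_lit 0) (nat_lit 4146009152) (nat_lit 456) (nat_lit 31938095532) (nat_lit 76) (nat_lit 8597663432) (nat_lit 197) (nat_lit 5) (nat_lit 203) (nat_lit 5) (nat_lit 198) (nat_lit 5) (nat_lit 675) (nat_lit 598) (nat_lit 287)))) (XT.nd (nat_lit 78) (nat_lit 0) (nat_lit 76) (XT.lf (nat_lit 0) (nat_lit 911755947) (nat_lit 1824) (nat_lit 152749625) (nat_lit 1900) (nat_lit 19441262465) (nat_lit 483)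 (nat_lit 5) (nat_lit 507) (nat_lit 5) (nat_lit 508) (nat_lit 5) (nat_lit 604) (nat_lit 599) (nat_lit 357)) (XT.nd (nat_lit 78) (nat_lit 0) (nat_lit 0) (XT.lf (nat_lit 0) (nat_lit 1476865429) (nat_lit 1824) (nat_lit 10334730807) (nat_lit 1900) (nat_lit 8898257205) (nat_lit 484) (nat_lit 5) (nat_lit 508) (nat_lit 5) (nat_lit 509) (nat_lit 5) (nat_lit 605) (nat_lit 599) (nat_lit 356)) (XT.lf (nat_lit 76) (nat_lit 190568627) (nat_lit 0) (nat_lit 1867863474) (nat_lit 1900) (nat_lit 18859485477) (nat_lit 485) (nat_lit 5) (nat_lit 484) (nat_lit 5) (nat_lit 509) (nat_lit 5) (nat_lit 606) (nat_lit 599) (nat_lit 355))))))))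
noncomputable def xc196 : XT := (XT.nd (nat_lit 1560) (nat_lit 9804) (nat_lit 0) (XT.nd (nat_lit 780) (nat_lit 2432) (nat_lit 0) (XT.nd (nat_lit 390) (nat_lit 0) (nat_lit 152) (XT.nd (nat_lit 156) (nat_lit 0) (nat_lit 76) (XT.nd (nat_lit 78) (nat_lit 0) (nat_lit 0) (XT.lf (nat_lit 0) (nat_lit 2771078216) (nat_lit 1824) (nat_lit 10119049564) (nat_lit 1900) (nat_lit 8237626379) (nat_lit 485) (nat_lit 5) (nat_lit 509) (nat_lit 5) (nat_lit 510) (nat_lit 5) (nat_lit 607) (nat_lit 599) (nat_lit 354)) (XT.lf (nat_lit 76) (nat_lit 695646607) (nat_lit 0) (nat_lit 2815209572) (nat_lit 1900) (nat_lit 17830673834) (nat_lit 486) (nat_lit 5) (nat_lit 485) (nat_lit 5) (nat_lit 510) (nat_lit 5) (nat_lit 608) (nat_lit 599) (nat_lit 353))) (XT.nd (nat_lit 78) (nat_lit 0) (nat_lit 0) (XT.lf (nat_lit 0) (nat_lit 4378290678) (nat_lit 1824) (nat_lit 9745907571) (nat_lit 1900) (nat_lit 7433126036) (nat_lit 486) (nat_lit 5) (nat_lit 510) (nat_lit 5) (nat_lit 511) (nat_lit 5) (nat_lit 609) (nat_lit 599) (nat_lit 352)) (XT.nd (nat_lit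 78) (nat_lit 0) (nat_lit 76) (XT.lf (nat_lit 76) (nat_lit 1368832821) (nat_lit 0) (nat_lit 3917913386) (nat_lit 1900) (nat_lit 16490214903) (nat_lit 487) (nat_lit 5) (nat_lit 486) (nat_lit 5) (nat_lit 511) (nat_lit 5) (nat_lit 610) (nat_lit 599) (nat_lit 351)) (XT.lf (nat_lit 0) (nat_lit 6317566449) (nat_lit 1824) (nat_lit 9206904326) (nat_lit 1900) (nat_lit 6474436101) (nat_lit 487) (nat_lit 5) (nat_lit 511) (nat_lit 5) (nat_lit 512) (nat_lit 5) (nat_lit 611) (nat_lit 599) (nat_lit 350))))) (XT.nd (nat_lit 156) (nat_lit 0) (nat_lit 76) (XT.nd (nat_lit 78) (nat_lit 0) (nat_lit 76) (XT.lf (nat_lit 76) (nat_lit 2218939353) (nat_lit 0) (nat_lit 5186700071) (nat_lit 1900) (nat_lit 14818919515) (nat_lit 488) (nat_lit 5) (nat_lit 487) (nat_lit 5) (nat_lit 512) (nat_lit 5) (nat_lit 612) (nat_lit 599) (nat_lit 349)) (XT.lf (nat_lit 0) (nat_lit 8608799435) (nat_lit 1824) (nat_lit 8493206025) (nat_lit 1900) (nat_lit 5350852184) (nat_lit 488) (nat_lit 5) (nat_lit 512) (nat_lit 5) (nat_lit 513) (nat_lit 5) (nat_lit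 613) (nat_lit 599) (nat_lit 348))) (XT.nd (nat_lit 78) (nat_lit 0) (nat_lit 76) (XT.lf (nat_lit 76) (nat_lit 3255227302) (nat_lit 0) (nat_lit 6632697760) (nat_lit 1900) (nat_lit 12796759319) (nat_lit 489) (nat_lit 5) (nat_lit 488) (nat_lit 5) (nat_lit 513) (nat_lit 5) (nat_lit 614) (nat_lit 599) (nat_lit 347)) (XT.nd (nat_lit 78) (nat_lit 0) (nat_lit 0) (XT.lf (nat_lit 0) (nat_lit 11272752084) (nat_lit 1824) (nat_lit 7595530018) (nat_lit 1900) (nat_lit 4051263277) (nat_lit 489) (nat_lit 5) (nat_lit 513) (nat_lit 5) (nat_lit 514) (nat_lit 5) (nat_lit 615) (nat_lit 599) (nat_lit 346)) (XT.lf (nat_lit 76) (nat_lit 4487422960) (nat_lit 0) (nat_lit 8267460483) (nat_lit 1900) (nat_lit 10402828103) (nat_lit 490) (nat_lit 5) (nat_lit 489) (nat_lit 5) (nat_lit 514) (nat_lit 5) (nat_lit 616) (nat_lit 599) (nat_lit 345)))))) (XT.nd (nat_lit 390) (nat_lit 2812) (nat_lit 0) (XT.nd (nat_lit 156) (nat_lit 0) (nat_lit 76) (XT.nd (nat_lit 78) (nat_lit 0) (nat_lit 0) (XT.lf (nat_lit 0) (nat_lit 14331095076) (nat_lit 1824)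 (nat_lit 6504128485) (nat_lit 1900) (nat_lit 2564128823) (nat_lit 490) (nat_lit 5) (nat_lit 514) (nat_lit 5) (nat_lit 515) (nat_lit 5) (nat_lit 617) (nat_lit 599) (nat_lit 344)) (XT.lf (nat_lit 76) (nat_lit 5925734791) (nat_lit 0) (nat_lit 10102991750) (nat_lit 1900) (nat_lit 7615301686) (nat_lit 491) (nat_lit 5) (nat_lit 490) (nat_lit 5) (nat_lit 515) (nat_lit 5) (nat_lit 618) (nat_lit 599) (nat_lit 343))) (XT.nd (nat_lit 78) (nat_lit 0) (nat_lit 0) (XT.lf (nat_lit 0) (nat_lit 17806448505) (nat_lit 1824) (nat_lit 5208771305) (nat_lit 1900) (nat_lit 877455115) (nat_lit 491) (nat_lit 5) (nat_lit 515) (nat_lit 5) (nat_lit 516) (nat_lit 5) (nat_lit 619) (nat_lit 599) (nat_lit 342)) (XT.nd (nat_lit 78) (nat_lit 0) (nat_lit 0) (XT.lf (nat_lit 76) (nat_lit 7580871232) (nat_lit 0) (nat_lit 12151768831) (nat_lit 1900) (nat_lit 4411396288) (nat_lit 492) (nat_lit 5) (nat_lit 491) (nat_lit 5) (nat_lit 516) (nat_lit 5) (nat_lit 620) (nat_lit 599) (nat_lit 341)) (XT.lf (nat_lit 76) (nat_lit 20694342612) (nat_lit 0) (nat_lit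 1034800612) (nat_lit 1900) (nat_lit 2670646118) (nat_lit 492) (nat_lit 5) (nat_lit 491) (nat_lit 5) (nat_lit 516) (nat_lit 5) (nat_lit 621) (nat_lit 599) (nat_lit 340))))) (XT.nd (nat_lit 156) (nat_lit 1064) (nat_lit 0) (XT.nd (nat_lit 78) (nat_lit 1900) (nat_lit 0) (XT.lf (nat_lit 76) (nat_lit 9464059337) (nat_lit 0) (nat_lit 14426767797) (nat_lit 1900) (nat_lit 767325337) (nat_lit 493) (nat_lit 5) (nat_lit 492) (nat_lit 5) (nat_lit 517) (nat_lit 5) (nat_lit 622) (nat_lit 599) (nat_lit 339)) (XT.lf (nat_lit 0) (nat_lit 1187470800) (nat_lit 1900) (nat_lit 1991251957) (nat_lit 1976) (nat_lit 21742231599) (nat_lit 467) (nat_lit 5) (nat_lit 492) (nat_lit 5) (nat_lit 493) (nat_lit 5) (nat_lit 623) (nat_lit 599) (nat_lit 338))) (XT.nd (nat_lit 78) (nat_lit 1140) (nat_lit 0) (XT.lf (nat_lit 0) (nat_lit 3297917784) (nat_lit 1900) (nat_lit 13621440801) (nat_lit 76) (nat_lit 8267015751) (nat_lit 468) (nat_lit 5) (nat_lit 493) (nat_lit 5) (nat_lit 469) (nat_lit 5) (nat_lit 624) (nat_lit 599) (nat_lit 337)) (XT.nd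 (nat_lit 78) (nat_lit 1140) (nat_lit 0) (XT.lf (nat_lit 0) (nat_lit 5482105263) (nat_lit 1900) (nat_lit 61344559) (nat_lit 76) (nat_lit 19913022347) (nat_lit 468) (nat_lit 5) (nat_lit 493) (nat_lit 5) (nat_lit 469) (nat_lit 5) (nat_lit 625) (nat_lit 599) (nat_lit 336)) (XT.lf (nat_lit 0) (nat_lit 7837586865) (nat_lit 1216) (nat_lit 11819804304) (nat_lit 76) (nat_lit 6072028665) (nat_lit 453) (nat_lit 5) (nat_lit 469) (nat_lit 5) (nat_lit 454) (nat_lit 5) (nat_lit 626) (nat_lit 599) (nat_lit 335))))))) (XT.nd (nat_lit 780) (nat_lit 4484) (nat_lit 0) (XT.nd (nat_lit 390) (nat_lit 2660) (nat_lit 0) (XT.nd (nat_lit 156) (nat_lit 1748) (nat_lit 0) (XT.nd (nat_lit 78) (nat_lit 0) (nat_lit 0) (XT.lf (nat_lit 0) (nat_lit 2141787795) (nat_lit 912) (nat_lit 8146552806) (nat_lit 988) (nat_lit 15718522685) (nat_lit 441) (nat_lit 5) (nat_lit 453) (nat_lit 5) (nat_lit 454) (nat_lit 5) (nat_lit 627) (nat_lit 599) (nat_lit 334)) (XT.lf (nat_lit 0) (nat_lit 12888461464) (nat_lit 988) (nat_lit 9771937335) (nat_lit 76) (nat_lit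 3627449844) (nat_lit 441) (nat_lit 5) (nat_lit 454) (nat_lit 5) (nat_lit 442) (nat_lit 5) (nat_lit 628) (nat_lit 599) (nat_lit 333))) (XT.nd (nat_lit 78) (nat_lit 836) (nat_lit 0) (XT.lf (nat_lit 0) (nat_lit 4606948373) (nat_lit 912) (nat_lit 11014725644) (nat_lit 988) (nat_lit 10951157983) (nat_lit 429) (nat_lit 5) (nat_lit 441) (nat_lit 5) (nat_lit 442) (nat_lit 5) (nat_lit 629) (nat_lit 599) (nat_lit 332)) (XT.nd (nat_lit 78) (nat_lit 836) (nat_lit 0) (XT.lf (nat_lit 0) (nat_lit 18478434696) (nat_lit 988) (nat_lit 7464997914) (nat_lit 76) (nat_lit 918704814) (nat_lit 429) (nat_lit 5) (nat_lit 442) (nat_lit 5) (nat_lit 430) (nat_lit 5) (nat_lit 630) (nat_lit 599) (nat_lit 331)) (XT.lf (nat_lit 0) (nat_lit 7346741266) (nat_lit 836) (nat_lit 14163554052) (nat_lit 912) (nat_lit 5644574420) (nat_lit 418) (nat_lit 5) (nat_lit 429) (nat_lit 5) (nat_lit 430) (nat_lit 5) (nat_lit 631) (nat_lit 599) (nat_lit 330))))) (XT.nd (nat_lit 156) (nat_lit 1672) (nat_lit 0) (XT.nd (nat_lit 78) (nat_lit 988) (nat_lit 0) (XT.lf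 (nat_lit 0) (nat_lit 22553349290) (nat_lit 836) (nat_lit 2096893499) (nat_lit 912) (nat_lit 2802264989) (nat_lit 418) (nat_lit 5) (nat_lit 429) (nat_lit 5) (nat_lit 430) (nat_lit 5) (nat_lit 632) (nat_lit 599) (nat_lit 329)) (XT.lf (nat_lit 0) (nat_lit 227555774) (nat_lit 988) (nat_lit 17379766313) (nat_lit 76) (nat_lit 10146125263) (nat_lit 405) (nat_lit 5) (nat_lit 418) (nat_lit 5) (nat_lit 406) (nat_lit 5) (nat_lit 633) (nat_lit 599) (nat_lit 328))) (XT.nd (nat_lit 78) (nat_lit 1672) (nat_lit 0) (XT.lf (nat_lit 0) (nat_lit 3324891366) (nat_lit 988) (nat_lit 2076599714) (nat_lit 76) (nat_lit 22657655430) (nat_lit 405) (nat_lit 5) (nat_lit 418) (nat_lit 5) (nat_lit 406) (nat_lit 5) (nat_lit 634) (nat_lit 599) (nat_lit 327)) (XT.nd (nat_lit 78) (nat_lit 836) (nat_lit 0) (XT.lf (nat_lit 0) (nat_lit 6617016046) (nat_lit 912) (nat_lit 14705669753) (nat_lit 76) (nat_lit 7045617074) (nat_lit 394) (nat_lit 5) (nat_lit 406) (nat_lit 5) (nat_lit 395) (nat_lit 5) (nat_lit 635) (nat_lit 599) (nat_lit 326)) (XT.lf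 (nat_lit 0) (nat_lit 1036608939) (nat_lit 836) (nat_lit 8992412337) (nat_lit 912) (nat_lit 18653540393) (nat_lit 383) (nat_lit 5) (nat_lit 394) (nat_lit 5) (nat_lit 395) (nat_lit 5) (nat_lit 636) (nat_lit 599) (nat_lit 325)))))) (XT.nd (nat_lit 390) (nat_lit 2964) (nat_lit 0) (XT.nd (nat_lit 156) (nat_lit 760) (nat_lit 0) (XT.nd (nat_lit 78) (nat_lit 760) (nat_lit 0) (XT.lf (nat_lit 0) (nat_lit 13629416342) (nat_lit 912) (nat_lit 11734576120) (nat_lit 76) (nat_lit 3636710250) (nat_lit 383) (nat_lit 5) (nat_lit 395) (nat_lit 5) (nat_lit 384) (nat_lit 5) (nat_lit 637) (nat_lit 599) (nat_lit 324)) (XT.lf (nat_lit 0) (nat_lit 4491847499) (nat_lit 760) (nat_lit 12896277167) (nat_lit 836) (nat_lit 11935355867) (nat_lit 373) (nat_lit 5) (nat_lit 383) (nat_lit 5) (nat_lit 384) (nat_lit 5) (nat_lit 638) (nat_lit 599) (nat_lit 323))) (XT.nd (nat_lit 78) (nat_lit 760) (nat_lit 0) (XT.lf (nat_lit 0) (nat_lit 21199342056) (nat_lit 760) (nat_lit 99030084) (nat_lit 836) (nat_lit 8352814533) (nat_lit 373) (nat_lit 5) (nat_lit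 383) (nat_lit 5) (nat_lit 384) (nat_lit 5) (nat_lit 639) (nat_lit 599) (nat_lit 322)) (XT.nd (nat_lit 78) (nat_lit 0) (nat_lit 0) (XT.lf (nat_lit 0) (nat_lit 8277473953) (nat_lit 760) (nat_lit 17144866038) (nat_lit 836) (nat_lit 4560396698) (nat_lit 363) (nat_lit 5) (nat_lit 373) (nat_lit 5) (nat_lit 374) (nat_lit 5) (nat_lit 640) (nat_lit 599) (nat_lit 321)) (XT.lf (nat_lit 0) (nat_lit 25452778743) (nat_lit 760) (nat_lit 4231071385) (nat_lit 836) (nat_lit 635966380) (nat_lit 363) (nat_lit 5) (nat_lit 373) (nat_lit 5) (nat_lit 374) (nat_lit 5) (nat_lit 641) (nat_lit 599) (nat_lit 320))))) (XT.nd (nat_lit 234) (nat_lit 1368) (nat_lit 0) (XT.nd (nat_lit 78) (nat_lit 760) (nat_lit 0) (XT.lf (nat_lit 0) (nat_lit 3460062320) (nat_lit 836) (nat_lit 18273509413) (nat_lit 76) (nat_lit 8926883679) (nat_lit 352) (nat_lit 5) (nat_lit 363) (nat_lit 5) (nat_lit 353) (nat_lit 5) (nat_lit 642) (nat_lit 599) (nat_lit 319)) (XT.nd (nat_lit 78) (nat_lit 760) (nat_lit 0) (XT.lf (nat_lit 0) (nat_lit 7688153390) (nat_lit 836)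 (nat_lit 990229808) (nat_lit 76) (nat_lit 22328266729) (nat_lit 352) (nat_lit 5) (nat_lit 363) (nat_lit 5) (nat_lit 353) (nat_lit 5) (nat_lit 643) (nat_lit 599) (nat_lit 318)) (XT.lf (nat_lit 0) (nat_lit 12138887328) (nat_lit 836) (nat_lit 14531118344) (nat_lit 76) (nat_lit 4687001097) (nat_lit 342) (nat_lit 5) (nat_lit 353) (nat_lit 5) (nat_lit 343) (nat_lit 5) (nat_lit 644) (nat_lit 599) (nat_lit 317)))) (XT.nd (nat_lit 78) (nat_lit 684) (nat_lit 0) (XT.lf (nat_lit 0) (nat_lit 3280534653) (nat_lit 684) (nat_lit 13481384459) (nat_lit 760) (nat_lit 14950786027) (nat_lit 333) (nat_lit 5) (nat_lit 342) (nat_lit 5) (nat_lit 343) (nat_lit 5) (nat_lit 645) (nat_lit 599) (nat_lit 316)) (XT.nd (nat_lit 78) (nat_lit 684) (nat_lit 0) (XT.lf (nat_lit 0) (nat_lit 21573227169) (nat_lit 760) (nat_lit 10431142992) (nat_lit 76) (nat_lit 69231057) (nat_lit 333) (nat_lit 5) (nat_lit 343) (nat_lit 5) (nat_lit 334) (nat_lit 5) (nat_lit 646) (nat_lit 599) (nat_lit 315)) (XT.lf (nat_lit 0) (nat_lit 7942326613) (nat_lit 684)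 (nat_lit 18677171179) (nat_lit 760) (nat_lit 5819442749) (nat_lit 324) (nat_lit 5) (nat_lit 333) (nat_lit 5) (nat_lit 334) (nat_lit 5) (nat_lit 647) (nat_lit 599) (nat_lit 314))))))))
noncomputable def xc197 : XT := (XT.nd (nat_lit 1560) (nat_lit 2432) (nat_lit 0) (XT.nd (nat_lit 780) (nat_lit 2812) (nat_lit 0) (XT.nd (nat_lit 390) (nat_lit 1900) (nat_lit 0) (XT.nd (nat_lit 156) (nat_lit 1292) (nat_lit 0) (XT.nd (nat_lit 78) (nat_lit 760) (nat_lit 0) (XT.lf (nat_lit 0) (nat_lit 26822215913) (nat_lit 684) (nat_lit 5012390748) (nat_lit 760) (nat_lit 975621786) (nat_lit 324) (nat_lit 5) (nat_lit 333) (nat_lit 5) (nat_lit 334) (nat_lit 5) (nat_lit 648) (nat_lit 599) (nat_lit 313)) (XT.lf (nat_lit 0) (nat_lit 4054316885) (nat_lit 760) (nat_lit 20211927956) (nat_lit 76) (nat_lit 8919357562) (nat_lit 314) (nat_lit 5) (nat_lit 324) (nat_lit 5) (nat_lit 315) (nat_lit 5) (nat_lit 649) (nat_lit 599) (nat_lit 312))) (XT.nd (nat_lit 78) (nat_lit 1292) (nat_lit 0) (XT.lf (nat_lit 0) (nat_lit 9243410377) (nat_lit 760)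 (nat_lit 1214286085) (nat_lit 76) (nat_lit 23109226055) (nat_lit 314) (nat_lit 5) (nat_lit 324) (nat_lit 5) (nat_lit 315) (nat_lit 5) (nat_lit 650) (nat_lit 599) (nat_lit 311)) (XT.nd (nat_lit 78) (nat_lit 608) (nat_lit 0) (XT.lf (nat_lit 0) (nat_lit 14678106936) (nat_lit 760) (nat_lit 15575599874) (nat_lit 76) (nat_lit 3699325848) (nat_lit 305) (nat_lit 5) (nat_lit 315) (nat_lit 5) (nat_lit 306) (nat_lit 5) (nat_lit 651) (nat_lit 599) (nat_lit 310)) (XT.lf (nat_lit 0) (nat_lit 4011625570) (nat_lit 608) (nat_lit 16311401568) (nat_lit 684) (nat_lit 14021807315) (nat_lit 297) (nat_lit 5) (nat_lit 305) (nat_lit 5) (nat_lit 306) (nat_lit 5) (nat_lit 652) (nat_lit 599) (nat_lit 309))))) (XT.nd (nat_lit 156) (nat_lit 1292) (nat_lit 0) (XT.nd (nat_lit 78) (nat_lit 608) (nat_lit 0) (XT.lf (nat_lit 0) (nat_lit 24199321452) (nat_lit 608) (nat_lit 1984092725) (nat_lit 684) (nat_lit 8559006784) (nat_lit 297) (nat_lit 5) (nat_lit 305) (nat_lit 5) (nat_lit 306) (nat_lit 5) (nat_lit 653) (nat_lit 599) (nat_lit 308)) (XT.lf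 (nat_lit 0) (nat_lit 9685443899) (nat_lit 608) (nat_lit 22618533528) (nat_lit 684) (nat_lit 2841122448) (nat_lit 289) (nat_lit 5) (nat_lit 297) (nat_lit 5) (nat_lit 298) (nat_lit 5) (nat_lit 654) (nat_lit 599) (nat_lit 307))) (XT.nd (nat_lit 78) (nat_lit 1216) (nat_lit 0) (XT.lf (nat_lit 0) (nat_lit 3034341378) (nat_lit 684) (nat_lit 5128376604) (nat_lit 76) (nat_lit 27391077006) (nat_lit 288) (nat_lit 5) (nat_lit 297) (nat_lit 5) (nat_lit 289) (nat_lit 5) (nat_lit 655) (nat_lit 599) (nat_lit 306)) (XT.nd (nat_lit 78) (nat_lit 608) (nat_lit 0) (XT.lf (nat_lit 0) (nat_lit 9133529404) (nat_lit 684) (nat_lit 20216292926) (nat_lit 76) (nat_lit 6617580965) (nat_lit 280) (nat_lit 5) (nat_lit 289) (nat_lit 5) (nat_lit 281) (nat_lit 5) (nat_lit 656) (nat_lit 599) (nat_lit 305)) (XT.lf (nat_lit 0) (nat_lit 681384406) (nat_lit 608) (nat_lit 14764589094) (nat_lit 684) (nat_lit 20941484865) (nat_lit 272) (nat_lit 5) (nat_lit 280) (nat_lit 5) (nat_lit 281) (nat_lit 5) (nat_lit 657) (nat_lit 599) (nat_lit 304)))))) (XT.nd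 (nat_lit 390) (nat_lit 1596) (nat_lit 0) (XT.nd (nat_lit 156) (nat_lit 684) (nat_lit 0) (XT.nd (nat_lit 78) (nat_lit 532) (nat_lit 0) (XT.lf (nat_lit 0) (nat_lit 22020122430) (nat_lit 684) (nat_lit 14546168823) (nat_lit 76) (nat_lit 246914206) (nat_lit 272) (nat_lit 5) (nat_lit 281) (nat_lit 5) (nat_lit 273) (nat_lit 5) (nat_lit 658) (nat_lit 599) (nat_lit 303)) (XT.lf (nat_lit 0) (nat_lit 7028997029) (nat_lit 532) (nat_lit 21838375031) (nat_lit 608) (nat_lit 8377263119) (nat_lit 265) (nat_lit 5) (nat_lit 272) (nat_lit 5) (nat_lit 273) (nat_lit 5) (nat_lit 659) (nat_lit 599) (nat_lit 302))) (XT.nd (nat_lit 78) (nat_lit 684) (nat_lit 0) (XT.lf (nat_lit 0) (nat_lit 29230513563) (nat_lit 532) (nat_lit 6716887772) (nat_lit 608) (nat_lit 1735375506) (nat_lit 265) (nat_lit 5) (nat_lit 272) (nat_lit 5) (nat_lit 273) (nat_lit 5) (nat_lit 660) (nat_lit 599) (nat_lit 301)) (XT.nd (nat_lit 78) (nat_lit 0) (nat_lit 0) (XT.lf (nat_lit 0) (nat_lit 5119051922) (nat_lit 684) (nat_lit 24291030756) (nat_lit 76) (nat_lit 8716028437)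 (nat_lit 256) (nat_lit 5) (nat_lit 265) (nat_lit 5) (nat_lit 257) (nat_lit 5) (nat_lit 661) (nat_lit 599) (nat_lit 300)) (XT.lf (nat_lit 0) (nat_lit 12187191784) (nat_lit 684) (nat_lit 1953108439) (nat_lit 76) (nat_lit 24435785262) (nat_lit 256) (nat_lit 5) (nat_lit 265) (nat_lit 5) (nat_lit 257) (nat_lit 5) (nat_lit 662) (nat_lit 599) (nat_lit 299))))) (XT.nd (nat_lit 156) (nat_lit 532) (nat_lit 0) (XT.nd (nat_lit 78) (nat_lit 532) (nat_lit 0) (XT.lf (nat_lit 0) (nat_lit 19542244720) (nat_lit 608) (nat_lit 17936467895) (nat_lit 76) (nat_lit 1553435757) (nat_lit 249) (nat_lit 5) (nat_lit 257) (nat_lit 5) (nat_lit 250) (nat_lit 5) (nat_lit 663) (nat_lit 599) (nat_lit 298)) (XT.lf (nat_lit 0) (nat_lit 5105788999) (nat_lit 532) (nat_lit 22076907896) (nat_lit 608) (nat_lit 12311869694) (nat_lit 242) (nat_lit 5) (nat_lit 249) (nat_lit 5) (nat_lit 250) (nat_lit 5) (nat_lit 664) (nat_lit 599) (nat_lit 297))) (XT.nd (nat_lit 78) (nat_lit 532) (nat_lit 0) (XT.lf (nat_lit 0) (nat_lit 28849746803) (nat_lit 532) (nat_lit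 6244903247) (nat_lit 608) (nat_lit 4869209316) (nat_lit 242) (nat_lit 5) (nat_lit 249) (nat_lit 5) (nat_lit 250) (nat_lit 5) (nat_lit 665) (nat_lit 599) (nat_lit 296)) (XT.nd (nat_lit 78) (nat_lit 0) (nat_lit 0) (XT.lf (nat_lit 0) (nat_lit 2832850428) (nat_lit 532) (nat_lit 27731878495) (nat_lit 76) (nat_lit 9874530615) (nat_lit 235) (nat_lit 5) (nat_lit 242) (nat_lit 5) (nat_lit 236) (nat_lit 5) (nat_lit 666) (nat_lit 599) (nat_lit 295)) (XT.lf (nat_lit 0) (nat_lit 10738610562) (nat_lit 532) (nat_lit 3843083086) (nat_lit 76) (nat_lit 26339533232) (nat_lit 235) (nat_lit 5) (nat_lit 242) (nat_lit 5) (nat_lit 236) (nat_lit 5) (nat_lit 667) (nat_lit 599) (nat_lit 294))))))) (XT.nd (nat_lit 76284) (nat_lit 0) (nat_lit 21280) (XT.nd (nat_lit 390) (nat_lit 912) (nat_lit 0) (XT.nd (nat_lit 156) (nat_lit 532) (nat_lit 0) (XT.nd (nat_lit 78) (nat_lit 456) (nat_lit 0) (XT.lf (nat_lit 0) (nat_lit 18947954755) (nat_lit 608) (nat_lit 20628248875) (nat_lit 76) (nat_lit 1833720593) (nat_lit 228) (nat_lit 5) (nat_lit 236)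 (nat_lit 5) (nat_lit 229) (nat_lit 5) (nat_lit 668) (nat_lit 599) (nat_lit 293)) (XT.lf (nat_lit 0) (nat_lit 3996583314) (nat_lit 456) (nat_lit 23471788028) (nat_lit 532) (nat_lit 14437086491) (nat_lit 222) (nat_lit 5) (nat_lit 228) (nat_lit 5) (nat_lit 229) (nat_lit 5) (nat_lit 669) (nat_lit 599) (nat_lit 292))) (XT.nd (nat_lit 78) (nat_lit 532) (nat_lit 0) (XT.lf (nat_lit 0) (nat_lit 29391310690) (nat_lit 456) (nat_lit 6904738367) (nat_lit 532) (nat_lit 6112116035) (nat_lit 222) (nat_lit 5) (nat_lit 228) (nat_lit 5) (nat_lit 229) (nat_lit 5) (nat_lit 670) (nat_lit 599) (nat_lit 291)) (XT.nd (nat_lit 78) (nat_lit 0) (nat_lit 0) (XT.lf (nat_lit 0) (nat_lit 2493402259) (nat_lit 532) (nat_lit 30464990661) (nat_lit 76) (nat_lit 9959319556) (nat_lit 215) (nat_lit 5) (nat_lit 222) (nat_lit 5) (nat_lit 216) (nat_lit 5) (nat_lit 671) (nat_lit 599) (nat_lit 290)) (XT.lf (nat_lit 0) (nat_lit 11321380399) (nat_lit 532) (nat_lit 4916562139) (nat_lit 76) (nat_lit 27196056464) (nat_lit 215) (nat_lit 5) (nat_lit 222)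 (nat_lit 5) (nat_lit 216) (nat_lit 5) (nat_lit 672) (nat_lit 599) (nat_lit 289))))) (XT.nd (nat_lit 156) (nat_lit 0) (nat_lit 0) (XT.nd (nat_lit 78) (nat_lit 456) (nat_lit 0) (XT.lf (nat_lit 0) (nat_lit 20469711469) (nat_lit 532) (nat_lit 22542465920) (nat_lit 76) (nat_lit 945558029) (nat_lit 209) (nat_lit 5) (nat_lit 216) (nat_lit 5) (nat_lit 210) (nat_lit 5) (nat_lit 673) (nat_lit 599) (nat_lit 288)) (XT.lf (nat_lit 0) (nat_lit 3788853332) (nat_lit 456) (nat_lit 26176003451) (nat_lit 532) (nat_lit 14523812856) (nat_lit 203) (nat_lit 5) (nat_lit 209) (nat_lit 5) (nat_lit 210) (nat_lit 5) (nat_lit 674) (nat_lit 599) (nat_lit 287))) (XT.nd (nat_lit 75582) (nat_lit 0) (nat_lit 21204) (XT.lf (nat_lit 0) (nat_lit 30950202395) (nat_lit 456) (nat_lit 8849490373) (nat_lit 532) (nat_lit 5227534048) (nat_lit 203) (nat_lit 5) (nat_lit 209) (nat_lit 5) (nat_lit 210) (nat_lit 5) (nat_lit 675) (nat_lit 599) (nat_lit 286)) (XT.nd (nat_lit 78) (nat_lit 0) (nat_lit 76) (XT.lf (nat_lit 0) (nat_lit 380820474) (nat_lit 1824)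 (nat_lit 173753013) (nat_lit 1900) (nat_lit 19945731895) (nat_lit 482) (nat_lit 5) (nat_lit 506) (nat_lit 5) (nat_lit 507) (nat_lit 5) (nat_lit 603) (nat_lit 600) (nat_lit 357)) (XT.lf (nat_lit 0) (nat_lit 808342576) (nat_lit 1824) (nat_lit 10425795388) (nat_lit 1900) (nat_lit 9468781220) (nat_lit 483) (nat_lit 5) (nat_lit 507) (nat_lit 5) (nat_lit 508) (nat_lit 5) (nat_lit 604) (nat_lit 600) (nat_lit 356)))))) (XT.nd (nat_lit 390) (nat_lit 0) (nat_lit 228) (XT.nd (nat_lit 156) (nat_lit 0) (nat_lit 76) (XT.nd (nat_lit 78) (nat_lit 0) (nat_lit 76) (XT.lf (nat_lit 76) (nat_lit 24076418) (nat_lit 0) (nat_lit 1221181648) (nat_lit 1900) (nat_lit 19664310464) (nat_lit 484) (nat_lit 5) (nat_lit 483) (nat_lit 5) (nat_lit 508) (nat_lit 5) (nat_lit 605) (nat_lit 600) (nat_lit 355)) (XT.lf (nat_lit 0) (nat_lit 1815637839) (nat_lit 1824) (nat_lit 10355975232) (nat_lit 1900) (nat_lit 8946243395) (nat_lit 484) (nat_lit 5) (nat_lit 508) (nat_lit 5) (nat_lit 509) (nat_lit 5) (nat_lit 606) (nat_lit 600) (nat_lit 354))) (XT.nd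 (nat_lit 78) (nat_lit 0) (nat_lit 76) (XT.lf (nat_lit 76) (nat_lit 378610123) (nat_lit 0) (nat_lit 2025358432) (nat_lit 1900) (nat_lit 18926210859) (nat_lit 485) (nat_lit 5) (nat_lit 484) (nat_lit 5) (nat_lit 509) (nat_lit 5) (nat_lit 607) (nat_lit 600) (nat_lit 353)) (XT.nd (nat_lit 78) (nat_lit 0) (nat_lit 0) (XT.lf (nat_lit 0) (nat_lit 3124134877) (nat_lit 1824) (nat_lit 10134071092) (nat_lit 1900) (nat_lit 8286141592) (nat_lit 485) (nat_lit 5) (nat_lit 509) (nat_lit 5) (nat_lit 510) (nat_lit 5) (nat_lit 608) (nat_lit 600) (nat_lit 352)) (XT.lf (nat_lit 76) (nat_lit 895686375) (nat_lit 0) (nat_lit 2978394502) (nat_lit 1900) (nat_lit 17888410782) (nat_lit 486) (nat_lit 5) (nat_lit 485) (nat_lit 5) (nat_lit 510) (nat_lit 5) (nat_lit 609) (nat_lit 600) (nat_lit 351))))) (XT.nd (nat_lit 234) (nat_lit 0) (nat_lit 76) (XT.nd (nat_lit 78) (nat_lit 0) (nat_lit 0) (XT.lf (nat_lit 0) (nat_lit 4752438484) (nat_lit 1824) (nat_lit 9751914222) (nat_lit 1900) (nat_lit 7478377794) (nat_lit 486) (nat_lit 5) (nat_lit 510)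 (nat_lit 5) (nat_lit 511) (nat_lit 5) (nat_lit 610) (nat_lit 600) (nat_lit 350)) (XT.nd (nat_lit 78) (nat_lit 0) (nat_lit 76) (XT.lf (nat_lit 76) (nat_lit 1583878139) (nat_lit 0) (nat_lit 4090784200) (nat_lit 1900) (nat_lit 16532185908) (nat_lit 487) (nat_lit 5) (nat_lit 486) (nat_lit 5) (nat_lit 511) (nat_lit 5) (nat_lit 611) (nat_lit 600) (nat_lit 349)) (XT.lf (nat_lit 0) (nat_lit 6719964415) (nat_lit 1824) (nat_lit 9200910662) (nat_lit 1900) (nat_lit 6512480707) (nat_lit 487) (nat_lit 5) (nat_lit 511) (nat_lit 5) (nat_lit 512) (nat_lit 5) (nat_lit 612) (nat_lit 600) (nat_lit 348)))) (XT.nd (nat_lit 78) (nat_lit 0) (nat_lit 76) (XT.lf (nat_lit 76) (nat_lit 2452199023) (nat_lit 0) (nat_lit 5373413487) (nat_lit 1900) (nat_lit 14837992269) (nat_lit 488) (nat_lit 5) (nat_lit 487) (nat_lit 5) (nat_lit 512) (nat_lit 5) (nat_lit 613) (nat_lit 600) (nat_lit 347)) (XT.nd (nat_lit 78) (nat_lit 0) (nat_lit 0) (XT.lf (nat_lit 0) (nat_lit 9046976934) (nat_lit 1824) (nat_lit 8472026048) (nat_lit 1900) (nat_lit 5377583811)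 (nat_lit 488) (nat_lit 5) (nat_lit 512) (nat_lit 5) (nat_lit 513) (nat_lit 5) (nat_lit 614) (nat_lit 600) (nat_lit 346)) (XT.lf (nat_lit 76) (nat_lit 3510119075) (nat_lit 0) (nat_lit 6837582506) (nat_lit 1900) (nat_lit 12785428309) (nat_lit 489) (nat_lit 5) (nat_lit 488) (nat_lit 5) (nat_lit 513) (nat_lit 5) (nat_lit 615) (nat_lit 600) (nat_lit 345))))))))
noncomputable def xc198 : XT := (XT.nd (nat_lit 1560) (nat_lit 8892) (nat_lit 0) (XT.nd (nat_lit 780) (nat_lit 4712) (nat_lit 0) (XT.nd (nat_lit 390) (nat_lit 1672) (nat_lit 0) (XT.nd (nat_lit 156) (nat_lit 0) (nat_lit 76) (XT.nd (nat_lit 78) (nat_lit 0) (nat_lit 0) (XT.lf (nat_lit 0) (nat_lit 11754627762) (nat_lit 1824) (nat_lit 7555769663) (nat_lit 1900) (nat_lit 4062402787) (nat_lit 489) (nat_lit 5) (nat_lit 513) (nat_lit 5) (nat_lit 514) (nat_lit 5) (nat_lit 616) (nat_lit 600) (nat_lit 344)) (XT.lf (nat_lit 76) (nat_lit 4767581382) (nat_lit 0) (nat_lit 8495028778) (nat_lit 1900) (nat_lit 10353195523) (nat_lit 490) (nat_lit 5) (nat_lit 489) (nat_lit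 5) (nat_lit 514) (nat_lit 5) (nat_lit 617) (nat_lit 600) (nat_lit 343))) (XT.nd (nat_lit 78) (nat_lit 0) (nat_lit 0) (XT.lf (nat_lit 0) (nat_lit 14864996469) (nat_lit 1824) (nat_lit 6442177697) (nat_lit 1900) (nat_lit 2555212311) (nat_lit 490) (nat_lit 5) (nat_lit 514) (nat_lit 5) (nat_lit 515) (nat_lit 5) (nat_lit 618) (nat_lit 600) (nat_lit 342)) (XT.nd (nat_lit 78) (nat_lit 0) (nat_lit 76) (XT.lf (nat_lit 76) (nat_lit 6235019467) (nat_lit 0) (nat_lit 10357951083) (nat_lit 1900) (nat_lit 7519057630) (nat_lit 491) (nat_lit 5) (nat_lit 490) (nat_lit 5) (nat_lit 515) (nat_lit 5) (nat_lit 619) (nat_lit 600) (nat_lit 341)) (XT.lf (nat_lit 0) (nat_lit 18401132397) (nat_lit 1824) (nat_lit 5120795702) (nat_lit 1900) (nat_lit 843822147) (nat_lit 491) (nat_lit 5) (nat_lit 515) (nat_lit 5) (nat_lit 516) (nat_lit 5) (nat_lit 620) (nat_lit 600) (nat_lit 340))))) (XT.nd (nat_lit 156) (nat_lit 1824) (nat_lit 0) (XT.nd (nat_lit 78) (nat_lit 0) (nat_lit 0) (XT.lf (nat_lit 76) (nat_lit 7923375534) (nat_lit 0) (nat_lit 12439034068)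 (nat_lit 1900) (nat_lit 4259798199) (nat_lit 492) (nat_lit 5) (nat_lit 491) (nat_lit 5) (nat_lit 516) (nat_lit 5) (nat_lit 621) (nat_lit 600) (nat_lit 339)) (XT.lf (nat_lit 76) (nat_lit 21295373462) (nat_lit 0) (nat_lit 1098859233) (nat_lit 1900) (nat_lit 2488935497) (nat_lit 492) (nat_lit 5) (nat_lit 491) (nat_lit 5) (nat_lit 516) (nat_lit 5) (nat_lit 622) (nat_lit 600) (nat_lit 338))) (XT.nd (nat_lit 78) (nat_lit 1900) (nat_lit 0) (XT.lf (nat_lit 76) (nat_lit 9844119560) (nat_lit 0) (nat_lit 14751473631) (nat_lit 1900) (nat_lit 551176668) (nat_lit 493) (nat_lit 5) (nat_lit 492) (nat_lit 5) (nat_lit 517) (nat_lit 5) (nat_lit 623) (nat_lit 600) (nat_lit 337)) (XT.nd (nat_lit 78) (nat_lit 0) (nat_lit 76) (XT.lf (nat_lit 0) (nat_lit 1435199701) (nat_lit 1900) (nat_lit 1841055743) (nat_lit 1976) (nat_lit 22138631996) (nat_lit 467) (nat_lit 5) (nat_lit 492) (nat_lit 5) (nat_lit 493) (nat_lit 5) (nat_lit 624) (nat_lit 600) (nat_lit 336)) (XT.lf (nat_lit 0) (nat_lit 3584481458) (nat_lit 1900) (nat_lit 13700467911)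 (nat_lit 76) (nat_lit 8400734061) (nat_lit 468) (nat_lit 5) (nat_lit 493) (nat_lit 5) (nat_lit 469) (nat_lit 5) (nat_lit 625) (nat_lit 600) (nat_lit 335)))))) (XT.nd (nat_lit 390) (nat_lit 1824) (nat_lit 0) (XT.nd (nat_lit 156) (nat_lit 1824) (nat_lit 0) (XT.nd (nat_lit 78) (nat_lit 0) (nat_lit 0) (XT.lf (nat_lit 0) (nat_lit 128726334) (nat_lit 1140) (nat_lit 5680136535) (nat_lit 1216) (nat_lit 20152390271) (nat_lit 453) (nat_lit 5) (nat_lit 468) (nat_lit 5) (nat_lit 469) (nat_lit 5) (nat_lit 626) (nat_lit 600) (nat_lit 334)) (XT.lf (nat_lit 0) (nat_lit 8207438853) (nat_lit 1216) (nat_lit 11863405358) (nat_lit 76) (nat_lit 6168895972) (nat_lit 453) (nat_lit 5) (nat_lit 469) (nat_lit 5) (nat_lit 454) (nat_lit 5) (nat_lit 627) (nat_lit 600) (nat_lit 333))) (XT.nd (nat_lit 78) (nat_lit 912) (nat_lit 0) (XT.lf (nat_lit 0) (nat_lit 2376150194) (nat_lit 912) (nat_lit 8328122550) (nat_lit 988) (nat_lit 15818518575) (nat_lit 441) (nat_lit 5) (nat_lit 453) (nat_lit 5) (nat_lit 454) (nat_lit 5) (nat_lit 628) (nat_lit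 600) (nat_lit 332)) (XT.nd (nat_lit 78) (nat_lit 912) (nat_lit 0) (XT.lf (nat_lit 0) (nat_lit 13352156495) (nat_lit 988) (nat_lit 9775359524) (nat_lit 76) (nat_lit 3681965273) (nat_lit 441) (nat_lit 5) (nat_lit 454) (nat_lit 5) (nat_lit 442) (nat_lit 5) (nat_lit 629) (nat_lit 600) (nat_lit 331)) (XT.lf (nat_lit 0) (nat_lit 4889840632) (nat_lit 912) (nat_lit 11247393403) (nat_lit 988) (nat_lit 10962986380) (nat_lit 429) (nat_lit 5) (nat_lit 441) (nat_lit 5) (nat_lit 442) (nat_lit 5) (nat_lit 630) (nat_lit 600) (nat_lit 330))))) (XT.nd (nat_lit 156) (nat_lit 988) (nat_lit 0) (XT.nd (nat_lit 78) (nat_lit 836) (nat_lit 0) (XT.lf (nat_lit 0) (nat_lit 19047068295) (nat_lit 988) (nat_lit 7423217625) (nat_lit 76) (nat_lit 925107372) (nat_lit 429) (nat_lit 5) (nat_lit 442) (nat_lit 5) (nat_lit 430) (nat_lit 5) (nat_lit 631) (nat_lit 600) (nat_lit 329)) (XT.lf (nat_lit 0) (nat_lit 7683499231) (nat_lit 836) (nat_lit 14453396122) (nat_lit 912) (nat_lit 5557138424) (nat_lit 418) (nat_lit 5) (nat_lit 429) (nat_lit 5)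 (nat_lit 430) (nat_lit 5) (nat_lit 632) (nat_lit 600) (nat_lit 328))) (XT.nd (nat_lit 78) (nat_lit 988) (nat_lit 0) (XT.lf (nat_lit 0) (nat_lit 23190517393) (nat_lit 836) (nat_lit 2145273515) (nat_lit 912) (nat_lit 2661910794) (nat_lit 418) (nat_lit 5) (nat_lit 429) (nat_lit 5) (nat_lit 430) (nat_lit 5) (nat_lit 633) (nat_lit 600) (nat_lit 327)) (XT.nd (nat_lit 78) (nat_lit 0) (nat_lit 0) (XT.lf (nat_lit 0) (nat_lit 423322427) (nat_lit 988) (nat_lit 17536066148) (nat_lit 76) (nat_lit 10345298254) (nat_lit 405) (nat_lit 5) (nat_lit 418) (nat_lit 5) (nat_lit 406) (nat_lit 5) (nat_lit 634) (nat_lit 600) (nat_lit 326)) (XT.lf (nat_lit 0) (nat_lit 3578855407) (nat_lit 988) (nat_lit 1930587109) (nat_lit 76) (nat_lit 23107132544) (nat_lit 405) (nat_lit 5) (nat_lit 418) (nat_lit 5) (nat_lit 406) (nat_lit 5) (nat_lit 635) (nat_lit 600) (nat_lit 325))))))) (XT.nd (nat_lit 780) (nat_lit 4104) (nat_lit 0) (XT.nd (nat_lit 390) (nat_lit 2356) (nat_lit 0) (XT.nd (nat_lit 156) (nat_lit 760) (nat_lit 0) (XT.nd (nat_lit 78)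 (nat_lit 836) (nat_lit 0) (XT.lf (nat_lit 0) (nat_lit 6934364936) (nat_lit 912) (nat_lit 14809775946) (nat_lit 76) (nat_lit 7187822920) (nat_lit 394) (nat_lit 5) (nat_lit 406) (nat_lit 5) (nat_lit 395) (nat_lit 5) (nat_lit 636) (nat_lit 600) (nat_lit 324)) (XT.lf (nat_lit 0) (nat_lit 1246098272) (nat_lit 836) (nat_lit 9166109916) (nat_lit 912) (nat_lit 18840347725) (nat_lit 383) (nat_lit 5) (nat_lit 394) (nat_lit 5) (nat_lit 395) (nat_lit 5) (nat_lit 637) (nat_lit 600) (nat_lit 323))) (XT.nd (nat_lit 78) (nat_lit 760) (nat_lit 0) (XT.lf (nat_lit 0) (nat_lit 14081069787) (nat_lit 912) (nat_lit 11780665476) (nat_lit 76) (nat_lit 3715395436) (nat_lit 383) (nat_lit 5) (nat_lit 395) (nat_lit 5) (nat_lit 384) (nat_lit 5) (nat_lit 638) (nat_lit 600) (nat_lit 322)) (XT.nd (nat_lit 78) (nat_lit 0) (nat_lit 0) (XT.lf (nat_lit 0) (nat_lit 4769045812) (nat_lit 760) (nat_lit 13143611859) (nat_lit 836) (nat_lit 11993752392) (nat_lit 373) (nat_lit 5) (nat_lit 383) (nat_lit 5) (nat_lit 384) (nat_lit 5) (nat_lit 639) (nat_lit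 600) (nat_lit 321)) (XT.lf (nat_lit 0) (nat_lit 21807016507) (nat_lit 760) (nat_lit 90627498) (nat_lit 836) (nat_lit 8343095733) (nat_lit 373) (nat_lit 5) (nat_lit 383) (nat_lit 5) (nat_lit 384) (nat_lit 5) (nat_lit 640) (nat_lit 600) (nat_lit 320))))) (XT.nd (nat_lit 156) (nat_lit 1596) (nat_lit 0) (XT.nd (nat_lit 78) (nat_lit 0) (nat_lit 0) (XT.lf (nat_lit 0) (nat_lit 8628883435) (nat_lit 760) (nat_lit 17473082472) (nat_lit 836) (nat_lit 4476997444) (nat_lit 363) (nat_lit 5) (nat_lit 373) (nat_lit 5) (nat_lit 374) (nat_lit 5) (nat_lit 641) (nat_lit 600) (nat_lit 319)) (XT.lf (nat_lit 0) (nat_lit 26144050007) (nat_lit 760) (nat_lit 4301299786) (nat_lit 836) (nat_lit 477502190) (nat_lit 363) (nat_lit 5) (nat_lit 373) (nat_lit 5) (nat_lit 374) (nat_lit 5) (nat_lit 642) (nat_lit 600) (nat_lit 318))) (XT.nd (nat_lit 78) (nat_lit 760) (nat_lit 0) (XT.lf (nat_lit 0) (nat_lit 3696185966) (nat_lit 836) (nat_lit 18452494248) (nat_lit 76) (nat_lit 9121641627) (nat_lit 352) (nat_lit 5) (nat_lit 363) (nat_lit 5) (nat_lit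 353) (nat_lit 5) (nat_lit 643) (nat_lit 600) (nat_lit 317)) (XT.nd (nat_lit 78) (nat_lit 760) (nat_lit 0) (XT.lf (nat_lit 0) (nat_lit 8005565870) (nat_lit 836) (nat_lit 827205627) (nat_lit 76) (nat_lit 22790734294) (nat_lit 352) (nat_lit 5) (nat_lit 363) (nat_lit 5) (nat_lit 353) (nat_lit 5) (nat_lit 644) (nat_lit 600) (nat_lit 316)) (XT.lf (nat_lit 0) (nat_lit 12543414804) (nat_lit 836) (nat_lit 14637008184) (nat_lit 76) (nat_lit 4800484856) (nat_lit 342) (nat_lit 5) (nat_lit 353) (nat_lit 5) (nat_lit 343) (nat_lit 5) (nat_lit 645) (nat_lit 600) (nat_lit 315)))))) (XT.nd (nat_lit 390) (nat_lit 1976) (nat_lit 0) (XT.nd (nat_lit 156) (nat_lit 1444) (nat_lit 0) (XT.nd (nat_lit 78) (nat_lit 0) (nat_lit 0) (XT.lf (nat_lit 0) (nat_lit 3529662528) (nat_lit 684) (nat_lit 13727264648) (nat_lit 760) (nat_lit 15086832686) (nat_lit 333) (nat_lit 5) (nat_lit 342) (nat_lit 5) (nat_lit 343) (nat_lit 5) (nat_lit 646) (nat_lit 600) (nat_lit 314)) (XT.lf (nat_lit 0) (nat_lit 22161479815) (nat_lit 760) (nat_lit 10456861560)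 (nat_lit 76) (nat_lit 93592196) (nat_lit 333) (nat_lit 5) (nat_lit 343) (nat_lit 5) (nat_lit 334) (nat_lit 5) (nat_lit 647) (nat_lit 600) (nat_lit 313))) (XT.nd (nat_lit 78) (nat_lit 760) (nat_lit 0) (XT.lf (nat_lit 0) (nat_lit 8282874119) (nat_lit 684) (nat_lit 19023907179) (nat_lit 760) (nat_lit 5777836351) (nat_lit 324) (nat_lit 5) (nat_lit 333) (nat_lit 5) (nat_lit 334) (nat_lit 5) (nat_lit 648) (nat_lit 600) (nat_lit 312)) (XT.nd (nat_lit 78) (nat_lit 760) (nat_lit 0) (XT.lf (nat_lit 0) (nat_lit 27536798441) (nat_lit 684) (nat_lit 5086356775) (nat_lit 760) (nat_lit 840236915) (nat_lit 324) (nat_lit 5) (nat_lit 333) (nat_lit 5) (nat_lit 334) (nat_lit 5) (nat_lit 649) (nat_lit 600) (nat_lit 311)) (XT.lf (nat_lit 0) (nat_lit 4286615283) (nat_lit 760) (nat_lit 20434335765) (nat_lit 76) (nat_lit 9125335552) (nat_lit 314) (nat_lit 5) (nat_lit 324) (nat_lit 5) (nat_lit 315) (nat_lit 5) (nat_lit 650) (nat_lit 600) (nat_lit 310))))) (XT.nd (nat_lit 234) (nat_lit 684) (nat_lit 0) (XT.nd (nat_lit 78) (nat_lit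 1292) (nat_lit 0) (XT.lf (nat_lit 0) (nat_lit 9576525703) (nat_lit 760) (nat_lit 1060306365) (nat_lit 76) (nat_lit 23598460418) (nat_lit 314) (nat_lit 5) (nat_lit 324) (nat_lit 5) (nat_lit 315) (nat_lit 5) (nat_lit 651) (nat_lit 600) (nat_lit 309)) (XT.nd (nat_lit 78) (nat_lit 608) (nat_lit 0) (XT.lf (nat_lit 0) (nat_lit 15118357881) (nat_lit 760) (nat_lit 15707284648) (nat_lit 76) (nat_lit 3803513536) (nat_lit 305) (nat_lit 5) (nat_lit 315) (nat_lit 5) (nat_lit 306) (nat_lit 5) (nat_lit 652) (nat_lit 600) (nat_lit 308)) (XT.lf (nat_lit 0) (nat_lit 4270502232) (nat_lit 608) (nat_lit 16603957881) (nat_lit 684) (nat_lit 14154368178) (nat_lit 297) (nat_lit 5) (nat_lit 305) (nat_lit 5) (nat_lit 306) (nat_lit 5) (nat_lit 653) (nat_lit 600) (nat_lit 307)))) (XT.nd (nat_lit 78) (nat_lit 684) (nat_lit 0) (XT.lf (nat_lit 0) (nat_lit 24858449205) (nat_lit 608) (nat_lit 1990763091) (nat_lit 684) (nat_lit 8585211152) (nat_lit 297) (nat_lit 5) (nat_lit 305) (nat_lit 5) (nat_lit 306) (nat_lit 5) (nat_lit 654) (nat_lit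 600) (nat_lit 306)) (XT.nd (nat_lit 78) (nat_lit 76) (nat_lit 0) (XT.lf (nat_lit 0) (nat_lit 10055756142) (nat_lit 608) (nat_lit 23035000565) (nat_lit 684) (nat_lit 2754427901) (nat_lit 289) (nat_lit 5) (nat_lit 297) (nat_lit 5) (nat_lit 298) (nat_lit 5) (nat_lit 655) (nat_lit 600) (nat_lit 305)) (XT.lf (nat_lit 0) (nat_lit 3233885799) (nat_lit 684) (nat_lit 5055955094) (nat_lit 76) (nat_lit 27972249699) (nat_lit 288) (nat_lit 5) (nat_lit 297) (nat_lit 5) (nat_lit 289) (nat_lit 5) (nat_lit 656) (nat_lit 600) (nat_lit 304))))))))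
noncomputable def xc199 : XT := (XT.nd (nat_lit 76986) (nat_lit 0) (nat_lit 21204) (XT.nd (nat_lit 780) (nat_lit 2964) (nat_lit 0) (XT.nd (nat_lit 390) (nat_lit 1748) (nat_lit 0) (XT.nd (nat_lit 156) (nat_lit 532) (nat_lit 0) (XT.nd (nat_lit 78) (nat_lit 608) (nat_lit 0) (XT.lf (nat_lit 0) (nat_lit 9453701022) (nat_lit 684) (nat_lit 20444270098) (nat_lit 76) (nat_lit 6786027139) (nat_lit 280) (nat_lit 5) (nat_lit 289) (nat_lit 5) (nat_lit 281) (nat_lit 5) (nat_lit 657) (nat_lit 600) (nat_lit 303)) (XT.lf (nat_lit 0) (nat_lit 870200593) (nat_lit 608) (nat_lit 15020634749) (nat_lit 684) (nat_lit 21221650322) (nat_lit 272) (nat_lit 5) (nat_lit 280) (nat_lit 5) (nat_lit 281) (nat_lit 5) (nat_lit 658) (nat_lit 600) (nat_lit 302))) (XT.nd (nat_lit 78) (nat_lit 532) (nat_lit 0) (XT.lf (nat_lit 0) (nat_lit 22594051529) (nat_lit 684) (nat_lit 14662920087) (nat_lit 76) (nat_lit 289824457) (nat_lit 272) (nat_lit 5) (nat_lit 281) (nat_lit 5) (nat_lit 273) (nat_lit 5) (nat_lit 659) (nat_lit 600) (nat_lit 301)) (XT.nd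 (nat_lit 78) (nat_lit 0) (nat_lit 0) (XT.lf (nat_lit 0) (nat_lit 7342603213) (nat_lit 532) (nat_lit 22234148170) (nat_lit 608) (nat_lit 8410132958) (nat_lit 265) (nat_lit 5) (nat_lit 272) (nat_lit 5) (nat_lit 273) (nat_lit 5) (nat_lit 660) (nat_lit 600) (nat_lit 300)) (XT.lf (nat_lit 0) (nat_lit 29984757406) (nat_lit 532) (nat_lit 6811034976) (nat_lit 608) (nat_lit 1638048287) (nat_lit 265) (nat_lit 5) (nat_lit 272) (nat_lit 5) (nat_lit 273) (nat_lit 5) (nat_lit 661) (nat_lit 600) (nat_lit 299))))) (XT.nd (nat_lit 156) (nat_lit 1064) (nat_lit 0) (XT.nd (nat_lit 78) (nat_lit 0) (nat_lit 0) (XT.lf (nat_lit 0) (nat_lit 5350555096) (nat_lit 684) (nat_lit 24604299678) (nat_lit 76) (nat_lit 8931193385) (nat_lit 256) (nat_lit 5) (nat_lit 265) (nat_lit 5) (nat_lit 257) (nat_lit 5) (nat_lit 662) (nat_lit 600) (nat_lit 298)) (XT.lf (nat_lit 0) (nat_lit 12557525948) (nat_lit 684) (nat_lit 1823002280) (nat_lit 76) (nat_lit 24964544476) (nat_lit 256) (nat_lit 5) (nat_lit 265) (nat_lit 5) (nat_lit 257) (nat_lit 5) (nat_lit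 663) (nat_lit 600) (nat_lit 297))) (XT.nd (nat_lit 78) (nat_lit 532) (nat_lit 0) (XT.lf (nat_lit 0) (nat_lit 20058567157) (nat_lit 608) (nat_lit 18124913509) (nat_lit 76) (nat_lit 1626798493) (nat_lit 249) (nat_lit 5) (nat_lit 257) (nat_lit 5) (nat_lit 250) (nat_lit 5) (nat_lit 664) (nat_lit 600) (nat_lit 296)) (XT.nd (nat_lit 78) (nat_lit 0) (nat_lit 0) (XT.lf (nat_lit 0) (nat_lit 5377068235) (nat_lit 532) (nat_lit 22473398118) (nat_lit 608) (nat_lit 12431506678) (nat_lit 242) (nat_lit 5) (nat_lit 249) (nat_lit 5) (nat_lit 250) (nat_lit 5) (nat_lit 665) (nat_lit 600) (nat_lit 295)) (XT.lf (nat_lit 0) (nat_lit 29592588265) (nat_lit 532) (nat_lit 6325636669) (nat_lit 608) (nat_lit 4842475454) (nat_lit 242) (nat_lit 5) (nat_lit 249) (nat_lit 5) (nat_lit 250) (nat_lit 5) (nat_lit 666) (nat_lit 600) (nat_lit 294)))))) (XT.nd (nat_lit 390) (nat_lit 1444) (nat_lit 0) (XT.nd (nat_lit 156) (nat_lit 988) (nat_lit 0) (XT.nd (nat_lit 78) (nat_lit 0) (nat_lit 0) (XT.lf (nat_lit 0) (nat_lit 3010969612) (nat_lit 532)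 (nat_lit 28118008758) (nat_lit 76) (nat_lit 10116634686) (nat_lit 235) (nat_lit 5) (nat_lit 242) (nat_lit 5) (nat_lit 236) (nat_lit 5) (nat_lit 667) (nat_lit 600) (nat_lit 293)) (XT.lf (nat_lit 0) (nat_lit 11072463337) (nat_lit 532) (nat_lit 3754741506) (nat_lit 76) (nat_lit 26910062581) (nat_lit 235) (nat_lit 5) (nat_lit 242) (nat_lit 5) (nat_lit 236) (nat_lit 5) (nat_lit 668) (nat_lit 600) (nat_lit 292))) (XT.nd (nat_lit 78) (nat_lit 456) (nat_lit 0) (XT.lf (nat_lit 0) (nat_lit 19445025697) (nat_lit 608) (nat_lit 20874639558) (nat_lit 76) (nat_lit 1916092880) (nat_lit 228) (nat_lit 5) (nat_lit 236) (nat_lit 5) (nat_lit 229) (nat_lit 5) (nat_lit 669) (nat_lit 600) (nat_lit 291)) (XT.nd (nat_lit 78) (nat_lit 0) (nat_lit 0) (XT.lf (nat_lit 0) (nat_lit 4241596024) (nat_lit 456) (nat_lit 23893010490) (nat_lit 532) (nat_lit 14606620832) (nat_lit 222) (nat_lit 5) (nat_lit 228) (nat_lit 5) (nat_lit 229) (nat_lit 5) (nat_lit 670) (nat_lit 600) (nat_lit 290)) (XT.lf (nat_lit 0) (nat_lit 30140981063) (nat_lit 456)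 (nat_lit 6995565194) (nat_lit 532) (nat_lit 6117488367) (nat_lit 222) (nat_lit 5) (nat_lit 228) (nat_lit 5) (nat_lit 229) (nat_lit 5) (nat_lit 671) (nat_lit 600) (nat_lit 289))))) (XT.nd (nat_lit 156) (nat_lit 912) (nat_lit 0) (XT.nd (nat_lit 78) (nat_lit 0) (nat_lit 0) (XT.lf (nat_lit 0) (nat_lit 2657712578) (nat_lit 532) (nat_lit 30910014241) (nat_lit 76) (nat_lit 10206048904) (nat_lit 215) (nat_lit 5) (nat_lit 222) (nat_lit 5) (nat_lit 216) (nat_lit 5) (nat_lit 672) (nat_lit 600) (nat_lit 288)) (XT.lf (nat_lit 0) (nat_lit 11660006314) (nat_lit 532) (nat_lit 4853838250) (nat_lit 76) (nat_lit 27786588335) (nat_lit 215) (nat_lit 5) (nat_lit 222) (nat_lit 5) (nat_lit 216) (nat_lit 5) (nat_lit 673) (nat_lit 600) (nat_lit 287))) (XT.nd (nat_lit 78) (nat_lit 456) (nat_lit 0) (XT.lf (nat_lit 0) (nat_lit 20990460707) (nat_lit 532) (nat_lit 22831414734) (nat_lit 76) (nat_lit 1012785511) (nat_lit 209) (nat_lit 5) (nat_lit 216) (nat_lit 5) (nat_lit 210) (nat_lit 5) (nat_lit 674) (nat_lit 600) (nat_lit 286)) (XT.nd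 (nat_lit 75504) (nat_lit 0) (nat_lit 21128) (XT.lf (nat_lit 0) (nat_lit 4025465768) (nat_lit 456) (nat_lit 26648903978) (nat_lit 532) (nat_lit 14701866936) (nat_lit 203) (nat_lit 5) (nat_lit 209) (nat_lit 5) (nat_lit 210) (nat_lit 5) (nat_lit 675) (nat_lit 600) (nat_lit 285)) (XT.lf (nat_lit 0) (nat_lit 114612313) (nat_lit 1900) (nat_lit 63988847) (nat_lit 1900) (nat_lit 20318989280) (nat_lit 481) (nat_lit 3) (nat_lit 506) (nat_lit 3) (nat_lit 506) (nat_lit 5) (nat_lit 602) (nat_lit 601) (nat_lit 357))))))) (XT.nd (nat_lit 780) (nat_lit 0) (nat_lit 380) (XT.nd (nat_lit 390) (nat_lit 0) (nat_lit 152) (XT.nd (nat_lit 156) (nat_lit 0) (nat_lit 76) (XT.nd (nat_lit 78) (nat_lit 0) (nat_lit 0) (XT.lf (nat_lit 0) (nat_lit 407331168) (nat_lit 1824) (nat_lit 10384872652) (nat_lit 1900) (nat_lit 9906555948) (nat_lit 482) (nat_lit 5) (nat_lit 506) (nat_lit 5) (nat_lit 507) (nat_lit 5) (nat_lit 603) (nat_lit 601) (nat_lit 356)) (XT.lf (nat_lit 0) (nat_lit 703362139) (nat_lit 1824) (nat_lit 7186247) (nat_lit 1900) (nat_lit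 20193455070) (nat_lit 482) (nat_lit 5) (nat_lit 506) (nat_lit 5) (nat_lit 507) (nat_lit 5) (nat_lit 604) (nat_lit 601) (nat_lit 355))) (XT.nd (nat_lit 78) (nat_lit 0) (nat_lit 0) (XT.lf (nat_lit 0) (nat_lit 1133441467) (nat_lit 1824) (nat_lit 10458266913) (nat_lit 1900) (nat_lit 9519081205) (nat_lit 483) (nat_lit 5) (nat_lit 507) (nat_lit 5) (nat_lit 508) (nat_lit 5) (nat_lit 605) (nat_lit 601) (nat_lit 354)) (XT.nd (nat_lit 78) (nat_lit 0) (nat_lit 76) (XT.lf (nat_lit 76) (nat_lit 199444143) (nat_lit 0) (nat_lit 1374729110) (nat_lit 1900) (nat_lit 19747497288) (nat_lit 484) (nat_lit 5) (nat_lit 483) (nat_lit 5) (nat_lit 508) (nat_lit 5) (nat_lit 606) (nat_lit 601) (nat_lit 353)) (XT.lf (nat_lit 0) (nat_lit 2149177722) (nat_lit 1824) (nat_lit 10384845802) (nat_lit 1900) (nat_lit 9000236549) (nat_lit 484) (nat_lit 5) (nat_lit 508) (nat_lit 5) (nat_lit 509) (nat_lit 5) (nat_lit 607) (nat_lit 601) (nat_lit 352))))) (XT.nd (nat_lit 156) (nat_lit 0) (nat_lit 76) (XT.nd (nat_lit 78) (nat_lit 0) (nat_lit 76) (XT.lf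 (nat_lit 76) (nat_lit 563258570) (nat_lit 0) (nat_lit 2181338196) (nat_lit 1900) (nat_lit 19006326457) (nat_lit 485) (nat_lit 5) (nat_lit 484) (nat_lit 5) (nat_lit 509) (nat_lit 5) (nat_lit 608) (nat_lit 601) (nat_lit 351)) (XT.lf (nat_lit 0) (nat_lit 3472695139) (nat_lit 1824) (nat_lit 10156668446) (nat_lit 1900) (nat_lit 8340140746) (nat_lit 485) (nat_lit 5) (nat_lit 509) (nat_lit 5) (nat_lit 510) (nat_lit 5) (nat_lit 609) (nat_lit 601) (nat_lit 350))) (XT.nd (nat_lit 78) (nat_lit 0) (nat_lit 76) (XT.lf (nat_lit 76) (nat_lit 1092499406) (nat_lit 0) (nat_lit 3140692822) (nat_lit 1900) (nat_lit 17958908210) (nat_lit 486) (nat_lit 5) (nat_lit 485) (nat_lit 5) (nat_lit 510) (nat_lit 5) (nat_lit 610) (nat_lit 601) (nat_lit 349)) (XT.nd (nat_lit 78) (nat_lit 0) (nat_lit 0) (XT.lf (nat_lit 0) (nat_lit 5122940919) (nat_lit 1824) (nat_lit 9765376670) (nat_lit 1900) (nat_lit 7528550152) (nat_lit 486) (nat_lit 5) (nat_lit 510) (nat_lit 5) (nat_lit 511) (nat_lit 5) (nat_lit 611) (nat_lit 601) (nat_lit 348)) (XT.lf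 (nat_lit 76) (nat_lit 1795936961) (nat_lit 0) (nat_lit 4263442393) (nat_lit 1900) (nat_lit 16586173251) (nat_lit 487) (nat_lit 5) (nat_lit 486) (nat_lit 5) (nat_lit 511) (nat_lit 5) (nat_lit 612) (nat_lit 601) (nat_lit 347)))))) (XT.nd (nat_lit 390) (nat_lit 0) (nat_lit 152) (XT.nd (nat_lit 156) (nat_lit 0) (nat_lit 76) (XT.nd (nat_lit 78) (nat_lit 0) (nat_lit 0) (XT.lf (nat_lit 0) (nat_lit 7119691113) (nat_lit 1824) (nat_lit 9202180173) (nat_lit 1900) (nat_lit 6554837093) (nat_lit 487) (nat_lit 5) (nat_lit 511) (nat_lit 5) (nat_lit 512) (nat_lit 5) (nat_lit 613) (nat_lit 601) (nat_lit 346)) (XT.lf (nat_lit 76) (nat_lit 2682789412) (nat_lit 0) (nat_lit 5560638980) (nat_lit 1900) (nat_lit 14868214594) (nat_lit 488) (nat_lit 5) (nat_lit 487) (nat_lit 5) (nat_lit 512) (nat_lit 5) (nat_lit 614) (nat_lit 601) (nat_lit 345))) (XT.nd (nat_lit 78) (nat_lit 0) (nat_lit 0) (XT.lf (nat_lit 0) (nat_lit 9483588820) (nat_lit 1824) (nat_lit 8457840947) (nat_lit 1900) (nat_lit 5407967651) (nat_lit 488) (nat_lit 5) (nat_lit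 512) (nat_lit 5) (nat_lit 513) (nat_lit 5) (nat_lit 615) (nat_lit 601) (nat_lit 344)) (XT.nd (nat_lit 78) (nat_lit 0) (nat_lit 76) (XT.lf (nat_lit 76) (nat_lit 3762739016) (nat_lit 0) (nat_lit 7043760138) (nat_lit 1900) (nat_lit 12784248951) (nat_lit 489) (nat_lit 5) (nat_lit 488) (nat_lit 5) (nat_lit 513) (nat_lit 5) (nat_lit 616) (nat_lit 601) (nat_lit 343)) (XT.lf (nat_lit 0) (nat_lit 12236183827) (nat_lit 1824) (nat_lit 7522656917) (nat_lit 1900) (nat_lit 4076478835) (nat_lit 489) (nat_lit 5) (nat_lit 513) (nat_lit 5) (nat_lit 514) (nat_lit 5) (nat_lit 617) (nat_lit 601) (nat_lit 342))))) (XT.nd (nat_lit 234) (nat_lit 0) (nat_lit 152) (XT.nd (nat_lit 78) (nat_lit 0) (nat_lit 76) (XT.lf (nat_lit 76) (nat_lit 5045949121) (nat_lit 0) (nat_lit 8724732396) (nat_lit 1900) (nat_lit 10312576674) (nat_lit 490) (nat_lit 5) (nat_lit 489) (nat_lit 5) (nat_lit 514) (nat_lit 5) (nat_lit 618) (nat_lit 601) (nat_lit 341)) (XT.nd (nat_lit 78) (nat_lit 0) (nat_lit 0) (XT.lf (nat_lit 0) (nat_lit 15399973725) (nat_lit 1824)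 (nat_lit 6386444783) (nat_lit 1900) (nat_lit 2548455072) (nat_lit 490) (nat_lit 5) (nat_lit 514) (nat_lit 5) (nat_lit 515) (nat_lit 5) (nat_lit 619) (nat_lit 601) (nat_lit 340)) (XT.lf (nat_lit 76) (nat_lit 6543082006) (nat_lit 0) (nat_lit 10615955451) (nat_lit 1900) (nat_lit 7430540196) (nat_lit 491) (nat_lit 5) (nat_lit 490) (nat_lit 5) (nat_lit 515) (nat_lit 5) (nat_lit 620) (nat_lit 601) (nat_lit 339)))) (XT.nd (nat_lit 78) (nat_lit 0) (nat_lit 0) (XT.lf (nat_lit 0) (nat_lit 18998446588) (nat_lit 1824) (nat_lit 5038522045) (nat_lit 1900) (nat_lit 811503982) (nat_lit 491) (nat_lit 5) (nat_lit 515) (nat_lit 5) (nat_lit 516) (nat_lit 5) (nat_lit 621) (nat_lit 601) (nat_lit 338)) (XT.nd (nat_lit 78) (nat_lit 0) (nat_lit 0) (XT.lf (nat_lit 76) (nat_lit 8265317552) (nat_lit 0) (nat_lit 12730327111) (nat_lit 1900) (nat_lit 4114480886) (nat_lit 492) (nat_lit 5) (nat_lit 491) (nat_lit 5) (nat_lit 516) (nat_lit 5) (nat_lit 622) (nat_lit 601) (nat_lit 337)) (XT.lf (nat_lit 76) (nat_lit 21901157899) (nat_lit 0)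 (nat_lit 1162515203) (nat_lit 1900) (nat_lit 2312720798) (nat_lit 492) (nat_lit 5) (nat_lit 491) (nat_lit 5) (nat_lit 516) (nat_lit 5) (nat_lit 623) (nat_lit 601) (nat_lit 336))))))))
noncomputable def xc200 : XT := (XT.nd (nat_lit 1560) (nat_lit 8132) (nat_lit 0) (XT.nd (nat_lit 780) (nat_lit 4180) (nat_lit 0) (XT.nd (nat_lit 390) (nat_lit 2660) (nat_lit 0) (XT.nd (nat_lit 156) (nat_lit 1064) (nat_lit 0) (XT.nd (nat_lit 78) (nat_lit 1900) (nat_lit 0) (XT.lf (nat_lit 76) (nat_lit 10224372805) (nat_lit 0) (nat_lit 15081269038) (nat_lit 1900) (nat_lit 339694265) (nat_lit 493) (nat_lit 5) (nat_lit 492) (nat_lit 5) (nat_lit 517) (nat_lit 5) (nat_lit 624) (nat_lit 601) (nat_lit 335)) (XT.lf (nat_lit 0) (nat_lit 1679185784) (nat_lit 1900) (nat_lit 1695234362) (nat_lit 1976) (nat_lit 22544453238) (nat_lit 467) (nat_lit 5) (nat_lit 492) (nat_lit 5) (nat_lit 493) (nat_lit 5) (nat_lit 625) (nat_lit 601) (nat_lit 334))) (XT.nd (nat_lit 78) (nat_lit 1140) (nat_lit 0) (XT.lf (nat_lit 0) (nat_lit 3868210033) (nat_lit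 1900) (nat_lit 13788585587) (nat_lit 76) (nat_lit 8538354657) (nat_lit 468) (nat_lit 5) (nat_lit 493) (nat_lit 5) (nat_lit 469) (nat_lit 5) (nat_lit 626) (nat_lit 601) (nat_lit 333)) (XT.nd (nat_lit 78) (nat_lit 0) (nat_lit 0) (XT.lf (nat_lit 0) (nat_lit 315969571) (nat_lit 1140) (nat_lit 5818150865) (nat_lit 1216) (nat_lit 20342170235) (nat_lit 453) (nat_lit 5) (nat_lit 468) (nat_lit 5) (nat_lit 469) (nat_lit 5) (nat_lit 627) (nat_lit 601) (nat_lit 332)) (XT.lf (nat_lit 0) (nat_lit 8576412939) (nat_lit 1216) (nat_lit 11915364899) (nat_lit 76) (nat_lit 6268654836) (nat_lit 453) (nat_lit 5) (nat_lit 469) (nat_lit 5) (nat_lit 454) (nat_lit 5) (nat_lit 628) (nat_lit 601) (nat_lit 331))))) (XT.nd (nat_lit 156) (nat_lit 1748) (nat_lit 0) (XT.nd (nat_lit 78) (nat_lit 0) (nat_lit 0) (XT.lf (nat_lit 0) (nat_lit 2607762629) (nat_lit 912) (nat_lit 8512599927) (nat_lit 988) (nat_lit 15928838809) (nat_lit 441) (nat_lit 5) (nat_lit 453) (nat_lit 5) (nat_lit 454) (nat_lit 5) (nat_lit 629) (nat_lit 601) (nat_lit 330))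 (XT.lf (nat_lit 0) (nat_lit 13817129076) (nat_lit 988) (nat_lit 9786306393) (nat_lit 76) (nat_lit 3738271277) (nat_lit 441) (nat_lit 5) (nat_lit 454) (nat_lit 5) (nat_lit 442) (nat_lit 5) (nat_lit 630) (nat_lit 601) (nat_lit 329))) (XT.nd (nat_lit 78) (nat_lit 836) (nat_lit 0) (XT.lf (nat_lit 0) (nat_lit 5170983553) (nat_lit 912) (nat_lit 11484234049) (nat_lit 988) (nat_lit 10983096970) (nat_lit 429) (nat_lit 5) (nat_lit 441) (nat_lit 5) (nat_lit 442) (nat_lit 5) (nat_lit 631) (nat_lit 601) (nat_lit 328)) (XT.nd (nat_lit 78) (nat_lit 836) (nat_lit 0) (XT.lf (nat_lit 0) (nat_lit 19619344632) (nat_lit 988) (nat_lit 7388021610) (nat_lit 76) (nat_lit 932102851) (nat_lit 429) (nat_lit 5) (nat_lit 442) (nat_lit 5) (nat_lit 430) (nat_lit 5) (nat_lit 632) (nat_lit 601) (nat_lit 327)) (XT.lf (nat_lit 0) (nat_lit 8019621291) (nat_lit 836) (nat_lit 14748779874) (nat_lit 912) (nat_lit 5475732668) (nat_lit 418) (nat_lit 5) (nat_lit 429) (nat_lit 5) (nat_lit 430) (nat_lit 5) (nat_lit 633) (nat_lit 601) (nat_lit 326))))))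 (XT.nd (nat_lit 390) (nat_lit 1520) (nat_lit 0) (XT.nd (nat_lit 156) (nat_lit 1672) (nat_lit 0) (XT.nd (nat_lit 78) (nat_lit 988) (nat_lit 0) (XT.lf (nat_lit 0) (nat_lit 23833202325) (nat_lit 836) (nat_lit 2194370975) (nat_lit 912) (nat_lit 2526375948) (nat_lit 418) (nat_lit 5) (nat_lit 429) (nat_lit 5) (nat_lit 430) (nat_lit 5) (nat_lit 634) (nat_lit 601) (nat_lit 325)) (XT.lf (nat_lit 0) (nat_lit 615579281) (nat_lit 988) (nat_lit 17702920217) (nat_lit 76) (nat_lit 10548600303) (nat_lit 405) (nat_lit 5) (nat_lit 418) (nat_lit 5) (nat_lit 406) (nat_lit 5) (nat_lit 635) (nat_lit 601) (nat_lit 324))) (XT.nd (nat_lit 78) (nat_lit 1672) (nat_lit 0) (XT.lf (nat_lit 0) (nat_lit 3830619187) (nat_lit 988) (nat_lit 1788936837) (nat_lit 76) (nat_lit 23565741944) (nat_lit 405) (nat_lit 5) (nat_lit 418) (nat_lit 5) (nat_lit 406) (nat_lit 5) (nat_lit 636) (nat_lit 601) (nat_lit 323)) (XT.nd (nat_lit 78) (nat_lit 836) (nat_lit 0) (XT.lf (nat_lit 0) (nat_lit 7250876695) (nat_lit 912) (nat_lit 14923342475) (nat_lit 76)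 (nat_lit 7332822655) (nat_lit 394) (nat_lit 5) (nat_lit 406) (nat_lit 5) (nat_lit 395) (nat_lit 5) (nat_lit 637) (nat_lit 601) (nat_lit 322)) (XT.lf (nat_lit 0) (nat_lit 1452447722) (nat_lit 836) (nat_lit 9343520284) (nat_lit 912) (nat_lit 19038124042) (nat_lit 383) (nat_lit 5) (nat_lit 394) (nat_lit 5) (nat_lit 395) (nat_lit 5) (nat_lit 638) (nat_lit 601) (nat_lit 321))))) (XT.nd (nat_lit 156) (nat_lit 760) (nat_lit 0) (XT.nd (nat_lit 78) (nat_lit 760) (nat_lit 0) (XT.lf (nat_lit 0) (nat_lit 14534802984) (nat_lit 912) (nat_lit 11835000271) (nat_lit 76) (nat_lit 3795423243) (nat_lit 383) (nat_lit 5) (nat_lit 395) (nat_lit 5) (nat_lit 384) (nat_lit 5) (nat_lit 639) (nat_lit 601) (nat_lit 320)) (XT.lf (nat_lit 0) (nat_lit 5044512620) (nat_lit 760) (nat_lit 13396304500) (nat_lit 836) (nat_lit 12060318527) (nat_lit 373) (nat_lit 5) (nat_lit 383) (nat_lit 5) (nat_lit 384) (nat_lit 5) (nat_lit 640) (nat_lit 601) (nat_lit 319))) (XT.nd (nat_lit 78) (nat_lit 760) (nat_lit 0) (XT.lf (nat_lit 0) (nat_lit 22419711634)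 (nat_lit 760) (nat_lit 82460053) (nat_lit 836) (nat_lit 8340046949) (nat_lit 373) (nat_lit 5) (nat_lit 383) (nat_lit 5) (nat_lit 384) (nat_lit 5) (nat_lit 641) (nat_lit 601) (nat_lit 318)) (XT.nd (nat_lit 78) (nat_lit 0) (nat_lit 0) (XT.lf (nat_lit 0) (nat_lit 8980103936) (nat_lit 760) (nat_lit 17808433311) (nat_lit 836) (nat_lit 4398710415) (nat_lit 363) (nat_lit 5) (nat_lit 373) (nat_lit 5) (nat_lit 374) (nat_lit 5) (nat_lit 642) (nat_lit 601) (nat_lit 317)) (XT.lf (nat_lit 0) (nat_lit 26842071039) (nat_lit 760) (nat_lit 4373491654) (nat_lit 836) (nat_lit 322515980) (nat_lit 363) (nat_lit 5) (nat_lit 373) (nat_lit 5) (nat_lit 374) (nat_lit 5) (nat_lit 643) (nat_lit 601) (nat_lit 316))))))) (XT.nd (nat_lit 780) (nat_lit 3724) (nat_lit 0) (XT.nd (nat_lit 390) (nat_lit 2128) (nat_lit 0) (XT.nd (nat_lit 156) (nat_lit 1444) (nat_lit 0) (XT.nd (nat_lit 78) (nat_lit 0) (nat_lit 0) (XT.lf (nat_lit 0) (nat_lit 3930550285) (nat_lit 836) (nat_lit 18642300233) (nat_lit 76) (nat_lit 9319664881) (nat_lit 352) (nat_lit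 5) (nat_lit 363) (nat_lit 5) (nat_lit 353) (nat_lit 5) (nat_lit 644) (nat_lit 601) (nat_lit 315)) (XT.lf (nat_lit 0) (nat_lit 8322971893) (nat_lit 836) (nat_lit 668020426) (nat_lit 76) (nat_lit 23261833707) (nat_lit 352) (nat_lit 5) (nat_lit 363) (nat_lit 5) (nat_lit 353) (nat_lit 5) (nat_lit 645) (nat_lit 601) (nat_lit 314))) (XT.nd (nat_lit 78) (nat_lit 684) (nat_lit 0) (XT.lf (nat_lit 0) (nat_lit 12949751889) (nat_lit 836) (nat_lit 14752189210) (nat_lit 76) (nat_lit 4915471616) (nat_lit 342) (nat_lit 5) (nat_lit 353) (nat_lit 5) (nat_lit 343) (nat_lit 5) (nat_lit 646) (nat_lit 601) (nat_lit 313)) (XT.nd (nat_lit 78) (nat_lit 0) (nat_lit 0) (XT.lf (nat_lit 0) (nat_lit 3776646764) (nat_lit 684) (nat_lit 13978984585) (nat_lit 760) (nat_lit 15231928566) (nat_lit 333) (nat_lit 5) (nat_lit 342) (nat_lit 5) (nat_lit 343) (nat_lit 5) (nat_lit 647) (nat_lit 601) (nat_lit 312)) (XT.lf (nat_lit 0) (nat_lit 22755409242) (nat_lit 760) (nat_lit 10490196896) (nat_lit 76) (nat_lit 117548351) (nat_lit 333) (nat_lit 5)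 (nat_lit 343) (nat_lit 5) (nat_lit 334) (nat_lit 5) (nat_lit 648) (nat_lit 601) (nat_lit 311))))) (XT.nd (nat_lit 156) (nat_lit 1444) (nat_lit 0) (XT.nd (nat_lit 78) (nat_lit 0) (nat_lit 0) (XT.lf (nat_lit 0) (nat_lit 8623176905) (nat_lit 684) (nat_lit 19378618864) (nat_lit 760) (nat_lit 5741532974) (nat_lit 324) (nat_lit 5) (nat_lit 333) (nat_lit 5) (nat_lit 334) (nat_lit 5) (nat_lit 649) (nat_lit 601) (nat_lit 310)) (XT.lf (nat_lit 0) (nat_lit 28258755295) (nat_lit 684) (nat_lit 5162822677) (nat_lit 760) (nat_lit 708159198) (nat_lit 324) (nat_lit 5) (nat_lit 333) (nat_lit 5) (nat_lit 334) (nat_lit 5) (nat_lit 650) (nat_lit 601) (nat_lit 309))) (XT.nd (nat_lit 78) (nat_lit 684) (nat_lit 0) (XT.lf (nat_lit 0) (nat_lit 4517687900) (nat_lit 760) (nat_lit 20668252440) (nat_lit 76) (nat_lit 9334361715) (nat_lit 314) (nat_lit 5) (nat_lit 324) (nat_lit 5) (nat_lit 315) (nat_lit 5) (nat_lit 651) (nat_lit 601) (nat_lit 308)) (XT.nd (nat_lit 78) (nat_lit 684) (nat_lit 0) (XT.lf (nat_lit 0) (nat_lit 9910546718) (nat_lit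 760) (nat_lit 910169315) (nat_lit 76) (nat_lit 24096429089) (nat_lit 314) (nat_lit 5) (nat_lit 324) (nat_lit 5) (nat_lit 315) (nat_lit 5) (nat_lit 652) (nat_lit 601) (nat_lit 307)) (XT.lf (nat_lit 0) (nat_lit 15561717740) (nat_lit 760) (nat_lit 15848586027) (nat_lit 76) (nat_lit 3908612229) (nat_lit 305) (nat_lit 5) (nat_lit 315) (nat_lit 5) (nat_lit 306) (nat_lit 5) (nat_lit 653) (nat_lit 601) (nat_lit 306)))))) (XT.nd (nat_lit 390) (nat_lit 1824) (nat_lit 0) (XT.nd (nat_lit 156) (nat_lit 1292) (nat_lit 0) (XT.nd (nat_lit 78) (nat_lit 0) (nat_lit 0) (XT.lf (nat_lit 0) (nat_lit 4527619456) (nat_lit 608) (nat_lit 16903672834) (nat_lit 684) (nat_lit 14295322437) (nat_lit 297) (nat_lit 5) (nat_lit 305) (nat_lit 5) (nat_lit 306) (nat_lit 5) (nat_lit 654) (nat_lit 601) (nat_lit 305)) (XT.lf (nat_lit 0) (nat_lit 25523958561) (nat_lit 608) (nat_lit 1998848741) (nat_lit 684) (nat_lit 8617569193) (nat_lit 297) (nat_lit 5) (nat_lit 305) (nat_lit 5) (nat_lit 306) (nat_lit 5) (nat_lit 655) (nat_lit 601) (nat_lit 304)))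 (XT.nd (nat_lit 78) (nat_lit 684) (nat_lit 0) (XT.lf (nat_lit 0) (nat_lit 10426616906) (nat_lit 608) (nat_lit 23461191125) (nat_lit 684) (nat_lit 2671572402) (nat_lit 289) (nat_lit 5) (nat_lit 297) (nat_lit 5) (nat_lit 298) (nat_lit 5) (nat_lit 656) (nat_lit 601) (nat_lit 303)) (XT.nd (nat_lit 78) (nat_lit 608) (nat_lit 0) (XT.lf (nat_lit 0) (nat_lit 3432029099) (nat_lit 684) (nat_lit 4988880192) (nat_lit 76) (nat_lit 28563750780) (nat_lit 288) (nat_lit 5) (nat_lit 297) (nat_lit 5) (nat_lit 289) (nat_lit 5) (nat_lit 657) (nat_lit 601) (nat_lit 302)) (XT.lf (nat_lit 0) (nat_lit 9774936740) (nat_lit 684) (nat_lit 20683654647) (nat_lit 76) (nat_lit 6956440641) (nat_lit 280) (nat_lit 5) (nat_lit 289) (nat_lit 5) (nat_lit 281) (nat_lit 5) (nat_lit 658) (nat_lit 601) (nat_lit 301))))) (XT.nd (nat_lit 156) (nat_lit 1216) (nat_lit 0) (XT.nd (nat_lit 78) (nat_lit 0) (nat_lit 0) (XT.lf (nat_lit 0) (nat_lit 1055990320) (nat_lit 608) (nat_lit 15283325292) (nat_lit 684) (nat_lit 21512803590) (nat_lit 272) (nat_lit 5)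 (nat_lit 280) (nat_lit 5) (nat_lit 281) (nat_lit 5) (nat_lit 659) (nat_lit 601) (nat_lit 300)) (XT.lf (nat_lit 0) (nat_lit 23174274207) (nat_lit 684) (nat_lit 14788769691) (nat_lit 76) (nat_lit 332118416) (nat_lit 272) (nat_lit 5) (nat_lit 281) (nat_lit 5) (nat_lit 273) (nat_lit 5) (nat_lit 660) (nat_lit 601) (nat_lit 299))) (XT.nd (nat_lit 78) (nat_lit 684) (nat_lit 0) (XT.lf (nat_lit 0) (nat_lit 7655762701) (nat_lit 532) (nat_lit 22639428632) (nat_lit 608) (nat_lit 8448889805) (nat_lit 265) (nat_lit 5) (nat_lit 272) (nat_lit 5) (nat_lit 273) (nat_lit 5) (nat_lit 661) (nat_lit 601) (nat_lit 298)) (XT.nd (nat_lit 78) (nat_lit 684) (nat_lit 0) (XT.lf (nat_lit 0) (nat_lit 30747499048) (nat_lit 532) (nat_lit 6908625773) (nat_lit 608) (nat_lit 1543901593) (nat_lit 265) (nat_lit 5) (nat_lit 272) (nat_lit 5) (nat_lit 273) (nat_lit 5) (nat_lit 662) (nat_lit 601) (nat_lit 297)) (XT.lf (nat_lit 0) (nat_lit 5581674363) (nat_lit 684) (nat_lit 24930534370) (nat_lit 76) (nat_lit 9149075594) (nat_lit 256) (nat_lit 5)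 (nat_lit 265) (nat_lit 5) (nat_lit 257) (nat_lit 5) (nat_lit 663) (nat_lit 601) (nat_lit 296))))))))
noncomputable def xc201 : XT := (XT.nd (nat_lit 77064) (nat_lit 0) (nat_lit 17632) (XT.nd (nat_lit 780) (nat_lit 456) (nat_lit 0) (XT.nd (nat_lit 390) (nat_lit 1520) (nat_lit 0) (XT.nd (nat_lit 156) (nat_lit 1064) (nat_lit 0) (XT.nd (nat_lit 78) (nat_lit 532) (nat_lit 0) (XT.lf (nat_lit 0) (nat_lit 12930351139) (nat_lit 684) (nat_lit 1696863011) (nat_lit 76) (nat_lit 25502323936) (nat_lit 256) (nat_lit 5) (nat_lit 265) (nat_lit 5) (nat_lit 257) (nat_lit 5) (nat_lit 664) (nat_lit 601) (nat_lit 295)) (XT.lf (nat_lit 0) (nat_lit 20580343597) (nat_lit 608) (nat_lit 18323740360) (nat_lit 76) (nat_lit 1699986154) (nat_lit 249) (nat_lit 5) (nat_lit 257) (nat_lit 5) (nat_lit 250) (nat_lit 5) (nat_lit 665) (nat_lit 601) (nat_lit 294))) (XT.nd (nat_lit 78) (nat_lit 532) (nat_lit 0) (XT.lf (nat_lit 0) (nat_lit 5647204232) (nat_lit 532) (nat_lit 22879567411) (nat_lit 608) (nat_lit 12558452451) (nat_lit 242) (nat_lit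 5) (nat_lit 249) (nat_lit 5) (nat_lit 250) (nat_lit 5) (nat_lit 666) (nat_lit 601) (nat_lit 293)) (XT.nd (nat_lit 78) (nat_lit 532) (nat_lit 0) (XT.lf (nat_lit 0) (nat_lit 30343846533) (nat_lit 532) (nat_lit 6409699726) (nat_lit 608) (nat_lit 4820026570) (nat_lit 242) (nat_lit 5) (nat_lit 249) (nat_lit 5) (nat_lit 250) (nat_lit 5) (nat_lit 667) (nat_lit 601) (nat_lit 292)) (XT.lf (nat_lit 0) (nat_lit 3187934655) (nat_lit 532) (nat_lit 28518404970) (nat_lit 76) (nat_lit 10361848443) (nat_lit 235) (nat_lit 5) (nat_lit 242) (nat_lit 5) (nat_lit 236) (nat_lit 5) (nat_lit 668) (nat_lit 601) (nat_lit 291))))) (XT.nd (nat_lit 156) (nat_lit 988) (nat_lit 0) (XT.nd (nat_lit 78) (nat_lit 532) (nat_lit 0) (XT.lf (nat_lit 0) (nat_lit 11408369124) (nat_lit 532) (nat_lit 3671048137) (nat_lit 76) (nat_lit 27490304091) (nat_lit 235) (nat_lit 5) (nat_lit 242) (nat_lit 5) (nat_lit 236) (nat_lit 5) (nat_lit 669) (nat_lit 601) (nat_lit 290)) (XT.lf (nat_lit 0) (nat_lit 19947451631) (nat_lit 608) (nat_lit 21132410804) (nat_lit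 76) (nat_lit 1998338108) (nat_lit 228) (nat_lit 5) (nat_lit 236) (nat_lit 5) (nat_lit 229) (nat_lit 5) (nat_lit 670) (nat_lit 601) (nat_lit 289))) (XT.nd (nat_lit 78) (nat_lit 532) (nat_lit 0) (XT.lf (nat_lit 0) (nat_lit 4485098689) (nat_lit 456) (nat_lit 24324529583) (nat_lit 532) (nat_lit 14784174827) (nat_lit 222) (nat_lit 5) (nat_lit 228) (nat_lit 5) (nat_lit 229) (nat_lit 5) (nat_lit 671) (nat_lit 601) (nat_lit 288)) (XT.nd (nat_lit 78) (nat_lit 532) (nat_lit 0) (XT.lf (nat_lit 0) (nat_lit 30899360238) (nat_lit 456) (nat_lit 7090044030) (nat_lit 532) (nat_lit 6127506349) (nat_lit 222) (nat_lit 5) (nat_lit 228) (nat_lit 5) (nat_lit 229) (nat_lit 5) (nat_lit 672) (nat_lit 601) (nat_lit 287)) (XT.lf (nat_lit 0) (nat_lit 2820865170) (nat_lit 532) (nat_lit 31370317338) (nat_lit 76) (nat_lit 10455866688) (nat_lit 215) (nat_lit 5) (nat_lit 222) (nat_lit 5) (nat_lit 216) (nat_lit 5) (nat_lit 673) (nat_lit 601) (nat_lit 286)))))) (XT.nd (nat_lit 75894) (nat_lit 0) (nat_lit 20824) (XT.nd (nat_lit 75660) (nat_lit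 0) (nat_lit 20672) (XT.nd (nat_lit 78) (nat_lit 456) (nat_lit 0) (XT.lf (nat_lit 0) (nat_lit 12001047951) (nat_lit 532) (nat_lit 4796113851) (nat_lit 76) (nat_lit 28387120892) (nat_lit 215) (nat_lit 5) (nat_lit 222) (nat_lit 5) (nat_lit 216) (nat_lit 5) (nat_lit 674) (nat_lit 601) (nat_lit 285)) (XT.lf (nat_lit 0) (nat_lit 21517300880) (nat_lit 532) (nat_lit 23132429319) (nat_lit 76) (nat_lit 1079481360) (nat_lit 209) (nat_lit 5) (nat_lit 216) (nat_lit 5) (nat_lit 210) (nat_lit 5) (nat_lit 675) (nat_lit 601) (nat_lit 284))) (XT.nd (nat_lit 78) (nat_lit 0) (nat_lit 76) (XT.lf (nat_lit 76) (nat_lit 96583208) (nat_lit 0) (nat_lit 335811888) (nat_lit 1900) (nat_lit 20468827813) (nat_lit 482) (nat_lit 5) (nat_lit 481) (nat_lit 3) (nat_lit 506) (nat_lit 5) (nat_lit 603) (nat_lit 602) (nat_lit 355)) (XT.nd (nat_lit 78) (nat_lit 0) (nat_lit 0) (XT.lf (nat_lit 0) (nat_lit 724228042) (nat_lit 1824) (nat_lit 10425862433) (nat_lit 1900) (nat_lit 9956460143) (nat_lit 482) (nat_lit 5) (nat_lit 506) (nat_lit 5) (nat_lit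 507) (nat_lit 5) (nat_lit 604) (nat_lit 602) (nat_lit 354)) (XT.lf (nat_lit 76) (nat_lit 158183527) (nat_lit 0) (nat_lit 862969211) (nat_lit 1900) (nat_lit 20294847162) (nat_lit 483) (nat_lit 5) (nat_lit 482) (nat_lit 5) (nat_lit 507) (nat_lit 5) (nat_lit 605) (nat_lit 602) (nat_lit 353))))) (XT.nd (nat_lit 156) (nat_lit 0) (nat_lit 76) (XT.nd (nat_lit 78) (nat_lit 0) (nat_lit 0) (XT.lf (nat_lit 0) (nat_lit 1453046129) (nat_lit 1824) (nat_lit 10498223886) (nat_lit 1900) (nat_lit 9575787667) (nat_lit 483) (nat_lit 5) (nat_lit 507) (nat_lit 5) (nat_lit 508) (nat_lit 5) (nat_lit 606) (nat_lit 602) (nat_lit 352)) (XT.lf (nat_lit 76) (nat_lit 371528178) (nat_lit 0) (nat_lit 1526333487) (nat_lit 1900) (nat_lit 19844389385) (nat_lit 484) (nat_lit 5) (nat_lit 483) (nat_lit 5) (nat_lit 508) (nat_lit 5) (nat_lit 607) (nat_lit 602) (nat_lit 351))) (XT.nd (nat_lit 78) (nat_lit 0) (nat_lit 0) (XT.lf (nat_lit 0) (nat_lit 2477846711) (nat_lit 1824) (nat_lit 10421215408) (nat_lit 1900) (nat_lit 9060160817) (nat_lit 484)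 (nat_lit 5) (nat_lit 508) (nat_lit 5) (nat_lit 509) (nat_lit 5) (nat_lit 608) (nat_lit 602) (nat_lit 350)) (XT.nd (nat_lit 78) (nat_lit 0) (nat_lit 76) (XT.lf (nat_lit 76) (nat_lit 744723899) (nat_lit 0) (nat_lit 2335953614) (nat_lit 1900) (nat_lit 19099631938) (nat_lit 485) (nat_lit 5) (nat_lit 484) (nat_lit 5) (nat_lit 509) (nat_lit 5) (nat_lit 609) (nat_lit 602) (nat_lit 349)) (XT.lf (nat_lit 0) (nat_lit 3817117865) (nat_lit 1824) (nat_lit 10186710632) (nat_lit 1900) (nat_lit 8399558249) (nat_lit 485) (nat_lit 5) (nat_lit 509) (nat_lit 5) (nat_lit 510) (nat_lit 5) (nat_lit 610) (nat_lit 602) (nat_lit 348))))))) (XT.nd (nat_lit 780) (nat_lit 3344) (nat_lit 0) (XT.nd (nat_lit 390) (nat_lit 0) (nat_lit 228) (XT.nd (nat_lit 156) (nat_lit 0) (nat_lit 76) (XT.nd (nat_lit 78) (nat_lit 0) (nat_lit 76) (XT.lf (nat_lit 76) (nat_lit 1286301819) (nat_lit 0) (nat_lit 3302247960) (nat_lit 1900) (nat_lit 18041970660) (nat_lit 486) (nat_lit 5) (nat_lit 485) (nat_lit 5) (nat_lit 510) (nat_lit 5) (nat_lit 611) (nat_lit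 602) (nat_lit 347)) (XT.lf (nat_lit 0) (nat_lit 5490157201) (nat_lit 1824) (nat_lit 9786159178) (nat_lit 1900) (nat_lit 7583585595) (nat_lit 486) (nat_lit 5) (nat_lit 510) (nat_lit 5) (nat_lit 511) (nat_lit 5) (nat_lit 612) (nat_lit 602) (nat_lit 346))) (XT.nd (nat_lit 78) (nat_lit 0) (nat_lit 76) (XT.lf (nat_lit 76) (nat_lit 2005232534) (nat_lit 0) (nat_lit 4436026225) (nat_lit 1900) (nat_lit 16651983244) (nat_lit 487) (nat_lit 5) (nat_lit 486) (nat_lit 5) (nat_lit 511) (nat_lit 5) (nat_lit 613) (nat_lit 602) (nat_lit 345)) (XT.nd (nat_lit 78) (nat_lit 0) (nat_lit 0) (XT.lf (nat_lit 0) (nat_lit 7517109358) (nat_lit 1824) (nat_lit 9210571429) (nat_lit 1900) (nat_lit 6601453607) (nat_lit 487) (nat_lit 5) (nat_lit 511) (nat_lit 5) (nat_lit 512) (nat_lit 5) (nat_lit 614) (nat_lit 602) (nat_lit 344)) (XT.lf (nat_lit 76) (nat_lit 2910941940) (nat_lit 0) (nat_lit 5748511913) (nat_lit 1900) (nat_lit 14909391342) (nat_lit 488) (nat_lit 5) (nat_lit 487) (nat_lit 5) (nat_lit 512) (nat_lit 5) (nat_lit 615) (nat_lit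 602) (nat_lit 343))))) (XT.nd (nat_lit 156) (nat_lit 0) (nat_lit 76) (XT.nd (nat_lit 78) (nat_lit 0) (nat_lit 0) (XT.lf (nat_lit 0) (nat_lit 9919004875) (nat_lit 1824) (nat_lit 8450502551) (nat_lit 1900) (nat_lit 5441955689) (nat_lit 488) (nat_lit 5) (nat_lit 512) (nat_lit 5) (nat_lit 513) (nat_lit 5) (nat_lit 616) (nat_lit 602) (nat_lit 342)) (XT.lf (nat_lit 76) (nat_lit 4013327858) (nat_lit 0) (nat_lit 7251365427) (nat_lit 1900) (nat_lit 12793021278) (nat_lit 489) (nat_lit 5) (nat_lit 488) (nat_lit 5) (nat_lit 513) (nat_lit 5) (nat_lit 617) (nat_lit 602) (nat_lit 341))) (XT.nd (nat_lit 78) (nat_lit 0) (nat_lit 0) (XT.lf (nat_lit 0) (nat_lit 12717800535) (nat_lit 1824) (nat_lit 7496035719) (nat_lit 1900) (nat_lit 4093444776) (nat_lit 489) (nat_lit 5) (nat_lit 513) (nat_lit 5) (nat_lit 514) (nat_lit 5) (nat_lit 618) (nat_lit 602) (nat_lit 340)) (XT.nd (nat_lit 78) (nat_lit 0) (nat_lit 76) (XT.lf (nat_lit 76) (nat_lit 5322777477) (nat_lit 0) (nat_lit 8956707861) (nat_lit 1900) (nat_lit 10280763272) (nat_lit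 490) (nat_lit 5) (nat_lit 489) (nat_lit 5) (nat_lit 514) (nat_lit 5) (nat_lit 619) (nat_lit 602) (nat_lit 339)) (XT.lf (nat_lit 0) (nat_lit 15936421226) (nat_lit 1824) (nat_lit 6336764539) (nat_lit 1900) (nat_lit 2543809520) (nat_lit 490) (nat_lit 5) (nat_lit 514) (nat_lit 5) (nat_lit 515) (nat_lit 5) (nat_lit 620) (nat_lit 602) (nat_lit 338)))))) (XT.nd (nat_lit 390) (nat_lit 3724) (nat_lit 0) (XT.nd (nat_lit 156) (nat_lit 0) (nat_lit 76) (XT.nd (nat_lit 78) (nat_lit 0) (nat_lit 76) (XT.lf (nat_lit 76) (nat_lit 6850185619) (nat_lit 0) (nat_lit 10877145520) (nat_lit 1900) (nat_lit 7349529136) (nat_lit 491) (nat_lit 5) (nat_lit 490) (nat_lit 5) (nat_lit 515) (nat_lit 5) (nat_lit 621) (nat_lit 602) (nat_lit 337)) (XT.lf (nat_lit 0) (nat_lit 19598803393) (nat_lit 1824) (nat_lit 4961774637) (nat_lit 1900) (nat_lit 780449739) (nat_lit 491) (nat_lit 5) (nat_lit 515) (nat_lit 5) (nat_lit 516) (nat_lit 5) (nat_lit 622) (nat_lit 602) (nat_lit 336))) (XT.nd (nat_lit 78) (nat_lit 0) (nat_lit 0) (XT.lf (nat_lit 76)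 (nat_lit 8606973872) (nat_lit 0) (nat_lit 13025795207) (nat_lit 1900) (nat_lit 3975208337) (nat_lit 492) (nat_lit 5) (nat_lit 491) (nat_lit 5) (nat_lit 516) (nat_lit 5) (nat_lit 623) (nat_lit 602) (nat_lit 335)) (XT.nd (nat_lit 78) (nat_lit 0) (nat_lit 76) (XT.lf (nat_lit 76) (nat_lit 22512073184) (nat_lit 0) (nat_lit 1225825854) (nat_lit 1900) (nat_lit 2141757404) (nat_lit 492) (nat_lit 5) (nat_lit 491) (nat_lit 5) (nat_lit 516) (nat_lit 5) (nat_lit 624) (nat_lit 602) (nat_lit 334)) (XT.lf (nat_lit 76) (nat_lit 10605110601) (nat_lit 0) (nat_lit 15416310349) (nat_lit 1900) (nat_lit 132622391) (nat_lit 493) (nat_lit 5) (nat_lit 492) (nat_lit 5) (nat_lit 517) (nat_lit 5) (nat_lit 625) (nat_lit 602) (nat_lit 333))))) (XT.nd (nat_lit 234) (nat_lit 912) (nat_lit 0) (XT.nd (nat_lit 78) (nat_lit 1064) (nat_lit 0) (XT.lf (nat_lit 0) (nat_lit 1919691923) (nat_lit 1900) (nat_lit 1553588784) (nat_lit 1976) (nat_lit 22959825772) (nat_lit 467) (nat_lit 5) (nat_lit 492) (nat_lit 5) (nat_lit 493) (nat_lit 5) (nat_lit 626)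 (nat_lit 602) (nat_lit 332)) (XT.nd (nat_lit 78) (nat_lit 1140) (nat_lit 0) (XT.lf (nat_lit 0) (nat_lit 4149379448) (nat_lit 1900) (nat_lit 13885684017) (nat_lit 76) (nat_lit 8679907905) (nat_lit 468) (nat_lit 5) (nat_lit 493) (nat_lit 5) (nat_lit 469) (nat_lit 5) (nat_lit 627) (nat_lit 602) (nat_lit 331)) (XT.lf (nat_lit 0) (nat_lit 499786762) (nat_lit 1140) (nat_lit 5957977550) (nat_lit 1216) (nat_lit 20544027249) (nat_lit 453) (nat_lit 5) (nat_lit 468) (nat_lit 5) (nat_lit 469) (nat_lit 5) (nat_lit 628) (nat_lit 602) (nat_lit 330)))) (XT.nd (nat_lit 78) (nat_lit 912) (nat_lit 0) (XT.lf (nat_lit 0) (nat_lit 8944812889) (nat_lit 1216) (nat_lit 11975559388) (nat_lit 76) (nat_lit 6371326033) (nat_lit 453) (nat_lit 5) (nat_lit 469) (nat_lit 5) (nat_lit 454) (nat_lit 5) (nat_lit 629) (nat_lit 602) (nat_lit 329)) (XT.nd (nat_lit 78) (nat_lit 0) (nat_lit 0) (XT.lf (nat_lit 0) (nat_lit 2836858895) (nat_lit 912) (nat_lit 8700071193) (nat_lit 988) (nat_lit 16049366626) (nat_lit 441) (nat_lit 5) (nat_lit 453) (nat_lit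 5) (nat_lit 454) (nat_lit 5) (nat_lit 630) (nat_lit 602) (nat_lit 328)) (XT.lf (nat_lit 0) (nat_lit 14283715268) (nat_lit 988) (nat_lit 9804638902) (nat_lit 76) (nat_lit 3796376473) (nat_lit 441) (nat_lit 5) (nat_lit 454) (nat_lit 5) (nat_lit 442) (nat_lit 5) (nat_lit 631) (nat_lit 602) (nat_lit 327))))))))
noncomputable def xc202 : XT := (XT.nd (nat_lit 1560) (nat_lit 7752) (nat_lit 0) (XT.nd (nat_lit 780) (nat_lit 3724) (nat_lit 0) (XT.nd (nat_lit 390) (nat_lit 2432) (nat_lit 0) (XT.nd (nat_lit 156) (nat_lit 1824) (nat_lit 0) (XT.nd (nat_lit 78) (nat_lit 0) (nat_lit 0) (XT.lf (nat_lit 0) (nat_lit 5450629780) (nat_lit 912) (nat_lit 11725349698) (nat_lit 988) (nat_lit 11011342976) (nat_lit 429) (nat_lit 5) (nat_lit 441) (nat_lit 5) (nat_lit 442) (nat_lit 5) (nat_lit 632) (nat_lit 602) (nat_lit 326)) (XT.lf (nat_lit 0) (nat_lit 20195636726) (nat_lit 988) (nat_lit 7359253431) (nat_lit 76) (nat_lit 939685057) (nat_lit 429) (nat_lit 5) (nat_lit 442) (nat_lit 5) (nat_lit 430) (nat_lit 5) (nat_lit 633) (nat_lit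 602) (nat_lit 325))) (XT.nd (nat_lit 78) (nat_lit 988) (nat_lit 0) (XT.lf (nat_lit 0) (nat_lit 8355380956) (nat_lit 836) (nat_lit 15049826050) (nat_lit 912) (nat_lit 5400175692) (nat_lit 418) (nat_lit 5) (nat_lit 429) (nat_lit 5) (nat_lit 430) (nat_lit 5) (nat_lit 634) (nat_lit 602) (nat_lit 324)) (XT.nd (nat_lit 78) (nat_lit 988) (nat_lit 0) (XT.lf (nat_lit 0) (nat_lit 24481795038) (nat_lit 836) (nat_lit 2244209942) (nat_lit 912) (nat_lit 2395460692) (nat_lit 418) (nat_lit 5) (nat_lit 429) (nat_lit 5) (nat_lit 430) (nat_lit 5) (nat_lit 635) (nat_lit 602) (nat_lit 323)) (XT.lf (nat_lit 0) (nat_lit 804544467) (nat_lit 988) (nat_lit 17880251156) (nat_lit 76) (nat_lit 10756108337) (nat_lit 405) (nat_lit 5) (nat_lit 418) (nat_lit 5) (nat_lit 406) (nat_lit 5) (nat_lit 636) (nat_lit 602) (nat_lit 322))))) (XT.nd (nat_lit 156) (nat_lit 1596) (nat_lit 0) (XT.nd (nat_lit 78) (nat_lit 836) (nat_lit 0) (XT.lf (nat_lit 0) (nat_lit 4080421374) (nat_lit 988) (nat_lit 1651453353) (nat_lit 76) (nat_lit 24033660732) (nat_lit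 405) (nat_lit 5) (nat_lit 418) (nat_lit 5) (nat_lit 406) (nat_lit 5) (nat_lit 637) (nat_lit 602) (nat_lit 321)) (XT.lf (nat_lit 0) (nat_lit 7566813548) (nat_lit 912) (nat_lit 15046272040) (nat_lit 76) (nat_lit 7480674107) (nat_lit 394) (nat_lit 5) (nat_lit 406) (nat_lit 5) (nat_lit 395) (nat_lit 5) (nat_lit 638) (nat_lit 602) (nat_lit 320))) (XT.nd (nat_lit 78) (nat_lit 760) (nat_lit 0) (XT.lf (nat_lit 0) (nat_lit 1655879110) (nat_lit 836) (nat_lit 9524708423) (nat_lit 912) (nat_lit 19246807863) (nat_lit 383) (nat_lit 5) (nat_lit 394) (nat_lit 5) (nat_lit 395) (nat_lit 5) (nat_lit 639) (nat_lit 602) (nat_lit 319)) (XT.nd (nat_lit 78) (nat_lit 760) (nat_lit 0) (XT.lf (nat_lit 0) (nat_lit 14990927533) (nat_lit 912) (nat_lit 11897461028) (nat_lit 76) (nat_lit 3876829495) (nat_lit 383) (nat_lit 5) (nat_lit 395) (nat_lit 5) (nat_lit 384) (nat_lit 5) (nat_lit 640) (nat_lit 602) (nat_lit 318)) (XT.lf (nat_lit 0) (nat_lit 5318495811) (nat_lit 760) (nat_lit 13654446281) (nat_lit 836) (nat_lit 12134945781) (nat_lit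 373) (nat_lit 5) (nat_lit 383) (nat_lit 5) (nat_lit 384) (nat_lit 5) (nat_lit 641) (nat_lit 602) (nat_lit 317)))))) (XT.nd (nat_lit 390) (nat_lit 2128) (nat_lit 0) (XT.nd (nat_lit 156) (nat_lit 836) (nat_lit 0) (XT.nd (nat_lit 78) (nat_lit 760) (nat_lit 0) (XT.lf (nat_lit 0) (nat_lit 23037804826) (nat_lit 760) (nat_lit 74516793) (nat_lit 836) (nat_lit 8343535029) (nat_lit 373) (nat_lit 5) (nat_lit 383) (nat_lit 5) (nat_lit 384) (nat_lit 5) (nat_lit 642) (nat_lit 602) (nat_lit 316)) (XT.lf (nat_lit 0) (nat_lit 9331411929) (nat_lit 760) (nat_lit 18151039107) (nat_lit 836) (nat_lit 4325374571) (nat_lit 363) (nat_lit 5) (nat_lit 373) (nat_lit 5) (nat_lit 374) (nat_lit 5) (nat_lit 643) (nat_lit 602) (nat_lit 315))) (XT.nd (nat_lit 78) (nat_lit 836) (nat_lit 0) (XT.lf (nat_lit 0) (nat_lit 27547251590) (nat_lit 760) (nat_lit 4447664556) (nat_lit 836) (nat_lit 170819190) (nat_lit 363) (nat_lit 5) (nat_lit 373) (nat_lit 5) (nat_lit 374) (nat_lit 5) (nat_lit 644) (nat_lit 602) (nat_lit 314)) (XT.nd (nat_lit 78) (nat_lit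 0) (nat_lit 0) (XT.lf (nat_lit 0) (nat_lit 4163371787) (nat_lit 836) (nat_lit 18842862597) (nat_lit 76) (nat_lit 9521043204) (nat_lit 352) (nat_lit 5) (nat_lit 363) (nat_lit 5) (nat_lit 353) (nat_lit 5) (nat_lit 645) (nat_lit 602) (nat_lit 313)) (XT.lf (nat_lit 0) (nat_lit 8640618091) (nat_lit 836) (nat_lit 512475305) (nat_lit 76) (nat_lit 23741761583) (nat_lit 352) (nat_lit 5) (nat_lit 363) (nat_lit 5) (nat_lit 353) (nat_lit 5) (nat_lit 646) (nat_lit 602) (nat_lit 312))))) (XT.nd (nat_lit 156) (nat_lit 684) (nat_lit 0) (XT.nd (nat_lit 78) (nat_lit 684) (nat_lit 0) (XT.lf (nat_lit 0) (nat_lit 13358178674) (nat_lit 836) (nat_lit 14876568695) (nat_lit 76) (nat_lit 5032021210) (nat_lit 342) (nat_lit 5) (nat_lit 353) (nat_lit 5) (nat_lit 343) (nat_lit 5) (nat_lit 647) (nat_lit 602) (nat_lit 311)) (XT.lf (nat_lit 0) (nat_lit 4021721207) (nat_lit 684) (nat_lit 14236625257) (nat_lit 760) (nat_lit 15386008916) (nat_lit 333) (nat_lit 5) (nat_lit 342) (nat_lit 5) (nat_lit 343) (nat_lit 5) (nat_lit 648) (nat_lit 602)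 (nat_lit 310))) (XT.nd (nat_lit 78) (nat_lit 684) (nat_lit 0) (XT.lf (nat_lit 0) (nat_lit 23355365399) (nat_lit 760) (nat_lit 10531025541) (nat_lit 76) (nat_lit 141126068) (nat_lit 333) (nat_lit 5) (nat_lit 343) (nat_lit 5) (nat_lit 334) (nat_lit 5) (nat_lit 649) (nat_lit 602) (nat_lit 309)) (XT.nd (nat_lit 78) (nat_lit 0) (nat_lit 0) (XT.lf (nat_lit 0) (nat_lit 8963504057) (nat_lit 684) (nat_lit 19741425326) (nat_lit 760) (nat_lit 5710400441) (nat_lit 324) (nat_lit 5) (nat_lit 333) (nat_lit 5) (nat_lit 334) (nat_lit 5) (nat_lit 650) (nat_lit 602) (nat_lit 308)) (XT.lf (nat_lit 0) (nat_lit 28988502571) (nat_lit 684) (nat_lit 5241798821) (nat_lit 760) (nat_lit 579221213) (nat_lit 324) (nat_lit 5) (nat_lit 333) (nat_lit 5) (nat_lit 334) (nat_lit 5) (nat_lit 651) (nat_lit 602) (nat_lit 307))))))) (XT.nd (nat_lit 780) (nat_lit 3800) (nat_lit 0) (XT.nd (nat_lit 390) (nat_lit 1900) (nat_lit 0) (XT.nd (nat_lit 156) (nat_lit 1292) (nat_lit 0) (XT.nd (nat_lit 78) (nat_lit 0) (nat_lit 0) (XT.lf (nat_lit 0) (nat_lit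 4747738228) (nat_lit 760) (nat_lit 20913633981) (nat_lit 76) (nat_lit 9546538619) (nat_lit 314) (nat_lit 5) (nat_lit 324) (nat_lit 5) (nat_lit 315) (nat_lit 5) (nat_lit 652) (nat_lit 602) (nat_lit 306)) (XT.lf (nat_lit 0) (nat_lit 10245715074) (nat_lit 760) (nat_lit 763682989) (nat_lit 76) (nat_lit 24603347543) (nat_lit 314) (nat_lit 5) (nat_lit 324) (nat_lit 5) (nat_lit 315) (nat_lit 5) (nat_lit 653) (nat_lit 602) (nat_lit 305))) (XT.nd (nat_lit 78) (nat_lit 608) (nat_lit 0) (XT.lf (nat_lit 0) (nat_lit 16008469877) (nat_lit 760) (nat_lit 15999425190) (nat_lit 76) (nat_lit 4014685687) (nat_lit 305) (nat_lit 5) (nat_lit 315) (nat_lit 5) (nat_lit 306) (nat_lit 5) (nat_lit 654) (nat_lit 602) (nat_lit 304)) (XT.nd (nat_lit 78) (nat_lit 0) (nat_lit 0) (XT.lf (nat_lit 0) (nat_lit 4783211426) (nat_lit 608) (nat_lit 17210638828) (nat_lit 684) (nat_lit 14444614982) (nat_lit 297) (nat_lit 5) (nat_lit 305) (nat_lit 5) (nat_lit 306) (nat_lit 5) (nat_lit 655) (nat_lit 602) (nat_lit 303)) (XT.lf (nat_lit 0) (nat_lit 26196241243)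 (nat_lit 608) (nat_lit 2008328203) (nat_lit 684) (nat_lit 8655985378) (nat_lit 297) (nat_lit 5) (nat_lit 305) (nat_lit 5) (nat_lit 306) (nat_lit 5) (nat_lit 656) (nat_lit 602) (nat_lit 302))))) (XT.nd (nat_lit 156) (nat_lit 1216) (nat_lit 0) (XT.nd (nat_lit 78) (nat_lit 76) (nat_lit 0) (XT.lf (nat_lit 0) (nat_lit 10798303455) (nat_lit 608) (nat_lit 23897245540) (nat_lit 684) (nat_lit 2592416330) (nat_lit 289) (nat_lit 5) (nat_lit 297) (nat_lit 5) (nat_lit 298) (nat_lit 5) (nat_lit 657) (nat_lit 602) (nat_lit 301)) (XT.lf (nat_lit 0) (nat_lit 3628952633) (nat_lit 684) (nat_lit 4926994970) (nat_lit 76) (nat_lit 29165837105) (nat_lit 288) (nat_lit 5) (nat_lit 297) (nat_lit 5) (nat_lit 289) (nat_lit 5) (nat_lit 658) (nat_lit 602) (nat_lit 300))) (XT.nd (nat_lit 78) (nat_lit 608) (nat_lit 0) (XT.lf (nat_lit 0) (nat_lit 10097465172) (nat_lit 684) (nat_lit 20934408812) (nat_lit 76) (nat_lit 7128915243) (nat_lit 280) (nat_lit 5) (nat_lit 289) (nat_lit 5) (nat_lit 281) (nat_lit 5) (nat_lit 659) (nat_lit 602) (nat_lit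 299)) (XT.nd (nat_lit 78) (nat_lit 0) (nat_lit 0) (XT.lf (nat_lit 0) (nat_lit 1238957219) (nat_lit 608) (nat_lit 15552734443) (nat_lit 684) (nat_lit 21814955338) (nat_lit 272) (nat_lit 5) (nat_lit 280) (nat_lit 5) (nat_lit 281) (nat_lit 5) (nat_lit 660) (nat_lit 602) (nat_lit 298)) (XT.lf (nat_lit 0) (nat_lit 23761117676) (nat_lit 684) (nat_lit 14923636975) (nat_lit 76) (nat_lit 373841013) (nat_lit 272) (nat_lit 5) (nat_lit 281) (nat_lit 5) (nat_lit 273) (nat_lit 5) (nat_lit 661) (nat_lit 602) (nat_lit 297)))))) (XT.nd (nat_lit 390) (nat_lit 2052) (nat_lit 0) (XT.nd (nat_lit 156) (nat_lit 1216) (nat_lit 0) (XT.nd (nat_lit 78) (nat_lit 0) (nat_lit 0) (XT.lf (nat_lit 0) (nat_lit 7968727459) (nat_lit 532) (nat_lit 23054344751) (nat_lit 608) (nat_lit 8493448327) (nat_lit 265) (nat_lit 5) (nat_lit 272) (nat_lit 5) (nat_lit 273) (nat_lit 5) (nat_lit 662) (nat_lit 602) (nat_lit 296)) (XT.lf (nat_lit 0) (nat_lit 31519164229) (nat_lit 532) (nat_lit 7009668432) (nat_lit 608) (nat_lit 1452799945) (nat_lit 265) (nat_lit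 5) (nat_lit 272) (nat_lit 5) (nat_lit 273) (nat_lit 5) (nat_lit 663) (nat_lit 602) (nat_lit 295))) (XT.nd (nat_lit 78) (nat_lit 532) (nat_lit 0) (XT.lf (nat_lit 0) (nat_lit 5812596745) (nat_lit 684) (nat_lit 25269733964) (nat_lit 76) (nat_lit 9369790999) (nat_lit 256) (nat_lit 5) (nat_lit 265) (nat_lit 5) (nat_lit 257) (nat_lit 5) (nat_lit 664) (nat_lit 602) (nat_lit 294)) (XT.nd (nat_lit 78) (nat_lit 532) (nat_lit 0) (XT.lf (nat_lit 0) (nat_lit 13305908058) (nat_lit 684) (nat_lit 1574514886) (nat_lit 76) (nat_lit 26049364428) (nat_lit 256) (nat_lit 5) (nat_lit 265) (nat_lit 5) (nat_lit 257) (nat_lit 5) (nat_lit 665) (nat_lit 602) (nat_lit 293)) (XT.lf (nat_lit 0) (nat_lit 21107872323) (nat_lit 608) (nat_lit 18532899310) (nat_lit 76) (nat_lit 1773059014) (nat_lit 249) (nat_lit 5) (nat_lit 257) (nat_lit 5) (nat_lit 250) (nat_lit 5) (nat_lit 666) (nat_lit 602) (nat_lit 292))))) (XT.nd (nat_lit 234) (nat_lit 988) (nat_lit 0) (XT.nd (nat_lit 78) (nat_lit 532) (nat_lit 0) (XT.lf (nat_lit 0) (nat_lit 5916429202)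 (nat_lit 532) (nat_lit 23295541429) (nat_lit 608) (nat_lit 12692662291) (nat_lit 242) (nat_lit 5) (nat_lit 249) (nat_lit 5) (nat_lit 250) (nat_lit 5) (nat_lit 667) (nat_lit 602) (nat_lit 291)) (XT.nd (nat_lit 78) (nat_lit 532) (nat_lit 0) (XT.lf (nat_lit 0) (nat_lit 31103940018) (nat_lit 532) (nat_lit 6497092417) (nat_lit 608) (nat_lit 4801761210) (nat_lit 242) (nat_lit 5) (nat_lit 249) (nat_lit 5) (nat_lit 250) (nat_lit 5) (nat_lit 668) (nat_lit 602) (nat_lit 290)) (XT.lf (nat_lit 0) (nat_lit 3363905623) (nat_lit 532) (nat_lit 28933098364) (nat_lit 76) (nat_lit 10610301352) (nat_lit 235) (nat_lit 5) (nat_lit 242) (nat_lit 5) (nat_lit 236) (nat_lit 5) (nat_lit 669) (nat_lit 602) (nat_lit 289)))) (XT.nd (nat_lit 78) (nat_lit 988) (nat_lit 0) (XT.lf (nat_lit 0) (nat_lit 11746548541) (nat_lit 532) (nat_lit 3591846840) (nat_lit 76) (nat_lit 28080517957) (nat_lit 235) (nat_lit 5) (nat_lit 242) (nat_lit 5) (nat_lit 236) (nat_lit 5) (nat_lit 670) (nat_lit 602) (nat_lit 288)) (XT.nd (nat_lit 78) (nat_lit 456) (nat_lit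 0) (XT.lf (nat_lit 0) (nat_lit 20455517754) (nat_lit 608) (nat_lit 21401539658) (nat_lit 76) (nat_lit 2080522643) (nat_lit 228) (nat_lit 5) (nat_lit 236) (nat_lit 5) (nat_lit 229) (nat_lit 5) (nat_lit 671) (nat_lit 602) (nat_lit 287)) (XT.lf (nat_lit 0) (nat_lit 4727310029) (nat_lit 456) (nat_lit 24766478539) (nat_lit 532) (nat_lit 14969729123) (nat_lit 222) (nat_lit 5) (nat_lit 228) (nat_lit 5) (nat_lit 229) (nat_lit 5) (nat_lit 672) (nat_lit 602) (nat_lit 286))))))))
noncomputable def xc203 : XT := (XT.nd (nat_lit 77064) (nat_lit 0) (nat_lit 12768) (XT.nd (nat_lit 76284) (nat_lit 0) (nat_lit 20444) (XT.nd (nat_lit 75894) (nat_lit 0) (nat_lit 20292) (XT.nd (nat_lit 156) (nat_lit 0) (nat_lit 0) (XT.nd (nat_lit 78) (nat_lit 532) (nat_lit 0) (XT.lf (nat_lit 0) (nat_lit 31666866429) (nat_lit 456) (nat_lit 7188176641) (nat_lit 532) (nat_lit 6142086671) (nat_lit 222) (nat_lit 5) (nat_lit 228) (nat_lit 5) (nat_lit 229) (nat_lit 5) (nat_lit 673) (nat_lit 602) (nat_lit 285)) (XT.lf (nat_lit 0) (nat_lit 2983009445)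 (nat_lit 532) (nat_lit 31845957838) (nat_lit 76) (nat_lit 10708906365) (nat_lit 215) (nat_lit 5) (nat_lit 222) (nat_lit 5) (nat_lit 216) (nat_lit 5) (nat_lit 674) (nat_lit 602) (nat_lit 284))) (XT.nd (nat_lit 75582) (nat_lit 0) (nat_lit 20216) (XT.lf (nat_lit 0) (nat_lit 12344722804) (nat_lit 532) (nat_lit 4743246082) (nat_lit 76) (nat_lit 28997924431) (nat_lit 215) (nat_lit 5) (nat_lit 222) (nat_lit 5) (nat_lit 216) (nat_lit 5) (nat_lit 675) (nat_lit 602) (nat_lit 283)) (XT.nd (nat_lit 78) (nat_lit 0) (nat_lit 0) (XT.lf (nat_lit 0) (nat_lit 293920482) (nat_lit 1900) (nat_lit 5129324214) (nat_lit 1900) (nat_lit 5129324214) (nat_lit 481) (nat_lit 3) (nat_lit 506) (nat_lit 3) (nat_lit 506) (nat_lit 5) (nat_lit 603) (nat_lit 603) (nat_lit 354)) (XT.lf (nat_lit 76) (nat_lit 254915504) (nat_lit 0) (nat_lit 489779873) (nat_lit 1900) (nat_lit 20568469783) (nat_lit 482) (nat_lit 5) (nat_lit 481) (nat_lit 3) (nat_lit 506) (nat_lit 5) (nat_lit 604) (nat_lit 603) (nat_lit 353))))) (XT.nd (nat_lit 156) (nat_lit 0) (nat_lit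 76) (XT.nd (nat_lit 78) (nat_lit 0) (nat_lit 0) (XT.lf (nat_lit 0) (nat_lit 1035473704) (nat_lit 1824) (nat_lit 10474145471) (nat_lit 1900) (nat_lit 10013118253) (nat_lit 482) (nat_lit 5) (nat_lit 506) (nat_lit 5) (nat_lit 507) (nat_lit 5) (nat_lit 605) (nat_lit 603) (nat_lit 352)) (XT.lf (nat_lit 76) (nat_lit 320527235) (nat_lit 0) (nat_lit 1013024316) (nat_lit 1900) (nat_lit 20402920028) (nat_lit 483) (nat_lit 5) (nat_lit 482) (nat_lit 5) (nat_lit 507) (nat_lit 5) (nat_lit 606) (nat_lit 603) (nat_lit 351))) (XT.nd (nat_lit 78) (nat_lit 0) (nat_lit 0) (XT.lf (nat_lit 0) (nat_lit 1767512504) (nat_lit 1824) (nat_lit 10545550566) (nat_lit 1900) (nat_lit 9638819027) (nat_lit 483) (nat_lit 5) (nat_lit 507) (nat_lit 5) (nat_lit 508) (nat_lit 5) (nat_lit 607) (nat_lit 603) (nat_lit 350)) (XT.nd (nat_lit 78) (nat_lit 0) (nat_lit 76) (XT.lf (nat_lit 76) (nat_lit 540526554) (nat_lit 0) (nat_lit 1676150616) (nat_lit 1900) (nat_lit 19954793274) (nat_lit 484) (nat_lit 5) (nat_lit 483) (nat_lit 5) (nat_lit 508) (nat_lit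 5) (nat_lit 608) (nat_lit 603) (nat_lit 349)) (XT.lf (nat_lit 0) (nat_lit 2801995566) (nat_lit 1824) (nat_lit 10464965253) (nat_lit 1900) (nat_lit 9125946442) (nat_lit 484) (nat_lit 5) (nat_lit 508) (nat_lit 5) (nat_lit 509) (nat_lit 5) (nat_lit 609) (nat_lit 603) (nat_lit 348)))))) (XT.nd (nat_lit 390) (nat_lit 0) (nat_lit 228) (XT.nd (nat_lit 156) (nat_lit 0) (nat_lit 76) (XT.nd (nat_lit 78) (nat_lit 0) (nat_lit 76) (XT.lf (nat_lit 76) (nat_lit 923209454) (nat_lit 0) (nat_lit 2489351516) (nat_lit 1900) (nat_lit 19205941138) (nat_lit 485) (nat_lit 5) (nat_lit 484) (nat_lit 5) (nat_lit 509) (nat_lit 5) (nat_lit 610) (nat_lit 603) (nat_lit 347)) (XT.lf (nat_lit 0) (nat_lit 4157751671) (nat_lit 1824) (nat_lit 10224075003) (nat_lit 1900) (nat_lit 8464334005) (nat_lit 485) (nat_lit 5) (nat_lit 509) (nat_lit 5) (nat_lit 510) (nat_lit 5) (nat_lit 611) (nat_lit 603) (nat_lit 346))) (XT.nd (nat_lit 78) (nat_lit 0) (nat_lit 76) (XT.lf (nat_lit 76) (nat_lit 1477303158) (nat_lit 0) (nat_lit 3463199956) (nat_lit 1900)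 (nat_lit 18137416270) (nat_lit 486) (nat_lit 5) (nat_lit 485) (nat_lit 5) (nat_lit 510) (nat_lit 5) (nat_lit 612) (nat_lit 603) (nat_lit 345)) (XT.nd (nat_lit 78) (nat_lit 0) (nat_lit 0) (XT.lf (nat_lit 0) (nat_lit 5854436954) (nat_lit 1824) (nat_lit 9814134356) (nat_lit 1900) (nat_lit 7643431508) (nat_lit 486) (nat_lit 5) (nat_lit 510) (nat_lit 5) (nat_lit 511) (nat_lit 5) (nat_lit 613) (nat_lit 603) (nat_lit 344)) (XT.lf (nat_lit 76) (nat_lit 2211981586) (nat_lit 0) (nat_lit 4608671186) (nat_lit 1900) (nat_lit 16729435182) (nat_lit 487) (nat_lit 5) (nat_lit 486) (nat_lit 5) (nat_lit 511) (nat_lit 5) (nat_lit 614) (nat_lit 603) (nat_lit 343))))) (XT.nd (nat_lit 156) (nat_lit 0) (nat_lit 76) (XT.nd (nat_lit 78) (nat_lit 0) (nat_lit 0) (XT.lf (nat_lit 0) (nat_lit 7912573059) (nat_lit 1824) (nat_lit 9225951305) (nat_lit 1900) (nat_lit 6652282922) (nat_lit 487) (nat_lit 5) (nat_lit 511) (nat_lit 5) (nat_lit 512) (nat_lit 5) (nat_lit 615) (nat_lit 603) (nat_lit 342)) (XT.lf (nat_lit 76) (nat_lit 3136881597)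 (nat_lit 0) (nat_lit 5937165497) (nat_lit 1900) (nat_lit 14961339700) (nat_lit 488) (nat_lit 5) (nat_lit 487) (nat_lit 5) (nat_lit 512) (nat_lit 5) (nat_lit 616) (nat_lit 603) (nat_lit 341))) (XT.nd (nat_lit 78) (nat_lit 0) (nat_lit 0) (XT.lf (nat_lit 0) (nat_lit 10353586701) (nat_lit 1824) (nat_lit 8449870911) (nat_lit 1900) (nat_lit 5479503651) (nat_lit 488) (nat_lit 5) (nat_lit 512) (nat_lit 5) (nat_lit 513) (nat_lit 5) (nat_lit 617) (nat_lit 603) (nat_lit 340)) (XT.nd (nat_lit 78) (nat_lit 0) (nat_lit 76) (XT.lf (nat_lit 76) (nat_lit 4262120042) (nat_lit 0) (nat_lit 7460531610) (nat_lit 1900) (nat_lit 12811556970) (nat_lit 489) (nat_lit 5) (nat_lit 488) (nat_lit 5) (nat_lit 513) (nat_lit 5) (nat_lit 618) (nat_lit 603) (nat_lit 339)) (XT.lf (nat_lit 0) (nat_lit 13199850733) (nat_lit 1824) (nat_lit 7475758109) (nat_lit 1900) (nat_lit 4113257120) (nat_lit 489) (nat_lit 5) (nat_lit 513) (nat_lit 5) (nat_lit 514) (nat_lit 5) (nat_lit 619) (nat_lit 603) (nat_lit 338))))))) (XT.nd (nat_lit 780) (nat_lit 5320)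 (nat_lit 0) (XT.nd (nat_lit 390) (nat_lit 2736) (nat_lit 0) (XT.nd (nat_lit 156) (nat_lit 0) (nat_lit 76) (XT.nd (nat_lit 78) (nat_lit 0) (nat_lit 76) (XT.lf (nat_lit 76) (nat_lit 5598311625) (nat_lit 0) (nat_lit 9191090786) (nat_lit 1900) (nat_lit 10257557954) (nat_lit 490) (nat_lit 5) (nat_lit 489) (nat_lit 5) (nat_lit 514) (nat_lit 5) (nat_lit 620) (nat_lit 603) (nat_lit 337)) (XT.lf (nat_lit 0) (nat_lit 16474726762) (nat_lit 1824) (nat_lit 6292979704) (nat_lit 1900) (nat_lit 2541230643) (nat_lit 490) (nat_lit 5) (nat_lit 514) (nat_lit 5) (nat_lit 515) (nat_lit 5) (nat_lit 621) (nat_lit 603) (nat_lit 336))) (XT.nd (nat_lit 78) (nat_lit 0) (nat_lit 76) (XT.lf (nat_lit 76) (nat_lit 7156587615) (nat_lit 0) (nat_lit 11141661671) (nat_lit 1900) (nat_lit 7275814352) (nat_lit 491) (nat_lit 5) (nat_lit 490) (nat_lit 5) (nat_lit 515) (nat_lit 5) (nat_lit 622) (nat_lit 603) (nat_lit 335)) (XT.nd (nat_lit 78) (nat_lit 0) (nat_lit 0) (XT.lf (nat_lit 0) (nat_lit 20202609404) (nat_lit 1824) (nat_lit 4890385514) (nat_lit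 1900) (nat_lit 750610520) (nat_lit 491) (nat_lit 5) (nat_lit 515) (nat_lit 5) (nat_lit 516) (nat_lit 5) (nat_lit 623) (nat_lit 603) (nat_lit 334)) (XT.lf (nat_lit 76) (nat_lit 8948615434) (nat_lit 0) (nat_lit 13325585962) (nat_lit 1900) (nat_lit 3841753867) (nat_lit 492) (nat_lit 5) (nat_lit 491) (nat_lit 5) (nat_lit 516) (nat_lit 5) (nat_lit 624) (nat_lit 603) (nat_lit 333))))) (XT.nd (nat_lit 156) (nat_lit 1064) (nat_lit 0) (XT.nd (nat_lit 78) (nat_lit 1824) (nat_lit 0) (XT.lf (nat_lit 76) (nat_lit 23128493162) (nat_lit 0) (nat_lit 1288847127) (nat_lit 1900) (nat_lit 1975809574) (nat_lit 492) (nat_lit 5) (nat_lit 491) (nat_lit 5) (nat_lit 516) (nat_lit 5) (nat_lit 625) (nat_lit 603) (nat_lit 332)) (XT.lf (nat_lit 0) (nat_lit 69364435) (nat_lit 1900) (nat_lit 15686924998) (nat_lit 1976) (nat_lit 10916789230) (nat_lit 467) (nat_lit 5) (nat_lit 492) (nat_lit 5) (nat_lit 493) (nat_lit 5) (nat_lit 626) (nat_lit 603) (nat_lit 331))) (XT.nd (nat_lit 78) (nat_lit 1064) (nat_lit 0) (XT.lf (nat_lit 0) (nat_lit 2156973135)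 (nat_lit 1900) (nat_lit 1415927125) (nat_lit 1976) (nat_lit 23384884907) (nat_lit 467) (nat_lit 5) (nat_lit 492) (nat_lit 5) (nat_lit 493) (nat_lit 5) (nat_lit 627) (nat_lit 603) (nat_lit 330)) (XT.nd (nat_lit 78) (nat_lit 1140) (nat_lit 0) (XT.lf (nat_lit 0) (nat_lit 4428258247) (nat_lit 1900) (nat_lit 13991662516) (nat_lit 76) (nat_lit 8825426628) (nat_lit 468) (nat_lit 5) (nat_lit 493) (nat_lit 5) (nat_lit 469) (nat_lit 5) (nat_lit 628) (nat_lit 603) (nat_lit 329)) (XT.lf (nat_lit 0) (nat_lit 680387841) (nat_lit 1140) (nat_lit 6099689646) (nat_lit 1216) (nat_lit 20757881275) (nat_lit 453) (nat_lit 5) (nat_lit 468) (nat_lit 5) (nat_lit 469) (nat_lit 5) (nat_lit 629) (nat_lit 603) (nat_lit 328)))))) (XT.nd (nat_lit 390) (nat_lit 3496) (nat_lit 0) (XT.nd (nat_lit 156) (nat_lit 912) (nat_lit 0) (XT.nd (nat_lit 78) (nat_lit 912) (nat_lit 0) (XT.lf (nat_lit 0) (nat_lit 9312936071) (nat_lit 1216) (nat_lit 12043874105) (nat_lit 76) (nat_lit 6476932197) (nat_lit 453) (nat_lit 5) (nat_lit 469) (nat_lit 5) (nat_lit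 454) (nat_lit 5) (nat_lit 630) (nat_lit 603) (nat_lit 327)) (XT.lf (nat_lit 0) (nat_lit 3063666252) (nat_lit 912) (nat_lit 8890623239) (nat_lit 988) (nat_lit 16179995481) (nat_lit 441) (nat_lit 5) (nat_lit 453) (nat_lit 5) (nat_lit 454) (nat_lit 5) (nat_lit 631) (nat_lit 603) (nat_lit 326))) (XT.nd (nat_lit 78) (nat_lit 912) (nat_lit 0) (XT.lf (nat_lit 0) (nat_lit 14752245792) (nat_lit 988) (nat_lit 9830226471) (nat_lit 76) (nat_lit 3856290711) (nat_lit 441) (nat_lit 5) (nat_lit 454) (nat_lit 5) (nat_lit 442) (nat_lit 5) (nat_lit 632) (nat_lit 603) (nat_lit 325)) (XT.nd (nat_lit 78) (nat_lit 0) (nat_lit 0) (XT.lf (nat_lit 0) (nat_lit 5729025840) (nat_lit 912) (nat_lit 11970843780) (nat_lit 988) (nat_lit 11047586816) (nat_lit 429) (nat_lit 5) (nat_lit 441) (nat_lit 5) (nat_lit 442) (nat_lit 5) (nat_lit 633) (nat_lit 603) (nat_lit 324)) (XT.lf (nat_lit 0) (nat_lit 20776313399) (nat_lit 988) (nat_lit 7336764709) (nat_lit 76) (nat_lit 947848375) (nat_lit 429) (nat_lit 5) (nat_lit 442) (nat_lit 5) (nat_lit 430)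 (nat_lit 5) (nat_lit 634) (nat_lit 603) (nat_lit 323))))) (XT.nd (nat_lit 234) (nat_lit 1672) (nat_lit 0) (XT.nd (nat_lit 78) (nat_lit 988) (nat_lit 0) (XT.lf (nat_lit 0) (nat_lit 8691046091) (nat_lit 836) (nat_lit 15356657421) (nat_lit 912) (nat_lit 5330294133) (nat_lit 418) (nat_lit 5) (nat_lit 429) (nat_lit 5) (nat_lit 430) (nat_lit 5) (nat_lit 635) (nat_lit 603) (nat_lit 322)) (XT.nd (nat_lit 78) (nat_lit 988) (nat_lit 0) (XT.lf (nat_lit 0) (nat_lit 25136683405) (nat_lit 836) (nat_lit 2294814582) (nat_lit 912) (nat_lit 2268972776) (nat_lit 418) (nat_lit 5) (nat_lit 429) (nat_lit 5) (nat_lit 430) (nat_lit 5) (nat_lit 636) (nat_lit 603) (nat_lit 321)) (XT.lf (nat_lit 0) (nat_lit 990429282) (nat_lit 988) (nat_lit 18067991257) (nat_lit 76) (nat_lit 10967901043) (nat_lit 405) (nat_lit 5) (nat_lit 418) (nat_lit 5) (nat_lit 406) (nat_lit 5) (nat_lit 637) (nat_lit 603) (nat_lit 320)))) (XT.nd (nat_lit 78) (nat_lit 1672) (nat_lit 0) (XT.lf (nat_lit 0) (nat_lit 4328494435) (nat_lit 988) (nat_lit 1517948183) (nat_lit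 76) (nat_lit 24511069769) (nat_lit 405) (nat_lit 5) (nat_lit 418) (nat_lit 5) (nat_lit 406) (nat_lit 5) (nat_lit 638) (nat_lit 603) (nat_lit 319)) (XT.nd (nat_lit 78) (nat_lit 836) (nat_lit 0) (XT.lf (nat_lit 0) (nat_lit 7882432133) (nat_lit 912) (nat_lit 15178476523) (nat_lit 76) (nat_lit 7631436185) (nat_lit 394) (nat_lit 5) (nat_lit 406) (nat_lit 5) (nat_lit 395) (nat_lit 5) (nat_lit 639) (nat_lit 603) (nat_lit 318)) (XT.lf (nat_lit 0) (nat_lit 1856607643) (nat_lit 836) (nat_lit 9709740974) (nat_lit 912) (nat_lit 19466347384) (nat_lit 383) (nat_lit 5) (nat_lit 394) (nat_lit 5) (nat_lit 395) (nat_lit 5) (nat_lit 640) (nat_lit 603) (nat_lit 317))))))))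
noncomputable def xc204 : XT := (XT.nd (nat_lit 1560) (nat_lit 4940) (nat_lit 0) (XT.nd (nat_lit 780) (nat_lit 4028) (nat_lit 0) (XT.nd (nat_lit 390) (nat_lit 2280) (nat_lit 0) (XT.nd (nat_lit 156) (nat_lit 760) (nat_lit 0) (XT.nd (nat_lit 78) (nat_lit 760) (nat_lit 0) (XT.lf (nat_lit 0) (nat_lit 15449750784) (nat_lit 912) (nat_lit 11967936922) (nat_lit 76) (nat_lit 3959650386) (nat_lit 383) (nat_lit 5) (nat_lit 395) (nat_lit 5) (nat_lit 384) (nat_lit 5) (nat_lit 641) (nat_lit 603) (nat_lit 316)) (XT.lf (nat_lit 0) (nat_lit 5591237255) (nat_lit 760) (nat_lit 13918130834) (nat_lit 836) (nat_lit 12217534050) (nat_lit 373) (nat_lit 5) (nat_lit 383) (nat_lit 5) (nat_lit 384) (nat_lit 5) (nat_lit 642) (nat_lit 603) (nat_lit 315))) (XT.nd (nat_lit 78) (nat_lit 760) (nat_lit 0) (XT.lf (nat_lit 0) (nat_lit 23661670263) (nat_lit 760) (nat_lit 66787156) (nat_lit 836) (nat_lit 8353434507) (nat_lit 373) (nat_lit 5) (nat_lit 383) (nat_lit 5) (nat_lit 384) (nat_lit 5) (nat_lit 643) (nat_lit 603) (nat_lit 314)) (XT.nd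 (nat_lit 78) (nat_lit 0) (nat_lit 0) (XT.lf (nat_lit 0) (nat_lit 9683078531) (nat_lit 760) (nat_lit 18501023682) (nat_lit 836) (nat_lit 4256835876) (nat_lit 363) (nat_lit 5) (nat_lit 373) (nat_lit 5) (nat_lit 374) (nat_lit 5) (nat_lit 644) (nat_lit 603) (nat_lit 313)) (XT.lf (nat_lit 0) (nat_lit 28259998940) (nat_lit 760) (nat_lit 4523837252) (nat_lit 836) (nat_lit 22229509) (nat_lit 363) (nat_lit 5) (nat_lit 373) (nat_lit 5) (nat_lit 374) (nat_lit 5) (nat_lit 645) (nat_lit 603) (nat_lit 312))))) (XT.nd (nat_lit 156) (nat_lit 1444) (nat_lit 0) (XT.nd (nat_lit 78) (nat_lit 0) (nat_lit 0) (XT.lf (nat_lit 0) (nat_lit 4394861537) (nat_lit 836) (nat_lit 19054126192) (nat_lit 76) (nat_lit 9725867208) (nat_lit 352) (nat_lit 5) (nat_lit 363) (nat_lit 5) (nat_lit 353) (nat_lit 5) (nat_lit 646) (nat_lit 603) (nat_lit 311)) (XT.lf (nat_lit 0) (nat_lit 8958746447) (nat_lit 836) (nat_lit 360378088) (nat_lit 76) (nat_lit 24230717540) (nat_lit 352) (nat_lit 5) (nat_lit 363) (nat_lit 5) (nat_lit 353) (nat_lit 5) (nat_lit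 647) (nat_lit 603) (nat_lit 310))) (XT.nd (nat_lit 78) (nat_lit 684) (nat_lit 0) (XT.lf (nat_lit 0) (nat_lit 13768971378) (nat_lit 836) (nat_lit 15010062871) (nat_lit 76) (nat_lit 5150193507) (nat_lit 342) (nat_lit 5) (nat_lit 353) (nat_lit 5) (nat_lit 343) (nat_lit 5) (nat_lit 648) (nat_lit 603) (nat_lit 309)) (XT.nd (nat_lit 78) (nat_lit 0) (nat_lit 0) (XT.lf (nat_lit 0) (nat_lit 4265113637) (nat_lit 684) (nat_lit 14500270661) (nat_lit 760) (nat_lit 15549017231) (nat_lit 333) (nat_lit 5) (nat_lit 342) (nat_lit 5) (nat_lit 343) (nat_lit 5) (nat_lit 649) (nat_lit 603) (nat_lit 308)) (XT.lf (nat_lit 0) (nat_lit 23961696056) (nat_lit 760) (nat_lit 10579232276) (nat_lit 76) (nat_lit 164351080) (nat_lit 333) (nat_lit 5) (nat_lit 343) (nat_lit 5) (nat_lit 334) (nat_lit 5) (nat_lit 650) (nat_lit 603) (nat_lit 307)))))) (XT.nd (nat_lit 390) (nat_lit 1900) (nat_lit 0) (XT.nd (nat_lit 156) (nat_lit 1444) (nat_lit 0) (XT.nd (nat_lit 78) (nat_lit 0) (nat_lit 0) (XT.lf (nat_lit 0) (nat_lit 9304119402) (nat_lit 684)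 (nat_lit 20112449607) (nat_lit 760) (nat_lit 5684313187) (nat_lit 324) (nat_lit 5) (nat_lit 333) (nat_lit 5) (nat_lit 334) (nat_lit 5) (nat_lit 651) (nat_lit 603) (nat_lit 306)) (XT.lf (nat_lit 0) (nat_lit 29726454255) (nat_lit 684) (nat_lit 5323297322) (nat_lit 760) (nat_lit 453261262) (nat_lit 324) (nat_lit 5) (nat_lit 333) (nat_lit 5) (nat_lit 334) (nat_lit 5) (nat_lit 652) (nat_lit 603) (nat_lit 305))) (XT.nd (nat_lit 78) (nat_lit 684) (nat_lit 0) (XT.lf (nat_lit 0) (nat_lit 4976964974) (nat_lit 760) (nat_lit 21170446158) (nat_lit 76) (nat_lit 9761969266) (nat_lit 314) (nat_lit 5) (nat_lit 324) (nat_lit 5) (nat_lit 315) (nat_lit 5) (nat_lit 653) (nat_lit 603) (nat_lit 304)) (XT.nd (nat_lit 78) (nat_lit 684) (nat_lit 0) (XT.lf (nat_lit 0) (nat_lit 10582268573) (nat_lit 760) (nat_lit 620662038) (nat_lit 76) (nat_lit 25119433979) (nat_lit 314) (nat_lit 5) (nat_lit 324) (nat_lit 5) (nat_lit 315) (nat_lit 5) (nat_lit 654) (nat_lit 603) (nat_lit 303)) (XT.lf (nat_lit 0) (nat_lit 16458894737) (nat_lit 760)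 (nat_lit 16159732265) (nat_lit 76) (nat_lit 4121797176) (nat_lit 305) (nat_lit 5) (nat_lit 315) (nat_lit 5) (nat_lit 306) (nat_lit 5) (nat_lit 655) (nat_lit 603) (nat_lit 302))))) (XT.nd (nat_lit 156) (nat_lit 1292) (nat_lit 0) (XT.nd (nat_lit 78) (nat_lit 0) (nat_lit 0) (XT.lf (nat_lit 0) (nat_lit 5037506547) (nat_lit 608) (nat_lit 17524952082) (nat_lit 684) (nat_lit 14602198262) (nat_lit 297) (nat_lit 5) (nat_lit 305) (nat_lit 5) (nat_lit 306) (nat_lit 5) (nat_lit 656) (nat_lit 603) (nat_lit 301)) (XT.lf (nat_lit 0) (nat_lit 26875686551) (nat_lit 608) (nat_lit 2019181510) (nat_lit 684) (nat_lit 8700370753) (nat_lit 297) (nat_lit 5) (nat_lit 305) (nat_lit 5) (nat_lit 306) (nat_lit 5) (nat_lit 657) (nat_lit 603) (nat_lit 300))) (XT.nd (nat_lit 78) (nat_lit 684) (nat_lit 0) (XT.lf (nat_lit 0) (nat_lit 11171088258) (nat_lit 608) (nat_lit 24343309051) (nat_lit 684) (nat_lit 2516825671) (nat_lit 289) (nat_lit 5) (nat_lit 297) (nat_lit 5) (nat_lit 298) (nat_lit 5) (nat_lit 658) (nat_lit 603) (nat_lit 299)) (XT.nd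 (nat_lit 78) (nat_lit 608) (nat_lit 0) (XT.lf (nat_lit 0) (nat_lit 3824833255) (nat_lit 684) (nat_lit 4870149609) (nat_lit 76) (nat_lit 29778768717) (nat_lit 288) (nat_lit 5) (nat_lit 297) (nat_lit 5) (nat_lit 289) (nat_lit 5) (nat_lit 659) (nat_lit 603) (nat_lit 298)) (XT.lf (nat_lit 0) (nat_lit 10421511455) (nat_lit 684) (nat_lit 21196504401) (nat_lit 76) (nat_lit 7303544479) (nat_lit 280) (nat_lit 5) (nat_lit 289) (nat_lit 5) (nat_lit 281) (nat_lit 5) (nat_lit 660) (nat_lit 603) (nat_lit 297))))))) (XT.nd (nat_lit 780) (nat_lit 1520) (nat_lit 0) (XT.nd (nat_lit 390) (nat_lit 1596) (nat_lit 0) (XT.nd (nat_lit 156) (nat_lit 1216) (nat_lit 0) (XT.nd (nat_lit 78) (nat_lit 0) (nat_lit 0) (XT.lf (nat_lit 0) (nat_lit 1419298736) (nat_lit 608) (nat_lit 15828939694) (nat_lit 684) (nat_lit 22128124568) (nat_lit 272) (nat_lit 5) (nat_lit 280) (nat_lit 5) (nat_lit 281) (nat_lit 5) (nat_lit 661) (nat_lit 603) (nat_lit 296)) (XT.lf (nat_lit 0) (nat_lit 24354907874) (nat_lit 684) (nat_lit 15067449862) (nat_lit 76) (nat_lit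 415035854) (nat_lit 272) (nat_lit 5) (nat_lit 281) (nat_lit 5) (nat_lit 273) (nat_lit 5) (nat_lit 662) (nat_lit 603) (nat_lit 295))) (XT.nd (nat_lit 78) (nat_lit 684) (nat_lit 0) (XT.lf (nat_lit 0) (nat_lit 8281744361) (nat_lit 532) (nat_lit 23479029826) (nat_lit 608) (nat_lit 8543729372) (nat_lit 265) (nat_lit 5) (nat_lit 272) (nat_lit 5) (nat_lit 273) (nat_lit 5) (nat_lit 663) (nat_lit 603) (nat_lit 294)) (XT.nd (nat_lit 78) (nat_lit 684) (nat_lit 0) (XT.lf (nat_lit 0) (nat_lit 32300177272) (nat_lit 532) (nat_lit 7114173741) (nat_lit 608) (nat_lit 1364612883) (nat_lit 265) (nat_lit 5) (nat_lit 272) (nat_lit 5) (nat_lit 273) (nat_lit 5) (nat_lit 664) (nat_lit 603) (nat_lit 293)) (XT.lf (nat_lit 0) (nat_lit 6043505441) (nat_lit 684) (nat_lit 25621907678) (nat_lit 76) (nat_lit 9593455459) (nat_lit 256) (nat_lit 5) (nat_lit 265) (nat_lit 5) (nat_lit 257) (nat_lit 5) (nat_lit 665) (nat_lit 603) (nat_lit 292))))) (XT.nd (nat_lit 156) (nat_lit 1064) (nat_lit 0) (XT.nd (nat_lit 78) (nat_lit 532) (nat_lit 0) (XT.lf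 (nat_lit 0) (nat_lit 13684434809) (nat_lit 684) (nat_lit 1455788550) (nat_lit 76) (nat_lit 26605909206) (nat_lit 256) (nat_lit 5) (nat_lit 265) (nat_lit 5) (nat_lit 257) (nat_lit 5) (nat_lit 666) (nat_lit 603) (nat_lit 291)) (XT.lf (nat_lit 0) (nat_lit 21641450236) (nat_lit 608) (nat_lit 18752350205) (nat_lit 76) (nat_lit 1846076074) (nat_lit 249) (nat_lit 5) (nat_lit 257) (nat_lit 5) (nat_lit 250) (nat_lit 5) (nat_lit 667) (nat_lit 603) (nat_lit 290))) (XT.nd (nat_lit 78) (nat_lit 532) (nat_lit 0) (XT.lf (nat_lit 0) (nat_lit 6184970094) (nat_lit 532) (nat_lit 23721450980) (nat_lit 608) (nat_lit 12834097996) (nat_lit 242) (nat_lit 5) (nat_lit 249) (nat_lit 5) (nat_lit 250) (nat_lit 5) (nat_lit 668) (nat_lit 603) (nat_lit 289)) (XT.nd (nat_lit 78) (nat_lit 532) (nat_lit 0) (XT.lf (nat_lit 0) (nat_lit 31873285786) (nat_lit 532) (nat_lit 6587817326) (nat_lit 608) (nat_lit 4787583159) (nat_lit 242) (nat_lit 5) (nat_lit 249) (nat_lit 5) (nat_lit 250) (nat_lit 5) (nat_lit 669) (nat_lit 603) (nat_lit 288)) (XT.lf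 (nat_lit 0) (nat_lit 3539038671) (nat_lit 532) (nat_lit 29362130665) (nat_lit 76) (nat_lit 10862122853) (nat_lit 235) (nat_lit 5) (nat_lit 242) (nat_lit 5) (nat_lit 236) (nat_lit 5) (nat_lit 670) (nat_lit 603) (nat_lit 287)))))) (XT.nd (nat_lit 75972) (nat_lit 0) (nat_lit 20216) (XT.nd (nat_lit 156) (nat_lit 988) (nat_lit 0) (XT.nd (nat_lit 78) (nat_lit 532) (nat_lit 0) (XT.lf (nat_lit 0) (nat_lit 12087219645) (nat_lit 532) (nat_lit 3516988025) (nat_lit 76) (nat_lit 28680967016) (nat_lit 235) (nat_lit 5) (nat_lit 242) (nat_lit 5) (nat_lit 236) (nat_lit 5) (nat_lit 671) (nat_lit 603) (nat_lit 286)) (XT.lf (nat_lit 0) (nat_lit 20969508049) (nat_lit 608) (nat_lit 21682012433) (nat_lit 76) (nat_lit 2162711501) (nat_lit 228) (nat_lit 5) (nat_lit 236) (nat_lit 5) (nat_lit 229) (nat_lit 5) (nat_lit 672) (nat_lit 603) (nat_lit 285))) (XT.nd (nat_lit 78) (nat_lit 532) (nat_lit 0) (XT.lf (nat_lit 0) (nat_lit 4968443471) (nat_lit 456) (nat_lit 25218996081) (nat_lit 532) (nat_lit 15163270955) (nat_lit 222) (nat_lit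 5) (nat_lit 228) (nat_lit 5) (nat_lit 229) (nat_lit 5) (nat_lit 673) (nat_lit 603) (nat_lit 284)) (XT.nd (nat_lit 78) (nat_lit 532) (nat_lit 0) (XT.lf (nat_lit 0) (nat_lit 32443916740) (nat_lit 456) (nat_lit 7289967596) (nat_lit 532) (nat_lit 6161151198) (nat_lit 222) (nat_lit 5) (nat_lit 228) (nat_lit 5) (nat_lit 229) (nat_lit 5) (nat_lit 674) (nat_lit 603) (nat_lit 283)) (XT.lf (nat_lit 0) (nat_lit 3144291098) (nat_lit 532) (nat_lit 32337004400) (nat_lit 76) (nat_lit 10965301277) (nat_lit 215) (nat_lit 5) (nat_lit 222) (nat_lit 5) (nat_lit 216) (nat_lit 5) (nat_lit 675) (nat_lit 603) (nat_lit 282))))) (XT.nd (nat_lit 234) (nat_lit 0) (nat_lit 76) (XT.nd (nat_lit 78) (nat_lit 0) (nat_lit 0) (XT.lf (nat_lit 0) (nat_lit 448150324) (nat_lit 1900) (nat_lit 5156249223) (nat_lit 1900) (nat_lit 5156249223) (nat_lit 481) (nat_lit 3) (nat_lit 506) (nat_lit 3) (nat_lit 506) (nat_lit 5) (nat_lit 604) (nat_lit 604) (nat_lit 352)) (XT.nd (nat_lit 78) (nat_lit 0) (nat_lit 76) (XT.lf (nat_lit 76) (nat_lit 410341220) (nat_lit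 0) (nat_lit 641109253) (nat_lit 1900) (nat_lit 20682131965) (nat_lit 482) (nat_lit 5) (nat_lit 481) (nat_lit 3) (nat_lit 506) (nat_lit 5) (nat_lit 605) (nat_lit 604) (nat_lit 351)) (XT.lf (nat_lit 0) (nat_lit 1341420685) (nat_lit 1824) (nat_lit 10529616260) (nat_lit 1900) (nat_lit 10076441852) (nat_lit 482) (nat_lit 5) (nat_lit 506) (nat_lit 5) (nat_lit 507) (nat_lit 5) (nat_lit 606) (nat_lit 604) (nat_lit 350)))) (XT.nd (nat_lit 78) (nat_lit 0) (nat_lit 76) (XT.lf (nat_lit 76) (nat_lit 479936663) (nat_lit 0) (nat_lit 1160923903) (nat_lit 1900) (nat_lit 20524719224) (nat_lit 483) (nat_lit 5) (nat_lit 482) (nat_lit 5) (nat_lit 507) (nat_lit 5) (nat_lit 607) (nat_lit 604) (nat_lit 349)) (XT.nd (nat_lit 78) (nat_lit 0) (nat_lit 0) (XT.lf (nat_lit 0) (nat_lit 2077185564) (nat_lit 1824) (nat_lit 10600139203) (nat_lit 1900) (nat_lit 9708100220) (nat_lit 483) (nat_lit 5) (nat_lit 507) (nat_lit 5) (nat_lit 508) (nat_lit 5) (nat_lit 608) (nat_lit 604) (nat_lit 348)) (XT.lf (nat_lit 76) (nat_lit 706631023) (nat_lit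 0) (nat_lit 1824331894) (nat_lit 1900) (nat_lit 20078529760) (nat_lit 484) (nat_lit 5) (nat_lit 483) (nat_lit 5) (nat_lit 508) (nat_lit 5) (nat_lit 609) (nat_lit 604) (nat_lit 347))))))))
noncomputable def xc205 : XT := (XT.nd (nat_lit 1560) (nat_lit 10184) (nat_lit 0) (XT.nd (nat_lit 780) (nat_lit 1292) (nat_lit 0) (XT.nd (nat_lit 390) (nat_lit 0) (nat_lit 152) (XT.nd (nat_lit 156) (nat_lit 0) (nat_lit 76) (XT.nd (nat_lit 78) (nat_lit 0) (nat_lit 0) (XT.lf (nat_lit 0) (nat_lit 3121964660) (nat_lit 1824) (nat_lit 10515984606) (nat_lit 1900) (nat_lit 9197529585) (nat_lit 484) (nat_lit 5) (nat_lit 508) (nat_lit 5) (nat_lit 509) (nat_lit 5) (nat_lit 610) (nat_lit 604) (nat_lit 346)) (XT.lf (nat_lit 76) (nat_lit 1098912281) (nat_lit 0) (nat_lit 2641674907) (nat_lit 1900) (nat_lit 19325081647) (nat_lit 485) (nat_lit 5) (nat_lit 484) (nat_lit 5) (nat_lit 509) (nat_lit 5) (nat_lit 611) (nat_lit 604) (nat_lit 345))) (XT.nd (nat_lit 78) (nat_lit 0) (nat_lit 0) (XT.lf (nat_lit 0) (nat_lit 4494935394) (nat_lit 1824)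 (nat_lit 10268647006) (nat_lit 1900) (nat_lit 8534413256) (nat_lit 485) (nat_lit 5) (nat_lit 509) (nat_lit 5) (nat_lit 510) (nat_lit 5) (nat_lit 612) (nat_lit 604) (nat_lit 344)) (XT.nd (nat_lit 78) (nat_lit 0) (nat_lit 76) (XT.lf (nat_lit 76) (nat_lit 1665706683) (nat_lit 0) (nat_lit 3623685636) (nat_lit 1900) (nat_lit 18245076356) (nat_lit 486) (nat_lit 5) (nat_lit 485) (nat_lit 5) (nat_lit 510) (nat_lit 5) (nat_lit 613) (nat_lit 604) (nat_lit 343)) (XT.lf (nat_lit 0) (nat_lit 6216120665) (nat_lit 1824) (nat_lit 9849182897) (nat_lit 1900) (nat_lit 7708040048) (nat_lit 486) (nat_lit 5) (nat_lit 510) (nat_lit 5) (nat_lit 511) (nat_lit 5) (nat_lit 614) (nat_lit 604) (nat_lit 342))))) (XT.nd (nat_lit 156) (nat_lit 0) (nat_lit 76) (XT.nd (nat_lit 78) (nat_lit 0) (nat_lit 76) (XT.lf (nat_lit 76) (nat_lit 2416394613) (nat_lit 0) (nat_lit 4781510158) (nat_lit 1900) (nat_lit 16818360941) (nat_lit 487) (nat_lit 5) (nat_lit 486) (nat_lit 5) (nat_lit 511) (nat_lit 5) (nat_lit 615) (nat_lit 604) (nat_lit 341)) (XT.lf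 (nat_lit 0) (nat_lit 8306427667) (nat_lit 1824) (nat_lit 9248194714) (nat_lit 1900) (nat_lit 6707281908) (nat_lit 487) (nat_lit 5) (nat_lit 511) (nat_lit 5) (nat_lit 512) (nat_lit 5) (nat_lit 616) (nat_lit 604) (nat_lit 340))) (XT.nd (nat_lit 78) (nat_lit 0) (nat_lit 76) (XT.lf (nat_lit 76) (nat_lit 3360827244) (nat_lit 0) (nat_lit 6126730938) (nat_lit 1900) (nat_lit 15023888803) (nat_lit 488) (nat_lit 5) (nat_lit 487) (nat_lit 5) (nat_lit 512) (nat_lit 5) (nat_lit 617) (nat_lit 604) (nat_lit 339)) (XT.nd (nat_lit 78) (nat_lit 0) (nat_lit 0) (XT.lf (nat_lit 0) (nat_lit 10787688163) (nat_lit 1824) (nat_lit 8455814032) (nat_lit 1900) (nat_lit 5520570894) (nat_lit 488) (nat_lit 5) (nat_lit 512) (nat_lit 5) (nat_lit 513) (nat_lit 5) (nat_lit 618) (nat_lit 604) (nat_lit 338)) (XT.lf (nat_lit 76) (nat_lit 4509344015) (nat_lit 0) (nat_lit 7671390527) (nat_lit 1900) (nat_lit 12839678984) (nat_lit 489) (nat_lit 5) (nat_lit 488) (nat_lit 5) (nat_lit 513) (nat_lit 5) (nat_lit 619) (nat_lit 604) (nat_lit 337)))))) (XT.nd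 (nat_lit 390) (nat_lit 1672) (nat_lit 0) (XT.nd (nat_lit 156) (nat_lit 0) (nat_lit 76) (XT.nd (nat_lit 78) (nat_lit 0) (nat_lit 0) (XT.lf (nat_lit 0) (nat_lit 13682700291) (nat_lit 1824) (nat_lit 7461683956) (nat_lit 1900) (nat_lit 4135875443) (nat_lit 489) (nat_lit 5) (nat_lit 513) (nat_lit 5) (nat_lit 514) (nat_lit 5) (nat_lit 620) (nat_lit 604) (nat_lit 336)) (XT.lf (nat_lit 76) (nat_lit 5872790927) (nat_lit 0) (nat_lit 9428015992) (nat_lit 1900) (nat_lit 10242773911) (nat_lit 490) (nat_lit 5) (nat_lit 489) (nat_lit 5) (nat_lit 514) (nat_lit 5) (nat_lit 621) (nat_lit 604) (nat_lit 335))) (XT.nd (nat_lit 78) (nat_lit 0) (nat_lit 0) (XT.lf (nat_lit 0) (nat_lit 17015271961) (nat_lit 1824) (nat_lit 6254940677) (nat_lit 1900) (nat_lit 2540675913) (nat_lit 490) (nat_lit 5) (nat_lit 514) (nat_lit 5) (nat_lit 515) (nat_lit 5) (nat_lit 622) (nat_lit 604) (nat_lit 334)) (XT.nd (nat_lit 78) (nat_lit 0) (nat_lit 76) (XT.lf (nat_lit 76) (nat_lit 7462539708) (nat_lit 0) (nat_lit 11409644117) (nat_lit 1900) (nat_lit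 7209195531) (nat_lit 491) (nat_lit 5) (nat_lit 490) (nat_lit 5) (nat_lit 515) (nat_lit 5) (nat_lit 623) (nat_lit 604) (nat_lit 333)) (XT.lf (nat_lit 0) (nat_lit 20810265921) (nat_lit 1824) (nat_lit 4824194171) (nat_lit 1900) (nat_lit 721939326) (nat_lit 491) (nat_lit 5) (nat_lit 515) (nat_lit 5) (nat_lit 516) (nat_lit 5) (nat_lit 624) (nat_lit 604) (nat_lit 332))))) (XT.nd (nat_lit 156) (nat_lit 1824) (nat_lit 0) (XT.nd (nat_lit 78) (nat_lit 0) (nat_lit 0) (XT.lf (nat_lit 76) (nat_lit 9290507855) (nat_lit 0) (nat_lit 13629847441) (nat_lit 1900) (nat_lit 3713899750) (nat_lit 492) (nat_lit 5) (nat_lit 491) (nat_lit 5) (nat_lit 516) (nat_lit 5) (nat_lit 625) (nat_lit 604) (nat_lit 331)) (XT.lf (nat_lit 76) (nat_lit 23750788625) (nat_lit 0) (nat_lit 1351633638) (nat_lit 1900) (nat_lit 1814650086) (nat_lit 492) (nat_lit 5) (nat_lit 491) (nat_lit 5) (nat_lit 516) (nat_lit 5) (nat_lit 626) (nat_lit 604) (nat_lit 330))) (XT.nd (nat_lit 78) (nat_lit 0) (nat_lit 0) (XT.lf (nat_lit 0) (nat_lit 265739345) (nat_lit 1900)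 (nat_lit 15835238562) (nat_lit 1976) (nat_lit 11101656995) (nat_lit 467) (nat_lit 5) (nat_lit 492) (nat_lit 5) (nat_lit 493) (nat_lit 5) (nat_lit 627) (nat_lit 604) (nat_lit 329)) (XT.nd (nat_lit 78) (nat_lit 0) (nat_lit 76) (XT.lf (nat_lit 0) (nat_lit 2391276932) (nat_lit 1900) (nat_lit 1282064358) (nat_lit 1976) (nat_lit 23819770821) (nat_lit 467) (nat_lit 5) (nat_lit 492) (nat_lit 5) (nat_lit 493) (nat_lit 5) (nat_lit 628) (nat_lit 604) (nat_lit 328)) (XT.lf (nat_lit 0) (nat_lit 4705107927) (nat_lit 1900) (nat_lit 14106429273) (nat_lit 76) (nat_lit 8974946083) (nat_lit 468) (nat_lit 5) (nat_lit 493) (nat_lit 5) (nat_lit 469) (nat_lit 5) (nat_lit 629) (nat_lit 604) (nat_lit 327))))))) (XT.nd (nat_lit 780) (nat_lit 5472) (nat_lit 0) (XT.nd (nat_lit 390) (nat_lit 1824) (nat_lit 0) (XT.nd (nat_lit 156) (nat_lit 1824) (nat_lit 0) (XT.nd (nat_lit 78) (nat_lit 0) (nat_lit 0) (XT.lf (nat_lit 0) (nat_lit 857976129) (nat_lit 1140) (nat_lit 6243360241) (nat_lit 1216) (nat_lit 20983663161) (nat_lit 453) (nat_lit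 5) (nat_lit 468) (nat_lit 5) (nat_lit 469) (nat_lit 5) (nat_lit 630) (nat_lit 604) (nat_lit 326)) (XT.lf (nat_lit 0) (nat_lit 9681073805) (nat_lit 1216) (nat_lit 12120202883) (nat_lit 76) (nat_lit 6585497794) (nat_lit 453) (nat_lit 5) (nat_lit 469) (nat_lit 5) (nat_lit 454) (nat_lit 5) (nat_lit 631) (nat_lit 604) (nat_lit 325))) (XT.nd (nat_lit 78) (nat_lit 912) (nat_lit 0) (XT.lf (nat_lit 0) (nat_lit 3288405723) (nat_lit 912) (nat_lit 9084343645) (nat_lit 988) (nat_lit 16320628765) (nat_lit 441) (nat_lit 5) (nat_lit 453) (nat_lit 5) (nat_lit 454) (nat_lit 5) (nat_lit 632) (nat_lit 604) (nat_lit 324)) (XT.nd (nat_lit 78) (nat_lit 912) (nat_lit 0) (XT.lf (nat_lit 0) (nat_lit 15223046397) (nat_lit 988) (nat_lit 9862946717) (nat_lit 76) (nat_lit 3918025049) (nat_lit 441) (nat_lit 5) (nat_lit 454) (nat_lit 5) (nat_lit 442) (nat_lit 5) (nat_lit 633) (nat_lit 604) (nat_lit 323)) (XT.lf (nat_lit 0) (nat_lit 6006412454) (nat_lit 912) (nat_lit 12220821103) (nat_lit 988) (nat_lit 11091699817) (nat_lit 429) (nat_lit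 5) (nat_lit 441) (nat_lit 5) (nat_lit 442) (nat_lit 5) (nat_lit 634) (nat_lit 604) (nat_lit 322))))) (XT.nd (nat_lit 156) (nat_lit 988) (nat_lit 0) (XT.nd (nat_lit 78) (nat_lit 836) (nat_lit 0) (XT.lf (nat_lit 0) (nat_lit 21361739646) (nat_lit 988) (nat_lit 7320414852) (nat_lit 76) (nat_lit 956587750) (nat_lit 429) (nat_lit 5) (nat_lit 442) (nat_lit 5) (nat_lit 430) (nat_lit 5) (nat_lit 635) (nat_lit 604) (nat_lit 321)) (XT.lf (nat_lit 0) (nat_lit 9026879235) (nat_lit 836) (nat_lit 15669398845) (nat_lit 912) (nat_lit 5265922436) (nat_lit 418) (nat_lit 5) (nat_lit 429) (nat_lit 5) (nat_lit 430) (nat_lit 5) (nat_lit 636) (nat_lit 604) (nat_lit 320))) (XT.nd (nat_lit 78) (nat_lit 988) (nat_lit 0) (XT.lf (nat_lit 0) (nat_lit 25798252585) (nat_lit 836) (nat_lit 2346209183) (nat_lit 912) (nat_lit 2146727154) (nat_lit 418) (nat_lit 5) (nat_lit 429) (nat_lit 5) (nat_lit 430) (nat_lit 5) (nat_lit 637) (nat_lit 604) (nat_lit 319)) (XT.nd (nat_lit 78) (nat_lit 0) (nat_lit 0) (XT.lf (nat_lit 0) (nat_lit 1173438488)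 (nat_lit 988) (nat_lit 18266082222) (nat_lit 76) (nat_lit 11184058889) (nat_lit 405) (nat_lit 5) (nat_lit 418) (nat_lit 5) (nat_lit 406) (nat_lit 5) (nat_lit 638) (nat_lit 604) (nat_lit 318)) (XT.lf (nat_lit 0) (nat_lit 4575064932) (nat_lit 988) (nat_lit 1388239637) (nat_lit 76) (nat_lit 24998153739) (nat_lit 405) (nat_lit 5) (nat_lit 418) (nat_lit 5) (nat_lit 406) (nat_lit 5) (nat_lit 639) (nat_lit 604) (nat_lit 317)))))) (XT.nd (nat_lit 390) (nat_lit 3040) (nat_lit 0) (XT.nd (nat_lit 156) (nat_lit 760) (nat_lit 0) (XT.nd (nat_lit 78) (nat_lit 836) (nat_lit 0) (XT.lf (nat_lit 0) (nat_lit 8197983808) (nat_lit 912) (nat_lit 15319876737) (nat_lit 76) (nat_lit 7785168902) (nat_lit 394) (nat_lit 5) (nat_lit 406) (nat_lit 5) (nat_lit 395) (nat_lit 5) (nat_lit 640) (nat_lit 604) (nat_lit 316)) (XT.lf (nat_lit 0) (nat_lit 2054842210) (nat_lit 836) (nat_lit 9898686257) (nat_lit 912) (nat_lit 19696700249) (nat_lit 383) (nat_lit 5) (nat_lit 394) (nat_lit 5) (nat_lit 395) (nat_lit 5) (nat_lit 641) (nat_lit 604) (nat_lit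 315))) (XT.nd (nat_lit 78) (nat_lit 760) (nat_lit 0) (XT.lf (nat_lit 0) (nat_lit 15911576154) (nat_lit 912) (nat_lit 12046325528) (nat_lit 76) (nat_lit 4043922499) (nat_lit 383) (nat_lit 5) (nat_lit 395) (nat_lit 5) (nat_lit 384) (nat_lit 5) (nat_lit 642) (nat_lit 604) (nat_lit 314)) (XT.nd (nat_lit 78) (nat_lit 0) (nat_lit 0) (XT.lf (nat_lit 0) (nat_lit 5862973119) (nat_lit 760) (nat_lit 14187454261) (nat_lit 836) (nat_lit 12307991377) (nat_lit 373) (nat_lit 5) (nat_lit 383) (nat_lit 5) (nat_lit 384) (nat_lit 5) (nat_lit 643) (nat_lit 604) (nat_lit 313)) (XT.lf (nat_lit 0) (nat_lit 24291679276) (nat_lit 760) (nat_lit 59260948) (nat_lit 836) (nat_lit 8369627360) (nat_lit 373) (nat_lit 5) (nat_lit 383) (nat_lit 5) (nat_lit 384) (nat_lit 5) (nat_lit 644) (nat_lit 604) (nat_lit 312))))) (XT.nd (nat_lit 234) (nat_lit 1444) (nat_lit 0) (XT.nd (nat_lit 78) (nat_lit 836) (nat_lit 0) (XT.lf (nat_lit 0) (nat_lit 10035369824) (nat_lit 760) (nat_lit 18858514160) (nat_lit 836) (nat_lit 4192947040) (nat_lit 363) (nat_lit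 5) (nat_lit 373) (nat_lit 5) (nat_lit 374) (nat_lit 5) (nat_lit 645) (nat_lit 604) (nat_lit 311)) (XT.nd (nat_lit 78) (nat_lit 760) (nat_lit 0) (XT.lf (nat_lit 0) (nat_lit 121810585) (nat_lit 836) (nat_lit 4479401688) (nat_lit 76) (nat_lit 28858090256) (nat_lit 362) (nat_lit 5) (nat_lit 373) (nat_lit 5) (nat_lit 363) (nat_lit 5) (nat_lit 646) (nat_lit 604) (nat_lit 310)) (XT.lf (nat_lit 0) (nat_lit 4625225429) (nat_lit 836) (nat_lit 19276045263) (nat_lit 76) (nat_lit 9934228400) (nat_lit 352) (nat_lit 5) (nat_lit 363) (nat_lit 5) (nat_lit 353) (nat_lit 5) (nat_lit 647) (nat_lit 604) (nat_lit 309)))) (XT.nd (nat_lit 78) (nat_lit 1444) (nat_lit 0) (XT.lf (nat_lit 0) (nat_lit 9277594573) (nat_lit 836) (nat_lit 211543049) (nat_lit 76) (nat_lit 24728904290) (nat_lit 352) (nat_lit 5) (nat_lit 363) (nat_lit 5) (nat_lit 353) (nat_lit 5) (nat_lit 648) (nat_lit 604) (nat_lit 308)) (XT.nd (nat_lit 78) (nat_lit 684) (nat_lit 0) (XT.lf (nat_lit 0) (nat_lit 14182402642) (nat_lit 836) (nat_lit 15152596696) (nat_lit 76)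 (nat_lit 5270048467) (nat_lit 342) (nat_lit 5) (nat_lit 353) (nat_lit 5) (nat_lit 343) (nat_lit 5) (nat_lit 649) (nat_lit 604) (nat_lit 307)) (XT.lf (nat_lit 0) (nat_lit 4507046057) (nat_lit 684) (nat_lit 14770007811) (nat_lit 760) (nat_lit 15720905051) (nat_lit 333) (nat_lit 5) (nat_lit 342) (nat_lit 5) (nat_lit 343) (nat_lit 5) (nat_lit 650) (nat_lit 604) (nat_lit 306))))))))
noncomputable def xc206 : XT := (XT.nd (nat_lit 1560) (nat_lit 1520) (nat_lit 0) (XT.nd (nat_lit 780) (nat_lit 3496) (nat_lit 0) (XT.nd (nat_lit 390) (nat_lit 1976) (nat_lit 0) (XT.nd (nat_lit 156) (nat_lit 760) (nat_lit 0) (XT.nd (nat_lit 78) (nat_lit 684) (nat_lit 0) (XT.lf (nat_lit 0) (nat_lit 24574747113) (nat_lit 760) (nat_lit 10634709870) (nat_lit 76) (nat_lit 187248338) (nat_lit 333) (nat_lit 5) (nat_lit 343) (nat_lit 5) (nat_lit 334) (nat_lit 5) (nat_lit 651) (nat_lit 604) (nat_lit 305)) (XT.lf (nat_lit 0) (nat_lit 9645281822) (nat_lit 684) (nat_lit 20491818721) (nat_lit 760) (nat_lit 5663152024) (nat_lit 324) (nat_lit 5)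 (nat_lit 333) (nat_lit 5) (nat_lit 334) (nat_lit 5) (nat_lit 652) (nat_lit 604) (nat_lit 304))) (XT.nd (nat_lit 78) (nat_lit 760) (nat_lit 0) (XT.lf (nat_lit 0) (nat_lit 30473022586) (nat_lit 684) (nat_lit 5407332016) (nat_lit 760) (nat_lit 330123127) (nat_lit 324) (nat_lit 5) (nat_lit 333) (nat_lit 5) (nat_lit 334) (nat_lit 5) (nat_lit 653) (nat_lit 604) (nat_lit 303)) (XT.nd (nat_lit 78) (nat_lit 0) (nat_lit 0) (XT.lf (nat_lit 0) (nat_lit 5205562311) (nat_lit 760) (nat_lit 21438664287) (nat_lit 76) (nat_lit 9980757166) (nat_lit 314) (nat_lit 5) (nat_lit 324) (nat_lit 5) (nat_lit 315) (nat_lit 5) (nat_lit 654) (nat_lit 604) (nat_lit 302)) (XT.lf (nat_lit 0) (nat_lit 10920441432) (nat_lit 760) (nat_lit 480927441) (nat_lit 76) (nat_lit 25644909438) (nat_lit 314) (nat_lit 5) (nat_lit 324) (nat_lit 5) (nat_lit 315) (nat_lit 5) (nat_lit 655) (nat_lit 604) (nat_lit 301))))) (XT.nd (nat_lit 156) (nat_lit 684) (nat_lit 0) (XT.nd (nat_lit 78) (nat_lit 608) (nat_lit 0) (XT.lf (nat_lit 0) (nat_lit 16913270115) (nat_lit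 760) (nat_lit 16329446106) (nat_lit 76) (nat_lit 4230009528) (nat_lit 305) (nat_lit 5) (nat_lit 315) (nat_lit 5) (nat_lit 306) (nat_lit 5) (nat_lit 656) (nat_lit 604) (nat_lit 300)) (XT.lf (nat_lit 0) (nat_lit 5290727740) (nat_lit 608) (nat_lit 17846712636) (nat_lit 684) (nat_lit 14768032098) (nat_lit 297) (nat_lit 5) (nat_lit 305) (nat_lit 5) (nat_lit 306) (nat_lit 5) (nat_lit 657) (nat_lit 604) (nat_lit 299))) (XT.nd (nat_lit 78) (nat_lit 684) (nat_lit 0) (XT.lf (nat_lit 0) (nat_lit 27562681715) (nat_lit 608) (nat_lit 2031390152) (nat_lit 684) (nat_lit 8750642746) (nat_lit 297) (nat_lit 5) (nat_lit 305) (nat_lit 5) (nat_lit 306) (nat_lit 5) (nat_lit 658) (nat_lit 604) (nat_lit 298)) (XT.nd (nat_lit 78) (nat_lit 76) (nat_lit 0) (XT.lf (nat_lit 0) (nat_lit 11545239295) (nat_lit 608) (nat_lit 24799531827) (nat_lit 684) (nat_lit 2444671810) (nat_lit 289) (nat_lit 5) (nat_lit 297) (nat_lit 5) (nat_lit 298) (nat_lit 5) (nat_lit 659) (nat_lit 604) (nat_lit 297)) (XT.lf (nat_lit 0) (nat_lit 4019843539) (nat_lit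 684) (nat_lit 4818201139) (nat_lit 76) (nat_lit 30402808979) (nat_lit 288) (nat_lit 5) (nat_lit 297) (nat_lit 5) (nat_lit 289) (nat_lit 5) (nat_lit 660) (nat_lit 604) (nat_lit 296)))))) (XT.nd (nat_lit 390) (nat_lit 1748) (nat_lit 0) (XT.nd (nat_lit 156) (nat_lit 532) (nat_lit 0) (XT.nd (nat_lit 78) (nat_lit 608) (nat_lit 0) (XT.lf (nat_lit 0) (nat_lit 10747297490) (nat_lit 684) (nat_lit 21469922583) (nat_lit 76) (nat_lit 7480421724) (nat_lit 280) (nat_lit 5) (nat_lit 289) (nat_lit 5) (nat_lit 281) (nat_lit 5) (nat_lit 661) (nat_lit 604) (nat_lit 295)) (XT.lf (nat_lit 0) (nat_lit 1597206408) (nat_lit 608) (nat_lit 16112022297) (nat_lit 684) (nat_lit 22452338465) (nat_lit 272) (nat_lit 5) (nat_lit 280) (nat_lit 5) (nat_lit 281) (nat_lit 5) (nat_lit 662) (nat_lit 604) (nat_lit 294))) (XT.nd (nat_lit 78) (nat_lit 532) (nat_lit 0) (XT.lf (nat_lit 0) (nat_lit 24955969741) (nat_lit 684) (nat_lit 15220144638) (nat_lit 76) (nat_lit 455745280) (nat_lit 272) (nat_lit 5) (nat_lit 281) (nat_lit 5) (nat_lit 273) (nat_lit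 5) (nat_lit 663) (nat_lit 604) (nat_lit 293)) (XT.nd (nat_lit 78) (nat_lit 0) (nat_lit 0) (XT.lf (nat_lit 0) (nat_lit 8595055481) (nat_lit 532) (nat_lit 23913622129) (nat_lit 608) (nat_lit 8599659782) (nat_lit 265) (nat_lit 5) (nat_lit 272) (nat_lit 5) (nat_lit 273) (nat_lit 5) (nat_lit 664) (nat_lit 604) (nat_lit 292)) (XT.lf (nat_lit 0) (nat_lit 33090961438) (nat_lit 532) (nat_lit 7222154967) (nat_lit 608) (nat_lit 1279214771) (nat_lit 265) (nat_lit 5) (nat_lit 272) (nat_lit 5) (nat_lit 273) (nat_lit 5) (nat_lit 665) (nat_lit 604) (nat_lit 291))))) (XT.nd (nat_lit 156) (nat_lit 1064) (nat_lit 0) (XT.nd (nat_lit 78) (nat_lit 0) (nat_lit 0) (XT.lf (nat_lit 0) (nat_lit 6274580049) (nat_lit 684) (nat_lit 25987074622) (nat_lit 76) (nat_lit 9820184852) (nat_lit 256) (nat_lit 5) (nat_lit 265) (nat_lit 5) (nat_lit 257) (nat_lit 5) (nat_lit 666) (nat_lit 604) (nat_lit 290)) (XT.lf (nat_lit 0) (nat_lit 14066167132) (nat_lit 684) (nat_lit 1340520783) (nat_lit 76) (nat_lit 27172204140) (nat_lit 256) (nat_lit 5) (nat_lit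 265) (nat_lit 5) (nat_lit 257) (nat_lit 5) (nat_lit 667) (nat_lit 604) (nat_lit 289))) (XT.nd (nat_lit 78) (nat_lit 532) (nat_lit 0) (XT.lf (nat_lit 0) (nat_lit 22181373115) (nat_lit 608) (nat_lit 18982061673) (nat_lit 76) (nat_lit 1919095134) (nat_lit 249) (nat_lit 5) (nat_lit 257) (nat_lit 5) (nat_lit 250) (nat_lit 5) (nat_lit 668) (nat_lit 604) (nat_lit 288)) (XT.nd (nat_lit 78) (nat_lit 0) (nat_lit 0) (XT.lf (nat_lit 0) (nat_lit 6453048877) (nat_lit 532) (nat_lit 24157432020) (nat_lit 608) (nat_lit 12982727726) (nat_lit 242) (nat_lit 5) (nat_lit 249) (nat_lit 5) (nat_lit 250) (nat_lit 5) (nat_lit 669) (nat_lit 604) (nat_lit 287)) (XT.lf (nat_lit 0) (nat_lit 32652299915) (nat_lit 532) (nat_lit 6681879575) (nat_lit 608) (nat_lit 4777401264) (nat_lit 242) (nat_lit 5) (nat_lit 249) (nat_lit 5) (nat_lit 250) (nat_lit 5) (nat_lit 670) (nat_lit 604) (nat_lit 286))))))) (XT.nd (nat_lit 76440) (nat_lit 0) (nat_lit 19836) (XT.nd (nat_lit 76050) (nat_lit 0) (nat_lit 19684) (XT.nd (nat_lit 156) (nat_lit 988) (nat_lit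 0) (XT.nd (nat_lit 78) (nat_lit 0) (nat_lit 0) (XT.lf (nat_lit 0) (nat_lit 3713486242) (nat_lit 532) (nat_lit 29805553914) (nat_lit 76) (nat_lit 11117442467) (nat_lit 235) (nat_lit 5) (nat_lit 242) (nat_lit 5) (nat_lit 236) (nat_lit 5) (nat_lit 671) (nat_lit 604) (nat_lit 285)) (XT.lf (nat_lit 0) (nat_lit 12430598152) (nat_lit 532) (nat_lit 3446328409) (nat_lit 76) (nat_lit 29291916903) (nat_lit 235) (nat_lit 5) (nat_lit 242) (nat_lit 5) (nat_lit 236) (nat_lit 5) (nat_lit 672) (nat_lit 604) (nat_lit 284))) (XT.nd (nat_lit 78) (nat_lit 456) (nat_lit 0) (XT.lf (nat_lit 0) (nat_lit 21489705535) (nat_lit 608) (nat_lit 21973824522) (nat_lit 76) (nat_lit 2244968427) (nat_lit 228) (nat_lit 5) (nat_lit 236) (nat_lit 5) (nat_lit 229) (nat_lit 5) (nat_lit 673) (nat_lit 604) (nat_lit 283)) (XT.nd (nat_lit 78) (nat_lit 0) (nat_lit 0) (XT.lf (nat_lit 0) (nat_lit 5208707421) (nat_lit 456) (nat_lit 25682226416) (nat_lit 532) (nat_lit 15364794016) (nat_lit 222) (nat_lit 5) (nat_lit 228) (nat_lit 5) (nat_lit 229) (nat_lit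 5) (nat_lit 674) (nat_lit 604) (nat_lit 282)) (XT.lf (nat_lit 0) (nat_lit 33230927507) (nat_lit 456) (nat_lit 7395424217) (nat_lit 532) (nat_lit 6184626812) (nat_lit 222) (nat_lit 5) (nat_lit 228) (nat_lit 5) (nat_lit 229) (nat_lit 5) (nat_lit 675) (nat_lit 604) (nat_lit 281))))) (XT.nd (nat_lit 156) (nat_lit 0) (nat_lit 76) (XT.nd (nat_lit 78) (nat_lit 0) (nat_lit 0) (XT.lf (nat_lit 0) (nat_lit 599704097) (nat_lit 1900) (nat_lit 5186650759) (nat_lit 1900) (nat_lit 5186650759) (nat_lit 481) (nat_lit 3) (nat_lit 506) (nat_lit 3) (nat_lit 506) (nat_lit 5) (nat_lit 605) (nat_lit 605) (nat_lit 350)) (XT.lf (nat_lit 76) (nat_lit 563038053) (nat_lit 0) (nat_lit 789969291) (nat_lit 1900) (nat_lit 20809627723) (nat_lit 482) (nat_lit 5) (nat_lit 481) (nat_lit 3) (nat_lit 506) (nat_lit 5) (nat_lit 606) (nat_lit 605) (nat_lit 349))) (XT.nd (nat_lit 78) (nat_lit 0) (nat_lit 0) (XT.lf (nat_lit 0) (nat_lit 1642410485) (nat_lit 1824) (nat_lit 10592176943) (nat_lit 1900) (nat_lit 10146349422) (nat_lit 482) (nat_lit 5) (nat_lit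 506) (nat_lit 5) (nat_lit 507) (nat_lit 5) (nat_lit 607) (nat_lit 605) (nat_lit 348)) (XT.nd (nat_lit 78) (nat_lit 0) (nat_lit 76) (XT.lf (nat_lit 76) (nat_lit 636593147) (nat_lit 0) (nat_lit 1306825101) (nat_lit 1900) (nat_lit 20660070197) (nat_lit 483) (nat_lit 5) (nat_lit 482) (nat_lit 5) (nat_lit 507) (nat_lit 5) (nat_lit 608) (nat_lit 605) (nat_lit 347)) (XT.lf (nat_lit 0) (nat_lit 2382399797) (nat_lit 1824) (nat_lit 10661889801) (nat_lit 1900) (nat_lit 9783562505) (nat_lit 483) (nat_lit 5) (nat_lit 507) (nat_lit 5) (nat_lit 508) (nat_lit 5) (nat_lit 609) (nat_lit 605) (nat_lit 346)))))) (XT.nd (nat_lit 390) (nat_lit 0) (nat_lit 228) (XT.nd (nat_lit 156) (nat_lit 0) (nat_lit 76) (XT.nd (nat_lit 78) (nat_lit 0) (nat_lit 76) (XT.lf (nat_lit 76) (nat_lit 870027328) (nat_lit 0) (nat_lit 1971024477) (nat_lit 1900) (nat_lit 20215433516) (nat_lit 484) (nat_lit 5) (nat_lit 483) (nat_lit 5) (nat_lit 508) (nat_lit 5) (nat_lit 610) (nat_lit 605) (nat_lit 345)) (XT.lf (nat_lit 0) (nat_lit 3438084443) (nat_lit 1824)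 (nat_lit 10574170549) (nat_lit 1900) (nat_lit 9274852162) (nat_lit 484) (nat_lit 5) (nat_lit 508) (nat_lit 5) (nat_lit 509) (nat_lit 5) (nat_lit 611) (nat_lit 605) (nat_lit 344))) (XT.nd (nat_lit 78) (nat_lit 0) (nat_lit 76) (XT.lf (nat_lit 76) (nat_lit 1272023395) (nat_lit 0) (nat_lit 2793063154) (nat_lit 1900) (nat_lit 19456894397) (nat_lit 485) (nat_lit 5) (nat_lit 484) (nat_lit 5) (nat_lit 509) (nat_lit 5) (nat_lit 612) (nat_lit 605) (nat_lit 343)) (XT.nd (nat_lit 78) (nat_lit 0) (nat_lit 0) (XT.lf (nat_lit 0) (nat_lit 4828998547) (nat_lit 1824) (nat_lit 10320319929) (nat_lit 1900) (nat_lit 8609746437) (nat_lit 485) (nat_lit 5) (nat_lit 509) (nat_lit 5) (nat_lit 510) (nat_lit 5) (nat_lit 613) (nat_lit 605) (nat_lit 342)) (XT.lf (nat_lit 76) (nat_lit 1851709650) (nat_lit 0) (nat_lit 3783838781) (nat_lit 1900) (nat_lit 18364795032) (nat_lit 486) (nat_lit 5) (nat_lit 485) (nat_lit 5) (nat_lit 510) (nat_lit 5) (nat_lit 614) (nat_lit 605) (nat_lit 341))))) (XT.nd (nat_lit 234) (nat_lit 0) (nat_lit 76) (XT.nd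 (nat_lit 78) (nat_lit 0) (nat_lit 0) (XT.lf (nat_lit 0) (nat_lit 6575540129) (nat_lit 1824) (nat_lit 9891193327) (nat_lit 1900) (nat_lit 7777368005) (nat_lit 486) (nat_lit 5) (nat_lit 510) (nat_lit 5) (nat_lit 511) (nat_lit 5) (nat_lit 615) (nat_lit 605) (nat_lit 340)) (XT.nd (nat_lit 78) (nat_lit 0) (nat_lit 76) (XT.lf (nat_lit 76) (nat_lit 2618676172) (nat_lit 0) (nat_lit 4954673568) (nat_lit 1900) (nat_lit 16918604607) (nat_lit 487) (nat_lit 5) (nat_lit 486) (nat_lit 5) (nat_lit 511) (nat_lit 5) (nat_lit 616) (nat_lit 605) (nat_lit 339)) (XT.lf (nat_lit 0) (nat_lit 8699010610) (nat_lit 1824) (nat_lit 9277184350) (nat_lit 1900) (nat_lit 6766411522) (nat_lit 487) (nat_lit 5) (nat_lit 511) (nat_lit 5) (nat_lit 512) (nat_lit 5) (nat_lit 617) (nat_lit 605) (nat_lit 338)))) (XT.nd (nat_lit 78) (nat_lit 0) (nat_lit 76) (XT.lf (nat_lit 76) (nat_lit 3582991900) (nat_lit 0) (nat_lit 6317337579) (nat_lit 1900) (nat_lit 15096879372) (nat_lit 488) (nat_lit 5) (nat_lit 487) (nat_lit 5) (nat_lit 512) (nat_lit 5) (nat_lit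 618) (nat_lit 605) (nat_lit 337)) (XT.nd (nat_lit 78) (nat_lit 0) (nat_lit 0) (XT.lf (nat_lit 0) (nat_lit 11221655813) (nat_lit 1824) (nat_lit 8468207613) (nat_lit 1900) (nat_lit 5565120307) (nat_lit 488) (nat_lit 5) (nat_lit 512) (nat_lit 5) (nat_lit 513) (nat_lit 5) (nat_lit 619) (nat_lit 605) (nat_lit 336)) (XT.lf (nat_lit 76) (nat_lit 4755222525) (nat_lit 0) (nat_lit 7884072745) (nat_lit 1900) (nat_lit 12877221194) (nat_lit 489) (nat_lit 5) (nat_lit 488) (nat_lit 5) (nat_lit 513) (nat_lit 5) (nat_lit 620) (nat_lit 605) (nat_lit 335))))))))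
noncomputable def xc207 : XT := (XT.nd (nat_lit 1560) (nat_lit 8892) (nat_lit 0) (XT.nd (nat_lit 780) (nat_lit 4712) (nat_lit 0) (XT.nd (nat_lit 390) (nat_lit 1672) (nat_lit 0) (XT.nd (nat_lit 156) (nat_lit 0) (nat_lit 76) (XT.nd (nat_lit 78) (nat_lit 0) (nat_lit 0) (XT.lf (nat_lit 0) (nat_lit 14166708530) (nat_lit 1824) (nat_lit 7453680692) (nat_lit 1900) (nat_lit 4161262290) (nat_lit 489) (nat_lit 5) (nat_lit 513) (nat_lit 5) (nat_lit 514) (nat_lit 5) (nat_lit 621) (nat_lit 605) (nat_lit 334)) (XT.lf (nat_lit 76) (nat_lit 6146449235) (nat_lit 0) (nat_lit 9667617632) (nat_lit 1900) (nat_lit 10236234540) (nat_lit 490) (nat_lit 5) (nat_lit 489) (nat_lit 5) (nat_lit 514) (nat_lit 5) (nat_lit 622) (nat_lit 605) (nat_lit 333))) (XT.nd (nat_lit 78) (nat_lit 0) (nat_lit 0) (XT.lf (nat_lit 0) (nat_lit 17558432710) (nat_lit 1824) (nat_lit 6222505252) (nat_lit 1900) (nat_lit 2542105211) (nat_lit 490) (nat_lit 5) (nat_lit 514) (nat_lit 5) (nat_lit 515) (nat_lit 5) (nat_lit 623) (nat_lit 605) (nat_lit 332)) (XT.nd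 (nat_lit 78) (nat_lit 0) (nat_lit 76) (XT.lf (nat_lit 76) (nat_lit 7768288331) (nat_lit 0) (nat_lit 11681233013) (nat_lit 1900) (nat_lit 7149481798) (nat_lit 491) (nat_lit 5) (nat_lit 490) (nat_lit 5) (nat_lit 515) (nat_lit 5) (nat_lit 624) (nat_lit 605) (nat_lit 331)) (XT.lf (nat_lit 0) (nat_lit 21422169363) (nat_lit 1824) (nat_lit 4763047285) (nat_lit 1900) (nat_lit 694390988) (nat_lit 491) (nat_lit 5) (nat_lit 515) (nat_lit 5) (nat_lit 516) (nat_lit 5) (nat_lit 625) (nat_lit 605) (nat_lit 330))))) (XT.nd (nat_lit 156) (nat_lit 1824) (nat_lit 0) (XT.nd (nat_lit 78) (nat_lit 0) (nat_lit 0) (XT.lf (nat_lit 76) (nat_lit 9632911738) (nat_lit 0) (nat_lit 13938728281) (nat_lit 1900) (nat_lit 3591436883) (nat_lit 492) (nat_lit 5) (nat_lit 491) (nat_lit 5) (nat_lit 516) (nat_lit 5) (nat_lit 626) (nat_lit 605) (nat_lit 329)) (XT.lf (nat_lit 76) (nat_lit 24379327658) (nat_lit 0) (nat_lit 1414238753) (nat_lit 1900) (nat_lit 1658059888) (nat_lit 492) (nat_lit 5) (nat_lit 491) (nat_lit 5) (nat_lit 516) (nat_lit 5)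 (nat_lit 627) (nat_lit 605) (nat_lit 328))) (XT.nd (nat_lit 78) (nat_lit 0) (nat_lit 0) (XT.lf (nat_lit 0) (nat_lit 458470146) (nat_lit 1900) (nat_lit 15992942050) (nat_lit 1976) (nat_lit 11291521719) (nat_lit 467) (nat_lit 5) (nat_lit 492) (nat_lit 5) (nat_lit 493) (nat_lit 5) (nat_lit 628) (nat_lit 605) (nat_lit 327)) (XT.nd (nat_lit 78) (nat_lit 0) (nat_lit 76) (XT.lf (nat_lit 0) (nat_lit 2622843661) (nat_lit 1900) (nat_lit 1151822033) (nat_lit 1976) (nat_lit 24264628575) (nat_lit 467) (nat_lit 5) (nat_lit 492) (nat_lit 5) (nat_lit 493) (nat_lit 5) (nat_lit 629) (nat_lit 605) (nat_lit 326)) (XT.lf (nat_lit 0) (nat_lit 4980183284) (nat_lit 1900) (nat_lit 14229901097) (nat_lit 76) (nat_lit 9128503946) (nat_lit 468) (nat_lit 5) (nat_lit 493) (nat_lit 5) (nat_lit 469) (nat_lit 5) (nat_lit 630) (nat_lit 605) (nat_lit 325)))))) (XT.nd (nat_lit 390) (nat_lit 1824) (nat_lit 0) (XT.nd (nat_lit 156) (nat_lit 1824) (nat_lit 0) (XT.nd (nat_lit 78) (nat_lit 0) (nat_lit 0) (XT.lf (nat_lit 0) (nat_lit 1032748618) (nat_lit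 1140) (nat_lit 6389062512) (nat_lit 1216) (nat_lit 21221314375) (nat_lit 453) (nat_lit 5) (nat_lit 468) (nat_lit 5) (nat_lit 469) (nat_lit 5) (nat_lit 631) (nat_lit 605) (nat_lit 324)) (XT.lf (nat_lit 0) (nat_lit 10049511709) (nat_lit 1216) (nat_lit 12204447864) (nat_lit 76) (nat_lit 6697049113) (nat_lit 453) (nat_lit 5) (nat_lit 469) (nat_lit 5) (nat_lit 454) (nat_lit 5) (nat_lit 632) (nat_lit 605) (nat_lit 323))) (XT.nd (nat_lit 78) (nat_lit 912) (nat_lit 0) (XT.lf (nat_lit 0) (nat_lit 3511292395) (nat_lit 912) (nat_lit 9281320734) (nat_lit 988) (nat_lit 16471179532) (nat_lit 441) (nat_lit 5) (nat_lit 453) (nat_lit 5) (nat_lit 454) (nat_lit 5) (nat_lit 633) (nat_lit 605) (nat_lit 322)) (XT.nd (nat_lit 78) (nat_lit 912) (nat_lit 0) (XT.lf (nat_lit 0) (nat_lit 15696438206) (nat_lit 988) (nat_lit 9902685194) (nat_lit 76) (nat_lit 3981591744) (nat_lit 441) (nat_lit 5) (nat_lit 454) (nat_lit 5) (nat_lit 442) (nat_lit 5) (nat_lit 634) (nat_lit 605) (nat_lit 321)) (XT.lf (nat_lit 0) (nat_lit 6283024841) (nat_lit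 912) (nat_lit 12475387896) (nat_lit 988) (nat_lit 11143561943) (nat_lit 429) (nat_lit 5) (nat_lit 441) (nat_lit 5) (nat_lit 442) (nat_lit 5) (nat_lit 635) (nat_lit 605) (nat_lit 320))))) (XT.nd (nat_lit 156) (nat_lit 988) (nat_lit 0) (XT.nd (nat_lit 78) (nat_lit 836) (nat_lit 0) (XT.lf (nat_lit 0) (nat_lit 21952276995) (nat_lit 988) (nat_lit 7310070794) (nat_lit 76) (nat_lit 965898674) (nat_lit 429) (nat_lit 5) (nat_lit 442) (nat_lit 5) (nat_lit 430) (nat_lit 5) (nat_lit 636) (nat_lit 605) (nat_lit 319)) (XT.lf (nat_lit 0) (nat_lit 9363137909) (nat_lit 836) (nat_lit 15988177322) (nat_lit 912) (nat_lit 5206902574) (nat_lit 418) (nat_lit 5) (nat_lit 429) (nat_lit 5) (nat_lit 430) (nat_lit 5) (nat_lit 637) (nat_lit 605) (nat_lit 318))) (XT.nd (nat_lit 78) (nat_lit 988) (nat_lit 0) (XT.lf (nat_lit 0) (nat_lit 26466885371) (nat_lit 836) (nat_lit 2398418170) (nat_lit 912) (nat_lit 2028545706) (nat_lit 418) (nat_lit 5) (nat_lit 429) (nat_lit 5) (nat_lit 430) (nat_lit 5) (nat_lit 638) (nat_lit 605) (nat_lit 317))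 (XT.nd (nat_lit 78) (nat_lit 0) (nat_lit 0) (XT.lf (nat_lit 0) (nat_lit 1353770599) (nat_lit 988) (nat_lit 18474474936) (nat_lit 76) (nat_lit 11404664159) (nat_lit 405) (nat_lit 5) (nat_lit 418) (nat_lit 5) (nat_lit 406) (nat_lit 5) (nat_lit 639) (nat_lit 605) (nat_lit 316)) (XT.lf (nat_lit 0) (nat_lit 4820353820) (nat_lit 988) (nat_lit 1262152536) (nat_lit 76) (nat_lit 25495101218) (nat_lit 405) (nat_lit 5) (nat_lit 418) (nat_lit 5) (nat_lit 406) (nat_lit 5) (nat_lit 640) (nat_lit 605) (nat_lit 315))))))) (XT.nd (nat_lit 780) (nat_lit 4104) (nat_lit 0) (XT.nd (nat_lit 390) (nat_lit 2356) (nat_lit 0) (XT.nd (nat_lit 156) (nat_lit 760) (nat_lit 0) (XT.nd (nat_lit 78) (nat_lit 836) (nat_lit 0) (XT.lf (nat_lit 0) (nat_lit 8513714948) (nat_lit 912) (nat_lit 15470402186) (nat_lit 76) (nat_lit 7941933405) (nat_lit 394) (nat_lit 5) (nat_lit 406) (nat_lit 5) (nat_lit 395) (nat_lit 5) (nat_lit 641) (nat_lit 605) (nat_lit 314)) (XT.lf (nat_lit 0) (nat_lit 2250785665) (nat_lit 836) (nat_lit 10091614292) (nat_lit 912)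 (nat_lit 19937833328) (nat_lit 383) (nat_lit 5) (nat_lit 394) (nat_lit 5) (nat_lit 395) (nat_lit 5) (nat_lit 642) (nat_lit 605) (nat_lit 313))) (XT.nd (nat_lit 78) (nat_lit 760) (nat_lit 0) (XT.lf (nat_lit 0) (nat_lit 16376703442) (nat_lit 912) (nat_lit 12132532572) (nat_lit 76) (nat_lit 4129682827) (nat_lit 383) (nat_lit 5) (nat_lit 395) (nat_lit 5) (nat_lit 384) (nat_lit 5) (nat_lit 643) (nat_lit 605) (nat_lit 312)) (XT.nd (nat_lit 78) (nat_lit 0) (nat_lit 0) (XT.lf (nat_lit 0) (nat_lit 6133934157) (nat_lit 760) (nat_lit 14462515159) (nat_lit 836) (nat_lit 12406233716) (nat_lit 373) (nat_lit 5) (nat_lit 383) (nat_lit 5) (nat_lit 384) (nat_lit 5) (nat_lit 644) (nat_lit 605) (nat_lit 311)) (XT.lf (nat_lit 0) (nat_lit 24928200680) (nat_lit 760) (nat_lit 51928337) (nat_lit 836) (nat_lit 8392002762) (nat_lit 373) (nat_lit 5) (nat_lit 383) (nat_lit 5) (nat_lit 384) (nat_lit 5) (nat_lit 645) (nat_lit 605) (nat_lit 310))))) (XT.nd (nat_lit 156) (nat_lit 1520) (nat_lit 0) (XT.nd (nat_lit 78) (nat_lit 76) (nat_lit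 0) (XT.lf (nat_lit 0) (nat_lit 10388547158) (nat_lit 760) (nat_lit 19223641002) (nat_lit 836) (nat_lit 4133567271) (nat_lit 363) (nat_lit 5) (nat_lit 373) (nat_lit 5) (nat_lit 374) (nat_lit 5) (nat_lit 646) (nat_lit 605) (nat_lit 309)) (XT.lf (nat_lit 0) (nat_lit 262835139) (nat_lit 836) (nat_lit 4417664085) (nat_lit 76) (nat_lit 29445214049) (nat_lit 362) (nat_lit 5) (nat_lit 373) (nat_lit 5) (nat_lit 363) (nat_lit 5) (nat_lit 647) (nat_lit 605) (nat_lit 308))) (XT.nd (nat_lit 78) (nat_lit 760) (nat_lit 0) (XT.lf (nat_lit 0) (nat_lit 4854664444) (nat_lit 836) (nat_lit 19508583226) (nat_lit 76) (nat_lit 10146219243) (nat_lit 352) (nat_lit 5) (nat_lit 363) (nat_lit 5) (nat_lit 353) (nat_lit 5) (nat_lit 648) (nat_lit 605) (nat_lit 307)) (XT.nd (nat_lit 78) (nat_lit 760) (nat_lit 0) (XT.lf (nat_lit 0) (nat_lit 9597395982) (nat_lit 836) (nat_lit 65790633) (nat_lit 76) (nat_lit 25236527743) (nat_lit 352) (nat_lit 5) (nat_lit 363) (nat_lit 5) (nat_lit 353) (nat_lit 5) (nat_lit 649) (nat_lit 605) (nat_lit 306))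 (XT.lf (nat_lit 0) (nat_lit 14598741810) (nat_lit 836) (nat_lit 15304103615) (nat_lit 76) (nat_lit 5391646177) (nat_lit 342) (nat_lit 5) (nat_lit 353) (nat_lit 5) (nat_lit 343) (nat_lit 5) (nat_lit 650) (nat_lit 605) (nat_lit 305)))))) (XT.nd (nat_lit 390) (nat_lit 1976) (nat_lit 0) (XT.nd (nat_lit 156) (nat_lit 1444) (nat_lit 0) (XT.nd (nat_lit 78) (nat_lit 0) (nat_lit 0) (XT.lf (nat_lit 0) (nat_lit 4747734986) (nat_lit 684) (nat_lit 15045926746) (nat_lit 760) (nat_lit 15901631760) (nat_lit 333) (nat_lit 5) (nat_lit 342) (nat_lit 5) (nat_lit 343) (nat_lit 5) (nat_lit 651) (nat_lit 605) (nat_lit 304)) (XT.lf (nat_lit 0) (nat_lit 25194862910) (nat_lit 760) (nat_lit 10697358843) (nat_lit 76) (nat_lit 209842051) (nat_lit 333) (nat_lit 5) (nat_lit 343) (nat_lit 5) (nat_lit 334) (nat_lit 5) (nat_lit 652) (nat_lit 605) (nat_lit 303))) (XT.nd (nat_lit 78) (nat_lit 760) (nat_lit 0) (XT.lf (nat_lit 0) (nat_lit 9987245543) (nat_lit 684) (nat_lit 20879663671) (nat_lit 760) (nat_lit 5646803927) (nat_lit 324) (nat_lit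 5) (nat_lit 333) (nat_lit 5) (nat_lit 334) (nat_lit 5) (nat_lit 653) (nat_lit 605) (nat_lit 302)) (XT.nd (nat_lit 78) (nat_lit 760) (nat_lit 0) (XT.lf (nat_lit 0) (nat_lit 31228618415) (nat_lit 684) (nat_lit 5493918436) (nat_lit 760) (nat_lit 209655847) (nat_lit 324) (nat_lit 5) (nat_lit 333) (nat_lit 5) (nat_lit 334) (nat_lit 5) (nat_lit 654) (nat_lit 605) (nat_lit 301)) (XT.lf (nat_lit 0) (nat_lit 5433720114) (nat_lit 760) (nat_lit 21718273026) (nat_lit 76) (nat_lit 10203006407) (nat_lit 314) (nat_lit 5) (nat_lit 324) (nat_lit 5) (nat_lit 315) (nat_lit 5) (nat_lit 655) (nat_lit 605) (nat_lit 300))))) (XT.nd (nat_lit 234) (nat_lit 684) (nat_lit 0) (XT.nd (nat_lit 78) (nat_lit 1292) (nat_lit 0) (XT.lf (nat_lit 0) (nat_lit 11260464532) (nat_lit 760) (nat_lit 344306238) (nat_lit 76) (nat_lit 26179997918) (nat_lit 314) (nat_lit 5) (nat_lit 324) (nat_lit 5) (nat_lit 315) (nat_lit 5) (nat_lit 656) (nat_lit 605) (nat_lit 299)) (XT.nd (nat_lit 78) (nat_lit 608) (nat_lit 0) (XT.lf (nat_lit 0) (nat_lit 17371871430)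 (nat_lit 760) (nat_lit 16508514071) (nat_lit 76) (nat_lit 4339385197) (nat_lit 305) (nat_lit 5) (nat_lit 315) (nat_lit 5) (nat_lit 306) (nat_lit 5) (nat_lit 657) (nat_lit 605) (nat_lit 298)) (XT.lf (nat_lit 0) (nat_lit 5543092719) (nat_lit 608) (nat_lit 18176024352) (nat_lit 684) (nat_lit 14942083503) (nat_lit 297) (nat_lit 5) (nat_lit 305) (nat_lit 5) (nat_lit 306) (nat_lit 5) (nat_lit 658) (nat_lit 605) (nat_lit 297)))) (XT.nd (nat_lit 78) (nat_lit 684) (nat_lit 0) (XT.lf (nat_lit 0) (nat_lit 28257612236) (nat_lit 608) (nat_lit 2044937037) (nat_lit 684) (nat_lit 8806724977) (nat_lit 297) (nat_lit 5) (nat_lit 305) (nat_lit 5) (nat_lit 306) (nat_lit 5) (nat_lit 659) (nat_lit 605) (nat_lit 296)) (XT.nd (nat_lit 78) (nat_lit 76) (nat_lit 0) (XT.lf (nat_lit 0) (nat_lit 11921020351) (nat_lit 608) (nat_lit 25266068979) (nat_lit 684) (nat_lit 2375831322) (nat_lit 289) (nat_lit 5) (nat_lit 297) (nat_lit 5) (nat_lit 298) (nat_lit 5) (nat_lit 660) (nat_lit 605) (nat_lit 295)) (XT.lf (nat_lit 0) (nat_lit 4214152000)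 (nat_lit 684) (nat_lit 4771013199) (nat_lit 76) (nat_lit 31038224720) (nat_lit 288) (nat_lit 5) (nat_lit 297) (nat_lit 5) (nat_lit 289) (nat_lit 5) (nat_lit 661) (nat_lit 605) (nat_lit 294))))))))
noncomputable def xc208 : XT := (XT.nd (nat_lit 77298) (nat_lit 0) (nat_lit 18620) (XT.nd (nat_lit 780) (nat_lit 1520) (nat_lit 0) (XT.nd (nat_lit 390) (nat_lit 1748) (nat_lit 0) (XT.nd (nat_lit 156) (nat_lit 532) (nat_lit 0) (XT.nd (nat_lit 78) (nat_lit 608) (nat_lit 0) (XT.lf (nat_lit 0) (nat_lit 11075042176) (nat_lit 684) (nat_lit 21754653689) (nat_lit 76) (nat_lit 7659640265) (nat_lit 280) (nat_lit 5) (nat_lit 289) (nat_lit 5) (nat_lit 281) (nat_lit 5) (nat_lit 662) (nat_lit 605) (nat_lit 293)) (XT.lf (nat_lit 0) (nat_lit 1772866122) (nat_lit 608) (nat_lit 16402067249) (nat_lit 684) (nat_lit 22787632261) (nat_lit 272) (nat_lit 5) (nat_lit 280) (nat_lit 5) (nat_lit 281) (nat_lit 5) (nat_lit 663) (nat_lit 605) (nat_lit 292))) (XT.nd (nat_lit 78) (nat_lit 532) (nat_lit 0) (XT.lf (nat_lit 0) (nat_lit 25564627497)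 (nat_lit 684) (nat_lit 15381665734) (nat_lit 76) (nat_lit 496010425) (nat_lit 272) (nat_lit 5) (nat_lit 281) (nat_lit 5) (nat_lit 273) (nat_lit 5) (nat_lit 664) (nat_lit 605) (nat_lit 291)) (XT.nd (nat_lit 78) (nat_lit 0) (nat_lit 0) (XT.lf (nat_lit 0) (nat_lit 8908898376) (nat_lit 532) (nat_lit 24358264916) (nat_lit 608) (nat_lit 8661172223) (nat_lit 265) (nat_lit 5) (nat_lit 272) (nat_lit 5) (nat_lit 273) (nat_lit 5) (nat_lit 665) (nat_lit 605) (nat_lit 290)) (XT.lf (nat_lit 0) (nat_lit 33891939279) (nat_lit 532) (nat_lit 7333627816) (nat_lit 608) (nat_lit 1196484601) (nat_lit 265) (nat_lit 5) (nat_lit 272) (nat_lit 5) (nat_lit 273) (nat_lit 5) (nat_lit 666) (nat_lit 605) (nat_lit 289))))) (XT.nd (nat_lit 156) (nat_lit 1064) (nat_lit 0) (XT.nd (nat_lit 78) (nat_lit 0) (nat_lit 0) (XT.lf (nat_lit 0) (nat_lit 6505996774) (nat_lit 684) (nat_lit 26365263626) (nat_lit 76) (nat_lit 10050095166) (nat_lit 256) (nat_lit 5) (nat_lit 265) (nat_lit 5) (nat_lit 257) (nat_lit 5) (nat_lit 667) (nat_lit 605) (nat_lit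 288)) (XT.lf (nat_lit 0) (nat_lit 14451338635) (nat_lit 684) (nat_lit 1228554249) (nat_lit 76) (nat_lit 27748497847) (nat_lit 256) (nat_lit 5) (nat_lit 265) (nat_lit 5) (nat_lit 257) (nat_lit 5) (nat_lit 668) (nat_lit 605) (nat_lit 287))) (XT.nd (nat_lit 78) (nat_lit 532) (nat_lit 0) (XT.lf (nat_lit 0) (nat_lit 22727935866) (nat_lit 608) (nat_lit 19222010927) (nat_lit 76) (nat_lit 1992172864) (nat_lit 249) (nat_lit 5) (nat_lit 257) (nat_lit 5) (nat_lit 250) (nat_lit 5) (nat_lit 669) (nat_lit 605) (nat_lit 286)) (XT.nd (nat_lit 78) (nat_lit 0) (nat_lit 0) (XT.lf (nat_lit 0) (nat_lit 6720882808) (nat_lit 532) (nat_lit 24603625663) (nat_lit 608) (nat_lit 13138525850) (nat_lit 242) (nat_lit 5) (nat_lit 249) (nat_lit 5) (nat_lit 250) (nat_lit 5) (nat_lit 670) (nat_lit 605) (nat_lit 285)) (XT.lf (nat_lit 0) (nat_lit 33441397828) (nat_lit 532) (nat_lit 6779286776) (nat_lit 608) (nat_lit 4771129259) (nat_lit 242) (nat_lit 5) (nat_lit 249) (nat_lit 5) (nat_lit 250) (nat_lit 5) (nat_lit 671) (nat_lit 605) (nat_lit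 284)))))) (XT.nd (nat_lit 76128) (nat_lit 0) (nat_lit 19684) (XT.nd (nat_lit 156) (nat_lit 988) (nat_lit 0) (XT.nd (nat_lit 78) (nat_lit 0) (nat_lit 0) (XT.lf (nat_lit 0) (nat_lit 3887397256) (nat_lit 532) (nat_lit 30263430310) (nat_lit 76) (nat_lit 11376389891) (nat_lit 235) (nat_lit 5) (nat_lit 242) (nat_lit 5) (nat_lit 236) (nat_lit 5) (nat_lit 672) (nat_lit 605) (nat_lit 283)) (XT.lf (nat_lit 0) (nat_lit 12776897654) (nat_lit 532) (nat_lit 3379730778) (nat_lit 76) (nat_lit 29913636196) (nat_lit 235) (nat_lit 5) (nat_lit 242) (nat_lit 5) (nat_lit 236) (nat_lit 5) (nat_lit 673) (nat_lit 605) (nat_lit 282))) (XT.nd (nat_lit 78) (nat_lit 456) (nat_lit 0) (XT.lf (nat_lit 0) (nat_lit 22016392498) (nat_lit 608) (nat_lit 22276980212) (nat_lit 76) (nat_lit 2327355969) (nat_lit 228) (nat_lit 5) (nat_lit 236) (nat_lit 5) (nat_lit 229) (nat_lit 5) (nat_lit 674) (nat_lit 605) (nat_lit 281)) (XT.nd (nat_lit 75816) (nat_lit 0) (nat_lit 19684) (XT.lf (nat_lit 0) (nat_lit 5448305522) (nat_lit 456) (nat_lit 26156319247)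 (nat_lit 532) (nat_lit 15574298317) (nat_lit 222) (nat_lit 5) (nat_lit 228) (nat_lit 5) (nat_lit 229) (nat_lit 5) (nat_lit 675) (nat_lit 605) (nat_lit 280)) (XT.lf (nat_lit 0) (nat_lit 748751972) (nat_lit 1900) (nat_lit 5220484266) (nat_lit 1900) (nat_lit 5220484266) (nat_lit 481) (nat_lit 3) (nat_lit 506) (nat_lit 3) (nat_lit 506) (nat_lit 5) (nat_lit 606) (nat_lit 606) (nat_lit 348))))) (XT.nd (nat_lit 156) (nat_lit 0) (nat_lit 76) (XT.nd (nat_lit 78) (nat_lit 0) (nat_lit 76) (XT.lf (nat_lit 76) (nat_lit 713178100) (nat_lit 0) (nat_lit 936524015) (nat_lit 1900) (nat_lit 20950784829) (nat_lit 482) (nat_lit 5) (nat_lit 481) (nat_lit 3) (nat_lit 506) (nat_lit 5) (nat_lit 607) (nat_lit 606) (nat_lit 347)) (XT.lf (nat_lit 0) (nat_lit 1938774060) (nat_lit 1824) (nat_lit 10661737088) (nat_lit 1900) (nat_lit 10222766158) (nat_lit 482) (nat_lit 5) (nat_lit 506) (nat_lit 5) (nat_lit 507) (nat_lit 5) (nat_lit 608) (nat_lit 606) (nat_lit 346))) (XT.nd (nat_lit 78) (nat_lit 0) (nat_lit 76) (XT.lf (nat_lit 76) (nat_lit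 790672328) (nat_lit 0) (nat_lit 1450880403) (nat_lit 1900) (nat_lit 20808812343) (nat_lit 483) (nat_lit 5) (nat_lit 482) (nat_lit 5) (nat_lit 507) (nat_lit 5) (nat_lit 609) (nat_lit 606) (nat_lit 345)) (XT.nd (nat_lit 78) (nat_lit 0) (nat_lit 0) (XT.lf (nat_lit 0) (nat_lit 2683479667) (nat_lit 1824) (nat_lit 10730709887) (nat_lit 1900) (nat_lit 9865143291) (nat_lit 483) (nat_lit 5) (nat_lit 507) (nat_lit 5) (nat_lit 508) (nat_lit 5) (nat_lit 610) (nat_lit 606) (nat_lit 344)) (XT.lf (nat_lit 76) (nat_lit 1030895468) (nat_lit 0) (nat_lit 2116371481) (nat_lit 1900) (nat_lit 20365352683) (nat_lit 484) (nat_lit 5) (nat_lit 483) (nat_lit 5) (nat_lit 508) (nat_lit 5) (nat_lit 611) (nat_lit 606) (nat_lit 343))))))) (XT.nd (nat_lit 780) (nat_lit 1292) (nat_lit 0) (XT.nd (nat_lit 390) (nat_lit 0) (nat_lit 152) (XT.nd (nat_lit 156) (nat_lit 0) (nat_lit 76) (XT.nd (nat_lit 78) (nat_lit 0) (nat_lit 0) (XT.lf (nat_lit 0) (nat_lit 3750675899) (nat_lit 1824) (nat_lit 10639427750) (nat_lit 1900) (nat_lit 9357861687) (nat_lit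 484) (nat_lit 5) (nat_lit 508) (nat_lit 5) (nat_lit 509) (nat_lit 5) (nat_lit 612) (nat_lit 606) (nat_lit 342)) (XT.lf (nat_lit 76) (nat_lit 1442728059) (nat_lit 0) (nat_lit 2943652164) (nat_lit 1900) (nat_lit 19601233281) (nat_lit 485) (nat_lit 5) (nat_lit 484) (nat_lit 5) (nat_lit 509) (nat_lit 5) (nat_lit 613) (nat_lit 606) (nat_lit 341))) (XT.nd (nat_lit 78) (nat_lit 0) (nat_lit 0) (XT.lf (nat_lit 0) (nat_lit 5160261761) (nat_lit 1824) (nat_lit 10378994669) (nat_lit 1900) (nat_lit 8690289036) (nat_lit 485) (nat_lit 5) (nat_lit 509) (nat_lit 5) (nat_lit 510) (nat_lit 5) (nat_lit 614) (nat_lit 606) (nat_lit 340)) (XT.nd (nat_lit 78) (nat_lit 0) (nat_lit 76) (XT.lf (nat_lit 76) (nat_lit 2035503582) (nat_lit 0) (nat_lit 3943790290) (nat_lit 1900) (nat_lit 18496428829) (nat_lit 486) (nat_lit 5) (nat_lit 485) (nat_lit 5) (nat_lit 510) (nat_lit 5) (nat_lit 615) (nat_lit 606) (nat_lit 339)) (XT.lf (nat_lit 0) (nat_lit 6933018878) (nat_lit 1824) (nat_lit 9940061764) (nat_lit 1900) (nat_lit 7851376684) (nat_lit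 486) (nat_lit 5) (nat_lit 510) (nat_lit 5) (nat_lit 511) (nat_lit 5) (nat_lit 616) (nat_lit 606) (nat_lit 338))))) (XT.nd (nat_lit 156) (nat_lit 0) (nat_lit 76) (XT.nd (nat_lit 78) (nat_lit 0) (nat_lit 76) (XT.lf (nat_lit 76) (nat_lit 2819025155) (nat_lit 0) (nat_lit 5128289538) (nat_lit 1900) (nat_lit 17030022112) (nat_lit 487) (nat_lit 5) (nat_lit 486) (nat_lit 5) (nat_lit 511) (nat_lit 5) (nat_lit 617) (nat_lit 606) (nat_lit 337)) (XT.lf (nat_lit 0) (nat_lit 9090651711) (nat_lit 1824) (nat_lit 9312810450) (nat_lit 1900) (nat_lit 6829636692) (nat_lit 487) (nat_lit 5) (nat_lit 511) (nat_lit 5) (nat_lit 512) (nat_lit 5) (nat_lit 618) (nat_lit 606) (nat_lit 336))) (XT.nd (nat_lit 78) (nat_lit 0) (nat_lit 76) (XT.lf (nat_lit 76) (nat_lit 3803583026) (nat_lit 0) (nat_lit 6509113033) (nat_lit 1900) (nat_lit 15180163358) (nat_lit 488) (nat_lit 5) (nat_lit 487) (nat_lit 5) (nat_lit 512) (nat_lit 5) (nat_lit 619) (nat_lit 606) (nat_lit 335)) (XT.nd (nat_lit 78) (nat_lit 0) (nat_lit 0) (XT.lf (nat_lit 0) (nat_lit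 11655829305) (nat_lit 1824) (nat_lit 8486934798) (nat_lit 1900) (nat_lit 5613118210) (nat_lit 488) (nat_lit 5) (nat_lit 512) (nat_lit 5) (nat_lit 513) (nat_lit 5) (nat_lit 620) (nat_lit 606) (nat_lit 334)) (XT.lf (nat_lit 76) (nat_lit 4999972910) (nat_lit 0) (nat_lit 8098707685) (nat_lit 1900) (nat_lit 12924028046) (nat_lit 489) (nat_lit 5) (nat_lit 488) (nat_lit 5) (nat_lit 513) (nat_lit 5) (nat_lit 621) (nat_lit 606) (nat_lit 333)))))) (XT.nd (nat_lit 390) (nat_lit 1672) (nat_lit 0) (XT.nd (nat_lit 156) (nat_lit 0) (nat_lit 76) (XT.nd (nat_lit 78) (nat_lit 0) (nat_lit 0) (XT.lf (nat_lit 0) (nat_lit 14652228622) (nat_lit 1824) (nat_lit 7451623065) (nat_lit 1900) (nat_lit 4189383094) (nat_lit 489) (nat_lit 5) (nat_lit 513) (nat_lit 5) (nat_lit 514) (nat_lit 5) (nat_lit 622) (nat_lit 606) (nat_lit 332)) (XT.lf (nat_lit 76) (nat_lit 6419515176) (nat_lit 0) (nat_lit 9910029309) (nat_lit 1900) (nat_lit 10237773100) (nat_lit 490) (nat_lit 5) (nat_lit 489) (nat_lit 5) (nat_lit 514) (nat_lit 5) (nat_lit 623) (nat_lit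 606) (nat_lit 331))) (XT.nd (nat_lit 78) (nat_lit 0) (nat_lit 0) (XT.lf (nat_lit 0) (nat_lit 18104579556) (nat_lit 1824) (nat_lit 6195538365) (nat_lit 1900) (nat_lit 2545480744) (nat_lit 490) (nat_lit 5) (nat_lit 514) (nat_lit 5) (nat_lit 515) (nat_lit 5) (nat_lit 624) (nat_lit 606) (nat_lit 330)) (XT.nd (nat_lit 78) (nat_lit 0) (nat_lit 76) (XT.lf (nat_lit 76) (nat_lit 8074074926) (nat_lit 0) (nat_lit 11956568567) (nat_lit 1900) (nat_lit 7096491385) (nat_lit 491) (nat_lit 5) (nat_lit 490) (nat_lit 5) (nat_lit 515) (nat_lit 5) (nat_lit 625) (nat_lit 606) (nat_lit 329)) (XT.lf (nat_lit 0) (nat_lit 22038711678) (nat_lit 1824) (nat_lit 4706798455) (nat_lit 1900) (nat_lit 667922095) (nat_lit 491) (nat_lit 5) (nat_lit 515) (nat_lit 5) (nat_lit 516) (nat_lit 5) (nat_lit 626) (nat_lit 606) (nat_lit 328))))) (XT.nd (nat_lit 156) (nat_lit 1824) (nat_lit 0) (XT.nd (nat_lit 78) (nat_lit 0) (nat_lit 0) (XT.lf (nat_lit 76) (nat_lit 9976082973) (nat_lit 0) (nat_lit 14252377790) (nat_lit 1900) (nat_lit 3474164445) (nat_lit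 492) (nat_lit 5) (nat_lit 491) (nat_lit 5) (nat_lit 516) (nat_lit 5) (nat_lit 627) (nat_lit 606) (nat_lit 327)) (XT.lf (nat_lit 76) (nat_lit 25014475976) (nat_lit 0) (nat_lit 1476714648) (nat_lit 1900) (nat_lit 1505827777) (nat_lit 492) (nat_lit 5) (nat_lit 491) (nat_lit 5) (nat_lit 516) (nat_lit 5) (nat_lit 628) (nat_lit 606) (nat_lit 326))) (XT.nd (nat_lit 78) (nat_lit 0) (nat_lit 0) (XT.lf (nat_lit 0) (nat_lit 647777971) (nat_lit 1900) (nat_lit 16159973820) (nat_lit 1976) (nat_lit 11486432876) (nat_lit 467) (nat_lit 5) (nat_lit 492) (nat_lit 5) (nat_lit 493) (nat_lit 5) (nat_lit 629) (nat_lit 606) (nat_lit 325)) (XT.nd (nat_lit 78) (nat_lit 0) (nat_lit 76) (XT.lf (nat_lit 0) (nat_lit 2851906830) (nat_lit 1900) (nat_lit 1025028013) (nat_lit 1976) (nat_lit 24719608129) (nat_lit 467) (nat_lit 5) (nat_lit 492) (nat_lit 5) (nat_lit 493) (nat_lit 5) (nat_lit 630) (nat_lit 606) (nat_lit 324)) (XT.lf (nat_lit 0) (nat_lit 5253732738) (nat_lit 1900) (nat_lit 14362003193) (nat_lit 76) (nat_lit 9286140290) (nat_lit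 468) (nat_lit 5) (nat_lit 493) (nat_lit 5) (nat_lit 469) (nat_lit 5) (nat_lit 631) (nat_lit 606) (nat_lit 323))))))))
noncomputable def xc209 : XT := (XT.nd (nat_lit 1560) (nat_lit 7600) (nat_lit 0) (XT.nd (nat_lit 780) (nat_lit 4788) (nat_lit 0) (XT.nd (nat_lit 390) (nat_lit 1824) (nat_lit 0) (XT.nd (nat_lit 156) (nat_lit 1824) (nat_lit 0) (XT.nd (nat_lit 78) (nat_lit 0) (nat_lit 0) (XT.lf (nat_lit 0) (nat_lit 1204896253) (nat_lit 1140) (nat_lit 6536869776) (nat_lit 1216) (nat_lit 21470786752) (nat_lit 453) (nat_lit 5) (nat_lit 468) (nat_lit 5) (nat_lit 469) (nat_lit 5) (nat_lit 632) (nat_lit 606) (nat_lit 322)) (XT.lf (nat_lit 0) (nat_lit 10418530037) (nat_lit 1216) (nat_lit 12296519254) (nat_lit 76) (nat_lit 6811614243) (nat_lit 453) (nat_lit 5) (nat_lit 469) (nat_lit 5) (nat_lit 454) (nat_lit 5) (nat_lit 633) (nat_lit 606) (nat_lit 321))) (XT.nd (nat_lit 78) (nat_lit 912) (nat_lit 0) (XT.lf (nat_lit 0) (nat_lit 3732535694) (nat_lit 912) (nat_lit 9481643628) (nat_lit 988) (nat_lit 16631570242) (nat_lit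 441) (nat_lit 5) (nat_lit 453) (nat_lit 5) (nat_lit 454) (nat_lit 5) (nat_lit 634) (nat_lit 606) (nat_lit 320)) (XT.nd (nat_lit 78) (nat_lit 912) (nat_lit 0) (XT.lf (nat_lit 0) (nat_lit 16172738060) (nat_lit 988) (nat_lit 9949335153) (nat_lit 76) (nat_lit 4047004234) (nat_lit 441) (nat_lit 5) (nat_lit 454) (nat_lit 5) (nat_lit 442) (nat_lit 5) (nat_lit 635) (nat_lit 606) (nat_lit 319)) (XT.lf (nat_lit 0) (nat_lit 6559093006) (nat_lit 912) (nat_lit 12734651875) (nat_lit 988) (nat_lit 11203061525) (nat_lit 429) (nat_lit 5) (nat_lit 441) (nat_lit 5) (nat_lit 442) (nat_lit 5) (nat_lit 636) (nat_lit 606) (nat_lit 318))))) (XT.nd (nat_lit 156) (nat_lit 988) (nat_lit 0) (XT.nd (nat_lit 78) (nat_lit 836) (nat_lit 0) (XT.lf (nat_lit 0) (nat_lit 22548283853) (nat_lit 988) (nat_lit 7305606739) (nat_lit 76) (nat_lit 975777171) (nat_lit 429) (nat_lit 5) (nat_lit 442) (nat_lit 5) (nat_lit 430) (nat_lit 5) (nat_lit 637) (nat_lit 606) (nat_lit 317)) (XT.lf (nat_lit 0) (nat_lit 9700074918) (nat_lit 836) (nat_lit 16313122048)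 (nat_lit 912) (nat_lit 5153083771) (nat_lit 418) (nat_lit 5) (nat_lit 429) (nat_lit 5) (nat_lit 430) (nat_lit 5) (nat_lit 638) (nat_lit 606) (nat_lit 316))) (XT.nd (nat_lit 78) (nat_lit 988) (nat_lit 0) (XT.lf (nat_lit 0) (nat_lit 27142962540) (nat_lit 836) (nat_lit 2451466122) (nat_lit 912) (nat_lit 1914256959) (nat_lit 418) (nat_lit 5) (nat_lit 429) (nat_lit 5) (nat_lit 430) (nat_lit 5) (nat_lit 639) (nat_lit 606) (nat_lit 315)) (XT.nd (nat_lit 78) (nat_lit 0) (nat_lit 0) (XT.lf (nat_lit 0) (nat_lit 1531618158) (nat_lit 988) (nat_lit 18693129245) (nat_lit 76) (nat_lit 11629800976) (nat_lit 405) (nat_lit 5) (nat_lit 418) (nat_lit 5) (nat_lit 406) (nat_lit 5) (nat_lit 640) (nat_lit 606) (nat_lit 314)) (XT.lf (nat_lit 0) (nat_lit 5064576726) (nat_lit 988) (nat_lit 1139517950) (nat_lit 76) (nat_lit 26002104745) (nat_lit 405) (nat_lit 5) (nat_lit 418) (nat_lit 5) (nat_lit 406) (nat_lit 5) (nat_lit 641) (nat_lit 606) (nat_lit 313)))))) (XT.nd (nat_lit 390) (nat_lit 2356) (nat_lit 0) (XT.nd (nat_lit 156) (nat_lit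 760) (nat_lit 0) (XT.nd (nat_lit 78) (nat_lit 836) (nat_lit 0) (XT.lf (nat_lit 0) (nat_lit 8829867241) (nat_lit 912) (nat_lit 15629990848) (nat_lit 76) (nat_lit 8101791993) (nat_lit 394) (nat_lit 5) (nat_lit 406) (nat_lit 5) (nat_lit 395) (nat_lit 5) (nat_lit 642) (nat_lit 606) (nat_lit 312)) (XT.lf (nat_lit 0) (nat_lit 2444635106) (nat_lit 836) (nat_lit 10288596817) (nat_lit 912) (nat_lit 20189722516) (nat_lit 383) (nat_lit 5) (nat_lit 394) (nat_lit 5) (nat_lit 395) (nat_lit 5) (nat_lit 643) (nat_lit 606) (nat_lit 311))) (XT.nd (nat_lit 78) (nat_lit 760) (nat_lit 0) (XT.lf (nat_lit 0) (nat_lit 16845429134) (nat_lit 912) (nat_lit 12226471702) (nat_lit 76) (nat_lit 4216968792) (nat_lit 383) (nat_lit 5) (nat_lit 395) (nat_lit 5) (nat_lit 384) (nat_lit 5) (nat_lit 644) (nat_lit 606) (nat_lit 310)) (XT.nd (nat_lit 78) (nat_lit 0) (nat_lit 0) (XT.lf (nat_lit 0) (nat_lit 6404345996) (nat_lit 760) (nat_lit 14743414648) (nat_lit 836) (nat_lit 12512184718) (nat_lit 373) (nat_lit 5) (nat_lit 383) (nat_lit 5) (nat_lit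 384) (nat_lit 5) (nat_lit 645) (nat_lit 606) (nat_lit 309)) (XT.lf (nat_lit 0) (nat_lit 25571601121) (nat_lit 760) (nat_lit 44779831) (nat_lit 836) (nat_lit 8420456864) (nat_lit 373) (nat_lit 5) (nat_lit 383) (nat_lit 5) (nat_lit 384) (nat_lit 5) (nat_lit 646) (nat_lit 606) (nat_lit 308))))) (XT.nd (nat_lit 156) (nat_lit 1520) (nat_lit 0) (XT.nd (nat_lit 78) (nat_lit 76) (nat_lit 0) (XT.lf (nat_lit 0) (nat_lit 10742867446) (nat_lit 760) (nat_lit 19596538043) (nat_lit 836) (nat_lit 4078562040) (nat_lit 363) (nat_lit 5) (nat_lit 373) (nat_lit 5) (nat_lit 374) (nat_lit 5) (nat_lit 647) (nat_lit 606) (nat_lit 307)) (XT.lf (nat_lit 0) (nat_lit 401298629) (nat_lit 836) (nat_lit 4360567889) (nat_lit 76) (nat_lit 30043693483) (nat_lit 362) (nat_lit 5) (nat_lit 373) (nat_lit 5) (nat_lit 363) (nat_lit 5) (nat_lit 648) (nat_lit 606) (nat_lit 306))) (XT.nd (nat_lit 78) (nat_lit 760) (nat_lit 0) (XT.lf (nat_lit 0) (nat_lit 5083374907) (nat_lit 836) (nat_lit 19751712462) (nat_lit 76) (nat_lit 10361933203) (nat_lit 352)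 (nat_lit 5) (nat_lit 363) (nat_lit 5) (nat_lit 353) (nat_lit 5) (nat_lit 649) (nat_lit 606) (nat_lit 305)) (XT.nd (nat_lit 78) (nat_lit 0) (nat_lit 0) (XT.lf (nat_lit 0) (nat_lit 78076788) (nat_lit 760) (nat_lit 9840810483) (nat_lit 836) (nat_lit 25676227236) (nat_lit 342) (nat_lit 5) (nat_lit 352) (nat_lit 5) (nat_lit 353) (nat_lit 5) (nat_lit 650) (nat_lit 606) (nat_lit 304)) (XT.lf (nat_lit 0) (nat_lit 15018255204) (nat_lit 836) (nat_lit 15464525351) (nat_lit 76) (nat_lit 5515046902) (nat_lit 342) (nat_lit 5) (nat_lit 353) (nat_lit 5) (nat_lit 343) (nat_lit 5) (nat_lit 651) (nat_lit 606) (nat_lit 303))))))) (XT.nd (nat_lit 780) (nat_lit 3572) (nat_lit 0) (XT.nd (nat_lit 390) (nat_lit 1900) (nat_lit 0) (XT.nd (nat_lit 156) (nat_lit 1444) (nat_lit 0) (XT.nd (nat_lit 78) (nat_lit 0) (nat_lit 0) (XT.lf (nat_lit 0) (nat_lit 4987391730) (nat_lit 684) (nat_lit 15328120539) (nat_lit 760) (nat_lit 16091164403) (nat_lit 333) (nat_lit 5) (nat_lit 342) (nat_lit 5) (nat_lit 343) (nat_lit 5) (nat_lit 652) (nat_lit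 606) (nat_lit 302)) (XT.lf (nat_lit 0) (nat_lit 25822386517) (nat_lit 760) (nat_lit 10767087234) (nat_lit 76) (nat_lit 232155719) (nat_lit 333) (nat_lit 5) (nat_lit 343) (nat_lit 5) (nat_lit 334) (nat_lit 5) (nat_lit 653) (nat_lit 606) (nat_lit 301))) (XT.nd (nat_lit 78) (nat_lit 760) (nat_lit 0) (XT.lf (nat_lit 0) (nat_lit 10330260432) (nat_lit 684) (nat_lit 21276119474) (nat_lit 760) (nat_lit 5635161827) (nat_lit 324) (nat_lit 5) (nat_lit 333) (nat_lit 5) (nat_lit 334) (nat_lit 5) (nat_lit 654) (nat_lit 606) (nat_lit 300)) (XT.nd (nat_lit 78) (nat_lit 760) (nat_lit 0) (XT.lf (nat_lit 0) (nat_lit 31993651546) (nat_lit 684) (nat_lit 5583073794) (nat_lit 760) (nat_lit 91713495) (nat_lit 324) (nat_lit 5) (nat_lit 333) (nat_lit 5) (nat_lit 334) (nat_lit 5) (nat_lit 655) (nat_lit 606) (nat_lit 299)) (XT.lf (nat_lit 0) (nat_lit 5661624193) (nat_lit 760) (nat_lit 22009266180) (nat_lit 76) (nat_lit 10428821723) (nat_lit 314) (nat_lit 5) (nat_lit 324) (nat_lit 5) (nat_lit 315) (nat_lit 5) (nat_lit 656) (nat_lit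 606) (nat_lit 298))))) (XT.nd (nat_lit 156) (nat_lit 1216) (nat_lit 0) (XT.nd (nat_lit 78) (nat_lit 684) (nat_lit 0) (XT.lf (nat_lit 0) (nat_lit 11602565663) (nat_lit 760) (nat_lit 210631279) (nat_lit 76) (nat_lit 26724926492) (nat_lit 314) (nat_lit 5) (nat_lit 324) (nat_lit 5) (nat_lit 315) (nat_lit 5) (nat_lit 657) (nat_lit 606) (nat_lit 297)) (XT.lf (nat_lit 0) (nat_lit 17834971981) (nat_lit 760) (nat_lit 16696891814) (nat_lit 76) (nat_lit 4449986318) (nat_lit 305) (nat_lit 5) (nat_lit 315) (nat_lit 5) (nat_lit 306) (nat_lit 5) (nat_lit 658) (nat_lit 606) (nat_lit 296))) (XT.nd (nat_lit 78) (nat_lit 608) (nat_lit 0) (XT.lf (nat_lit 0) (nat_lit 5794814266) (nat_lit 608) (nat_lit 18512994919) (nat_lit 684) (nat_lit 15124326522) (nat_lit 297) (nat_lit 5) (nat_lit 305) (nat_lit 5) (nat_lit 306) (nat_lit 5) (nat_lit 659) (nat_lit 606) (nat_lit 295)) (XT.nd (nat_lit 78) (nat_lit 608) (nat_lit 0) (XT.lf (nat_lit 0) (nat_lit 28960862219) (nat_lit 608) (nat_lit 2059806444) (nat_lit 684) (nat_lit 8868547073) (nat_lit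 297) (nat_lit 5) (nat_lit 305) (nat_lit 5) (nat_lit 306) (nat_lit 5) (nat_lit 660) (nat_lit 606) (nat_lit 294)) (XT.lf (nat_lit 0) (nat_lit 12298691306) (nat_lit 608) (nat_lit 25743080588) (nat_lit 684) (nat_lit 2310185776) (nat_lit 289) (nat_lit 5) (nat_lit 297) (nat_lit 5) (nat_lit 298) (nat_lit 5) (nat_lit 661) (nat_lit 606) (nat_lit 293)))))) (XT.nd (nat_lit 390) (nat_lit 1748) (nat_lit 0) (XT.nd (nat_lit 156) (nat_lit 1140) (nat_lit 0) (XT.nd (nat_lit 78) (nat_lit 608) (nat_lit 0) (XT.lf (nat_lit 0) (nat_lit 4407923305) (nat_lit 684) (nat_lit 4728455798) (nat_lit 76) (nat_lit 31685286371) (nat_lit 288) (nat_lit 5) (nat_lit 297) (nat_lit 5) (nat_lit 289) (nat_lit 5) (nat_lit 662) (nat_lit 606) (nat_lit 292)) (XT.lf (nat_lit 0) (nat_lit 11404961643) (nat_lit 684) (nat_lit 22050697027) (nat_lit 76) (nat_lit 7841293380) (nat_lit 280) (nat_lit 5) (nat_lit 289) (nat_lit 5) (nat_lit 281) (nat_lit 5) (nat_lit 663) (nat_lit 606) (nat_lit 291))) (XT.nd (nat_lit 78) (nat_lit 532) (nat_lit 0) (XT.lf (nat_lit 0)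 (nat_lit 1946458380) (nat_lit 608) (nat_lit 16699163291) (nat_lit 684) (nat_lit 23134049099) (nat_lit 272) (nat_lit 5) (nat_lit 280) (nat_lit 5) (nat_lit 281) (nat_lit 5) (nat_lit 664) (nat_lit 606) (nat_lit 290)) (XT.nd (nat_lit 78) (nat_lit 532) (nat_lit 0) (XT.lf (nat_lit 0) (nat_lit 26181204899) (nat_lit 684) (nat_lit 15551965527) (nat_lit 76) (nat_lit 535871271) (nat_lit 272) (nat_lit 5) (nat_lit 281) (nat_lit 5) (nat_lit 273) (nat_lit 5) (nat_lit 665) (nat_lit 606) (nat_lit 289)) (XT.lf (nat_lit 0) (nat_lit 9223506356) (nat_lit 532) (nat_lit 24813106439) (nat_lit 608) (nat_lit 8728205016) (nat_lit 265) (nat_lit 5) (nat_lit 272) (nat_lit 5) (nat_lit 273) (nat_lit 5) (nat_lit 666) (nat_lit 606) (nat_lit 288))))) (XT.nd (nat_lit 234) (nat_lit 1064) (nat_lit 0) (XT.nd (nat_lit 78) (nat_lit 684) (nat_lit 0) (XT.lf (nat_lit 0) (nat_lit 34703532979) (nat_lit 532) (nat_lit 7448610398) (nat_lit 608) (nat_lit 1116305811) (nat_lit 265) (nat_lit 5) (nat_lit 272) (nat_lit 5) (nat_lit 273) (nat_lit 5) (nat_lit 667)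 (nat_lit 606) (nat_lit 287)) (XT.nd (nat_lit 78) (nat_lit 0) (nat_lit 0) (XT.lf (nat_lit 0) (nat_lit 6737928632) (nat_lit 684) (nat_lit 26756513066) (nat_lit 76) (nat_lit 10283302584) (nat_lit 256) (nat_lit 5) (nat_lit 265) (nat_lit 5) (nat_lit 257) (nat_lit 5) (nat_lit 668) (nat_lit 606) (nat_lit 286)) (XT.lf (nat_lit 0) (nat_lit 14840181018) (nat_lit 684) (nat_lit 1119737262) (nat_lit 76) (nat_lit 28335041837) (nat_lit 256) (nat_lit 5) (nat_lit 265) (nat_lit 5) (nat_lit 257) (nat_lit 5) (nat_lit 669) (nat_lit 606) (nat_lit 285)))) (XT.nd (nat_lit 78) (nat_lit 532) (nat_lit 0) (XT.lf (nat_lit 0) (nat_lit 23281432770) (nat_lit 608) (nat_lit 19472183575) (nat_lit 76) (nat_lit 2065364867) (nat_lit 249) (nat_lit 5) (nat_lit 257) (nat_lit 5) (nat_lit 250) (nat_lit 5) (nat_lit 670) (nat_lit 606) (nat_lit 284)) (XT.nd (nat_lit 78) (nat_lit 0) (nat_lit 0) (XT.lf (nat_lit 0) (nat_lit 6988684695) (nat_lit 532) (nat_lit 25060178186) (nat_lit 608) (nat_lit 13301472809) (nat_lit 242) (nat_lit 5) (nat_lit 249) (nat_lit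 5) (nat_lit 250) (nat_lit 5) (nat_lit 671) (nat_lit 606) (nat_lit 283)) (XT.lf (nat_lit 0) (nat_lit 34240994638) (nat_lit 532) (nat_lit 6880048992) (nat_lit 608) (nat_lit 4768685610) (nat_lit 242) (nat_lit 5) (nat_lit 249) (nat_lit 5) (nat_lit 250) (nat_lit 5) (nat_lit 672) (nat_lit 606) (nat_lit 282))))))))
noncomputable def xc210 : XT := (XT.nd (nat_lit 77376) (nat_lit 0) (nat_lit 11780) (XT.nd (nat_lit 76596) (nat_lit 0) (nat_lit 19456) (XT.nd (nat_lit 76206) (nat_lit 0) (nat_lit 19304) (XT.nd (nat_lit 156) (nat_lit 532) (nat_lit 0) (XT.nd (nat_lit 78) (nat_lit 0) (nat_lit 0) (XT.lf (nat_lit 0) (nat_lit 4060917297) (nat_lit 532) (nat_lit 30735832054) (nat_lit 76) (nat_lit 11639095096) (nat_lit 235) (nat_lit 5) (nat_lit 242) (nat_lit 5) (nat_lit 236) (nat_lit 5) (nat_lit 673) (nat_lit 606) (nat_lit 281)) (XT.lf (nat_lit 0) (nat_lit 13126329819) (nat_lit 532) (nat_lit 3317063765) (nat_lit 76) (nat_lit 30546396574) (nat_lit 235) (nat_lit 5) (nat_lit 242) (nat_lit 5) (nat_lit 236) (nat_lit 5) (nat_lit 674)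 (nat_lit 606) (nat_lit 280))) (XT.nd (nat_lit 75894) (nat_lit 0) (nat_lit 19228) (XT.lf (nat_lit 0) (nat_lit 22549850734) (nat_lit 608) (nat_lit 22591492519) (nat_lit 76) (nat_lit 2409935551) (nat_lit 228) (nat_lit 5) (nat_lit 236) (nat_lit 5) (nat_lit 229) (nat_lit 5) (nat_lit 675) (nat_lit 606) (nat_lit 279)) (XT.nd (nat_lit 78) (nat_lit 0) (nat_lit 0) (XT.lf (nat_lit 0) (nat_lit 895458838) (nat_lit 1900) (nat_lit 5257708726) (nat_lit 1900) (nat_lit 5257708726) (nat_lit 481) (nat_lit 3) (nat_lit 506) (nat_lit 3) (nat_lit 506) (nat_lit 5) (nat_lit 607) (nat_lit 607) (nat_lit 346)) (XT.lf (nat_lit 76) (nat_lit 860928096) (nat_lit 0) (nat_lit 1080932443) (nat_lit 1900) (nat_lit 21105445039) (nat_lit 482) (nat_lit 5) (nat_lit 481) (nat_lit 3) (nat_lit 506) (nat_lit 5) (nat_lit 608) (nat_lit 607) (nat_lit 345))))) (XT.nd (nat_lit 156) (nat_lit 0) (nat_lit 76) (XT.nd (nat_lit 78) (nat_lit 0) (nat_lit 0) (XT.lf (nat_lit 0) (nat_lit 2230832285) (nat_lit 1824) (nat_lit 10738213474) (nat_lit 1900) (nat_lit 10305623776)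 (nat_lit 482) (nat_lit 5) (nat_lit 506) (nat_lit 5) (nat_lit 507) (nat_lit 5) (nat_lit 609) (nat_lit 607) (nat_lit 344)) (XT.lf (nat_lit 76) (nat_lit 942344404) (nat_lit 0) (nat_lit 1593237880) (nat_lit 1900) (nat_lit 20970798608) (nat_lit 483) (nat_lit 5) (nat_lit 482) (nat_lit 5) (nat_lit 507) (nat_lit 5) (nat_lit 610) (nat_lit 607) (nat_lit 343))) (XT.nd (nat_lit 78) (nat_lit 0) (nat_lit 0) (XT.lf (nat_lit 0) (nat_lit 2980740065) (nat_lit 1824) (nat_lit 10806514290) (nat_lit 1900) (nat_lit 9952785964) (nat_lit 483) (nat_lit 5) (nat_lit 507) (nat_lit 5) (nat_lit 508) (nat_lit 5) (nat_lit 611) (nat_lit 607) (nat_lit 342)) (XT.nd (nat_lit 78) (nat_lit 0) (nat_lit 76) (XT.lf (nat_lit 76) (nat_lit 1189409950) (nat_lit 0) (nat_lit 2260512170) (nat_lit 1900) (nat_lit 20528148488) (nat_lit 484) (nat_lit 5) (nat_lit 483) (nat_lit 5) (nat_lit 508) (nat_lit 5) (nat_lit 612) (nat_lit 607) (nat_lit 341)) (XT.lf (nat_lit 0) (nat_lit 4060050978) (nat_lit 1824) (nat_lit 10711668237) (nat_lit 1900) (nat_lit 9446511117)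 (nat_lit 484) (nat_lit 5) (nat_lit 508) (nat_lit 5) (nat_lit 509) (nat_lit 5) (nat_lit 613) (nat_lit 607) (nat_lit 340)))))) (XT.nd (nat_lit 390) (nat_lit 0) (nat_lit 228) (XT.nd (nat_lit 156) (nat_lit 0) (nat_lit 76) (XT.nd (nat_lit 78) (nat_lit 0) (nat_lit 76) (XT.lf (nat_lit 76) (nat_lit 1611206030) (nat_lit 0) (nat_lit 3093574561) (nat_lit 1900) (nat_lit 19757964787) (nat_lit 485) (nat_lit 5) (nat_lit 484) (nat_lit 5) (nat_lit 509) (nat_lit 5) (nat_lit 614) (nat_lit 607) (nat_lit 339)) (XT.lf (nat_lit 0) (nat_lit 5489037203) (nat_lit 1824) (nat_lit 10444579505) (nat_lit 1900) (nat_lit 8776001459) (nat_lit 485) (nat_lit 5) (nat_lit 509) (nat_lit 5) (nat_lit 510) (nat_lit 5) (nat_lit 615) (nat_lit 607) (nat_lit 338))) (XT.nd (nat_lit 78) (nat_lit 0) (nat_lit 76) (XT.lf (nat_lit 76) (nat_lit 2217274534) (nat_lit 0) (nat_lit 4103668338) (nat_lit 1900) (nat_lit 18639846350) (nat_lit 486) (nat_lit 5) (nat_lit 485) (nat_lit 5) (nat_lit 510) (nat_lit 5) (nat_lit 616) (nat_lit 607) (nat_lit 337)) (XT.nd (nat_lit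 78) (nat_lit 0) (nat_lit 0) (XT.lf (nat_lit 0) (nat_lit 7288872591) (nat_lit 1824) (nat_lit 9995691692) (nat_lit 1900) (nat_lit 7930031783) (nat_lit 486) (nat_lit 5) (nat_lit 510) (nat_lit 5) (nat_lit 511) (nat_lit 5) (nat_lit 617) (nat_lit 607) (nat_lit 336)) (XT.lf (nat_lit 76) (nat_lit 3017635049) (nat_lit 0) (nat_lit 5302484027) (nat_lit 1900) (nat_lit 17152480890) (nat_lit 487) (nat_lit 5) (nat_lit 486) (nat_lit 5) (nat_lit 511) (nat_lit 5) (nat_lit 618) (nat_lit 607) (nat_lit 335))))) (XT.nd (nat_lit 156) (nat_lit 0) (nat_lit 76) (XT.nd (nat_lit 78) (nat_lit 0) (nat_lit 0) (XT.lf (nat_lit 0) (nat_lit 9481673597) (nat_lit 1824) (nat_lit 9354970555) (nat_lit 1900) (nat_lit 6896926215) (nat_lit 487) (nat_lit 5) (nat_lit 511) (nat_lit 5) (nat_lit 512) (nat_lit 5) (nat_lit 619) (nat_lit 607) (nat_lit 334)) (XT.lf (nat_lit 76) (nat_lit 4022802790) (nat_lit 0) (nat_lit 6702183320) (nat_lit 1900) (nat_lit 15273603609) (nat_lit 488) (nat_lit 5) (nat_lit 487) (nat_lit 5) (nat_lit 512) (nat_lit 5) (nat_lit 620)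 (nat_lit 607) (nat_lit 333))) (XT.nd (nat_lit 78) (nat_lit 0) (nat_lit 0) (XT.lf (nat_lit 0) (nat_lit 12090541792) (nat_lit 1824) (nat_lit 8511885945) (nat_lit 1900) (nat_lit 5664534262) (nat_lit 488) (nat_lit 5) (nat_lit 512) (nat_lit 5) (nat_lit 513) (nat_lit 5) (nat_lit 621) (nat_lit 607) (nat_lit 332)) (XT.nd (nat_lit 78) (nat_lit 0) (nat_lit 76) (XT.lf (nat_lit 76) (nat_lit 5243807368) (nat_lit 0) (nat_lit 8315423752) (nat_lit 1900) (nat_lit 12979954232) (nat_lit 489) (nat_lit 5) (nat_lit 488) (nat_lit 5) (nat_lit 513) (nat_lit 5) (nat_lit 622) (nat_lit 607) (nat_lit 331)) (XT.lf (nat_lit 0) (nat_lit 15139607990) (nat_lit 1824) (nat_lit 7455392896) (nat_lit 1900) (nat_lit 4220206087) (nat_lit 489) (nat_lit 5) (nat_lit 513) (nat_lit 5) (nat_lit 514) (nat_lit 5) (nat_lit 623) (nat_lit 607) (nat_lit 330))))))) (XT.nd (nat_lit 780) (nat_lit 5320) (nat_lit 0) (XT.nd (nat_lit 390) (nat_lit 2736) (nat_lit 0) (XT.nd (nat_lit 156) (nat_lit 0) (nat_lit 76) (XT.nd (nat_lit 78) (nat_lit 0) (nat_lit 76) (XT.lf (nat_lit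 76) (nat_lit 6692212435) (nat_lit 0) (nat_lit 10155384186) (nat_lit 1900) (nat_lit 10247232397) (nat_lit 490) (nat_lit 5) (nat_lit 489) (nat_lit 5) (nat_lit 514) (nat_lit 5) (nat_lit 624) (nat_lit 607) (nat_lit 329)) (XT.lf (nat_lit 0) (nat_lit 18654078097) (nat_lit 1824) (nat_lit 6173911847) (nat_lit 1900) (nat_lit 2550766973) (nat_lit 490) (nat_lit 5) (nat_lit 514) (nat_lit 5) (nat_lit 515) (nat_lit 5) (nat_lit 625) (nat_lit 607) (nat_lit 328))) (XT.nd (nat_lit 78) (nat_lit 0) (nat_lit 76) (XT.lf (nat_lit 76) (nat_lit 8380136228) (nat_lit 0) (nat_lit 12235791147) (nat_lit 1900) (nat_lit 7050051307) (nat_lit 491) (nat_lit 5) (nat_lit 490) (nat_lit 5) (nat_lit 515) (nat_lit 5) (nat_lit 626) (nat_lit 607) (nat_lit 327)) (XT.nd (nat_lit 78) (nat_lit 0) (nat_lit 0) (XT.lf (nat_lit 0) (nat_lit 22660280729) (nat_lit 1824) (nat_lit 4655307958) (nat_lit 1900) (nat_lit 642490924) (nat_lit 491) (nat_lit 5) (nat_lit 515) (nat_lit 5) (nat_lit 516) (nat_lit 5) (nat_lit 627) (nat_lit 607) (nat_lit 326)) (XT.lf (nat_lit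 76) (nat_lit 10320273030) (nat_lit 0) (nat_lit 14570946052) (nat_lit 1900) (nat_lit 3361889587) (nat_lit 492) (nat_lit 5) (nat_lit 491) (nat_lit 5) (nat_lit 516) (nat_lit 5) (nat_lit 628) (nat_lit 607) (nat_lit 325))))) (XT.nd (nat_lit 156) (nat_lit 1064) (nat_lit 0) (XT.nd (nat_lit 78) (nat_lit 1824) (nat_lit 0) (XT.lf (nat_lit 76) (nat_lit 25656597258) (nat_lit 0) (nat_lit 1539112379) (nat_lit 1900) (nat_lit 1357750071) (nat_lit 492) (nat_lit 5) (nat_lit 491) (nat_lit 5) (nat_lit 516) (nat_lit 5) (nat_lit 629) (nat_lit 607) (nat_lit 324)) (XT.lf (nat_lit 0) (nat_lit 833876957) (nat_lit 1900) (nat_lit 16336280688) (nat_lit 1976) (nat_lit 11686442889) (nat_lit 467) (nat_lit 5) (nat_lit 492) (nat_lit 5) (nat_lit 493) (nat_lit 5) (nat_lit 630) (nat_lit 607) (nat_lit 323))) (XT.nd (nat_lit 78) (nat_lit 1064) (nat_lit 0) (XT.lf (nat_lit 0) (nat_lit 3078693425) (nat_lit 1900) (nat_lit 901516212) (nat_lit 1976) (nat_lit 25184864367) (nat_lit 467) (nat_lit 5) (nat_lit 492) (nat_lit 5) (nat_lit 493) (nat_lit 5)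 (nat_lit 631) (nat_lit 607) (nat_lit 322)) (XT.nd (nat_lit 78) (nat_lit 1140) (nat_lit 0) (XT.lf (nat_lit 0) (nat_lit 5525998654) (nat_lit 1900) (nat_lit 14502668934) (nat_lit 76) (nat_lit 9447897568) (nat_lit 468) (nat_lit 5) (nat_lit 493) (nat_lit 5) (nat_lit 469) (nat_lit 5) (nat_lit 632) (nat_lit 607) (nat_lit 321)) (XT.lf (nat_lit 0) (nat_lit 1374604196) (nat_lit 1140) (nat_lit 6686855552) (nat_lit 1216) (nat_lit 21732042249) (nat_lit 453) (nat_lit 5) (nat_lit 468) (nat_lit 5) (nat_lit 469) (nat_lit 5) (nat_lit 633) (nat_lit 607) (nat_lit 320)))))) (XT.nd (nat_lit 390) (nat_lit 3496) (nat_lit 0) (XT.nd (nat_lit 156) (nat_lit 912) (nat_lit 0) (XT.nd (nat_lit 78) (nat_lit 912) (nat_lit 0) (XT.lf (nat_lit 0) (nat_lit 10788403995) (nat_lit 1216) (nat_lit 12396335100) (nat_lit 76) (nat_lit 6929223063) (nat_lit 453) (nat_lit 5) (nat_lit 469) (nat_lit 5) (nat_lit 454) (nat_lit 5) (nat_lit 634) (nat_lit 607) (nat_lit 319)) (XT.lf (nat_lit 0) (nat_lit 3952339668) (nat_lit 912) (nat_lit 9685402297) (nat_lit 988)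 (nat_lit 16801732520) (nat_lit 441) (nat_lit 5) (nat_lit 453) (nat_lit 5) (nat_lit 454) (nat_lit 5) (nat_lit 635) (nat_lit 607) (nat_lit 318))) (XT.nd (nat_lit 78) (nat_lit 912) (nat_lit 0) (XT.lf (nat_lit 0) (nat_lit 16652258843) (nat_lit 988) (nat_lit 10002797302) (nat_lit 76) (nat_lit 4114277128) (nat_lit 441) (nat_lit 5) (nat_lit 454) (nat_lit 5) (nat_lit 442) (nat_lit 5) (nat_lit 636) (nat_lit 607) (nat_lit 317)) (XT.nd (nat_lit 78) (nat_lit 0) (nat_lit 0) (XT.lf (nat_lit 0) (nat_lit 6834842022) (nat_lit 912) (nat_lit 12998722286) (nat_lit 988) (nat_lit 11270095020) (nat_lit 429) (nat_lit 5) (nat_lit 441) (nat_lit 5) (nat_lit 442) (nat_lit 5) (nat_lit 637) (nat_lit 607) (nat_lit 316)) (XT.lf (nat_lit 0) (nat_lit 23150115850) (nat_lit 988) (nat_lit 7306903928) (nat_lit 76) (nat_lit 986219784) (nat_lit 429) (nat_lit 5) (nat_lit 442) (nat_lit 5) (nat_lit 430) (nat_lit 5) (nat_lit 638) (nat_lit 607) (nat_lit 315))))) (XT.nd (nat_lit 234) (nat_lit 1672) (nat_lit 0) (XT.nd (nat_lit 78) (nat_lit 988) (nat_lit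 0) (XT.lf (nat_lit 0) (nat_lit 10037938633) (nat_lit 836) (nat_lit 16644364478) (nat_lit 912) (nat_lit 5104322250) (nat_lit 418) (nat_lit 5) (nat_lit 429) (nat_lit 5) (nat_lit 430) (nat_lit 5) (nat_lit 639) (nat_lit 607) (nat_lit 314)) (XT.nd (nat_lit 78) (nat_lit 988) (nat_lit 0) (XT.lf (nat_lit 0) (nat_lit 27826863180) (nat_lit 836) (nat_lit 2505377786) (nat_lit 912) (nat_lit 1803695827) (nat_lit 418) (nat_lit 5) (nat_lit 429) (nat_lit 5) (nat_lit 430) (nat_lit 5) (nat_lit 640) (nat_lit 607) (nat_lit 313)) (XT.lf (nat_lit 0) (nat_lit 1707168001) (nat_lit 988) (nat_lit 18922013754) (nat_lit 76) (nat_lit 11859555332) (nat_lit 405) (nat_lit 5) (nat_lit 418) (nat_lit 5) (nat_lit 406) (nat_lit 5) (nat_lit 641) (nat_lit 607) (nat_lit 312)))) (XT.nd (nat_lit 78) (nat_lit 1672) (nat_lit 0) (XT.lf (nat_lit 0) (nat_lit 5307944222) (nat_lit 988) (nat_lit 1020172941) (nat_lit 76) (nat_lit 26519360896) (nat_lit 405) (nat_lit 5) (nat_lit 418) (nat_lit 5) (nat_lit 406) (nat_lit 5) (nat_lit 642) (nat_lit 607) (nat_lit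 311)) (XT.nd (nat_lit 78) (nat_lit 836) (nat_lit 0) (XT.lf (nat_lit 0) (nat_lit 9146677959) (nat_lit 912) (nat_lit 15798588953) (nat_lit 76) (nat_lit 8264808148) (nat_lit 394) (nat_lit 5) (nat_lit 406) (nat_lit 5) (nat_lit 395) (nat_lit 5) (nat_lit 643) (nat_lit 607) (nat_lit 310)) (XT.lf (nat_lit 0) (nat_lit 2636582141) (nat_lit 836) (nat_lit 10489707316) (nat_lit 912) (nat_lit 20452352530) (nat_lit 383) (nat_lit 5) (nat_lit 394) (nat_lit 5) (nat_lit 395) (nat_lit 5) (nat_lit 644) (nat_lit 607) (nat_lit 309))))))))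
noncomputable def xc211 : XT := (XT.nd (nat_lit 1560) (nat_lit 3420) (nat_lit 0) (XT.nd (nat_lit 780) (nat_lit 4028) (nat_lit 0) (XT.nd (nat_lit 390) (nat_lit 2204) (nat_lit 0) (XT.nd (nat_lit 156) (nat_lit 836) (nat_lit 0) (XT.nd (nat_lit 78) (nat_lit 760) (nat_lit 0) (XT.lf (nat_lit 0) (nat_lit 17318046698) (nat_lit 912) (nat_lit 12328064265) (nat_lit 76) (nat_lit 4305818268) (nat_lit 383) (nat_lit 5) (nat_lit 395) (nat_lit 5) (nat_lit 384) (nat_lit 5) (nat_lit 645) (nat_lit 607) (nat_lit 308)) (XT.lf (nat_lit 0) (nat_lit 6674429413) (nat_lit 760) (nat_lit 15030256400) (nat_lit 836) (nat_lit 12625775518) (nat_lit 373) (nat_lit 5) (nat_lit 383) (nat_lit 5) (nat_lit 384) (nat_lit 5) (nat_lit 646) (nat_lit 607) (nat_lit 307))) (XT.nd (nat_lit 78) (nat_lit 836) (nat_lit 0) (XT.lf (nat_lit 0) (nat_lit 26222245396) (nat_lit 760) (nat_lit 37806269) (nat_lit 836) (nat_lit 8454892575) (nat_lit 373) (nat_lit 5) (nat_lit 383) (nat_lit 5) (nat_lit 384) (nat_lit 5) (nat_lit 647) (nat_lit 607) (nat_lit 306)) (XT.nd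 (nat_lit 78) (nat_lit 76) (nat_lit 0) (XT.lf (nat_lit 0) (nat_lit 11098583449) (nat_lit 760) (nat_lit 19977342527) (nat_lit 836) (nat_lit 4027802854) (nat_lit 363) (nat_lit 5) (nat_lit 373) (nat_lit 5) (nat_lit 374) (nat_lit 5) (nat_lit 648) (nat_lit 607) (nat_lit 305)) (XT.lf (nat_lit 0) (nat_lit 537358807) (nat_lit 836) (nat_lit 4307977749) (nat_lit 76) (nat_lit 30653770690) (nat_lit 362) (nat_lit 5) (nat_lit 373) (nat_lit 5) (nat_lit 363) (nat_lit 5) (nat_lit 649) (nat_lit 607) (nat_lit 304))))) (XT.nd (nat_lit 156) (nat_lit 684) (nat_lit 0) (XT.nd (nat_lit 78) (nat_lit 760) (nat_lit 0) (XT.lf (nat_lit 0) (nat_lit 5311548723) (nat_lit 836) (nat_lit 20005414120) (nat_lit 76) (nat_lit 10581464808) (nat_lit 352) (nat_lit 5) (nat_lit 363) (nat_lit 5) (nat_lit 353) (nat_lit 5) (nat_lit 650) (nat_lit 607) (nat_lit 303)) (XT.lf (nat_lit 0) (nat_lit 220041096) (nat_lit 760) (nat_lit 10022161311) (nat_lit 836) (nat_lit 26062312499) (nat_lit 342) (nat_lit 5) (nat_lit 352) (nat_lit 5) (nat_lit 353) (nat_lit 5) (nat_lit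 651) (nat_lit 607) (nat_lit 302))) (XT.nd (nat_lit 78) (nat_lit 684) (nat_lit 0) (XT.lf (nat_lit 0) (nat_lit 15441206388) (nat_lit 836) (nat_lit 15633811690) (nat_lit 76) (nat_lit 5640311126) (nat_lit 342) (nat_lit 5) (nat_lit 353) (nat_lit 5) (nat_lit 343) (nat_lit 5) (nat_lit 652) (nat_lit 607) (nat_lit 301)) (XT.nd (nat_lit 78) (nat_lit 0) (nat_lit 0) (XT.lf (nat_lit 0) (nat_lit 5226222653) (nat_lit 684) (nat_lit 15616685312) (nat_lit 760) (nat_lit 16289477509) (nat_lit 333) (nat_lit 5) (nat_lit 342) (nat_lit 5) (nat_lit 343) (nat_lit 5) (nat_lit 653) (nat_lit 607) (nat_lit 300)) (XT.lf (nat_lit 0) (nat_lit 26457660035) (nat_lit 760) (nat_lit 10843810385) (nat_lit 76) (nat_lit 254212162) (nat_lit 333) (nat_lit 5) (nat_lit 343) (nat_lit 5) (nat_lit 334) (nat_lit 5) (nat_lit 654) (nat_lit 607) (nat_lit 299)))))) (XT.nd (nat_lit 390) (nat_lit 1900) (nat_lit 0) (XT.nd (nat_lit 156) (nat_lit 1368) (nat_lit 0) (XT.nd (nat_lit 78) (nat_lit 76) (nat_lit 0) (XT.lf (nat_lit 0) (nat_lit 10674572270) (nat_lit 684)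 (nat_lit 21681325187) (nat_lit 760) (nat_lit 5628124407) (nat_lit 324) (nat_lit 5) (nat_lit 333) (nat_lit 5) (nat_lit 334) (nat_lit 5) (nat_lit 655) (nat_lit 607) (nat_lit 298)) (XT.lf (nat_lit 0) (nat_lit 23532303) (nat_lit 760) (nat_lit 5651126743) (nat_lit 76) (nat_lit 32744840860) (nat_lit 323) (nat_lit 5) (nat_lit 333) (nat_lit 5) (nat_lit 324) (nat_lit 5) (nat_lit 656) (nat_lit 607) (nat_lit 297))) (XT.nd (nat_lit 78) (nat_lit 684) (nat_lit 0) (XT.lf (nat_lit 0) (nat_lit 5889456521) (nat_lit 760) (nat_lit 22311646519) (nat_lit 76) (nat_lit 10658308565) (nat_lit 314) (nat_lit 5) (nat_lit 324) (nat_lit 5) (nat_lit 315) (nat_lit 5) (nat_lit 657) (nat_lit 607) (nat_lit 296)) (XT.nd (nat_lit 78) (nat_lit 684) (nat_lit 0) (XT.lf (nat_lit 0) (nat_lit 11946969764) (nat_lit 760) (nat_lit 79740978) (nat_lit 76) (nat_lit 27279925421) (nat_lit 314) (nat_lit 5) (nat_lit 324) (nat_lit 5) (nat_lit 315) (nat_lit 5) (nat_lit 658) (nat_lit 607) (nat_lit 295)) (XT.lf (nat_lit 0) (nat_lit 18302843204) (nat_lit 760) (nat_lit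 16894543089) (nat_lit 76) (nat_lit 4561874757) (nat_lit 305) (nat_lit 5) (nat_lit 315) (nat_lit 5) (nat_lit 306) (nat_lit 5) (nat_lit 659) (nat_lit 607) (nat_lit 294))))) (XT.nd (nat_lit 156) (nat_lit 1292) (nat_lit 0) (XT.nd (nat_lit 78) (nat_lit 0) (nat_lit 0) (XT.lf (nat_lit 0) (nat_lit 6046100491) (nat_lit 608) (nat_lit 18857735863) (nat_lit 684) (nat_lit 15314742069) (nat_lit 297) (nat_lit 5) (nat_lit 305) (nat_lit 5) (nat_lit 306) (nat_lit 5) (nat_lit 660) (nat_lit 607) (nat_lit 293)) (XT.lf (nat_lit 0) (nat_lit 29672814698) (nat_lit 608) (nat_lit 2075983990) (nat_lit 684) (nat_lit 8936044502) (nat_lit 297) (nat_lit 5) (nat_lit 305) (nat_lit 5) (nat_lit 306) (nat_lit 5) (nat_lit 661) (nat_lit 607) (nat_lit 292))) (XT.nd (nat_lit 78) (nat_lit 684) (nat_lit 0) (XT.lf (nat_lit 0) (nat_lit 12678508411) (nat_lit 608) (nat_lit 26230731733) (nat_lit 684) (nat_lit 2247621544) (nat_lit 289) (nat_lit 5) (nat_lit 297) (nat_lit 5) (nat_lit 298) (nat_lit 5) (nat_lit 662) (nat_lit 607) (nat_lit 291)) (XT.nd (nat_lit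 78) (nat_lit 608) (nat_lit 0) (XT.lf (nat_lit 0) (nat_lit 4601318473) (nat_lit 684) (nat_lit 4690405089) (nat_lit 76) (nat_lit 32344268104) (nat_lit 288) (nat_lit 5) (nat_lit 297) (nat_lit 5) (nat_lit 289) (nat_lit 5) (nat_lit 663) (nat_lit 607) (nat_lit 290)) (XT.lf (nat_lit 0) (nat_lit 11737269472) (nat_lit 684) (nat_lit 22358060702) (nat_lit 76) (nat_lit 8025474409) (nat_lit 280) (nat_lit 5) (nat_lit 289) (nat_lit 5) (nat_lit 281) (nat_lit 5) (nat_lit 664) (nat_lit 607) (nat_lit 289))))))) (XT.nd (nat_lit 780) (nat_lit 0) (nat_lit 0) (XT.nd (nat_lit 390) (nat_lit 1596) (nat_lit 0) (XT.nd (nat_lit 156) (nat_lit 1216) (nat_lit 0) (XT.nd (nat_lit 78) (nat_lit 0) (nat_lit 0) (XT.lf (nat_lit 0) (nat_lit 2118158535) (nat_lit 608) (nat_lit 17003402897) (nat_lit 684) (nat_lit 23491639917) (nat_lit 272) (nat_lit 5) (nat_lit 280) (nat_lit 5) (nat_lit 281) (nat_lit 5) (nat_lit 665) (nat_lit 607) (nat_lit 288)) (XT.lf (nat_lit 0) (nat_lit 26806025510) (nat_lit 684) (nat_lit 15731004143) (nat_lit 76) (nat_lit 575366702)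 (nat_lit 272) (nat_lit 5) (nat_lit 281) (nat_lit 5) (nat_lit 273) (nat_lit 5) (nat_lit 666) (nat_lit 607) (nat_lit 287))) (XT.nd (nat_lit 78) (nat_lit 684) (nat_lit 0) (XT.lf (nat_lit 0) (nat_lit 9539108752) (nat_lit 532) (nat_lit 25278299965) (nat_lit 608) (nat_lit 8800701976) (nat_lit 265) (nat_lit 5) (nat_lit 272) (nat_lit 5) (nat_lit 273) (nat_lit 5) (nat_lit 667) (nat_lit 607) (nat_lit 286)) (XT.nd (nat_lit 78) (nat_lit 684) (nat_lit 0) (XT.lf (nat_lit 0) (nat_lit 35526164686) (nat_lit 532) (nat_lit 7567123191) (nat_lit 608) (nat_lit 1038566104) (nat_lit 265) (nat_lit 5) (nat_lit 272) (nat_lit 5) (nat_lit 273) (nat_lit 5) (nat_lit 668) (nat_lit 607) (nat_lit 285)) (XT.lf (nat_lit 0) (nat_lit 6970545646) (nat_lit 684) (nat_lit 27160870708) (nat_lit 76) (nat_lit 10519923570) (nat_lit 256) (nat_lit 5) (nat_lit 265) (nat_lit 5) (nat_lit 257) (nat_lit 5) (nat_lit 669) (nat_lit 607) (nat_lit 284))))) (XT.nd (nat_lit 156) (nat_lit 1064) (nat_lit 0) (XT.nd (nat_lit 78) (nat_lit 532) (nat_lit 0) (XT.lf (nat_lit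 0) (nat_lit 15232924287) (nat_lit 684) (nat_lit 1013923557) (nat_lit 76) (nat_lit 28932090649) (nat_lit 256) (nat_lit 5) (nat_lit 265) (nat_lit 5) (nat_lit 257) (nat_lit 5) (nat_lit 670) (nat_lit 607) (nat_lit 283)) (XT.lf (nat_lit 0) (nat_lit 23842157721) (nat_lit 608) (nat_lit 19732573450) (nat_lit 76) (nat_lit 2138725746) (nat_lit 249) (nat_lit 5) (nat_lit 257) (nat_lit 5) (nat_lit 250) (nat_lit 5) (nat_lit 671) (nat_lit 607) (nat_lit 282))) (XT.nd (nat_lit 78) (nat_lit 532) (nat_lit 0) (XT.lf (nat_lit 0) (nat_lit 7256663147) (nat_lit 532) (nat_lit 25527241044) (nat_lit 608) (nat_lit 13471554977) (nat_lit 242) (nat_lit 5) (nat_lit 249) (nat_lit 5) (nat_lit 250) (nat_lit 5) (nat_lit 672) (nat_lit 607) (nat_lit 281)) (XT.nd (nat_lit 78) (nat_lit 532) (nat_lit 0) (XT.lf (nat_lit 0) (nat_lit 35051505471) (nat_lit 532) (nat_lit 6984178692) (nat_lit 608) (nat_lit 4769993354) (nat_lit 242) (nat_lit 5) (nat_lit 249) (nat_lit 5) (nat_lit 250) (nat_lit 5) (nat_lit 673) (nat_lit 607) (nat_lit 280)) (XT.lf (nat_lit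 0) (nat_lit 4234188792) (nat_lit 532) (nat_lit 31222841216) (nat_lit 76) (nat_lit 11905688424) (nat_lit 235) (nat_lit 5) (nat_lit 242) (nat_lit 5) (nat_lit 236) (nat_lit 5) (nat_lit 674) (nat_lit 607) (nat_lit 279)))))) (XT.nd (nat_lit 76284) (nat_lit 0) (nat_lit 18848) (XT.nd (nat_lit 76050) (nat_lit 0) (nat_lit 18696) (XT.nd (nat_lit 75972) (nat_lit 0) (nat_lit 18696) (XT.lf (nat_lit 0) (nat_lit 13479104601) (nat_lit 532) (nat_lit 3258201629) (nat_lit 76) (nat_lit 31190472963) (nat_lit 235) (nat_lit 5) (nat_lit 242) (nat_lit 5) (nat_lit 236) (nat_lit 5) (nat_lit 675) (nat_lit 607) (nat_lit 278)) (XT.lf (nat_lit 0) (nat_lit 1039984534) (nat_lit 1900) (nat_lit 5298286560) (nat_lit 1900) (nat_lit 5298286560) (nat_lit 481) (nat_lit 3) (nat_lit 506) (nat_lit 3) (nat_lit 506) (nat_lit 5) (nat_lit 608) (nat_lit 608) (nat_lit 344))) (XT.nd (nat_lit 78) (nat_lit 0) (nat_lit 76) (XT.lf (nat_lit 76) (nat_lit 1006449651) (nat_lit 0) (nat_lit 1223348813) (nat_lit 1900) (nat_lit 21273463699) (nat_lit 482) (nat_lit 5)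 (nat_lit 481) (nat_lit 3) (nat_lit 506) (nat_lit 5) (nat_lit 609) (nat_lit 608) (nat_lit 343)) (XT.nd (nat_lit 78) (nat_lit 0) (nat_lit 0) (XT.lf (nat_lit 0) (nat_lit 2518896396) (nat_lit 1824) (nat_lit 10821529882) (nat_lit 1900) (nat_lit 10394860333) (nat_lit 482) (nat_lit 5) (nat_lit 506) (nat_lit 5) (nat_lit 507) (nat_lit 5) (nat_lit 610) (nat_lit 608) (nat_lit 342)) (XT.lf (nat_lit 76) (nat_lit 1091774366) (nat_lit 0) (nat_lit 1734041382) (nat_lit 1900) (nat_lit 21145895105) (nat_lit 483) (nat_lit 5) (nat_lit 482) (nat_lit 5) (nat_lit 507) (nat_lit 5) (nat_lit 611) (nat_lit 608) (nat_lit 341))))) (XT.nd (nat_lit 234) (nat_lit 0) (nat_lit 76) (XT.nd (nat_lit 78) (nat_lit 0) (nat_lit 0) (XT.lf (nat_lit 0) (nat_lit 3274486744) (nat_lit 1824) (nat_lit 10889224935) (nat_lit 1900) (nat_lit 10046439729) (nat_lit 483) (nat_lit 5) (nat_lit 507) (nat_lit 5) (nat_lit 508) (nat_lit 5) (nat_lit 612) (nat_lit 608) (nat_lit 340)) (XT.nd (nat_lit 78) (nat_lit 0) (nat_lit 76) (XT.lf (nat_lit 76) (nat_lit 1345740029)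 (nat_lit 0) (nat_lit 2403582139) (nat_lit 1900) (nat_lit 20703694878) (nat_lit 484) (nat_lit 5) (nat_lit 483) (nat_lit 5) (nat_lit 508) (nat_lit 5) (nat_lit 613) (nat_lit 608) (nat_lit 339)) (XT.lf (nat_lit 0) (nat_lit 4366513013) (nat_lit 1824) (nat_lit 10790811186) (nat_lit 1900) (nat_lit 9540758714) (nat_lit 484) (nat_lit 5) (nat_lit 508) (nat_lit 5) (nat_lit 509) (nat_lit 5) (nat_lit 614) (nat_lit 608) (nat_lit 338)))) (XT.nd (nat_lit 78) (nat_lit 0) (nat_lit 76) (XT.lf (nat_lit 76) (nat_lit 1777631813) (nat_lit 0) (nat_lit 3242959849) (nat_lit 1900) (nat_lit 19926967643) (nat_lit 485) (nat_lit 5) (nat_lit 484) (nat_lit 5) (nat_lit 509) (nat_lit 5) (nat_lit 615) (nat_lit 608) (nat_lit 337)) (XT.nd (nat_lit 78) (nat_lit 0) (nat_lit 0) (XT.lf (nat_lit 0) (nat_lit 5815628988) (nat_lit 1824) (nat_lit 10516989878) (nat_lit 1900) (nat_lit 8866848903) (nat_lit 485) (nat_lit 5) (nat_lit 509) (nat_lit 5) (nat_lit 510) (nat_lit 5) (nat_lit 616) (nat_lit 608) (nat_lit 336)) (XT.lf (nat_lit 76) (nat_lit 2397203338)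 (nat_lit 0) (nat_lit 4263598532) (nat_lit 1900) (nat_lit 18794927921) (nat_lit 486) (nat_lit 5) (nat_lit 485) (nat_lit 5) (nat_lit 510) (nat_lit 5) (nat_lit 617) (nat_lit 608) (nat_lit 335))))))))
noncomputable def xc212 : XT := (XT.nd (nat_lit 1560) (nat_lit 9652) (nat_lit 0) (XT.nd (nat_lit 780) (nat_lit 3420) (nat_lit 0) (XT.nd (nat_lit 390) (nat_lit 0) (nat_lit 152) (XT.nd (nat_lit 156) (nat_lit 0) (nat_lit 76) (XT.nd (nat_lit 78) (nat_lit 0) (nat_lit 0) (XT.lf (nat_lit 0) (nat_lit 7643409496) (nat_lit 1824) (nat_lit 10057993734) (nat_lit 1900) (nat_lit 8013303281) (nat_lit 486) (nat_lit 5) (nat_lit 510) (nat_lit 5) (nat_lit 511) (nat_lit 5) (nat_lit 618) (nat_lit 608) (nat_lit 334)) (XT.lf (nat_lit 76) (nat_lit 3214694201) (nat_lit 0) (nat_lit 5477380977) (nat_lit 1900) (nat_lit 17285859551) (nat_lit 487) (nat_lit 5) (nat_lit 486) (nat_lit 5) (nat_lit 511) (nat_lit 5) (nat_lit 619) (nat_lit 608) (nat_lit 333))) (XT.nd (nat_lit 78) (nat_lit 0) (nat_lit 0) (XT.lf (nat_lit 0) (nat_lit 9872392087) (nat_lit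 1824) (nat_lit 9403569289) (nat_lit 1900) (nat_lit 6968252656) (nat_lit 487) (nat_lit 5) (nat_lit 511) (nat_lit 5) (nat_lit 512) (nat_lit 5) (nat_lit 620) (nat_lit 608) (nat_lit 332)) (XT.nd (nat_lit 78) (nat_lit 0) (nat_lit 76) (XT.lf (nat_lit 76) (nat_lit 4240848334) (nat_lit 0) (nat_lit 6896672993) (nat_lit 1900) (nat_lit 15377073551) (nat_lit 488) (nat_lit 5) (nat_lit 487) (nat_lit 5) (nat_lit 512) (nat_lit 5) (nat_lit 621) (nat_lit 608) (nat_lit 331)) (XT.lf (nat_lit 0) (nat_lit 12526120315) (nat_lit 1824) (nat_lit 8542958391) (nat_lit 1900) (nat_lit 5719341371) (nat_lit 488) (nat_lit 5) (nat_lit 512) (nat_lit 5) (nat_lit 513) (nat_lit 5) (nat_lit 622) (nat_lit 608) (nat_lit 330))))) (XT.nd (nat_lit 156) (nat_lit 0) (nat_lit 76) (XT.nd (nat_lit 78) (nat_lit 0) (nat_lit 76) (XT.lf (nat_lit 76) (nat_lit 5486933227) (nat_lit 0) (nat_lit 8534348444) (nat_lit 1900) (nat_lit 13044864375) (nat_lit 489) (nat_lit 5) (nat_lit 488) (nat_lit 5) (nat_lit 513) (nat_lit 5) (nat_lit 623) (nat_lit 608) (nat_lit 329))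 (XT.lf (nat_lit 0) (nat_lit 15629188689) (nat_lit 1824) (nat_lit 7464878849) (nat_lit 1900) (nat_lit 4253702222) (nat_lit 489) (nat_lit 5) (nat_lit 513) (nat_lit 5) (nat_lit 514) (nat_lit 5) (nat_lit 624) (nat_lit 608) (nat_lit 328))) (XT.nd (nat_lit 78) (nat_lit 0) (nat_lit 76) (XT.lf (nat_lit 76) (nat_lit 6964760024) (nat_lit 0) (nat_lit 10403815102) (nat_lit 1900) (nat_lit 10264464468) (nat_lit 490) (nat_lit 5) (nat_lit 489) (nat_lit 5) (nat_lit 514) (nat_lit 5) (nat_lit 625) (nat_lit 608) (nat_lit 327)) (XT.nd (nat_lit 78) (nat_lit 0) (nat_lit 0) (XT.lf (nat_lit 0) (nat_lit 19207289369) (nat_lit 1824) (nat_lit 6157504188) (nat_lit 1900) (nat_lit 2557930538) (nat_lit 490) (nat_lit 5) (nat_lit 514) (nat_lit 5) (nat_lit 515) (nat_lit 5) (nat_lit 626) (nat_lit 608) (nat_lit 326)) (XT.lf (nat_lit 76) (nat_lit 8686704546) (nat_lit 0) (nat_lit 12519041388) (nat_lit 1900) (nat_lit 7009997061) (nat_lit 491) (nat_lit 5) (nat_lit 490) (nat_lit 5) (nat_lit 515) (nat_lit 5) (nat_lit 627) (nat_lit 608) (nat_lit 325))))))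 (XT.nd (nat_lit 390) (nat_lit 1976) (nat_lit 0) (XT.nd (nat_lit 156) (nat_lit 1824) (nat_lit 0) (XT.nd (nat_lit 78) (nat_lit 0) (nat_lit 0) (XT.lf (nat_lit 0) (nat_lit 23287260677) (nat_lit 1824) (nat_lit 4608442504) (nat_lit 1900) (nat_lit 618057377) (nat_lit 491) (nat_lit 5) (nat_lit 515) (nat_lit 5) (nat_lit 516) (nat_lit 5) (nat_lit 628) (nat_lit 608) (nat_lit 324)) (XT.lf (nat_lit 76) (nat_lit 10665729237) (nat_lit 0) (nat_lit 14894584030) (nat_lit 1900) (nat_lit 3254427123) (nat_lit 492) (nat_lit 5) (nat_lit 491) (nat_lit 5) (nat_lit 516) (nat_lit 5) (nat_lit 629) (nat_lit 608) (nat_lit 323))) (XT.nd (nat_lit 78) (nat_lit 1824) (nat_lit 0) (XT.lf (nat_lit 76) (nat_lit 26306053465) (nat_lit 0) (nat_lit 1601481937) (nat_lit 1900) (nat_lit 1213630312) (nat_lit 492) (nat_lit 5) (nat_lit 491) (nat_lit 5) (nat_lit 516) (nat_lit 5) (nat_lit 630) (nat_lit 608) (nat_lit 322)) (XT.nd (nat_lit 78) (nat_lit 0) (nat_lit 0) (XT.lf (nat_lit 0) (nat_lit 1016974553) (nat_lit 1900) (nat_lit 16521817712) (nat_lit 1976)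 (nat_lit 11891607114) (nat_lit 467) (nat_lit 5) (nat_lit 492) (nat_lit 5) (nat_lit 493) (nat_lit 5) (nat_lit 631) (nat_lit 608) (nat_lit 321)) (XT.lf (nat_lit 0) (nat_lit 3303424212) (nat_lit 1900) (nat_lit 781126350) (nat_lit 1976) (nat_lit 25660557112) (nat_lit 467) (nat_lit 5) (nat_lit 492) (nat_lit 5) (nat_lit 493) (nat_lit 5) (nat_lit 632) (nat_lit 608) (nat_lit 320))))) (XT.nd (nat_lit 156) (nat_lit 912) (nat_lit 0) (XT.nd (nat_lit 78) (nat_lit 1140) (nat_lit 0) (XT.lf (nat_lit 0) (nat_lit 5797217648) (nat_lit 1900) (nat_lit 14651839649) (nat_lit 76) (nat_lit 9613820602) (nat_lit 468) (nat_lit 5) (nat_lit 493) (nat_lit 5) (nat_lit 469) (nat_lit 5) (nat_lit 633) (nat_lit 608) (nat_lit 319)) (XT.lf (nat_lit 0) (nat_lit 1542052084) (nat_lit 1140) (nat_lit 6839093605) (nat_lit 1216) (nat_lit 22005052724) (nat_lit 453) (nat_lit 5) (nat_lit 468) (nat_lit 5) (nat_lit 469) (nat_lit 5) (nat_lit 634) (nat_lit 608) (nat_lit 318))) (XT.nd (nat_lit 78) (nat_lit 912) (nat_lit 0) (XT.lf (nat_lit 0) (nat_lit 11159404061)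 (nat_lit 1216) (nat_lit 12503821068) (nat_lit 76) (nat_lit 7049907232) (nat_lit 453) (nat_lit 5) (nat_lit 469) (nat_lit 5) (nat_lit 454) (nat_lit 5) (nat_lit 635) (nat_lit 608) (nat_lit 317)) (XT.nd (nat_lit 78) (nat_lit 0) (nat_lit 0) (XT.lf (nat_lit 0) (nat_lit 4170903243) (nat_lit 912) (nat_lit 9892687617) (nat_lit 988) (nat_lit 16981606917) (nat_lit 441) (nat_lit 5) (nat_lit 453) (nat_lit 5) (nat_lit 454) (nat_lit 5) (nat_lit 636) (nat_lit 608) (nat_lit 316)) (XT.lf (nat_lit 0) (nat_lit 17135309808) (nat_lit 988) (nat_lit 10062979590) (nat_lit 76) (nat_lit 4183426194) (nat_lit 441) (nat_lit 5) (nat_lit 454) (nat_lit 5) (nat_lit 442) (nat_lit 5) (nat_lit 637) (nat_lit 608) (nat_lit 315))))))) (XT.nd (nat_lit 780) (nat_lit 4484) (nat_lit 0) (XT.nd (nat_lit 390) (nat_lit 2432) (nat_lit 0) (XT.nd (nat_lit 156) (nat_lit 1824) (nat_lit 0) (XT.nd (nat_lit 78) (nat_lit 0) (nat_lit 0) (XT.lf (nat_lit 0) (nat_lit 7110492299) (nat_lit 912) (nat_lit 13267709972) (nat_lit 988) (nat_lit 11344566763) (nat_lit 429)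 (nat_lit 5) (nat_lit 441) (nat_lit 5) (nat_lit 442) (nat_lit 5) (nat_lit 638) (nat_lit 608) (nat_lit 314)) (XT.lf (nat_lit 0) (nat_lit 23758126163) (nat_lit 988) (nat_lit 7313850401) (nat_lit 76) (nat_lit 997223563) (nat_lit 429) (nat_lit 5) (nat_lit 442) (nat_lit 5) (nat_lit 430) (nat_lit 5) (nat_lit 639) (nat_lit 608) (nat_lit 313))) (XT.nd (nat_lit 78) (nat_lit 988) (nat_lit 0) (XT.lf (nat_lit 0) (nat_lit 10376973277) (nat_lit 836) (nat_lit 16982038377) (nat_lit 912) (nat_lit 5060480978) (nat_lit 418) (nat_lit 5) (nat_lit 429) (nat_lit 5) (nat_lit 430) (nat_lit 5) (nat_lit 640) (nat_lit 608) (nat_lit 312)) (XT.nd (nat_lit 78) (nat_lit 988) (nat_lit 0) (XT.lf (nat_lit 0) (nat_lit 28518965023) (nat_lit 836) (nat_lit 2560178096) (nat_lit 912) (nat_lit 1696703354) (nat_lit 418) (nat_lit 5) (nat_lit 429) (nat_lit 5) (nat_lit 430) (nat_lit 5) (nat_lit 641) (nat_lit 608) (nat_lit 311)) (XT.lf (nat_lit 0) (nat_lit 1880601519) (nat_lit 988) (nat_lit 19161105629) (nat_lit 76) (nat_lit 12094015121) (nat_lit 405)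 (nat_lit 5) (nat_lit 418) (nat_lit 5) (nat_lit 406) (nat_lit 5) (nat_lit 642) (nat_lit 608) (nat_lit 310))))) (XT.nd (nat_lit 156) (nat_lit 1596) (nat_lit 0) (XT.nd (nat_lit 78) (nat_lit 836) (nat_lit 0) (XT.lf (nat_lit 0) (nat_lit 5550662085) (nat_lit 988) (nat_lit 903960322) (nat_lit 76) (nat_lit 27047070351) (nat_lit 405) (nat_lit 5) (nat_lit 418) (nat_lit 5) (nat_lit 406) (nat_lit 5) (nat_lit 643) (nat_lit 608) (nat_lit 309)) (XT.lf (nat_lit 0) (nat_lit 9464380235) (nat_lit 912) (nat_lit 15976150781) (nat_lit 76) (nat_lit 8431046559) (nat_lit 394) (nat_lit 5) (nat_lit 406) (nat_lit 5) (nat_lit 395) (nat_lit 5) (nat_lit 644) (nat_lit 608) (nat_lit 308))) (XT.nd (nat_lit 78) (nat_lit 760) (nat_lit 0) (XT.lf (nat_lit 0) (nat_lit 2826813143) (nat_lit 836) (nat_lit 10695021034) (nat_lit 912) (nat_lit 20725716731) (nat_lit 383) (nat_lit 5) (nat_lit 394) (nat_lit 5) (nat_lit 395) (nat_lit 5) (nat_lit 645) (nat_lit 608) (nat_lit 307)) (XT.nd (nat_lit 78) (nat_lit 760) (nat_lit 0) (XT.lf (nat_lit 0) (nat_lit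 17794846867) (nat_lit 912) (nat_lit 12437239092) (nat_lit 76) (nat_lit 4396269601) (nat_lit 383) (nat_lit 5) (nat_lit 395) (nat_lit 5) (nat_lit 384) (nat_lit 5) (nat_lit 646) (nat_lit 608) (nat_lit 306)) (XT.lf (nat_lit 0) (nat_lit 6944400602) (nat_lit 760) (nat_lit 15323146666) (nat_lit 836) (nat_lit 12746944532) (nat_lit 373) (nat_lit 5) (nat_lit 383) (nat_lit 5) (nat_lit 384) (nat_lit 5) (nat_lit 647) (nat_lit 608) (nat_lit 305)))))) (XT.nd (nat_lit 390) (nat_lit 2128) (nat_lit 0) (XT.nd (nat_lit 156) (nat_lit 1596) (nat_lit 0) (XT.nd (nat_lit 78) (nat_lit 760) (nat_lit 0) (XT.lf (nat_lit 0) (nat_lit 26880496774) (nat_lit 760) (nat_lit 30998805) (nat_lit 836) (nat_lit 8495219351) (nat_lit 373) (nat_lit 5) (nat_lit 383) (nat_lit 5) (nat_lit 384) (nat_lit 5) (nat_lit 648) (nat_lit 608) (nat_lit 304)) (XT.lf (nat_lit 0) (nat_lit 11455944059) (nat_lit 760) (nat_lit 20366195147) (nat_lit 836) (nat_lit 3981167036) (nat_lit 363) (nat_lit 5) (nat_lit 373) (nat_lit 5) (nat_lit 374) (nat_lit 5) (nat_lit 649) (nat_lit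 608) (nat_lit 303))) (XT.nd (nat_lit 78) (nat_lit 1520) (nat_lit 0) (XT.lf (nat_lit 0) (nat_lit 671168464) (nat_lit 836) (nat_lit 4259764469) (nat_lit 76) (nat_lit 31275692064) (nat_lit 362) (nat_lit 5) (nat_lit 373) (nat_lit 5) (nat_lit 363) (nat_lit 5) (nat_lit 650) (nat_lit 608) (nat_lit 302)) (XT.nd (nat_lit 78) (nat_lit 760) (nat_lit 0) (XT.lf (nat_lit 0) (nat_lit 5539373621) (nat_lit 836) (nat_lit 20269677927) (nat_lit 76) (nat_lit 10804909695) (nat_lit 352) (nat_lit 5) (nat_lit 363) (nat_lit 5) (nat_lit 353) (nat_lit 5) (nat_lit 651) (nat_lit 608) (nat_lit 301)) (XT.lf (nat_lit 0) (nat_lit 359392679) (nat_lit 760) (nat_lit 10207739695) (nat_lit 836) (nat_lit 26461068091) (nat_lit 342) (nat_lit 5) (nat_lit 352) (nat_lit 5) (nat_lit 353) (nat_lit 5) (nat_lit 652) (nat_lit 608) (nat_lit 300))))) (XT.nd (nat_lit 234) (nat_lit 1444) (nat_lit 0) (XT.nd (nat_lit 78) (nat_lit 684) (nat_lit 0) (XT.lf (nat_lit 0) (nat_lit 15867856428) (nat_lit 836) (nat_lit 15811920288) (nat_lit 76) (nat_lit 5767499591) (nat_lit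 342) (nat_lit 5) (nat_lit 353) (nat_lit 5) (nat_lit 343) (nat_lit 5) (nat_lit 653) (nat_lit 608) (nat_lit 299)) (XT.nd (nat_lit 78) (nat_lit 0) (nat_lit 0) (XT.lf (nat_lit 0) (nat_lit 5464429429) (nat_lit 684) (nat_lit 15911720251) (nat_lit 760) (nat_lit 16496552929) (nat_lit 333) (nat_lit 5) (nat_lit 342) (nat_lit 5) (nat_lit 343) (nat_lit 5) (nat_lit 654) (nat_lit 608) (nat_lit 298)) (XT.lf (nat_lit 0) (nat_lit 27101024874) (nat_lit 760) (nat_lit 10927450727) (nat_lit 76) (nat_lit 276033554) (nat_lit 333) (nat_lit 5) (nat_lit 343) (nat_lit 5) (nat_lit 334) (nat_lit 5) (nat_lit 655) (nat_lit 608) (nat_lit 297)))) (XT.nd (nat_lit 78) (nat_lit 760) (nat_lit 0) (XT.lf (nat_lit 0) (nat_lit 11020423029) (nat_lit 684) (nat_lit 22095423935) (nat_lit 760) (nat_lit 5625595915) (nat_lit 324) (nat_lit 5) (nat_lit 333) (nat_lit 5) (nat_lit 334) (nat_lit 5) (nat_lit 656) (nat_lit 608) (nat_lit 296)) (XT.nd (nat_lit 78) (nat_lit 684) (nat_lit 0) (XT.lf (nat_lit 0) (nat_lit 135357401) (nat_lit 760) (nat_lit 5632902719)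 (nat_lit 76) (nat_lit 33417400010) (nat_lit 323) (nat_lit 5) (nat_lit 333) (nat_lit 5) (nat_lit 324) (nat_lit 5) (nat_lit 657) (nat_lit 608) (nat_lit 295)) (XT.lf (nat_lit 0) (nat_lit 6117395443) (nat_lit 760) (nat_lit 22625425601) (nat_lit 76) (nat_lit 10891573167) (nat_lit 314) (nat_lit 5) (nat_lit 324) (nat_lit 5) (nat_lit 315) (nat_lit 5) (nat_lit 658) (nat_lit 608) (nat_lit 294))))))))
noncomputable def xc213 : XT := (XT.nd (nat_lit 77532) (nat_lit 0) (nat_lit 17632) (XT.nd (nat_lit 780) (nat_lit 2280) (nat_lit 0) (XT.nd (nat_lit 390) (nat_lit 1824) (nat_lit 0) (XT.nd (nat_lit 156) (nat_lit 1216) (nat_lit 0) (XT.nd (nat_lit 78) (nat_lit 0) (nat_lit 0) (XT.lf (nat_lit 0) (nat_lit 49165733) (nat_lit 684) (nat_lit 12245052635) (nat_lit 760) (nat_lit 27796381756) (nat_lit 305) (nat_lit 5) (nat_lit 314) (nat_lit 5) (nat_lit 315) (nat_lit 5) (nat_lit 659) (nat_lit 608) (nat_lit 293)) (XT.lf (nat_lit 0) (nat_lit 18775754914) (nat_lit 760) (nat_lit 17101439562) (nat_lit 76) (nat_lit 4675112169) (nat_lit 305)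 (nat_lit 5) (nat_lit 315) (nat_lit 5) (nat_lit 306) (nat_lit 5) (nat_lit 660) (nat_lit 608) (nat_lit 292))) (XT.nd (nat_lit 78) (nat_lit 608) (nat_lit 0) (XT.lf (nat_lit 0) (nat_lit 6297155084) (nat_lit 608) (nat_lit 19210362558) (nat_lit 684) (nat_lit 15513317779) (nat_lit 297) (nat_lit 5) (nat_lit 305) (nat_lit 5) (nat_lit 306) (nat_lit 5) (nat_lit 661) (nat_lit 608) (nat_lit 291)) (XT.nd (nat_lit 78) (nat_lit 608) (nat_lit 0) (XT.lf (nat_lit 0) (nat_lit 30393851956) (nat_lit 608) (nat_lit 2093456589) (nat_lit 684) (nat_lit 9009158401) (nat_lit 297) (nat_lit 5) (nat_lit 305) (nat_lit 5) (nat_lit 306) (nat_lit 5) (nat_lit 662) (nat_lit 608) (nat_lit 290)) (XT.lf (nat_lit 0) (nat_lit 13060724561) (nat_lit 608) (nat_lit 26729192516) (nat_lit 684) (nat_lit 2188029620) (nat_lit 289) (nat_lit 5) (nat_lit 297) (nat_lit 5) (nat_lit 298) (nat_lit 5) (nat_lit 663) (nat_lit 608) (nat_lit 289))))) (XT.nd (nat_lit 156) (nat_lit 1140) (nat_lit 0) (XT.nd (nat_lit 78) (nat_lit 608) (nat_lit 0) (XT.lf (nat_lit 0) (nat_lit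 4794495075) (nat_lit 684) (nat_lit 4656743156) (nat_lit 76) (nat_lit 33015447974) (nat_lit 288) (nat_lit 5) (nat_lit 297) (nat_lit 5) (nat_lit 289) (nat_lit 5) (nat_lit 664) (nat_lit 608) (nat_lit 288)) (XT.lf (nat_lit 0) (nat_lit 12072176911) (nat_lit 684) (nat_lit 22676761453) (nat_lit 76) (nat_lit 8212276824) (nat_lit 280) (nat_lit 5) (nat_lit 289) (nat_lit 5) (nat_lit 281) (nat_lit 5) (nat_lit 665) (nat_lit 608) (nat_lit 287))) (XT.nd (nat_lit 78) (nat_lit 532) (nat_lit 0) (XT.lf (nat_lit 0) (nat_lit 2288137034) (nat_lit 608) (nat_lit 17314882278) (nat_lit 684) (nat_lit 23860463330) (nat_lit 272) (nat_lit 5) (nat_lit 280) (nat_lit 5) (nat_lit 281) (nat_lit 5) (nat_lit 666) (nat_lit 608) (nat_lit 286)) (XT.nd (nat_lit 78) (nat_lit 532) (nat_lit 0) (XT.lf (nat_lit 0) (nat_lit 27439412950) (nat_lit 684) (nat_lit 15918749279) (nat_lit 76) (nat_lit 614534557) (nat_lit 272) (nat_lit 5) (nat_lit 281) (nat_lit 5) (nat_lit 273) (nat_lit 5) (nat_lit 667) (nat_lit 608) (nat_lit 285)) (XT.lf (nat_lit 0) (nat_lit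 9855931170) (nat_lit 532) (nat_lit 25754003793) (nat_lit 608) (nat_lit 8878612267) (nat_lit 265) (nat_lit 5) (nat_lit 272) (nat_lit 5) (nat_lit 273) (nat_lit 5) (nat_lit 668) (nat_lit 608) (nat_lit 284)))))) (XT.nd (nat_lit 390) (nat_lit 532) (nat_lit 0) (XT.nd (nat_lit 156) (nat_lit 1064) (nat_lit 0) (XT.nd (nat_lit 78) (nat_lit 684) (nat_lit 0) (XT.lf (nat_lit 0) (nat_lit 36360256846) (nat_lit 532) (nat_lit 7689189016) (nat_lit 608) (nat_lit 963157280) (nat_lit 265) (nat_lit 5) (nat_lit 272) (nat_lit 5) (nat_lit 273) (nat_lit 5) (nat_lit 669) (nat_lit 608) (nat_lit 283)) (XT.lf (nat_lit 0) (nat_lit 7204015038) (nat_lit 684) (nat_lit 27578393563) (nat_lit 76) (nat_lit 10760074959) (nat_lit 256) (nat_lit 5) (nat_lit 265) (nat_lit 5) (nat_lit 257) (nat_lit 5) (nat_lit 670) (nat_lit 608) (nat_lit 282))) (XT.nd (nat_lit 78) (nat_lit 1064) (nat_lit 0) (XT.lf (nat_lit 0) (nat_lit 15629796968) (nat_lit 684) (nat_lit 910972069) (nat_lit 76) (nat_lit 29539901989) (nat_lit 256) (nat_lit 5) (nat_lit 265) (nat_lit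 5) (nat_lit 257) (nat_lit 5) (nat_lit 671) (nat_lit 608) (nat_lit 281)) (XT.nd (nat_lit 78) (nat_lit 532) (nat_lit 0) (XT.lf (nat_lit 0) (nat_lit 24410404466) (nat_lit 608) (nat_lit 20003182439) (nat_lit 76) (nat_lit 2212309163) (nat_lit 249) (nat_lit 5) (nat_lit 257) (nat_lit 5) (nat_lit 250) (nat_lit 5) (nat_lit 672) (nat_lit 608) (nat_lit 280)) (XT.lf (nat_lit 0) (nat_lit 7525022821) (nat_lit 532) (nat_lit 26004970885) (nat_lit 608) (nat_lit 13648764538) (nat_lit 242) (nat_lit 5) (nat_lit 249) (nat_lit 5) (nat_lit 250) (nat_lit 5) (nat_lit 673) (nat_lit 608) (nat_lit 279))))) (XT.nd (nat_lit 76128) (nat_lit 0) (nat_lit 18696) (XT.nd (nat_lit 78) (nat_lit 532) (nat_lit 0) (XT.lf (nat_lit 0) (nat_lit 35873345787) (nat_lit 532) (nat_lit 7091690716) (nat_lit 608) (nat_lit 4774979948) (nat_lit 242) (nat_lit 5) (nat_lit 249) (nat_lit 5) (nat_lit 250) (nat_lit 5) (nat_lit 674) (nat_lit 608) (nat_lit 278)) (XT.lf (nat_lit 0) (nat_lit 4407351181) (nat_lit 532) (nat_lit 31724549597) (nat_lit 76) (nat_lit 12176300680)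 (nat_lit 235) (nat_lit 5) (nat_lit 242) (nat_lit 5) (nat_lit 236) (nat_lit 5) (nat_lit 675) (nat_lit 608) (nat_lit 277))) (XT.nd (nat_lit 78) (nat_lit 0) (nat_lit 0) (XT.lf (nat_lit 0) (nat_lit 1182484071) (nat_lit 1900) (nat_lit 5342183529) (nat_lit 1900) (nat_lit 5342183529) (nat_lit 481) (nat_lit 3) (nat_lit 506) (nat_lit 3) (nat_lit 506) (nat_lit 5) (nat_lit 609) (nat_lit 609) (nat_lit 342)) (XT.nd (nat_lit 78) (nat_lit 0) (nat_lit 76) (XT.lf (nat_lit 76) (nat_lit 1149899475) (nat_lit 0) (nat_lit 1363922787) (nat_lit 1900) (nat_lit 21454709366) (nat_lit 482) (nat_lit 5) (nat_lit 481) (nat_lit 3) (nat_lit 506) (nat_lit 5) (nat_lit 610) (nat_lit 609) (nat_lit 341)) (XT.lf (nat_lit 0) (nat_lit 2803268427) (nat_lit 1824) (nat_lit 10911616898) (nat_lit 1900) (nat_lit 10490420056) (nat_lit 482) (nat_lit 5) (nat_lit 506) (nat_lit 5) (nat_lit 507) (nat_lit 5) (nat_lit 611) (nat_lit 609) (nat_lit 340))))))) (XT.nd (nat_lit 780) (nat_lit 1140) (nat_lit 0) (XT.nd (nat_lit 390) (nat_lit 0) (nat_lit 228) (XT.nd (nat_lit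 156) (nat_lit 0) (nat_lit 76) (XT.nd (nat_lit 78) (nat_lit 0) (nat_lit 76) (XT.lf (nat_lit 76) (nat_lit 1239122227) (nat_lit 0) (nat_lit 1873430729) (nat_lit 1900) (nat_lit 21333980755) (nat_lit 483) (nat_lit 5) (nat_lit 482) (nat_lit 5) (nat_lit 507) (nat_lit 5) (nat_lit 612) (nat_lit 609) (nat_lit 339)) (XT.lf (nat_lit 0) (nat_lit 3565016730) (nat_lit 1824) (nat_lit 10978770640) (nat_lit 1900) (nat_lit 10146059457) (nat_lit 483) (nat_lit 5) (nat_lit 507) (nat_lit 5) (nat_lit 508) (nat_lit 5) (nat_lit 613) (nat_lit 609) (nat_lit 338))) (XT.nd (nat_lit 78) (nat_lit 0) (nat_lit 76) (XT.lf (nat_lit 76) (nat_lit 1500049947) (nat_lit 0) (nat_lit 2545713495) (nat_lit 1900) (nat_lit 20891878177) (nat_lit 484) (nat_lit 5) (nat_lit 483) (nat_lit 5) (nat_lit 508) (nat_lit 5) (nat_lit 614) (nat_lit 609) (nat_lit 337)) (XT.nd (nat_lit 78) (nat_lit 0) (nat_lit 0) (XT.lf (nat_lit 0) (nat_lit 4670357129) (nat_lit 1824) (nat_lit 10876782720) (nat_lit 1900) (nat_lit 9640567905) (nat_lit 484) (nat_lit 5) (nat_lit 508) (nat_lit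 5) (nat_lit 509) (nat_lit 5) (nat_lit 615) (nat_lit 609) (nat_lit 336)) (XT.lf (nat_lit 76) (nat_lit 1942174898) (nat_lit 0) (nat_lit 3391934575) (nat_lit 1900) (nat_lit 20108132486) (nat_lit 485) (nat_lit 5) (nat_lit 484) (nat_lit 5) (nat_lit 509) (nat_lit 5) (nat_lit 616) (nat_lit 609) (nat_lit 335))))) (XT.nd (nat_lit 156) (nat_lit 0) (nat_lit 76) (XT.nd (nat_lit 78) (nat_lit 0) (nat_lit 0) (XT.lf (nat_lit 0) (nat_lit 6140333571) (nat_lit 1824) (nat_lit 10596148191) (nat_lit 1900) (nat_lit 8962801235) (nat_lit 485) (nat_lit 5) (nat_lit 509) (nat_lit 5) (nat_lit 510) (nat_lit 5) (nat_lit 617) (nat_lit 609) (nat_lit 334)) (XT.lf (nat_lit 76) (nat_lit 2575465853) (nat_lit 0) (nat_lit 4423704053) (nat_lit 1900) (nat_lit 18961565276) (nat_lit 486) (nat_lit 5) (nat_lit 485) (nat_lit 5) (nat_lit 510) (nat_lit 5) (nat_lit 618) (nat_lit 609) (nat_lit 333))) (XT.nd (nat_lit 78) (nat_lit 0) (nat_lit 0) (XT.lf (nat_lit 0) (nat_lit 7996930755) (nat_lit 1824) (nat_lit 10126885451) (nat_lit 1900) (nat_lit 8101165331)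 (nat_lit 486) (nat_lit 5) (nat_lit 510) (nat_lit 5) (nat_lit 511) (nat_lit 5) (nat_lit 619) (nat_lit 609) (nat_lit 332)) (XT.nd (nat_lit 78) (nat_lit 0) (nat_lit 76) (XT.lf (nat_lit 76) (nat_lit 3410386057) (nat_lit 0) (nat_lit 5653102442) (nat_lit 1900) (nat_lit 17430047563) (nat_lit 487) (nat_lit 5) (nat_lit 486) (nat_lit 5) (nat_lit 511) (nat_lit 5) (nat_lit 620) (nat_lit 609) (nat_lit 331)) (XT.lf (nat_lit 0) (nat_lit 10263116569) (nat_lit 1824) (nat_lit 9458518147) (nat_lit 1900) (nat_lit 7043592255) (nat_lit 487) (nat_lit 5) (nat_lit 511) (nat_lit 5) (nat_lit 512) (nat_lit 5) (nat_lit 621) (nat_lit 609) (nat_lit 330)))))) (XT.nd (nat_lit 390) (nat_lit 1520) (nat_lit 0) (XT.nd (nat_lit 156) (nat_lit 0) (nat_lit 76) (XT.nd (nat_lit 78) (nat_lit 0) (nat_lit 76) (XT.lf (nat_lit 76) (nat_lit 4457912022) (nat_lit 0) (nat_lit 7092705268) (nat_lit 1900) (nat_lit 15490456881) (nat_lit 488) (nat_lit 5) (nat_lit 487) (nat_lit 5) (nat_lit 512) (nat_lit 5) (nat_lit 622) (nat_lit 609) (nat_lit 329)) (XT.lf (nat_lit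 0) (nat_lit 12962886172) (nat_lit 1824) (nat_lit 8580056243) (nat_lit 1900) (nat_lit 5777515612) (nat_lit 488) (nat_lit 5) (nat_lit 512) (nat_lit 5) (nat_lit 513) (nat_lit 5) (nat_lit 623) (nat_lit 609) (nat_lit 328))) (XT.nd (nat_lit 78) (nat_lit 0) (nat_lit 76) (XT.lf (nat_lit 76) (nat_lit 5729553198) (nat_lit 0) (nat_lit 8755608478) (nat_lit 1900) (nat_lit 13118632730) (nat_lit 489) (nat_lit 5) (nat_lit 488) (nat_lit 5) (nat_lit 513) (nat_lit 5) (nat_lit 624) (nat_lit 609) (nat_lit 327)) (XT.nd (nat_lit 78) (nat_lit 0) (nat_lit 0) (XT.lf (nat_lit 0) (nat_lit 16121307775) (nat_lit 1824) (nat_lit 7479976209) (nat_lit 1900) (nat_lit 4289845099) (nat_lit 489) (nat_lit 5) (nat_lit 513) (nat_lit 5) (nat_lit 514) (nat_lit 5) (nat_lit 625) (nat_lit 609) (nat_lit 326)) (XT.lf (nat_lit 76) (nat_lit 7237372545) (nat_lit 0) (nat_lit 10655454680) (nat_lit 1900) (nat_lit 10289330289) (nat_lit 490) (nat_lit 5) (nat_lit 489) (nat_lit 5) (nat_lit 514) (nat_lit 5) (nat_lit 626) (nat_lit 609) (nat_lit 325))))) (XT.nd (nat_lit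 234) (nat_lit 1748) (nat_lit 0) (XT.nd (nat_lit 78) (nat_lit 0) (nat_lit 0) (XT.lf (nat_lit 0) (nat_lit 19764570210) (nat_lit 1824) (nat_lit 6146200316) (nat_lit 1900) (nat_lit 2566940192) (nat_lit 490) (nat_lit 5) (nat_lit 514) (nat_lit 5) (nat_lit 515) (nat_lit 5) (nat_lit 627) (nat_lit 609) (nat_lit 324)) (XT.nd (nat_lit 78) (nat_lit 0) (nat_lit 76) (XT.lf (nat_lit 76) (nat_lit 8994008027) (nat_lit 0) (nat_lit 12806460295) (nat_lit 1900) (nat_lit 6976172327) (nat_lit 491) (nat_lit 5) (nat_lit 490) (nat_lit 5) (nat_lit 515) (nat_lit 5) (nat_lit 628) (nat_lit 609) (nat_lit 323)) (XT.lf (nat_lit 0) (nat_lit 23920032356) (nat_lit 1824) (nat_lit 4566075010) (nat_lit 1900) (nat_lit 594582918) (nat_lit 491) (nat_lit 5) (nat_lit 515) (nat_lit 5) (nat_lit 516) (nat_lit 5) (nat_lit 629) (nat_lit 609) (nat_lit 322)))) (XT.nd (nat_lit 78) (nat_lit 1824) (nat_lit 0) (XT.lf (nat_lit 76) (nat_lit 11012695059) (nat_lit 0) (nat_lit 15223443662) (nat_lit 1900) (nat_lit 3151599234) (nat_lit 492) (nat_lit 5) (nat_lit 491)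 (nat_lit 5) (nat_lit 516) (nat_lit 5) (nat_lit 630) (nat_lit 609) (nat_lit 321)) (XT.nd (nat_lit 78) (nat_lit 1824) (nat_lit 0) (XT.lf (nat_lit 76) (nat_lit 26963205159) (nat_lit 0) (nat_lit 1663872313) (nat_lit 1900) (nat_lit 1073278965) (nat_lit 492) (nat_lit 5) (nat_lit 491) (nat_lit 5) (nat_lit 516) (nat_lit 5) (nat_lit 631) (nat_lit 609) (nat_lit 320)) (XT.lf (nat_lit 0) (nat_lit 1197271808) (nat_lit 1900) (nat_lit 16716548001) (nat_lit 1976) (nat_lit 12101983823) (nat_lit 467) (nat_lit 5) (nat_lit 492) (nat_lit 5) (nat_lit 493) (nat_lit 5) (nat_lit 632) (nat_lit 609) (nat_lit 319))))))))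
noncomputable def xc214 : XT := (XT.nd (nat_lit 1560) (nat_lit 7828) (nat_lit 0) (XT.nd (nat_lit 780) (nat_lit 5016) (nat_lit 0) (XT.nd (nat_lit 390) (nat_lit 1748) (nat_lit 0) (XT.nd (nat_lit 156) (nat_lit 1976) (nat_lit 0) (XT.nd (nat_lit 78) (nat_lit 0) (nat_lit 76) (XT.lf (nat_lit 0) (nat_lit 3526314033) (nat_lit 1900) (nat_lit 663703715) (nat_lit 1976) (nat_lit 26146851163) (nat_lit 467) (nat_lit 5) (nat_lit 492) (nat_lit 5) (nat_lit 493) (nat_lit 5) (nat_lit 633) (nat_lit 609) (nat_lit 318)) (XT.lf (nat_lit 0) (nat_lit 6067620883) (nat_lit 1900) (nat_lit 14809464425) (nat_lit 76) (nat_lit 9783956570) (nat_lit 468) (nat_lit 5) (nat_lit 493) (nat_lit 5) (nat_lit 469) (nat_lit 5) (nat_lit 634) (nat_lit 609) (nat_lit 317))) (XT.nd (nat_lit 78) (nat_lit 912) (nat_lit 0) (XT.lf (nat_lit 0) (nat_lit 1707414275) (nat_lit 1140) (nat_lit 6993658004) (nat_lit 1216) (nat_lit 22289799713) (nat_lit 453) (nat_lit 5) (nat_lit 468) (nat_lit 5) (nat_lit 469) (nat_lit 5) (nat_lit 635) (nat_lit 609) (nat_lit 316)) (XT.nd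 (nat_lit 78) (nat_lit 912) (nat_lit 0) (XT.lf (nat_lit 0) (nat_lit 11531796280) (nat_lit 1216) (nat_lit 12618910240) (nat_lit 76) (nat_lit 7173700174) (nat_lit 453) (nat_lit 5) (nat_lit 469) (nat_lit 5) (nat_lit 454) (nat_lit 5) (nat_lit 636) (nat_lit 609) (nat_lit 315)) (XT.lf (nat_lit 0) (nat_lit 4388420483) (nat_lit 912) (nat_lit 10103591422) (nat_lit 988) (nat_lit 17171142695) (nat_lit 441) (nat_lit 5) (nat_lit 453) (nat_lit 5) (nat_lit 454) (nat_lit 5) (nat_lit 637) (nat_lit 609) (nat_lit 314))))) (XT.nd (nat_lit 156) (nat_lit 836) (nat_lit 0) (XT.nd (nat_lit 78) (nat_lit 912) (nat_lit 0) (XT.lf (nat_lit 0) (nat_lit 17622196885) (nat_lit 988) (nat_lit 10129796989) (nat_lit 76) (nat_lit 4254468346) (nat_lit 441) (nat_lit 5) (nat_lit 454) (nat_lit 5) (nat_lit 442) (nat_lit 5) (nat_lit 638) (nat_lit 609) (nat_lit 313)) (XT.lf (nat_lit 0) (nat_lit 7386259850) (nat_lit 912) (nat_lit 13541727416) (nat_lit 988) (nat_lit 11426388743) (nat_lit 429) (nat_lit 5) (nat_lit 441) (nat_lit 5) (nat_lit 442) (nat_lit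 5) (nat_lit 639) (nat_lit 609) (nat_lit 312))) (XT.nd (nat_lit 78) (nat_lit 836) (nat_lit 0) (XT.lf (nat_lit 0) (nat_lit 24372665845) (nat_lit 988) (nat_lit 7326340783) (nat_lit 76) (nat_lit 1008786050) (nat_lit 429) (nat_lit 5) (nat_lit 442) (nat_lit 5) (nat_lit 430) (nat_lit 5) (nat_lit 640) (nat_lit 609) (nat_lit 311)) (XT.nd (nat_lit 78) (nat_lit 0) (nat_lit 0) (XT.lf (nat_lit 0) (nat_lit 10717419193) (nat_lit 836) (nat_lit 17326279884) (nat_lit 912) (nat_lit 5021429431) (nat_lit 418) (nat_lit 5) (nat_lit 429) (nat_lit 5) (nat_lit 430) (nat_lit 5) (nat_lit 641) (nat_lit 609) (nat_lit 310)) (XT.lf (nat_lit 0) (nat_lit 29219644765) (nat_lit 836) (nat_lit 2615892187) (nat_lit 912) (nat_lit 1593126474) (nat_lit 418) (nat_lit 5) (nat_lit 429) (nat_lit 5) (nat_lit 430) (nat_lit 5) (nat_lit 642) (nat_lit 609) (nat_lit 309)))))) (XT.nd (nat_lit 390) (nat_lit 2356) (nat_lit 0) (XT.nd (nat_lit 156) (nat_lit 1672) (nat_lit 0) (XT.nd (nat_lit 78) (nat_lit 0) (nat_lit 0) (XT.lf (nat_lit 0) (nat_lit 2052094901) (nat_lit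 988) (nat_lit 19410390410) (nat_lit 76) (nat_lit 12333270165) (nat_lit 405) (nat_lit 5) (nat_lit 418) (nat_lit 5) (nat_lit 406) (nat_lit 5) (nat_lit 643) (nat_lit 609) (nat_lit 308)) (XT.lf (nat_lit 0) (nat_lit 5792931554) (nat_lit 988) (nat_lit 790728418) (nat_lit 76) (nat_lit 27585437976) (nat_lit 405) (nat_lit 5) (nat_lit 418) (nat_lit 5) (nat_lit 406) (nat_lit 5) (nat_lit 644) (nat_lit 609) (nat_lit 307))) (XT.nd (nat_lit 78) (nat_lit 836) (nat_lit 0) (XT.lf (nat_lit 0) (nat_lit 9783203324) (nat_lit 912) (nat_lit 16162638473) (nat_lit 76) (nat_lit 8600573150) (nat_lit 394) (nat_lit 5) (nat_lit 406) (nat_lit 5) (nat_lit 395) (nat_lit 5) (nat_lit 645) (nat_lit 609) (nat_lit 306)) (XT.nd (nat_lit 78) (nat_lit 0) (nat_lit 0) (XT.lf (nat_lit 0) (nat_lit 3015509497) (nat_lit 836) (nat_lit 10904615006) (nat_lit 912) (nat_lit 21009816947) (nat_lit 383) (nat_lit 5) (nat_lit 394) (nat_lit 5) (nat_lit 395) (nat_lit 5) (nat_lit 646) (nat_lit 609) (nat_lit 305)) (XT.lf (nat_lit 0) (nat_lit 18276117925) (nat_lit 912)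 (nat_lit 12553932298) (nat_lit 76) (nat_lit 4488361629) (nat_lit 383) (nat_lit 5) (nat_lit 395) (nat_lit 5) (nat_lit 384) (nat_lit 5) (nat_lit 647) (nat_lit 609) (nat_lit 304))))) (XT.nd (nat_lit 156) (nat_lit 1596) (nat_lit 0) (XT.nd (nat_lit 78) (nat_lit 0) (nat_lit 0) (XT.lf (nat_lit 0) (nat_lit 7214471428) (nat_lit 760) (nat_lit 15622194316) (nat_lit 836) (nat_lit 12875637271) (nat_lit 373) (nat_lit 5) (nat_lit 383) (nat_lit 5) (nat_lit 384) (nat_lit 5) (nat_lit 648) (nat_lit 609) (nat_lit 303)) (XT.lf (nat_lit 0) (nat_lit 27546717312) (nat_lit 760) (nat_lit 24348895) (nat_lit 836) (nat_lit 8541353001) (nat_lit 373) (nat_lit 5) (nat_lit 383) (nat_lit 5) (nat_lit 384) (nat_lit 5) (nat_lit 649) (nat_lit 609) (nat_lit 302))) (XT.nd (nat_lit 78) (nat_lit 836) (nat_lit 0) (XT.lf (nat_lit 0) (nat_lit 11815194563) (nat_lit 760) (nat_lit 20763240089) (nat_lit 836) (nat_lit 3938537517) (nat_lit 363) (nat_lit 5) (nat_lit 373) (nat_lit 5) (nat_lit 374) (nat_lit 5) (nat_lit 650) (nat_lit 609) (nat_lit 301)) (XT.nd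 (nat_lit 78) (nat_lit 760) (nat_lit 0) (XT.lf (nat_lit 0) (nat_lit 802875649) (nat_lit 836) (nat_lit 4215804784) (nat_lit 76) (nat_lit 31909708367) (nat_lit 362) (nat_lit 5) (nat_lit 373) (nat_lit 5) (nat_lit 363) (nat_lit 5) (nat_lit 651) (nat_lit 609) (nat_lit 300)) (XT.lf (nat_lit 0) (nat_lit 5767033376) (nat_lit 836) (nat_lit 20544502018) (nat_lit 76) (nat_lit 11032364667) (nat_lit 352) (nat_lit 5) (nat_lit 363) (nat_lit 5) (nat_lit 353) (nat_lit 5) (nat_lit 652) (nat_lit 609) (nat_lit 299))))))) (XT.nd (nat_lit 780) (nat_lit 3648) (nat_lit 0) (XT.nd (nat_lit 390) (nat_lit 2052) (nat_lit 0) (XT.nd (nat_lit 156) (nat_lit 1368) (nat_lit 0) (XT.nd (nat_lit 78) (nat_lit 0) (nat_lit 0) (XT.lf (nat_lit 0) (nat_lit 496290991) (nat_lit 760) (nat_lit 10397606866) (nat_lit 836) (nat_lit 26872555256) (nat_lit 342) (nat_lit 5) (nat_lit 352) (nat_lit 5) (nat_lit 353) (nat_lit 5) (nat_lit 653) (nat_lit 609) (nat_lit 298)) (XT.lf (nat_lit 0) (nat_lit 16298464146) (nat_lit 836) (nat_lit 15998816483) (nat_lit 76) (nat_lit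 5896673345) (nat_lit 342) (nat_lit 5) (nat_lit 353) (nat_lit 5) (nat_lit 343) (nat_lit 5) (nat_lit 654) (nat_lit 609) (nat_lit 297))) (XT.nd (nat_lit 78) (nat_lit 684) (nat_lit 0) (XT.lf (nat_lit 0) (nat_lit 5702209292) (nat_lit 684) (nat_lit 16213327621) (nat_lit 760) (nat_lit 16712379672) (nat_lit 333) (nat_lit 5) (nat_lit 342) (nat_lit 5) (nat_lit 343) (nat_lit 5) (nat_lit 655) (nat_lit 609) (nat_lit 296)) (XT.nd (nat_lit 78) (nat_lit 684) (nat_lit 0) (XT.lf (nat_lit 0) (nat_lit 27752822031) (nat_lit 760) (nat_lit 11017937587) (nat_lit 76) (nat_lit 297641449) (nat_lit 333) (nat_lit 5) (nat_lit 343) (nat_lit 5) (nat_lit 334) (nat_lit 5) (nat_lit 656) (nat_lit 609) (nat_lit 295)) (XT.lf (nat_lit 0) (nat_lit 11368051130) (nat_lit 684) (nat_lit 22518562945) (nat_lit 760) (nat_lit 5627485975) (nat_lit 324) (nat_lit 5) (nat_lit 333) (nat_lit 5) (nat_lit 334) (nat_lit 5) (nat_lit 657) (nat_lit 609) (nat_lit 294))))) (XT.nd (nat_lit 156) (nat_lit 1292) (nat_lit 0) (XT.nd (nat_lit 78) (nat_lit 684) (nat_lit 0)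 (XT.lf (nat_lit 0) (nat_lit 245094973) (nat_lit 760) (nat_lit 5619410680) (nat_lit 76) (nat_lit 34102724494) (nat_lit 323) (nat_lit 5) (nat_lit 333) (nat_lit 5) (nat_lit 324) (nat_lit 5) (nat_lit 658) (nat_lit 609) (nat_lit 293)) (XT.lf (nat_lit 0) (nat_lit 6345615894) (nat_lit 760) (nat_lit 22950623608) (nat_lit 76) (nat_lit 11128722614) (nat_lit 314) (nat_lit 5) (nat_lit 324) (nat_lit 5) (nat_lit 315) (nat_lit 5) (nat_lit 659) (nat_lit 609) (nat_lit 292))) (XT.nd (nat_lit 78) (nat_lit 608) (nat_lit 0) (XT.lf (nat_lit 0) (nat_lit 176621983) (nat_lit 684) (nat_lit 12468098507) (nat_lit 760) (nat_lit 28245596802) (nat_lit 305) (nat_lit 5) (nat_lit 314) (nat_lit 5) (nat_lit 315) (nat_lit 5) (nat_lit 660) (nat_lit 609) (nat_lit 291)) (XT.nd (nat_lit 78) (nat_lit 608) (nat_lit 0) (XT.lf (nat_lit 0) (nat_lit 19253975556) (nat_lit 760) (nat_lit 17317560637) (nat_lit 76) (nat_lit 4789760045) (nat_lit 305) (nat_lit 5) (nat_lit 315) (nat_lit 5) (nat_lit 306) (nat_lit 5) (nat_lit 661) (nat_lit 609) (nat_lit 290))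 (XT.lf (nat_lit 0) (nat_lit 6548177562) (nat_lit 608) (nat_lit 19570994239) (nat_lit 684) (nat_lit 15720047870) (nat_lit 297) (nat_lit 5) (nat_lit 305) (nat_lit 5) (nat_lit 306) (nat_lit 5) (nat_lit 662) (nat_lit 609) (nat_lit 289)))))) (XT.nd (nat_lit 390) (nat_lit 1748) (nat_lit 0) (XT.nd (nat_lit 156) (nat_lit 1292) (nat_lit 0) (XT.nd (nat_lit 78) (nat_lit 608) (nat_lit 0) (XT.lf (nat_lit 0) (nat_lit 31124355835) (nat_lit 608) (nat_lit 2112212418) (nat_lit 684) (nat_lit 9087835426) (nat_lit 297) (nat_lit 5) (nat_lit 305) (nat_lit 5) (nat_lit 306) (nat_lit 5) (nat_lit 663) (nat_lit 609) (nat_lit 288)) (XT.lf (nat_lit 0) (nat_lit 13445589554) (nat_lit 608) (nat_lit 27238638101) (nat_lit 684) (nat_lit 2131305442) (nat_lit 289) (nat_lit 5) (nat_lit 297) (nat_lit 5) (nat_lit 298) (nat_lit 5) (nat_lit 664) (nat_lit 609) (nat_lit 287))) (XT.nd (nat_lit 78) (nat_lit 1216) (nat_lit 0) (XT.lf (nat_lit 0) (nat_lit 4987607422) (nat_lit 684) (nat_lit 4627357802) (nat_lit 76) (nat_lit 33699108056) (nat_lit 288) (nat_lit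 5) (nat_lit 297) (nat_lit 5) (nat_lit 289) (nat_lit 5) (nat_lit 665) (nat_lit 609) (nat_lit 286)) (XT.nd (nat_lit 78) (nat_lit 608) (nat_lit 0) (XT.lf (nat_lit 0) (nat_lit 12409893085) (nat_lit 684) (nat_lit 23006824496) (nat_lit 76) (nat_lit 8401794302) (nat_lit 280) (nat_lit 5) (nat_lit 289) (nat_lit 5) (nat_lit 281) (nat_lit 5) (nat_lit 666) (nat_lit 609) (nat_lit 285)) (XT.lf (nat_lit 0) (nat_lit 2456559644) (nat_lit 608) (nat_lit 17633701380) (nat_lit 684) (nat_lit 24240585529) (nat_lit 272) (nat_lit 5) (nat_lit 280) (nat_lit 5) (nat_lit 281) (nat_lit 5) (nat_lit 667) (nat_lit 609) (nat_lit 284))))) (XT.nd (nat_lit 234) (nat_lit 1216) (nat_lit 0) (XT.nd (nat_lit 78) (nat_lit 532) (nat_lit 0) (XT.lf (nat_lit 0) (nat_lit 28081691145) (nat_lit 684) (nat_lit 16115176027) (nat_lit 76) (nat_lit 653411677) (nat_lit 272) (nat_lit 5) (nat_lit 281) (nat_lit 5) (nat_lit 273) (nat_lit 5) (nat_lit 668) (nat_lit 609) (nat_lit 283)) (XT.nd (nat_lit 78) (nat_lit 0) (nat_lit 0) (XT.lf (nat_lit 0) (nat_lit 10174195740)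 (nat_lit 532) (nat_lit 26240381282) (nat_lit 608) (nat_lit 8961890252) (nat_lit 265) (nat_lit 5) (nat_lit 272) (nat_lit 5) (nat_lit 273) (nat_lit 5) (nat_lit 669) (nat_lit 609) (nat_lit 282)) (XT.lf (nat_lit 0) (nat_lit 37206232519) (nat_lit 532) (nat_lit 7814833005) (nat_lit 608) (nat_lit 889975073) (nat_lit 265) (nat_lit 5) (nat_lit 272) (nat_lit 5) (nat_lit 273) (nat_lit 5) (nat_lit 670) (nat_lit 609) (nat_lit 281)))) (XT.nd (nat_lit 78) (nat_lit 532) (nat_lit 0) (XT.lf (nat_lit 0) (nat_lit 7438501412) (nat_lit 684) (nat_lit 28009147748) (nat_lit 76) (nat_lit 11003874033) (nat_lit 256) (nat_lit 5) (nat_lit 265) (nat_lit 5) (nat_lit 257) (nat_lit 5) (nat_lit 671) (nat_lit 609) (nat_lit 280)) (XT.nd (nat_lit 78) (nat_lit 532) (nat_lit 0) (XT.lf (nat_lit 0) (nat_lit 16031026313) (nat_lit 684) (nat_lit 810746720) (nat_lit 76) (nat_lit 30158736867) (nat_lit 256) (nat_lit 5) (nat_lit 265) (nat_lit 5) (nat_lit 257) (nat_lit 5) (nat_lit 672) (nat_lit 609) (nat_lit 279)) (XT.lf (nat_lit 0) (nat_lit 24986466833)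 (nat_lit 608) (nat_lit 20284020328) (nat_lit 76) (nat_lit 2286167901) (nat_lit 249) (nat_lit 5) (nat_lit 257) (nat_lit 5) (nat_lit 250) (nat_lit 5) (nat_lit 673) (nat_lit 609) (nat_lit 278))))))))
noncomputable def xc215 : XT := (XT.nd (nat_lit 77688) (nat_lit 0) (nat_lit 9956) (XT.nd (nat_lit 76908) (nat_lit 0) (nat_lit 18468) (XT.nd (nat_lit 76518) (nat_lit 0) (nat_lit 18316) (XT.nd (nat_lit 76284) (nat_lit 0) (nat_lit 18164) (XT.nd (nat_lit 76206) (nat_lit 0) (nat_lit 18164) (XT.lf (nat_lit 0) (nat_lit 7793964657) (nat_lit 532) (nat_lit 26493529567) (nat_lit 608) (nat_lit 13833099365) (nat_lit 242) (nat_lit 5) (nat_lit 249) (nat_lit 5) (nat_lit 250) (nat_lit 5) (nat_lit 674) (nat_lit 609) (nat_lit 277)) (XT.lf (nat_lit 0) (nat_lit 1323107845) (nat_lit 1900) (nat_lit 5389368642) (nat_lit 1900) (nat_lit 5389368642) (nat_lit 481) (nat_lit 3) (nat_lit 506) (nat_lit 3) (nat_lit 506) (nat_lit 5) (nat_lit 610) (nat_lit 610) (nat_lit 340))) (XT.nd (nat_lit 78) (nat_lit 0) (nat_lit 76) (XT.lf (nat_lit 76) (nat_lit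 1291429598) (nat_lit 0) (nat_lit 1502799664) (nat_lit 1900) (nat_lit 21649063446) (nat_lit 482) (nat_lit 5) (nat_lit 481) (nat_lit 3) (nat_lit 506) (nat_lit 5) (nat_lit 611) (nat_lit 610) (nat_lit 339)) (XT.nd (nat_lit 78) (nat_lit 0) (nat_lit 0) (XT.lf (nat_lit 0) (nat_lit 3084241623) (nat_lit 1824) (nat_lit 11008411730) (nat_lit 1900) (nat_lit 10592253174) (nat_lit 482) (nat_lit 5) (nat_lit 506) (nat_lit 5) (nat_lit 507) (nat_lit 5) (nat_lit 612) (nat_lit 610) (nat_lit 338)) (XT.lf (nat_lit 76) (nat_lit 1384543247) (nat_lit 0) (nat_lit 2011541904) (nat_lit 1900) (nat_lit 21534946940) (nat_lit 483) (nat_lit 5) (nat_lit 482) (nat_lit 5) (nat_lit 507) (nat_lit 5) (nat_lit 613) (nat_lit 610) (nat_lit 337))))) (XT.nd (nat_lit 156) (nat_lit 0) (nat_lit 76) (XT.nd (nat_lit 78) (nat_lit 0) (nat_lit 0) (XT.lf (nat_lit 0) (nat_lit 3852618729) (nat_lit 1824) (nat_lit 11075086927) (nat_lit 1900) (nat_lit 10251605533) (nat_lit 483) (nat_lit 5) (nat_lit 507) (nat_lit 5) (nat_lit 508) (nat_lit 5) (nat_lit 614) (nat_lit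 610) (nat_lit 336)) (XT.lf (nat_lit 76) (nat_lit 1652499156) (nat_lit 0) (nat_lit 2687035025) (nat_lit 1900) (nat_lit 21092596749) (nat_lit 484) (nat_lit 5) (nat_lit 483) (nat_lit 5) (nat_lit 508) (nat_lit 5) (nat_lit 615) (nat_lit 610) (nat_lit 335))) (XT.nd (nat_lit 78) (nat_lit 0) (nat_lit 0) (XT.lf (nat_lit 0) (nat_lit 4971870630) (nat_lit 1824) (nat_lit 10969515712) (nat_lit 1900) (nat_lit 9745907153) (nat_lit 484) (nat_lit 5) (nat_lit 508) (nat_lit 5) (nat_lit 509) (nat_lit 5) (nat_lit 616) (nat_lit 610) (nat_lit 334)) (XT.nd (nat_lit 78) (nat_lit 0) (nat_lit 76) (XT.lf (nat_lit 76) (nat_lit 2104999988) (nat_lit 0) (nat_lit 3540622487) (nat_lit 1900) (nat_lit 20301361543) (nat_lit 485) (nat_lit 5) (nat_lit 484) (nat_lit 5) (nat_lit 509) (nat_lit 5) (nat_lit 617) (nat_lit 610) (nat_lit 333)) (XT.lf (nat_lit 0) (nat_lit 6463440131) (nat_lit 1824) (nat_lit 10681983607) (nat_lit 1900) (nat_lit 9063832879) (nat_lit 485) (nat_lit 5) (nat_lit 509) (nat_lit 5) (nat_lit 510) (nat_lit 5) (nat_lit 618) (nat_lit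 610) (nat_lit 332)))))) (XT.nd (nat_lit 390) (nat_lit 0) (nat_lit 228) (XT.nd (nat_lit 156) (nat_lit 0) (nat_lit 76) (XT.nd (nat_lit 78) (nat_lit 0) (nat_lit 76) (XT.lf (nat_lit 76) (nat_lit 2752233195) (nat_lit 0) (nat_lit 4584105808) (nat_lit 1900) (nat_lit 19139661246) (nat_lit 486) (nat_lit 5) (nat_lit 485) (nat_lit 5) (nat_lit 510) (nat_lit 5) (nat_lit 619) (nat_lit 610) (nat_lit 331)) (XT.lf (nat_lit 0) (nat_lit 8349730836) (nat_lit 1824) (nat_lit 10202291136) (nat_lit 1900) (nat_lit 8193596158) (nat_lit 486) (nat_lit 5) (nat_lit 510) (nat_lit 5) (nat_lit 511) (nat_lit 5) (nat_lit 620) (nat_lit 610) (nat_lit 330))) (XT.nd (nat_lit 78) (nat_lit 0) (nat_lit 76) (XT.lf (nat_lit 76) (nat_lit 3604889408) (nat_lit 0) (nat_lit 5829768725) (nat_lit 1900) (nat_lit 17584944959) (nat_lit 487) (nat_lit 5) (nat_lit 486) (nat_lit 5) (nat_lit 511) (nat_lit 5) (nat_lit 621) (nat_lit 610) (nat_lit 329)) (XT.nd (nat_lit 78) (nat_lit 0) (nat_lit 0) (XT.lf (nat_lit 0) (nat_lit 10654150374) (nat_lit 1824) (nat_lit 9519735293)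 (nat_lit 1900) (nat_lit 7122924832) (nat_lit 487) (nat_lit 5) (nat_lit 511) (nat_lit 5) (nat_lit 512) (nat_lit 5) (nat_lit 622) (nat_lit 610) (nat_lit 328)) (XT.lf (nat_lit 76) (nat_lit 4674181682) (nat_lit 0) (nat_lit 7290402141) (nat_lit 1900) (nat_lit 15613647275) (nat_lit 488) (nat_lit 5) (nat_lit 487) (nat_lit 5) (nat_lit 512) (nat_lit 5) (nat_lit 623) (nat_lit 610) (nat_lit 327))))) (XT.nd (nat_lit 156) (nat_lit 0) (nat_lit 76) (XT.nd (nat_lit 78) (nat_lit 0) (nat_lit 0) (XT.lf (nat_lit 0) (nat_lit 13401155286) (nat_lit 1824) (nat_lit 8623090167) (nat_lit 1900) (nat_lit 5839036140) (nat_lit 488) (nat_lit 5) (nat_lit 512) (nat_lit 5) (nat_lit 513) (nat_lit 5) (nat_lit 624) (nat_lit 610) (nat_lit 326)) (XT.lf (nat_lit 76) (nat_lit 5971865626) (nat_lit 0) (nat_lit 8979329900) (nat_lit 1900) (nat_lit 13201142897) (nat_lit 489) (nat_lit 5) (nat_lit 488) (nat_lit 5) (nat_lit 513) (nat_lit 5) (nat_lit 625) (nat_lit 610) (nat_lit 325))) (XT.nd (nat_lit 78) (nat_lit 0) (nat_lit 0) (XT.lf (nat_lit 0) (nat_lit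 16616297668) (nat_lit 1824) (nat_lit 7500586674) (nat_lit 1900) (nat_lit 4328610891) (nat_lit 489) (nat_lit 5) (nat_lit 513) (nat_lit 5) (nat_lit 514) (nat_lit 5) (nat_lit 626) (nat_lit 610) (nat_lit 324)) (XT.nd (nat_lit 78) (nat_lit 0) (nat_lit 76) (XT.lf (nat_lit 76) (nat_lit 7510260443) (nat_lit 0) (nat_lit 10910435434) (nat_lit 1900) (nat_lit 10321699489) (nat_lit 490) (nat_lit 5) (nat_lit 489) (nat_lit 5) (nat_lit 514) (nat_lit 5) (nat_lit 627) (nat_lit 610) (nat_lit 323)) (XT.lf (nat_lit 0) (nat_lit 20326273623) (nat_lit 1824) (nat_lit 6139891378) (nat_lit 1900) (nat_lit 2577766735) (nat_lit 490) (nat_lit 5) (nat_lit 514) (nat_lit 5) (nat_lit 515) (nat_lit 5) (nat_lit 628) (nat_lit 610) (nat_lit 322))))))) (XT.nd (nat_lit 780) (nat_lit 5168) (nat_lit 0) (XT.nd (nat_lit 390) (nat_lit 1976) (nat_lit 0) (XT.nd (nat_lit 156) (nat_lit 1748) (nat_lit 0) (XT.nd (nat_lit 78) (nat_lit 0) (nat_lit 76) (XT.lf (nat_lit 76) (nat_lit 9302270915) (nat_lit 0) (nat_lit 13098189347) (nat_lit 1900) (nat_lit 6948428688)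 (nat_lit 491) (nat_lit 5) (nat_lit 490) (nat_lit 5) (nat_lit 515) (nat_lit 5) (nat_lit 629) (nat_lit 610) (nat_lit 321)) (XT.lf (nat_lit 0) (nat_lit 24558973626) (nat_lit 1824) (nat_lit 4528084376) (nat_lit 1900) (nat_lit 572030510) (nat_lit 491) (nat_lit 5) (nat_lit 515) (nat_lit 5) (nat_lit 516) (nat_lit 5) (nat_lit 630) (nat_lit 610) (nat_lit 320))) (XT.nd (nat_lit 78) (nat_lit 1824) (nat_lit 0) (XT.lf (nat_lit 76) (nat_lit 11361410357) (nat_lit 0) (nat_lit 15557677963) (nat_lit 1900) (nat_lit 3053235186) (nat_lit 492) (nat_lit 5) (nat_lit 491) (nat_lit 5) (nat_lit 516) (nat_lit 5) (nat_lit 631) (nat_lit 610) (nat_lit 319)) (XT.nd (nat_lit 78) (nat_lit 1824) (nat_lit 0) (XT.lf (nat_lit 76) (nat_lit 27628411807) (nat_lit 0) (nat_lit 1726331551) (nat_lit 1900) (nat_lit 936513140) (nat_lit 492) (nat_lit 5) (nat_lit 491) (nat_lit 5) (nat_lit 516) (nat_lit 5) (nat_lit 632) (nat_lit 610) (nat_lit 318)) (XT.lf (nat_lit 0) (nat_lit 1374963653) (nat_lit 1900) (nat_lit 16920442528) (nat_lit 1976) (nat_lit 12317634195)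 (nat_lit 467) (nat_lit 5) (nat_lit 492) (nat_lit 5) (nat_lit 493) (nat_lit 5) (nat_lit 633) (nat_lit 610) (nat_lit 317))))) (XT.nd (nat_lit 156) (nat_lit 1976) (nat_lit 0) (XT.nd (nat_lit 78) (nat_lit 0) (nat_lit 76) (XT.lf (nat_lit 0) (nat_lit 3747572087) (nat_lit 1900) (nat_lit 549098934) (nat_lit 1976) (nat_lit 26643916318) (nat_lit 467) (nat_lit 5) (nat_lit 492) (nat_lit 5) (nat_lit 493) (nat_lit 5) (nat_lit 634) (nat_lit 610) (nat_lit 316)) (XT.lf (nat_lit 0) (nat_lit 6337434356) (nat_lit 1900) (nat_lit 14975499909) (nat_lit 76) (nat_lit 9958354998) (nat_lit 468) (nat_lit 5) (nat_lit 493) (nat_lit 5) (nat_lit 469) (nat_lit 5) (nat_lit 635) (nat_lit 610) (nat_lit 315))) (XT.nd (nat_lit 78) (nat_lit 912) (nat_lit 0) (XT.lf (nat_lit 0) (nat_lit 1870860090) (nat_lit 1140) (nat_lit 7150623175) (nat_lit 1216) (nat_lit 22586274229) (nat_lit 453) (nat_lit 5) (nat_lit 468) (nat_lit 5) (nat_lit 469) (nat_lit 5) (nat_lit 636) (nat_lit 610) (nat_lit 314)) (XT.nd (nat_lit 78) (nat_lit 912) (nat_lit 0) (XT.lf (nat_lit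 0) (nat_lit 11905842566) (nat_lit 1216) (nat_lit 12741542915) (nat_lit 76) (nat_lit 7300637073) (nat_lit 453) (nat_lit 5) (nat_lit 469) (nat_lit 5) (nat_lit 454) (nat_lit 5) (nat_lit 637) (nat_lit 610) (nat_lit 313)) (XT.lf (nat_lit 0) (nat_lit 4605080834) (nat_lit 912) (nat_lit 10318206554) (nat_lit 988) (nat_lit 17370297614) (nat_lit 441) (nat_lit 5) (nat_lit 453) (nat_lit 5) (nat_lit 454) (nat_lit 5) (nat_lit 638) (nat_lit 610) (nat_lit 312)))))) (XT.nd (nat_lit 390) (nat_lit 3420) (nat_lit 0) (XT.nd (nat_lit 156) (nat_lit 836) (nat_lit 0) (XT.nd (nat_lit 78) (nat_lit 912) (nat_lit 0) (XT.lf (nat_lit 0) (nat_lit 18113222984) (nat_lit 988) (nat_lit 10203171289) (nat_lit 76) (nat_lit 4327421639) (nat_lit 441) (nat_lit 5) (nat_lit 454) (nat_lit 5) (nat_lit 442) (nat_lit 5) (nat_lit 639) (nat_lit 610) (nat_lit 311)) (XT.lf (nat_lit 0) (nat_lit 7662356544) (nat_lit 912) (nat_lit 13820888804) (nat_lit 988) (nat_lit 11515480382) (nat_lit 429) (nat_lit 5) (nat_lit 441) (nat_lit 5) (nat_lit 442) (nat_lit 5) (nat_lit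 640) (nat_lit 610) (nat_lit 310))) (XT.nd (nat_lit 78) (nat_lit 836) (nat_lit 0) (XT.lf (nat_lit 0) (nat_lit 24994084136) (nat_lit 988) (nat_lit 7344276070) (nat_lit 76) (nat_lit 1020905268) (nat_lit 429) (nat_lit 5) (nat_lit 442) (nat_lit 5) (nat_lit 430) (nat_lit 5) (nat_lit 641) (nat_lit 610) (nat_lit 309)) (XT.nd (nat_lit 78) (nat_lit 0) (nat_lit 0) (XT.lf (nat_lit 0) (nat_lit 11059513109) (nat_lit 836) (nat_lit 17677227569) (nat_lit 912) (nat_lit 4987043366) (nat_lit 418) (nat_lit 5) (nat_lit 429) (nat_lit 5) (nat_lit 430) (nat_lit 5) (nat_lit 642) (nat_lit 610) (nat_lit 308)) (XT.lf (nat_lit 0) (nat_lit 29929278378) (nat_lit 836) (nat_lit 2672545410) (nat_lit 912) (nat_lit 1492817774) (nat_lit 418) (nat_lit 5) (nat_lit 429) (nat_lit 5) (nat_lit 430) (nat_lit 5) (nat_lit 643) (nat_lit 610) (nat_lit 307))))) (XT.nd (nat_lit 234) (nat_lit 1596) (nat_lit 0) (XT.nd (nat_lit 78) (nat_lit 836) (nat_lit 0) (XT.lf (nat_lit 0) (nat_lit 2221819375) (nat_lit 988) (nat_lit 19669861837) (nat_lit 76) (nat_lit 12577412253)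 (nat_lit 405) (nat_lit 5) (nat_lit 418) (nat_lit 5) (nat_lit 406) (nat_lit 5) (nat_lit 644) (nat_lit 610) (nat_lit 306)) (XT.nd (nat_lit 78) (nat_lit 836) (nat_lit 0) (XT.lf (nat_lit 0) (nat_lit 6034949572) (nat_lit 988) (nat_lit 680330848) (nat_lit 76) (nat_lit 28134672897) (nat_lit 405) (nat_lit 5) (nat_lit 418) (nat_lit 5) (nat_lit 406) (nat_lit 5) (nat_lit 645) (nat_lit 610) (nat_lit 305)) (XT.lf (nat_lit 0) (nat_lit 10103372853) (nat_lit 912) (nat_lit 16358021843) (nat_lit 76) (nat_lit 8773455105) (nat_lit 394) (nat_lit 5) (nat_lit 406) (nat_lit 5) (nat_lit 395) (nat_lit 5) (nat_lit 646) (nat_lit 610) (nat_lit 304)))) (XT.nd (nat_lit 78) (nat_lit 760) (nat_lit 0) (XT.lf (nat_lit 0) (nat_lit 3202847841) (nat_lit 836) (nat_lit 11118568083) (nat_lit 912) (nat_lit 21304663307) (nat_lit 383) (nat_lit 5) (nat_lit 394) (nat_lit 5) (nat_lit 395) (nat_lit 5) (nat_lit 647) (nat_lit 610) (nat_lit 303)) (XT.nd (nat_lit 78) (nat_lit 760) (nat_lit 0) (XT.lf (nat_lit 0) (nat_lit 18762145975) (nat_lit 912) (nat_lit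 12678087093) (nat_lit 76) (nat_lit 4582133701) (nat_lit 383) (nat_lit 5) (nat_lit 395) (nat_lit 5) (nat_lit 384) (nat_lit 5) (nat_lit 648) (nat_lit 610) (nat_lit 302)) (XT.lf (nat_lit 0) (nat_lit 7484849683) (nat_lit 760) (nat_lit 15927510863) (nat_lit 836) (nat_lit 13011806156) (nat_lit 373) (nat_lit 5) (nat_lit 383) (nat_lit 5) (nat_lit 384) (nat_lit 5) (nat_lit 649) (nat_lit 610) (nat_lit 301))))))))
noncomputable def xc216 : XT := (XT.nd (nat_lit 1560) (nat_lit 1748) (nat_lit 0) (XT.nd (nat_lit 780) (nat_lit 3876) (nat_lit 0) (XT.nd (nat_lit 390) (nat_lit 1444) (nat_lit 0) (XT.nd (nat_lit 156) (nat_lit 1596) (nat_lit 0) (XT.nd (nat_lit 78) (nat_lit 760) (nat_lit 0) (XT.lf (nat_lit 0) (nat_lit 28221268155) (nat_lit 760) (nat_lit 17848286) (nat_lit 836) (nat_lit 8593215493) (nat_lit 373) (nat_lit 5) (nat_lit 383) (nat_lit 5) (nat_lit 384) (nat_lit 5) (nat_lit 650) (nat_lit 610) (nat_lit 300)) (XT.lf (nat_lit 0) (nat_lit 12176576909) (nat_lit 760) (nat_lit 21168625075) (nat_lit 836) (nat_lit 3899802635)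 (nat_lit 363) (nat_lit 5) (nat_lit 373) (nat_lit 5) (nat_lit 374) (nat_lit 5) (nat_lit 651) (nat_lit 610) (nat_lit 299))) (XT.nd (nat_lit 78) (nat_lit 1520) (nat_lit 0) (XT.lf (nat_lit 0) (nat_lit 932623872) (nat_lit 836) (nat_lit 4175981150) (nat_lit 76) (nat_lit 32556074834) (nat_lit 362) (nat_lit 5) (nat_lit 373) (nat_lit 5) (nat_lit 363) (nat_lit 5) (nat_lit 652) (nat_lit 610) (nat_lit 298)) (XT.nd (nat_lit 78) (nat_lit 760) (nat_lit 0) (XT.lf (nat_lit 0) (nat_lit 5994708034) (nat_lit 836) (nat_lit 20829892761) (nat_lit 76) (nat_lit 11263927740) (nat_lit 352) (nat_lit 5) (nat_lit 363) (nat_lit 5) (nat_lit 353) (nat_lit 5) (nat_lit 653) (nat_lit 610) (nat_lit 297)) (XT.lf (nat_lit 0) (nat_lit 630890454) (nat_lit 760) (nat_lit 10591826187) (nat_lit 836) (nat_lit 27296843926) (nat_lit 342) (nat_lit 5) (nat_lit 352) (nat_lit 5) (nat_lit 353) (nat_lit 5) (nat_lit 654) (nat_lit 610) (nat_lit 296))))) (XT.nd (nat_lit 156) (nat_lit 760) (nat_lit 0) (XT.nd (nat_lit 78) (nat_lit 684) (nat_lit 0) (XT.lf (nat_lit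 0) (nat_lit 16733286360) (nat_lit 836) (nat_lit 16194473118) (nat_lit 76) (nat_lit 6027893781) (nat_lit 342) (nat_lit 5) (nat_lit 353) (nat_lit 5) (nat_lit 343) (nat_lit 5) (nat_lit 655) (nat_lit 610) (nat_lit 295)) (XT.lf (nat_lit 0) (nat_lit 5939755280) (nat_lit 684) (nat_lit 16521612786) (nat_lit 760) (nat_lit 16936953759) (nat_lit 333) (nat_lit 5) (nat_lit 342) (nat_lit 5) (nat_lit 343) (nat_lit 5) (nat_lit 656) (nat_lit 610) (nat_lit 294))) (XT.nd (nat_lit 78) (nat_lit 760) (nat_lit 0) (XT.lf (nat_lit 0) (nat_lit 28413392371) (nat_lit 760) (nat_lit 11115206994) (nat_lit 76) (nat_lit 319056815) (nat_lit 333) (nat_lit 5) (nat_lit 343) (nat_lit 5) (nat_lit 334) (nat_lit 5) (nat_lit 657) (nat_lit 610) (nat_lit 293)) (XT.nd (nat_lit 78) (nat_lit 76) (nat_lit 0) (XT.lf (nat_lit 0) (nat_lit 11717691699) (nat_lit 684) (nat_lit 22950893576) (nat_lit 760) (nat_lit 5633709419) (nat_lit 324) (nat_lit 5) (nat_lit 333) (nat_lit 5) (nat_lit 334) (nat_lit 5) (nat_lit 658) (nat_lit 610) (nat_lit 292)) (XT.lf (nat_lit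 0) (nat_lit 352871174) (nat_lit 760) (nat_lit 5610547361) (nat_lit 76) (nat_lit 34801096249) (nat_lit 323) (nat_lit 5) (nat_lit 333) (nat_lit 5) (nat_lit 324) (nat_lit 5) (nat_lit 659) (nat_lit 610) (nat_lit 291)))))) (XT.nd (nat_lit 390) (nat_lit 1900) (nat_lit 0) (XT.nd (nat_lit 156) (nat_lit 608) (nat_lit 0) (XT.nd (nat_lit 78) (nat_lit 684) (nat_lit 0) (XT.lf (nat_lit 0) (nat_lit 6574289593) (nat_lit 760) (nat_lit 23287269198) (nat_lit 76) (nat_lit 11369864910) (nat_lit 314) (nat_lit 5) (nat_lit 324) (nat_lit 5) (nat_lit 315) (nat_lit 5) (nat_lit 660) (nat_lit 610) (nat_lit 290)) (XT.lf (nat_lit 0) (nat_lit 301716260) (nat_lit 684) (nat_lit 12696453961) (nat_lit 760) (nat_lit 28707939929) (nat_lit 305) (nat_lit 5) (nat_lit 314) (nat_lit 5) (nat_lit 315) (nat_lit 5) (nat_lit 661) (nat_lit 610) (nat_lit 289))) (XT.nd (nat_lit 78) (nat_lit 608) (nat_lit 0) (XT.lf (nat_lit 0) (nat_lit 19737772428) (nat_lit 760) (nat_lit 17542893283) (nat_lit 76) (nat_lit 4905879768) (nat_lit 305) (nat_lit 5) (nat_lit 315)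 (nat_lit 5) (nat_lit 306) (nat_lit 5) (nat_lit 662) (nat_lit 610) (nat_lit 288)) (XT.nd (nat_lit 78) (nat_lit 0) (nat_lit 0) (XT.lf (nat_lit 0) (nat_lit 6799363505) (nat_lit 608) (nat_lit 19939754023) (nat_lit 684) (nat_lit 15934933001) (nat_lit 297) (nat_lit 5) (nat_lit 305) (nat_lit 5) (nat_lit 306) (nat_lit 5) (nat_lit 663) (nat_lit 610) (nat_lit 287)) (XT.lf (nat_lit 0) (nat_lit 31864708041) (nat_lit 608) (nat_lit 2132240880) (nat_lit 684) (nat_lit 9172027599) (nat_lit 297) (nat_lit 5) (nat_lit 305) (nat_lit 5) (nat_lit 306) (nat_lit 5) (nat_lit 664) (nat_lit 610) (nat_lit 286))))) (XT.nd (nat_lit 156) (nat_lit 1216) (nat_lit 0) (XT.nd (nat_lit 78) (nat_lit 76) (nat_lit 0) (XT.lf (nat_lit 0) (nat_lit 13833350347) (nat_lit 608) (nat_lit 27759248747) (nat_lit 684) (nat_lit 2077348726) (nat_lit 289) (nat_lit 5) (nat_lit 297) (nat_lit 5) (nat_lit 298) (nat_lit 5) (nat_lit 665) (nat_lit 610) (nat_lit 285)) (XT.lf (nat_lit 0) (nat_lit 5180806751) (nat_lit 684) (nat_lit 4602142349) (nat_lit 76) (nat_lit 34395534587)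 (nat_lit 288) (nat_lit 5) (nat_lit 297) (nat_lit 5) (nat_lit 289) (nat_lit 5) (nat_lit 666) (nat_lit 610) (nat_lit 284))) (XT.nd (nat_lit 78) (nat_lit 608) (nat_lit 0) (XT.lf (nat_lit 0) (nat_lit 12750625198) (nat_lit 684) (nat_lit 23348283375) (nat_lit 76) (nat_lit 8594120788) (nat_lit 280) (nat_lit 5) (nat_lit 289) (nat_lit 5) (nat_lit 281) (nat_lit 5) (nat_lit 667) (nat_lit 610) (nat_lit 283)) (XT.nd (nat_lit 78) (nat_lit 0) (nat_lit 0) (XT.lf (nat_lit 0) (nat_lit 2623587674) (nat_lit 608) (nat_lit 17959963889) (nat_lit 684) (nat_lit 24632080181) (nat_lit 272) (nat_lit 5) (nat_lit 280) (nat_lit 5) (nat_lit 281) (nat_lit 5) (nat_lit 668) (nat_lit 610) (nat_lit 282)) (XT.lf (nat_lit 0) (nat_lit 28733184575) (nat_lit 684) (nat_lit 16320266708) (nat_lit 76) (nat_lit 692033956) (nat_lit 272) (nat_lit 5) (nat_lit 281) (nat_lit 5) (nat_lit 273) (nat_lit 5) (nat_lit 669) (nat_lit 610) (nat_lit 281))))))) (XT.nd (nat_lit 76986) (nat_lit 0) (nat_lit 17784) (XT.nd (nat_lit 76596) (nat_lit 0) (nat_lit 17632) (XT.nd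 (nat_lit 156) (nat_lit 1216) (nat_lit 0) (XT.nd (nat_lit 78) (nat_lit 0) (nat_lit 0) (XT.lf (nat_lit 0) (nat_lit 10494121357) (nat_lit 532) (nat_lit 26737600877) (nat_lit 608) (nat_lit 9050495358) (nat_lit 265) (nat_lit 5) (nat_lit 272) (nat_lit 5) (nat_lit 273) (nat_lit 5) (nat_lit 670) (nat_lit 610) (nat_lit 280)) (XT.lf (nat_lit 0) (nat_lit 38064515700) (nat_lit 532) (nat_lit 7944082576) (nat_lit 608) (nat_lit 818918987) (nat_lit 265) (nat_lit 5) (nat_lit 272) (nat_lit 5) (nat_lit 273) (nat_lit 5) (nat_lit 671) (nat_lit 610) (nat_lit 279))) (XT.nd (nat_lit 78) (nat_lit 532) (nat_lit 0) (XT.lf (nat_lit 0) (nat_lit 7674166936) (nat_lit 684) (nat_lit 28453208360) (nat_lit 76) (nat_lit 11251438610) (nat_lit 256) (nat_lit 5) (nat_lit 265) (nat_lit 5) (nat_lit 257) (nat_lit 5) (nat_lit 672) (nat_lit 610) (nat_lit 278)) (XT.nd (nat_lit 78) (nat_lit 532) (nat_lit 0) (XT.lf (nat_lit 0) (nat_lit 16436838502) (nat_lit 684) (nat_lit 713116220) (nat_lit 76) (nat_lit 30788859737) (nat_lit 256) (nat_lit 5) (nat_lit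 265) (nat_lit 5) (nat_lit 257) (nat_lit 5) (nat_lit 673) (nat_lit 610) (nat_lit 277)) (XT.lf (nat_lit 0) (nat_lit 25570638959) (nat_lit 608) (nat_lit 20575104657) (nat_lit 76) (nat_lit 2360353922) (nat_lit 249) (nat_lit 5) (nat_lit 257) (nat_lit 5) (nat_lit 250) (nat_lit 5) (nat_lit 674) (nat_lit 610) (nat_lit 276))))) (XT.nd (nat_lit 156) (nat_lit 0) (nat_lit 76) (XT.nd (nat_lit 78) (nat_lit 0) (nat_lit 0) (XT.lf (nat_lit 0) (nat_lit 1462001847) (nat_lit 1900) (nat_lit 5439814072) (nat_lit 1900) (nat_lit 5439814072) (nat_lit 481) (nat_lit 3) (nat_lit 506) (nat_lit 3) (nat_lit 506) (nat_lit 5) (nat_lit 611) (nat_lit 611) (nat_lit 338)) (XT.lf (nat_lit 76) (nat_lit 1431187576) (nat_lit 0) (nat_lit 1640120576) (nat_lit 1900) (nat_lit 21856419853) (nat_lit 482) (nat_lit 5) (nat_lit 481) (nat_lit 3) (nat_lit 506) (nat_lit 5) (nat_lit 612) (nat_lit 611) (nat_lit 337))) (XT.nd (nat_lit 78) (nat_lit 0) (nat_lit 0) (XT.lf (nat_lit 0) (nat_lit 3362100837) (nat_lit 1824) (nat_lit 11111858024) (nat_lit 1900) (nat_lit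 10700315767) (nat_lit 482) (nat_lit 5) (nat_lit 506) (nat_lit 5) (nat_lit 507) (nat_lit 5) (nat_lit 613) (nat_lit 611) (nat_lit 336)) (XT.nd (nat_lit 78) (nat_lit 0) (nat_lit 76) (XT.lf (nat_lit 76) (nat_lit 1528188144) (nat_lit 0) (nat_lit 2148507229) (nat_lit 1900) (nat_lit 21748697177) (nat_lit 483) (nat_lit 5) (nat_lit 482) (nat_lit 5) (nat_lit 507) (nat_lit 5) (nat_lit 614) (nat_lit 611) (nat_lit 335)) (XT.lf (nat_lit 0) (nat_lit 4137573510) (nat_lit 1824) (nat_lit 11178115843) (nat_lit 1900) (nat_lit 10363043725) (nat_lit 483) (nat_lit 5) (nat_lit 507) (nat_lit 5) (nat_lit 508) (nat_lit 5) (nat_lit 615) (nat_lit 611) (nat_lit 334)))))) (XT.nd (nat_lit 390) (nat_lit 0) (nat_lit 228) (XT.nd (nat_lit 156) (nat_lit 0) (nat_lit 76) (XT.nd (nat_lit 78) (nat_lit 0) (nat_lit 76) (XT.lf (nat_lit 76) (nat_lit 1803242536) (nat_lit 0) (nat_lit 2827672361) (nat_lit 1900) (nat_lit 21305760687) (nat_lit 484) (nat_lit 5) (nat_lit 483) (nat_lit 5) (nat_lit 508) (nat_lit 5) (nat_lit 616) (nat_lit 611) (nat_lit 333))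 (XT.lf (nat_lit 0) (nat_lit 5271333378) (nat_lit 1824) (nat_lit 11068949603) (nat_lit 1900) (nat_lit 9856749834) (nat_lit 484) (nat_lit 5) (nat_lit 508) (nat_lit 5) (nat_lit 509) (nat_lit 5) (nat_lit 617) (nat_lit 611) (nat_lit 332))) (XT.nd (nat_lit 78) (nat_lit 0) (nat_lit 76) (XT.lf (nat_lit 76) (nat_lit 2266267224) (nat_lit 0) (nat_lit 3689144683) (nat_lit 1900) (nat_lit 20506568328) (nat_lit 485) (nat_lit 5) (nat_lit 484) (nat_lit 5) (nat_lit 509) (nat_lit 5) (nat_lit 618) (nat_lit 611) (nat_lit 331)) (XT.nd (nat_lit 78) (nat_lit 0) (nat_lit 0) (XT.lf (nat_lit 0) (nat_lit 6785230933) (nat_lit 1824) (nat_lit 10774431865) (nat_lit 1900) (nat_lit 9169922704) (nat_lit 485) (nat_lit 5) (nat_lit 509) (nat_lit 5) (nat_lit 510) (nat_lit 5) (nat_lit 619) (nat_lit 611) (nat_lit 330)) (XT.lf (nat_lit 76) (nat_lit 2927671962) (nat_lit 0) (nat_lit 4744922558) (nat_lit 1900) (nat_lit 19329129466) (nat_lit 486) (nat_lit 5) (nat_lit 485) (nat_lit 5) (nat_lit 510) (nat_lit 5) (nat_lit 620) (nat_lit 611) (nat_lit 329)))))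 (XT.nd (nat_lit 156) (nat_lit 0) (nat_lit 76) (XT.nd (nat_lit 78) (nat_lit 0) (nat_lit 0) (XT.lf (nat_lit 0) (nat_lit 8702097873) (nat_lit 1824) (nat_lit 10284141626) (nat_lit 1900) (nat_lit 8290577963) (nat_lit 486) (nat_lit 5) (nat_lit 510) (nat_lit 5) (nat_lit 511) (nat_lit 5) (nat_lit 621) (nat_lit 611) (nat_lit 328)) (XT.lf (nat_lit 76) (nat_lit 3798378612) (nat_lit 0) (nat_lit 6007498504) (nat_lit 1900) (nat_lit 17750462049) (nat_lit 487) (nat_lit 5) (nat_lit 486) (nat_lit 5) (nat_lit 511) (nat_lit 5) (nat_lit 622) (nat_lit 611) (nat_lit 327))) (XT.nd (nat_lit 78) (nat_lit 0) (nat_lit 0) (XT.lf (nat_lit 0) (nat_lit 11045791122) (nat_lit 1824) (nat_lit 9587145361) (nat_lit 1900) (nat_lit 7206233705) (nat_lit 487) (nat_lit 5) (nat_lit 511) (nat_lit 5) (nat_lit 512) (nat_lit 5) (nat_lit 623) (nat_lit 611) (nat_lit 326)) (XT.nd (nat_lit 78) (nat_lit 0) (nat_lit 76) (XT.lf (nat_lit 76) (nat_lit 4889840844) (nat_lit 0) (nat_lit 7489884509) (nat_lit 1900) (nat_lit 15746548110) (nat_lit 488) (nat_lit 5) (nat_lit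 487) (nat_lit 5) (nat_lit 512) (nat_lit 5) (nat_lit 624) (nat_lit 611) (nat_lit 325)) (XT.lf (nat_lit 0) (nat_lit 13841238553) (nat_lit 1824) (nat_lit 8671977191) (nat_lit 1900) (nat_lit 5903885121) (nat_lit 488) (nat_lit 5) (nat_lit 512) (nat_lit 5) (nat_lit 513) (nat_lit 5) (nat_lit 625) (nat_lit 611) (nat_lit 324))))))))
noncomputable def xc217 : XT := (XT.nd (nat_lit 1560) (nat_lit 8816) (nat_lit 0) (XT.nd (nat_lit 780) (nat_lit 4712) (nat_lit 0) (XT.nd (nat_lit 390) (nat_lit 1596) (nat_lit 0) (XT.nd (nat_lit 156) (nat_lit 0) (nat_lit 76) (XT.nd (nat_lit 78) (nat_lit 0) (nat_lit 76) (XT.lf (nat_lit 76) (nat_lit 6214064726) (nat_lit 0) (nat_lit 9205638193) (nat_lit 1900) (nat_lit 13292287546) (nat_lit 489) (nat_lit 5) (nat_lit 488) (nat_lit 5) (nat_lit 513) (nat_lit 5) (nat_lit 626) (nat_lit 611) (nat_lit 323)) (XT.lf (nat_lit 0) (nat_lit 17114486498) (nat_lit 1824) (nat_lit 7526618151) (nat_lit 1900) (nat_lit 4369978274) (nat_lit 489) (nat_lit 5) (nat_lit 513) (nat_lit 5) (nat_lit 514) (nat_lit 5) (nat_lit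 627) (nat_lit 611) (nat_lit 322))) (XT.nd (nat_lit 78) (nat_lit 0) (nat_lit 76) (XT.lf (nat_lit 76) (nat_lit 7783630249) (nat_lit 0) (nat_lit 11168889876) (nat_lit 1900) (nat_lit 10361450082) (nat_lit 490) (nat_lit 5) (nat_lit 489) (nat_lit 5) (nat_lit 514) (nat_lit 5) (nat_lit 628) (nat_lit 611) (nat_lit 321)) (XT.nd (nat_lit 78) (nat_lit 0) (nat_lit 0) (XT.lf (nat_lit 0) (nat_lit 20892749123) (nat_lit 1824) (nat_lit 6138474534) (nat_lit 1900) (nat_lit 2590382949) (nat_lit 490) (nat_lit 5) (nat_lit 514) (nat_lit 5) (nat_lit 515) (nat_lit 5) (nat_lit 629) (nat_lit 611) (nat_lit 320)) (XT.lf (nat_lit 76) (nat_lit 9611713803) (nat_lit 0) (nat_lit 13394370595) (nat_lit 1900) (nat_lit 6926625362) (nat_lit 491) (nat_lit 5) (nat_lit 490) (nat_lit 5) (nat_lit 515) (nat_lit 5) (nat_lit 630) (nat_lit 611) (nat_lit 319))))) (XT.nd (nat_lit 156) (nat_lit 1824) (nat_lit 0) (XT.nd (nat_lit 78) (nat_lit 0) (nat_lit 0) (XT.lf (nat_lit 0) (nat_lit 25204459735) (nat_lit 1824) (nat_lit 4494355277) (nat_lit 1900) (nat_lit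 550364559) (nat_lit 491) (nat_lit 5) (nat_lit 515) (nat_lit 5) (nat_lit 516) (nat_lit 5) (nat_lit 631) (nat_lit 611) (nat_lit 318)) (XT.lf (nat_lit 76) (nat_lit 11712111648) (nat_lit 0) (nat_lit 15897441123) (nat_lit 1900) (nat_lit 2959171062) (nat_lit 492) (nat_lit 5) (nat_lit 491) (nat_lit 5) (nat_lit 516) (nat_lit 5) (nat_lit 632) (nat_lit 611) (nat_lit 317))) (XT.nd (nat_lit 78) (nat_lit 1824) (nat_lit 0) (XT.lf (nat_lit 76) (nat_lit 28302032087) (nat_lit 0) (nat_lit 1788906810) (nat_lit 1900) (nat_lit 803156317) (nat_lit 492) (nat_lit 5) (nat_lit 491) (nat_lit 5) (nat_lit 516) (nat_lit 5) (nat_lit 633) (nat_lit 611) (nat_lit 316)) (XT.nd (nat_lit 78) (nat_lit 0) (nat_lit 0) (XT.lf (nat_lit 0) (nat_lit 1550239174) (nat_lit 1900) (nat_lit 17133479951) (nat_lit 1976) (nat_lit 12538622302) (nat_lit 467) (nat_lit 5) (nat_lit 492) (nat_lit 5) (nat_lit 493) (nat_lit 5) (nat_lit 634) (nat_lit 611) (nat_lit 315)) (XT.lf (nat_lit 0) (nat_lit 3967402203) (nat_lit 1900) (nat_lit 437167748) (nat_lit 1976) (nat_lit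 27151927413) (nat_lit 467) (nat_lit 5) (nat_lit 492) (nat_lit 5) (nat_lit 493) (nat_lit 5) (nat_lit 635) (nat_lit 611) (nat_lit 314)))))) (XT.nd (nat_lit 390) (nat_lit 2736) (nat_lit 0) (XT.nd (nat_lit 156) (nat_lit 912) (nat_lit 0) (XT.nd (nat_lit 78) (nat_lit 1140) (nat_lit 0) (XT.lf (nat_lit 0) (nat_lit 6606879175) (nat_lit 1900) (nat_lit 15149910134) (nat_lit 76) (nat_lit 10137067751) (nat_lit 468) (nat_lit 5) (nat_lit 493) (nat_lit 5) (nat_lit 469) (nat_lit 5) (nat_lit 636) (nat_lit 611) (nat_lit 313)) (XT.lf (nat_lit 0) (nat_lit 2032554040) (nat_lit 1140) (nat_lit 7310063945) (nat_lit 1216) (nat_lit 22894476570) (nat_lit 453) (nat_lit 5) (nat_lit 468) (nat_lit 5) (nat_lit 469) (nat_lit 5) (nat_lit 637) (nat_lit 611) (nat_lit 312))) (XT.nd (nat_lit 78) (nat_lit 912) (nat_lit 0) (XT.lf (nat_lit 0) (nat_lit 12281800978) (nat_lit 1216) (nat_lit 12871666420) (nat_lit 76) (nat_lit 7430754867) (nat_lit 453) (nat_lit 5) (nat_lit 469) (nat_lit 5) (nat_lit 454) (nat_lit 5) (nat_lit 638) (nat_lit 611) (nat_lit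 311)) (XT.nd (nat_lit 78) (nat_lit 0) (nat_lit 0) (XT.lf (nat_lit 0) (nat_lit 4821069360) (nat_lit 912) (nat_lit 10536626916) (nat_lit 988) (nat_lit 17579037730) (nat_lit 441) (nat_lit 5) (nat_lit 453) (nat_lit 5) (nat_lit 454) (nat_lit 5) (nat_lit 639) (nat_lit 611) (nat_lit 310)) (XT.lf (nat_lit 0) (nat_lit 18608688290) (nat_lit 988) (nat_lit 10283030910) (nat_lit 76) (nat_lit 4402305257) (nat_lit 441) (nat_lit 5) (nat_lit 454) (nat_lit 5) (nat_lit 442) (nat_lit 5) (nat_lit 640) (nat_lit 611) (nat_lit 309))))) (XT.nd (nat_lit 156) (nat_lit 1824) (nat_lit 0) (XT.nd (nat_lit 78) (nat_lit 0) (nat_lit 0) (XT.lf (nat_lit 0) (nat_lit 7938990350) (nat_lit 912) (nat_lit 14105310079) (nat_lit 988) (nat_lit 11611768329) (nat_lit 429) (nat_lit 5) (nat_lit 441) (nat_lit 5) (nat_lit 442) (nat_lit 5) (nat_lit 641) (nat_lit 611) (nat_lit 308)) (XT.lf (nat_lit 0) (nat_lit 25622728770) (nat_lit 988) (nat_lit 7367563429) (nat_lit 76) (nat_lit 1033579716) (nat_lit 429) (nat_lit 5) (nat_lit 442) (nat_lit 5) (nat_lit 430)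 (nat_lit 5) (nat_lit 642) (nat_lit 611) (nat_lit 307))) (XT.nd (nat_lit 78) (nat_lit 988) (nat_lit 0) (XT.lf (nat_lit 0) (nat_lit 11403488387) (nat_lit 836) (nat_lit 18035022492) (nat_lit 912) (nat_lit 4957204596) (nat_lit 418) (nat_lit 5) (nat_lit 429) (nat_lit 5) (nat_lit 430) (nat_lit 5) (nat_lit 643) (nat_lit 611) (nat_lit 306)) (XT.nd (nat_lit 78) (nat_lit 988) (nat_lit 0) (XT.lf (nat_lit 0) (nat_lit 30648241413) (nat_lit 836) (nat_lit 2730163350) (nat_lit 912) (nat_lit 1395635270) (nat_lit 418) (nat_lit 5) (nat_lit 429) (nat_lit 5) (nat_lit 430) (nat_lit 5) (nat_lit 644) (nat_lit 611) (nat_lit 305)) (XT.lf (nat_lit 0) (nat_lit 2389941436) (nat_lit 988) (nat_lit 19939521682) (nat_lit 76) (nat_lit 12826535166) (nat_lit 405) (nat_lit 5) (nat_lit 418) (nat_lit 5) (nat_lit 406) (nat_lit 5) (nat_lit 645) (nat_lit 611) (nat_lit 304))))))) (XT.nd (nat_lit 780) (nat_lit 4028) (nat_lit 0) (XT.nd (nat_lit 390) (nat_lit 2356) (nat_lit 0) (XT.nd (nat_lit 156) (nat_lit 1596) (nat_lit 0) (XT.nd (nat_lit 78) (nat_lit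 836) (nat_lit 0) (XT.lf (nat_lit 0) (nat_lit 6276909029) (nat_lit 988) (nat_lit 572626297) (nat_lit 76) (nat_lit 28694988578) (nat_lit 405) (nat_lit 5) (nat_lit 418) (nat_lit 5) (nat_lit 406) (nat_lit 5) (nat_lit 646) (nat_lit 611) (nat_lit 303)) (XT.lf (nat_lit 0) (nat_lit 10425111074) (nat_lit 912) (nat_lit 16562278204) (nat_lit 76) (nat_lit 8949760897) (nat_lit 394) (nat_lit 5) (nat_lit 406) (nat_lit 5) (nat_lit 395) (nat_lit 5) (nat_lit 647) (nat_lit 611) (nat_lit 302))) (XT.nd (nat_lit 78) (nat_lit 760) (nat_lit 0) (XT.lf (nat_lit 0) (nat_lit 3389000294) (nat_lit 836) (nat_lit 11336960952) (nat_lit 912) (nat_lit 21610274086) (nat_lit 383) (nat_lit 5) (nat_lit 394) (nat_lit 5) (nat_lit 395) (nat_lit 5) (nat_lit 648) (nat_lit 611) (nat_lit 301)) (XT.nd (nat_lit 78) (nat_lit 760) (nat_lit 0) (XT.lf (nat_lit 0) (nat_lit 19253215203) (nat_lit 912) (nat_lit 12809653591) (nat_lit 76) (nat_lit 4677625703) (nat_lit 383) (nat_lit 5) (nat_lit 395) (nat_lit 5) (nat_lit 384) (nat_lit 5) (nat_lit 649) (nat_lit 611)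 (nat_lit 300)) (XT.lf (nat_lit 0) (nat_lit 7755739320) (nat_lit 760) (nat_lit 16239210504) (nat_lit 836) (nat_lit 13155410349) (nat_lit 373) (nat_lit 5) (nat_lit 383) (nat_lit 5) (nat_lit 384) (nat_lit 5) (nat_lit 650) (nat_lit 611) (nat_lit 299))))) (XT.nd (nat_lit 156) (nat_lit 1596) (nat_lit 0) (XT.nd (nat_lit 78) (nat_lit 760) (nat_lit 0) (XT.lf (nat_lit 0) (nat_lit 28904509835) (nat_lit 760) (nat_lit 11489000) (nat_lit 836) (nat_lit 8650734773) (nat_lit 373) (nat_lit 5) (nat_lit 383) (nat_lit 5) (nat_lit 384) (nat_lit 5) (nat_lit 651) (nat_lit 611) (nat_lit 298)) (XT.lf (nat_lit 0) (nat_lit 12540329952) (nat_lit 760) (nat_lit 21582501406) (nat_lit 836) (nat_lit 3864855942) (nat_lit 363) (nat_lit 5) (nat_lit 373) (nat_lit 5) (nat_lit 374) (nat_lit 5) (nat_lit 652) (nat_lit 611) (nat_lit 297))) (XT.nd (nat_lit 78) (nat_lit 1520) (nat_lit 0) (XT.lf (nat_lit 0) (nat_lit 1060552311) (nat_lit 836) (nat_lit 4140181541) (nat_lit 76) (nat_lit 33215051291) (nat_lit 362) (nat_lit 5) (nat_lit 373) (nat_lit 5) (nat_lit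 363) (nat_lit 5) (nat_lit 653) (nat_lit 611) (nat_lit 296)) (XT.nd (nat_lit 78) (nat_lit 760) (nat_lit 0) (XT.lf (nat_lit 0) (nat_lit 6222574119) (nat_lit 836) (nat_lit 21125864610) (nat_lit 76) (nat_lit 11499698201) (nat_lit 352) (nat_lit 5) (nat_lit 363) (nat_lit 5) (nat_lit 353) (nat_lit 5) (nat_lit 654) (nat_lit 611) (nat_lit 295)) (XT.lf (nat_lit 0) (nat_lit 763340677) (nat_lit 760) (nat_lit 10790463156) (nat_lit 836) (nat_lit 27734012605) (nat_lit 342) (nat_lit 5) (nat_lit 352) (nat_lit 5) (nat_lit 353) (nat_lit 5) (nat_lit 655) (nat_lit 611) (nat_lit 294)))))) (XT.nd (nat_lit 390) (nat_lit 2584) (nat_lit 0) (XT.nd (nat_lit 156) (nat_lit 760) (nat_lit 0) (XT.nd (nat_lit 78) (nat_lit 684) (nat_lit 0) (XT.lf (nat_lit 0) (nat_lit 17172578125) (nat_lit 836) (nat_lit 16398870370) (nat_lit 76) (nat_lit 6161222676) (nat_lit 342) (nat_lit 5) (nat_lit 353) (nat_lit 5) (nat_lit 343) (nat_lit 5) (nat_lit 656) (nat_lit 611) (nat_lit 293)) (XT.lf (nat_lit 0) (nat_lit 6177256463) (nat_lit 684) (nat_lit 16836684232)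 (nat_lit 760) (nat_lit 17170278084) (nat_lit 333) (nat_lit 5) (nat_lit 342) (nat_lit 5) (nat_lit 343) (nat_lit 5) (nat_lit 657) (nat_lit 611) (nat_lit 292))) (XT.nd (nat_lit 78) (nat_lit 760) (nat_lit 0) (XT.lf (nat_lit 0) (nat_lit 29083076884) (nat_lit 760) (nat_lit 11219201499) (nat_lit 76) (nat_lit 340300060) (nat_lit 333) (nat_lit 5) (nat_lit 343) (nat_lit 5) (nat_lit 334) (nat_lit 5) (nat_lit 658) (nat_lit 611) (nat_lit 291)) (XT.nd (nat_lit 78) (nat_lit 76) (nat_lit 0) (XT.lf (nat_lit 0) (nat_lit 12069576816) (nat_lit 684) (nat_lit 23392571360) (nat_lit 760) (nat_lit 5644186110) (nat_lit 324) (nat_lit 5) (nat_lit 333) (nat_lit 5) (nat_lit 334) (nat_lit 5) (nat_lit 659) (nat_lit 611) (nat_lit 290)) (XT.lf (nat_lit 0) (nat_lit 458808165) (nat_lit 760) (nat_lit 5606215121) (nat_lit 76) (nat_lit 35512801821) (nat_lit 323) (nat_lit 5) (nat_lit 333) (nat_lit 5) (nat_lit 324) (nat_lit 5) (nat_lit 660) (nat_lit 611) (nat_lit 289))))) (XT.nd (nat_lit 234) (nat_lit 1216) (nat_lit 0) (XT.nd (nat_lit 78) (nat_lit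 684) (nat_lit 0) (XT.lf (nat_lit 0) (nat_lit 6803585248) (nat_lit 760) (nat_lit 23635399355) (nat_lit 76) (nat_lit 11615109039) (nat_lit 314) (nat_lit 5) (nat_lit 324) (nat_lit 5) (nat_lit 315) (nat_lit 5) (nat_lit 661) (nat_lit 611) (nat_lit 288)) (XT.nd (nat_lit 78) (nat_lit 0) (nat_lit 0) (XT.lf (nat_lit 0) (nat_lit 424592028) (nat_lit 684) (nat_lit 12930192232) (nat_lit 760) (nat_lit 29183512790) (nat_lit 305) (nat_lit 5) (nat_lit 314) (nat_lit 5) (nat_lit 315) (nat_lit 5) (nat_lit 662) (nat_lit 611) (nat_lit 287)) (XT.lf (nat_lit 0) (nat_lit 20227411923) (nat_lit 760) (nat_lit 17777431881) (nat_lit 76) (nat_lit 5023532659) (nat_lit 305) (nat_lit 5) (nat_lit 315) (nat_lit 5) (nat_lit 306) (nat_lit 5) (nat_lit 663) (nat_lit 611) (nat_lit 286)))) (XT.nd (nat_lit 78) (nat_lit 608) (nat_lit 0) (XT.lf (nat_lit 0) (nat_lit 7050904785) (nat_lit 608) (nat_lit 20316768922) (nat_lit 684) (nat_lit 16157980156) (nat_lit 297) (nat_lit 5) (nat_lit 305) (nat_lit 5) (nat_lit 306) (nat_lit 5) (nat_lit 664) (nat_lit 611)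 (nat_lit 285)) (XT.nd (nat_lit 78) (nat_lit 608) (nat_lit 0) (XT.lf (nat_lit 0) (nat_lit 32615290447) (nat_lit 608) (nat_lit 2153532579) (nat_lit 684) (nat_lit 9261692166) (nat_lit 297) (nat_lit 5) (nat_lit 305) (nat_lit 5) (nat_lit 306) (nat_lit 5) (nat_lit 665) (nat_lit 611) (nat_lit 284)) (XT.lf (nat_lit 0) (nat_lit 14224251304) (nat_lit 608) (nat_lit 28291209850) (nat_lit 684) (nat_lit 2026063305) (nat_lit 289) (nat_lit 5) (nat_lit 297) (nat_lit 5) (nat_lit 298) (nat_lit 5) (nat_lit 666) (nat_lit 611) (nat_lit 283))))))))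
noncomputable def xc218 : XT := (XT.nd (nat_lit 77844) (nat_lit 0) (nat_lit 12312) (XT.nd (nat_lit 77064) (nat_lit 0) (nat_lit 17176) (XT.nd (nat_lit 390) (nat_lit 684) (nat_lit 0) (XT.nd (nat_lit 156) (nat_lit 1140) (nat_lit 0) (XT.nd (nat_lit 78) (nat_lit 608) (nat_lit 0) (XT.lf (nat_lit 0) (nat_lit 5374241397) (nat_lit 684) (nat_lit 4580995453) (nat_lit 76) (nat_lit 35105018106) (nat_lit 288) (nat_lit 5) (nat_lit 297) (nat_lit 5) (nat_lit 289) (nat_lit 5) (nat_lit 667) (nat_lit 611) (nat_lit 282)) (XT.lf (nat_lit 0) (nat_lit 13094578735) (nat_lit 684) (nat_lit 23701179828) (nat_lit 76) (nat_lit 8789350571) (nat_lit 280) (nat_lit 5) (nat_lit 289) (nat_lit 5) (nat_lit 281) (nat_lit 5) (nat_lit 668) (nat_lit 611) (nat_lit 281))) (XT.nd (nat_lit 78) (nat_lit 532) (nat_lit 0) (XT.lf (nat_lit 0) (nat_lit 2789378187) (nat_lit 608) (nat_lit 18293777240) (nat_lit 684) (nat_lit 25035028341) (nat_lit 272) (nat_lit 5) (nat_lit 280) (nat_lit 5) (nat_lit 281) (nat_lit 5) (nat_lit 669) (nat_lit 611) (nat_lit 280)) (XT.nd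 (nat_lit 78) (nat_lit 532) (nat_lit 0) (XT.lf (nat_lit 0) (nat_lit 29394218516) (nat_lit 684) (nat_lit 16534010721) (nat_lit 76) (nat_lit 730436387) (nat_lit 272) (nat_lit 5) (nat_lit 281) (nat_lit 5) (nat_lit 273) (nat_lit 5) (nat_lit 670) (nat_lit 611) (nat_lit 279)) (XT.lf (nat_lit 0) (nat_lit 10815923913) (nat_lit 532) (nat_lit 27245836141) (nat_lit 608) (nat_lit 9144391944) (nat_lit 265) (nat_lit 5) (nat_lit 272) (nat_lit 5) (nat_lit 273) (nat_lit 5) (nat_lit 671) (nat_lit 611) (nat_lit 278))))) (XT.nd (nat_lit 156) (nat_lit 0) (nat_lit 0) (XT.nd (nat_lit 78) (nat_lit 684) (nat_lit 0) (XT.lf (nat_lit 0) (nat_lit 38935531631) (nat_lit 532) (nat_lit 8076967410) (nat_lit 608) (nat_lit 749892150) (nat_lit 265) (nat_lit 5) (nat_lit 272) (nat_lit 5) (nat_lit 273) (nat_lit 5) (nat_lit 672) (nat_lit 611) (nat_lit 277)) (XT.lf (nat_lit 0) (nat_lit 7911171513) (nat_lit 684) (nat_lit 28910659356) (nat_lit 76) (nat_lit 11502887121) (nat_lit 256) (nat_lit 5) (nat_lit 265) (nat_lit 5) (nat_lit 257) (nat_lit 5) (nat_lit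 673) (nat_lit 611) (nat_lit 276))) (XT.nd (nat_lit 76362) (nat_lit 0) (nat_lit 17100) (XT.lf (nat_lit 0) (nat_lit 16847458838) (nat_lit 684) (nat_lit 617953866) (nat_lit 76) (nat_lit 31430538637) (nat_lit 256) (nat_lit 5) (nat_lit 265) (nat_lit 5) (nat_lit 257) (nat_lit 5) (nat_lit 674) (nat_lit 611) (nat_lit 275)) (XT.nd (nat_lit 78) (nat_lit 0) (nat_lit 0) (XT.lf (nat_lit 0) (nat_lit 1599307865) (nat_lit 1900) (nat_lit 5493495069) (nat_lit 1900) (nat_lit 5493495069) (nat_lit 481) (nat_lit 3) (nat_lit 506) (nat_lit 3) (nat_lit 506) (nat_lit 5) (nat_lit 612) (nat_lit 612) (nat_lit 336)) (XT.lf (nat_lit 76) (nat_lit 1569316697) (nat_lit 0) (nat_lit 1776022679) (nat_lit 1900) (nat_lit 22076684676) (nat_lit 482) (nat_lit 5) (nat_lit 481) (nat_lit 3) (nat_lit 506) (nat_lit 5) (nat_lit 613) (nat_lit 612) (nat_lit 335)))))) (XT.nd (nat_lit 390) (nat_lit 0) (nat_lit 152) (XT.nd (nat_lit 156) (nat_lit 0) (nat_lit 76) (XT.nd (nat_lit 78) (nat_lit 0) (nat_lit 0) (XT.lf (nat_lit 0) (nat_lit 3637122922) (nat_lit 1824)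 (nat_lit 11221905700) (nat_lit 1900) (nat_lit 10814569612) (nat_lit 482) (nat_lit 5) (nat_lit 506) (nat_lit 5) (nat_lit 507) (nat_lit 5) (nat_lit 614) (nat_lit 612) (nat_lit 334)) (XT.lf (nat_lit 76) (nat_lit 1670203303) (nat_lit 0) (nat_lit 2284455543) (nat_lit 1900) (nat_lit 21975146801) (nat_lit 483) (nat_lit 5) (nat_lit 482) (nat_lit 5) (nat_lit 507) (nat_lit 5) (nat_lit 615) (nat_lit 612) (nat_lit 333))) (XT.nd (nat_lit 78) (nat_lit 0) (nat_lit 0) (XT.lf (nat_lit 0) (nat_lit 4420154283) (nat_lit 1824) (nat_lit 11287805780) (nat_lit 1900) (nat_lit 10480345047) (nat_lit 483) (nat_lit 5) (nat_lit 507) (nat_lit 5) (nat_lit 508) (nat_lit 5) (nat_lit 616) (nat_lit 612) (nat_lit 332)) (XT.nd (nat_lit 78) (nat_lit 0) (nat_lit 76) (XT.lf (nat_lit 76) (nat_lit 1952430605) (nat_lit 0) (nat_lit 2967748142) (nat_lit 1900) (nat_lit 21531291513) (nat_lit 484) (nat_lit 5) (nat_lit 483) (nat_lit 5) (nat_lit 508) (nat_lit 5) (nat_lit 617) (nat_lit 612) (nat_lit 331)) (XT.lf (nat_lit 0) (nat_lit 5569018153) (nat_lit 1824)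 (nat_lit 11175030226) (nat_lit 1900) (nat_lit 9973074122) (nat_lit 484) (nat_lit 5) (nat_lit 508) (nat_lit 5) (nat_lit 509) (nat_lit 5) (nat_lit 618) (nat_lit 612) (nat_lit 330))))) (XT.nd (nat_lit 156) (nat_lit 0) (nat_lit 76) (XT.nd (nat_lit 78) (nat_lit 0) (nat_lit 76) (XT.lf (nat_lit 76) (nat_lit 2426132395) (nat_lit 0) (nat_lit 3837619759) (nat_lit 1900) (nat_lit 20723677351) (nat_lit 485) (nat_lit 5) (nat_lit 484) (nat_lit 5) (nat_lit 509) (nat_lit 5) (nat_lit 619) (nat_lit 612) (nat_lit 329)) (XT.lf (nat_lit 0) (nat_lit 7105981687) (nat_lit 1824) (nat_lit 10873435098) (nat_lit 1900) (nat_lit 9281053922) (nat_lit 485) (nat_lit 5) (nat_lit 509) (nat_lit 5) (nat_lit 510) (nat_lit 5) (nat_lit 620) (nat_lit 612) (nat_lit 328))) (XT.nd (nat_lit 78) (nat_lit 0) (nat_lit 76) (XT.lf (nat_lit 76) (nat_lit 3101944454) (nat_lit 0) (nat_lit 4906271061) (nat_lit 1900) (nat_lit 19529894095) (nat_lit 486) (nat_lit 5) (nat_lit 485) (nat_lit 5) (nat_lit 510) (nat_lit 5) (nat_lit 621) (nat_lit 612) (nat_lit 327)) (XT.nd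 (nat_lit 78) (nat_lit 0) (nat_lit 0) (XT.lf (nat_lit 0) (nat_lit 9054314014) (nat_lit 1824) (nat_lit 10372374119) (nat_lit 1900) (nat_lit 8392096829) (nat_lit 486) (nat_lit 5) (nat_lit 510) (nat_lit 5) (nat_lit 511) (nat_lit 5) (nat_lit 622) (nat_lit 612) (nat_lit 326)) (XT.lf (nat_lit 76) (nat_lit 3991023824) (nat_lit 0) (nat_lit 6186408955) (nat_lit 1900) (nat_lit 17926519146) (nat_lit 487) (nat_lit 5) (nat_lit 486) (nat_lit 5) (nat_lit 511) (nat_lit 5) (nat_lit 623) (nat_lit 612) (nat_lit 325))))))) (XT.nd (nat_lit 780) (nat_lit 5244) (nat_lit 0) (XT.nd (nat_lit 390) (nat_lit 0) (nat_lit 152) (XT.nd (nat_lit 156) (nat_lit 0) (nat_lit 76) (XT.nd (nat_lit 78) (nat_lit 0) (nat_lit 0) (XT.lf (nat_lit 0) (nat_lit 11438331070) (nat_lit 1824) (nat_lit 9660679274) (nat_lit 1900) (nat_lit 7293505608) (nat_lit 487) (nat_lit 5) (nat_lit 511) (nat_lit 5) (nat_lit 512) (nat_lit 5) (nat_lit 624) (nat_lit 612) (nat_lit 324)) (XT.lf (nat_lit 76) (nat_lit 5105068964) (nat_lit 0) (nat_lit 7691272284) (nat_lit 1900) (nat_lit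 15889072199) (nat_lit 488) (nat_lit 5) (nat_lit 487) (nat_lit 5) (nat_lit 512) (nat_lit 5) (nat_lit 625) (nat_lit 612) (nat_lit 323))) (XT.nd (nat_lit 78) (nat_lit 0) (nat_lit 0) (XT.lf (nat_lit 0) (nat_lit 14283442179) (nat_lit 1824) (nat_lit 8726640515) (nat_lit 1900) (nat_lit 5972047655) (nat_lit 488) (nat_lit 5) (nat_lit 512) (nat_lit 5) (nat_lit 513) (nat_lit 5) (nat_lit 626) (nat_lit 612) (nat_lit 322)) (XT.nd (nat_lit 78) (nat_lit 0) (nat_lit 76) (XT.lf (nat_lit 76) (nat_lit 6456340818) (nat_lit 0) (nat_lit 9434658392) (nat_lit 1900) (nat_lit 13391968160) (nat_lit 489) (nat_lit 5) (nat_lit 488) (nat_lit 5) (nat_lit 513) (nat_lit 5) (nat_lit 627) (nat_lit 612) (nat_lit 321)) (XT.lf (nat_lit 0) (nat_lit 17616198448) (nat_lit 1824) (nat_lit 7557984562) (nat_lit 1900) (nat_lit 4413928363) (nat_lit 489) (nat_lit 5) (nat_lit 513) (nat_lit 5) (nat_lit 514) (nat_lit 5) (nat_lit 628) (nat_lit 612) (nat_lit 320))))) (XT.nd (nat_lit 156) (nat_lit 0) (nat_lit 76) (XT.nd (nat_lit 78) (nat_lit 0) (nat_lit 76) (XT.lf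 (nat_lit 76) (nat_lit 8057684819) (nat_lit 0) (nat_lit 11430950616) (nat_lit 1900) (nat_lit 10408468207) (nat_lit 490) (nat_lit 5) (nat_lit 489) (nat_lit 5) (nat_lit 514) (nat_lit 5) (nat_lit 629) (nat_lit 612) (nat_lit 319)) (XT.lf (nat_lit 0) (nat_lit 21464343078) (nat_lit 1824) (nat_lit 6141852760) (nat_lit 1900) (nat_lit 2604763541) (nat_lit 490) (nat_lit 5) (nat_lit 514) (nat_lit 5) (nat_lit 515) (nat_lit 5) (nat_lit 630) (nat_lit 612) (nat_lit 318))) (XT.nd (nat_lit 78) (nat_lit 0) (nat_lit 76) (XT.lf (nat_lit 76) (nat_lit 9922553875) (nat_lit 0) (nat_lit 13695146761) (nat_lit 1900) (nat_lit 6910628937) (nat_lit 491) (nat_lit 5) (nat_lit 490) (nat_lit 5) (nat_lit 515) (nat_lit 5) (nat_lit 631) (nat_lit 612) (nat_lit 317)) (XT.nd (nat_lit 78) (nat_lit 0) (nat_lit 0) (XT.lf (nat_lit 0) (nat_lit 25856863650) (nat_lit 1824) (nat_lit 4464777959) (nat_lit 1900) (nat_lit 529550857) (nat_lit 491) (nat_lit 5) (nat_lit 515) (nat_lit 5) (nat_lit 516) (nat_lit 5) (nat_lit 632) (nat_lit 612) (nat_lit 316)) (XT.lf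 (nat_lit 76) (nat_lit 12065032355) (nat_lit 0) (nat_lit 16242888600) (nat_lit 1900) (nat_lit 2869249497) (nat_lit 492) (nat_lit 5) (nat_lit 491) (nat_lit 5) (nat_lit 516) (nat_lit 5) (nat_lit 633) (nat_lit 612) (nat_lit 315)))))) (XT.nd (nat_lit 390) (nat_lit 2660) (nat_lit 0) (XT.nd (nat_lit 156) (nat_lit 1064) (nat_lit 0) (XT.nd (nat_lit 78) (nat_lit 1824) (nat_lit 0) (XT.lf (nat_lit 76) (nat_lit 28984424173) (nat_lit 0) (nat_lit 1851644412) (nat_lit 1900) (nat_lit 673038084) (nat_lit 492) (nat_lit 5) (nat_lit 491) (nat_lit 5) (nat_lit 516) (nat_lit 5) (nat_lit 634) (nat_lit 612) (nat_lit 314)) (XT.lf (nat_lit 0) (nat_lit 1723281873) (nat_lit 1900) (nat_lit 17355646448) (nat_lit 1976) (nat_lit 12765015109) (nat_lit 467) (nat_lit 5) (nat_lit 492) (nat_lit 5) (nat_lit 493) (nat_lit 5) (nat_lit 635) (nat_lit 612) (nat_lit 313))) (XT.nd (nat_lit 78) (nat_lit 1064) (nat_lit 0) (XT.lf (nat_lit 0) (nat_lit 4186003106) (nat_lit 1900) (nat_lit 327770807) (nat_lit 1976) (nat_lit 27671064354) (nat_lit 467) (nat_lit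 5) (nat_lit 492) (nat_lit 5) (nat_lit 493) (nat_lit 5) (nat_lit 636) (nat_lit 612) (nat_lit 312)) (XT.nd (nat_lit 78) (nat_lit 1140) (nat_lit 0) (XT.lf (nat_lit 0) (nat_lit 6876171825) (nat_lit 1900) (nat_lit 15332666340) (nat_lit 76) (nat_lit 10320149026) (nat_lit 468) (nat_lit 5) (nat_lit 493) (nat_lit 5) (nat_lit 469) (nat_lit 5) (nat_lit 637) (nat_lit 612) (nat_lit 311)) (XT.lf (nat_lit 0) (nat_lit 2192656052) (nat_lit 1140) (nat_lit 7472055600) (nat_lit 1216) (nat_lit 23214416137) (nat_lit 453) (nat_lit 5) (nat_lit 468) (nat_lit 5) (nat_lit 469) (nat_lit 5) (nat_lit 638) (nat_lit 612) (nat_lit 310))))) (XT.nd (nat_lit 234) (nat_lit 1748) (nat_lit 0) (XT.nd (nat_lit 78) (nat_lit 912) (nat_lit 0) (XT.lf (nat_lit 0) (nat_lit 12659926002) (nat_lit 1216) (nat_lit 13009234934) (nat_lit 76) (nat_lit 7564092237) (nat_lit 453) (nat_lit 5) (nat_lit 469) (nat_lit 5) (nat_lit 454) (nat_lit 5) (nat_lit 639) (nat_lit 612) (nat_lit 309)) (XT.nd (nat_lit 78) (nat_lit 0) (nat_lit 0) (XT.lf (nat_lit 0) (nat_lit 5036566977)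 (nat_lit 912) (nat_lit 10758947528) (nat_lit 988) (nat_lit 17797337212) (nat_lit 441) (nat_lit 5) (nat_lit 453) (nat_lit 5) (nat_lit 454) (nat_lit 5) (nat_lit 640) (nat_lit 612) (nat_lit 308)) (XT.lf (nat_lit 0) (nat_lit 19108890552) (nat_lit 988) (nat_lit 10369310708) (nat_lit 76) (nat_lit 4479139505) (nat_lit 441) (nat_lit 5) (nat_lit 454) (nat_lit 5) (nat_lit 442) (nat_lit 5) (nat_lit 641) (nat_lit 612) (nat_lit 307)))) (XT.nd (nat_lit 78) (nat_lit 836) (nat_lit 0) (XT.lf (nat_lit 0) (nat_lit 8216365577) (nat_lit 912) (nat_lit 14395108994) (nat_lit 988) (nat_lit 11715186260) (nat_lit 429) (nat_lit 5) (nat_lit 441) (nat_lit 5) (nat_lit 442) (nat_lit 5) (nat_lit 642) (nat_lit 612) (nat_lit 306)) (XT.nd (nat_lit 78) (nat_lit 836) (nat_lit 0) (XT.lf (nat_lit 0) (nat_lit 26258946274) (nat_lit 988) (nat_lit 7396116002) (nat_lit 76) (nat_lit 1046808347) (nat_lit 429) (nat_lit 5) (nat_lit 442) (nat_lit 5) (nat_lit 430) (nat_lit 5) (nat_lit 643) (nat_lit 612) (nat_lit 305)) (XT.lf (nat_lit 0) (nat_lit 11749575280)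 (nat_lit 836) (nat_lit 18399808267) (nat_lit 912) (nat_lit 4931800787) (nat_lit 418) (nat_lit 5) (nat_lit 429) (nat_lit 5) (nat_lit 430) (nat_lit 5) (nat_lit 644) (nat_lit 612) (nat_lit 304))))))))
noncomputable def xc219 : XT := (XT.nd (nat_lit 1560) (nat_lit 3724) (nat_lit 0) (XT.nd (nat_lit 780) (nat_lit 4332) (nat_lit 0) (XT.nd (nat_lit 390) (nat_lit 1596) (nat_lit 0) (XT.nd (nat_lit 156) (nat_lit 1672) (nat_lit 0) (XT.nd (nat_lit 78) (nat_lit 988) (nat_lit 0) (XT.lf (nat_lit 0) (nat_lit 31376909305) (nat_lit 836) (nat_lit 2788771838) (nat_lit 912) (nat_lit 1301442189) (nat_lit 418) (nat_lit 5) (nat_lit 429) (nat_lit 5) (nat_lit 430) (nat_lit 5) (nat_lit 645) (nat_lit 612) (nat_lit 303)) (XT.lf (nat_lit 0) (nat_lit 2556623074) (nat_lit 988) (nat_lit 20219379598) (nat_lit 76) (nat_lit 13080734716) (nat_lit 405) (nat_lit 5) (nat_lit 418) (nat_lit 5) (nat_lit 406) (nat_lit 5) (nat_lit 646) (nat_lit 612) (nat_lit 302))) (XT.nd (nat_lit 78) (nat_lit 1672) (nat_lit 0) (XT.lf (nat_lit 0) (nat_lit 6518998983)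 (nat_lit 988) (nat_lit 467478315) (nat_lit 76) (nat_lit 29266602905) (nat_lit 405) (nat_lit 5) (nat_lit 418) (nat_lit 5) (nat_lit 406) (nat_lit 5) (nat_lit 647) (nat_lit 612) (nat_lit 301)) (XT.nd (nat_lit 78) (nat_lit 836) (nat_lit 0) (XT.lf (nat_lit 0) (nat_lit 10748637098) (nat_lit 912) (nat_lit 16775392208) (nat_lit 76) (nat_lit 9129560314) (nat_lit 394) (nat_lit 5) (nat_lit 406) (nat_lit 5) (nat_lit 395) (nat_lit 5) (nat_lit 648) (nat_lit 612) (nat_lit 300)) (XT.lf (nat_lit 0) (nat_lit 3574134678) (nat_lit 836) (nat_lit 11559876168) (nat_lit 912) (nat_lit 21926675563) (nat_lit 383) (nat_lit 5) (nat_lit 394) (nat_lit 5) (nat_lit 395) (nat_lit 5) (nat_lit 649) (nat_lit 612) (nat_lit 299))))) (XT.nd (nat_lit 156) (nat_lit 836) (nat_lit 0) (XT.nd (nat_lit 78) (nat_lit 760) (nat_lit 0) (XT.lf (nat_lit 0) (nat_lit 19749608138) (nat_lit 912) (nat_lit 12948588644) (nat_lit 76) (nat_lit 4774878070) (nat_lit 383) (nat_lit 5) (nat_lit 395) (nat_lit 5) (nat_lit 384) (nat_lit 5) (nat_lit 650) (nat_lit 612) (nat_lit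 298)) (XT.lf (nat_lit 0) (nat_lit 8027340691) (nat_lit 760) (nat_lit 16557410154) (nat_lit 836) (nat_lit 13306415586) (nat_lit 373) (nat_lit 5) (nat_lit 383) (nat_lit 5) (nat_lit 384) (nat_lit 5) (nat_lit 651) (nat_lit 612) (nat_lit 297))) (XT.nd (nat_lit 78) (nat_lit 836) (nat_lit 0) (XT.lf (nat_lit 0) (nat_lit 29596802566) (nat_lit 760) (nat_lit 5263330) (nat_lit 836) (nat_lit 8713844596) (nat_lit 373) (nat_lit 5) (nat_lit 383) (nat_lit 5) (nat_lit 384) (nat_lit 5) (nat_lit 652) (nat_lit 612) (nat_lit 296)) (XT.nd (nat_lit 78) (nat_lit 76) (nat_lit 0) (XT.lf (nat_lit 0) (nat_lit 12906689709) (nat_lit 760) (nat_lit 22005024011) (nat_lit 836) (nat_lit 3833596020) (nat_lit 363) (nat_lit 5) (nat_lit 373) (nat_lit 5) (nat_lit 374) (nat_lit 5) (nat_lit 653) (nat_lit 612) (nat_lit 295)) (XT.lf (nat_lit 0) (nat_lit 1186796001) (nat_lit 836) (nat_lit 4108299251) (nat_lit 76) (nat_lit 33886902259) (nat_lit 362) (nat_lit 5) (nat_lit 373) (nat_lit 5) (nat_lit 363) (nat_lit 5) (nat_lit 654) (nat_lit 612) (nat_lit 294))))))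 (XT.nd (nat_lit 390) (nat_lit 2128) (nat_lit 0) (XT.nd (nat_lit 156) (nat_lit 684) (nat_lit 0) (XT.nd (nat_lit 78) (nat_lit 760) (nat_lit 0) (XT.lf (nat_lit 0) (nat_lit 6450804844) (nat_lit 836) (nat_lit 21432439951) (nat_lit 76) (nat_lit 11739776658) (nat_lit 352) (nat_lit 5) (nat_lit 363) (nat_lit 5) (nat_lit 353) (nat_lit 5) (nat_lit 655) (nat_lit 612) (nat_lit 293)) (XT.lf (nat_lit 0) (nat_lit 893786666) (nat_lit 760) (nat_lit 10993585419) (nat_lit 836) (nat_lit 28184148260) (nat_lit 342) (nat_lit 5) (nat_lit 352) (nat_lit 5) (nat_lit 353) (nat_lit 5) (nat_lit 656) (nat_lit 612) (nat_lit 292))) (XT.nd (nat_lit 78) (nat_lit 684) (nat_lit 0) (XT.lf (nat_lit 0) (nat_lit 17616592970) (nat_lit 836) (nat_lit 16611995596) (nat_lit 76) (nat_lit 6296722235) (nat_lit 342) (nat_lit 5) (nat_lit 353) (nat_lit 5) (nat_lit 343) (nat_lit 5) (nat_lit 657) (nat_lit 612) (nat_lit 291)) (XT.nd (nat_lit 78) (nat_lit 0) (nat_lit 0) (XT.lf (nat_lit 0) (nat_lit 6414898167) (nat_lit 684) (nat_lit 17158653585) (nat_lit 760) (nat_lit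 17412362278) (nat_lit 333) (nat_lit 5) (nat_lit 342) (nat_lit 5) (nat_lit 343) (nat_lit 5) (nat_lit 658) (nat_lit 612) (nat_lit 290)) (XT.lf (nat_lit 0) (nat_lit 29762216955) (nat_lit 760) (nat_lit 11329870000) (nat_lit 76) (nat_lit 361391056) (nat_lit 333) (nat_lit 5) (nat_lit 343) (nat_lit 5) (nat_lit 334) (nat_lit 5) (nat_lit 659) (nat_lit 612) (nat_lit 289))))) (XT.nd (nat_lit 156) (nat_lit 1368) (nat_lit 0) (XT.nd (nat_lit 78) (nat_lit 76) (nat_lit 0) (XT.lf (nat_lit 0) (nat_lit 12423935752) (nat_lit 684) (nat_lit 23843756036) (nat_lit 760) (nat_lit 5658840788) (nat_lit 324) (nat_lit 5) (nat_lit 333) (nat_lit 5) (nat_lit 334) (nat_lit 5) (nat_lit 660) (nat_lit 612) (nat_lit 288)) (XT.lf (nat_lit 0) (nat_lit 563024281) (nat_lit 760) (nat_lit 5606321750) (nat_lit 76) (nat_lit 36238132489) (nat_lit 323) (nat_lit 5) (nat_lit 333) (nat_lit 5) (nat_lit 324) (nat_lit 5) (nat_lit 661) (nat_lit 612) (nat_lit 287))) (XT.nd (nat_lit 78) (nat_lit 684) (nat_lit 0) (XT.lf (nat_lit 0) (nat_lit 7033668740) (nat_lit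 760) (nat_lit 23995059257) (nat_lit 76) (nat_lit 11864565037) (nat_lit 314) (nat_lit 5) (nat_lit 324) (nat_lit 5) (nat_lit 315) (nat_lit 5) (nat_lit 662) (nat_lit 612) (nat_lit 286)) (XT.nd (nat_lit 78) (nat_lit 0) (nat_lit 0) (XT.lf (nat_lit 0) (nat_lit 545388216) (nat_lit 684) (nat_lit 13169389302) (nat_lit 760) (nat_lit 29672425321) (nat_lit 305) (nat_lit 5) (nat_lit 314) (nat_lit 5) (nat_lit 315) (nat_lit 5) (nat_lit 663) (nat_lit 612) (nat_lit 285)) (XT.lf (nat_lit 0) (nat_lit 20723159744) (nat_lit 760) (nat_lit 18021178069) (nat_lit 76) (nat_lit 5142780029) (nat_lit 305) (nat_lit 5) (nat_lit 315) (nat_lit 5) (nat_lit 306) (nat_lit 5) (nat_lit 664) (nat_lit 612) (nat_lit 284))))))) (XT.nd (nat_lit 77142) (nat_lit 0) (nat_lit 17100) (XT.nd (nat_lit 390) (nat_lit 1824) (nat_lit 0) (XT.nd (nat_lit 156) (nat_lit 1292) (nat_lit 0) (XT.nd (nat_lit 78) (nat_lit 0) (nat_lit 0) (XT.lf (nat_lit 0) (nat_lit 7302989787) (nat_lit 608) (nat_lit 20702169869) (nat_lit 684) (nat_lit 16389202518) (nat_lit 297) (nat_lit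 5) (nat_lit 305) (nat_lit 5) (nat_lit 306) (nat_lit 5) (nat_lit 665) (nat_lit 612) (nat_lit 283)) (XT.lf (nat_lit 0) (nat_lit 33376485380) (nat_lit 608) (nat_lit 2176079278) (nat_lit 684) (nat_lit 9356791459) (nat_lit 297) (nat_lit 5) (nat_lit 305) (nat_lit 5) (nat_lit 306) (nat_lit 5) (nat_lit 666) (nat_lit 612) (nat_lit 282))) (XT.nd (nat_lit 78) (nat_lit 684) (nat_lit 0) (XT.lf (nat_lit 0) (nat_lit 14618534437) (nat_lit 608) (nat_lit 28834711986) (nat_lit 684) (nat_lit 1977356971) (nat_lit 289) (nat_lit 5) (nat_lit 297) (nat_lit 5) (nat_lit 298) (nat_lit 5) (nat_lit 667) (nat_lit 612) (nat_lit 281)) (XT.nd (nat_lit 78) (nat_lit 608) (nat_lit 0) (XT.lf (nat_lit 0) (nat_lit 5568056975) (nat_lit 684) (nat_lit 4563820915) (nat_lit 76) (nat_lit 35827853596) (nat_lit 288) (nat_lit 5) (nat_lit 297) (nat_lit 5) (nat_lit 289) (nat_lit 5) (nat_lit 668) (nat_lit 612) (nat_lit 280)) (XT.lf (nat_lit 0) (nat_lit 13441957655) (nat_lit 684) (nat_lit 24065563656) (nat_lit 76) (nat_lit 8987578342) (nat_lit 280) (nat_lit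 5) (nat_lit 289) (nat_lit 5) (nat_lit 281) (nat_lit 5) (nat_lit 669) (nat_lit 612) (nat_lit 279))))) (XT.nd (nat_lit 156) (nat_lit 1216) (nat_lit 0) (XT.nd (nat_lit 78) (nat_lit 0) (nat_lit 0) (XT.lf (nat_lit 0) (nat_lit 2954084205) (nat_lit 608) (nat_lit 18635252624) (nat_lit 684) (nat_lit 25449518371) (nat_lit 272) (nat_lit 5) (nat_lit 280) (nat_lit 5) (nat_lit 281) (nat_lit 5) (nat_lit 670) (nat_lit 612) (nat_lit 278)) (XT.lf (nat_lit 0) (nat_lit 30065119274) (nat_lit 684) (nat_lit 16756404390) (nat_lit 76) (nat_lit 768653103) (nat_lit 272) (nat_lit 5) (nat_lit 281) (nat_lit 5) (nat_lit 273) (nat_lit 5) (nat_lit 671) (nat_lit 612) (nat_lit 277))) (XT.nd (nat_lit 78) (nat_lit 684) (nat_lit 0) (XT.lf (nat_lit 0) (nat_lit 11139816525) (nat_lit 532) (nat_lit 27765265788) (nat_lit 608) (nat_lit 9243549179) (nat_lit 265) (nat_lit 5) (nat_lit 272) (nat_lit 5) (nat_lit 273) (nat_lit 5) (nat_lit 672) (nat_lit 612) (nat_lit 276)) (XT.nd (nat_lit 78) (nat_lit 684) (nat_lit 0) (XT.lf (nat_lit 0) (nat_lit 39819707100)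 (nat_lit 532) (nat_lit 8213519429) (nat_lit 608) (nat_lit 682801165) (nat_lit 265) (nat_lit 5) (nat_lit 272) (nat_lit 5) (nat_lit 273) (nat_lit 5) (nat_lit 673) (nat_lit 612) (nat_lit 275)) (XT.lf (nat_lit 0) (nat_lit 8149672949) (nat_lit 684) (nat_lit 29381593447) (nat_lit 76) (nat_lit 11758338691) (nat_lit 256) (nat_lit 5) (nat_lit 265) (nat_lit 5) (nat_lit 257) (nat_lit 5) (nat_lit 674) (nat_lit 612) (nat_lit 274)))))) (XT.nd (nat_lit 390) (nat_lit 0) (nat_lit 152) (XT.nd (nat_lit 156) (nat_lit 0) (nat_lit 76) (XT.nd (nat_lit 78) (nat_lit 0) (nat_lit 0) (XT.lf (nat_lit 0) (nat_lit 1735163668) (nat_lit 1900) (nat_lit 5550389879) (nat_lit 1900) (nat_lit 5550389879) (nat_lit 481) (nat_lit 3) (nat_lit 506) (nat_lit 3) (nat_lit 506) (nat_lit 5) (nat_lit 613) (nat_lit 613) (nat_lit 334)) (XT.lf (nat_lit 76) (nat_lit 1705956173) (nat_lit 0) (nat_lit 1910639337) (nat_lit 1900) (nat_lit 22309775872) (nat_lit 482) (nat_lit 5) (nat_lit 481) (nat_lit 3) (nat_lit 506) (nat_lit 5) (nat_lit 614) (nat_lit 613) (nat_lit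 333))) (XT.nd (nat_lit 78) (nat_lit 0) (nat_lit 0) (XT.lf (nat_lit 0) (nat_lit 3909577094) (nat_lit 1824) (nat_lit 11338510784) (nat_lit 1900) (nat_lit 10934982043) (nat_lit 482) (nat_lit 5) (nat_lit 506) (nat_lit 5) (nat_lit 507) (nat_lit 5) (nat_lit 615) (nat_lit 613) (nat_lit 332)) (XT.nd (nat_lit 78) (nat_lit 0) (nat_lit 76) (XT.lf (nat_lit 76) (nat_lit 1810730971) (nat_lit 0) (nat_lit 2419512367) (nat_lit 1900) (nat_lit 22214222671) (nat_lit 483) (nat_lit 5) (nat_lit 482) (nat_lit 5) (nat_lit 507) (nat_lit 5) (nat_lit 616) (nat_lit 613) (nat_lit 331)) (XT.lf (nat_lit 0) (nat_lit 4700627056) (nat_lit 1824) (nat_lit 11404111320) (nat_lit 1900) (nat_lit 10603485635) (nat_lit 483) (nat_lit 5) (nat_lit 507) (nat_lit 5) (nat_lit 508) (nat_lit 5) (nat_lit 617) (nat_lit 613) (nat_lit 330))))) (XT.nd (nat_lit 234) (nat_lit 0) (nat_lit 152) (XT.nd (nat_lit 78) (nat_lit 0) (nat_lit 76) (XT.lf (nat_lit 76) (nat_lit 2100209724) (nat_lit 0) (nat_lit 3107382164) (nat_lit 1900) (nat_lit 21769121892) (nat_lit 484) (nat_lit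 5) (nat_lit 483) (nat_lit 5) (nat_lit 508) (nat_lit 5) (nat_lit 618) (nat_lit 613) (nat_lit 329)) (XT.nd (nat_lit 78) (nat_lit 0) (nat_lit 0) (XT.lf (nat_lit 0) (nat_lit 5865191007) (nat_lit 1824) (nat_lit 11287709638) (nat_lit 1900) (nat_lit 10094862873) (nat_lit 484) (nat_lit 5) (nat_lit 508) (nat_lit 5) (nat_lit 509) (nat_lit 5) (nat_lit 619) (nat_lit 613) (nat_lit 328)) (XT.lf (nat_lit 76) (nat_lit 2584747149) (nat_lit 0) (nat_lit 3986163949) (nat_lit 1900) (nat_lit 20952623847) (nat_lit 485) (nat_lit 5) (nat_lit 484) (nat_lit 5) (nat_lit 509) (nat_lit 5) (nat_lit 620) (nat_lit 613) (nat_lit 327)))) (XT.nd (nat_lit 78) (nat_lit 0) (nat_lit 0) (XT.lf (nat_lit 0) (nat_lit 7425961889) (nat_lit 1824) (nat_lit 10978941666) (nat_lit 1900) (nat_lit 9397213989) (nat_lit 485) (nat_lit 5) (nat_lit 509) (nat_lit 5) (nat_lit 510) (nat_lit 5) (nat_lit 621) (nat_lit 613) (nat_lit 326)) (XT.nd (nat_lit 78) (nat_lit 0) (nat_lit 76) (XT.lf (nat_lit 76) (nat_lit 3275208884) (nat_lit 0) (nat_lit 5068266197) (nat_lit 1900)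 (nat_lit 19741889555) (nat_lit 486) (nat_lit 5) (nat_lit 485) (nat_lit 5) (nat_lit 510) (nat_lit 5) (nat_lit 622) (nat_lit 613) (nat_lit 325)) (XT.lf (nat_lit 0) (nat_lit 9406655757) (nat_lit 1824) (nat_lit 10466932003) (nat_lit 1900) (nat_lit 8498142635) (nat_lit 486) (nat_lit 5) (nat_lit 510) (nat_lit 5) (nat_lit 511) (nat_lit 5) (nat_lit 623) (nat_lit 613) (nat_lit 324))))))))
noncomputable def xc220 : XT := (XT.nd (nat_lit 1560) (nat_lit 9424) (nat_lit 0) (XT.nd (nat_lit 780) (nat_lit 4332) (nat_lit 0) (XT.nd (nat_lit 390) (nat_lit 0) (nat_lit 228) (XT.nd (nat_lit 156) (nat_lit 0) (nat_lit 76) (XT.nd (nat_lit 78) (nat_lit 0) (nat_lit 76) (XT.lf (nat_lit 76) (nat_lit 4182991205) (nat_lit 0) (nat_lit 6366615874) (nat_lit 1900) (nat_lit 18113046316) (nat_lit 487) (nat_lit 5) (nat_lit 486) (nat_lit 5) (nat_lit 511) (nat_lit 5) (nat_lit 624) (nat_lit 613) (nat_lit 323)) (XT.lf (nat_lit 0) (nat_lit 11832057444) (nat_lit 1824) (nat_lit 9740274065) (nat_lit 1900) (nat_lit 7384730611) (nat_lit 487) (nat_lit 5)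 (nat_lit 511) (nat_lit 5) (nat_lit 512) (nat_lit 5) (nat_lit 625) (nat_lit 613) (nat_lit 322))) (XT.nd (nat_lit 78) (nat_lit 0) (nat_lit 76) (XT.lf (nat_lit 76) (nat_lit 5320041647) (nat_lit 0) (nat_lit 7894684509) (nat_lit 1900) (nat_lit 16041141540) (nat_lit 488) (nat_lit 5) (nat_lit 487) (nat_lit 5) (nat_lit 512) (nat_lit 5) (nat_lit 626) (nat_lit 613) (nat_lit 321)) (XT.nd (nat_lit 78) (nat_lit 0) (nat_lit 0) (XT.lf (nat_lit 0) (nat_lit 14728068014) (nat_lit 1824) (nat_lit 8787009330) (nat_lit 1900) (nat_lit 6043511706) (nat_lit 488) (nat_lit 5) (nat_lit 512) (nat_lit 5) (nat_lit 513) (nat_lit 5) (nat_lit 627) (nat_lit 613) (nat_lit 320)) (XT.lf (nat_lit 76) (nat_lit 6698880551) (nat_lit 0) (nat_lit 9666515184) (nat_lit 1900) (nat_lit 13500094781) (nat_lit 489) (nat_lit 5) (nat_lit 488) (nat_lit 5) (nat_lit 513) (nat_lit 5) (nat_lit 628) (nat_lit 613) (nat_lit 319))))) (XT.nd (nat_lit 156) (nat_lit 0) (nat_lit 76) (XT.nd (nat_lit 78) (nat_lit 0) (nat_lit 0) (XT.lf (nat_lit 0) (nat_lit 18121754077) (nat_lit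 1824) (nat_lit 7594605660) (nat_lit 1900) (nat_lit 4460444650) (nat_lit 489) (nat_lit 5) (nat_lit 513) (nat_lit 5) (nat_lit 514) (nat_lit 5) (nat_lit 629) (nat_lit 613) (nat_lit 318)) (XT.lf (nat_lit 76) (nat_lit 8332623565) (nat_lit 0) (nat_lit 11696750465) (nat_lit 1900) (nat_lit 10462647878) (nat_lit 490) (nat_lit 5) (nat_lit 489) (nat_lit 5) (nat_lit 514) (nat_lit 5) (nat_lit 630) (nat_lit 613) (nat_lit 317))) (XT.nd (nat_lit 78) (nat_lit 0) (nat_lit 0) (XT.lf (nat_lit 0) (nat_lit 22041399041) (nat_lit 1824) (nat_lit 6149934658) (nat_lit 1900) (nat_lit 2620885083) (nat_lit 490) (nat_lit 5) (nat_lit 514) (nat_lit 5) (nat_lit 515) (nat_lit 5) (nat_lit 631) (nat_lit 613) (nat_lit 316)) (XT.nd (nat_lit 78) (nat_lit 0) (nat_lit 76) (XT.lf (nat_lit 76) (nat_lit 10235005141) (nat_lit 0) (nat_lit 14000661341) (nat_lit 1900) (nat_lit 6900313131) (nat_lit 491) (nat_lit 5) (nat_lit 490) (nat_lit 5) (nat_lit 515) (nat_lit 5) (nat_lit 632) (nat_lit 613) (nat_lit 315)) (XT.lf (nat_lit 0) (nat_lit 26516556402) (nat_lit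 1824) (nat_lit 4439248043) (nat_lit 1900) (nat_lit 509556529) (nat_lit 491) (nat_lit 5) (nat_lit 515) (nat_lit 5) (nat_lit 516) (nat_lit 5) (nat_lit 633) (nat_lit 613) (nat_lit 314)))))) (XT.nd (nat_lit 390) (nat_lit 2888) (nat_lit 0) (XT.nd (nat_lit 156) (nat_lit 1824) (nat_lit 0) (XT.nd (nat_lit 78) (nat_lit 0) (nat_lit 0) (XT.lf (nat_lit 76) (nat_lit 12420403046) (nat_lit 0) (nat_lit 16594177221) (nat_lit 1900) (nat_lit 2783319429) (nat_lit 492) (nat_lit 5) (nat_lit 491) (nat_lit 5) (nat_lit 516) (nat_lit 5) (nat_lit 634) (nat_lit 613) (nat_lit 313)) (XT.lf (nat_lit 76) (nat_lit 29675946033) (nat_lit 0) (nat_lit 1914589897) (nat_lit 1900) (nat_lit 545993887) (nat_lit 492) (nat_lit 5) (nat_lit 491) (nat_lit 5) (nat_lit 516) (nat_lit 5) (nat_lit 635) (nat_lit 613) (nat_lit 312))) (XT.nd (nat_lit 78) (nat_lit 0) (nat_lit 0) (XT.lf (nat_lit 0) (nat_lit 1894269922) (nat_lit 1900) (nat_lit 17586935558) (nat_lit 1976) (nat_lit 12996882463) (nat_lit 467) (nat_lit 5) (nat_lit 492) (nat_lit 5) (nat_lit 493) (nat_lit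 5) (nat_lit 636) (nat_lit 613) (nat_lit 311)) (XT.nd (nat_lit 78) (nat_lit 0) (nat_lit 76) (XT.lf (nat_lit 0) (nat_lit 4403568669) (nat_lit 1900) (nat_lit 220773459) (nat_lit 1976) (nat_lit 28201512163) (nat_lit 467) (nat_lit 5) (nat_lit 492) (nat_lit 5) (nat_lit 493) (nat_lit 5) (nat_lit 637) (nat_lit 613) (nat_lit 310)) (XT.lf (nat_lit 0) (nat_lit 7145524431) (nat_lit 1900) (nat_lit 15523746813) (nat_lit 76) (nat_lit 10507655351) (nat_lit 468) (nat_lit 5) (nat_lit 493) (nat_lit 5) (nat_lit 469) (nat_lit 5) (nat_lit 638) (nat_lit 613) (nat_lit 309))))) (XT.nd (nat_lit 156) (nat_lit 1824) (nat_lit 0) (XT.nd (nat_lit 78) (nat_lit 0) (nat_lit 0) (XT.lf (nat_lit 0) (nat_lit 2351321679) (nat_lit 1140) (nat_lit 7636673928) (nat_lit 1216) (nat_lit 23546111260) (nat_lit 453) (nat_lit 5) (nat_lit 468) (nat_lit 5) (nat_lit 469) (nat_lit 5) (nat_lit 639) (nat_lit 613) (nat_lit 308)) (XT.lf (nat_lit 0) (nat_lit 13040468818) (nat_lit 1216) (nat_lit 13154209315) (nat_lit 76) (nat_lit 7700689607) (nat_lit 453) (nat_lit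 5) (nat_lit 469) (nat_lit 5) (nat_lit 454) (nat_lit 5) (nat_lit 640) (nat_lit 613) (nat_lit 307))) (XT.nd (nat_lit 78) (nat_lit 912) (nat_lit 0) (XT.lf (nat_lit 0) (nat_lit 5251750672) (nat_lit 912) (nat_lit 10985264573) (nat_lit 988) (nat_lit 18025178158) (nat_lit 441) (nat_lit 5) (nat_lit 453) (nat_lit 5) (nat_lit 454) (nat_lit 5) (nat_lit 641) (nat_lit 613) (nat_lit 306)) (XT.nd (nat_lit 78) (nat_lit 912) (nat_lit 0) (XT.lf (nat_lit 0) (nat_lit 19614125356) (nat_lit 988) (nat_lit 10461951804) (nat_lit 76) (nat_lit 4557945809) (nat_lit 441) (nat_lit 5) (nat_lit 454) (nat_lit 5) (nat_lit 442) (nat_lit 5) (nat_lit 642) (nat_lit 613) (nat_lit 305)) (XT.lf (nat_lit 0) (nat_lit 8494683104) (nat_lit 912) (nat_lit 14690405169) (nat_lit 988) (nat_lit 11825674687) (nat_lit 429) (nat_lit 5) (nat_lit 441) (nat_lit 5) (nat_lit 442) (nat_lit 5) (nat_lit 643) (nat_lit 613) (nat_lit 304))))))) (XT.nd (nat_lit 780) (nat_lit 5168) (nat_lit 0) (XT.nd (nat_lit 390) (nat_lit 2432) (nat_lit 0) (XT.nd (nat_lit 156) (nat_lit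 988) (nat_lit 0) (XT.nd (nat_lit 78) (nat_lit 836) (nat_lit 0) (XT.lf (nat_lit 0) (nat_lit 26903082262) (nat_lit 988) (nat_lit 7429852725) (nat_lit 76) (nat_lit 1060590571) (nat_lit 429) (nat_lit 5) (nat_lit 442) (nat_lit 5) (nat_lit 430) (nat_lit 5) (nat_lit 644) (nat_lit 613) (nat_lit 303)) (XT.lf (nat_lit 0) (nat_lit 12098001162) (nat_lit 836) (nat_lit 18771731119) (nat_lit 912) (nat_lit 4910725248) (nat_lit 418) (nat_lit 5) (nat_lit 429) (nat_lit 5) (nat_lit 430) (nat_lit 5) (nat_lit 645) (nat_lit 613) (nat_lit 302))) (XT.nd (nat_lit 78) (nat_lit 988) (nat_lit 0) (XT.lf (nat_lit 0) (nat_lit 32115657663) (nat_lit 836) (nat_lit 2848396968) (nat_lit 912) (nat_lit 1210106764) (nat_lit 418) (nat_lit 5) (nat_lit 429) (nat_lit 5) (nat_lit 430) (nat_lit 5) (nat_lit 646) (nat_lit 613) (nat_lit 301)) (XT.nd (nat_lit 78) (nat_lit 0) (nat_lit 0) (XT.lf (nat_lit 0) (nat_lit 2722021980) (nat_lit 988) (nat_lit 20509452967) (nat_lit 76) (nat_lit 13340108778) (nat_lit 405) (nat_lit 5) (nat_lit 418) (nat_lit 5) (nat_lit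 406) (nat_lit 5) (nat_lit 647) (nat_lit 613) (nat_lit 300)) (XT.lf (nat_lit 0) (nat_lit 6761404888) (nat_lit 988) (nat_lit 364755114) (nat_lit 76) (nat_lit 29849738264) (nat_lit 405) (nat_lit 5) (nat_lit 418) (nat_lit 5) (nat_lit 406) (nat_lit 5) (nat_lit 648) (nat_lit 613) (nat_lit 299))))) (XT.nd (nat_lit 156) (nat_lit 760) (nat_lit 0) (XT.nd (nat_lit 78) (nat_lit 836) (nat_lit 0) (XT.lf (nat_lit 0) (nat_lit 11074167128) (nat_lit 912) (nat_lit 16997355684) (nat_lit 76) (nat_lit 9312924492) (nat_lit 394) (nat_lit 5) (nat_lit 406) (nat_lit 5) (nat_lit 395) (nat_lit 5) (nat_lit 649) (nat_lit 613) (nat_lit 298)) (XT.lf (nat_lit 0) (nat_lit 3758414737) (nat_lit 836) (nat_lit 11787398180) (nat_lit 912) (nat_lit 22253901879) (nat_lit 383) (nat_lit 5) (nat_lit 394) (nat_lit 5) (nat_lit 395) (nat_lit 5) (nat_lit 650) (nat_lit 613) (nat_lit 297))) (XT.nd (nat_lit 78) (nat_lit 760) (nat_lit 0) (XT.lf (nat_lit 0) (nat_lit 20251605906) (nat_lit 912) (nat_lit 13094855669) (nat_lit 76) (nat_lit 4873931814) (nat_lit 383)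 (nat_lit 5) (nat_lit 395) (nat_lit 5) (nat_lit 384) (nat_lit 5) (nat_lit 651) (nat_lit 613) (nat_lit 296)) (XT.nd (nat_lit 78) (nat_lit 0) (nat_lit 0) (XT.lf (nat_lit 0) (nat_lit 8299850774) (nat_lit 760) (nat_lit 16882229484) (nat_lit 836) (nat_lit 13464794023) (nat_lit 373) (nat_lit 5) (nat_lit 383) (nat_lit 5) (nat_lit 384) (nat_lit 5) (nat_lit 652) (nat_lit 613) (nat_lit 295)) (XT.lf (nat_lit 0) (nat_lit 30297675776) (nat_lit 836) (nat_lit 8781653604) (nat_lit 76) (nat_lit 825214) (nat_lit 373) (nat_lit 5) (nat_lit 384) (nat_lit 5) (nat_lit 374) (nat_lit 5) (nat_lit 653) (nat_lit 613) (nat_lit 294)))))) (XT.nd (nat_lit 390) (nat_lit 2812) (nat_lit 0) (XT.nd (nat_lit 156) (nat_lit 1520) (nat_lit 0) (XT.nd (nat_lit 78) (nat_lit 76) (nat_lit 0) (XT.lf (nat_lit 0) (nat_lit 13275889591) (nat_lit 760) (nat_lit 22436351497) (nat_lit 836) (nat_lit 3805926302) (nat_lit 363) (nat_lit 5) (nat_lit 373) (nat_lit 5) (nat_lit 374) (nat_lit 5) (nat_lit 654) (nat_lit 613) (nat_lit 293)) (XT.lf (nat_lit 0) (nat_lit 1311486018)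 (nat_lit 836) (nat_lit 4080232710) (nat_lit 76) (nat_lit 34571897073) (nat_lit 362) (nat_lit 5) (nat_lit 373) (nat_lit 5) (nat_lit 363) (nat_lit 5) (nat_lit 655) (nat_lit 613) (nat_lit 292))) (XT.nd (nat_lit 78) (nat_lit 760) (nat_lit 0) (XT.lf (nat_lit 0) (nat_lit 6679570309) (nat_lit 836) (nat_lit 21749648966) (nat_lit 76) (nat_lit 11984265091) (nat_lit 352) (nat_lit 5) (nat_lit 363) (nat_lit 5) (nat_lit 353) (nat_lit 5) (nat_lit 656) (nat_lit 613) (nat_lit 291)) (XT.nd (nat_lit 78) (nat_lit 0) (nat_lit 0) (XT.lf (nat_lit 0) (nat_lit 1022369027) (nat_lit 760) (nat_lit 11201262779) (nat_lit 836) (nat_lit 28647346221) (nat_lit 342) (nat_lit 5) (nat_lit 352) (nat_lit 5) (nat_lit 353) (nat_lit 5) (nat_lit 657) (nat_lit 613) (nat_lit 290)) (XT.lf (nat_lit 0) (nat_lit 18065583117) (nat_lit 836) (nat_lit 16833843177) (nat_lit 76) (nat_lit 6434455128) (nat_lit 342) (nat_lit 5) (nat_lit 353) (nat_lit 5) (nat_lit 343) (nat_lit 5) (nat_lit 658) (nat_lit 613) (nat_lit 289))))) (XT.nd (nat_lit 234) (nat_lit 1444) (nat_lit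 0) (XT.nd (nat_lit 78) (nat_lit 684) (nat_lit 0) (XT.lf (nat_lit 0) (nat_lit 6652862196) (nat_lit 684) (nat_lit 17487635643) (nat_lit 760) (nat_lit 17663222588) (nat_lit 333) (nat_lit 5) (nat_lit 342) (nat_lit 5) (nat_lit 343) (nat_lit 5) (nat_lit 659) (nat_lit 613) (nat_lit 288)) (XT.nd (nat_lit 78) (nat_lit 684) (nat_lit 0) (XT.lf (nat_lit 0) (nat_lit 30451154616) (nat_lit 760) (nat_lit 11447167585) (nat_lit 76) (nat_lit 382349168) (nat_lit 333) (nat_lit 5) (nat_lit 343) (nat_lit 5) (nat_lit 334) (nat_lit 5) (nat_lit 660) (nat_lit 613) (nat_lit 287)) (XT.lf (nat_lit 0) (nat_lit 12780995205) (nat_lit 684) (nat_lit 24304611595) (nat_lit 760) (nat_lit 5677602914) (nat_lit 324) (nat_lit 5) (nat_lit 333) (nat_lit 5) (nat_lit 334) (nat_lit 5) (nat_lit 661) (nat_lit 613) (nat_lit 286)))) (XT.nd (nat_lit 78) (nat_lit 1368) (nat_lit 0) (XT.lf (nat_lit 0) (nat_lit 665634203) (nat_lit 760) (nat_lit 5610780294) (nat_lit 76) (nat_lit 36977384403) (nat_lit 323) (nat_lit 5) (nat_lit 333) (nat_lit 5) (nat_lit 324) (nat_lit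 5) (nat_lit 662) (nat_lit 613) (nat_lit 285)) (XT.nd (nat_lit 78) (nat_lit 684) (nat_lit 0) (XT.lf (nat_lit 0) (nat_lit 7264703309) (nat_lit 760) (nat_lit 24366302153) (nat_lit 76) (nat_lit 12118344051) (nat_lit 314) (nat_lit 5) (nat_lit 324) (nat_lit 5) (nat_lit 315) (nat_lit 5) (nat_lit 663) (nat_lit 613) (nat_lit 284)) (XT.lf (nat_lit 0) (nat_lit 664239413) (nat_lit 684) (nat_lit 13414123902) (nat_lit 760) (nat_lit 30174795660) (nat_lit 305) (nat_lit 5) (nat_lit 314) (nat_lit 5) (nat_lit 315) (nat_lit 5) (nat_lit 664) (nat_lit 613) (nat_lit 283))))))))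
noncomputable def xc221 : XT := (XT.nd (nat_lit 78000) (nat_lit 0) (nat_lit 12464) (XT.nd (nat_lit 77220) (nat_lit 0) (nat_lit 16416) (XT.nd (nat_lit 390) (nat_lit 1748) (nat_lit 0) (XT.nd (nat_lit 156) (nat_lit 684) (nat_lit 0) (XT.nd (nat_lit 78) (nat_lit 608) (nat_lit 0) (XT.lf (nat_lit 0) (nat_lit 21225281131) (nat_lit 760) (nat_lit 18274140607) (nat_lit 76) (nat_lit 5263683224) (nat_lit 305) (nat_lit 5) (nat_lit 315) (nat_lit 5) (nat_lit 306) (nat_lit 5) (nat_lit 665) (nat_lit 613) (nat_lit 282)) (XT.lf (nat_lit 0) (nat_lit 7555803626) (nat_lit 608) (nat_lit 21096091745) (nat_lit 684) (nat_lit 16628619363) (nat_lit 297) (nat_lit 5) (nat_lit 305) (nat_lit 5) (nat_lit 306) (nat_lit 5) (nat_lit 666) (nat_lit 613) (nat_lit 281))) (XT.nd (nat_lit 78) (nat_lit 684) (nat_lit 0) (XT.lf (nat_lit 0) (nat_lit 34148675915) (nat_lit 608) (nat_lit 2199873882) (nat_lit 684) (nat_lit 9457292773) (nat_lit 297) (nat_lit 5) (nat_lit 305) (nat_lit 5) (nat_lit 306) (nat_lit 5) (nat_lit 667) (nat_lit 613) (nat_lit 280))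 (XT.nd (nat_lit 78) (nat_lit 76) (nat_lit 0) (XT.lf (nat_lit 0) (nat_lit 15016439638) (nat_lit 608) (nat_lit 29389950958) (nat_lit 684) (nat_lit 1931141326) (nat_lit 289) (nat_lit 5) (nat_lit 297) (nat_lit 5) (nat_lit 298) (nat_lit 5) (nat_lit 668) (nat_lit 613) (nat_lit 279)) (XT.lf (nat_lit 0) (nat_lit 5762396536) (nat_lit 684) (nat_lit 4550527507) (nat_lit 76) (nat_lit 36564340626) (nat_lit 288) (nat_lit 5) (nat_lit 297) (nat_lit 5) (nat_lit 289) (nat_lit 5) (nat_lit 669) (nat_lit 613) (nat_lit 278))))) (XT.nd (nat_lit 156) (nat_lit 532) (nat_lit 0) (XT.nd (nat_lit 78) (nat_lit 608) (nat_lit 0) (XT.lf (nat_lit 0) (nat_lit 13792964575) (nat_lit 684) (nat_lit 24441492607) (nat_lit 76) (nat_lit 9188899267) (nat_lit 280) (nat_lit 5) (nat_lit 289) (nat_lit 5) (nat_lit 281) (nat_lit 5) (nat_lit 670) (nat_lit 613) (nat_lit 277)) (XT.lf (nat_lit 0) (nat_lit 3117854906) (nat_lit 608) (nat_lit 18984505004) (nat_lit 684) (nat_lit 25875645861) (nat_lit 272) (nat_lit 5) (nat_lit 280) (nat_lit 5) (nat_lit 281) (nat_lit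 5) (nat_lit 671) (nat_lit 613) (nat_lit 276))) (XT.nd (nat_lit 78) (nat_lit 532) (nat_lit 0) (XT.lf (nat_lit 0) (nat_lit 30746214420) (nat_lit 684) (nat_lit 16987450831) (nat_lit 76) (nat_lit 806717426) (nat_lit 272) (nat_lit 5) (nat_lit 281) (nat_lit 5) (nat_lit 273) (nat_lit 5) (nat_lit 672) (nat_lit 613) (nat_lit 275)) (XT.nd (nat_lit 78) (nat_lit 0) (nat_lit 0) (XT.lf (nat_lit 0) (nat_lit 11466009754) (nat_lit 532) (nat_lit 28296073722) (nat_lit 608) (nat_lit 9347940919) (nat_lit 265) (nat_lit 5) (nat_lit 272) (nat_lit 5) (nat_lit 273) (nat_lit 5) (nat_lit 673) (nat_lit 613) (nat_lit 274)) (XT.lf (nat_lit 0) (nat_lit 40717470751) (nat_lit 532) (nat_lit 8353772777) (nat_lit 608) (nat_lit 617555969) (nat_lit 265) (nat_lit 5) (nat_lit 272) (nat_lit 5) (nat_lit 273) (nat_lit 5) (nat_lit 674) (nat_lit 613) (nat_lit 273)))))) (XT.nd (nat_lit 390) (nat_lit 0) (nat_lit 152) (XT.nd (nat_lit 156) (nat_lit 0) (nat_lit 76) (XT.nd (nat_lit 78) (nat_lit 0) (nat_lit 0) (XT.lf (nat_lit 0) (nat_lit 1869703203) (nat_lit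 1900) (nat_lit 5610479672) (nat_lit 1900) (nat_lit 5610479672) (nat_lit 481) (nat_lit 3) (nat_lit 506) (nat_lit 3) (nat_lit 506) (nat_lit 5) (nat_lit 614) (nat_lit 614) (nat_lit 332)) (XT.lf (nat_lit 76) (nat_lit 1841241331) (nat_lit 0) (nat_lit 2044100302) (nat_lit 1900) (nat_lit 22555622969) (nat_lit 482) (nat_lit 5) (nat_lit 481) (nat_lit 3) (nat_lit 506) (nat_lit 5) (nat_lit 615) (nat_lit 614) (nat_lit 331))) (XT.nd (nat_lit 78) (nat_lit 0) (nat_lit 0) (XT.lf (nat_lit 0) (nat_lit 4179725301) (nat_lit 1824) (nat_lit 11461635257) (nat_lit 1900) (nat_lit 11061525820) (nat_lit 482) (nat_lit 5) (nat_lit 506) (nat_lit 5) (nat_lit 507) (nat_lit 5) (nat_lit 616) (nat_lit 614) (nat_lit 330)) (XT.nd (nat_lit 78) (nat_lit 0) (nat_lit 76) (XT.lf (nat_lit 76) (nat_lit 1949909453) (nat_lit 0) (nat_lit 2553800070) (nat_lit 1900) (nat_lit 22465862885) (nat_lit 483) (nat_lit 5) (nat_lit 482) (nat_lit 5) (nat_lit 507) (nat_lit 5) (nat_lit 617) (nat_lit 614) (nat_lit 329)) (XT.lf (nat_lit 0) (nat_lit 4979250985) (nat_lit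 1824) (nat_lit 11526993070) (nat_lit 1900) (nat_lit 10732446626) (nat_lit 483) (nat_lit 5) (nat_lit 507) (nat_lit 5) (nat_lit 508) (nat_lit 5) (nat_lit 618) (nat_lit 614) (nat_lit 328))))) (XT.nd (nat_lit 156) (nat_lit 0) (nat_lit 76) (XT.nd (nat_lit 78) (nat_lit 0) (nat_lit 76) (XT.lf (nat_lit 76) (nat_lit 2246722286) (nat_lit 0) (nat_lit 3246691534) (nat_lit 1900) (nat_lit 22019195361) (nat_lit 484) (nat_lit 5) (nat_lit 483) (nat_lit 5) (nat_lit 508) (nat_lit 5) (nat_lit 619) (nat_lit 614) (nat_lit 327)) (XT.lf (nat_lit 0) (nat_lit 6160111601) (nat_lit 1824) (nat_lit 11406945960) (nat_lit 1900) (nat_lit 10222103527) (nat_lit 484) (nat_lit 5) (nat_lit 508) (nat_lit 5) (nat_lit 509) (nat_lit 5) (nat_lit 620) (nat_lit 614) (nat_lit 326))) (XT.nd (nat_lit 78) (nat_lit 0) (nat_lit 76) (XT.lf (nat_lit 76) (nat_lit 2742259187) (nat_lit 0) (nat_lit 4134891259) (nat_lit 1900) (nat_lit 21193353515) (nat_lit 485) (nat_lit 5) (nat_lit 484) (nat_lit 5) (nat_lit 509) (nat_lit 5) (nat_lit 621) (nat_lit 614) (nat_lit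 325)) (XT.nd (nat_lit 78) (nat_lit 0) (nat_lit 0) (XT.lf (nat_lit 0) (nat_lit 7745435153) (nat_lit 1824) (nat_lit 11090905991) (nat_lit 1900) (nat_lit 9518394513) (nat_lit 485) (nat_lit 5) (nat_lit 509) (nat_lit 5) (nat_lit 510) (nat_lit 5) (nat_lit 622) (nat_lit 614) (nat_lit 324)) (XT.lf (nat_lit 76) (nat_lit 3447619579) (nat_lit 0) (nat_lit 5231021098) (nat_lit 1900) (nat_lit 19965060274) (nat_lit 486) (nat_lit 5) (nat_lit 485) (nat_lit 5) (nat_lit 510) (nat_lit 5) (nat_lit 623) (nat_lit 614) (nat_lit 323))))))) (XT.nd (nat_lit 780) (nat_lit 4332) (nat_lit 0) (XT.nd (nat_lit 390) (nat_lit 0) (nat_lit 152) (XT.nd (nat_lit 156) (nat_lit 0) (nat_lit 76) (XT.nd (nat_lit 78) (nat_lit 0) (nat_lit 0) (XT.lf (nat_lit 0) (nat_lit 9759394276) (nat_lit 1824) (nat_lit 10567764684) (nat_lit 1900) (nat_lit 8608708977) (nat_lit 486) (nat_lit 5) (nat_lit 510) (nat_lit 5) (nat_lit 511) (nat_lit 5) (nat_lit 624) (nat_lit 614) (nat_lit 322)) (XT.lf (nat_lit 76) (nat_lit 4374443132) (nat_lit 0) (nat_lit 6548233793) (nat_lit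 1900) (nat_lit 18309983123) (nat_lit 487) (nat_lit 5) (nat_lit 486) (nat_lit 5) (nat_lit 511) (nat_lit 5) (nat_lit 625) (nat_lit 614) (nat_lit 321))) (XT.nd (nat_lit 78) (nat_lit 0) (nat_lit 0) (XT.lf (nat_lit 0) (nat_lit 12227252756) (nat_lit 1824) (nat_lit 9825872707) (nat_lit 1900) (nat_lit 7479902050) (nat_lit 487) (nat_lit 5) (nat_lit 511) (nat_lit 5) (nat_lit 512) (nat_lit 5) (nat_lit 626) (nat_lit 614) (nat_lit 320)) (XT.nd (nat_lit 78) (nat_lit 0) (nat_lit 76) (XT.lf (nat_lit 76) (nat_lit 5534930852) (nat_lit 0) (nat_lit 8100239464) (nat_lit 1900) (nat_lit 16202687069) (nat_lit 488) (nat_lit 5) (nat_lit 487) (nat_lit 5) (nat_lit 512) (nat_lit 5) (nat_lit 627) (nat_lit 614) (nat_lit 319)) (XT.lf (nat_lit 0) (nat_lit 15175413873) (nat_lit 1824) (nat_lit 8853018649) (nat_lit 1900) (nat_lit 6118268040) (nat_lit 488) (nat_lit 5) (nat_lit 512) (nat_lit 5) (nat_lit 513) (nat_lit 5) (nat_lit 628) (nat_lit 614) (nat_lit 318))))) (XT.nd (nat_lit 156) (nat_lit 0) (nat_lit 76) (XT.nd (nat_lit 78) (nat_lit 0)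 (nat_lit 76) (XT.lf (nat_lit 76) (nat_lit 6941867116) (nat_lit 0) (nat_lit 9901333016) (nat_lit 1900) (nat_lit 13616585774) (nat_lit 489) (nat_lit 5) (nat_lit 488) (nat_lit 5) (nat_lit 513) (nat_lit 5) (nat_lit 629) (nat_lit 614) (nat_lit 317)) (XT.lf (nat_lit 0) (nat_lit 18631470647) (nat_lit 1824) (nat_lit 7636406854) (nat_lit 1900) (nat_lit 4509512943) (nat_lit 489) (nat_lit 5) (nat_lit 513) (nat_lit 5) (nat_lit 514) (nat_lit 5) (nat_lit 630) (nat_lit 614) (nat_lit 316))) (XT.nd (nat_lit 78) (nat_lit 0) (nat_lit 76) (XT.lf (nat_lit 76) (nat_lit 8608642674) (nat_lit 0) (nat_lit 11966422533) (nat_lit 1900) (nat_lit 10523890749) (nat_lit 490) (nat_lit 5) (nat_lit 489) (nat_lit 5) (nat_lit 514) (nat_lit 5) (nat_lit 631) (nat_lit 614) (nat_lit 315)) (XT.nd (nat_lit 78) (nat_lit 0) (nat_lit 0) (XT.lf (nat_lit 0) (nat_lit 22624258069) (nat_lit 1824) (nat_lit 6162634278) (nat_lit 1900) (nat_lit 2638725960) (nat_lit 490) (nat_lit 5) (nat_lit 514) (nat_lit 5) (nat_lit 515) (nat_lit 5) (nat_lit 632) (nat_lit 614)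 (nat_lit 314)) (XT.lf (nat_lit 76) (nat_lit 10549278666) (nat_lit 0) (nat_lit 14311058694) (nat_lit 1900) (nat_lit 6895558547) (nat_lit 491) (nat_lit 5) (nat_lit 490) (nat_lit 5) (nat_lit 515) (nat_lit 5) (nat_lit 633) (nat_lit 614) (nat_lit 313)))))) (XT.nd (nat_lit 390) (nat_lit 2888) (nat_lit 0) (XT.nd (nat_lit 156) (nat_lit 1824) (nat_lit 0) (XT.nd (nat_lit 78) (nat_lit 0) (nat_lit 0) (XT.lf (nat_lit 0) (nat_lit 27183907407) (nat_lit 1824) (nat_lit 4417666342) (nat_lit 1900) (nat_lit 490349981) (nat_lit 491) (nat_lit 5) (nat_lit 515) (nat_lit 5) (nat_lit 516) (nat_lit 5) (nat_lit 634) (nat_lit 614) (nat_lit 312)) (XT.lf (nat_lit 76) (nat_lit 12778451672) (nat_lit 0) (nat_lit 16951465271) (nat_lit 1900) (nat_lit 2701235858) (nat_lit 492) (nat_lit 5) (nat_lit 491) (nat_lit 5) (nat_lit 516) (nat_lit 5) (nat_lit 635) (nat_lit 614) (nat_lit 311))) (XT.nd (nat_lit 78) (nat_lit 1824) (nat_lit 0) (XT.lf (nat_lit 76) (nat_lit 30376955704) (nat_lit 0) (nat_lit 1977788073) (nat_lit 1900) (nat_lit 421864785) (nat_lit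 492) (nat_lit 5) (nat_lit 491) (nat_lit 5) (nat_lit 516) (nat_lit 5) (nat_lit 636) (nat_lit 614) (nat_lit 310)) (XT.nd (nat_lit 78) (nat_lit 0) (nat_lit 0) (XT.lf (nat_lit 0) (nat_lit 2063376399) (nat_lit 1900) (nat_lit 17827348029) (nat_lit 1976) (nat_lit 13234297094) (nat_lit 467) (nat_lit 5) (nat_lit 492) (nat_lit 5) (nat_lit 493) (nat_lit 5) (nat_lit 637) (nat_lit 614) (nat_lit 309)) (XT.lf (nat_lit 0) (nat_lit 4620288159) (nat_lit 1900) (nat_lit 116045556) (nat_lit 1976) (nat_lit 28743461016) (nat_lit 467) (nat_lit 5) (nat_lit 492) (nat_lit 5) (nat_lit 493) (nat_lit 5) (nat_lit 638) (nat_lit 614) (nat_lit 308))))) (XT.nd (nat_lit 234) (nat_lit 1824) (nat_lit 0) (XT.nd (nat_lit 78) (nat_lit 1140) (nat_lit 0) (XT.lf (nat_lit 0) (nat_lit 7415145001) (nat_lit 1900) (nat_lit 15723136731) (nat_lit 76) (nat_lit 10699645583) (nat_lit 468) (nat_lit 5) (nat_lit 493) (nat_lit 5) (nat_lit 469) (nat_lit 5) (nat_lit 639) (nat_lit 614) (nat_lit 307)) (XT.nd (nat_lit 78) (nat_lit 0) (nat_lit 0) (XT.lf (nat_lit 0) (nat_lit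 2508702308) (nat_lit 1140) (nat_lit 7803995273) (nat_lit 1216) (nat_lit 23889589041) (nat_lit 453) (nat_lit 5) (nat_lit 468) (nat_lit 5) (nat_lit 469) (nat_lit 5) (nat_lit 640) (nat_lit 614) (nat_lit 306)) (XT.lf (nat_lit 0) (nat_lit 13423677556) (nat_lit 1216) (nat_lit 13306556941) (nat_lit 76) (nat_lit 7840589140) (nat_lit 453) (nat_lit 5) (nat_lit 469) (nat_lit 5) (nat_lit 454) (nat_lit 5) (nat_lit 641) (nat_lit 614) (nat_lit 305)))) (XT.nd (nat_lit 78) (nat_lit 912) (nat_lit 0) (XT.lf (nat_lit 0) (nat_lit 5466793716) (nat_lit 912) (nat_lit 11215675452) (nat_lit 988) (nat_lit 18262550428) (nat_lit 441) (nat_lit 5) (nat_lit 453) (nat_lit 5) (nat_lit 454) (nat_lit 5) (nat_lit 642) (nat_lit 614) (nat_lit 304)) (XT.nd (nat_lit 78) (nat_lit 912) (nat_lit 0) (XT.lf (nat_lit 0) (nat_lit 20124686404) (nat_lit 988) (nat_lit 10560901416) (nat_lit 76) (nat_lit 4638746703) (nat_lit 441) (nat_lit 5) (nat_lit 454) (nat_lit 5) (nat_lit 442) (nat_lit 5) (nat_lit 643) (nat_lit 614) (nat_lit 303)) (XT.lf (nat_lit 0) (nat_lit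 8774140603) (nat_lit 912) (nat_lit 14991320151) (nat_lit 988) (nat_lit 11943180781) (nat_lit 429) (nat_lit 5) (nat_lit 441) (nat_lit 5) (nat_lit 442) (nat_lit 5) (nat_lit 644) (nat_lit 614) (nat_lit 302))))))))
noncomputable def xc222 : XT := (XT.nd (nat_lit 1560) (nat_lit 3724) (nat_lit 0) (XT.nd (nat_lit 780) (nat_lit 4484) (nat_lit 0) (XT.nd (nat_lit 390) (nat_lit 2432) (nat_lit 0) (XT.nd (nat_lit 156) (nat_lit 988) (nat_lit 0) (XT.nd (nat_lit 78) (nat_lit 836) (nat_lit 0) (XT.lf (nat_lit 0) (nat_lit 27555481723) (nat_lit 988) (nat_lit 7468698149) (nat_lit 76) (nat_lit 1074926235) (nat_lit 429) (nat_lit 5) (nat_lit 442) (nat_lit 5) (nat_lit 430) (nat_lit 5) (nat_lit 645) (nat_lit 614) (nat_lit 301)) (XT.lf (nat_lit 0) (nat_lit 12448990766) (nat_lit 836) (nat_lit 19150939951) (nat_lit 912) (nat_lit 4893876743) (nat_lit 418) (nat_lit 5) (nat_lit 429) (nat_lit 5) (nat_lit 430) (nat_lit 5) (nat_lit 646) (nat_lit 614) (nat_lit 300))) (XT.nd (nat_lit 78) (nat_lit 988) (nat_lit 0) (XT.lf (nat_lit 0) (nat_lit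 32864862563) (nat_lit 836) (nat_lit 2909065112) (nat_lit 912) (nat_lit 1121502027) (nat_lit 418) (nat_lit 5) (nat_lit 429) (nat_lit 5) (nat_lit 430) (nat_lit 5) (nat_lit 647) (nat_lit 614) (nat_lit 299)) (XT.nd (nat_lit 78) (nat_lit 0) (nat_lit 0) (XT.lf (nat_lit 0) (nat_lit 2886291758) (nat_lit 988) (nat_lit 20809766764) (nat_lit 76) (nat_lit 13604757328) (nat_lit 405) (nat_lit 5) (nat_lit 418) (nat_lit 5) (nat_lit 406) (nat_lit 5) (nat_lit 648) (nat_lit 614) (nat_lit 298)) (XT.lf (nat_lit 0) (nat_lit 7004308809) (nat_lit 988) (nat_lit 264329371) (nat_lit 76) (nat_lit 30444621632) (nat_lit 405) (nat_lit 5) (nat_lit 418) (nat_lit 5) (nat_lit 406) (nat_lit 5) (nat_lit 649) (nat_lit 614) (nat_lit 297))))) (XT.nd (nat_lit 156) (nat_lit 760) (nat_lit 0) (XT.nd (nat_lit 78) (nat_lit 836) (nat_lit 0) (XT.lf (nat_lit 0) (nat_lit 11401914684) (nat_lit 912) (nat_lit 17228167497) (nat_lit 76) (nat_lit 9499925939) (nat_lit 394) (nat_lit 5) (nat_lit 406) (nat_lit 5) (nat_lit 395) (nat_lit 5) (nat_lit 650) (nat_lit 614)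 (nat_lit 296)) (XT.lf (nat_lit 0) (nat_lit 3942000338) (nat_lit 836) (nat_lit 12019613356) (nat_lit 912) (nat_lit 22591994916) (nat_lit 383) (nat_lit 5) (nat_lit 394) (nat_lit 5) (nat_lit 395) (nat_lit 5) (nat_lit 651) (nat_lit 614) (nat_lit 295))) (XT.nd (nat_lit 78) (nat_lit 760) (nat_lit 0) (XT.lf (nat_lit 0) (nat_lit 20759488471) (nat_lit 912) (nat_lit 13248424497) (nat_lit 76) (nat_lit 4974828543) (nat_lit 383) (nat_lit 5) (nat_lit 395) (nat_lit 5) (nat_lit 384) (nat_lit 5) (nat_lit 652) (nat_lit 614) (nat_lit 294)) (XT.nd (nat_lit 78) (nat_lit 0) (nat_lit 0) (XT.lf (nat_lit 0) (nat_lit 8573463389) (nat_lit 760) (nat_lit 17213790958) (nat_lit 836) (nat_lit 13630524087) (nat_lit 373) (nat_lit 5) (nat_lit 383) (nat_lit 5) (nat_lit 384) (nat_lit 5) (nat_lit 653) (nat_lit 614) (nat_lit 293)) (XT.lf (nat_lit 0) (nat_lit 31003209663) (nat_lit 836) (nat_lit 8849826445) (nat_lit 76) (nat_lit 6727340) (nat_lit 373) (nat_lit 5) (nat_lit 384) (nat_lit 5) (nat_lit 374) (nat_lit 5) (nat_lit 654) (nat_lit 614) (nat_lit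 292)))))) (XT.nd (nat_lit 390) (nat_lit 2128) (nat_lit 0) (XT.nd (nat_lit 156) (nat_lit 1520) (nat_lit 0) (XT.nd (nat_lit 78) (nat_lit 76) (nat_lit 0) (XT.lf (nat_lit 0) (nat_lit 13648160638) (nat_lit 760) (nat_lit 22876646200) (nat_lit 836) (nat_lit 3781754902) (nat_lit 363) (nat_lit 5) (nat_lit 373) (nat_lit 5) (nat_lit 374) (nat_lit 5) (nat_lit 655) (nat_lit 614) (nat_lit 291)) (XT.lf (nat_lit 0) (nat_lit 1434749665) (nat_lit 836) (nat_lit 4055885300) (nat_lit 76) (nat_lit 35270309994) (nat_lit 362) (nat_lit 5) (nat_lit 373) (nat_lit 5) (nat_lit 363) (nat_lit 5) (nat_lit 656) (nat_lit 614) (nat_lit 290))) (XT.nd (nat_lit 78) (nat_lit 760) (nat_lit 0) (XT.lf (nat_lit 0) (nat_lit 6909037694) (nat_lit 836) (nat_lit 22077529504) (nat_lit 76) (nat_lit 12233266906) (nat_lit 352) (nat_lit 5) (nat_lit 363) (nat_lit 5) (nat_lit 353) (nat_lit 5) (nat_lit 657) (nat_lit 614) (nat_lit 289)) (XT.nd (nat_lit 78) (nat_lit 0) (nat_lit 0) (XT.lf (nat_lit 0) (nat_lit 1149224162) (nat_lit 760) (nat_lit 11413567208) (nat_lit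 836) (nat_lit 29123710097) (nat_lit 342) (nat_lit 5) (nat_lit 352) (nat_lit 5) (nat_lit 353) (nat_lit 5) (nat_lit 658) (nat_lit 614) (nat_lit 288)) (XT.lf (nat_lit 0) (nat_lit 18519799707) (nat_lit 836) (nat_lit 17064414378) (nat_lit 76) (nat_lit 6574484531) (nat_lit 342) (nat_lit 5) (nat_lit 353) (nat_lit 5) (nat_lit 343) (nat_lit 5) (nat_lit 659) (nat_lit 614) (nat_lit 287))))) (XT.nd (nat_lit 156) (nat_lit 1444) (nat_lit 0) (XT.nd (nat_lit 78) (nat_lit 0) (nat_lit 0) (XT.lf (nat_lit 0) (nat_lit 6891327039) (nat_lit 684) (nat_lit 17823748396) (nat_lit 760) (nat_lit 17922881759) (nat_lit 333) (nat_lit 5) (nat_lit 342) (nat_lit 5) (nat_lit 343) (nat_lit 5) (nat_lit 660) (nat_lit 614) (nat_lit 286)) (XT.lf (nat_lit 0) (nat_lit 31150232806) (nat_lit 760) (nat_lit 11571055366) (nat_lit 76) (nat_lit 403193278) (nat_lit 333) (nat_lit 5) (nat_lit 343) (nat_lit 5) (nat_lit 334) (nat_lit 5) (nat_lit 661) (nat_lit 614) (nat_lit 285))) (XT.nd (nat_lit 78) (nat_lit 760) (nat_lit 0) (XT.lf (nat_lit 0) (nat_lit 13140979524)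 (nat_lit 684) (nat_lit 24775306325) (nat_lit 760) (nat_lit 5700406519) (nat_lit 324) (nat_lit 5) (nat_lit 333) (nat_lit 5) (nat_lit 334) (nat_lit 5) (nat_lit 662) (nat_lit 614) (nat_lit 284)) (XT.nd (nat_lit 78) (nat_lit 684) (nat_lit 0) (XT.lf (nat_lit 0) (nat_lit 766749113) (nat_lit 760) (nat_lit 5619508885) (nat_lit 76) (nat_lit 37730858721) (nat_lit 323) (nat_lit 5) (nat_lit 333) (nat_lit 5) (nat_lit 324) (nat_lit 5) (nat_lit 663) (nat_lit 614) (nat_lit 283)) (XT.lf (nat_lit 0) (nat_lit 7496849735) (nat_lit 760) (nat_lit 24749189240) (nat_lit 76) (nat_lit 12376558407) (nat_lit 314) (nat_lit 5) (nat_lit 324) (nat_lit 5) (nat_lit 315) (nat_lit 5) (nat_lit 664) (nat_lit 614) (nat_lit 282))))))) (XT.nd (nat_lit 77298) (nat_lit 0) (nat_lit 16416) (XT.nd (nat_lit 390) (nat_lit 1824) (nat_lit 0) (XT.nd (nat_lit 156) (nat_lit 1216) (nat_lit 0) (XT.nd (nat_lit 78) (nat_lit 0) (nat_lit 0) (XT.lf (nat_lit 0) (nat_lit 781276059) (nat_lit 684) (nat_lit 13664477521) (nat_lit 760) (nat_lit 30690750082) (nat_lit 305)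 (nat_lit 5) (nat_lit 314) (nat_lit 5) (nat_lit 315) (nat_lit 5) (nat_lit 665) (nat_lit 614) (nat_lit 281)) (XT.lf (nat_lit 0) (nat_lit 21734041071) (nat_lit 760) (nat_lit 18536335238) (nat_lit 76) (nat_lit 5386303672) (nat_lit 305) (nat_lit 5) (nat_lit 315) (nat_lit 5) (nat_lit 306) (nat_lit 5) (nat_lit 666) (nat_lit 614) (nat_lit 280))) (XT.nd (nat_lit 78) (nat_lit 608) (nat_lit 0) (XT.lf (nat_lit 0) (nat_lit 7809528353) (nat_lit 608) (nat_lit 21498673402) (nat_lit 684) (nat_lit 16876255950) (nat_lit 297) (nat_lit 5) (nat_lit 305) (nat_lit 5) (nat_lit 306) (nat_lit 5) (nat_lit 667) (nat_lit 614) (nat_lit 279)) (XT.nd (nat_lit 78) (nat_lit 608) (nat_lit 0) (XT.lf (nat_lit 0) (nat_lit 34932246152) (nat_lit 608) (nat_lit 2224910401) (nat_lit 684) (nat_lit 9563168237) (nat_lit 297) (nat_lit 5) (nat_lit 305) (nat_lit 5) (nat_lit 306) (nat_lit 5) (nat_lit 668) (nat_lit 614) (nat_lit 278)) (XT.lf (nat_lit 0) (nat_lit 15418204910) (nat_lit 608) (nat_lit 29957127844) (nat_lit 684) (nat_lit 1887331642) (nat_lit 289)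 (nat_lit 5) (nat_lit 297) (nat_lit 5) (nat_lit 298) (nat_lit 5) (nat_lit 669) (nat_lit 614) (nat_lit 277))))) (XT.nd (nat_lit 156) (nat_lit 1140) (nat_lit 0) (XT.nd (nat_lit 78) (nat_lit 608) (nat_lit 0) (XT.lf (nat_lit 0) (nat_lit 5957400735) (nat_lit 684) (nat_lit 4541028804) (nat_lit 76) (nat_lit 37314783492) (nat_lit 288) (nat_lit 5) (nat_lit 297) (nat_lit 5) (nat_lit 289) (nat_lit 5) (nat_lit 670) (nat_lit 614) (nat_lit 276)) (XT.lf (nat_lit 0) (nat_lit 14147800959) (nat_lit 684) (nat_lit 24829032261) (nat_lit 76) (nat_lit 9393409046) (nat_lit 280) (nat_lit 5) (nat_lit 289) (nat_lit 5) (nat_lit 281) (nat_lit 5) (nat_lit 671) (nat_lit 614) (nat_lit 275))) (XT.nd (nat_lit 78) (nat_lit 532) (nat_lit 0) (XT.lf (nat_lit 0) (nat_lit 3280835820) (nat_lit 608) (nat_lit 19341653128) (nat_lit 684) (nat_lit 26313513567) (nat_lit 272) (nat_lit 5) (nat_lit 280) (nat_lit 5) (nat_lit 281) (nat_lit 5) (nat_lit 672) (nat_lit 614) (nat_lit 274)) (XT.nd (nat_lit 78) (nat_lit 532) (nat_lit 0) (XT.lf (nat_lit 0) (nat_lit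 31437833018) (nat_lit 684) (nat_lit 17227159818) (nat_lit 76) (nat_lit 844661906) (nat_lit 272) (nat_lit 5) (nat_lit 281) (nat_lit 5) (nat_lit 273) (nat_lit 5) (nat_lit 673) (nat_lit 614) (nat_lit 273)) (XT.lf (nat_lit 0) (nat_lit 11794711821) (nat_lit 532) (nat_lit 28838449078) (nat_lit 608) (nat_lit 9457545601) (nat_lit 265) (nat_lit 5) (nat_lit 272) (nat_lit 5) (nat_lit 273) (nat_lit 5) (nat_lit 674) (nat_lit 614) (nat_lit 272)))))) (XT.nd (nat_lit 390) (nat_lit 0) (nat_lit 152) (XT.nd (nat_lit 156) (nat_lit 0) (nat_lit 76) (XT.nd (nat_lit 78) (nat_lit 0) (nat_lit 0) (XT.lf (nat_lit 0) (nat_lit 2003056765) (nat_lit 1900) (nat_lit 5673748470) (nat_lit 1900) (nat_lit 5673748470) (nat_lit 481) (nat_lit 3) (nat_lit 506) (nat_lit 3) (nat_lit 506) (nat_lit 5) (nat_lit 615) (nat_lit 615) (nat_lit 330)) (XT.lf (nat_lit 76) (nat_lit 1975303791) (nat_lit 0) (nat_lit 2176531884) (nat_lit 1900) (nat_lit 22814166780) (nat_lit 482) (nat_lit 5) (nat_lit 481) (nat_lit 3) (nat_lit 506) (nat_lit 5) (nat_lit 616) (nat_lit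 615) (nat_lit 329))) (XT.nd (nat_lit 78) (nat_lit 0) (nat_lit 0) (XT.lf (nat_lit 0) (nat_lit 4447822561) (nat_lit 1824) (nat_lit 11591246911) (nat_lit 1900) (nat_lit 11194178997) (nat_lit 482) (nat_lit 5) (nat_lit 506) (nat_lit 5) (nat_lit 507) (nat_lit 5) (nat_lit 617) (nat_lit 615) (nat_lit 328)) (XT.nd (nat_lit 78) (nat_lit 0) (nat_lit 76) (XT.lf (nat_lit 76) (nat_lit 2087873292) (nat_lit 0) (nat_lit 2687438025) (nat_lit 1900) (nat_lit 22730016515) (nat_lit 483) (nat_lit 5) (nat_lit 482) (nat_lit 5) (nat_lit 507) (nat_lit 5) (nat_lit 618) (nat_lit 615) (nat_lit 327)) (XT.lf (nat_lit 0) (nat_lit 5256278707) (nat_lit 1824) (nat_lit 11656417518) (nat_lit 1900) (nat_lit 10867214051) (nat_lit 483) (nat_lit 5) (nat_lit 507) (nat_lit 5) (nat_lit 508) (nat_lit 5) (nat_lit 619) (nat_lit 615) (nat_lit 326))))) (XT.nd (nat_lit 234) (nat_lit 0) (nat_lit 152) (XT.nd (nat_lit 78) (nat_lit 0) (nat_lit 76) (XT.lf (nat_lit 76) (nat_lit 2392106913) (nat_lit 0) (nat_lit 3385790806) (nat_lit 1900) (nat_lit 22281466073) (nat_lit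 484) (nat_lit 5) (nat_lit 483) (nat_lit 5) (nat_lit 508) (nat_lit 5) (nat_lit 620) (nat_lit 615) (nat_lit 325)) (XT.nd (nat_lit 78) (nat_lit 0) (nat_lit 0) (XT.lf (nat_lit 0) (nat_lit 6454033531) (nat_lit 1824) (nat_lit 11532703228) (nat_lit 1900) (nat_lit 10354788000) (nat_lit 484) (nat_lit 5) (nat_lit 508) (nat_lit 5) (nat_lit 509) (nat_lit 5) (nat_lit 621) (nat_lit 615) (nat_lit 324)) (XT.lf (nat_lit 76) (nat_lit 2898812459) (nat_lit 0) (nat_lit 4283913605) (nat_lit 1900) (nat_lit 21445822268) (nat_lit 485) (nat_lit 5) (nat_lit 484) (nat_lit 5) (nat_lit 509) (nat_lit 5) (nat_lit 622) (nat_lit 615) (nat_lit 323)))) (XT.nd (nat_lit 78) (nat_lit 0) (nat_lit 0) (XT.lf (nat_lit 0) (nat_lit 8064659529) (nat_lit 1824) (nat_lit 11209288406) (nat_lit 1900) (nat_lit 9644591165) (nat_lit 485) (nat_lit 5) (nat_lit 509) (nat_lit 5) (nat_lit 510) (nat_lit 5) (nat_lit 623) (nat_lit 615) (nat_lit 322)) (XT.nd (nat_lit 78) (nat_lit 0) (nat_lit 76) (XT.lf (nat_lit 76) (nat_lit 3619327178) (nat_lit 0) (nat_lit 5394647264)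 (nat_lit 1900) (nat_lit 20199360449) (nat_lit 486) (nat_lit 5) (nat_lit 485) (nat_lit 5) (nat_lit 510) (nat_lit 5) (nat_lit 624) (nat_lit 615) (nat_lit 321)) (XT.lf (nat_lit 0) (nat_lit 10112795738) (nat_lit 1824) (nat_lit 10674827438) (nat_lit 1900) (nat_lit 8723793085) (nat_lit 486) (nat_lit 5) (nat_lit 510) (nat_lit 5) (nat_lit 511) (nat_lit 5) (nat_lit 625) (nat_lit 615) (nat_lit 320))))))))
noncomputable def xc223 : XT := (XT.nd (nat_lit 1560) (nat_lit 9424) (nat_lit 0) (XT.nd (nat_lit 780) (nat_lit 4332) (nat_lit 0) (XT.nd (nat_lit 390) (nat_lit 0) (nat_lit 228) (XT.nd (nat_lit 156) (nat_lit 0) (nat_lit 76) (XT.nd (nat_lit 78) (nat_lit 0) (nat_lit 76) (XT.lf (nat_lit 76) (nat_lit 4565538400) (nat_lit 0) (nat_lit 6731376095) (nat_lit 1900) (nat_lit 18517278403) (nat_lit 487) (nat_lit 5) (nat_lit 486) (nat_lit 5) (nat_lit 511) (nat_lit 5) (nat_lit 626) (nat_lit 615) (nat_lit 319)) (XT.lf (nat_lit 0) (nat_lit 12624195124) (nat_lit 1824) (nat_lit 9917423957) (nat_lit 1900) (nat_lit 7579016457) (nat_lit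 487) (nat_lit 5) (nat_lit 511) (nat_lit 5) (nat_lit 512) (nat_lit 5) (nat_lit 627) (nat_lit 615) (nat_lit 318))) (XT.nd (nat_lit 78) (nat_lit 0) (nat_lit 76) (XT.lf (nat_lit 76) (nat_lit 5749905106) (nat_lit 0) (nat_lit 8308054773) (nat_lit 1900) (nat_lit 16373648442) (nat_lit 488) (nat_lit 5) (nat_lit 487) (nat_lit 5) (nat_lit 512) (nat_lit 5) (nat_lit 628) (nat_lit 615) (nat_lit 317)) (XT.nd (nat_lit 78) (nat_lit 0) (nat_lit 0) (XT.lf (nat_lit 0) (nat_lit 15625773841) (nat_lit 1824) (nat_lit 8924609138) (nat_lit 1900) (nat_lit 6196310160) (nat_lit 488) (nat_lit 5) (nat_lit 512) (nat_lit 5) (nat_lit 513) (nat_lit 5) (nat_lit 629) (nat_lit 615) (nat_lit 316)) (XT.lf (nat_lit 76) (nat_lit 7185480462) (nat_lit 0) (nat_lit 10139236193) (nat_lit 1900) (nat_lit 13741367603) (nat_lit 489) (nat_lit 5) (nat_lit 488) (nat_lit 5) (nat_lit 513) (nat_lit 5) (nat_lit 630) (nat_lit 615) (nat_lit 315))))) (XT.nd (nat_lit 156) (nat_lit 0) (nat_lit 76) (XT.nd (nat_lit 78) (nat_lit 0) (nat_lit 0) (XT.lf (nat_lit 0) (nat_lit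 19145662428) (nat_lit 1824) (nat_lit 7683319036) (nat_lit 1900) (nat_lit 4561121310) (nat_lit 489) (nat_lit 5) (nat_lit 513) (nat_lit 5) (nat_lit 514) (nat_lit 5) (nat_lit 631) (nat_lit 615) (nat_lit 314)) (XT.lf (nat_lit 76) (nat_lit 8885935325) (nat_lit 0) (nat_lit 12240100329) (nat_lit 1900) (nat_lit 10592105890) (nat_lit 490) (nat_lit 5) (nat_lit 489) (nat_lit 5) (nat_lit 514) (nat_lit 5) (nat_lit 632) (nat_lit 615) (nat_lit 313))) (XT.nd (nat_lit 78) (nat_lit 0) (nat_lit 0) (XT.lf (nat_lit 0) (nat_lit 23213259038) (nat_lit 1824) (nat_lit 6179870937) (nat_lit 1900) (nat_lit 2658266315) (nat_lit 490) (nat_lit 5) (nat_lit 514) (nat_lit 5) (nat_lit 515) (nat_lit 5) (nat_lit 633) (nat_lit 615) (nat_lit 312)) (XT.nd (nat_lit 78) (nat_lit 0) (nat_lit 76) (XT.lf (nat_lit 76) (nat_lit 10865582792) (nat_lit 0) (nat_lit 14626484141) (nat_lit 1900) (nat_lit 6896252449) (nat_lit 491) (nat_lit 5) (nat_lit 490) (nat_lit 5) (nat_lit 515) (nat_lit 5) (nat_lit 634) (nat_lit 615) (nat_lit 311)) (XT.lf (nat_lit 0) (nat_lit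 27859284783) (nat_lit 1824) (nat_lit 4399938680) (nat_lit 1900) (nat_lit 471900850) (nat_lit 491) (nat_lit 5) (nat_lit 515) (nat_lit 5) (nat_lit 516) (nat_lit 5) (nat_lit 635) (nat_lit 615) (nat_lit 310)))))) (XT.nd (nat_lit 390) (nat_lit 2888) (nat_lit 0) (XT.nd (nat_lit 156) (nat_lit 1824) (nat_lit 0) (XT.nd (nat_lit 78) (nat_lit 0) (nat_lit 0) (XT.lf (nat_lit 76) (nat_lit 13139403794) (nat_lit 0) (nat_lit 17314912595) (nat_lit 1900) (nat_lit 2622859614) (nat_lit 492) (nat_lit 5) (nat_lit 491) (nat_lit 5) (nat_lit 516) (nat_lit 5) (nat_lit 636) (nat_lit 615) (nat_lit 309)) (XT.lf (nat_lit 76) (nat_lit 31087811571) (nat_lit 0) (nat_lit 2041283069) (nat_lit 1900) (nat_lit 300497217) (nat_lit 492) (nat_lit 5) (nat_lit 491) (nat_lit 5) (nat_lit 516) (nat_lit 5) (nat_lit 637) (nat_lit 615) (nat_lit 308))) (XT.nd (nat_lit 78) (nat_lit 0) (nat_lit 0) (XT.lf (nat_lit 0) (nat_lit 2230769532) (nat_lit 1900) (nat_lit 18076891684) (nat_lit 1976) (nat_lit 13477334615) (nat_lit 467) (nat_lit 5) (nat_lit 492) (nat_lit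 5) (nat_lit 493) (nat_lit 5) (nat_lit 638) (nat_lit 615) (nat_lit 307)) (XT.nd (nat_lit 78) (nat_lit 0) (nat_lit 76) (XT.lf (nat_lit 0) (nat_lit 4836346476) (nat_lit 1900) (nat_lit 13461265) (nat_lit 1976) (nat_lit 29297106293) (nat_lit 467) (nat_lit 5) (nat_lit 492) (nat_lit 5) (nat_lit 493) (nat_lit 5) (nat_lit 639) (nat_lit 615) (nat_lit 306)) (XT.lf (nat_lit 0) (nat_lit 7685237675) (nat_lit 1900) (nat_lit 15930828013) (nat_lit 76) (nat_lit 10896180906) (nat_lit 468) (nat_lit 5) (nat_lit 493) (nat_lit 5) (nat_lit 469) (nat_lit 5) (nat_lit 640) (nat_lit 615) (nat_lit 305))))) (XT.nd (nat_lit 156) (nat_lit 1824) (nat_lit 0) (XT.nd (nat_lit 78) (nat_lit 0) (nat_lit 0) (XT.lf (nat_lit 0) (nat_lit 2664945363) (nat_lit 1140) (nat_lit 7974096581) (nat_lit 1216) (nat_lit 24244885201) (nat_lit 453) (nat_lit 5) (nat_lit 468) (nat_lit 5) (nat_lit 469) (nat_lit 5) (nat_lit 641) (nat_lit 615) (nat_lit 304)) (XT.lf (nat_lit 0) (nat_lit 13809797551) (nat_lit 1216) (nat_lit 13466251555) (nat_lit 76) (nat_lit 7983834738)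 (nat_lit 453) (nat_lit 5) (nat_lit 469) (nat_lit 5) (nat_lit 454) (nat_lit 5) (nat_lit 642) (nat_lit 615) (nat_lit 303))) (XT.nd (nat_lit 78) (nat_lit 912) (nat_lit 0) (XT.lf (nat_lit 0) (nat_lit 5681865875) (nat_lit 912) (nat_lit 11450278839) (nat_lit 988) (nat_lit 18509451481) (nat_lit 441) (nat_lit 5) (nat_lit 453) (nat_lit 5) (nat_lit 454) (nat_lit 5) (nat_lit 643) (nat_lit 615) (nat_lit 302)) (XT.nd (nat_lit 78) (nat_lit 912) (nat_lit 0) (XT.lf (nat_lit 0) (nat_lit 20640865772) (nat_lit 988) (nat_lit 10666112692) (nat_lit 76) (nat_lit 4721565829) (nat_lit 441) (nat_lit 5) (nat_lit 454) (nat_lit 5) (nat_lit 442) (nat_lit 5) (nat_lit 644) (nat_lit 615) (nat_lit 301)) (XT.lf (nat_lit 0) (nat_lit 9054932754) (nat_lit 912) (nat_lit 15297977463) (nat_lit 988) (nat_lit 12067658200) (nat_lit 429) (nat_lit 5) (nat_lit 441) (nat_lit 5) (nat_lit 442) (nat_lit 5) (nat_lit 645) (nat_lit 615) (nat_lit 300))))))) (XT.nd (nat_lit 780) (nat_lit 5168) (nat_lit 0) (XT.nd (nat_lit 390) (nat_lit 2432) (nat_lit 0) (XT.nd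 (nat_lit 156) (nat_lit 988) (nat_lit 0) (XT.nd (nat_lit 78) (nat_lit 836) (nat_lit 0) (XT.lf (nat_lit 0) (nat_lit 28216489296) (nat_lit 988) (nat_lit 7512582270) (nat_lit 76) (nat_lit 1089815622) (nat_lit 429) (nat_lit 5) (nat_lit 442) (nat_lit 5) (nat_lit 430) (nat_lit 5) (nat_lit 646) (nat_lit 615) (nat_lit 299)) (XT.lf (nat_lit 0) (nat_lit 12802766411) (nat_lit 836) (nat_lit 19537586402) (nat_lit 912) (nat_lit 4881159306) (nat_lit 418) (nat_lit 5) (nat_lit 429) (nat_lit 5) (nat_lit 430) (nat_lit 5) (nat_lit 647) (nat_lit 615) (nat_lit 298))) (XT.nd (nat_lit 78) (nat_lit 988) (nat_lit 0) (XT.lf (nat_lit 0) (nat_lit 33624900823) (nat_lit 836) (nat_lit 2970802935) (nat_lit 912) (nat_lit 1035505624) (nat_lit 418) (nat_lit 5) (nat_lit 429) (nat_lit 5) (nat_lit 430) (nat_lit 5) (nat_lit 648) (nat_lit 615) (nat_lit 297)) (XT.nd (nat_lit 78) (nat_lit 0) (nat_lit 0) (XT.lf (nat_lit 0) (nat_lit 3049582125) (nat_lit 988) (nat_lit 21120353427) (nat_lit 76) (nat_lit 13874782476) (nat_lit 405) (nat_lit 5) (nat_lit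 418) (nat_lit 5) (nat_lit 406) (nat_lit 5) (nat_lit 649) (nat_lit 615) (nat_lit 296)) (XT.lf (nat_lit 0) (nat_lit 7247889624) (nat_lit 988) (nat_lit 166078044) (nat_lit 76) (nat_lit 31051484655) (nat_lit 405) (nat_lit 5) (nat_lit 418) (nat_lit 5) (nat_lit 406) (nat_lit 5) (nat_lit 650) (nat_lit 615) (nat_lit 295))))) (XT.nd (nat_lit 156) (nat_lit 760) (nat_lit 0) (XT.nd (nat_lit 78) (nat_lit 836) (nat_lit 0) (XT.lf (nat_lit 0) (nat_lit 11732090823) (nat_lit 912) (nat_lit 17467833402) (nat_lit 76) (nat_lit 9690638564) (nat_lit 394) (nat_lit 5) (nat_lit 406) (nat_lit 5) (nat_lit 395) (nat_lit 5) (nat_lit 651) (nat_lit 615) (nat_lit 294)) (XT.lf (nat_lit 0) (nat_lit 4125047675) (nat_lit 836) (nat_lit 12256610018) (nat_lit 912) (nat_lit 22941004172) (nat_lit 383) (nat_lit 5) (nat_lit 394) (nat_lit 5) (nat_lit 395) (nat_lit 5) (nat_lit 652) (nat_lit 615) (nat_lit 293))) (XT.nd (nat_lit 78) (nat_lit 760) (nat_lit 0) (XT.lf (nat_lit 0) (nat_lit 21273534880) (nat_lit 912) (nat_lit 13409271222) (nat_lit 76) (nat_lit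 5077610478) (nat_lit 383) (nat_lit 5) (nat_lit 395) (nat_lit 5) (nat_lit 384) (nat_lit 5) (nat_lit 653) (nat_lit 615) (nat_lit 292)) (XT.nd (nat_lit 78) (nat_lit 0) (nat_lit 0) (XT.lf (nat_lit 0) (nat_lit 8848369411) (nat_lit 760) (nat_lit 17552219877) (nat_lit 836) (nat_lit 13803590340) (nat_lit 373) (nat_lit 5) (nat_lit 383) (nat_lit 5) (nat_lit 384) (nat_lit 5) (nat_lit 654) (nat_lit 615) (nat_lit 291)) (XT.lf (nat_lit 0) (nat_lit 31718987401) (nat_lit 836) (nat_lit 8923535554) (nat_lit 76) (nat_lit 12518963) (nat_lit 373) (nat_lit 5) (nat_lit 384) (nat_lit 5) (nat_lit 374) (nat_lit 5) (nat_lit 655) (nat_lit 615) (nat_lit 290)))))) (XT.nd (nat_lit 390) (nat_lit 2812) (nat_lit 0) (XT.nd (nat_lit 156) (nat_lit 1520) (nat_lit 0) (XT.nd (nat_lit 78) (nat_lit 76) (nat_lit 0) (XT.lf (nat_lit 0) (nat_lit 14023731748) (nat_lit 760) (nat_lit 23326074233) (nat_lit 836) (nat_lit 3760994455) (nat_lit 363) (nat_lit 5) (nat_lit 373) (nat_lit 5) (nat_lit 374) (nat_lit 5) (nat_lit 656) (nat_lit 615) (nat_lit 289)) (XT.lf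 (nat_lit 0) (nat_lit 1556710639) (nat_lit 836) (nat_lit 4035165191) (nat_lit 76) (nat_lit 35982420326) (nat_lit 362) (nat_lit 5) (nat_lit 373) (nat_lit 5) (nat_lit 363) (nat_lit 5) (nat_lit 657) (nat_lit 615) (nat_lit 288))) (XT.nd (nat_lit 78) (nat_lit 760) (nat_lit 0) (XT.lf (nat_lit 0) (nat_lit 7139371446) (nat_lit 836) (nat_lit 22416126960) (nat_lit 76) (nat_lit 12486886985) (nat_lit 352) (nat_lit 5) (nat_lit 363) (nat_lit 5) (nat_lit 353) (nat_lit 5) (nat_lit 658) (nat_lit 615) (nat_lit 287)) (XT.nd (nat_lit 78) (nat_lit 0) (nat_lit 0) (XT.lf (nat_lit 0) (nat_lit 1274484456) (nat_lit 760) (nat_lit 11630572860) (nat_lit 836) (nat_lit 29613351688) (nat_lit 342) (nat_lit 5) (nat_lit 352) (nat_lit 5) (nat_lit 353) (nat_lit 5) (nat_lit 659) (nat_lit 615) (nat_lit 286)) (XT.lf (nat_lit 0) (nat_lit 18979493018) (nat_lit 836) (nat_lit 17303717215) (nat_lit 76) (nat_lit 6716874164) (nat_lit 342) (nat_lit 5) (nat_lit 353) (nat_lit 5) (nat_lit 343) (nat_lit 5) (nat_lit 660) (nat_lit 615) (nat_lit 285))))) (XT.nd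 (nat_lit 234) (nat_lit 1444) (nat_lit 0) (XT.nd (nat_lit 78) (nat_lit 684) (nat_lit 0) (XT.lf (nat_lit 0) (nat_lit 7130468073) (nat_lit 684) (nat_lit 18167113060) (nat_lit 760) (nat_lit 18191368919) (nat_lit 333) (nat_lit 5) (nat_lit 342) (nat_lit 5) (nat_lit 343) (nat_lit 5) (nat_lit 661) (nat_lit 615) (nat_lit 284)) (XT.nd (nat_lit 78) (nat_lit 684) (nat_lit 0) (XT.lf (nat_lit 0) (nat_lit 31859795609) (nat_lit 760) (nat_lit 11701500339) (nat_lit 76) (nat_lit 423941810) (nat_lit 333) (nat_lit 5) (nat_lit 343) (nat_lit 5) (nat_lit 334) (nat_lit 5) (nat_lit 662) (nat_lit 615) (nat_lit 283)) (XT.lf (nat_lit 0) (nat_lit 13504110933) (nat_lit 684) (nat_lit 25256012854) (nat_lit 760) (nat_lit 5727190070) (nat_lit 324) (nat_lit 5) (nat_lit 333) (nat_lit 5) (nat_lit 334) (nat_lit 5) (nat_lit 663) (nat_lit 615) (nat_lit 282)))) (XT.nd (nat_lit 78) (nat_lit 1368) (nat_lit 0) (XT.lf (nat_lit 0) (nat_lit 866476854) (nat_lit 760) (nat_lit 5632430574) (nat_lit 76) (nat_lit 38498861736) (nat_lit 323) (nat_lit 5) (nat_lit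 333) (nat_lit 5) (nat_lit 324) (nat_lit 5) (nat_lit 664) (nat_lit 615) (nat_lit 281)) (XT.nd (nat_lit 78) (nat_lit 684) (nat_lit 0) (XT.lf (nat_lit 0) (nat_lit 7730266506) (nat_lit 760) (nat_lit 25143789560) (nat_lit 76) (nat_lit 12639321674) (nat_lit 314) (nat_lit 5) (nat_lit 324) (nat_lit 5) (nat_lit 315) (nat_lit 5) (nat_lit 665) (nat_lit 615) (nat_lit 280)) (XT.lf (nat_lit 0) (nat_lit 896624627) (nat_lit 684) (nat_lit 13920534411) (nat_lit 760) (nat_lit 31220422935) (nat_lit 305) (nat_lit 5) (nat_lit 314) (nat_lit 5) (nat_lit 315) (nat_lit 5) (nat_lit 666) (nat_lit 615) (nat_lit 279))))))))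
noncomputable def xc224 : XT := (XT.nd (nat_lit 78156) (nat_lit 0) (nat_lit 11932) (XT.nd (nat_lit 77376) (nat_lit 0) (nat_lit 15960) (XT.nd (nat_lit 390) (nat_lit 1216) (nat_lit 0) (XT.nd (nat_lit 156) (nat_lit 684) (nat_lit 0) (XT.nd (nat_lit 78) (nat_lit 608) (nat_lit 0) (XT.lf (nat_lit 0) (nat_lit 22249704512) (nat_lit 760) (nat_lit 18807784568) (nat_lit 76) (nat_lit 5510702933) (nat_lit 305) (nat_lit 5) (nat_lit 315) (nat_lit 5) (nat_lit 306) (nat_lit 5) (nat_lit 667) (nat_lit 615) (nat_lit 278)) (XT.lf (nat_lit 0) (nat_lit 8064343154) (nat_lit 608) (nat_lit 21910057694) (nat_lit 684) (nat_lit 17132143431) (nat_lit 297) (nat_lit 5) (nat_lit 305) (nat_lit 5) (nat_lit 306) (nat_lit 5) (nat_lit 668) (nat_lit 615) (nat_lit 277))) (XT.nd (nat_lit 78) (nat_lit 684) (nat_lit 0) (XT.lf (nat_lit 0) (nat_lit 35727581501) (nat_lit 608) (nat_lit 2251183927) (nat_lit 684) (nat_lit 9674394701) (nat_lit 297) (nat_lit 5) (nat_lit 305) (nat_lit 5) (nat_lit 306) (nat_lit 5) (nat_lit 669) (nat_lit 615) (nat_lit 276))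 (XT.nd (nat_lit 78) (nat_lit 76) (nat_lit 0) (XT.lf (nat_lit 0) (nat_lit 15824066584) (nat_lit 608) (nat_lit 30536449050) (nat_lit 684) (nat_lit 1845846719) (nat_lit 289) (nat_lit 5) (nat_lit 297) (nat_lit 5) (nat_lit 298) (nat_lit 5) (nat_lit 670) (nat_lit 615) (nat_lit 275)) (XT.lf (nat_lit 0) (nat_lit 6153207984) (nat_lit 684) (nat_lit 4535243025) (nat_lit 76) (nat_lit 38079491363) (nat_lit 288) (nat_lit 5) (nat_lit 297) (nat_lit 5) (nat_lit 289) (nat_lit 5) (nat_lit 671) (nat_lit 615) (nat_lit 274))))) (XT.nd (nat_lit 156) (nat_lit 0) (nat_lit 0) (XT.nd (nat_lit 78) (nat_lit 608) (nat_lit 0) (XT.lf (nat_lit 0) (nat_lit 14506667294) (nat_lit 684) (nat_lit 25228255930) (nat_lit 76) (nat_lit 9601203980) (nat_lit 280) (nat_lit 5) (nat_lit 289) (nat_lit 5) (nat_lit 281) (nat_lit 5) (nat_lit 672) (nat_lit 615) (nat_lit 273)) (XT.lf (nat_lit 0) (nat_lit 3443169006) (nat_lit 608) (nat_lit 19706819546) (nat_lit 684) (nat_lit 26763231348) (nat_lit 272) (nat_lit 5) (nat_lit 280) (nat_lit 5) (nat_lit 281) (nat_lit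 5) (nat_lit 673) (nat_lit 615) (nat_lit 272))) (XT.nd (nat_lit 76674) (nat_lit 0) (nat_lit 15884) (XT.lf (nat_lit 0) (nat_lit 32140305855) (nat_lit 684) (nat_lit 17475547662) (nat_lit 76) (nat_lit 882518362) (nat_lit 272) (nat_lit 5) (nat_lit 281) (nat_lit 5) (nat_lit 273) (nat_lit 5) (nat_lit 674) (nat_lit 615) (nat_lit 271)) (XT.nd (nat_lit 78) (nat_lit 0) (nat_lit 0) (XT.lf (nat_lit 0) (nat_lit 2135351174) (nat_lit 1900) (nat_lit 5740183074) (nat_lit 1900) (nat_lit 5740183074) (nat_lit 481) (nat_lit 3) (nat_lit 506) (nat_lit 3) (nat_lit 506) (nat_lit 5) (nat_lit 616) (nat_lit 616) (nat_lit 328)) (XT.lf (nat_lit 76) (nat_lit 2108271645) (nat_lit 0) (nat_lit 2308057115) (nat_lit 1900) (nat_lit 23085359144) (nat_lit 482) (nat_lit 5) (nat_lit 481) (nat_lit 3) (nat_lit 506) (nat_lit 5) (nat_lit 617) (nat_lit 616) (nat_lit 327)))))) (XT.nd (nat_lit 390) (nat_lit 0) (nat_lit 152) (XT.nd (nat_lit 156) (nat_lit 0) (nat_lit 76) (XT.nd (nat_lit 78) (nat_lit 0) (nat_lit 0) (XT.lf (nat_lit 0) (nat_lit 4714117299)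 (nat_lit 1824) (nat_lit 11727319204) (nat_lit 1900) (nat_lit 11332924803) (nat_lit 482) (nat_lit 5) (nat_lit 506) (nat_lit 5) (nat_lit 507) (nat_lit 5) (nat_lit 618) (nat_lit 616) (nat_lit 326)) (XT.lf (nat_lit 76) (nat_lit 2224753451) (nat_lit 0) (nat_lit 2820542757) (nat_lit 1900) (nat_lit 23006643346) (nat_lit 483) (nat_lit 5) (nat_lit 482) (nat_lit 5) (nat_lit 507) (nat_lit 5) (nat_lit 619) (nat_lit 616) (nat_lit 325))) (XT.nd (nat_lit 78) (nat_lit 0) (nat_lit 0) (XT.lf (nat_lit 0) (nat_lit 5531956667) (nat_lit 1824) (nat_lit 11792356889) (nat_lit 1900) (nat_lit 11007778720) (nat_lit 483) (nat_lit 5) (nat_lit 507) (nat_lit 5) (nat_lit 508) (nat_lit 5) (nat_lit 620) (nat_lit 616) (nat_lit 324)) (XT.nd (nat_lit 78) (nat_lit 0) (nat_lit 76) (XT.lf (nat_lit 76) (nat_lit 2536498629) (nat_lit 0) (nat_lit 3524792130) (nat_lit 1900) (nat_lit 22555898551) (nat_lit 484) (nat_lit 5) (nat_lit 483) (nat_lit 5) (nat_lit 508) (nat_lit 5) (nat_lit 621) (nat_lit 616) (nat_lit 323)) (XT.lf (nat_lit 0) (nat_lit 6747204645)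 (nat_lit 1824) (nat_lit 11664951245) (nat_lit 1900) (nat_lit 10492912598) (nat_lit 484) (nat_lit 5) (nat_lit 508) (nat_lit 5) (nat_lit 509) (nat_lit 5) (nat_lit 622) (nat_lit 616) (nat_lit 322))))) (XT.nd (nat_lit 156) (nat_lit 0) (nat_lit 76) (XT.nd (nat_lit 78) (nat_lit 0) (nat_lit 76) (XT.lf (nat_lit 76) (nat_lit 3054547348) (nat_lit 0) (nat_lit 4433340935) (nat_lit 1900) (nat_lit 21709996001) (nat_lit 485) (nat_lit 5) (nat_lit 484) (nat_lit 5) (nat_lit 509) (nat_lit 5) (nat_lit 623) (nat_lit 616) (nat_lit 321)) (XT.lf (nat_lit 0) (nat_lit 8383887814) (nat_lit 1824) (nat_lit 11334055003) (nat_lit 1900) (nat_lit 9775803598) (nat_lit 485) (nat_lit 5) (nat_lit 509) (nat_lit 5) (nat_lit 510) (nat_lit 5) (nat_lit 624) (nat_lit 616) (nat_lit 320))) (XT.nd (nat_lit 78) (nat_lit 0) (nat_lit 76) (XT.lf (nat_lit 76) (nat_lit 3790478819) (nat_lit 0) (nat_lit 5559254689) (nat_lit 1900) (nat_lit 20444753819) (nat_lit 486) (nat_lit 5) (nat_lit 485) (nat_lit 5) (nat_lit 510) (nat_lit 5) (nat_lit 625) (nat_lit 616) (nat_lit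 319)) (XT.nd (nat_lit 78) (nat_lit 0) (nat_lit 0) (XT.lf (nat_lit 0) (nat_lit 10467121602) (nat_lit 1824) (nat_lit 10788081253) (nat_lit 1900) (nat_lit 8843395752) (nat_lit 486) (nat_lit 5) (nat_lit 510) (nat_lit 5) (nat_lit 511) (nat_lit 5) (nat_lit 626) (nat_lit 616) (nat_lit 318)) (XT.lf (nat_lit 76) (nat_lit 4756432409) (nat_lit 0) (nat_lit 6916155122) (nat_lit 1900) (nat_lit 18734890040) (nat_lit 487) (nat_lit 5) (nat_lit 486) (nat_lit 5) (nat_lit 511) (nat_lit 5) (nat_lit 627) (nat_lit 616) (nat_lit 317))))))) (XT.nd (nat_lit 780) (nat_lit 4408) (nat_lit 0) (XT.nd (nat_lit 390) (nat_lit 0) (nat_lit 152) (XT.nd (nat_lit 156) (nat_lit 0) (nat_lit 76) (XT.nd (nat_lit 78) (nat_lit 0) (nat_lit 0) (XT.lf (nat_lit 0) (nat_lit 13023158565) (nat_lit 1824) (nat_lit 10014882198) (nat_lit 1900) (nat_lit 7682073493) (nat_lit 487) (nat_lit 5) (nat_lit 511) (nat_lit 5) (nat_lit 512) (nat_lit 5) (nat_lit 628) (nat_lit 616) (nat_lit 316)) (XT.lf (nat_lit 76) (nat_lit 5965129696) (nat_lit 0) (nat_lit 8518247509) (nat_lit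 1900) (nat_lit 16553973805) (nat_lit 488) (nat_lit 5) (nat_lit 487) (nat_lit 5) (nat_lit 512) (nat_lit 5) (nat_lit 629) (nat_lit 616) (nat_lit 315))) (XT.nd (nat_lit 78) (nat_lit 0) (nat_lit 0) (XT.lf (nat_lit 0) (nat_lit 16079438578) (nat_lit 1824) (nat_lit 9001726960) (nat_lit 1900) (nat_lit 6277634247) (nat_lit 488) (nat_lit 5) (nat_lit 512) (nat_lit 5) (nat_lit 513) (nat_lit 5) (nat_lit 630) (nat_lit 616) (nat_lit 314)) (XT.nd (nat_lit 78) (nat_lit 0) (nat_lit 76) (XT.lf (nat_lit 76) (nat_lit 7429897495) (nat_lit 0) (nat_lit 10380348981) (nat_lit 1900) (nat_lit 13874374611) (nat_lit 489) (nat_lit 5) (nat_lit 488) (nat_lit 5) (nat_lit 513) (nat_lit 5) (nat_lit 631) (nat_lit 616) (nat_lit 313)) (XT.lf (nat_lit 0) (nat_lit 19664641006) (nat_lit 1824) (nat_lit 7735278424) (nat_lit 1900) (nat_lit 4615260027) (nat_lit 489) (nat_lit 5) (nat_lit 513) (nat_lit 5) (nat_lit 514) (nat_lit 5) (nat_lit 632) (nat_lit 616) (nat_lit 312))))) (XT.nd (nat_lit 156) (nat_lit 0) (nat_lit 76) (XT.nd (nat_lit 78) (nat_lit 0)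 (nat_lit 76) (XT.lf (nat_lit 76) (nat_lit 9164691899) (nat_lit 0) (nat_lit 12517917855) (nat_lit 1900) (nat_lit 10667209567) (nat_lit 490) (nat_lit 5) (nat_lit 489) (nat_lit 5) (nat_lit 514) (nat_lit 5) (nat_lit 633) (nat_lit 616) (nat_lit 311)) (XT.lf (nat_lit 0) (nat_lit 23808738952) (nat_lit 1824) (nat_lit 6201569061) (nat_lit 1900) (nat_lit 2679488000) (nat_lit 490) (nat_lit 5) (nat_lit 514) (nat_lit 5) (nat_lit 515) (nat_lit 5) (nat_lit 634) (nat_lit 616) (nat_lit 310))) (XT.nd (nat_lit 78) (nat_lit 0) (nat_lit 76) (XT.lf (nat_lit 76) (nat_lit 11184123353) (nat_lit 0) (nat_lit 14947084059) (nat_lit 1900) (nat_lit 6902288543) (nat_lit 491) (nat_lit 5) (nat_lit 490) (nat_lit 5) (nat_lit 515) (nat_lit 5) (nat_lit 635) (nat_lit 616) (nat_lit 309)) (XT.nd (nat_lit 78) (nat_lit 0) (nat_lit 0) (XT.lf (nat_lit 0) (nat_lit 28543055664) (nat_lit 1824) (nat_lit 4385975718) (nat_lit 1900) (nat_lit 454179955) (nat_lit 491) (nat_lit 5) (nat_lit 515) (nat_lit 5) (nat_lit 516) (nat_lit 5) (nat_lit 636) (nat_lit 616)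 (nat_lit 308)) (XT.lf (nat_lit 76) (nat_lit 13503482804) (nat_lit 0) (nat_lit 17684680684) (nat_lit 1900) (nat_lit 2548057136) (nat_lit 492) (nat_lit 5) (nat_lit 491) (nat_lit 5) (nat_lit 516) (nat_lit 5) (nat_lit 637) (nat_lit 616) (nat_lit 307)))))) (XT.nd (nat_lit 390) (nat_lit 1824) (nat_lit 0) (XT.nd (nat_lit 156) (nat_lit 1064) (nat_lit 0) (XT.nd (nat_lit 78) (nat_lit 1824) (nat_lit 0) (XT.lf (nat_lit 76) (nat_lit 31808872640) (nat_lit 0) (nat_lit 2105118374) (nat_lit 1900) (nat_lit 181742779) (nat_lit 492) (nat_lit 5) (nat_lit 491) (nat_lit 5) (nat_lit 516) (nat_lit 5) (nat_lit 638) (nat_lit 616) (nat_lit 306)) (XT.lf (nat_lit 0) (nat_lit 2396612917) (nat_lit 1900) (nat_lit 18335581280) (nat_lit 1976) (nat_lit 13726073520) (nat_lit 467) (nat_lit 5) (nat_lit 492) (nat_lit 5) (nat_lit 493) (nat_lit 5) (nat_lit 639) (nat_lit 616) (nat_lit 305))) (XT.nd (nat_lit 78) (nat_lit 1064) (nat_lit 0) (XT.lf (nat_lit 76) (nat_lit 88258642) (nat_lit 0) (nat_lit 4964238772) (nat_lit 1976) (nat_lit 29774963019) (nat_lit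 468) (nat_lit 5) (nat_lit 467) (nat_lit 5) (nat_lit 493) (nat_lit 5) (nat_lit 640) (nat_lit 616) (nat_lit 304)) (XT.nd (nat_lit 78) (nat_lit 1140) (nat_lit 0) (XT.lf (nat_lit 0) (nat_lit 7956002958) (nat_lit 1900) (nat_lit 16146819187) (nat_lit 76) (nat_lit 11097324835) (nat_lit 468) (nat_lit 5) (nat_lit 493) (nat_lit 5) (nat_lit 469) (nat_lit 5) (nat_lit 641) (nat_lit 616) (nat_lit 303)) (XT.lf (nat_lit 0) (nat_lit 2820194489) (nat_lit 1140) (nat_lit 8147055446) (nat_lit 1216) (nat_lit 24612043939) (nat_lit 453) (nat_lit 5) (nat_lit 468) (nat_lit 5) (nat_lit 469) (nat_lit 5) (nat_lit 642) (nat_lit 616) (nat_lit 302))))) (XT.nd (nat_lit 156) (nat_lit 912) (nat_lit 0) (XT.nd (nat_lit 78) (nat_lit 912) (nat_lit 0) (XT.lf (nat_lit 0) (nat_lit 14199071593) (nat_lit 1216) (nat_lit 13633273122) (nat_lit 76) (nat_lit 8130472040) (nat_lit 453) (nat_lit 5) (nat_lit 469) (nat_lit 5) (nat_lit 454) (nat_lit 5) (nat_lit 643) (nat_lit 616) (nat_lit 301)) (XT.lf (nat_lit 0) (nat_lit 5897133608) (nat_lit 912) (nat_lit 11689174725)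 (nat_lit 988) (nat_lit 18765886228) (nat_lit 441) (nat_lit 5) (nat_lit 453) (nat_lit 5) (nat_lit 454) (nat_lit 5) (nat_lit 644) (nat_lit 616) (nat_lit 300))) (XT.nd (nat_lit 78) (nat_lit 912) (nat_lit 0) (XT.lf (nat_lit 0) (nat_lit 21162954176) (nat_lit 988) (nat_lit 10777544565) (nat_lit 76) (nat_lit 4806427935) (nat_lit 441) (nat_lit 5) (nat_lit 454) (nat_lit 5) (nat_lit 442) (nat_lit 5) (nat_lit 645) (nat_lit 616) (nat_lit 299)) (XT.nd (nat_lit 78) (nat_lit 0) (nat_lit 0) (XT.lf (nat_lit 0) (nat_lit 9337251458) (nat_lit 912) (nat_lit 15610502669) (nat_lit 988) (nat_lit 12199066923) (nat_lit 429) (nat_lit 5) (nat_lit 441) (nat_lit 5) (nat_lit 442) (nat_lit 5) (nat_lit 646) (nat_lit 616) (nat_lit 298)) (XT.lf (nat_lit 0) (nat_lit 28886449550) (nat_lit 988) (nat_lit 7561440373) (nat_lit 76) (nat_lit 1105259438) (nat_lit 429) (nat_lit 5) (nat_lit 442) (nat_lit 5) (nat_lit 430) (nat_lit 5) (nat_lit 647) (nat_lit 616) (nat_lit 297))))))))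
noncomputable def xc225 : XT := (XT.nd (nat_lit 1560) (nat_lit 2508) (nat_lit 0) (XT.nd (nat_lit 780) (nat_lit 4408) (nat_lit 0) (XT.nd (nat_lit 390) (nat_lit 2356) (nat_lit 0) (XT.nd (nat_lit 156) (nat_lit 1824) (nat_lit 0) (XT.nd (nat_lit 78) (nat_lit 0) (nat_lit 0) (XT.lf (nat_lit 0) (nat_lit 13159548219) (nat_lit 836) (nat_lit 19931824915) (nat_lit 912) (nat_lit 4872482057) (nat_lit 418) (nat_lit 5) (nat_lit 429) (nat_lit 5) (nat_lit 430) (nat_lit 5) (nat_lit 648) (nat_lit 616) (nat_lit 296)) (XT.lf (nat_lit 0) (nat_lit 34396150290) (nat_lit 836) (nat_lit 3033637411) (nat_lit 912) (nat_lit 951999624) (nat_lit 418) (nat_lit 5) (nat_lit 429) (nat_lit 5) (nat_lit 430) (nat_lit 5) (nat_lit 649) (nat_lit 616) (nat_lit 295))) (XT.nd (nat_lit 78) (nat_lit 836) (nat_lit 0) (XT.lf (nat_lit 0) (nat_lit 3212039100) (nat_lit 988) (nat_lit 21441252737) (nat_lit 76) (nat_lit 14150288509) (nat_lit 405) (nat_lit 5) (nat_lit 418) (nat_lit 5) (nat_lit 406) (nat_lit 5) (nat_lit 650) (nat_lit 616) (nat_lit 294)) (XT.nd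 (nat_lit 78) (nat_lit 836) (nat_lit 0) (XT.lf (nat_lit 0) (nat_lit 7492323233) (nat_lit 988) (nat_lit 69882195) (nat_lit 76) (nat_lit 31670563743) (nat_lit 405) (nat_lit 5) (nat_lit 418) (nat_lit 5) (nat_lit 406) (nat_lit 5) (nat_lit 651) (nat_lit 616) (nat_lit 293)) (XT.lf (nat_lit 0) (nat_lit 12064904347) (nat_lit 912) (nat_lit 17716365921) (nat_lit 76) (nat_lit 9885137712) (nat_lit 394) (nat_lit 5) (nat_lit 406) (nat_lit 5) (nat_lit 395) (nat_lit 5) (nat_lit 652) (nat_lit 616) (nat_lit 292))))) (XT.nd (nat_lit 156) (nat_lit 1520) (nat_lit 0) (XT.nd (nat_lit 78) (nat_lit 0) (nat_lit 0) (XT.lf (nat_lit 0) (nat_lit 4307709461) (nat_lit 836) (nat_lit 12498478469) (nat_lit 912) (nat_lit 23300986652) (nat_lit 383) (nat_lit 5) (nat_lit 394) (nat_lit 5) (nat_lit 395) (nat_lit 5) (nat_lit 653) (nat_lit 616) (nat_lit 291)) (XT.lf (nat_lit 0) (nat_lit 21794023492) (nat_lit 912) (nat_lit 13577378055) (nat_lit 76) (nat_lit 5182320476) (nat_lit 383) (nat_lit 5) (nat_lit 395) (nat_lit 5) (nat_lit 384) (nat_lit 5) (nat_lit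 654) (nat_lit 616) (nat_lit 290))) (XT.nd (nat_lit 78) (nat_lit 760) (nat_lit 0) (XT.lf (nat_lit 0) (nat_lit 9124756978) (nat_lit 760) (nat_lit 17897644416) (nat_lit 836) (nat_lit 13983983341) (nat_lit 373) (nat_lit 5) (nat_lit 383) (nat_lit 5) (nat_lit 384) (nat_lit 5) (nat_lit 655) (nat_lit 616) (nat_lit 289)) (XT.nd (nat_lit 78) (nat_lit 760) (nat_lit 0) (XT.lf (nat_lit 0) (nat_lit 32445364020) (nat_lit 836) (nat_lit 9002729622) (nat_lit 76) (nat_lit 18206747) (nat_lit 373) (nat_lit 5) (nat_lit 384) (nat_lit 5) (nat_lit 374) (nat_lit 5) (nat_lit 656) (nat_lit 616) (nat_lit 288)) (XT.lf (nat_lit 0) (nat_lit 14402829891) (nat_lit 760) (nat_lit 23784805551) (nat_lit 836) (nat_lit 3743561955) (nat_lit 363) (nat_lit 5) (nat_lit 373) (nat_lit 5) (nat_lit 374) (nat_lit 5) (nat_lit 657) (nat_lit 616) (nat_lit 287)))))) (XT.nd (nat_lit 390) (nat_lit 2128) (nat_lit 0) (XT.nd (nat_lit 156) (nat_lit 1444) (nat_lit 0) (XT.nd (nat_lit 78) (nat_lit 760) (nat_lit 0) (XT.lf (nat_lit 0) (nat_lit 1677489201) (nat_lit 836)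 (nat_lit 4017985165) (nat_lit 76) (nat_lit 36708512536) (nat_lit 362) (nat_lit 5) (nat_lit 373) (nat_lit 5) (nat_lit 363) (nat_lit 5) (nat_lit 658) (nat_lit 616) (nat_lit 286)) (XT.lf (nat_lit 0) (nat_lit 7370733459) (nat_lit 836) (nat_lit 22765494160) (nat_lit 76) (nat_lit 12745231743) (nat_lit 352) (nat_lit 5) (nat_lit 363) (nat_lit 5) (nat_lit 353) (nat_lit 5) (nat_lit 659) (nat_lit 616) (nat_lit 285))) (XT.nd (nat_lit 78) (nat_lit 684) (nat_lit 0) (XT.lf (nat_lit 0) (nat_lit 1398278462) (nat_lit 760) (nat_lit 11852356085) (nat_lit 836) (nat_lit 30116390915) (nat_lit 342) (nat_lit 5) (nat_lit 352) (nat_lit 5) (nat_lit 353) (nat_lit 5) (nat_lit 660) (nat_lit 616) (nat_lit 284)) (XT.nd (nat_lit 78) (nat_lit 684) (nat_lit 0) (XT.lf (nat_lit 0) (nat_lit 19444912672) (nat_lit 836) (nat_lit 17551766328) (nat_lit 76) (nat_lit 6861688331) (nat_lit 342) (nat_lit 5) (nat_lit 353) (nat_lit 5) (nat_lit 343) (nat_lit 5) (nat_lit 661) (nat_lit 616) (nat_lit 283)) (XT.lf (nat_lit 0) (nat_lit 7370457763) (nat_lit 684)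 (nat_lit 18517854106) (nat_lit 760) (nat_lit 18468719486) (nat_lit 333) (nat_lit 5) (nat_lit 342) (nat_lit 5) (nat_lit 343) (nat_lit 5) (nat_lit 662) (nat_lit 616) (nat_lit 282))))) (XT.nd (nat_lit 156) (nat_lit 1444) (nat_lit 0) (XT.nd (nat_lit 78) (nat_lit 684) (nat_lit 0) (XT.lf (nat_lit 0) (nat_lit 32580188511) (nat_lit 760) (nat_lit 11838475237) (nat_lit 76) (nat_lit 444612751) (nat_lit 333) (nat_lit 5) (nat_lit 343) (nat_lit 5) (nat_lit 334) (nat_lit 5) (nat_lit 663) (nat_lit 616) (nat_lit 281)) (XT.lf (nat_lit 0) (nat_lit 13870609739) (nat_lit 684) (nat_lit 25746908199) (nat_lit 760) (nat_lit 5757896328) (nat_lit 324) (nat_lit 5) (nat_lit 333) (nat_lit 5) (nat_lit 334) (nat_lit 5) (nat_lit 664) (nat_lit 616) (nat_lit 280))) (XT.nd (nat_lit 78) (nat_lit 1368) (nat_lit 0) (XT.lf (nat_lit 0) (nat_lit 964922076) (nat_lit 760) (nat_lit 5649473180) (nat_lit 76) (nat_lit 39281705024) (nat_lit 323) (nat_lit 5) (nat_lit 333) (nat_lit 5) (nat_lit 324) (nat_lit 5) (nat_lit 665) (nat_lit 616) (nat_lit 279)) (XT.nd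 (nat_lit 78) (nat_lit 684) (nat_lit 0) (XT.lf (nat_lit 0) (nat_lit 7965109991) (nat_lit 760) (nat_lit 25550179900) (nat_lit 76) (nat_lit 12906748725) (nat_lit 314) (nat_lit 5) (nat_lit 324) (nat_lit 5) (nat_lit 315) (nat_lit 5) (nat_lit 666) (nat_lit 616) (nat_lit 278)) (XT.lf (nat_lit 0) (nat_lit 1010407798) (nat_lit 684) (nat_lit 14182381604) (nat_lit 760) (nat_lit 31763956588) (nat_lit 305) (nat_lit 5) (nat_lit 314) (nat_lit 5) (nat_lit 315) (nat_lit 5) (nat_lit 667) (nat_lit 616) (nat_lit 277))))))) (XT.nd (nat_lit 77454) (nat_lit 0) (nat_lit 15960) (XT.nd (nat_lit 390) (nat_lit 1216) (nat_lit 0) (XT.nd (nat_lit 156) (nat_lit 684) (nat_lit 0) (XT.nd (nat_lit 78) (nat_lit 608) (nat_lit 0) (XT.lf (nat_lit 0) (nat_lit 22772536568) (nat_lit 760) (nat_lit 19088517945) (nat_lit 76) (nat_lit 5636942739) (nat_lit 305) (nat_lit 5) (nat_lit 315) (nat_lit 5) (nat_lit 306) (nat_lit 5) (nat_lit 668) (nat_lit 616) (nat_lit 276)) (XT.lf (nat_lit 0) (nat_lit 8320424553) (nat_lit 608) (nat_lit 22330391513) (nat_lit 684)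 (nat_lit 17396318750) (nat_lit 297) (nat_lit 5) (nat_lit 305) (nat_lit 5) (nat_lit 306) (nat_lit 5) (nat_lit 669) (nat_lit 616) (nat_lit 275))) (XT.nd (nat_lit 78) (nat_lit 684) (nat_lit 0) (XT.lf (nat_lit 0) (nat_lit 36535068950) (nat_lit 608) (nat_lit 2278690610) (nat_lit 684) (nat_lit 9790953625) (nat_lit 297) (nat_lit 5) (nat_lit 305) (nat_lit 5) (nat_lit 306) (nat_lit 5) (nat_lit 670) (nat_lit 616) (nat_lit 274)) (XT.nd (nat_lit 78) (nat_lit 76) (nat_lit 0) (XT.lf (nat_lit 0) (nat_lit 16234259543) (nat_lit 608) (nat_lit 31128126367) (nat_lit 684) (nat_lit 1806608755) (nat_lit 289) (nat_lit 5) (nat_lit 297) (nat_lit 5) (nat_lit 298) (nat_lit 5) (nat_lit 671) (nat_lit 616) (nat_lit 273)) (XT.lf (nat_lit 0) (nat_lit 6349954607) (nat_lit 684) (nat_lit 4533092872) (nat_lit 76) (nat_lit 38858778423) (nat_lit 288) (nat_lit 5) (nat_lit 297) (nat_lit 5) (nat_lit 289) (nat_lit 5) (nat_lit 672) (nat_lit 616) (nat_lit 272))))) (XT.nd (nat_lit 76830) (nat_lit 0) (nat_lit 15884) (XT.nd (nat_lit 78) (nat_lit 608)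 (nat_lit 0) (XT.lf (nat_lit 0) (nat_lit 14869763266) (nat_lit 684) (nat_lit 25639244562) (nat_lit 76) (nat_lit 9812381032) (nat_lit 280) (nat_lit 5) (nat_lit 289) (nat_lit 5) (nat_lit 281) (nat_lit 5) (nat_lit 673) (nat_lit 616) (nat_lit 271)) (XT.lf (nat_lit 0) (nat_lit 3604993238) (nat_lit 608) (nat_lit 20080130635) (nat_lit 684) (nat_lit 27224916111) (nat_lit 272) (nat_lit 5) (nat_lit 280) (nat_lit 5) (nat_lit 281) (nat_lit 5) (nat_lit 674) (nat_lit 616) (nat_lit 270))) (XT.nd (nat_lit 78) (nat_lit 0) (nat_lit 0) (XT.lf (nat_lit 0) (nat_lit 2266709941) (nat_lit 1900) (nat_lit 5809773005) (nat_lit 1900) (nat_lit 5809773005) (nat_lit 481) (nat_lit 3) (nat_lit 506) (nat_lit 3) (nat_lit 506) (nat_lit 5) (nat_lit 617) (nat_lit 617) (nat_lit 326)) (XT.nd (nat_lit 78) (nat_lit 0) (nat_lit 76) (XT.lf (nat_lit 76) (nat_lit 2240269621) (nat_lit 0) (nat_lit 2438795914) (nat_lit 1900) (nat_lit 23369162662) (nat_lit 482) (nat_lit 5) (nat_lit 481) (nat_lit 3) (nat_lit 506) (nat_lit 5) (nat_lit 618) (nat_lit 617) (nat_lit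 325)) (XT.lf (nat_lit 0) (nat_lit 4978851670) (nat_lit 1824) (nat_lit 11869831135) (nat_lit 1900) (nat_lit 11477751529) (nat_lit 482) (nat_lit 5) (nat_lit 506) (nat_lit 5) (nat_lit 507) (nat_lit 5) (nat_lit 619) (nat_lit 617) (nat_lit 324)))))) (XT.nd (nat_lit 390) (nat_lit 0) (nat_lit 228) (XT.nd (nat_lit 156) (nat_lit 0) (nat_lit 76) (XT.nd (nat_lit 78) (nat_lit 0) (nat_lit 76) (XT.lf (nat_lit 76) (nat_lit 2360677483) (nat_lit 0) (nat_lit 2953228096) (nat_lit 1900) (nat_lit 23295713642) (nat_lit 483) (nat_lit 5) (nat_lit 482) (nat_lit 5) (nat_lit 507) (nat_lit 5) (nat_lit 620) (nat_lit 617) (nat_lit 323)) (XT.lf (nat_lit 0) (nat_lit 5806525429) (nat_lit 1824) (nat_lit 11934789014) (nat_lit 1900) (nat_lit 11154136128) (nat_lit 483) (nat_lit 5) (nat_lit 507) (nat_lit 5) (nat_lit 508) (nat_lit 5) (nat_lit 621) (nat_lit 617) (nat_lit 322))) (XT.nd (nat_lit 78) (nat_lit 0) (nat_lit 76) (XT.lf (nat_lit 76) (nat_lit 2680029042) (nat_lit 0) (nat_lit 3663805377) (nat_lit 1900) (nat_lit 22842467461) (nat_lit 484)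 (nat_lit 5) (nat_lit 483) (nat_lit 5) (nat_lit 508) (nat_lit 5) (nat_lit 622) (nat_lit 617) (nat_lit 321)) (XT.nd (nat_lit 78) (nat_lit 0) (nat_lit 0) (XT.lf (nat_lit 0) (nat_lit 7039867350) (nat_lit 1824) (nat_lit 11803665449) (nat_lit 1900) (nat_lit 10636477923) (nat_lit 484) (nat_lit 5) (nat_lit 508) (nat_lit 5) (nat_lit 509) (nat_lit 5) (nat_lit 623) (nat_lit 617) (nat_lit 320)) (XT.lf (nat_lit 76) (nat_lit 3209600847) (nat_lit 0) (nat_lit 4583281359) (nat_lit 1900) (nat_lit 21985850370) (nat_lit 485) (nat_lit 5) (nat_lit 484) (nat_lit 5) (nat_lit 509) (nat_lit 5) (nat_lit 624) (nat_lit 617) (nat_lit 319))))) (XT.nd (nat_lit 234) (nat_lit 0) (nat_lit 76) (XT.nd (nat_lit 78) (nat_lit 0) (nat_lit 0) (XT.lf (nat_lit 0) (nat_lit 8703367853) (nat_lit 1824) (nat_lit 11465177499) (nat_lit 1900) (nat_lit 9912035365) (nat_lit 485) (nat_lit 5) (nat_lit 509) (nat_lit 5) (nat_lit 510) (nat_lit 5) (nat_lit 625) (nat_lit 617) (nat_lit 318)) (XT.nd (nat_lit 78) (nat_lit 0) (nat_lit 76) (XT.lf (nat_lit 76) (nat_lit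 3961218324) (nat_lit 0) (nat_lit 5724951970) (nat_lit 1900) (nat_lit 20701213447) (nat_lit 486) (nat_lit 5) (nat_lit 485) (nat_lit 5) (nat_lit 510) (nat_lit 5) (nat_lit 626) (nat_lit 617) (nat_lit 317)) (XT.lf (nat_lit 0) (nat_lit 10822628923) (nat_lit 1824) (nat_lit 10907492692) (nat_lit 1900) (nat_lit 8967521265) (nat_lit 486) (nat_lit 5) (nat_lit 510) (nat_lit 5) (nat_lit 511) (nat_lit 5) (nat_lit 627) (nat_lit 617) (nat_lit 316)))) (XT.nd (nat_lit 78) (nat_lit 0) (nat_lit 76) (XT.lf (nat_lit 76) (nat_lit 4947277361) (nat_lit 0) (nat_lit 7102682285) (nat_lit 1900) (nat_lit 18962784754) (nat_lit 487) (nat_lit 5) (nat_lit 486) (nat_lit 5) (nat_lit 511) (nat_lit 5) (nat_lit 628) (nat_lit 617) (nat_lit 315)) (XT.nd (nat_lit 78) (nat_lit 0) (nat_lit 0) (XT.lf (nat_lit 0) (nat_lit 13424413297) (nat_lit 1824) (nat_lit 10118207294) (nat_lit 1900) (nat_lit 7789075889) (nat_lit 487) (nat_lit 5) (nat_lit 511) (nat_lit 5) (nat_lit 512) (nat_lit 5) (nat_lit 629) (nat_lit 617) (nat_lit 314)) (XT.lf (nat_lit 76) (nat_lit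 6180766860) (nat_lit 0) (nat_lit 8730934298) (nat_lit 1900) (nat_lit 16743619596) (nat_lit 488) (nat_lit 5) (nat_lit 487) (nat_lit 5) (nat_lit 512) (nat_lit 5) (nat_lit 630) (nat_lit 617) (nat_lit 313))))))))
noncomputable def xc226 : XT := (XT.nd (nat_lit 1560) (nat_lit 9196) (nat_lit 0) (XT.nd (nat_lit 780) (nat_lit 3724) (nat_lit 0) (XT.nd (nat_lit 390) (nat_lit 1596) (nat_lit 0) (XT.nd (nat_lit 156) (nat_lit 0) (nat_lit 76) (XT.nd (nat_lit 78) (nat_lit 0) (nat_lit 0) (XT.lf (nat_lit 0) (nat_lit 16536695612) (nat_lit 1824) (nat_lit 9084323629) (nat_lit 1900) (nat_lit 6362239108) (nat_lit 488) (nat_lit 5) (nat_lit 512) (nat_lit 5) (nat_lit 513) (nat_lit 5) (nat_lit 631) (nat_lit 617) (nat_lit 312)) (XT.lf (nat_lit 76) (nat_lit 7675292276) (nat_lit 0) (nat_lit 10624795698) (nat_lit 1900) (nat_lit 14015548815) (nat_lit 489) (nat_lit 5) (nat_lit 488) (nat_lit 5) (nat_lit 513) (nat_lit 5) (nat_lit 632) (nat_lit 617) (nat_lit 311))) (XT.nd (nat_lit 78) (nat_lit 0) (nat_lit 0) (XT.lf (nat_lit 0) (nat_lit 20188715573)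 (nat_lit 1824) (nat_lit 7792226406) (nat_lit 1900) (nat_lit 4671921523) (nat_lit 489) (nat_lit 5) (nat_lit 513) (nat_lit 5) (nat_lit 514) (nat_lit 5) (nat_lit 633) (nat_lit 617) (nat_lit 310)) (XT.nd (nat_lit 78) (nat_lit 0) (nat_lit 76) (XT.lf (nat_lit 76) (nat_lit 9445100181) (nat_lit 0) (nat_lit 12800009698) (nat_lit 1900) (nat_lit 10749125038) (nat_lit 490) (nat_lit 5) (nat_lit 489) (nat_lit 5) (nat_lit 514) (nat_lit 5) (nat_lit 634) (nat_lit 617) (nat_lit 309)) (XT.lf (nat_lit 0) (nat_lit 24411033236) (nat_lit 1824) (nat_lit 6227658021) (nat_lit 1900) (nat_lit 2702374529) (nat_lit 490) (nat_lit 5) (nat_lit 514) (nat_lit 5) (nat_lit 515) (nat_lit 5) (nat_lit 635) (nat_lit 617) (nat_lit 308))))) (XT.nd (nat_lit 156) (nat_lit 1748) (nat_lit 0) (XT.nd (nat_lit 78) (nat_lit 0) (nat_lit 76) (XT.lf (nat_lit 76) (nat_lit 11505103883) (nat_lit 0) (nat_lit 15273005974) (nat_lit 1900) (nat_lit 6913566768) (nat_lit 491) (nat_lit 5) (nat_lit 490) (nat_lit 5) (nat_lit 515) (nat_lit 5) (nat_lit 636) (nat_lit 617)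 (nat_lit 307)) (XT.lf (nat_lit 0) (nat_lit 29235586507) (nat_lit 1824) (nat_lit 4375692795) (nat_lit 1900) (nat_lit 437159257) (nat_lit 491) (nat_lit 5) (nat_lit 515) (nat_lit 5) (nat_lit 516) (nat_lit 5) (nat_lit 637) (nat_lit 617) (nat_lit 306))) (XT.nd (nat_lit 78) (nat_lit 1824) (nat_lit 0) (XT.lf (nat_lit 76) (nat_lit 13870910144) (nat_lit 0) (nat_lit 18060932772) (nat_lit 1900) (nat_lit 2476700257) (nat_lit 492) (nat_lit 5) (nat_lit 491) (nat_lit 5) (nat_lit 516) (nat_lit 5) (nat_lit 638) (nat_lit 617) (nat_lit 305)) (XT.nd (nat_lit 78) (nat_lit 1824) (nat_lit 0) (XT.lf (nat_lit 76) (nat_lit 32540498803) (nat_lit 0) (nat_lit 2169336893) (nat_lit 1900) (nat_lit 65458005) (nat_lit 492) (nat_lit 5) (nat_lit 491) (nat_lit 5) (nat_lit 516) (nat_lit 5) (nat_lit 639) (nat_lit 617) (nat_lit 304)) (XT.lf (nat_lit 0) (nat_lit 2561065738) (nat_lit 1900) (nat_lit 18603438391) (nat_lit 1976) (nat_lit 13980595195) (nat_lit 467) (nat_lit 5) (nat_lit 492) (nat_lit 5) (nat_lit 493) (nat_lit 5) (nat_lit 640) (nat_lit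 617) (nat_lit 303)))))) (XT.nd (nat_lit 390) (nat_lit 1748) (nat_lit 0) (XT.nd (nat_lit 156) (nat_lit 1976) (nat_lit 0) (XT.nd (nat_lit 78) (nat_lit 0) (nat_lit 76) (XT.lf (nat_lit 76) (nat_lit 188227971) (nat_lit 0) (nat_lit 5080192844) (nat_lit 1976) (nat_lit 30253288087) (nat_lit 468) (nat_lit 5) (nat_lit 467) (nat_lit 5) (nat_lit 493) (nat_lit 5) (nat_lit 641) (nat_lit 617) (nat_lit 302)) (XT.lf (nat_lit 0) (nat_lit 8227637943) (nat_lit 1900) (nat_lit 16371115253) (nat_lit 76) (nat_lit 11303143218) (nat_lit 468) (nat_lit 5) (nat_lit 493) (nat_lit 5) (nat_lit 469) (nat_lit 5) (nat_lit 642) (nat_lit 617) (nat_lit 301))) (XT.nd (nat_lit 78) (nat_lit 912) (nat_lit 0) (XT.lf (nat_lit 0) (nat_lit 2974589747) (nat_lit 1140) (nat_lit 8322950163) (nat_lit 1216) (nat_lit 24991117798) (nat_lit 453) (nat_lit 5) (nat_lit 468) (nat_lit 5) (nat_lit 469) (nat_lit 5) (nat_lit 643) (nat_lit 617) (nat_lit 300)) (XT.nd (nat_lit 78) (nat_lit 912) (nat_lit 0) (XT.lf (nat_lit 0) (nat_lit 14591740154) (nat_lit 1216) (nat_lit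 13807607687) (nat_lit 76) (nat_lit 8280548423) (nat_lit 453) (nat_lit 5) (nat_lit 469) (nat_lit 5) (nat_lit 454) (nat_lit 5) (nat_lit 644) (nat_lit 617) (nat_lit 299)) (XT.lf (nat_lit 0) (nat_lit 6112760263) (nat_lit 912) (nat_lit 11932464475) (nat_lit 988) (nat_lit 19031866887) (nat_lit 441) (nat_lit 5) (nat_lit 453) (nat_lit 5) (nat_lit 454) (nat_lit 5) (nat_lit 645) (nat_lit 617) (nat_lit 298))))) (XT.nd (nat_lit 156) (nat_lit 836) (nat_lit 0) (XT.nd (nat_lit 78) (nat_lit 912) (nat_lit 0) (XT.lf (nat_lit 0) (nat_lit 21691241218) (nat_lit 988) (nat_lit 10895161603) (nat_lit 76) (nat_lit 4893358866) (nat_lit 441) (nat_lit 5) (nat_lit 454) (nat_lit 5) (nat_lit 442) (nat_lit 5) (nat_lit 646) (nat_lit 617) (nat_lit 297)) (XT.lf (nat_lit 0) (nat_lit 9621286038) (nat_lit 912) (nat_lit 15929023426) (nat_lit 988) (nat_lit 12337373097) (nat_lit 429) (nat_lit 5) (nat_lit 441) (nat_lit 5) (nat_lit 442) (nat_lit 5) (nat_lit 647) (nat_lit 617) (nat_lit 296))) (XT.nd (nat_lit 78) (nat_lit 836) (nat_lit 0) (XT.lf (nat_lit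 0) (nat_lit 29565707249) (nat_lit 988) (nat_lit 7615212873) (nat_lit 76) (nat_lit 1121258805) (nat_lit 429) (nat_lit 5) (nat_lit 442) (nat_lit 5) (nat_lit 430) (nat_lit 5) (nat_lit 648) (nat_lit 617) (nat_lit 295)) (XT.nd (nat_lit 78) (nat_lit 0) (nat_lit 0) (XT.lf (nat_lit 0) (nat_lit 13519554331) (nat_lit 836) (nat_lit 20333812803) (nat_lit 912) (nat_lit 4867759039) (nat_lit 418) (nat_lit 5) (nat_lit 429) (nat_lit 5) (nat_lit 430) (nat_lit 5) (nat_lit 649) (nat_lit 617) (nat_lit 294)) (XT.lf (nat_lit 0) (nat_lit 35178990108) (nat_lit 836) (nat_lit 3097595835) (nat_lit 912) (nat_lit 870870343) (nat_lit 418) (nat_lit 5) (nat_lit 429) (nat_lit 5) (nat_lit 430) (nat_lit 5) (nat_lit 650) (nat_lit 617) (nat_lit 293))))))) (XT.nd (nat_lit 780) (nat_lit 4180) (nat_lit 0) (XT.nd (nat_lit 390) (nat_lit 2356) (nat_lit 0) (XT.nd (nat_lit 156) (nat_lit 836) (nat_lit 0) (XT.nd (nat_lit 78) (nat_lit 836) (nat_lit 0) (XT.lf (nat_lit 0) (nat_lit 3373805193) (nat_lit 988) (nat_lit 21772511703) (nat_lit 76) (nat_lit 14431381921)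 (nat_lit 405) (nat_lit 5) (nat_lit 418) (nat_lit 5) (nat_lit 406) (nat_lit 5) (nat_lit 651) (nat_lit 617) (nat_lit 292)) (XT.lf (nat_lit 0) (nat_lit 24697095) (nat_lit 836) (nat_lit 7713246000) (nat_lit 912) (nat_lit 32277563411) (nat_lit 394) (nat_lit 5) (nat_lit 405) (nat_lit 5) (nat_lit 406) (nat_lit 5) (nat_lit 652) (nat_lit 617) (nat_lit 291))) (XT.nd (nat_lit 78) (nat_lit 836) (nat_lit 0) (XT.lf (nat_lit 0) (nat_lit 12400562015) (nat_lit 912) (nat_lit 17973784215) (nat_lit 76) (nat_lit 10083500190) (nat_lit 394) (nat_lit 5) (nat_lit 406) (nat_lit 5) (nat_lit 395) (nat_lit 5) (nat_lit 653) (nat_lit 617) (nat_lit 290)) (XT.nd (nat_lit 78) (nat_lit 0) (nat_lit 0) (XT.lf (nat_lit 0) (nat_lit 4490135115) (nat_lit 836) (nat_lit 12745311024) (nat_lit 912) (nat_lit 23672006767) (nat_lit 383) (nat_lit 5) (nat_lit 394) (nat_lit 5) (nat_lit 395) (nat_lit 5) (nat_lit 654) (nat_lit 617) (nat_lit 289)) (XT.lf (nat_lit 0) (nat_lit 22321232216) (nat_lit 912) (nat_lit 13752733200) (nat_lit 76) (nat_lit 5289002054)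 (nat_lit 383) (nat_lit 5) (nat_lit 395) (nat_lit 5) (nat_lit 384) (nat_lit 5) (nat_lit 655) (nat_lit 617) (nat_lit 288))))) (XT.nd (nat_lit 156) (nat_lit 1596) (nat_lit 0) (XT.nd (nat_lit 78) (nat_lit 0) (nat_lit 0) (XT.lf (nat_lit 0) (nat_lit 9402811689) (nat_lit 760) (nat_lit 18250195672) (nat_lit 836) (nat_lit 14171699527) (nat_lit 373) (nat_lit 5) (nat_lit 383) (nat_lit 5) (nat_lit 384) (nat_lit 5) (nat_lit 656) (nat_lit 617) (nat_lit 287)) (XT.lf (nat_lit 0) (nat_lit 33182695821) (nat_lit 836) (nat_lit 9087362604) (nat_lit 76) (nat_lit 23797146) (nat_lit 373) (nat_lit 5) (nat_lit 384) (nat_lit 5) (nat_lit 374) (nat_lit 5) (nat_lit 657) (nat_lit 617) (nat_lit 286))) (XT.nd (nat_lit 78) (nat_lit 836) (nat_lit 0) (XT.lf (nat_lit 0) (nat_lit 14785680325) (nat_lit 760) (nat_lit 24253013996) (nat_lit 836) (nat_lit 3729378610) (nat_lit 363) (nat_lit 5) (nat_lit 373) (nat_lit 5) (nat_lit 374) (nat_lit 5) (nat_lit 658) (nat_lit 617) (nat_lit 285)) (XT.nd (nat_lit 78) (nat_lit 760) (nat_lit 0) (XT.lf (nat_lit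 0) (nat_lit 1797202335) (nat_lit 836) (nat_lit 4004262468) (nat_lit 76) (nat_lit 37448876369) (nat_lit 362) (nat_lit 5) (nat_lit 373) (nat_lit 5) (nat_lit 363) (nat_lit 5) (nat_lit 659) (nat_lit 617) (nat_lit 284)) (XT.lf (nat_lit 0) (nat_lit 7603283254) (nat_lit 836) (nat_lit 23125691261) (nat_lit 76) (nat_lit 13008409175) (nat_lit 352) (nat_lit 5) (nat_lit 363) (nat_lit 5) (nat_lit 353) (nat_lit 5) (nat_lit 660) (nat_lit 617) (nat_lit 283)))))) (XT.nd (nat_lit 390) (nat_lit 2052) (nat_lit 0) (XT.nd (nat_lit 156) (nat_lit 1368) (nat_lit 0) (XT.nd (nat_lit 78) (nat_lit 0) (nat_lit 0) (XT.lf (nat_lit 0) (nat_lit 1520731072) (nat_lit 760) (nat_lit 12078995448) (nat_lit 836) (nat_lit 30632955750) (nat_lit 342) (nat_lit 5) (nat_lit 352) (nat_lit 5) (nat_lit 353) (nat_lit 5) (nat_lit 661) (nat_lit 617) (nat_lit 282)) (XT.lf (nat_lit 0) (nat_lit 19916307843) (nat_lit 836) (nat_lit 17808582863) (nat_lit 76) (nat_lit 7008991960) (nat_lit 342) (nat_lit 5) (nat_lit 353) (nat_lit 5) (nat_lit 343) (nat_lit 5) (nat_lit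 662) (nat_lit 617) (nat_lit 281))) (XT.nd (nat_lit 78) (nat_lit 684) (nat_lit 0) (XT.lf (nat_lit 0) (nat_lit 7611465850) (nat_lit 684) (nat_lit 18876099294) (nat_lit 760) (nat_lit 18754975065) (nat_lit 333) (nat_lit 5) (nat_lit 342) (nat_lit 5) (nat_lit 343) (nat_lit 5) (nat_lit 663) (nat_lit 617) (nat_lit 280)) (XT.nd (nat_lit 78) (nat_lit 684) (nat_lit 0) (XT.lf (nat_lit 0) (nat_lit 33311758630) (nat_lit 760) (nat_lit 11981958402) (nat_lit 76) (nat_lit 465223677) (nat_lit 333) (nat_lit 5) (nat_lit 343) (nat_lit 5) (nat_lit 334) (nat_lit 5) (nat_lit 664) (nat_lit 617) (nat_lit 279)) (XT.lf (nat_lit 0) (nat_lit 14240694548) (nat_lit 684) (nat_lit 26248173822) (nat_lit 760) (nat_lit 5792472226) (nat_lit 324) (nat_lit 5) (nat_lit 333) (nat_lit 5) (nat_lit 334) (nat_lit 5) (nat_lit 665) (nat_lit 617) (nat_lit 278))))) (XT.nd (nat_lit 234) (nat_lit 608) (nat_lit 0) (XT.nd (nat_lit 78) (nat_lit 1368) (nat_lit 0) (XT.lf (nat_lit 0) (nat_lit 1062186381) (nat_lit 760) (nat_lit 5670569135) (nat_lit 76) (nat_lit 40079705573)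 (nat_lit 323) (nat_lit 5) (nat_lit 333) (nat_lit 5) (nat_lit 324) (nat_lit 5) (nat_lit 666) (nat_lit 617) (nat_lit 277)) (XT.nd (nat_lit 78) (nat_lit 684) (nat_lit 0) (XT.lf (nat_lit 0) (nat_lit 8201534600) (nat_lit 760) (nat_lit 25968444694) (nat_lit 76) (nat_lit 13178955805) (nat_lit 314) (nat_lit 5) (nat_lit 324) (nat_lit 5) (nat_lit 315) (nat_lit 5) (nat_lit 667) (nat_lit 617) (nat_lit 276)) (XT.lf (nat_lit 0) (nat_lit 1122744635) (nat_lit 684) (nat_lit 14450108921) (nat_lit 760) (nat_lit 32321501381) (nat_lit 305) (nat_lit 5) (nat_lit 314) (nat_lit 5) (nat_lit 315) (nat_lit 5) (nat_lit 668) (nat_lit 617) (nat_lit 275)))) (XT.nd (nat_lit 78) (nat_lit 608) (nat_lit 0) (XT.lf (nat_lit 0) (nat_lit 23302802722) (nat_lit 760) (nat_lit 19378571355) (nat_lit 76) (nat_lit 5765085041) (nat_lit 305) (nat_lit 5) (nat_lit 315) (nat_lit 5) (nat_lit 306) (nat_lit 5) (nat_lit 669) (nat_lit 617) (nat_lit 274)) (XT.nd (nat_lit 78) (nat_lit 0) (nat_lit 0) (XT.lf (nat_lit 0) (nat_lit 8577946592) (nat_lit 608) (nat_lit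 22759825819) (nat_lit 684) (nat_lit 17668824565) (nat_lit 297) (nat_lit 5) (nat_lit 305) (nat_lit 5) (nat_lit 306) (nat_lit 5) (nat_lit 670) (nat_lit 617) (nat_lit 273)) (XT.lf (nat_lit 0) (nat_lit 37355097337) (nat_lit 608) (nat_lit 2307427633) (nat_lit 684) (nat_lit 9912830973) (nat_lit 297) (nat_lit 5) (nat_lit 305) (nat_lit 5) (nat_lit 306) (nat_lit 5) (nat_lit 671) (nat_lit 617) (nat_lit 272))))))))
noncomputable def xc227 : XT := (XT.nd (nat_lit 78390) (nat_lit 0) (nat_lit 7220) (XT.nd (nat_lit 77610) (nat_lit 0) (nat_lit 14972) (XT.nd (nat_lit 77220) (nat_lit 0) (nat_lit 14744) (XT.nd (nat_lit 76986) (nat_lit 0) (nat_lit 14668) (XT.nd (nat_lit 78) (nat_lit 76) (nat_lit 0) (XT.lf (nat_lit 0) (nat_lit 16649017424) (nat_lit 608) (nat_lit 31732377030) (nat_lit 684) (nat_lit 1769543220) (nat_lit 289) (nat_lit 5) (nat_lit 297) (nat_lit 5) (nat_lit 298) (nat_lit 5) (nat_lit 672) (nat_lit 617) (nat_lit 271)) (XT.lf (nat_lit 0) (nat_lit 6547774983) (nat_lit 684) (nat_lit 4534505389) (nat_lit 76) (nat_lit 39652964018)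 (nat_lit 288) (nat_lit 5) (nat_lit 297) (nat_lit 5) (nat_lit 289) (nat_lit 5) (nat_lit 673) (nat_lit 617) (nat_lit 270))) (XT.nd (nat_lit 78) (nat_lit 0) (nat_lit 0) (XT.lf (nat_lit 0) (nat_lit 2397253428) (nat_lit 1900) (nat_lit 5882510439) (nat_lit 1900) (nat_lit 5882510439) (nat_lit 481) (nat_lit 3) (nat_lit 506) (nat_lit 3) (nat_lit 506) (nat_lit 5) (nat_lit 618) (nat_lit 618) (nat_lit 324)) (XT.nd (nat_lit 78) (nat_lit 0) (nat_lit 76) (XT.lf (nat_lit 76) (nat_lit 2371419250) (nat_lit 0) (nat_lit 2568865236) (nat_lit 1900) (nat_lit 23665550467) (nat_lit 482) (nat_lit 5) (nat_lit 481) (nat_lit 3) (nat_lit 506) (nat_lit 5) (nat_lit 619) (nat_lit 618) (nat_lit 323)) (XT.lf (nat_lit 0) (nat_lit 5242261869) (nat_lit 1824) (nat_lit 12018767115) (nat_lit 1900) (nat_lit 11628652417) (nat_lit 482) (nat_lit 5) (nat_lit 506) (nat_lit 5) (nat_lit 507) (nat_lit 5) (nat_lit 620) (nat_lit 618) (nat_lit 322))))) (XT.nd (nat_lit 156) (nat_lit 0) (nat_lit 76) (XT.nd (nat_lit 78) (nat_lit 0) (nat_lit 76) (XT.lf (nat_lit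 76) (nat_lit 2495769698) (nat_lit 0) (nat_lit 3085605309) (nat_lit 1900) (nat_lit 23597207912) (nat_lit 483) (nat_lit 5) (nat_lit 482) (nat_lit 5) (nat_lit 507) (nat_lit 5) (nat_lit 621) (nat_lit 618) (nat_lit 321)) (XT.lf (nat_lit 0) (nat_lit 6080219979) (nat_lit 1824) (nat_lit 12083697201) (nat_lit 1900) (nat_lit 11306286358) (nat_lit 483) (nat_lit 5) (nat_lit 507) (nat_lit 5) (nat_lit 508) (nat_lit 5) (nat_lit 622) (nat_lit 618) (nat_lit 320))) (XT.nd (nat_lit 78) (nat_lit 0) (nat_lit 76) (XT.lf (nat_lit 76) (nat_lit 2822826508) (nat_lit 0) (nat_lit 3802938275) (nat_lit 1900) (nat_lit 23141157390) (nat_lit 484) (nat_lit 5) (nat_lit 483) (nat_lit 5) (nat_lit 508) (nat_lit 5) (nat_lit 623) (nat_lit 618) (nat_lit 319)) (XT.nd (nat_lit 78) (nat_lit 0) (nat_lit 0) (XT.lf (nat_lit 0) (nat_lit 7332258903) (nat_lit 1824) (nat_lit 11948826781) (nat_lit 1900) (nat_lit 10785488789) (nat_lit 484) (nat_lit 5) (nat_lit 508) (nat_lit 5) (nat_lit 509) (nat_lit 5) (nat_lit 624) (nat_lit 618) (nat_lit 318)) (XT.lf (nat_lit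 76) (nat_lit 3364106736) (nat_lit 0) (nat_lit 4733841262) (nat_lit 1900) (nat_lit 22273370576) (nat_lit 485) (nat_lit 5) (nat_lit 484) (nat_lit 5) (nat_lit 509) (nat_lit 5) (nat_lit 625) (nat_lit 618) (nat_lit 317)))))) (XT.nd (nat_lit 390) (nat_lit 0) (nat_lit 152) (XT.nd (nat_lit 156) (nat_lit 0) (nat_lit 76) (XT.nd (nat_lit 78) (nat_lit 0) (nat_lit 0) (XT.lf (nat_lit 0) (nat_lit 9023342825) (nat_lit 1824) (nat_lit 11602633103) (nat_lit 1900) (nat_lit 10053293850) (nat_lit 485) (nat_lit 5) (nat_lit 509) (nat_lit 5) (nat_lit 510) (nat_lit 5) (nat_lit 626) (nat_lit 618) (nat_lit 316)) (XT.lf (nat_lit 76) (nat_lit 4131686374) (nat_lit 0) (nat_lit 5891846422) (nat_lit 1900) (nat_lit 20968721523) (nat_lit 486) (nat_lit 5) (nat_lit 485) (nat_lit 5) (nat_lit 510) (nat_lit 5) (nat_lit 627) (nat_lit 618) (nat_lit 315))) (XT.nd (nat_lit 78) (nat_lit 0) (nat_lit 0) (XT.lf (nat_lit 0) (nat_lit 11179570629) (nat_lit 1824) (nat_lit 11033033756) (nat_lit 1900) (nat_lit 9096177340) (nat_lit 486) (nat_lit 5) (nat_lit 510)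 (nat_lit 5) (nat_lit 511) (nat_lit 5) (nat_lit 628) (nat_lit 618) (nat_lit 314)) (XT.nd (nat_lit 78) (nat_lit 0) (nat_lit 76) (XT.lf (nat_lit 76) (nat_lit 5138222430) (nat_lit 0) (nat_lit 7291068169) (nat_lit 1900) (nat_lit 19200937906) (nat_lit 487) (nat_lit 5) (nat_lit 486) (nat_lit 5) (nat_lit 511) (nat_lit 5) (nat_lit 629) (nat_lit 618) (nat_lit 313)) (XT.lf (nat_lit 0) (nat_lit 13828226015) (nat_lit 1824) (nat_lit 10227364455) (nat_lit 1900) (nat_lit 7900029385) (nat_lit 487) (nat_lit 5) (nat_lit 511) (nat_lit 5) (nat_lit 512) (nat_lit 5) (nat_lit 630) (nat_lit 618) (nat_lit 312))))) (XT.nd (nat_lit 156) (nat_lit 0) (nat_lit 76) (XT.nd (nat_lit 78) (nat_lit 0) (nat_lit 76) (XT.lf (nat_lit 76) (nat_lit 6396975978) (nat_lit 0) (nat_lit 8946231414) (nat_lit 1900) (nat_lit 16942550345) (nat_lit 488) (nat_lit 5) (nat_lit 487) (nat_lit 5) (nat_lit 512) (nat_lit 5) (nat_lit 631) (nat_lit 618) (nat_lit 311)) (XT.lf (nat_lit 0) (nat_lit 16997829622) (nat_lit 1824) (nat_lit 9172355863) (nat_lit 1900) (nat_lit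 6450126121) (nat_lit 488) (nat_lit 5) (nat_lit 512) (nat_lit 5) (nat_lit 513) (nat_lit 5) (nat_lit 632) (nat_lit 618) (nat_lit 310))) (XT.nd (nat_lit 78) (nat_lit 0) (nat_lit 76) (XT.lf (nat_lit 76) (nat_lit 7921836214) (nat_lit 0) (nat_lit 10872700818) (nat_lit 1900) (nat_lit 14164839715) (nat_lit 489) (nat_lit 5) (nat_lit 488) (nat_lit 5) (nat_lit 513) (nat_lit 5) (nat_lit 633) (nat_lit 618) (nat_lit 309)) (XT.nd (nat_lit 78) (nat_lit 0) (nat_lit 0) (XT.lf (nat_lit 0) (nat_lit 20718193216) (nat_lit 1824) (nat_lit 7854109395) (nat_lit 1900) (nat_lit 4731100338) (nat_lit 489) (nat_lit 5) (nat_lit 513) (nat_lit 5) (nat_lit 514) (nat_lit 5) (nat_lit 634) (nat_lit 618) (nat_lit 308)) (XT.lf (nat_lit 76) (nat_lit 9727345557) (nat_lit 0) (nat_lit 13086511128) (nat_lit 1900) (nat_lit 10837782356) (nat_lit 490) (nat_lit 5) (nat_lit 489) (nat_lit 5) (nat_lit 514) (nat_lit 5) (nat_lit 635) (nat_lit 618) (nat_lit 307))))))) (XT.nd (nat_lit 780) (nat_lit 5320) (nat_lit 0) (XT.nd (nat_lit 390) (nat_lit 988) (nat_lit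 0) (XT.nd (nat_lit 156) (nat_lit 1824) (nat_lit 0) (XT.nd (nat_lit 78) (nat_lit 0) (nat_lit 0) (XT.lf (nat_lit 0) (nat_lit 25020476032) (nat_lit 1824) (nat_lit 6258071984) (nat_lit 1900) (nat_lit 2726911032) (nat_lit 490) (nat_lit 5) (nat_lit 514) (nat_lit 5) (nat_lit 515) (nat_lit 5) (nat_lit 636) (nat_lit 618) (nat_lit 306)) (XT.lf (nat_lit 76) (nat_lit 11828725821) (nat_lit 0) (nat_lit 15604398653) (nat_lit 1900) (nat_lit 6929993095) (nat_lit 491) (nat_lit 5) (nat_lit 490) (nat_lit 5) (nat_lit 515) (nat_lit 5) (nat_lit 637) (nat_lit 618) (nat_lit 305))) (XT.nd (nat_lit 78) (nat_lit 1900) (nat_lit 0) (XT.lf (nat_lit 0) (nat_lit 29937243382) (nat_lit 1824) (nat_lit 4369009768) (nat_lit 1900) (nat_lit 420811806) (nat_lit 491) (nat_lit 5) (nat_lit 515) (nat_lit 5) (nat_lit 516) (nat_lit 5) (nat_lit 638) (nat_lit 618) (nat_lit 304)) (XT.nd (nat_lit 78) (nat_lit 1900) (nat_lit 0) (XT.lf (nat_lit 76) (nat_lit 14241905514) (nat_lit 0) (nat_lit 18443833929) (nat_lit 1900) (nat_lit 2408665998) (nat_lit 492) (nat_lit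 5) (nat_lit 491) (nat_lit 5) (nat_lit 516) (nat_lit 5) (nat_lit 639) (nat_lit 618) (nat_lit 303)) (XT.lf (nat_lit 0) (nat_lit 47859806) (nat_lit 1900) (nat_lit 2185800014) (nat_lit 1976) (nat_lit 33234870128) (nat_lit 466) (nat_lit 5) (nat_lit 491) (nat_lit 5) (nat_lit 492) (nat_lit 5) (nat_lit 640) (nat_lit 618) (nat_lit 302))))) (XT.nd (nat_lit 156) (nat_lit 1064) (nat_lit 0) (XT.nd (nat_lit 78) (nat_lit 0) (nat_lit 0) (XT.lf (nat_lit 0) (nat_lit 2724282980) (nat_lit 1900) (nat_lit 18880491285) (nat_lit 1976) (nat_lit 14240983920) (nat_lit 467) (nat_lit 5) (nat_lit 492) (nat_lit 5) (nat_lit 493) (nat_lit 5) (nat_lit 641) (nat_lit 618) (nat_lit 301)) (XT.lf (nat_lit 76) (nat_lit 286383299) (nat_lit 0) (nat_lit 5197818708) (nat_lit 1976) (nat_lit 30745729673) (nat_lit 468) (nat_lit 5) (nat_lit 467) (nat_lit 5) (nat_lit 493) (nat_lit 5) (nat_lit 642) (nat_lit 618) (nat_lit 300))) (XT.nd (nat_lit 78) (nat_lit 1140) (nat_lit 0) (XT.lf (nat_lit 0) (nat_lit 8500336536) (nat_lit 1900) (nat_lit 16603727565) (nat_lit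 76) (nat_lit 11513704243) (nat_lit 468) (nat_lit 5) (nat_lit 493) (nat_lit 5) (nat_lit 469) (nat_lit 5) (nat_lit 643) (nat_lit 618) (nat_lit 299)) (XT.nd (nat_lit 78) (nat_lit 0) (nat_lit 0) (XT.lf (nat_lit 0) (nat_lit 3128267786) (nat_lit 1140) (nat_lit 8501859769) (nat_lit 1216) (nat_lit 25382167549) (nat_lit 453) (nat_lit 5) (nat_lit 468) (nat_lit 5) (nat_lit 469) (nat_lit 5) (nat_lit 644) (nat_lit 618) (nat_lit 298)) (XT.lf (nat_lit 0) (nat_lit 14988041634) (nat_lit 1216) (nat_lit 13989247253) (nat_lit 76) (nat_lit 8434113007) (nat_lit 453) (nat_lit 5) (nat_lit 469) (nat_lit 5) (nat_lit 454) (nat_lit 5) (nat_lit 645) (nat_lit 618) (nat_lit 297)))))) (XT.nd (nat_lit 390) (nat_lit 2660) (nat_lit 0) (XT.nd (nat_lit 156) (nat_lit 1748) (nat_lit 0) (XT.nd (nat_lit 78) (nat_lit 0) (nat_lit 0) (XT.lf (nat_lit 0) (nat_lit 6328906263) (nat_lit 912) (nat_lit 12180250881) (nat_lit 988) (nat_lit 19307412851) (nat_lit 441) (nat_lit 5) (nat_lit 453) (nat_lit 5) (nat_lit 454) (nat_lit 5) (nat_lit 646) (nat_lit 618)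 (nat_lit 296)) (XT.lf (nat_lit 0) (nat_lit 22226015638) (nat_lit 988) (nat_lit 11018933874) (nat_lit 76) (nat_lit 4982385571) (nat_lit 441) (nat_lit 5) (nat_lit 454) (nat_lit 5) (nat_lit 442) (nat_lit 5) (nat_lit 647) (nat_lit 618) (nat_lit 295))) (XT.nd (nat_lit 78) (nat_lit 836) (nat_lit 0) (XT.lf (nat_lit 0) (nat_lit 9907223439) (nat_lit 912) (nat_lit 16253669547) (nat_lit 988) (nat_lit 12482548889) (nat_lit 429) (nat_lit 5) (nat_lit 441) (nat_lit 5) (nat_lit 442) (nat_lit 5) (nat_lit 648) (nat_lit 618) (nat_lit 294)) (XT.nd (nat_lit 78) (nat_lit 836) (nat_lit 0) (XT.lf (nat_lit 0) (nat_lit 30254607618) (nat_lit 988) (nat_lit 7673845170) (nat_lit 76) (nat_lit 1137815256) (nat_lit 429) (nat_lit 5) (nat_lit 442) (nat_lit 5) (nat_lit 430) (nat_lit 5) (nat_lit 649) (nat_lit 618) (nat_lit 293)) (XT.lf (nat_lit 0) (nat_lit 13883001115) (nat_lit 836) (nat_lit 20743710310) (nat_lit 912) (nat_lit 4866909050) (nat_lit 418) (nat_lit 5) (nat_lit 429) (nat_lit 5) (nat_lit 430) (nat_lit 5) (nat_lit 650) (nat_lit 618)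 (nat_lit 292))))) (XT.nd (nat_lit 234) (nat_lit 836) (nat_lit 0) (XT.nd (nat_lit 78) (nat_lit 1824) (nat_lit 0) (XT.lf (nat_lit 0) (nat_lit 35973800986) (nat_lit 836) (nat_lit 3162705841) (nat_lit 912) (nat_lit 792008171) (nat_lit 418) (nat_lit 5) (nat_lit 429) (nat_lit 5) (nat_lit 430) (nat_lit 5) (nat_lit 651) (nat_lit 618) (nat_lit 291)) (XT.nd (nat_lit 78) (nat_lit 836) (nat_lit 0) (XT.lf (nat_lit 0) (nat_lit 3535019580) (nat_lit 988) (nat_lit 22114184459) (nat_lit 76) (nat_lit 14718171461) (nat_lit 405) (nat_lit 5) (nat_lit 418) (nat_lit 5) (nat_lit 406) (nat_lit 5) (nat_lit 652) (nat_lit 618) (nat_lit 290)) (XT.lf (nat_lit 0) (nat_lit 118351559) (nat_lit 836) (nat_lit 7866855537) (nat_lit 912) (nat_lit 32828756961) (nat_lit 394) (nat_lit 5) (nat_lit 405) (nat_lit 5) (nat_lit 406) (nat_lit 5) (nat_lit 653) (nat_lit 618) (nat_lit 289)))) (XT.nd (nat_lit 78) (nat_lit 836) (nat_lit 0) (XT.lf (nat_lit 0) (nat_lit 12739268738) (nat_lit 912) (nat_lit 18240113970) (nat_lit 76) (nat_lit 10285804300) (nat_lit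 394) (nat_lit 5) (nat_lit 406) (nat_lit 5) (nat_lit 395) (nat_lit 5) (nat_lit 654) (nat_lit 618) (nat_lit 288)) (XT.nd (nat_lit 78) (nat_lit 0) (nat_lit 0) (XT.lf (nat_lit 0) (nat_lit 4672470944) (nat_lit 836) (nat_lit 12997202045) (nat_lit 912) (nat_lit 24054136234) (nat_lit 383) (nat_lit 5) (nat_lit 394) (nat_lit 5) (nat_lit 395) (nat_lit 5) (nat_lit 655) (nat_lit 618) (nat_lit 287)) (XT.lf (nat_lit 0) (nat_lit 22855438726) (nat_lit 912) (nat_lit 13935330715) (nat_lit 76) (nat_lit 5397699404) (nat_lit 383) (nat_lit 5) (nat_lit 395) (nat_lit 5) (nat_lit 384) (nat_lit 5) (nat_lit 656) (nat_lit 618) (nat_lit 286))))))))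
noncomputable def xc228 : XT := (XT.nd (nat_lit 78468) (nat_lit 0) (nat_lit 13452) (XT.nd (nat_lit 780) (nat_lit 2660) (nat_lit 0) (XT.nd (nat_lit 390) (nat_lit 2128) (nat_lit 0) (XT.nd (nat_lit 156) (nat_lit 1596) (nat_lit 0) (XT.nd (nat_lit 78) (nat_lit 0) (nat_lit 0) (XT.lf (nat_lit 0) (nat_lit 9682716801) (nat_lit 760) (nat_lit 18610007705) (nat_lit 836) (nat_lit 14366741091) (nat_lit 373) (nat_lit 5) (nat_lit 383) (nat_lit 5) (nat_lit 384) (nat_lit 5) (nat_lit 657) (nat_lit 618) (nat_lit 285)) (XT.lf (nat_lit 0) (nat_lit 33931340625) (nat_lit 836) (nat_lit 9177393584) (nat_lit 76) (nat_lit 29296410) (nat_lit 373) (nat_lit 5) (nat_lit 384) (nat_lit 5) (nat_lit 374) (nat_lit 5) (nat_lit 658) (nat_lit 618) (nat_lit 284))) (XT.nd (nat_lit 78) (nat_lit 836) (nat_lit 0) (XT.lf (nat_lit 0) (nat_lit 15172506807) (nat_lit 760) (nat_lit 24730877365) (nat_lit 836) (nat_lit 3718369697) (nat_lit 363) (nat_lit 5) (nat_lit 373) (nat_lit 5) (nat_lit 374) (nat_lit 5) (nat_lit 659) (nat_lit 618) (nat_lit 283)) (XT.nd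 (nat_lit 78) (nat_lit 760) (nat_lit 0) (XT.lf (nat_lit 0) (nat_lit 1915963904) (nat_lit 836) (nat_lit 3993918652) (nat_lit 76) (nat_lit 38203806974) (nat_lit 362) (nat_lit 5) (nat_lit 373) (nat_lit 5) (nat_lit 363) (nat_lit 5) (nat_lit 660) (nat_lit 618) (nat_lit 282)) (XT.lf (nat_lit 0) (nat_lit 7837178144) (nat_lit 836) (nat_lit 23496785649) (nat_lit 76) (nat_lit 13276528912) (nat_lit 352) (nat_lit 5) (nat_lit 363) (nat_lit 5) (nat_lit 353) (nat_lit 5) (nat_lit 661) (nat_lit 618) (nat_lit 281))))) (XT.nd (nat_lit 156) (nat_lit 1368) (nat_lit 0) (XT.nd (nat_lit 78) (nat_lit 0) (nat_lit 0) (XT.lf (nat_lit 0) (nat_lit 1641963687) (nat_lit 760) (nat_lit 12310571744) (nat_lit 836) (nat_lit 31163182163) (nat_lit 342) (nat_lit 5) (nat_lit 352) (nat_lit 5) (nat_lit 353) (nat_lit 5) (nat_lit 662) (nat_lit 618) (nat_lit 280)) (XT.lf (nat_lit 0) (nat_lit 20393927461) (nat_lit 836) (nat_lit 18074194359) (nat_lit 76) (nat_lit 7158850636) (nat_lit 342) (nat_lit 5) (nat_lit 353) (nat_lit 5) (nat_lit 343) (nat_lit 5)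 (nat_lit 663) (nat_lit 618) (nat_lit 279))) (XT.nd (nat_lit 78) (nat_lit 684) (nat_lit 0) (XT.lf (nat_lit 0) (nat_lit 7853659537) (nat_lit 684) (nat_lit 19241979706) (nat_lit 760) (nat_lit 19050183359) (nat_lit 333) (nat_lit 5) (nat_lit 342) (nat_lit 5) (nat_lit 343) (nat_lit 5) (nat_lit 664) (nat_lit 618) (nat_lit 278)) (XT.nd (nat_lit 78) (nat_lit 684) (nat_lit 0) (XT.lf (nat_lit 0) (nat_lit 34054854960) (nat_lit 760) (nat_lit 12131933652) (nat_lit 76) (nat_lit 485791771) (nat_lit 333) (nat_lit 5) (nat_lit 343) (nat_lit 5) (nat_lit 334) (nat_lit 5) (nat_lit 665) (nat_lit 618) (nat_lit 277)) (XT.lf (nat_lit 0) (nat_lit 14614582463) (nat_lit 684) (nat_lit 26759995679) (nat_lit 760) (nat_lit 5830868740) (nat_lit 324) (nat_lit 5) (nat_lit 333) (nat_lit 5) (nat_lit 334) (nat_lit 5) (nat_lit 666) (nat_lit 618) (nat_lit 276)))))) (XT.nd (nat_lit 390) (nat_lit 608) (nat_lit 0) (XT.nd (nat_lit 156) (nat_lit 1292) (nat_lit 0) (XT.nd (nat_lit 78) (nat_lit 684) (nat_lit 0) (XT.lf (nat_lit 0) (nat_lit 1158368463) (nat_lit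 760) (nat_lit 5695655347) (nat_lit 76) (nat_lit 40893185928) (nat_lit 323) (nat_lit 5) (nat_lit 333) (nat_lit 5) (nat_lit 324) (nat_lit 5) (nat_lit 667) (nat_lit 618) (nat_lit 275)) (XT.lf (nat_lit 0) (nat_lit 8439692945) (nat_lit 760) (nat_lit 26398675944) (nat_lit 76) (nat_lit 13456060588) (nat_lit 314) (nat_lit 5) (nat_lit 324) (nat_lit 5) (nat_lit 315) (nat_lit 5) (nat_lit 668) (nat_lit 618) (nat_lit 274))) (XT.nd (nat_lit 78) (nat_lit 608) (nat_lit 0) (XT.lf (nat_lit 0) (nat_lit 1233750739) (nat_lit 684) (nat_lit 14723808991) (nat_lit 760) (nat_lit 32893215589) (nat_lit 305) (nat_lit 5) (nat_lit 314) (nat_lit 5) (nat_lit 315) (nat_lit 5) (nat_lit 669) (nat_lit 618) (nat_lit 273)) (XT.nd (nat_lit 78) (nat_lit 608) (nat_lit 0) (XT.lf (nat_lit 0) (nat_lit 23840769025) (nat_lit 760) (nat_lit 19677987314) (nat_lit 76) (nat_lit 5895192055) (nat_lit 305) (nat_lit 5) (nat_lit 315) (nat_lit 5) (nat_lit 306) (nat_lit 5) (nat_lit 670) (nat_lit 618) (nat_lit 272)) (XT.lf (nat_lit 0) (nat_lit 8837081022) (nat_lit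 608) (nat_lit 23198515679) (nat_lit 684) (nat_lit 17949709170) (nat_lit 297) (nat_lit 5) (nat_lit 305) (nat_lit 5) (nat_lit 306) (nat_lit 5) (nat_lit 671) (nat_lit 618) (nat_lit 271))))) (XT.nd (nat_lit 77064) (nat_lit 0) (nat_lit 14592) (XT.nd (nat_lit 78) (nat_lit 608) (nat_lit 0) (XT.lf (nat_lit 0) (nat_lit 38188057615) (nat_lit 608) (nat_lit 2337393190) (nat_lit 684) (nat_lit 10040017115) (nat_lit 297) (nat_lit 5) (nat_lit 305) (nat_lit 5) (nat_lit 306) (nat_lit 5) (nat_lit 672) (nat_lit 618) (nat_lit 270)) (XT.lf (nat_lit 0) (nat_lit 17068572830) (nat_lit 608) (nat_lit 32349423779) (nat_lit 684) (nat_lit 1734578730) (nat_lit 289) (nat_lit 5) (nat_lit 297) (nat_lit 5) (nat_lit 298) (nat_lit 5) (nat_lit 673) (nat_lit 618) (nat_lit 269))) (XT.nd (nat_lit 78) (nat_lit 0) (nat_lit 0) (XT.lf (nat_lit 0) (nat_lit 2527099004) (nat_lit 1900) (nat_lit 5958390150) (nat_lit 1900) (nat_lit 5958390150) (nat_lit 481) (nat_lit 3) (nat_lit 506) (nat_lit 3) (nat_lit 506) (nat_lit 5) (nat_lit 619) (nat_lit 619) (nat_lit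 322)) (XT.nd (nat_lit 78) (nat_lit 0) (nat_lit 76) (XT.lf (nat_lit 76) (nat_lit 2501839019) (nat_lit 0) (nat_lit 2698379221) (nat_lit 1900) (nat_lit 23974505990) (nat_lit 482) (nat_lit 5) (nat_lit 481) (nat_lit 3) (nat_lit 506) (nat_lit 5) (nat_lit 620) (nat_lit 619) (nat_lit 321)) (XT.lf (nat_lit 0) (nat_lit 5504578430) (nat_lit 1824) (nat_lit 12174116849) (nat_lit 1900) (nat_lit 11785625559) (nat_lit 482) (nat_lit 5) (nat_lit 506) (nat_lit 5) (nat_lit 507) (nat_lit 5) (nat_lit 621) (nat_lit 619) (nat_lit 320))))))) (XT.nd (nat_lit 780) (nat_lit 1216) (nat_lit 0) (XT.nd (nat_lit 390) (nat_lit 0) (nat_lit 228) (XT.nd (nat_lit 156) (nat_lit 0) (nat_lit 76) (XT.nd (nat_lit 78) (nat_lit 0) (nat_lit 76) (XT.lf (nat_lit 76) (nat_lit 2630151321) (nat_lit 0) (nat_lit 3217783247) (nat_lit 1900) (nat_lit 23911116696) (nat_lit 483) (nat_lit 5) (nat_lit 482) (nat_lit 5) (nat_lit 507) (nat_lit 5) (nat_lit 622) (nat_lit 619) (nat_lit 319)) (XT.lf (nat_lit 0) (nat_lit 6353270017) (nat_lit 1824) (nat_lit 12239070113) (nat_lit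 1900) (nat_lit 11464233987) (nat_lit 483) (nat_lit 5) (nat_lit 507) (nat_lit 5) (nat_lit 508) (nat_lit 5) (nat_lit 623) (nat_lit 619) (nat_lit 318))) (XT.nd (nat_lit 78) (nat_lit 0) (nat_lit 76) (XT.lf (nat_lit 76) (nat_lit 2965016301) (nat_lit 0) (nat_lit 3942296531) (nat_lit 1900) (nat_lit 23451962640) (nat_lit 484) (nat_lit 5) (nat_lit 483) (nat_lit 5) (nat_lit 508) (nat_lit 5) (nat_lit 624) (nat_lit 619) (nat_lit 317)) (XT.nd (nat_lit 78) (nat_lit 0) (nat_lit 0) (XT.lf (nat_lit 0) (nat_lit 7624611699) (nat_lit 1824) (nat_lit 12100421562) (nat_lit 1900) (nat_lit 10939954146) (nat_lit 484) (nat_lit 5) (nat_lit 508) (nat_lit 5) (nat_lit 509) (nat_lit 5) (nat_lit 625) (nat_lit 619) (nat_lit 316)) (XT.lf (nat_lit 76) (nat_lit 3518195745) (nat_lit 0) (nat_lit 4885125427) (nat_lit 1900) (nat_lit 22572551175) (nat_lit 485) (nat_lit 5) (nat_lit 484) (nat_lit 5) (nat_lit 509) (nat_lit 5) (nat_lit 626) (nat_lit 619) (nat_lit 315))))) (XT.nd (nat_lit 156) (nat_lit 0) (nat_lit 76) (XT.nd (nat_lit 78) (nat_lit 0)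 (nat_lit 0) (XT.lf (nat_lit 0) (nat_lit 9344051527) (nat_lit 1824) (nat_lit 11746404387) (nat_lit 1900) (nat_lit 10199590193) (nat_lit 485) (nat_lit 5) (nat_lit 509) (nat_lit 5) (nat_lit 510) (nat_lit 5) (nat_lit 627) (nat_lit 619) (nat_lit 314)) (XT.lf (nat_lit 76) (nat_lit 4302020681) (nat_lit 0) (nat_lit 6060044185) (nat_lit 1900) (nat_lit 21247269163) (nat_lit 486) (nat_lit 5) (nat_lit 485) (nat_lit 5) (nat_lit 510) (nat_lit 5) (nat_lit 628) (nat_lit 619) (nat_lit 313))) (XT.nd (nat_lit 78) (nat_lit 0) (nat_lit 0) (XT.lf (nat_lit 0) (nat_lit 11538195805) (nat_lit 1824) (nat_lit 11164681752) (nat_lit 1900) (nat_lit 9229375060) (nat_lit 486) (nat_lit 5) (nat_lit 510) (nat_lit 5) (nat_lit 511) (nat_lit 5) (nat_lit 629) (nat_lit 619) (nat_lit 312)) (XT.nd (nat_lit 78) (nat_lit 0) (nat_lit 76) (XT.lf (nat_lit 76) (nat_lit 5329413948) (nat_lit 0) (nat_lit 7481422633) (nat_lit 1900) (nat_lit 19449333304) (nat_lit 487) (nat_lit 5) (nat_lit 486) (nat_lit 5) (nat_lit 511) (nat_lit 5) (nat_lit 630) (nat_lit 619)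 (nat_lit 311)) (XT.lf (nat_lit 0) (nat_lit 14234860174) (nat_lit 1824) (nat_lit 10342324099) (nat_lit 1900) (nat_lit 8014942677) (nat_lit 487) (nat_lit 5) (nat_lit 511) (nat_lit 5) (nat_lit 512) (nat_lit 5) (nat_lit 631) (nat_lit 619) (nat_lit 310)))))) (XT.nd (nat_lit 390) (nat_lit 1596) (nat_lit 0) (XT.nd (nat_lit 156) (nat_lit 0) (nat_lit 76) (XT.nd (nat_lit 78) (nat_lit 0) (nat_lit 76) (XT.lf (nat_lit 76) (nat_lit 6613913750) (nat_lit 0) (nat_lit 9164254880) (nat_lit 1900) (nat_lit 17150738489) (nat_lit 488) (nat_lit 5) (nat_lit 487) (nat_lit 5) (nat_lit 512) (nat_lit 5) (nat_lit 632) (nat_lit 619) (nat_lit 309)) (XT.lf (nat_lit 0) (nat_lit 17463122719) (nat_lit 1824) (nat_lit 9265785449) (nat_lit 1900) (nat_lit 6541299183) (nat_lit 488) (nat_lit 5) (nat_lit 512) (nat_lit 5) (nat_lit 513) (nat_lit 5) (nat_lit 633) (nat_lit 619) (nat_lit 308))) (XT.nd (nat_lit 78) (nat_lit 0) (nat_lit 76) (XT.lf (nat_lit 76) (nat_lit 8169698249) (nat_lit 0) (nat_lit 11124189058) (nat_lit 1900) (nat_lit 14322204102) (nat_lit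 489) (nat_lit 5) (nat_lit 488) (nat_lit 5) (nat_lit 513) (nat_lit 5) (nat_lit 634) (nat_lit 619) (nat_lit 307)) (XT.nd (nat_lit 78) (nat_lit 0) (nat_lit 0) (XT.lf (nat_lit 0) (nat_lit 21253379199) (nat_lit 1824) (nat_lit 7920878684) (nat_lit 1900) (nat_lit 4792793072) (nat_lit 489) (nat_lit 5) (nat_lit 513) (nat_lit 5) (nat_lit 514) (nat_lit 5) (nat_lit 635) (nat_lit 619) (nat_lit 306)) (XT.lf (nat_lit 76) (nat_lit 10011611203) (nat_lit 0) (nat_lit 13377558186) (nat_lit 1900) (nat_lit 10933118180) (nat_lit 490) (nat_lit 5) (nat_lit 489) (nat_lit 5) (nat_lit 514) (nat_lit 5) (nat_lit 636) (nat_lit 619) (nat_lit 305))))) (XT.nd (nat_lit 234) (nat_lit 1824) (nat_lit 0) (XT.nd (nat_lit 78) (nat_lit 0) (nat_lit 0) (XT.lf (nat_lit 0) (nat_lit 25637400481) (nat_lit 1824) (nat_lit 6292749766) (nat_lit 1900) (nat_lit 2753084213) (nat_lit 490) (nat_lit 5) (nat_lit 514) (nat_lit 5) (nat_lit 515) (nat_lit 5) (nat_lit 637) (nat_lit 619) (nat_lit 304)) (XT.nd (nat_lit 78) (nat_lit 0) (nat_lit 76) (XT.lf (nat_lit 76) (nat_lit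 12155188708) (nat_lit 0) (nat_lit 15941412192) (nat_lit 1900) (nat_lit 6951479339) (nat_lit 491) (nat_lit 5) (nat_lit 490) (nat_lit 5) (nat_lit 515) (nat_lit 5) (nat_lit 638) (nat_lit 619) (nat_lit 303)) (XT.lf (nat_lit 0) (nat_lit 30648392272) (nat_lit 1824) (nat_lit 4365850861) (nat_lit 1900) (nat_lit 405111706) (nat_lit 491) (nat_lit 5) (nat_lit 515) (nat_lit 5) (nat_lit 516) (nat_lit 5) (nat_lit 639) (nat_lit 619) (nat_lit 302)))) (XT.nd (nat_lit 78) (nat_lit 1900) (nat_lit 0) (XT.lf (nat_lit 76) (nat_lit 14616687075) (nat_lit 0) (nat_lit 18833551152) (nat_lit 1900) (nat_lit 2343836373) (nat_lit 492) (nat_lit 5) (nat_lit 491) (nat_lit 5) (nat_lit 516) (nat_lit 5) (nat_lit 640) (nat_lit 619) (nat_lit 301)) (XT.nd (nat_lit 78) (nat_lit 0) (nat_lit 76) (XT.lf (nat_lit 0) (nat_lit 158151209) (nat_lit 1900) (nat_lit 2139880023) (nat_lit 1976) (nat_lit 33877679488) (nat_lit 466) (nat_lit 5) (nat_lit 491) (nat_lit 5) (nat_lit 492) (nat_lit 5) (nat_lit 641) (nat_lit 619) (nat_lit 300)) (XT.lf (nat_lit 0) (nat_lit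 2886415629) (nat_lit 1900) (nat_lit 19166774820) (nat_lit 1976) (nat_lit 14507326878) (nat_lit 467) (nat_lit 5) (nat_lit 492) (nat_lit 5) (nat_lit 493) (nat_lit 5) (nat_lit 642) (nat_lit 619) (nat_lit 299))))))))
noncomputable def xc229 : XT := (XT.nd (nat_lit 1560) (nat_lit 4180) (nat_lit 0) (XT.nd (nat_lit 780) (nat_lit 5016) (nat_lit 0) (XT.nd (nat_lit 390) (nat_lit 1748) (nat_lit 0) (XT.nd (nat_lit 156) (nat_lit 1976) (nat_lit 0) (XT.nd (nat_lit 78) (nat_lit 0) (nat_lit 76) (XT.lf (nat_lit 76) (nat_lit 382836426) (nat_lit 0) (nat_lit 5317174935) (nat_lit 1976) (nat_lit 31252393425) (nat_lit 468) (nat_lit 5) (nat_lit 467) (nat_lit 5) (nat_lit 493) (nat_lit 5) (nat_lit 643) (nat_lit 619) (nat_lit 298)) (XT.lf (nat_lit 0) (nat_lit 8774289666) (nat_lit 1900) (nat_lit 16844673710) (nat_lit 76) (nat_lit 11729078444) (nat_lit 468) (nat_lit 5) (nat_lit 493) (nat_lit 5) (nat_lit 469) (nat_lit 5) (nat_lit 644) (nat_lit 619) (nat_lit 297))) (XT.nd (nat_lit 78) (nat_lit 912) (nat_lit 0) (XT.lf (nat_lit 0) (nat_lit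 3281362019) (nat_lit 1140) (nat_lit 8683864096) (nat_lit 1216) (nat_lit 25785262067) (nat_lit 453) (nat_lit 5) (nat_lit 468) (nat_lit 5) (nat_lit 469) (nat_lit 5) (nat_lit 645) (nat_lit 619) (nat_lit 296)) (XT.nd (nat_lit 78) (nat_lit 912) (nat_lit 0) (XT.lf (nat_lit 0) (nat_lit 15388212574) (nat_lit 1216) (nat_lit 14178189649) (nat_lit 76) (nat_lit 8591216659) (nat_lit 453) (nat_lit 5) (nat_lit 469) (nat_lit 5) (nat_lit 454) (nat_lit 5) (nat_lit 646) (nat_lit 619) (nat_lit 295)) (XT.lf (nat_lit 0) (nat_lit 6545729289) (nat_lit 912) (nat_lit 12432638210) (nat_lit 988) (nat_lit 19592550560) (nat_lit 441) (nat_lit 5) (nat_lit 453) (nat_lit 5) (nat_lit 454) (nat_lit 5) (nat_lit 647) (nat_lit 619) (nat_lit 294))))) (XT.nd (nat_lit 156) (nat_lit 836) (nat_lit 0) (XT.nd (nat_lit 78) (nat_lit 912) (nat_lit 0) (XT.lf (nat_lit 0) (nat_lit 22767565550) (nat_lit 988) (nat_lit 11148836809) (nat_lit 76) (nat_lit 5073536096) (nat_lit 441) (nat_lit 5) (nat_lit 454) (nat_lit 5) (nat_lit 442) (nat_lit 5) (nat_lit 648) (nat_lit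 619) (nat_lit 293)) (XT.lf (nat_lit 0) (nat_lit 10195248414) (nat_lit 912) (nat_lit 16584573053) (nat_lit 988) (nat_lit 12634572350) (nat_lit 429) (nat_lit 5) (nat_lit 441) (nat_lit 5) (nat_lit 442) (nat_lit 5) (nat_lit 649) (nat_lit 619) (nat_lit 292))) (XT.nd (nat_lit 78) (nat_lit 836) (nat_lit 0) (XT.lf (nat_lit 0) (nat_lit 30953496603) (nat_lit 988) (nat_lit 7737287509) (nat_lit 76) (nat_lit 1154930726) (nat_lit 429) (nat_lit 5) (nat_lit 442) (nat_lit 5) (nat_lit 430) (nat_lit 5) (nat_lit 650) (nat_lit 619) (nat_lit 291)) (XT.nd (nat_lit 78) (nat_lit 0) (nat_lit 0) (XT.lf (nat_lit 0) (nat_lit 14250103369) (nat_lit 836) (nat_lit 21161680682) (nat_lit 912) (nat_lit 4869855487) (nat_lit 418) (nat_lit 5) (nat_lit 429) (nat_lit 5) (nat_lit 430) (nat_lit 5) (nat_lit 651) (nat_lit 619) (nat_lit 290)) (XT.lf (nat_lit 0) (nat_lit 36780965468) (nat_lit 836) (nat_lit 3228995415) (nat_lit 912) (nat_lit 715307409) (nat_lit 418) (nat_lit 5) (nat_lit 429) (nat_lit 5) (nat_lit 430) (nat_lit 5) (nat_lit 652) (nat_lit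 619) (nat_lit 289)))))) (XT.nd (nat_lit 390) (nat_lit 2356) (nat_lit 0) (XT.nd (nat_lit 156) (nat_lit 836) (nat_lit 0) (XT.nd (nat_lit 78) (nat_lit 836) (nat_lit 0) (XT.lf (nat_lit 0) (nat_lit 3695818283) (nat_lit 988) (nat_lit 22466332163) (nat_lit 76) (nat_lit 15010768167) (nat_lit 405) (nat_lit 5) (nat_lit 418) (nat_lit 5) (nat_lit 406) (nat_lit 5) (nat_lit 653) (nat_lit 619) (nat_lit 288)) (XT.lf (nat_lit 0) (nat_lit 210261575) (nat_lit 836) (nat_lit 8023562713) (nat_lit 912) (nat_lit 33394638406) (nat_lit 394) (nat_lit 5) (nat_lit 405) (nat_lit 5) (nat_lit 406) (nat_lit 5) (nat_lit 654) (nat_lit 619) (nat_lit 287))) (XT.nd (nat_lit 78) (nat_lit 836) (nat_lit 0) (XT.lf (nat_lit 0) (nat_lit 13081227780) (nat_lit 912) (nat_lit 18515387290) (nat_lit 76) (nat_lit 10492129869) (nat_lit 394) (nat_lit 5) (nat_lit 406) (nat_lit 5) (nat_lit 395) (nat_lit 5) (nat_lit 655) (nat_lit 619) (nat_lit 286)) (XT.nd (nat_lit 78) (nat_lit 0) (nat_lit 0) (XT.lf (nat_lit 0) (nat_lit 4854860316) (nat_lit 836) (nat_lit 13254247970)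 (nat_lit 912) (nat_lit 24447453996) (nat_lit 383) (nat_lit 5) (nat_lit 394) (nat_lit 5) (nat_lit 395) (nat_lit 5) (nat_lit 656) (nat_lit 619) (nat_lit 285)) (XT.lf (nat_lit 0) (nat_lit 23396920690) (nat_lit 912) (nat_lit 14125170405) (nat_lit 76) (nat_lit 5508457419) (nat_lit 383) (nat_lit 5) (nat_lit 395) (nat_lit 5) (nat_lit 384) (nat_lit 5) (nat_lit 657) (nat_lit 619) (nat_lit 284))))) (XT.nd (nat_lit 156) (nat_lit 1596) (nat_lit 0) (XT.nd (nat_lit 78) (nat_lit 0) (nat_lit 0) (XT.lf (nat_lit 0) (nat_lit 9964653410) (nat_lit 760) (nat_lit 18977217586) (nat_lit 836) (nat_lit 14569115872) (nat_lit 373) (nat_lit 5) (nat_lit 383) (nat_lit 5) (nat_lit 384) (nat_lit 5) (nat_lit 658) (nat_lit 619) (nat_lit 283)) (XT.lf (nat_lit 0) (nat_lit 34691658026) (nat_lit 836) (nat_lit 9272786637) (nat_lit 76) (nat_lit 34710598) (nat_lit 373) (nat_lit 5) (nat_lit 384) (nat_lit 5) (nat_lit 374) (nat_lit 5) (nat_lit 659) (nat_lit 619) (nat_lit 282))) (XT.nd (nat_lit 78) (nat_lit 836) (nat_lit 0) (XT.lf (nat_lit 0) (nat_lit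 15563531796) (nat_lit 760) (nat_lit 25218577467) (nat_lit 836) (nat_lit 3710464421) (nat_lit 363) (nat_lit 5) (nat_lit 373) (nat_lit 5) (nat_lit 374) (nat_lit 5) (nat_lit 660) (nat_lit 619) (nat_lit 281)) (XT.nd (nat_lit 78) (nat_lit 760) (nat_lit 0) (XT.lf (nat_lit 0) (nat_lit 2033884799) (nat_lit 836) (nat_lit 3986879430) (nat_lit 76) (nat_lit 38973605026) (nat_lit 362) (nat_lit 5) (nat_lit 373) (nat_lit 5) (nat_lit 363) (nat_lit 5) (nat_lit 661) (nat_lit 619) (nat_lit 280)) (XT.lf (nat_lit 0) (nat_lit 8072573403) (nat_lit 836) (nat_lit 23878851852) (nat_lit 76) (nat_lit 13549702276) (nat_lit 352) (nat_lit 5) (nat_lit 363) (nat_lit 5) (nat_lit 353) (nat_lit 5) (nat_lit 662) (nat_lit 619) (nat_lit 279))))))) (XT.nd (nat_lit 780) (nat_lit 0) (nat_lit 0) (XT.nd (nat_lit 390) (nat_lit 2052) (nat_lit 0) (XT.nd (nat_lit 156) (nat_lit 1368) (nat_lit 0) (XT.nd (nat_lit 78) (nat_lit 0) (nat_lit 0) (XT.lf (nat_lit 0) (nat_lit 1762094381) (nat_lit 760) (nat_lit 12547168018) (nat_lit 836) (nat_lit 31707214067) (nat_lit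 342) (nat_lit 5) (nat_lit 352) (nat_lit 5) (nat_lit 353) (nat_lit 5) (nat_lit 663) (nat_lit 619) (nat_lit 278)) (XT.lf (nat_lit 0) (nat_lit 20878020410) (nat_lit 836) (nat_lit 18348634646) (nat_lit 76) (nat_lit 7311330644) (nat_lit 342) (nat_lit 5) (nat_lit 353) (nat_lit 5) (nat_lit 343) (nat_lit 5) (nat_lit 664) (nat_lit 619) (nat_lit 277))) (XT.nd (nat_lit 78) (nat_lit 684) (nat_lit 0) (XT.lf (nat_lit 0) (nat_lit 8097203673) (nat_lit 684) (nat_lit 19615629782) (nat_lit 760) (nat_lit 19354398093) (nat_lit 333) (nat_lit 5) (nat_lit 342) (nat_lit 5) (nat_lit 343) (nat_lit 5) (nat_lit 665) (nat_lit 619) (nat_lit 276)) (XT.nd (nat_lit 78) (nat_lit 684) (nat_lit 0) (XT.lf (nat_lit 0) (nat_lit 34809828605) (nat_lit 760) (nat_lit 12288390166) (nat_lit 76) (nat_lit 506333848) (nat_lit 333) (nat_lit 5) (nat_lit 343) (nat_lit 5) (nat_lit 334) (nat_lit 5) (nat_lit 666) (nat_lit 619) (nat_lit 275)) (XT.lf (nat_lit 0) (nat_lit 14992489283) (nat_lit 684) (nat_lit 27282564278) (nat_lit 760) (nat_lit 5873040776) (nat_lit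 324) (nat_lit 5) (nat_lit 333) (nat_lit 5) (nat_lit 334) (nat_lit 5) (nat_lit 667) (nat_lit 619) (nat_lit 274))))) (XT.nd (nat_lit 156) (nat_lit 1292) (nat_lit 0) (XT.nd (nat_lit 78) (nat_lit 684) (nat_lit 0) (XT.lf (nat_lit 0) (nat_lit 1253564239) (nat_lit 760) (nat_lit 5724673057) (nat_lit 76) (nat_lit 41722474333) (nat_lit 323) (nat_lit 5) (nat_lit 333) (nat_lit 5) (nat_lit 324) (nat_lit 5) (nat_lit 668) (nat_lit 619) (nat_lit 273)) (XT.lf (nat_lit 0) (nat_lit 8679735989) (nat_lit 760) (nat_lit 26840973143) (nat_lit 76) (nat_lit 13738182250) (nat_lit 314) (nat_lit 5) (nat_lit 324) (nat_lit 5) (nat_lit 315) (nat_lit 5) (nat_lit 669) (nat_lit 619) (nat_lit 272))) (XT.nd (nat_lit 78) (nat_lit 608) (nat_lit 0) (XT.lf (nat_lit 0) (nat_lit 1343538414) (nat_lit 684) (nat_lit 15003577261) (nat_lit 760) (nat_lit 33479265387) (nat_lit 305) (nat_lit 5) (nat_lit 314) (nat_lit 5) (nat_lit 315) (nat_lit 5) (nat_lit 670) (nat_lit 619) (nat_lit 271)) (XT.nd (nat_lit 78) (nat_lit 608) (nat_lit 0) (XT.lf (nat_lit 0) (nat_lit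 24386702292) (nat_lit 760) (nat_lit 19986814777) (nat_lit 76) (nat_lit 6027326301) (nat_lit 305) (nat_lit 5) (nat_lit 315) (nat_lit 5) (nat_lit 306) (nat_lit 5) (nat_lit 671) (nat_lit 619) (nat_lit 270)) (XT.lf (nat_lit 0) (nat_lit 9097997477) (nat_lit 608) (nat_lit 23646620310) (nat_lit 684) (nat_lit 18239026414) (nat_lit 297) (nat_lit 5) (nat_lit 305) (nat_lit 5) (nat_lit 306) (nat_lit 5) (nat_lit 672) (nat_lit 619) (nat_lit 269)))))) (XT.nd (nat_lit 77376) (nat_lit 0) (nat_lit 14136) (XT.nd (nat_lit 77142) (nat_lit 0) (nat_lit 13984) (XT.nd (nat_lit 77064) (nat_lit 0) (nat_lit 13984) (XT.lf (nat_lit 0) (nat_lit 39034343115) (nat_lit 608) (nat_lit 2368586463) (nat_lit 684) (nat_lit 10172506733) (nat_lit 297) (nat_lit 5) (nat_lit 305) (nat_lit 5) (nat_lit 306) (nat_lit 5) (nat_lit 673) (nat_lit 619) (nat_lit 268)) (XT.lf (nat_lit 0) (nat_lit 2656361195) (nat_lit 1900) (nat_lit 6037409454) (nat_lit 1900) (nat_lit 6037409454) (nat_lit 481) (nat_lit 3) (nat_lit 506) (nat_lit 3) (nat_lit 506) (nat_lit 5) (nat_lit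 620) (nat_lit 620) (nat_lit 320))) (XT.nd (nat_lit 78) (nat_lit 0) (nat_lit 76) (XT.lf (nat_lit 76) (nat_lit 2631644527) (nat_lit 0) (nat_lit 2827449344) (nat_lit 1900) (nat_lit 24296022747) (nat_lit 482) (nat_lit 5) (nat_lit 481) (nat_lit 3) (nat_lit 506) (nat_lit 5) (nat_lit 621) (nat_lit 620) (nat_lit 319)) (XT.nd (nat_lit 78) (nat_lit 0) (nat_lit 0) (XT.lf (nat_lit 0) (nat_lit 5766026519) (nat_lit 1824) (nat_lit 12335875226) (nat_lit 1900) (nat_lit 11948673801) (nat_lit 482) (nat_lit 5) (nat_lit 506) (nat_lit 5) (nat_lit 507) (nat_lit 5) (nat_lit 622) (nat_lit 620) (nat_lit 318)) (XT.lf (nat_lit 76) (nat_lit 2763940651) (nat_lit 0) (nat_lit 3349868470) (nat_lit 1900) (nat_lit 24237440362) (nat_lit 483) (nat_lit 5) (nat_lit 482) (nat_lit 5) (nat_lit 507) (nat_lit 5) (nat_lit 623) (nat_lit 620) (nat_lit 317))))) (XT.nd (nat_lit 234) (nat_lit 0) (nat_lit 76) (XT.nd (nat_lit 78) (nat_lit 0) (nat_lit 0) (XT.lf (nat_lit 0) (nat_lit 6625900236) (nat_lit 1824) (nat_lit 12400901657) (nat_lit 1900) (nat_lit 11627988007)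 (nat_lit 483) (nat_lit 5) (nat_lit 507) (nat_lit 5) (nat_lit 508) (nat_lit 5) (nat_lit 624) (nat_lit 620) (nat_lit 316)) (XT.nd (nat_lit 78) (nat_lit 0) (nat_lit 76) (XT.lf (nat_lit 76) (nat_lit 3106720762) (nat_lit 0) (nat_lit 4081983956) (nat_lit 1900) (nat_lit 23774887035) (nat_lit 484) (nat_lit 5) (nat_lit 483) (nat_lit 5) (nat_lit 508) (nat_lit 5) (nat_lit 625) (nat_lit 620) (nat_lit 315)) (XT.lf (nat_lit 0) (nat_lit 7917153546) (nat_lit 1824) (nat_lit 12258441379) (nat_lit 1900) (nat_lit 11099887007) (nat_lit 484) (nat_lit 5) (nat_lit 508) (nat_lit 5) (nat_lit 509) (nat_lit 5) (nat_lit 626) (nat_lit 620) (nat_lit 314)))) (XT.nd (nat_lit 78) (nat_lit 0) (nat_lit 76) (XT.lf (nat_lit 76) (nat_lit 3671995717) (nat_lit 0) (nat_lit 5037237143) (nat_lit 1900) (nat_lit 22883395880) (nat_lit 485) (nat_lit 5) (nat_lit 484) (nat_lit 5) (nat_lit 509) (nat_lit 5) (nat_lit 627) (nat_lit 620) (nat_lit 313)) (XT.nd (nat_lit 78) (nat_lit 0) (nat_lit 0) (XT.lf (nat_lit 0) (nat_lit 9665728640) (nat_lit 1824) (nat_lit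 11896479169) (nat_lit 1900) (nat_lit 10350939232) (nat_lit 485) (nat_lit 5) (nat_lit 509) (nat_lit 5) (nat_lit 510) (nat_lit 5) (nat_lit 628) (nat_lit 620) (nat_lit 312)) (XT.lf (nat_lit 76) (nat_lit 4472356155) (nat_lit 0) (nat_lit 6229650331) (nat_lit 1900) (nat_lit 21536856231) (nat_lit 486) (nat_lit 5) (nat_lit 485) (nat_lit 5) (nat_lit 510) (nat_lit 5) (nat_lit 629) (nat_lit 620) (nat_lit 311))))))))
noncomputable def xc230 : XT := (XT.nd (nat_lit 1560) (nat_lit 9652) (nat_lit 0) (XT.nd (nat_lit 780) (nat_lit 3420) (nat_lit 0) (XT.nd (nat_lit 390) (nat_lit 0) (nat_lit 152) (XT.nd (nat_lit 156) (nat_lit 0) (nat_lit 76) (XT.nd (nat_lit 78) (nat_lit 0) (nat_lit 0) (XT.lf (nat_lit 0) (nat_lit 11898749959) (nat_lit 1824) (nat_lit 11302419179) (nat_lit 1900) (nat_lit 9367128818) (nat_lit 486) (nat_lit 5) (nat_lit 510) (nat_lit 5) (nat_lit 511) (nat_lit 5) (nat_lit 630) (nat_lit 620) (nat_lit 310)) (XT.lf (nat_lit 76) (nat_lit 5520995565) (nat_lit 0) (nat_lit 7673854912) (nat_lit 1900) (nat_lit 19707963030)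 (nat_lit 487) (nat_lit 5) (nat_lit 486) (nat_lit 5) (nat_lit 511) (nat_lit 5) (nat_lit 631) (nat_lit 620) (nat_lit 309))) (XT.nd (nat_lit 78) (nat_lit 0) (nat_lit 0) (XT.lf (nat_lit 0) (nat_lit 14644576253) (nat_lit 1824) (nat_lit 10463061734) (nat_lit 1900) (nat_lit 8133827367) (nat_lit 487) (nat_lit 5) (nat_lit 511) (nat_lit 5) (nat_lit 512) (nat_lit 5) (nat_lit 632) (nat_lit 620) (nat_lit 308)) (XT.nd (nat_lit 78) (nat_lit 0) (nat_lit 76) (XT.lf (nat_lit 76) (nat_lit 6831734367) (nat_lit 0) (nat_lit 9385120559) (nat_lit 1900) (nat_lit 17368164194) (nat_lit 488) (nat_lit 5) (nat_lit 487) (nat_lit 5) (nat_lit 512) (nat_lit 5) (nat_lit 633) (nat_lit 620) (nat_lit 307)) (XT.lf (nat_lit 0) (nat_lit 17932854707) (nat_lit 1824) (nat_lit 9364579118) (nat_lit 1900) (nat_lit 6635764672) (nat_lit 488) (nat_lit 5) (nat_lit 512) (nat_lit 5) (nat_lit 513) (nat_lit 5) (nat_lit 634) (nat_lit 620) (nat_lit 306))))) (XT.nd (nat_lit 156) (nat_lit 0) (nat_lit 76) (XT.nd (nat_lit 78) (nat_lit 0) (nat_lit 76) (XT.lf (nat_lit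 76) (nat_lit 8419045030) (nat_lit 0) (nat_lit 11379385472) (nat_lit 1900) (nat_lit 14487605886) (nat_lit 489) (nat_lit 5) (nat_lit 488) (nat_lit 5) (nat_lit 513) (nat_lit 5) (nat_lit 635) (nat_lit 620) (nat_lit 305)) (XT.lf (nat_lit 0) (nat_lit 21794577231) (nat_lit 1824) (nat_lit 7992490318) (nat_lit 1900) (nat_lit 4856998345) (nat_lit 489) (nat_lit 5) (nat_lit 513) (nat_lit 5) (nat_lit 514) (nat_lit 5) (nat_lit 636) (nat_lit 620) (nat_lit 304))) (XT.nd (nat_lit 78) (nat_lit 0) (nat_lit 76) (XT.lf (nat_lit 76) (nat_lit 10298078274) (nat_lit 0) (nat_lit 13673287777) (nat_lit 1900) (nat_lit 11035075601) (nat_lit 490) (nat_lit 5) (nat_lit 489) (nat_lit 5) (nat_lit 514) (nat_lit 5) (nat_lit 637) (nat_lit 620) (nat_lit 303)) (XT.nd (nat_lit 78) (nat_lit 0) (nat_lit 0) (XT.lf (nat_lit 0) (nat_lit 26262139002) (nat_lit 1824) (nat_lit 6331634694) (nat_lit 1900) (nat_lit 2780882307) (nat_lit 490) (nat_lit 5) (nat_lit 514) (nat_lit 5) (nat_lit 515) (nat_lit 5) (nat_lit 638) (nat_lit 620) (nat_lit 302)) (XT.lf (nat_lit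 76) (nat_lit 12484690378) (nat_lit 0) (nat_lit 16284198111) (nat_lit 1900) (nat_lit 6977942973) (nat_lit 491) (nat_lit 5) (nat_lit 490) (nat_lit 5) (nat_lit 515) (nat_lit 5) (nat_lit 639) (nat_lit 620) (nat_lit 301)))))) (XT.nd (nat_lit 390) (nat_lit 1900) (nat_lit 0) (XT.nd (nat_lit 156) (nat_lit 1900) (nat_lit 0) (XT.nd (nat_lit 78) (nat_lit 0) (nat_lit 0) (XT.lf (nat_lit 0) (nat_lit 31369399355) (nat_lit 1824) (nat_lit 4366144518) (nat_lit 1900) (nat_lit 390034071) (nat_lit 491) (nat_lit 5) (nat_lit 515) (nat_lit 5) (nat_lit 516) (nat_lit 5) (nat_lit 640) (nat_lit 620) (nat_lit 300)) (XT.lf (nat_lit 76) (nat_lit 14995471654) (nat_lit 0) (nat_lit 19230253455) (nat_lit 1900) (nat_lit 2282098197) (nat_lit 492) (nat_lit 5) (nat_lit 491) (nat_lit 5) (nat_lit 516) (nat_lit 5) (nat_lit 641) (nat_lit 620) (nat_lit 299))) (XT.nd (nat_lit 78) (nat_lit 0) (nat_lit 76) (XT.lf (nat_lit 0) (nat_lit 266402860) (nat_lit 1900) (nat_lit 2096522307) (nat_lit 1976) (nat_lit 34534194974) (nat_lit 466) (nat_lit 5) (nat_lit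 491) (nat_lit 5) (nat_lit 492) (nat_lit 5) (nat_lit 642) (nat_lit 620) (nat_lit 298)) (XT.nd (nat_lit 78) (nat_lit 0) (nat_lit 0) (XT.lf (nat_lit 0) (nat_lit 3047610867) (nat_lit 1900) (nat_lit 19462330336) (nat_lit 1976) (nat_lit 14779714170) (nat_lit 467) (nat_lit 5) (nat_lit 492) (nat_lit 5) (nat_lit 493) (nat_lit 5) (nat_lit 643) (nat_lit 620) (nat_lit 297)) (XT.lf (nat_lit 76) (nat_lit 477695635) (nat_lit 0) (nat_lit 5438320292) (nat_lit 1976) (nat_lit 31773393964) (nat_lit 468) (nat_lit 5) (nat_lit 467) (nat_lit 5) (nat_lit 493) (nat_lit 5) (nat_lit 644) (nat_lit 620) (nat_lit 296))))) (XT.nd (nat_lit 156) (nat_lit 912) (nat_lit 0) (XT.nd (nat_lit 78) (nat_lit 1140) (nat_lit 0) (XT.lf (nat_lit 0) (nat_lit 9049685494) (nat_lit 1900) (nat_lit 17093977405) (nat_lit 76) (nat_lit 11949338710) (nat_lit 468) (nat_lit 5) (nat_lit 493) (nat_lit 5) (nat_lit 469) (nat_lit 5) (nat_lit 645) (nat_lit 620) (nat_lit 295)) (XT.lf (nat_lit 0) (nat_lit 3434002790) (nat_lit 1140) (nat_lit 8869043811) (nat_lit 1216) (nat_lit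 26200478234) (nat_lit 453) (nat_lit 5) (nat_lit 468) (nat_lit 5) (nat_lit 469) (nat_lit 5) (nat_lit 646) (nat_lit 620) (nat_lit 294))) (XT.nd (nat_lit 78) (nat_lit 912) (nat_lit 0) (XT.lf (nat_lit 0) (nat_lit 15792487887) (nat_lit 1216) (nat_lit 14374438420) (nat_lit 76) (nat_lit 8751911996) (nat_lit 453) (nat_lit 5) (nat_lit 469) (nat_lit 5) (nat_lit 454) (nat_lit 5) (nat_lit 647) (nat_lit 620) (nat_lit 293)) (XT.nd (nat_lit 78) (nat_lit 0) (nat_lit 0) (XT.lf (nat_lit 0) (nat_lit 6763384456) (nat_lit 912) (nat_lit 12689732258) (nat_lit 988) (nat_lit 19887313387) (nat_lit 441) (nat_lit 5) (nat_lit 453) (nat_lit 5) (nat_lit 454) (nat_lit 5) (nat_lit 648) (nat_lit 620) (nat_lit 292)) (XT.lf (nat_lit 0) (nat_lit 23316178683) (nat_lit 988) (nat_lit 11284851086) (nat_lit 76) (nat_lit 5166839588) (nat_lit 441) (nat_lit 5) (nat_lit 454) (nat_lit 5) (nat_lit 442) (nat_lit 5) (nat_lit 649) (nat_lit 620) (nat_lit 291))))))) (XT.nd (nat_lit 780) (nat_lit 4484) (nat_lit 0) (XT.nd (nat_lit 390) (nat_lit 2432) (nat_lit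 0) (XT.nd (nat_lit 156) (nat_lit 1824) (nat_lit 0) (XT.nd (nat_lit 78) (nat_lit 0) (nat_lit 0) (XT.lf (nat_lit 0) (nat_lit 10485543720) (nat_lit 912) (nat_lit 16921868238) (nat_lit 988) (nat_lit 12793427275) (nat_lit 429) (nat_lit 5) (nat_lit 441) (nat_lit 5) (nat_lit 442) (nat_lit 5) (nat_lit 650) (nat_lit 620) (nat_lit 290)) (XT.lf (nat_lit 0) (nat_lit 31662721122) (nat_lit 988) (nat_lit 7805494847) (nat_lit 76) (nat_lit 1172607545) (nat_lit 429) (nat_lit 5) (nat_lit 442) (nat_lit 5) (nat_lit 430) (nat_lit 5) (nat_lit 651) (nat_lit 620) (nat_lit 289))) (XT.nd (nat_lit 78) (nat_lit 988) (nat_lit 0) (XT.lf (nat_lit 0) (nat_lit 14621074516) (nat_lit 836) (nat_lit 21587890233) (nat_lit 912) (nat_lit 4876526199) (nat_lit 418) (nat_lit 5) (nat_lit 429) (nat_lit 5) (nat_lit 430) (nat_lit 5) (nat_lit 652) (nat_lit 620) (nat_lit 288)) (XT.nd (nat_lit 78) (nat_lit 988) (nat_lit 0) (XT.lf (nat_lit 0) (nat_lit 37600868189) (nat_lit 836) (nat_lit 3296492909) (nat_lit 912) (nat_lit 640666109) (nat_lit 418) (nat_lit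 5) (nat_lit 429) (nat_lit 5) (nat_lit 430) (nat_lit 5) (nat_lit 653) (nat_lit 620) (nat_lit 287)) (XT.lf (nat_lit 0) (nat_lit 3856334333) (nat_lit 988) (nat_lit 22829022912) (nat_lit 76) (nat_lit 15309285411) (nat_lit 405) (nat_lit 5) (nat_lit 418) (nat_lit 5) (nat_lit 406) (nat_lit 5) (nat_lit 654) (nat_lit 620) (nat_lit 286))))) (XT.nd (nat_lit 156) (nat_lit 1596) (nat_lit 0) (XT.nd (nat_lit 78) (nat_lit 0) (nat_lit 0) (XT.lf (nat_lit 0) (nat_lit 300532728) (nat_lit 836) (nat_lit 8183428494) (nat_lit 912) (nat_lit 33975359227) (nat_lit 394) (nat_lit 5) (nat_lit 405) (nat_lit 5) (nat_lit 406) (nat_lit 5) (nat_lit 655) (nat_lit 620) (nat_lit 285)) (XT.lf (nat_lit 0) (nat_lit 13426640943) (nat_lit 912) (nat_lit 18799642595) (nat_lit 76) (nat_lit 10702558283) (nat_lit 394) (nat_lit 5) (nat_lit 406) (nat_lit 5) (nat_lit 395) (nat_lit 5) (nat_lit 656) (nat_lit 620) (nat_lit 284))) (XT.nd (nat_lit 78) (nat_lit 760) (nat_lit 0) (XT.lf (nat_lit 0) (nat_lit 5037443829) (nat_lit 836) (nat_lit 13516547350) (nat_lit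 912) (nat_lit 24852046133) (nat_lit 383) (nat_lit 5) (nat_lit 394) (nat_lit 5) (nat_lit 395) (nat_lit 5) (nat_lit 657) (nat_lit 620) (nat_lit 283)) (XT.nd (nat_lit 78) (nat_lit 760) (nat_lit 0) (XT.lf (nat_lit 0) (nat_lit 23945955980) (nat_lit 912) (nat_lit 14322257700) (nat_lit 76) (nat_lit 5621321709) (nat_lit 383) (nat_lit 5) (nat_lit 395) (nat_lit 5) (nat_lit 384) (nat_lit 5) (nat_lit 658) (nat_lit 620) (nat_lit 282)) (XT.lf (nat_lit 0) (nat_lit 10248800644) (nat_lit 760) (nat_lit 19351965442) (nat_lit 836) (nat_lit 14778837250) (nat_lit 373) (nat_lit 5) (nat_lit 383) (nat_lit 5) (nat_lit 384) (nat_lit 5) (nat_lit 659) (nat_lit 620) (nat_lit 281)))))) (XT.nd (nat_lit 390) (nat_lit 2128) (nat_lit 0) (XT.nd (nat_lit 156) (nat_lit 1596) (nat_lit 0) (XT.nd (nat_lit 78) (nat_lit 760) (nat_lit 0) (XT.lf (nat_lit 0) (nat_lit 35464009630) (nat_lit 836) (nat_lit 9373510711) (nat_lit 76) (nat_lit 40045583) (nat_lit 373) (nat_lit 5) (nat_lit 384) (nat_lit 5) (nat_lit 374) (nat_lit 5) (nat_lit 660) (nat_lit 620)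 (nat_lit 280)) (XT.lf (nat_lit 0) (nat_lit 15958976646) (nat_lit 760) (nat_lit 25716300183) (nat_lit 836) (nat_lit 3705595787) (nat_lit 363) (nat_lit 5) (nat_lit 373) (nat_lit 5) (nat_lit 374) (nat_lit 5) (nat_lit 661) (nat_lit 620) (nat_lit 279))) (XT.nd (nat_lit 78) (nat_lit 1520) (nat_lit 0) (XT.lf (nat_lit 0) (nat_lit 2151073084) (nat_lit 836) (nat_lit 3983074539) (nat_lit 76) (nat_lit 39758576851) (nat_lit 362) (nat_lit 5) (nat_lit 373) (nat_lit 5) (nat_lit 363) (nat_lit 5) (nat_lit 662) (nat_lit 620) (nat_lit 278)) (XT.nd (nat_lit 78) (nat_lit 760) (nat_lit 0) (XT.lf (nat_lit 0) (nat_lit 8309622426) (nat_lit 836) (nat_lit 24271971461) (nat_lit 76) (nat_lit 13828042328) (nat_lit 352) (nat_lit 5) (nat_lit 363) (nat_lit 5) (nat_lit 353) (nat_lit 5) (nat_lit 663) (nat_lit 620) (nat_lit 277)) (XT.lf (nat_lit 0) (nat_lit 1881238057) (nat_lit 760) (nat_lit 12788869587) (nat_lit 836) (nat_lit 32265203274) (nat_lit 342) (nat_lit 5) (nat_lit 352) (nat_lit 5) (nat_lit 353) (nat_lit 5) (nat_lit 664) (nat_lit 620)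 (nat_lit 276))))) (XT.nd (nat_lit 234) (nat_lit 1444) (nat_lit 0) (XT.nd (nat_lit 78) (nat_lit 684) (nat_lit 0) (XT.lf (nat_lit 0) (nat_lit 21368835720) (nat_lit 836) (nat_lit 18631943749) (nat_lit 76) (nat_lit 7466499006) (nat_lit 342) (nat_lit 5) (nat_lit 353) (nat_lit 5) (nat_lit 343) (nat_lit 5) (nat_lit 665) (nat_lit 620) (nat_lit 275)) (XT.nd (nat_lit 78) (nat_lit 0) (nat_lit 0) (XT.lf (nat_lit 0) (nat_lit 8342260919) (nat_lit 684) (nat_lit 19997187362) (nat_lit 760) (nat_lit 19667678929) (nat_lit 333) (nat_lit 5) (nat_lit 342) (nat_lit 5) (nat_lit 343) (nat_lit 5) (nat_lit 666) (nat_lit 620) (nat_lit 274)) (XT.lf (nat_lit 0) (nat_lit 35577033006) (nat_lit 760) (nat_lit 12451322369) (nat_lit 76) (nat_lit 526866369) (nat_lit 333) (nat_lit 5) (nat_lit 343) (nat_lit 5) (nat_lit 334) (nat_lit 5) (nat_lit 667) (nat_lit 620) (nat_lit 273)))) (XT.nd (nat_lit 78) (nat_lit 760) (nat_lit 0) (XT.lf (nat_lit 0) (nat_lit 15374629698) (nat_lit 684) (nat_lit 27816074738) (nat_lit 760) (nat_lit 5918947055) (nat_lit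 324) (nat_lit 5) (nat_lit 333) (nat_lit 5) (nat_lit 334) (nat_lit 5) (nat_lit 668) (nat_lit 620) (nat_lit 272)) (XT.nd (nat_lit 78) (nat_lit 684) (nat_lit 0) (XT.lf (nat_lit 0) (nat_lit 1347866980) (nat_lit 760) (nat_lit 5757567713) (nat_lit 76) (nat_lit 42567904872) (nat_lit 323) (nat_lit 5) (nat_lit 333) (nat_lit 5) (nat_lit 324) (nat_lit 5) (nat_lit 669) (nat_lit 620) (nat_lit 271)) (XT.lf (nat_lit 0) (nat_lit 8921813201) (nat_lit 760) (nat_lit 27295443202) (nat_lit 76) (nat_lit 14025441521) (nat_lit 314) (nat_lit 5) (nat_lit 324) (nat_lit 5) (nat_lit 315) (nat_lit 5) (nat_lit 670) (nat_lit 620) (nat_lit 270))))))))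
noncomputable def xc231 : XT := (XT.nd (nat_lit 78624) (nat_lit 0) (nat_lit 6536) (XT.nd (nat_lit 77844) (nat_lit 0) (nat_lit 14212) (XT.nd (nat_lit 77454) (nat_lit 0) (nat_lit 14060) (XT.nd (nat_lit 156) (nat_lit 608) (nat_lit 0) (XT.nd (nat_lit 78) (nat_lit 0) (nat_lit 0) (XT.lf (nat_lit 0) (nat_lit 1452216814) (nat_lit 684) (nat_lit 15289512023) (nat_lit 760) (nat_lit 34079824826) (nat_lit 305) (nat_lit 5) (nat_lit 314) (nat_lit 5) (nat_lit 315) (nat_lit 5) (nat_lit 671) (nat_lit 620) (nat_lit 269)) (XT.lf (nat_lit 0) (nat_lit 24940870292) (nat_lit 760) (nat_lit 20305109046) (nat_lit 76) (nat_lit 6161550647) (nat_lit 305) (nat_lit 5) (nat_lit 315) (nat_lit 5) (nat_lit 306) (nat_lit 5) (nat_lit 672) (nat_lit 620) (nat_lit 268))) (XT.nd (nat_lit 77142) (nat_lit 0) (nat_lit 13984) (XT.lf (nat_lit 0) (nat_lit 9360863649) (nat_lit 608) (nat_lit 24104303118) (nat_lit 684) (nat_lit 18536835645) (nat_lit 297) (nat_lit 5) (nat_lit 305) (nat_lit 5) (nat_lit 306) (nat_lit 5) (nat_lit 673) (nat_lit 620) (nat_lit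 267)) (XT.nd (nat_lit 78) (nat_lit 0) (nat_lit 0) (XT.lf (nat_lit 0) (nat_lit 2785151828) (nat_lit 1900) (nat_lit 6119568160) (nat_lit 1900) (nat_lit 6119568160) (nat_lit 481) (nat_lit 3) (nat_lit 506) (nat_lit 3) (nat_lit 506) (nat_lit 5) (nat_lit 621) (nat_lit 621) (nat_lit 318)) (XT.lf (nat_lit 76) (nat_lit 2760948629) (nat_lit 0) (nat_lit 2956184547) (nat_lit 1900) (nat_lit 24630104138) (nat_lit 482) (nat_lit 5) (nat_lit 481) (nat_lit 3) (nat_lit 506) (nat_lit 5) (nat_lit 622) (nat_lit 621) (nat_lit 317))))) (XT.nd (nat_lit 156) (nat_lit 0) (nat_lit 76) (XT.nd (nat_lit 78) (nat_lit 0) (nat_lit 0) (XT.lf (nat_lit 0) (nat_lit 6026826212) (nat_lit 1824) (nat_lit 12504042211) (nat_lit 1900) (nat_lit 12117804649) (nat_lit 482) (nat_lit 5) (nat_lit 506) (nat_lit 5) (nat_lit 507) (nat_lit 5) (nat_lit 623) (nat_lit 621) (nat_lit 316)) (XT.lf (nat_lit 76) (nat_lit 2897253203) (nat_lit 0) (nat_lit 3481965377) (nat_lit 1900) (nat_lit 24576188912) (nat_lit 483) (nat_lit 5) (nat_lit 482) (nat_lit 5) (nat_lit 507)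 (nat_lit 5) (nat_lit 624) (nat_lit 621) (nat_lit 315))) (XT.nd (nat_lit 78) (nat_lit 0) (nat_lit 0) (XT.lf (nat_lit 0) (nat_lit 6898330601) (nat_lit 1824) (nat_lit 12569190877) (nat_lit 1900) (nat_lit 11797561743) (nat_lit 483) (nat_lit 5) (nat_lit 507) (nat_lit 5) (nat_lit 508) (nat_lit 5) (nat_lit 625) (nat_lit 621) (nat_lit 314)) (XT.nd (nat_lit 78) (nat_lit 0) (nat_lit 76) (XT.lf (nat_lit 76) (nat_lit 3248059459) (nat_lit 0) (nat_lit 4222102580) (nat_lit 1900) (nat_lit 24109943737) (nat_lit 484) (nat_lit 5) (nat_lit 483) (nat_lit 5) (nat_lit 508) (nat_lit 5) (nat_lit 626) (nat_lit 621) (nat_lit 313)) (XT.lf (nat_lit 0) (nat_lit 8210107934) (nat_lit 1824) (nat_lit 12422882973) (nat_lit 1900) (nat_lit 11265304371) (nat_lit 484) (nat_lit 5) (nat_lit 508) (nat_lit 5) (nat_lit 509) (nat_lit 5) (nat_lit 627) (nat_lit 621) (nat_lit 312)))))) (XT.nd (nat_lit 390) (nat_lit 0) (nat_lit 228) (XT.nd (nat_lit 156) (nat_lit 0) (nat_lit 76) (XT.nd (nat_lit 78) (nat_lit 0) (nat_lit 76) (XT.lf (nat_lit 76) (nat_lit 3825631765)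 (nat_lit 0) (nat_lit 5190278318) (nat_lit 1900) (nat_lit 23205917394) (nat_lit 485) (nat_lit 5) (nat_lit 484) (nat_lit 5) (nat_lit 509) (nat_lit 5) (nat_lit 628) (nat_lit 621) (nat_lit 311)) (XT.lf (nat_lit 0) (nat_lit 9988604999) (nat_lit 1824) (nat_lit 12052850405) (nat_lit 1900) (nat_lit 10507359433) (nat_lit 485) (nat_lit 5) (nat_lit 509) (nat_lit 5) (nat_lit 510) (nat_lit 5) (nat_lit 629) (nat_lit 621) (nat_lit 310))) (XT.nd (nat_lit 78) (nat_lit 0) (nat_lit 76) (XT.lf (nat_lit 76) (nat_lit 4642825058) (nat_lit 0) (nat_lit 6400768964) (nat_lit 1900) (nat_lit 21837491169) (nat_lit 486) (nat_lit 5) (nat_lit 485) (nat_lit 5) (nat_lit 510) (nat_lit 5) (nat_lit 630) (nat_lit 621) (nat_lit 309)) (XT.nd (nat_lit 78) (nat_lit 0) (nat_lit 0) (XT.lf (nat_lit 0) (nat_lit 12261475283) (nat_lit 1824) (nat_lit 11446233607) (nat_lit 1900) (nat_lit 9509456262) (nat_lit 486) (nat_lit 5) (nat_lit 510) (nat_lit 5) (nat_lit 511) (nat_lit 5) (nat_lit 631) (nat_lit 621) (nat_lit 308)) (XT.lf (nat_lit 76) (nat_lit 5713108419)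 (nat_lit 0) (nat_lit 7868473712) (nat_lit 1900) (nat_lit 19976827270) (nat_lit 487) (nat_lit 5) (nat_lit 486) (nat_lit 5) (nat_lit 511) (nat_lit 5) (nat_lit 632) (nat_lit 621) (nat_lit 307))))) (XT.nd (nat_lit 156) (nat_lit 0) (nat_lit 76) (XT.nd (nat_lit 78) (nat_lit 0) (nat_lit 0) (XT.lf (nat_lit 0) (nat_lit 15057632019) (nat_lit 1824) (nat_lit 10589557833) (nat_lit 1900) (nat_lit 8256697914) (nat_lit 487) (nat_lit 5) (nat_lit 511) (nat_lit 5) (nat_lit 512) (nat_lit 5) (nat_lit 633) (nat_lit 621) (nat_lit 306)) (XT.lf (nat_lit 76) (nat_lit 7050589682) (nat_lit 0) (nat_lit 9608944252) (nat_lit 1900) (nat_lit 17594815189) (nat_lit 488) (nat_lit 5) (nat_lit 487) (nat_lit 5) (nat_lit 512) (nat_lit 5) (nat_lit 634) (nat_lit 621) (nat_lit 305))) (XT.nd (nat_lit 78) (nat_lit 0) (nat_lit 0) (XT.lf (nat_lit 0) (nat_lit 18407303357) (nat_lit 1824) (nat_lit 9468708416) (nat_lit 1900) (nat_lit 6733531392) (nat_lit 488) (nat_lit 5) (nat_lit 512) (nat_lit 5) (nat_lit 513) (nat_lit 5) (nat_lit 635) (nat_lit 621) (nat_lit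 304)) (XT.nd (nat_lit 78) (nat_lit 0) (nat_lit 76) (XT.lf (nat_lit 76) (nat_lit 8670041095) (nat_lit 0) (nat_lit 11638415543) (nat_lit 1900) (nat_lit 14661015925) (nat_lit 489) (nat_lit 5) (nat_lit 488) (nat_lit 5) (nat_lit 513) (nat_lit 5) (nat_lit 636) (nat_lit 621) (nat_lit 303)) (XT.lf (nat_lit 0) (nat_lit 22342089737) (nat_lit 1824) (nat_lit 8068904966) (nat_lit 1900) (nat_lit 4923716753) (nat_lit 489) (nat_lit 5) (nat_lit 513) (nat_lit 5) (nat_lit 514) (nat_lit 5) (nat_lit 637) (nat_lit 621) (nat_lit 302))))))) (XT.nd (nat_lit 780) (nat_lit 5320) (nat_lit 0) (XT.nd (nat_lit 390) (nat_lit 2736) (nat_lit 0) (XT.nd (nat_lit 156) (nat_lit 0) (nat_lit 76) (XT.nd (nat_lit 78) (nat_lit 0) (nat_lit 76) (XT.lf (nat_lit 76) (nat_lit 10586926082) (nat_lit 0) (nat_lit 13973837757) (nat_lit 1900) (nat_lit 11143603966) (nat_lit 490) (nat_lit 5) (nat_lit 489) (nat_lit 5) (nat_lit 514) (nat_lit 5) (nat_lit 638) (nat_lit 621) (nat_lit 301)) (XT.lf (nat_lit 0) (nat_lit 26895023565) (nat_lit 1824) (nat_lit 6374674475)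 (nat_lit 1900) (nat_lit 2810295042) (nat_lit 490) (nat_lit 5) (nat_lit 514) (nat_lit 5) (nat_lit 515) (nat_lit 5) (nat_lit 639) (nat_lit 621) (nat_lit 300))) (XT.nd (nat_lit 78) (nat_lit 0) (nat_lit 76) (XT.lf (nat_lit 76) (nat_lit 12817427145) (nat_lit 0) (nat_lit 16632909444) (nat_lit 1900) (nat_lit 7009306952) (nat_lit 491) (nat_lit 5) (nat_lit 490) (nat_lit 5) (nat_lit 515) (nat_lit 5) (nat_lit 640) (nat_lit 621) (nat_lit 299)) (XT.nd (nat_lit 78) (nat_lit 0) (nat_lit 0) (XT.lf (nat_lit 0) (nat_lit 32100631284) (nat_lit 1824) (nat_lit 4369823272) (nat_lit 1900) (nat_lit 375554986) (nat_lit 491) (nat_lit 5) (nat_lit 515) (nat_lit 5) (nat_lit 516) (nat_lit 5) (nat_lit 641) (nat_lit 621) (nat_lit 298)) (XT.lf (nat_lit 76) (nat_lit 15378474933) (nat_lit 0) (nat_lit 19634111965) (nat_lit 1900) (nat_lit 2223342907) (nat_lit 492) (nat_lit 5) (nat_lit 491) (nat_lit 5) (nat_lit 516) (nat_lit 5) (nat_lit 642) (nat_lit 621) (nat_lit 297))))) (XT.nd (nat_lit 156) (nat_lit 988) (nat_lit 0) (XT.nd (nat_lit 78) (nat_lit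 0) (nat_lit 76) (XT.lf (nat_lit 0) (nat_lit 372738825) (nat_lit 1900) (nat_lit 2055642952) (nat_lit 1976) (nat_lit 35204657705) (nat_lit 466) (nat_lit 5) (nat_lit 491) (nat_lit 5) (nat_lit 492) (nat_lit 5) (nat_lit 643) (nat_lit 621) (nat_lit 296)) (XT.lf (nat_lit 0) (nat_lit 3208012263) (nat_lit 1900) (nat_lit 19767205566) (nat_lit 1976) (nat_lit 15058238821) (nat_lit 467) (nat_lit 5) (nat_lit 492) (nat_lit 5) (nat_lit 493) (nat_lit 5) (nat_lit 644) (nat_lit 621) (nat_lit 295))) (XT.nd (nat_lit 78) (nat_lit 1064) (nat_lit 0) (XT.lf (nat_lit 76) (nat_lit 571065849) (nat_lit 0) (nat_lit 5561313782) (nat_lit 1976) (nat_lit 32308854799) (nat_lit 468) (nat_lit 5) (nat_lit 467) (nat_lit 5) (nat_lit 493) (nat_lit 5) (nat_lit 645) (nat_lit 621) (nat_lit 294)) (XT.nd (nat_lit 78) (nat_lit 1140) (nat_lit 0) (XT.lf (nat_lit 0) (nat_lit 9326709610) (nat_lit 1900) (nat_lit 17351668392) (nat_lit 76) (nat_lit 12174560295) (nat_lit 468) (nat_lit 5) (nat_lit 493) (nat_lit 5) (nat_lit 469) (nat_lit 5) (nat_lit 646) (nat_lit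 621) (nat_lit 293)) (XT.lf (nat_lit 0) (nat_lit 3586317535) (nat_lit 1140) (nat_lit 9057480467) (nat_lit 1216) (nat_lit 26627900837) (nat_lit 453) (nat_lit 5) (nat_lit 468) (nat_lit 5) (nat_lit 469) (nat_lit 5) (nat_lit 647) (nat_lit 621) (nat_lit 292)))))) (XT.nd (nat_lit 390) (nat_lit 3496) (nat_lit 0) (XT.nd (nat_lit 156) (nat_lit 912) (nat_lit 0) (XT.nd (nat_lit 78) (nat_lit 912) (nat_lit 0) (XT.lf (nat_lit 0) (nat_lit 16201101063) (nat_lit 1216) (nat_lit 14578002715) (nat_lit 76) (nat_lit 8916253392) (nat_lit 453) (nat_lit 5) (nat_lit 469) (nat_lit 5) (nat_lit 454) (nat_lit 5) (nat_lit 648) (nat_lit 621) (nat_lit 291)) (XT.lf (nat_lit 0) (nat_lit 6982024484) (nat_lit 912) (nat_lit 12951640401) (nat_lit 988) (nat_lit 20191741522) (nat_lit 441) (nat_lit 5) (nat_lit 453) (nat_lit 5) (nat_lit 454) (nat_lit 5) (nat_lit 649) (nat_lit 621) (nat_lit 290))) (XT.nd (nat_lit 78) (nat_lit 912) (nat_lit 0) (XT.lf (nat_lit 0) (nat_lit 23872142608) (nat_lit 988) (nat_lit 11426962508) (nat_lit 76) (nat_lit 5262326294)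 (nat_lit 441) (nat_lit 5) (nat_lit 454) (nat_lit 5) (nat_lit 442) (nat_lit 5) (nat_lit 650) (nat_lit 621) (nat_lit 289)) (XT.nd (nat_lit 78) (nat_lit 0) (nat_lit 0) (XT.lf (nat_lit 0) (nat_lit 10778290290) (nat_lit 912) (nat_lit 17265691728) (nat_lit 988) (nat_lit 12959103085) (nat_lit 429) (nat_lit 5) (nat_lit 441) (nat_lit 5) (nat_lit 442) (nat_lit 5) (nat_lit 651) (nat_lit 621) (nat_lit 288)) (XT.lf (nat_lit 0) (nat_lit 32382629320) (nat_lit 988) (nat_lit 7878426724) (nat_lit 76) (nat_lit 1190848436) (nat_lit 429) (nat_lit 5) (nat_lit 442) (nat_lit 5) (nat_lit 430) (nat_lit 5) (nat_lit 652) (nat_lit 621) (nat_lit 287))))) (XT.nd (nat_lit 234) (nat_lit 1672) (nat_lit 0) (XT.nd (nat_lit 78) (nat_lit 988) (nat_lit 0) (XT.lf (nat_lit 0) (nat_lit 14996126803) (nat_lit 836) (nat_lit 22022508417) (nat_lit 912) (nat_lit 4886853342) (nat_lit 418) (nat_lit 5) (nat_lit 429) (nat_lit 5) (nat_lit 430) (nat_lit 5) (nat_lit 653) (nat_lit 621) (nat_lit 286)) (XT.nd (nat_lit 78) (nat_lit 988) (nat_lit 0) (XT.lf (nat_lit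 0) (nat_lit 38433896138) (nat_lit 836) (nat_lit 3365227060) (nat_lit 912) (nat_lit 567985920) (nat_lit 418) (nat_lit 5) (nat_lit 429) (nat_lit 5) (nat_lit 430) (nat_lit 5) (nat_lit 654) (nat_lit 621) (nat_lit 285)) (XT.lf (nat_lit 0) (nat_lit 4016697933) (nat_lit 988) (nat_lit 23202331653) (nat_lit 76) (nat_lit 15613838940) (nat_lit 405) (nat_lit 5) (nat_lit 418) (nat_lit 5) (nat_lit 406) (nat_lit 5) (nat_lit 655) (nat_lit 621) (nat_lit 284)))) (XT.nd (nat_lit 78) (nat_lit 836) (nat_lit 0) (XT.lf (nat_lit 0) (nat_lit 389267259) (nat_lit 836) (nat_lit 8346515102) (nat_lit 912) (nat_lit 34571079457) (nat_lit 394) (nat_lit 5) (nat_lit 405) (nat_lit 5) (nat_lit 406) (nat_lit 5) (nat_lit 656) (nat_lit 621) (nat_lit 283)) (XT.nd (nat_lit 78) (nat_lit 836) (nat_lit 0) (XT.lf (nat_lit 0) (nat_lit 13775708756) (nat_lit 912) (nat_lit 19092924528) (nat_lit 76) (nat_lit 10917172516) (nat_lit 394) (nat_lit 5) (nat_lit 406) (nat_lit 5) (nat_lit 395) (nat_lit 5) (nat_lit 657) (nat_lit 621) (nat_lit 282)) (XT.lf (nat_lit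 0) (nat_lit 5220359474) (nat_lit 836) (nat_lit 13784200886) (nat_lit 912) (nat_lit 25268005795) (nat_lit 383) (nat_lit 5) (nat_lit 394) (nat_lit 5) (nat_lit 395) (nat_lit 5) (nat_lit 658) (nat_lit 621) (nat_lit 281))))))))
noncomputable def xc232 : XT := (XT.nd (nat_lit 78702) (nat_lit 0) (nat_lit 12236) (XT.nd (nat_lit 780) (nat_lit 2128) (nat_lit 0) (XT.nd (nat_lit 390) (nat_lit 2204) (nat_lit 0) (XT.nd (nat_lit 156) (nat_lit 836) (nat_lit 0) (XT.nd (nat_lit 78) (nat_lit 760) (nat_lit 0) (XT.lf (nat_lit 0) (nat_lit 24502822884) (nat_lit 912) (nat_lit 14526603552) (nat_lit 76) (nat_lit 5736338630) (nat_lit 383) (nat_lit 5) (nat_lit 395) (nat_lit 5) (nat_lit 384) (nat_lit 5) (nat_lit 659) (nat_lit 621) (nat_lit 280)) (XT.lf (nat_lit 0) (nat_lit 10535335831) (nat_lit 760) (nat_lit 19734394510) (nat_lit 836) (nat_lit 14995924049) (nat_lit 373) (nat_lit 5) (nat_lit 383) (nat_lit 5) (nat_lit 384) (nat_lit 5) (nat_lit 660) (nat_lit 621) (nat_lit 279))) (XT.nd (nat_lit 78) (nat_lit 836) (nat_lit 0) (XT.lf (nat_lit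 0) (nat_lit 36248759300) (nat_lit 836) (nat_lit 9479539500) (nat_lit 76) (nat_lit 45307060) (nat_lit 373) (nat_lit 5) (nat_lit 384) (nat_lit 5) (nat_lit 374) (nat_lit 5) (nat_lit 661) (nat_lit 621) (nat_lit 278)) (XT.nd (nat_lit 78) (nat_lit 76) (nat_lit 0) (XT.lf (nat_lit 0) (nat_lit 16359061805) (nat_lit 760) (nat_lit 26224235536) (nat_lit 836) (nat_lit 3703700473) (nat_lit 363) (nat_lit 5) (nat_lit 373) (nat_lit 5) (nat_lit 374) (nat_lit 5) (nat_lit 662) (nat_lit 621) (nat_lit 277)) (XT.lf (nat_lit 0) (nat_lit 2267634135) (nat_lit 836) (nat_lit 3982437607) (nat_lit 76) (nat_lit 40559034551) (nat_lit 362) (nat_lit 5) (nat_lit 373) (nat_lit 5) (nat_lit 363) (nat_lit 5) (nat_lit 663) (nat_lit 621) (nat_lit 276))))) (XT.nd (nat_lit 156) (nat_lit 684) (nat_lit 0) (XT.nd (nat_lit 78) (nat_lit 760) (nat_lit 0) (XT.lf (nat_lit 0) (nat_lit 8548476885) (nat_lit 836) (nat_lit 24676233046) (nat_lit 76) (nat_lit 14111663927) (nat_lit 352) (nat_lit 5) (nat_lit 363) (nat_lit 5) (nat_lit 353) (nat_lit 5) (nat_lit 664)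 (nat_lit 621) (nat_lit 275)) (XT.lf (nat_lit 0) (nat_lit 1999506598) (nat_lit 760) (nat_lit 13035764057) (nat_lit 836) (nat_lit 32837309459) (nat_lit 342) (nat_lit 5) (nat_lit 352) (nat_lit 5) (nat_lit 353) (nat_lit 5) (nat_lit 665) (nat_lit 621) (nat_lit 274))) (XT.nd (nat_lit 78) (nat_lit 684) (nat_lit 0) (XT.lf (nat_lit 0) (nat_lit 21866622760) (nat_lit 836) (nat_lit 18924167792) (nat_lit 76) (nat_lit 7624423517) (nat_lit 342) (nat_lit 5) (nat_lit 353) (nat_lit 5) (nat_lit 343) (nat_lit 5) (nat_lit 666) (nat_lit 621) (nat_lit 273)) (XT.nd (nat_lit 78) (nat_lit 0) (nat_lit 0) (XT.lf (nat_lit 0) (nat_lit 8588991924) (nat_lit 684) (nat_lit 20386793725) (nat_lit 760) (nat_lit 19990091402) (nat_lit 333) (nat_lit 5) (nat_lit 342) (nat_lit 5) (nat_lit 343) (nat_lit 5) (nat_lit 667) (nat_lit 621) (nat_lit 272)) (XT.lf (nat_lit 0) (nat_lit 36356824175) (nat_lit 760) (nat_lit 12620729823) (nat_lit 76) (nat_lit 547405469) (nat_lit 333) (nat_lit 5) (nat_lit 343) (nat_lit 5) (nat_lit 334) (nat_lit 5) (nat_lit 668)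 (nat_lit 621) (nat_lit 271)))))) (XT.nd (nat_lit 77532) (nat_lit 0) (nat_lit 13376) (XT.nd (nat_lit 156) (nat_lit 1368) (nat_lit 0) (XT.nd (nat_lit 78) (nat_lit 76) (nat_lit 0) (XT.lf (nat_lit 0) (nat_lit 15761217476) (nat_lit 684) (nat_lit 28360726851) (nat_lit 760) (nat_lit 5968550011) (nat_lit 324) (nat_lit 5) (nat_lit 333) (nat_lit 5) (nat_lit 334) (nat_lit 5) (nat_lit 669) (nat_lit 621) (nat_lit 270)) (XT.lf (nat_lit 0) (nat_lit 1441367434) (nat_lit 760) (nat_lit 5794288843) (nat_lit 76) (nat_lit 43429817614) (nat_lit 323) (nat_lit 5) (nat_lit 333) (nat_lit 5) (nat_lit 324) (nat_lit 5) (nat_lit 670) (nat_lit 621) (nat_lit 269))) (XT.nd (nat_lit 78) (nat_lit 684) (nat_lit 0) (XT.lf (nat_lit 0) (nat_lit 9166072699) (nat_lit 760) (nat_lit 27762200390) (nat_lit 76) (nat_lit 14317960757) (nat_lit 314) (nat_lit 5) (nat_lit 324) (nat_lit 5) (nat_lit 315) (nat_lit 5) (nat_lit 671) (nat_lit 621) (nat_lit 268)) (XT.nd (nat_lit 78) (nat_lit 0) (nat_lit 0) (XT.lf (nat_lit 0) (nat_lit 1559892091) (nat_lit 684) (nat_lit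 15581714428) (nat_lit 760) (nat_lit 34695075813) (nat_lit 305) (nat_lit 5) (nat_lit 314) (nat_lit 5) (nat_lit 315) (nat_lit 5) (nat_lit 672) (nat_lit 621) (nat_lit 267)) (XT.lf (nat_lit 0) (nat_lit 25503541941) (nat_lit 760) (nat_lit 20632931694) (nat_lit 76) (nat_lit 6297928355) (nat_lit 305) (nat_lit 5) (nat_lit 315) (nat_lit 5) (nat_lit 306) (nat_lit 5) (nat_lit 673) (nat_lit 621) (nat_lit 266))))) (XT.nd (nat_lit 156) (nat_lit 0) (nat_lit 76) (XT.nd (nat_lit 78) (nat_lit 0) (nat_lit 0) (XT.lf (nat_lit 0) (nat_lit 2913580171) (nat_lit 1900) (nat_lit 6204868516) (nat_lit 1900) (nat_lit 6204868516) (nat_lit 481) (nat_lit 3) (nat_lit 506) (nat_lit 3) (nat_lit 506) (nat_lit 5) (nat_lit 622) (nat_lit 622) (nat_lit 316)) (XT.lf (nat_lit 76) (nat_lit 2889861575) (nat_lit 0) (nat_lit 3084691374) (nat_lit 1900) (nat_lit 24976763252) (nat_lit 482) (nat_lit 5) (nat_lit 481) (nat_lit 3) (nat_lit 506) (nat_lit 5) (nat_lit 623) (nat_lit 622) (nat_lit 315))) (XT.nd (nat_lit 78) (nat_lit 0) (nat_lit 0) (XT.lf (nat_lit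 0) (nat_lit 6287192765) (nat_lit 1824) (nat_lit 12678622748) (nat_lit 1900) (nat_lit 12293030189) (nat_lit 482) (nat_lit 5) (nat_lit 506) (nat_lit 5) (nat_lit 507) (nat_lit 5) (nat_lit 624) (nat_lit 622) (nat_lit 314)) (XT.nd (nat_lit 78) (nat_lit 0) (nat_lit 76) (XT.lf (nat_lit 76) (nat_lit 3030201862) (nat_lit 0) (nat_lit 3614176326) (nat_lit 1900) (nat_lit 24927381801) (nat_lit 483) (nat_lit 5) (nat_lit 482) (nat_lit 5) (nat_lit 507) (nat_lit 5) (nat_lit 625) (nat_lit 622) (nat_lit 313)) (XT.lf (nat_lit 0) (nat_lit 7170776605) (nat_lit 1824) (nat_lit 12743941848) (nat_lit 1900) (nat_lit 11972972778) (nat_lit 483) (nat_lit 5) (nat_lit 507) (nat_lit 5) (nat_lit 508) (nat_lit 5) (nat_lit 626) (nat_lit 622) (nat_lit 312))))))) (XT.nd (nat_lit 780) (nat_lit 1292) (nat_lit 0) (XT.nd (nat_lit 390) (nat_lit 0) (nat_lit 228) (XT.nd (nat_lit 156) (nat_lit 0) (nat_lit 76) (XT.nd (nat_lit 78) (nat_lit 0) (nat_lit 76) (XT.lf (nat_lit 76) (nat_lit 3389149331) (nat_lit 0) (nat_lit 4362752767) (nat_lit 1900) (nat_lit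 24457155069) (nat_lit 484) (nat_lit 5) (nat_lit 483) (nat_lit 5) (nat_lit 508) (nat_lit 5) (nat_lit 627) (nat_lit 622) (nat_lit 311)) (XT.lf (nat_lit 0) (nat_lit 8503694288) (nat_lit 1824) (nat_lit 12593748136) (nat_lit 1900) (nat_lit 11436227168) (nat_lit 484) (nat_lit 5) (nat_lit 508) (nat_lit 5) (nat_lit 509) (nat_lit 5) (nat_lit 628) (nat_lit 622) (nat_lit 310))) (XT.nd (nat_lit 78) (nat_lit 0) (nat_lit 76) (XT.lf (nat_lit 76) (nat_lit 3979226420) (nat_lit 0) (nat_lit 5344349582) (nat_lit 1900) (nat_lit 23540137238) (nat_lit 485) (nat_lit 5) (nat_lit 484) (nat_lit 5) (nat_lit 509) (nat_lit 5) (nat_lit 629) (nat_lit 622) (nat_lit 309)) (XT.nd (nat_lit 78) (nat_lit 0) (nat_lit 0) (XT.lf (nat_lit 0) (nat_lit 10312907844) (nat_lit 1824) (nat_lit 12215516075) (nat_lit 1900) (nat_lit 10668872843) (nat_lit 485) (nat_lit 5) (nat_lit 509) (nat_lit 5) (nat_lit 510) (nat_lit 5) (nat_lit 630) (nat_lit 622) (nat_lit 308)) (XT.lf (nat_lit 76) (nat_lit 4813557164) (nat_lit 0) (nat_lit 6573503323) (nat_lit 1900) (nat_lit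 22149190832) (nat_lit 486) (nat_lit 5) (nat_lit 485) (nat_lit 5) (nat_lit 510) (nat_lit 5) (nat_lit 631) (nat_lit 622) (nat_lit 307))))) (XT.nd (nat_lit 156) (nat_lit 0) (nat_lit 76) (XT.nd (nat_lit 78) (nat_lit 0) (nat_lit 0) (XT.lf (nat_lit 0) (nat_lit 12626610906) (nat_lit 1824) (nat_lit 11596117568) (nat_lit 1900) (nat_lit 9656378247) (nat_lit 486) (nat_lit 5) (nat_lit 510) (nat_lit 5) (nat_lit 511) (nat_lit 5) (nat_lit 632) (nat_lit 622) (nat_lit 306)) (XT.lf (nat_lit 76) (nat_lit 5905891294) (nat_lit 0) (nat_lit 8065387306) (nat_lit 1900) (nat_lit 20255934153) (nat_lit 487) (nat_lit 5) (nat_lit 486) (nat_lit 5) (nat_lit 511) (nat_lit 5) (nat_lit 633) (nat_lit 622) (nat_lit 305))) (XT.nd (nat_lit 78) (nat_lit 0) (nat_lit 0) (XT.lf (nat_lit 0) (nat_lit 15474282776) (nat_lit 1824) (nat_lit 10721797725) (nat_lit 1900) (nat_lit 8383571586) (nat_lit 487) (nat_lit 5) (nat_lit 511) (nat_lit 5) (nat_lit 512) (nat_lit 5) (nat_lit 634) (nat_lit 622) (nat_lit 304)) (XT.nd (nat_lit 78) (nat_lit 0) (nat_lit 76)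 (XT.lf (nat_lit 76) (nat_lit 7270629377) (nat_lit 0) (nat_lit 9835841785) (nat_lit 1900) (nat_lit 17830686610) (nat_lit 488) (nat_lit 5) (nat_lit 487) (nat_lit 5) (nat_lit 512) (nat_lit 5) (nat_lit 635) (nat_lit 622) (nat_lit 303)) (XT.lf (nat_lit 0) (nat_lit 18886744653) (nat_lit 1824) (nat_lit 9578149593) (nat_lit 1900) (nat_lit 6834610542) (nat_lit 488) (nat_lit 5) (nat_lit 512) (nat_lit 5) (nat_lit 513) (nat_lit 5) (nat_lit 636) (nat_lit 622) (nat_lit 302)))))) (XT.nd (nat_lit 390) (nat_lit 1672) (nat_lit 0) (XT.nd (nat_lit 156) (nat_lit 0) (nat_lit 76) (XT.nd (nat_lit 78) (nat_lit 0) (nat_lit 76) (XT.lf (nat_lit 76) (nat_lit 8922849033) (nat_lit 0) (nat_lit 11901405270) (nat_lit 1900) (nat_lit 14842411869) (nat_lit 489) (nat_lit 5) (nat_lit 488) (nat_lit 5) (nat_lit 513) (nat_lit 5) (nat_lit 637) (nat_lit 622) (nat_lit 301)) (XT.lf (nat_lit 0) (nat_lit 22896218115) (nat_lit 1824) (nat_lit 8150087796) (nat_lit 1900) (nat_lit 4992950836) (nat_lit 489) (nat_lit 5) (nat_lit 513) (nat_lit 5) (nat_lit 514)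 (nat_lit 5) (nat_lit 638) (nat_lit 622) (nat_lit 300))) (XT.nd (nat_lit 78) (nat_lit 0) (nat_lit 76) (XT.lf (nat_lit 76) (nat_lit 10878332273) (nat_lit 0) (nat_lit 14279347024) (nat_lit 1900) (nat_lit 11258658718) (nat_lit 490) (nat_lit 5) (nat_lit 489) (nat_lit 5) (nat_lit 514) (nat_lit 5) (nat_lit 639) (nat_lit 622) (nat_lit 299)) (XT.nd (nat_lit 78) (nat_lit 0) (nat_lit 0) (XT.lf (nat_lit 0) (nat_lit 27536385958) (nat_lit 1824) (nat_lit 6421821065) (nat_lit 1900) (nat_lit 2841313599) (nat_lit 490) (nat_lit 5) (nat_lit 514) (nat_lit 5) (nat_lit 515) (nat_lit 5) (nat_lit 640) (nat_lit 622) (nat_lit 298)) (XT.lf (nat_lit 76) (nat_lit 13153593989) (nat_lit 0) (nat_lit 16987700822) (nat_lit 1900) (nat_lit 7045499550) (nat_lit 491) (nat_lit 5) (nat_lit 490) (nat_lit 5) (nat_lit 515) (nat_lit 5) (nat_lit 641) (nat_lit 622) (nat_lit 297))))) (XT.nd (nat_lit 156) (nat_lit 1900) (nat_lit 0) (XT.nd (nat_lit 78) (nat_lit 0) (nat_lit 0) (XT.lf (nat_lit 0) (nat_lit 32842455466) (nat_lit 1824) (nat_lit 4376823605) (nat_lit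 1900) (nat_lit 361651470) (nat_lit 491) (nat_lit 5) (nat_lit 515) (nat_lit 5) (nat_lit 516) (nat_lit 5) (nat_lit 642) (nat_lit 622) (nat_lit 296)) (XT.lf (nat_lit 76) (nat_lit 15765911642) (nat_lit 0) (nat_lit 20045300010) (nat_lit 1900) (nat_lit 2167466384) (nat_lit 492) (nat_lit 5) (nat_lit 491) (nat_lit 5) (nat_lit 516) (nat_lit 5) (nat_lit 643) (nat_lit 622) (nat_lit 295))) (XT.nd (nat_lit 78) (nat_lit 0) (nat_lit 76) (XT.lf (nat_lit 0) (nat_lit 477279248) (nat_lit 1900) (nat_lit 2017161615) (nat_lit 1976) (nat_lit 35889314903) (nat_lit 466) (nat_lit 5) (nat_lit 491) (nat_lit 5) (nat_lit 492) (nat_lit 5) (nat_lit 644) (nat_lit 622) (nat_lit 294)) (XT.nd (nat_lit 78) (nat_lit 0) (nat_lit 0) (XT.lf (nat_lit 0) (nat_lit 3367759954) (nat_lit 1900) (nat_lit 20081454544) (nat_lit 1976) (nat_lit 15342996799) (nat_lit 467) (nat_lit 5) (nat_lit 492) (nat_lit 5) (nat_lit 493) (nat_lit 5) (nat_lit 645) (nat_lit 622) (nat_lit 293)) (XT.lf (nat_lit 76) (nat_lit 663048779) (nat_lit 0) (nat_lit 5686214687) (nat_lit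 1976) (nat_lit 32858908245) (nat_lit 468) (nat_lit 5) (nat_lit 467) (nat_lit 5) (nat_lit 493) (nat_lit 5) (nat_lit 646) (nat_lit 622) (nat_lit 292))))))))
noncomputable def xc233 : XT := (XT.nd (nat_lit 1560) (nat_lit 2128) (nat_lit 0) (XT.nd (nat_lit 780) (nat_lit 4788) (nat_lit 0) (XT.nd (nat_lit 390) (nat_lit 2736) (nat_lit 0) (XT.nd (nat_lit 156) (nat_lit 912) (nat_lit 0) (XT.nd (nat_lit 78) (nat_lit 1140) (nat_lit 0) (XT.lf (nat_lit 0) (nat_lit 9605545231) (nat_lit 1900) (nat_lit 17617782343) (nat_lit 76) (nat_lit 12404820830) (nat_lit 468) (nat_lit 5) (nat_lit 493) (nat_lit 5) (nat_lit 469) (nat_lit 5) (nat_lit 647) (nat_lit 622) (nat_lit 291)) (XT.lf (nat_lit 0) (nat_lit 3738430938) (nat_lit 1140) (nat_lit 9249256547) (nat_lit 1216) (nat_lit 27067622482) (nat_lit 453) (nat_lit 5) (nat_lit 468) (nat_lit 5) (nat_lit 469) (nat_lit 5) (nat_lit 648) (nat_lit 622) (nat_lit 290))) (XT.nd (nat_lit 78) (nat_lit 912) (nat_lit 0) (XT.lf (nat_lit 0) (nat_lit 16614284387) (nat_lit 1216) (nat_lit 14788897185) (nat_lit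 76) (nat_lit 9084296987) (nat_lit 453) (nat_lit 5) (nat_lit 469) (nat_lit 5) (nat_lit 454) (nat_lit 5) (nat_lit 649) (nat_lit 622) (nat_lit 289)) (XT.nd (nat_lit 78) (nat_lit 0) (nat_lit 0) (XT.lf (nat_lit 0) (nat_lit 7201799863) (nat_lit 912) (nat_lit 13218471650) (nat_lit 988) (nat_lit 20505881877) (nat_lit 441) (nat_lit 5) (nat_lit 453) (nat_lit 5) (nat_lit 454) (nat_lit 5) (nat_lit 650) (nat_lit 622) (nat_lit 288)) (XT.lf (nat_lit 0) (nat_lit 24435744968) (nat_lit 988) (nat_lit 11575161888) (nat_lit 76) (nat_lit 5360027562) (nat_lit 441) (nat_lit 5) (nat_lit 454) (nat_lit 5) (nat_lit 442) (nat_lit 5) (nat_lit 651) (nat_lit 622) (nat_lit 287))))) (XT.nd (nat_lit 156) (nat_lit 1824) (nat_lit 0) (XT.nd (nat_lit 78) (nat_lit 0) (nat_lit 0) (XT.lf (nat_lit 0) (nat_lit 11073667413) (nat_lit 912) (nat_lit 17616182539) (nat_lit 988) (nat_lit 13131594705) (nat_lit 429) (nat_lit 5) (nat_lit 441) (nat_lit 5) (nat_lit 442) (nat_lit 5) (nat_lit 652) (nat_lit 622) (nat_lit 286)) (XT.lf (nat_lit 0) (nat_lit 33113570809)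 (nat_lit 988) (nat_lit 7956047142) (nat_lit 76) (nat_lit 1209656504) (nat_lit 429) (nat_lit 5) (nat_lit 442) (nat_lit 5) (nat_lit 430) (nat_lit 5) (nat_lit 653) (nat_lit 622) (nat_lit 285))) (XT.nd (nat_lit 78) (nat_lit 988) (nat_lit 0) (XT.lf (nat_lit 0) (nat_lit 15375471481) (nat_lit 836) (nat_lit 22465707892) (nat_lit 912) (nat_lit 4900773242) (nat_lit 418) (nat_lit 5) (nat_lit 429) (nat_lit 5) (nat_lit 430) (nat_lit 5) (nat_lit 654) (nat_lit 622) (nat_lit 284)) (XT.nd (nat_lit 78) (nat_lit 988) (nat_lit 0) (XT.lf (nat_lit 0) (nat_lit 39280438905) (nat_lit 836) (nat_lit 3435227000) (nat_lit 912) (nat_lit 497171945) (nat_lit 418) (nat_lit 5) (nat_lit 429) (nat_lit 5) (nat_lit 430) (nat_lit 5) (nat_lit 655) (nat_lit 622) (nat_lit 283)) (XT.lf (nat_lit 0) (nat_lit 4177036614) (nat_lit 988) (nat_lit 23586340111) (nat_lit 76) (nat_lit 15924546919) (nat_lit 405) (nat_lit 5) (nat_lit 418) (nat_lit 5) (nat_lit 406) (nat_lit 5) (nat_lit 656) (nat_lit 622) (nat_lit 282)))))) (XT.nd (nat_lit 390) (nat_lit 2356)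 (nat_lit 0) (XT.nd (nat_lit 156) (nat_lit 1596) (nat_lit 0) (XT.nd (nat_lit 78) (nat_lit 0) (nat_lit 0) (XT.lf (nat_lit 0) (nat_lit 476564212) (nat_lit 836) (nat_lit 8512886041) (nat_lit 912) (nat_lit 35181967642) (nat_lit 394) (nat_lit 5) (nat_lit 405) (nat_lit 5) (nat_lit 406) (nat_lit 5) (nat_lit 657) (nat_lit 622) (nat_lit 281)) (XT.lf (nat_lit 0) (nat_lit 14128630652) (nat_lit 912) (nat_lit 19395283865) (nat_lit 76) (nat_lit 11136057170) (nat_lit 394) (nat_lit 5) (nat_lit 406) (nat_lit 5) (nat_lit 395) (nat_lit 5) (nat_lit 658) (nat_lit 622) (nat_lit 280))) (XT.nd (nat_lit 78) (nat_lit 760) (nat_lit 0) (XT.lf (nat_lit 0) (nat_lit 5403742796) (nat_lit 836) (nat_lit 14057311460) (nat_lit 912) (nat_lit 25695433136) (nat_lit 383) (nat_lit 5) (nat_lit 394) (nat_lit 5) (nat_lit 395) (nat_lit 5) (nat_lit 659) (nat_lit 622) (nat_lit 279)) (XT.nd (nat_lit 78) (nat_lit 760) (nat_lit 0) (XT.lf (nat_lit 0) (nat_lit 25067800319) (nat_lit 912) (nat_lit 14738224338) (nat_lit 76) (nat_lit 5853555298) (nat_lit 383)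 (nat_lit 5) (nat_lit 395) (nat_lit 5) (nat_lit 384) (nat_lit 5) (nat_lit 660) (nat_lit 622) (nat_lit 278)) (XT.lf (nat_lit 0) (nat_lit 10824434680) (nat_lit 760) (nat_lit 20124651180) (nat_lit 836) (nat_lit 15220400445) (nat_lit 373) (nat_lit 5) (nat_lit 383) (nat_lit 5) (nat_lit 384) (nat_lit 5) (nat_lit 661) (nat_lit 622) (nat_lit 277))))) (XT.nd (nat_lit 156) (nat_lit 1596) (nat_lit 0) (XT.nd (nat_lit 78) (nat_lit 760) (nat_lit 0) (XT.lf (nat_lit 0) (nat_lit 37046273390) (nat_lit 836) (nat_lit 9590851334) (nat_lit 76) (nat_lit 50500558) (nat_lit 373) (nat_lit 5) (nat_lit 384) (nat_lit 5) (nat_lit 374) (nat_lit 5) (nat_lit 662) (nat_lit 622) (nat_lit 276)) (XT.lf (nat_lit 0) (nat_lit 16764007004) (nat_lit 760) (nat_lit 26742577753) (nat_lit 836) (nat_lit 3704718706) (nat_lit 363) (nat_lit 5) (nat_lit 373) (nat_lit 5) (nat_lit 374) (nat_lit 5) (nat_lit 663) (nat_lit 622) (nat_lit 275))) (XT.nd (nat_lit 78) (nat_lit 1520) (nat_lit 0) (XT.lf (nat_lit 0) (nat_lit 2383670776) (nat_lit 836) (nat_lit 3984906022)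 (nat_lit 76) (nat_lit 41375296136) (nat_lit 362) (nat_lit 5) (nat_lit 373) (nat_lit 5) (nat_lit 363) (nat_lit 5) (nat_lit 664) (nat_lit 622) (nat_lit 274)) (XT.nd (nat_lit 78) (nat_lit 760) (nat_lit 0) (XT.lf (nat_lit 0) (nat_lit 8789286878) (nat_lit 836) (nat_lit 25091732097) (nat_lit 76) (nat_lit 14400683780) (nat_lit 352) (nat_lit 5) (nat_lit 363) (nat_lit 5) (nat_lit 353) (nat_lit 5) (nat_lit 665) (nat_lit 622) (nat_lit 273)) (XT.lf (nat_lit 0) (nat_lit 2117009013) (nat_lit 760) (nat_lit 13287941350) (nat_lit 836) (nat_lit 33423700131) (nat_lit 342) (nat_lit 5) (nat_lit 352) (nat_lit 5) (nat_lit 353) (nat_lit 5) (nat_lit 666) (nat_lit 622) (nat_lit 272))))))) (XT.nd (nat_lit 78078) (nat_lit 0) (nat_lit 12844) (XT.nd (nat_lit 390) (nat_lit 684) (nat_lit 0) (XT.nd (nat_lit 156) (nat_lit 760) (nat_lit 0) (XT.nd (nat_lit 78) (nat_lit 684) (nat_lit 0) (XT.lf (nat_lit 0) (nat_lit 22371631421) (nat_lit 836) (nat_lit 19225358922) (nat_lit 76) (nat_lit 7785172781) (nat_lit 342) (nat_lit 5) (nat_lit 353) (nat_lit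 5) (nat_lit 343) (nat_lit 5) (nat_lit 667) (nat_lit 622) (nat_lit 271)) (XT.lf (nat_lit 0) (nat_lit 8837555486) (nat_lit 684) (nat_lit 20784593627) (nat_lit 760) (nat_lit 20321706855) (nat_lit 333) (nat_lit 5) (nat_lit 342) (nat_lit 5) (nat_lit 343) (nat_lit 5) (nat_lit 668) (nat_lit 622) (nat_lit 270))) (XT.nd (nat_lit 78) (nat_lit 760) (nat_lit 0) (XT.lf (nat_lit 0) (nat_lit 37149560917) (nat_lit 760) (nat_lit 12796617129) (nat_lit 76) (nat_lit 567966970) (nat_lit 333) (nat_lit 5) (nat_lit 343) (nat_lit 5) (nat_lit 334) (nat_lit 5) (nat_lit 669) (nat_lit 622) (nat_lit 269)) (XT.nd (nat_lit 78) (nat_lit 76) (nat_lit 0) (XT.lf (nat_lit 0) (nat_lit 16152465647) (nat_lit 684) (nat_lit 28916725142) (nat_lit 760) (nat_lit 6021815680) (nat_lit 324) (nat_lit 5) (nat_lit 333) (nat_lit 5) (nat_lit 334) (nat_lit 5) (nat_lit 670) (nat_lit 622) (nat_lit 268)) (XT.lf (nat_lit 0) (nat_lit 1534153947) (nat_lit 760) (nat_lit 5834789937) (nat_lit 76) (nat_lit 44308558761) (nat_lit 323) (nat_lit 5) (nat_lit 333) (nat_lit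 5) (nat_lit 324) (nat_lit 5) (nat_lit 671) (nat_lit 622) (nat_lit 267))))) (XT.nd (nat_lit 77454) (nat_lit 0) (nat_lit 12692) (XT.nd (nat_lit 77376) (nat_lit 0) (nat_lit 12692) (XT.lf (nat_lit 0) (nat_lit 9412661391) (nat_lit 760) (nat_lit 28241366277) (nat_lit 76) (nat_lit 14615863999) (nat_lit 314) (nat_lit 5) (nat_lit 324) (nat_lit 5) (nat_lit 315) (nat_lit 5) (nat_lit 672) (nat_lit 622) (nat_lit 266)) (XT.lf (nat_lit 0) (nat_lit 3041753069) (nat_lit 1900) (nat_lit 6293315168) (nat_lit 1900) (nat_lit 6293315168) (nat_lit 481) (nat_lit 3) (nat_lit 506) (nat_lit 3) (nat_lit 506) (nat_lit 5) (nat_lit 623) (nat_lit 623) (nat_lit 314))) (XT.nd (nat_lit 78) (nat_lit 0) (nat_lit 76) (XT.lf (nat_lit 76) (nat_lit 3018491154) (nat_lit 0) (nat_lit 3213074107) (nat_lit 1900) (nat_lit 25336022692) (nat_lit 482) (nat_lit 5) (nat_lit 481) (nat_lit 3) (nat_lit 506) (nat_lit 5) (nat_lit 624) (nat_lit 623) (nat_lit 313)) (XT.nd (nat_lit 78) (nat_lit 0) (nat_lit 0) (XT.lf (nat_lit 0) (nat_lit 6547336879) (nat_lit 1824)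 (nat_lit 12859626665) (nat_lit 1900) (nat_lit 12474367000) (nat_lit 482) (nat_lit 5) (nat_lit 506) (nat_lit 5) (nat_lit 507) (nat_lit 5) (nat_lit 625) (nat_lit 623) (nat_lit 312)) (XT.lf (nat_lit 76) (nat_lit 3162897013) (nat_lit 0) (nat_lit 3746601762) (nat_lit 1900) (nat_lit 25291047767) (nat_lit 483) (nat_lit 5) (nat_lit 482) (nat_lit 5) (nat_lit 507) (nat_lit 5) (nat_lit 626) (nat_lit 623) (nat_lit 311)))))) (XT.nd (nat_lit 390) (nat_lit 0) (nat_lit 152) (XT.nd (nat_lit 156) (nat_lit 0) (nat_lit 76) (XT.nd (nat_lit 78) (nat_lit 0) (nat_lit 0) (XT.lf (nat_lit 0) (nat_lit 7443449531) (nat_lit 1824) (nat_lit 12925163585) (nat_lit 1900) (nat_lit 12154242883) (nat_lit 483) (nat_lit 5) (nat_lit 507) (nat_lit 5) (nat_lit 508) (nat_lit 5) (nat_lit 627) (nat_lit 623) (nat_lit 310)) (XT.lf (nat_lit 76) (nat_lit 3530104832) (nat_lit 0) (nat_lit 4504033329) (nat_lit 1900) (nat_lit 24816552359) (nat_lit 484) (nat_lit 5) (nat_lit 483) (nat_lit 5) (nat_lit 508) (nat_lit 5) (nat_lit 628) (nat_lit 623) (nat_lit 309)))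 (XT.nd (nat_lit 78) (nat_lit 0) (nat_lit 0) (XT.lf (nat_lit 0) (nat_lit 8798128222) (nat_lit 1824) (nat_lit 12771043613) (nat_lit 1900) (nat_lit 11612680190) (nat_lit 484) (nat_lit 5) (nat_lit 508) (nat_lit 5) (nat_lit 509) (nat_lit 5) (nat_lit 629) (nat_lit 623) (nat_lit 308)) (XT.nd (nat_lit 78) (nat_lit 0) (nat_lit 76) (XT.lf (nat_lit 76) (nat_lit 4132899780) (nat_lit 0) (nat_lit 5499550393) (nat_lit 1900) (nat_lit 23886085596) (nat_lit 485) (nat_lit 5) (nat_lit 484) (nat_lit 5) (nat_lit 509) (nat_lit 5) (nat_lit 630) (nat_lit 623) (nat_lit 307)) (XT.lf (nat_lit 0) (nat_lit 10638861064) (nat_lit 1824) (nat_lit 12384479090) (nat_lit 1900) (nat_lit 10835505031) (nat_lit 485) (nat_lit 5) (nat_lit 509) (nat_lit 5) (nat_lit 510) (nat_lit 5) (nat_lit 631) (nat_lit 623) (nat_lit 306))))) (XT.nd (nat_lit 234) (nat_lit 0) (nat_lit 152) (XT.nd (nat_lit 78) (nat_lit 0) (nat_lit 76) (XT.lf (nat_lit 76) (nat_lit 4984679908) (nat_lit 0) (nat_lit 6747955877) (nat_lit 1900) (nat_lit 22471980339) (nat_lit 486) (nat_lit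 5) (nat_lit 485) (nat_lit 5) (nat_lit 510) (nat_lit 5) (nat_lit 632) (nat_lit 623) (nat_lit 305)) (XT.nd (nat_lit 78) (nat_lit 0) (nat_lit 0) (XT.lf (nat_lit 0) (nat_lit 12994393141) (nat_lit 1824) (nat_lit 11752068455) (nat_lit 1900) (nat_lit 9807918788) (nat_lit 486) (nat_lit 5) (nat_lit 510) (nat_lit 5) (nat_lit 511) (nat_lit 5) (nat_lit 633) (nat_lit 623) (nat_lit 304)) (XT.lf (nat_lit 76) (nat_lit 6099480772) (nat_lit 0) (nat_lit 8264703625) (nat_lit 1900) (nat_lit 20545299604) (nat_lit 487) (nat_lit 5) (nat_lit 486) (nat_lit 5) (nat_lit 511) (nat_lit 5) (nat_lit 634) (nat_lit 623) (nat_lit 303)))) (XT.nd (nat_lit 78) (nat_lit 0) (nat_lit 0) (XT.lf (nat_lit 0) (nat_lit 15894781616) (nat_lit 1824) (nat_lit 10859771488) (nat_lit 1900) (nat_lit 8514468426) (nat_lit 487) (nat_lit 5) (nat_lit 511) (nat_lit 5) (nat_lit 512) (nat_lit 5) (nat_lit 635) (nat_lit 623) (nat_lit 302)) (XT.nd (nat_lit 78) (nat_lit 0) (nat_lit 76) (XT.lf (nat_lit 76) (nat_lit 7492001116) (nat_lit 0) (nat_lit 10065929102) (nat_lit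 1900) (nat_lit 18075780847) (nat_lit 488) (nat_lit 5) (nat_lit 487) (nat_lit 5) (nat_lit 512) (nat_lit 5) (nat_lit 636) (nat_lit 623) (nat_lit 301)) (XT.lf (nat_lit 0) (nat_lit 19371453045) (nat_lit 1824) (nat_lit 9692883489) (nat_lit 1900) (nat_lit 6939015673) (nat_lit 488) (nat_lit 5) (nat_lit 512) (nat_lit 5) (nat_lit 513) (nat_lit 5) (nat_lit 637) (nat_lit 623) (nat_lit 300))))))))
noncomputable def xc234 : XT := (XT.nd (nat_lit 1560) (nat_lit 6232) (nat_lit 0) (XT.nd (nat_lit 780) (nat_lit 4636) (nat_lit 0) (XT.nd (nat_lit 390) (nat_lit 1672) (nat_lit 0) (XT.nd (nat_lit 156) (nat_lit 0) (nat_lit 76) (XT.nd (nat_lit 78) (nat_lit 0) (nat_lit 76) (XT.lf (nat_lit 76) (nat_lit 9177629655) (nat_lit 0) (nat_lit 12168481257) (nat_lit 1900) (nat_lit 15031778010) (nat_lit 489) (nat_lit 5) (nat_lit 488) (nat_lit 5) (nat_lit 513) (nat_lit 5) (nat_lit 638) (nat_lit 623) (nat_lit 299)) (XT.lf (nat_lit 0) (nat_lit 23457262992) (nat_lit 1824) (nat_lit 8236008362) (nat_lit 1900) (nat_lit 5064705036) (nat_lit 489) (nat_lit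 5) (nat_lit 513) (nat_lit 5) (nat_lit 514) (nat_lit 5) (nat_lit 639) (nat_lit 623) (nat_lit 298))) (XT.nd (nat_lit 78) (nat_lit 0) (nat_lit 76) (XT.lf (nat_lit 76) (nat_lit 11172472995) (nat_lit 0) (nat_lit 14589955601) (nat_lit 1900) (nat_lit 11380201243) (nat_lit 490) (nat_lit 5) (nat_lit 489) (nat_lit 5) (nat_lit 514) (nat_lit 5) (nat_lit 640) (nat_lit 623) (nat_lit 297)) (XT.nd (nat_lit 78) (nat_lit 0) (nat_lit 0) (XT.lf (nat_lit 0) (nat_lit 28186558046) (nat_lit 1824) (nat_lit 6473030556) (nat_lit 1900) (nat_lit 2873930583) (nat_lit 490) (nat_lit 5) (nat_lit 514) (nat_lit 5) (nat_lit 515) (nat_lit 5) (nat_lit 641) (nat_lit 623) (nat_lit 296)) (XT.lf (nat_lit 76) (nat_lit 13493384727) (nat_lit 0) (nat_lit 17348728569) (nat_lit 1900) (nat_lit 7086454196) (nat_lit 491) (nat_lit 5) (nat_lit 490) (nat_lit 5) (nat_lit 515) (nat_lit 5) (nat_lit 642) (nat_lit 623) (nat_lit 295))))) (XT.nd (nat_lit 156) (nat_lit 1900) (nat_lit 0) (XT.nd (nat_lit 78) (nat_lit 0) (nat_lit 0) (XT.lf (nat_lit 0) (nat_lit 33595240326)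 (nat_lit 1824) (nat_lit 4387085825) (nat_lit 1900) (nat_lit 348301439) (nat_lit 491) (nat_lit 5) (nat_lit 515) (nat_lit 5) (nat_lit 516) (nat_lit 5) (nat_lit 643) (nat_lit 623) (nat_lit 294)) (XT.lf (nat_lit 76) (nat_lit 16157995745) (nat_lit 0) (nat_lit 20463993214) (nat_lit 1900) (nat_lit 2114368786) (nat_lit 492) (nat_lit 5) (nat_lit 491) (nat_lit 5) (nat_lit 516) (nat_lit 5) (nat_lit 644) (nat_lit 623) (nat_lit 293))) (XT.nd (nat_lit 78) (nat_lit 0) (nat_lit 76) (XT.lf (nat_lit 0) (nat_lit 580140526) (nat_lit 1900) (nat_lit 1981001392) (nat_lit 1976) (nat_lit 36588419967) (nat_lit 466) (nat_lit 5) (nat_lit 491) (nat_lit 5) (nat_lit 492) (nat_lit 5) (nat_lit 645) (nat_lit 623) (nat_lit 292)) (XT.nd (nat_lit 78) (nat_lit 0) (nat_lit 0) (XT.lf (nat_lit 0) (nat_lit 3526990822) (nat_lit 1900) (nat_lit 20405137525) (nat_lit 1976) (nat_lit 15634087033) (nat_lit 467) (nat_lit 5) (nat_lit 492) (nat_lit 5) (nat_lit 493) (nat_lit 5) (nat_lit 646) (nat_lit 623) (nat_lit 291)) (XT.lf (nat_lit 76) (nat_lit 753743061)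 (nat_lit 0) (nat_lit 5813082607) (nat_lit 1976) (nat_lit 33423695359) (nat_lit 468) (nat_lit 5) (nat_lit 467) (nat_lit 5) (nat_lit 493) (nat_lit 5) (nat_lit 647) (nat_lit 623) (nat_lit 290)))))) (XT.nd (nat_lit 390) (nat_lit 2736) (nat_lit 0) (XT.nd (nat_lit 156) (nat_lit 912) (nat_lit 0) (XT.nd (nat_lit 78) (nat_lit 1140) (nat_lit 0) (XT.lf (nat_lit 0) (nat_lit 9886373387) (nat_lit 1900) (nat_lit 17892360772) (nat_lit 76) (nat_lit 12640200339) (nat_lit 468) (nat_lit 5) (nat_lit 493) (nat_lit 5) (nat_lit 469) (nat_lit 5) (nat_lit 648) (nat_lit 623) (nat_lit 289)) (XT.lf (nat_lit 0) (nat_lit 3890465082) (nat_lit 1140) (nat_lit 9444455509) (nat_lit 1216) (nat_lit 27519743510) (nat_lit 453) (nat_lit 5) (nat_lit 468) (nat_lit 5) (nat_lit 469) (nat_lit 5) (nat_lit 649) (nat_lit 623) (nat_lit 288))) (XT.nd (nat_lit 78) (nat_lit 912) (nat_lit 0) (XT.lf (nat_lit 0) (nat_lit 17032269135) (nat_lit 1216) (nat_lit 15007141888) (nat_lit 76) (nat_lit 9256100696) (nat_lit 453) (nat_lit 5) (nat_lit 469) (nat_lit 5) (nat_lit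 454) (nat_lit 5) (nat_lit 650) (nat_lit 623) (nat_lit 287)) (XT.nd (nat_lit 78) (nat_lit 0) (nat_lit 0) (XT.lf (nat_lit 0) (nat_lit 7422859014) (nat_lit 912) (nat_lit 13490336701) (nat_lit 988) (nat_lit 20829787985) (nat_lit 441) (nat_lit 5) (nat_lit 453) (nat_lit 5) (nat_lit 454) (nat_lit 5) (nat_lit 651) (nat_lit 623) (nat_lit 286)) (XT.lf (nat_lit 0) (nat_lit 25007273696) (nat_lit 988) (nat_lit 11729444951) (nat_lit 76) (nat_lit 5459975847) (nat_lit 441) (nat_lit 5) (nat_lit 454) (nat_lit 5) (nat_lit 442) (nat_lit 5) (nat_lit 652) (nat_lit 623) (nat_lit 285))))) (XT.nd (nat_lit 156) (nat_lit 1824) (nat_lit 0) (XT.nd (nat_lit 78) (nat_lit 0) (nat_lit 0) (XT.lf (nat_lit 0) (nat_lit 11371852909) (nat_lit 912) (nat_lit 17973482136) (nat_lit 988) (nat_lit 13310902452) (nat_lit 429) (nat_lit 5) (nat_lit 441) (nat_lit 5) (nat_lit 442) (nat_lit 5) (nat_lit 653) (nat_lit 623) (nat_lit 284)) (XT.lf (nat_lit 0) (nat_lit 33855896918) (nat_lit 988) (nat_lit 8038324452) (nat_lit 76) (nat_lit 1229035236) (nat_lit 429)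 (nat_lit 5) (nat_lit 442) (nat_lit 5) (nat_lit 430) (nat_lit 5) (nat_lit 654) (nat_lit 623) (nat_lit 283))) (XT.nd (nat_lit 78) (nat_lit 988) (nat_lit 0) (XT.lf (nat_lit 0) (nat_lit 15759318994) (nat_lit 836) (nat_lit 22917664597) (nat_lit 912) (nat_lit 4918226262) (nat_lit 418) (nat_lit 5) (nat_lit 429) (nat_lit 5) (nat_lit 430) (nat_lit 5) (nat_lit 655) (nat_lit 623) (nat_lit 282)) (XT.nd (nat_lit 78) (nat_lit 988) (nat_lit 0) (XT.lf (nat_lit 0) (nat_lit 40140888942) (nat_lit 836) (nat_lit 3506522273) (nat_lit 912) (nat_lit 428132595) (nat_lit 418) (nat_lit 5) (nat_lit 429) (nat_lit 5) (nat_lit 430) (nat_lit 5) (nat_lit 656) (nat_lit 623) (nat_lit 281)) (XT.lf (nat_lit 0) (nat_lit 4337475387) (nat_lit 988) (nat_lit 23981136718) (nat_lit 76) (nat_lit 16241529977) (nat_lit 405) (nat_lit 5) (nat_lit 418) (nat_lit 5) (nat_lit 406) (nat_lit 5) (nat_lit 657) (nat_lit 623) (nat_lit 280))))))) (XT.nd (nat_lit 780) (nat_lit 1444) (nat_lit 0) (XT.nd (nat_lit 390) (nat_lit 2356) (nat_lit 0) (XT.nd (nat_lit 156) (nat_lit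 1596) (nat_lit 0) (XT.nd (nat_lit 78) (nat_lit 0) (nat_lit 0) (XT.lf (nat_lit 0) (nat_lit 562519572) (nat_lit 836) (nat_lit 8682606118) (nat_lit 912) (nat_lit 35808200800) (nat_lit 394) (nat_lit 5) (nat_lit 405) (nat_lit 5) (nat_lit 406) (nat_lit 5) (nat_lit 658) (nat_lit 623) (nat_lit 279)) (XT.lf (nat_lit 0) (nat_lit 14485605151) (nat_lit 912) (nat_lit 19706777438) (nat_lit 76) (nat_lit 11359298501) (nat_lit 394) (nat_lit 5) (nat_lit 406) (nat_lit 5) (nat_lit 395) (nat_lit 5) (nat_lit 659) (nat_lit 623) (nat_lit 278))) (XT.nd (nat_lit 78) (nat_lit 760) (nat_lit 0) (XT.lf (nat_lit 0) (nat_lit 5587727045) (nat_lit 836) (nat_lit 14335984175) (nat_lit 912) (nat_lit 26134435247) (nat_lit 383) (nat_lit 5) (nat_lit 394) (nat_lit 5) (nat_lit 395) (nat_lit 5) (nat_lit 660) (nat_lit 623) (nat_lit 277)) (XT.nd (nat_lit 78) (nat_lit 760) (nat_lit 0) (XT.lf (nat_lit 0) (nat_lit 25641168031) (nat_lit 912) (nat_lit 14957141760) (nat_lit 76) (nat_lit 5973019614) (nat_lit 383) (nat_lit 5) (nat_lit 395) (nat_lit 5) (nat_lit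 384) (nat_lit 5) (nat_lit 661) (nat_lit 623) (nat_lit 276)) (XT.lf (nat_lit 0) (nat_lit 11116271444) (nat_lit 760) (nat_lit 20522885053) (nat_lit 836) (nat_lit 15452295877) (nat_lit 373) (nat_lit 5) (nat_lit 383) (nat_lit 5) (nat_lit 384) (nat_lit 5) (nat_lit 662) (nat_lit 623) (nat_lit 275))))) (XT.nd (nat_lit 156) (nat_lit 1596) (nat_lit 0) (XT.nd (nat_lit 78) (nat_lit 760) (nat_lit 0) (XT.lf (nat_lit 0) (nat_lit 37856920989) (nat_lit 836) (nat_lit 9707429072) (nat_lit 76) (nat_lit 55631443) (nat_lit 373) (nat_lit 5) (nat_lit 384) (nat_lit 5) (nat_lit 374) (nat_lit 5) (nat_lit 663) (nat_lit 623) (nat_lit 274)) (XT.lf (nat_lit 0) (nat_lit 17174031437) (nat_lit 760) (nat_lit 27271525335) (nat_lit 836) (nat_lit 3708594148) (nat_lit 363) (nat_lit 5) (nat_lit 373) (nat_lit 5) (nat_lit 374) (nat_lit 5) (nat_lit 664) (nat_lit 623) (nat_lit 273))) (XT.nd (nat_lit 78) (nat_lit 1520) (nat_lit 0) (XT.lf (nat_lit 0) (nat_lit 2499283405) (nat_lit 836) (nat_lit 3990420812) (nat_lit 76) (nat_lit 42207685656) (nat_lit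 362) (nat_lit 5) (nat_lit 373) (nat_lit 5) (nat_lit 363) (nat_lit 5) (nat_lit 665) (nat_lit 623) (nat_lit 272)) (XT.nd (nat_lit 78) (nat_lit 760) (nat_lit 0) (XT.lf (nat_lit 0) (nat_lit 9032201081) (nat_lit 836) (nat_lit 25518570959) (nat_lit 76) (nat_lit 14695220500) (nat_lit 352) (nat_lit 5) (nat_lit 363) (nat_lit 5) (nat_lit 353) (nat_lit 5) (nat_lit 666) (nat_lit 623) (nat_lit 271)) (XT.lf (nat_lit 0) (nat_lit 2233851580) (nat_lit 760) (nat_lit 13545493731) (nat_lit 836) (nat_lit 34024550607) (nat_lit 342) (nat_lit 5) (nat_lit 352) (nat_lit 5) (nat_lit 353) (nat_lit 5) (nat_lit 667) (nat_lit 623) (nat_lit 270)))))) (XT.nd (nat_lit 77766) (nat_lit 0) (nat_lit 12008) (XT.nd (nat_lit 156) (nat_lit 760) (nat_lit 0) (XT.nd (nat_lit 78) (nat_lit 684) (nat_lit 0) (XT.lf (nat_lit 0) (nat_lit 22884112306) (nat_lit 836) (nat_lit 19535575226) (nat_lit 76) (nat_lit 7948816254) (nat_lit 342) (nat_lit 5) (nat_lit 353) (nat_lit 5) (nat_lit 343) (nat_lit 5) (nat_lit 668) (nat_lit 623) (nat_lit 269)) (XT.lf (nat_lit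 0) (nat_lit 9088108715) (nat_lit 684) (nat_lit 21190735354) (nat_lit 760) (nat_lit 20662602376) (nat_lit 333) (nat_lit 5) (nat_lit 342) (nat_lit 5) (nat_lit 343) (nat_lit 5) (nat_lit 669) (nat_lit 623) (nat_lit 268))) (XT.nd (nat_lit 78) (nat_lit 760) (nat_lit 0) (XT.lf (nat_lit 0) (nat_lit 37955605055) (nat_lit 760) (nat_lit 12978993829) (nat_lit 76) (nat_lit 588566402) (nat_lit 333) (nat_lit 5) (nat_lit 343) (nat_lit 5) (nat_lit 334) (nat_lit 5) (nat_lit 670) (nat_lit 623) (nat_lit 267)) (XT.nd (nat_lit 78) (nat_lit 76) (nat_lit 0) (XT.lf (nat_lit 0) (nat_lit 16548586684) (nat_lit 684) (nat_lit 29484278940) (nat_lit 760) (nat_lit 6078713614) (nat_lit 324) (nat_lit 5) (nat_lit 333) (nat_lit 5) (nat_lit 334) (nat_lit 5) (nat_lit 671) (nat_lit 623) (nat_lit 266)) (XT.lf (nat_lit 0) (nat_lit 1626312577) (nat_lit 760) (nat_lit 5879028331) (nat_lit 76) (nat_lit 45204480796) (nat_lit 323) (nat_lit 5) (nat_lit 333) (nat_lit 5) (nat_lit 324) (nat_lit 5) (nat_lit 672) (nat_lit 623) (nat_lit 265))))) (XT.nd (nat_lit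 234) (nat_lit 0) (nat_lit 76) (XT.nd (nat_lit 78) (nat_lit 0) (nat_lit 0) (XT.lf (nat_lit 0) (nat_lit 3169775073) (nat_lit 1900) (nat_lit 6384915115) (nat_lit 1900) (nat_lit 6384915115) (nat_lit 481) (nat_lit 3) (nat_lit 506) (nat_lit 3) (nat_lit 506) (nat_lit 5) (nat_lit 624) (nat_lit 624) (nat_lit 312)) (XT.nd (nat_lit 78) (nat_lit 0) (nat_lit 76) (XT.lf (nat_lit 76) (nat_lit 3146942818) (nat_lit 0) (nat_lit 3341434882) (nat_lit 1900) (nat_lit 25707914402) (nat_lit 482) (nat_lit 5) (nat_lit 481) (nat_lit 3) (nat_lit 506) (nat_lit 5) (nat_lit 625) (nat_lit 624) (nat_lit 311)) (XT.lf (nat_lit 0) (nat_lit 6807464949) (nat_lit 1824) (nat_lit 13047068585) (nat_lit 1900) (nat_lit 12661836086) (nat_lit 482) (nat_lit 5) (nat_lit 506) (nat_lit 5) (nat_lit 507) (nat_lit 5) (nat_lit 626) (nat_lit 624) (nat_lit 310)))) (XT.nd (nat_lit 78) (nat_lit 0) (nat_lit 76) (XT.lf (nat_lit 76) (nat_lit 3295446681) (nat_lit 0) (nat_lit 3879340323) (nat_lit 1900) (nat_lit 25667224672) (nat_lit 483) (nat_lit 5) (nat_lit 482) (nat_lit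 5) (nat_lit 507) (nat_lit 5) (nat_lit 627) (nat_lit 624) (nat_lit 309)) (XT.nd (nat_lit 78) (nat_lit 0) (nat_lit 0) (XT.lf (nat_lit 0) (nat_lit 7716556693) (nat_lit 1824) (nat_lit 13112869952) (nat_lit 1900) (nat_lit 12341397954) (nat_lit 483) (nat_lit 5) (nat_lit 507) (nat_lit 5) (nat_lit 508) (nat_lit 5) (nat_lit 628) (nat_lit 624) (nat_lit 308)) (XT.lf (nat_lit 76) (nat_lit 3671038064) (nat_lit 0) (nat_lit 4646041625) (nat_lit 1900) (nat_lit 25188175782) (nat_lit 484) (nat_lit 5) (nat_lit 483) (nat_lit 5) (nat_lit 508) (nat_lit 5) (nat_lit 629) (nat_lit 624) (nat_lit 307))))))))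
noncomputable def xc235 : XT := (XT.nd (nat_lit 1560) (nat_lit 10108) (nat_lit 0) (XT.nd (nat_lit 780) (nat_lit 1368) (nat_lit 0) (XT.nd (nat_lit 390) (nat_lit 0) (nat_lit 152) (XT.nd (nat_lit 156) (nat_lit 0) (nat_lit 76) (XT.nd (nat_lit 78) (nat_lit 0) (nat_lit 0) (XT.lf (nat_lit 0) (nat_lit 9093621784) (nat_lit 1824) (nat_lit 12954781012) (nat_lit 1900) (nat_lit 11794692040) (nat_lit 484) (nat_lit 5) (nat_lit 508) (nat_lit 5) (nat_lit 509) (nat_lit 5) (nat_lit 630) (nat_lit 624) (nat_lit 306)) (XT.lf (nat_lit 76) (nat_lit 4286769647) (nat_lit 0) (nat_lit 5655979136) (nat_lit 1900) (nat_lit 24243801169) (nat_lit 485) (nat_lit 5) (nat_lit 484) (nat_lit 5) (nat_lit 509) (nat_lit 5) (nat_lit 631) (nat_lit 624) (nat_lit 305))) (XT.nd (nat_lit 78) (nat_lit 0) (nat_lit 0) (XT.lf (nat_lit 0) (nat_lit 10966685445) (nat_lit 1824) (nat_lit 12559747193) (nat_lit 1900) (nat_lit 11007285038) (nat_lit 485) (nat_lit 5) (nat_lit 509) (nat_lit 5) (nat_lit 510) (nat_lit 5) (nat_lit 632) (nat_lit 624) (nat_lit 304)) (XT.nd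 (nat_lit 78) (nat_lit 0) (nat_lit 76) (XT.lf (nat_lit 76) (nat_lit 5156318528) (nat_lit 0) (nat_lit 6924228420) (nat_lit 1900) (nat_lit 22805892927) (nat_lit 486) (nat_lit 5) (nat_lit 485) (nat_lit 5) (nat_lit 510) (nat_lit 5) (nat_lit 633) (nat_lit 624) (nat_lit 303)) (XT.lf (nat_lit 0) (nat_lit 13365055722) (nat_lit 1824) (nat_lit 11914088425) (nat_lit 1900) (nat_lit 9964105015) (nat_lit 486) (nat_lit 5) (nat_lit 510) (nat_lit 5) (nat_lit 511) (nat_lit 5) (nat_lit 634) (nat_lit 624) (nat_lit 302))))) (XT.nd (nat_lit 156) (nat_lit 0) (nat_lit 76) (XT.nd (nat_lit 78) (nat_lit 0) (nat_lit 76) (XT.lf (nat_lit 76) (nat_lit 6294011383) (nat_lit 0) (nat_lit 8466530351) (nat_lit 1900) (nat_lit 20844947203) (nat_lit 487) (nat_lit 5) (nat_lit 486) (nat_lit 5) (nat_lit 511) (nat_lit 5) (nat_lit 635) (nat_lit 624) (nat_lit 301)) (XT.lf (nat_lit 0) (nat_lit 16319379655) (nat_lit 1824) (nat_lit 11003473846) (nat_lit 1900) (nat_lit 8649411205) (nat_lit 487) (nat_lit 5) (nat_lit 511) (nat_lit 5) (nat_lit 512) (nat_lit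 5) (nat_lit 636) (nat_lit 624) (nat_lit 300))) (XT.nd (nat_lit 78) (nat_lit 0) (nat_lit 76) (XT.lf (nat_lit 76) (nat_lit 7714850703) (nat_lit 0) (nat_lit 10299322349) (nat_lit 1900) (nat_lit 18330107406) (nat_lit 488) (nat_lit 5) (nat_lit 487) (nat_lit 5) (nat_lit 512) (nat_lit 5) (nat_lit 637) (nat_lit 624) (nat_lit 299)) (XT.nd (nat_lit 78) (nat_lit 0) (nat_lit 0) (XT.lf (nat_lit 0) (nat_lit 19861701693) (nat_lit 1824) (nat_lit 9812895431) (nat_lit 1900) (nat_lit 7046762654) (nat_lit 488) (nat_lit 5) (nat_lit 512) (nat_lit 5) (nat_lit 513) (nat_lit 5) (nat_lit 638) (nat_lit 624) (nat_lit 298)) (XT.lf (nat_lit 76) (nat_lit 9434542149) (nat_lit 0) (nat_lit 12439770800) (nat_lit 1900) (nat_lit 15229105134) (nat_lit 489) (nat_lit 5) (nat_lit 488) (nat_lit 5) (nat_lit 513) (nat_lit 5) (nat_lit 639) (nat_lit 624) (nat_lit 297)))))) (XT.nd (nat_lit 390) (nat_lit 1748) (nat_lit 0) (XT.nd (nat_lit 156) (nat_lit 0) (nat_lit 76) (XT.nd (nat_lit 78) (nat_lit 0) (nat_lit 0) (XT.lf (nat_lit 0) (nat_lit 24025524472)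 (nat_lit 1824) (nat_lit 8326640497) (nat_lit 1900) (nat_lit 5138985664) (nat_lit 489) (nat_lit 5) (nat_lit 513) (nat_lit 5) (nat_lit 514) (nat_lit 5) (nat_lit 640) (nat_lit 624) (nat_lit 296)) (XT.lf (nat_lit 76) (nat_lit 11469523067) (nat_lit 0) (nat_lit 14905804730) (nat_lit 1900) (nat_lit 11508198723) (nat_lit 490) (nat_lit 5) (nat_lit 489) (nat_lit 5) (nat_lit 514) (nat_lit 5) (nat_lit 641) (nat_lit 624) (nat_lit 295))) (XT.nd (nat_lit 78) (nat_lit 0) (nat_lit 0) (XT.lf (nat_lit 0) (nat_lit 28845872030) (nat_lit 1824) (nat_lit 6528263052) (nat_lit 1900) (nat_lit 2908139983) (nat_lit 490) (nat_lit 5) (nat_lit 514) (nat_lit 5) (nat_lit 515) (nat_lit 5) (nat_lit 642) (nat_lit 624) (nat_lit 294)) (XT.nd (nat_lit 78) (nat_lit 0) (nat_lit 76) (XT.lf (nat_lit 76) (nat_lit 13836992194) (nat_lit 0) (nat_lit 17716150786) (nat_lit 1900) (nat_lit 7132109323) (nat_lit 491) (nat_lit 5) (nat_lit 490) (nat_lit 5) (nat_lit 515) (nat_lit 5) (nat_lit 643) (nat_lit 624) (nat_lit 293)) (XT.lf (nat_lit 0) (nat_lit 34359355581)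 (nat_lit 1824) (nat_lit 4400553942) (nat_lit 1900) (nat_lit 335483672) (nat_lit 491) (nat_lit 5) (nat_lit 515) (nat_lit 5) (nat_lit 516) (nat_lit 5) (nat_lit 644) (nat_lit 624) (nat_lit 292))))) (XT.nd (nat_lit 156) (nat_lit 0) (nat_lit 76) (XT.nd (nat_lit 78) (nat_lit 1900) (nat_lit 0) (XT.lf (nat_lit 76) (nat_lit 16554940617) (nat_lit 0) (nat_lit 20890369582) (nat_lit 1900) (nat_lit 2063954388) (nat_lit 492) (nat_lit 5) (nat_lit 491) (nat_lit 5) (nat_lit 516) (nat_lit 5) (nat_lit 645) (nat_lit 624) (nat_lit 291)) (XT.lf (nat_lit 0) (nat_lit 681435467) (nat_lit 1900) (nat_lit 1947088686) (nat_lit 1976) (nat_lit 37302232547) (nat_lit 466) (nat_lit 5) (nat_lit 491) (nat_lit 5) (nat_lit 492) (nat_lit 5) (nat_lit 646) (nat_lit 624) (nat_lit 290))) (XT.nd (nat_lit 78) (nat_lit 0) (nat_lit 0) (XT.lf (nat_lit 0) (nat_lit 3685838663) (nat_lit 1900) (nat_lit 20738320907) (nat_lit 1976) (nat_lit 15931611428) (nat_lit 467) (nat_lit 5) (nat_lit 492) (nat_lit 5) (nat_lit 493) (nat_lit 5) (nat_lit 647) (nat_lit 624)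 (nat_lit 289)) (XT.nd (nat_lit 78) (nat_lit 0) (nat_lit 76) (XT.lf (nat_lit 76) (nat_lit 843244400) (nat_lit 0) (nat_lit 5941977503) (nat_lit 1976) (nat_lit 34003365872) (nat_lit 468) (nat_lit 5) (nat_lit 467) (nat_lit 5) (nat_lit 493) (nat_lit 5) (nat_lit 648) (nat_lit 624) (nat_lit 288)) (XT.lf (nat_lit 0) (nat_lit 10169373107) (nat_lit 1900) (nat_lit 18175450955) (nat_lit 76) (nat_lit 12880781252) (nat_lit 468) (nat_lit 5) (nat_lit 493) (nat_lit 5) (nat_lit 469) (nat_lit 5) (nat_lit 649) (nat_lit 624) (nat_lit 287))))))) (XT.nd (nat_lit 780) (nat_lit 4636) (nat_lit 0) (XT.nd (nat_lit 390) (nat_lit 2660) (nat_lit 0) (XT.nd (nat_lit 156) (nat_lit 1824) (nat_lit 0) (XT.nd (nat_lit 78) (nat_lit 0) (nat_lit 0) (XT.lf (nat_lit 0) (nat_lit 4042539594) (nat_lit 1140) (nat_lit 9643161835) (nat_lit 1216) (nat_lit 27984371923) (nat_lit 453) (nat_lit 5) (nat_lit 468) (nat_lit 5) (nat_lit 469) (nat_lit 5) (nat_lit 650) (nat_lit 624) (nat_lit 286)) (XT.lf (nat_lit 0) (nat_lit 17455285779) (nat_lit 1216) (nat_lit 15232762195)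 (nat_lit 76) (nat_lit 9431724218) (nat_lit 453) (nat_lit 5) (nat_lit 469) (nat_lit 5) (nat_lit 454) (nat_lit 5) (nat_lit 651) (nat_lit 624) (nat_lit 285))) (XT.nd (nat_lit 78) (nat_lit 912) (nat_lit 0) (XT.lf (nat_lit 0) (nat_lit 7645348445) (nat_lit 912) (nat_lit 13767347989) (nat_lit 988) (nat_lit 21163519913) (nat_lit 441) (nat_lit 5) (nat_lit 453) (nat_lit 5) (nat_lit 454) (nat_lit 5) (nat_lit 652) (nat_lit 624) (nat_lit 284)) (XT.nd (nat_lit 78) (nat_lit 912) (nat_lit 0) (XT.lf (nat_lit 0) (nat_lit 25587017237) (nat_lit 988) (nat_lit 11889812229) (nat_lit 76) (nat_lit 5562204712) (nat_lit 441) (nat_lit 5) (nat_lit 454) (nat_lit 5) (nat_lit 442) (nat_lit 5) (nat_lit 653) (nat_lit 624) (nat_lit 283)) (XT.lf (nat_lit 0) (nat_lit 11673023288) (nat_lit 912) (nat_lit 18337734504) (nat_lit 988) (nat_lit 13497031934) (nat_lit 429) (nat_lit 5) (nat_lit 441) (nat_lit 5) (nat_lit 442) (nat_lit 5) (nat_lit 654) (nat_lit 624) (nat_lit 282))))) (XT.nd (nat_lit 156) (nat_lit 1824) (nat_lit 0) (XT.nd (nat_lit 78) (nat_lit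 836) (nat_lit 0) (XT.lf (nat_lit 0) (nat_lit 34609960929) (nat_lit 988) (nat_lit 8125231239) (nat_lit 76) (nat_lit 1248988491) (nat_lit 429) (nat_lit 5) (nat_lit 442) (nat_lit 5) (nat_lit 430) (nat_lit 5) (nat_lit 655) (nat_lit 624) (nat_lit 281)) (XT.lf (nat_lit 0) (nat_lit 16147879156) (nat_lit 836) (nat_lit 23378557824) (nat_lit 912) (nat_lit 4939156681) (nat_lit 418) (nat_lit 5) (nat_lit 429) (nat_lit 5) (nat_lit 430) (nat_lit 5) (nat_lit 656) (nat_lit 624) (nat_lit 280))) (XT.nd (nat_lit 78) (nat_lit 1824) (nat_lit 0) (XT.lf (nat_lit 0) (nat_lit 41015641801) (nat_lit 836) (nat_lit 3579142850) (nat_lit 912) (nat_lit 360779456) (nat_lit 418) (nat_lit 5) (nat_lit 429) (nat_lit 5) (nat_lit 430) (nat_lit 5) (nat_lit 657) (nat_lit 624) (nat_lit 279)) (XT.nd (nat_lit 78) (nat_lit 836) (nat_lit 0) (XT.lf (nat_lit 0) (nat_lit 4498136892) (nat_lit 988) (nat_lit 24386816551) (nat_lit 76) (nat_lit 16564911248) (nat_lit 405) (nat_lit 5) (nat_lit 418) (nat_lit 5) (nat_lit 406) (nat_lit 5) (nat_lit 658) (nat_lit 624)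 (nat_lit 278)) (XT.lf (nat_lit 0) (nat_lit 647226399) (nat_lit 836) (nat_lit 8855741475) (nat_lit 912) (nat_lit 36449964398) (nat_lit 394) (nat_lit 5) (nat_lit 405) (nat_lit 5) (nat_lit 406) (nat_lit 5) (nat_lit 659) (nat_lit 624) (nat_lit 277)))))) (XT.nd (nat_lit 390) (nat_lit 3040) (nat_lit 0) (XT.nd (nat_lit 156) (nat_lit 760) (nat_lit 0) (XT.nd (nat_lit 78) (nat_lit 836) (nat_lit 0) (XT.lf (nat_lit 0) (nat_lit 14846830023) (nat_lit 912) (nat_lit 20027468057) (nat_lit 76) (nat_lit 11586984460) (nat_lit 394) (nat_lit 5) (nat_lit 406) (nat_lit 5) (nat_lit 395) (nat_lit 5) (nat_lit 660) (nat_lit 624) (nat_lit 276)) (XT.lf (nat_lit 0) (nat_lit 5772443325) (nat_lit 836) (nat_lit 14620326393) (nat_lit 912) (nat_lit 26585126114) (nat_lit 383) (nat_lit 5) (nat_lit 394) (nat_lit 5) (nat_lit 395) (nat_lit 5) (nat_lit 661) (nat_lit 624) (nat_lit 275))) (XT.nd (nat_lit 78) (nat_lit 760) (nat_lit 0) (XT.lf (nat_lit 0) (nat_lit 26223206794) (nat_lit 912) (nat_lit 15183382765) (nat_lit 76) (nat_lit 6094780284) (nat_lit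 383) (nat_lit 5) (nat_lit 395) (nat_lit 5) (nat_lit 384) (nat_lit 5) (nat_lit 662) (nat_lit 624) (nat_lit 274)) (XT.nd (nat_lit 78) (nat_lit 0) (nat_lit 0) (XT.lf (nat_lit 0) (nat_lit 11411019086) (nat_lit 760) (nat_lit 20929248992) (nat_lit 836) (nat_lit 15691644969) (nat_lit 373) (nat_lit 5) (nat_lit 383) (nat_lit 5) (nat_lit 384) (nat_lit 5) (nat_lit 663) (nat_lit 624) (nat_lit 273)) (XT.lf (nat_lit 0) (nat_lit 38681074144) (nat_lit 836) (nat_lit 9829259999) (nat_lit 76) (nat_lit 60704926) (nat_lit 373) (nat_lit 5) (nat_lit 384) (nat_lit 5) (nat_lit 374) (nat_lit 5) (nat_lit 664) (nat_lit 624) (nat_lit 272))))) (XT.nd (nat_lit 234) (nat_lit 1444) (nat_lit 0) (XT.nd (nat_lit 78) (nat_lit 836) (nat_lit 0) (XT.lf (nat_lit 0) (nat_lit 17589353947) (nat_lit 760) (nat_lit 27811281126) (nat_lit 836) (nat_lit 3715273787) (nat_lit 363) (nat_lit 5) (nat_lit 373) (nat_lit 5) (nat_lit 374) (nat_lit 5) (nat_lit 665) (nat_lit 624) (nat_lit 271)) (XT.nd (nat_lit 78) (nat_lit 760) (nat_lit 0) (XT.lf (nat_lit 0) (nat_lit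 2614570124) (nat_lit 836) (nat_lit 3998926527) (nat_lit 76) (nat_lit 43056533331) (nat_lit 362) (nat_lit 5) (nat_lit 373) (nat_lit 5) (nat_lit 363) (nat_lit 5) (nat_lit 666) (nat_lit 624) (nat_lit 270)) (XT.lf (nat_lit 0) (nat_lit 9277366888) (nat_lit 836) (nat_lit 25956858776) (nat_lit 76) (nat_lit 14995394656) (nat_lit 352) (nat_lit 5) (nat_lit 363) (nat_lit 5) (nat_lit 353) (nat_lit 5) (nat_lit 667) (nat_lit 624) (nat_lit 269)))) (XT.nd (nat_lit 78) (nat_lit 684) (nat_lit 0) (XT.lf (nat_lit 0) (nat_lit 2350137979) (nat_lit 760) (nat_lit 13808515825) (nat_lit 836) (nat_lit 34640043996) (nat_lit 342) (nat_lit 5) (nat_lit 352) (nat_lit 5) (nat_lit 353) (nat_lit 5) (nat_lit 668) (nat_lit 624) (nat_lit 268)) (XT.nd (nat_lit 78) (nat_lit 684) (nat_lit 0) (XT.lf (nat_lit 0) (nat_lit 23404316905) (nat_lit 836) (nat_lit 19854880662) (nat_lit 76) (nat_lit 8115424276) (nat_lit 342) (nat_lit 5) (nat_lit 353) (nat_lit 5) (nat_lit 343) (nat_lit 5) (nat_lit 669) (nat_lit 624) (nat_lit 267)) (XT.lf (nat_lit 0) (nat_lit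 9340807181) (nat_lit 684) (nat_lit 21605370759) (nat_lit 760) (nat_lit 21012860753) (nat_lit 333) (nat_lit 5) (nat_lit 342) (nat_lit 5) (nat_lit 343) (nat_lit 5) (nat_lit 670) (nat_lit 624) (nat_lit 266))))))))
noncomputable def xc236 : XT := (XT.nd (nat_lit 79014) (nat_lit 0) (nat_lit 4484) (XT.nd (nat_lit 78234) (nat_lit 0) (nat_lit 12236) (XT.nd (nat_lit 77844) (nat_lit 0) (nat_lit 12008) (XT.nd (nat_lit 77610) (nat_lit 0) (nat_lit 11932) (XT.nd (nat_lit 78) (nat_lit 684) (nat_lit 0) (XT.lf (nat_lit 0) (nat_lit 38775321655) (nat_lit 760) (nat_lit 13167874318) (nat_lit 76) (nat_lit 609219018) (nat_lit 333) (nat_lit 5) (nat_lit 343) (nat_lit 5) (nat_lit 334) (nat_lit 5) (nat_lit 671) (nat_lit 624) (nat_lit 265)) (XT.lf (nat_lit 0) (nat_lit 16949792677) (nat_lit 684) (nat_lit 30063602441) (nat_lit 760) (nat_lit 6139216779) (nat_lit 324) (nat_lit 5) (nat_lit 333) (nat_lit 5) (nat_lit 334) (nat_lit 5) (nat_lit 672) (nat_lit 624) (nat_lit 264))) (XT.nd (nat_lit 78) (nat_lit 0) (nat_lit 0) (XT.lf (nat_lit 0)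 (nat_lit 3297748565) (nat_lit 1900) (nat_lit 6479677664) (nat_lit 1900) (nat_lit 6479677664) (nat_lit 481) (nat_lit 3) (nat_lit 506) (nat_lit 3) (nat_lit 506) (nat_lit 5) (nat_lit 625) (nat_lit 625) (nat_lit 310)) (XT.nd (nat_lit 78) (nat_lit 0) (nat_lit 76) (XT.lf (nat_lit 76) (nat_lit 3275319815) (nat_lit 0) (nat_lit 3469873820) (nat_lit 1900) (nat_lit 26092479510) (nat_lit 482) (nat_lit 5) (nat_lit 481) (nat_lit 3) (nat_lit 506) (nat_lit 5) (nat_lit 626) (nat_lit 625) (nat_lit 309)) (XT.lf (nat_lit 0) (nat_lit 7067779312) (nat_lit 1824) (nat_lit 13240967844) (nat_lit 1900) (nat_lit 12855462797) (nat_lit 482) (nat_lit 5) (nat_lit 506) (nat_lit 5) (nat_lit 507) (nat_lit 5) (nat_lit 627) (nat_lit 625) (nat_lit 308))))) (XT.nd (nat_lit 156) (nat_lit 0) (nat_lit 76) (XT.nd (nat_lit 78) (nat_lit 0) (nat_lit 76) (XT.lf (nat_lit 76) (nat_lit 3427956660) (nat_lit 0) (nat_lit 4012488957) (nat_lit 1900) (nat_lit 26055959352) (nat_lit 483) (nat_lit 5) (nat_lit 482) (nat_lit 5) (nat_lit 507) (nat_lit 5) (nat_lit 628)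 (nat_lit 625) (nat_lit 307)) (XT.lf (nat_lit 0) (nat_lit 7990301679) (nat_lit 1824) (nat_lit 13307079576) (nat_lit 1900) (nat_lit 12534467948) (nat_lit 483) (nat_lit 5) (nat_lit 507) (nat_lit 5) (nat_lit 508) (nat_lit 5) (nat_lit 629) (nat_lit 625) (nat_lit 306))) (XT.nd (nat_lit 78) (nat_lit 0) (nat_lit 76) (XT.lf (nat_lit 76) (nat_lit 3812058918) (nat_lit 0) (nat_lit 4788873674) (nat_lit 1900) (nat_lit 25572074223) (nat_lit 484) (nat_lit 5) (nat_lit 483) (nat_lit 5) (nat_lit 508) (nat_lit 5) (nat_lit 630) (nat_lit 625) (nat_lit 305)) (XT.nd (nat_lit 78) (nat_lit 0) (nat_lit 0) (XT.lf (nat_lit 0) (nat_lit 9390383682) (nat_lit 1824) (nat_lit 13144976715) (nat_lit 1900) (nat_lit 11982295075) (nat_lit 484) (nat_lit 5) (nat_lit 508) (nat_lit 5) (nat_lit 509) (nat_lit 5) (nat_lit 631) (nat_lit 625) (nat_lit 304)) (XT.lf (nat_lit 76) (nat_lit 4440951668) (nat_lit 0) (nat_lit 5813733220) (nat_lit 1900) (nat_lit 24613331038) (nat_lit 485) (nat_lit 5) (nat_lit 484) (nat_lit 5) (nat_lit 509) (nat_lit 5) (nat_lit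 632) (nat_lit 625) (nat_lit 303)))))) (XT.nd (nat_lit 390) (nat_lit 0) (nat_lit 152) (XT.nd (nat_lit 156) (nat_lit 0) (nat_lit 76) (XT.nd (nat_lit 78) (nat_lit 0) (nat_lit 0) (XT.lf (nat_lit 0) (nat_lit 11296598891) (nat_lit 1824) (nat_lit 12741332872) (nat_lit 1900) (nat_lit 11184245335) (nat_lit 485) (nat_lit 5) (nat_lit 509) (nat_lit 5) (nat_lit 510) (nat_lit 5) (nat_lit 633) (nat_lit 625) (nat_lit 302)) (XT.lf (nat_lit 76) (nat_lit 5328596207) (nat_lit 0) (nat_lit 7102422163) (nat_lit 1900) (nat_lit 23150969822) (nat_lit 486) (nat_lit 5) (nat_lit 485) (nat_lit 5) (nat_lit 510) (nat_lit 5) (nat_lit 634) (nat_lit 625) (nat_lit 301))) (XT.nd (nat_lit 78) (nat_lit 0) (nat_lit 0) (XT.lf (nat_lit 0) (nat_lit 13738830038) (nat_lit 1824) (nat_lit 12082184304) (nat_lit 1900) (nat_lit 10124967134) (nat_lit 486) (nat_lit 5) (nat_lit 510) (nat_lit 5) (nat_lit 511) (nat_lit 5) (nat_lit 635) (nat_lit 625) (nat_lit 300)) (XT.nd (nat_lit 78) (nat_lit 0) (nat_lit 76) (XT.lf (nat_lit 76) (nat_lit 6489615751) (nat_lit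 0) (nat_lit 8670975004) (nat_lit 1900) (nat_lit 21154908054) (nat_lit 487) (nat_lit 5) (nat_lit 486) (nat_lit 5) (nat_lit 511) (nat_lit 5) (nat_lit 636) (nat_lit 625) (nat_lit 299)) (XT.lf (nat_lit 0) (nat_lit 16748326271) (nat_lit 1824) (nat_lit 11152904076) (nat_lit 1900) (nat_lit 8788425391) (nat_lit 487) (nat_lit 5) (nat_lit 511) (nat_lit 5) (nat_lit 512) (nat_lit 5) (nat_lit 637) (nat_lit 625) (nat_lit 298))))) (XT.nd (nat_lit 156) (nat_lit 0) (nat_lit 76) (XT.nd (nat_lit 78) (nat_lit 0) (nat_lit 76) (XT.lf (nat_lit 76) (nat_lit 7939322231) (nat_lit 0) (nat_lit 10536137962) (nat_lit 1900) (nat_lit 18593682779) (nat_lit 488) (nat_lit 5) (nat_lit 487) (nat_lit 5) (nat_lit 512) (nat_lit 5) (nat_lit 638) (nat_lit 625) (nat_lit 297)) (XT.lf (nat_lit 0) (nat_lit 20357762705) (nat_lit 1824) (nat_lit 9938175130) (nat_lit 1900) (nat_lit 7157869636) (nat_lit 488) (nat_lit 5) (nat_lit 512) (nat_lit 5) (nat_lit 513) (nat_lit 5) (nat_lit 639) (nat_lit 625) (nat_lit 296))) (XT.nd (nat_lit 78) (nat_lit 0) (nat_lit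 76) (XT.lf (nat_lit 76) (nat_lit 9693744239) (nat_lit 0) (nat_lit 12715401968) (nat_lit 1900) (nat_lit 15434390393) (nat_lit 489) (nat_lit 5) (nat_lit 488) (nat_lit 5) (nat_lit 513) (nat_lit 5) (nat_lit 640) (nat_lit 625) (nat_lit 295)) (XT.nd (nat_lit 78) (nat_lit 0) (nat_lit 0) (XT.lf (nat_lit 0) (nat_lit 24601302377) (nat_lit 1824) (nat_lit 8421962202) (nat_lit 1900) (nat_lit 5215800870) (nat_lit 489) (nat_lit 5) (nat_lit 513) (nat_lit 5) (nat_lit 514) (nat_lit 5) (nat_lit 641) (nat_lit 625) (nat_lit 294)) (XT.lf (nat_lit 76) (nat_lit 11769656138) (nat_lit 0) (nat_lit 15227036949) (nat_lit 1900) (nat_lit 11642623996) (nat_lit 490) (nat_lit 5) (nat_lit 489) (nat_lit 5) (nat_lit 514) (nat_lit 5) (nat_lit 642) (nat_lit 625) (nat_lit 293))))))) (XT.nd (nat_lit 780) (nat_lit 5320) (nat_lit 0) (XT.nd (nat_lit 390) (nat_lit 988) (nat_lit 0) (XT.nd (nat_lit 156) (nat_lit 1824) (nat_lit 0) (XT.nd (nat_lit 78) (nat_lit 0) (nat_lit 0) (XT.lf (nat_lit 0) (nat_lit 29514660696) (nat_lit 1824) (nat_lit 6587482567) (nat_lit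 1900) (nat_lit 2943937142) (nat_lit 490) (nat_lit 5) (nat_lit 514) (nat_lit 5) (nat_lit 515) (nat_lit 5) (nat_lit 643) (nat_lit 625) (nat_lit 292)) (XT.lf (nat_lit 76) (nat_lit 14184608405) (nat_lit 0) (nat_lit 18090127440) (nat_lit 1900) (nat_lit 7182408221) (nat_lit 491) (nat_lit 5) (nat_lit 490) (nat_lit 5) (nat_lit 515) (nat_lit 5) (nat_lit 644) (nat_lit 625) (nat_lit 291))) (XT.nd (nat_lit 78) (nat_lit 1900) (nat_lit 0) (XT.lf (nat_lit 0) (nat_lit 35135172498) (nat_lit 1824) (nat_lit 4417175556) (nat_lit 1900) (nat_lit 323177780) (nat_lit 491) (nat_lit 5) (nat_lit 515) (nat_lit 5) (nat_lit 516) (nat_lit 5) (nat_lit 645) (nat_lit 625) (nat_lit 290)) (XT.nd (nat_lit 78) (nat_lit 1900) (nat_lit 0) (XT.lf (nat_lit 76) (nat_lit 16956959227) (nat_lit 0) (nat_lit 21324609601) (nat_lit 1900) (nat_lit 2016131424) (nat_lit 492) (nat_lit 5) (nat_lit 491) (nat_lit 5) (nat_lit 516) (nat_lit 5) (nat_lit 646) (nat_lit 625) (nat_lit 289)) (XT.lf (nat_lit 0) (nat_lit 781273453) (nat_lit 1900) (nat_lit 1915353092) (nat_lit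 1976) (nat_lit 38031018626) (nat_lit 466) (nat_lit 5) (nat_lit 491) (nat_lit 5) (nat_lit 492) (nat_lit 5) (nat_lit 647) (nat_lit 625) (nat_lit 288))))) (XT.nd (nat_lit 156) (nat_lit 1064) (nat_lit 0) (XT.nd (nat_lit 78) (nat_lit 0) (nat_lit 0) (XT.lf (nat_lit 0) (nat_lit 3844434353) (nat_lit 1900) (nat_lit 21081077168) (nat_lit 1976) (nat_lit 16235674889) (nat_lit 467) (nat_lit 5) (nat_lit 492) (nat_lit 5) (nat_lit 493) (nat_lit 5) (nat_lit 648) (nat_lit 625) (nat_lit 287)) (XT.lf (nat_lit 76) (nat_lit 931645694) (nat_lit 0) (nat_lit 6072959732) (nat_lit 1976) (nat_lit 34598078140) (nat_lit 468) (nat_lit 5) (nat_lit 467) (nat_lit 5) (nat_lit 493) (nat_lit 5) (nat_lit 649) (nat_lit 625) (nat_lit 286))) (XT.nd (nat_lit 78) (nat_lit 1140) (nat_lit 0) (XT.lf (nat_lit 0) (nat_lit 10454721596) (nat_lit 1900) (nat_lit 18467105848) (nat_lit 76) (nat_lit 13126648420) (nat_lit 468) (nat_lit 5) (nat_lit 493) (nat_lit 5) (nat_lit 469) (nat_lit 5) (nat_lit 650) (nat_lit 625) (nat_lit 285)) (XT.nd (nat_lit 78) (nat_lit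 0) (nat_lit 0) (XT.lf (nat_lit 0) (nat_lit 4194771788) (nat_lit 1140) (nat_lit 9845461073) (nat_lit 1216) (nat_lit 28461623320) (nat_lit 453) (nat_lit 5) (nat_lit 468) (nat_lit 5) (nat_lit 469) (nat_lit 5) (nat_lit 651) (nat_lit 625) (nat_lit 284)) (XT.lf (nat_lit 0) (nat_lit 17883564179) (nat_lit 1216) (nat_lit 15465788709) (nat_lit 76) (nat_lit 9611229049) (nat_lit 453) (nat_lit 5) (nat_lit 469) (nat_lit 5) (nat_lit 454) (nat_lit 5) (nat_lit 652) (nat_lit 625) (nat_lit 283)))))) (XT.nd (nat_lit 390) (nat_lit 2660) (nat_lit 0) (XT.nd (nat_lit 156) (nat_lit 1748) (nat_lit 0) (XT.nd (nat_lit 78) (nat_lit 0) (nat_lit 0) (XT.lf (nat_lit 0) (nat_lit 7869412902) (nat_lit 912) (nat_lit 14049619742) (nat_lit 988) (nat_lit 21507144184) (nat_lit 441) (nat_lit 5) (nat_lit 453) (nat_lit 5) (nat_lit 454) (nat_lit 5) (nat_lit 653) (nat_lit 625) (nat_lit 282)) (XT.lf (nat_lit 0) (nat_lit 26175264759) (nat_lit 988) (nat_lit 12056268968) (nat_lit 76) (nat_lit 5666748833) (nat_lit 441) (nat_lit 5) (nat_lit 454) (nat_lit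 5) (nat_lit 442) (nat_lit 5) (nat_lit 654) (nat_lit 625) (nat_lit 281))) (XT.nd (nat_lit 78) (nat_lit 836) (nat_lit 0) (XT.lf (nat_lit 0) (nat_lit 11977353920) (nat_lit 912) (nat_lit 18709086200) (nat_lit 988) (nat_lit 13689993941) (nat_lit 429) (nat_lit 5) (nat_lit 441) (nat_lit 5) (nat_lit 442) (nat_lit 5) (nat_lit 655) (nat_lit 625) (nat_lit 280)) (XT.nd (nat_lit 78) (nat_lit 836) (nat_lit 0) (XT.lf (nat_lit 0) (nat_lit 35376118310) (nat_lit 988) (nat_lit 8216744225) (nat_lit 76) (nat_lit 1269520500) (nat_lit 429) (nat_lit 5) (nat_lit 442) (nat_lit 5) (nat_lit 430) (nat_lit 5) (nat_lit 656) (nat_lit 625) (nat_lit 279)) (XT.lf (nat_lit 0) (nat_lit 16541361329) (nat_lit 836) (nat_lit 23848570286) (nat_lit 912) (nat_lit 4963512568) (nat_lit 418) (nat_lit 5) (nat_lit 429) (nat_lit 5) (nat_lit 430) (nat_lit 5) (nat_lit 657) (nat_lit 625) (nat_lit 278))))) (XT.nd (nat_lit 234) (nat_lit 836) (nat_lit 0) (XT.nd (nat_lit 78) (nat_lit 1824) (nat_lit 0) (XT.lf (nat_lit 0) (nat_lit 41905096391) (nat_lit 836) (nat_lit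 3653119144) (nat_lit 912) (nat_lit 295027157) (nat_lit 418) (nat_lit 5) (nat_lit 429) (nat_lit 5) (nat_lit 430) (nat_lit 5) (nat_lit 658) (nat_lit 625) (nat_lit 277)) (XT.nd (nat_lit 78) (nat_lit 836) (nat_lit 0) (XT.lf (nat_lit 0) (nat_lit 4659141533) (nat_lit 988) (nat_lit 24803481273) (nat_lit 76) (nat_lit 16894816424) (nat_lit 405) (nat_lit 5) (nat_lit 418) (nat_lit 5) (nat_lit 406) (nat_lit 5) (nat_lit 659) (nat_lit 625) (nat_lit 276)) (XT.lf (nat_lit 0) (nat_lit 730774959) (nat_lit 836) (nat_lit 9032359606) (nat_lit 912) (nat_lit 37107452328) (nat_lit 394) (nat_lit 5) (nat_lit 405) (nat_lit 5) (nat_lit 406) (nat_lit 5) (nat_lit 660) (nat_lit 625) (nat_lit 275)))) (XT.nd (nat_lit 78) (nat_lit 836) (nat_lit 0) (XT.lf (nat_lit 0) (nat_lit 15212502465) (nat_lit 912) (nat_lit 20357424445) (nat_lit 76) (nat_lit 11819204722) (nat_lit 394) (nat_lit 5) (nat_lit 406) (nat_lit 5) (nat_lit 395) (nat_lit 5) (nat_lit 661) (nat_lit 625) (nat_lit 274)) (XT.nd (nat_lit 78) (nat_lit 0) (nat_lit 0) (XT.lf (nat_lit 0)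 (nat_lit 5958020737) (nat_lit 836) (nat_lit 14910447776) (nat_lit 912) (nat_lit 27047626562) (nat_lit 383) (nat_lit 5) (nat_lit 394) (nat_lit 5) (nat_lit 395) (nat_lit 5) (nat_lit 662) (nat_lit 625) (nat_lit 273)) (XT.lf (nat_lit 0) (nat_lit 26814198614) (nat_lit 912) (nat_lit 15416979457) (nat_lit 76) (nat_lit 6218886845) (nat_lit 383) (nat_lit 5) (nat_lit 395) (nat_lit 5) (nat_lit 384) (nat_lit 5) (nat_lit 663) (nat_lit 625) (nat_lit 272))))))))
noncomputable def xc237 : XT := (XT.nd (nat_lit 79092) (nat_lit 0) (nat_lit 7296) (XT.nd (nat_lit 78312) (nat_lit 0) (nat_lit 11248) (XT.nd (nat_lit 390) (nat_lit 1444) (nat_lit 0) (XT.nd (nat_lit 156) (nat_lit 1596) (nat_lit 0) (XT.nd (nat_lit 78) (nat_lit 0) (nat_lit 0) (XT.lf (nat_lit 0) (nat_lit 11708849438) (nat_lit 760) (nat_lit 21343899175) (nat_lit 836) (nat_lit 15938487456) (nat_lit 373) (nat_lit 5) (nat_lit 383) (nat_lit 5) (nat_lit 384) (nat_lit 5) (nat_lit 664) (nat_lit 625) (nat_lit 271)) (XT.lf (nat_lit 0) (nat_lit 39519108099) (nat_lit 836) (nat_lit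 9956335726) (nat_lit 76) (nat_lit 65726075) (nat_lit 373) (nat_lit 5) (nat_lit 384) (nat_lit 5) (nat_lit 374) (nat_lit 5) (nat_lit 665) (nat_lit 625) (nat_lit 270))) (XT.nd (nat_lit 78) (nat_lit 836) (nat_lit 0) (XT.lf (nat_lit 0) (nat_lit 18010193199) (nat_lit 760) (nat_lit 28362052390) (nat_lit 836) (nat_lit 3724707823) (nat_lit 363) (nat_lit 5) (nat_lit 373) (nat_lit 5) (nat_lit 374) (nat_lit 5) (nat_lit 666) (nat_lit 625) (nat_lit 269)) (XT.nd (nat_lit 78) (nat_lit 760) (nat_lit 0) (XT.lf (nat_lit 0) (nat_lit 2729626858) (nat_lit 836) (nat_lit 4010371127) (nat_lit 76) (nat_lit 43922175687) (nat_lit 362) (nat_lit 5) (nat_lit 373) (nat_lit 5) (nat_lit 363) (nat_lit 5) (nat_lit 667) (nat_lit 625) (nat_lit 268)) (XT.lf (nat_lit 0) (nat_lit 9524930551) (nat_lit 836) (nat_lit 26406711443) (nat_lit 76) (nat_lit 15301328833) (nat_lit 352) (nat_lit 5) (nat_lit 363) (nat_lit 5) (nat_lit 353) (nat_lit 5) (nat_lit 668) (nat_lit 625) (nat_lit 267))))) (XT.nd (nat_lit 156) (nat_lit 684) (nat_lit 0) (XT.nd (nat_lit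 78) (nat_lit 0) (nat_lit 0) (XT.lf (nat_lit 0) (nat_lit 2465969428) (nat_lit 760) (nat_lit 14077104653) (nat_lit 836) (nat_lit 35270371190) (nat_lit 342) (nat_lit 5) (nat_lit 352) (nat_lit 5) (nat_lit 353) (nat_lit 5) (nat_lit 669) (nat_lit 625) (nat_lit 266)) (XT.lf (nat_lit 0) (nat_lit 23932497778) (nat_lit 836) (nat_lit 20183344990) (nat_lit 76) (nat_lit 8285068110) (nat_lit 342) (nat_lit 5) (nat_lit 353) (nat_lit 5) (nat_lit 343) (nat_lit 5) (nat_lit 670) (nat_lit 625) (nat_lit 265))) (XT.nd (nat_lit 78) (nat_lit 0) (nat_lit 0) (XT.lf (nat_lit 0) (nat_lit 9595805075) (nat_lit 684) (nat_lit 22028655316) (nat_lit 760) (nat_lit 21372570418) (nat_lit 333) (nat_lit 5) (nat_lit 342) (nat_lit 5) (nat_lit 343) (nat_lit 5) (nat_lit 671) (nat_lit 625) (nat_lit 264)) (XT.nd (nat_lit 77610) (nat_lit 0) (nat_lit 11248) (XT.lf (nat_lit 0) (nat_lit 39609079240) (nat_lit 760) (nat_lit 13363277761) (nat_lit 76) (nat_lit 629939815) (nat_lit 333) (nat_lit 5) (nat_lit 343) (nat_lit 5) (nat_lit 334) (nat_lit 5) (nat_lit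 672) (nat_lit 625) (nat_lit 263)) (XT.lf (nat_lit 0) (nat_lit 3425773886) (nat_lit 1900) (nat_lit 6577614400) (nat_lit 1900) (nat_lit 6577614400) (nat_lit 481) (nat_lit 3) (nat_lit 506) (nat_lit 3) (nat_lit 506) (nat_lit 5) (nat_lit 626) (nat_lit 626) (nat_lit 308)))))) (XT.nd (nat_lit 390) (nat_lit 0) (nat_lit 228) (XT.nd (nat_lit 156) (nat_lit 0) (nat_lit 76) (XT.nd (nat_lit 78) (nat_lit 0) (nat_lit 76) (XT.lf (nat_lit 76) (nat_lit 3403723309) (nat_lit 0) (nat_lit 3598489135) (nat_lit 1900) (nat_lit 26489768182) (nat_lit 482) (nat_lit 5) (nat_lit 481) (nat_lit 3) (nat_lit 506) (nat_lit 5) (nat_lit 627) (nat_lit 626) (nat_lit 307)) (XT.lf (nat_lit 0) (nat_lit 7328478482) (nat_lit 1824) (nat_lit 13441348416) (nat_lit 1900) (nat_lit 13055276772) (nat_lit 482) (nat_lit 5) (nat_lit 506) (nat_lit 5) (nat_lit 507) (nat_lit 5) (nat_lit 628) (nat_lit 626) (nat_lit 306))) (XT.nd (nat_lit 78) (nat_lit 0) (nat_lit 76) (XT.lf (nat_lit 76) (nat_lit 3560530639) (nat_lit 0) (nat_lit 4146143031) (nat_lit 1900) (nat_lit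 26457307476) (nat_lit 483) (nat_lit 5) (nat_lit 482) (nat_lit 5) (nat_lit 507) (nat_lit 5) (nat_lit 629) (nat_lit 626) (nat_lit 305)) (XT.nd (nat_lit 78) (nat_lit 0) (nat_lit 0) (XT.lf (nat_lit 0) (nat_lit 8264884579) (nat_lit 1824) (nat_lit 13507815771) (nat_lit 1900) (nat_lit 12733486829) (nat_lit 483) (nat_lit 5) (nat_lit 507) (nat_lit 5) (nat_lit 508) (nat_lit 5) (nat_lit 630) (nat_lit 626) (nat_lit 304)) (XT.lf (nat_lit 76) (nat_lit 3953275194) (nat_lit 0) (nat_lit 4932624250) (nat_lit 1900) (nat_lit 25968305140) (nat_lit 484) (nat_lit 5) (nat_lit 483) (nat_lit 5) (nat_lit 508) (nat_lit 5) (nat_lit 631) (nat_lit 626) (nat_lit 303))))) (XT.nd (nat_lit 156) (nat_lit 0) (nat_lit 76) (XT.nd (nat_lit 78) (nat_lit 0) (nat_lit 0) (XT.lf (nat_lit 0) (nat_lit 9688619520) (nat_lit 1824) (nat_lit 13341651800) (nat_lit 1900) (nat_lit 12175525362) (nat_lit 484) (nat_lit 5) (nat_lit 508) (nat_lit 5) (nat_lit 509) (nat_lit 5) (nat_lit 632) (nat_lit 626) (nat_lit 302)) (XT.lf (nat_lit 76) (nat_lit 4595559463) (nat_lit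 0) (nat_lit 5972909173) (nat_lit 1900) (nat_lit 24994730537) (nat_lit 485) (nat_lit 5) (nat_lit 484) (nat_lit 5) (nat_lit 509) (nat_lit 5) (nat_lit 633) (nat_lit 626) (nat_lit 301))) (XT.nd (nat_lit 78) (nat_lit 0) (nat_lit 0) (XT.lf (nat_lit 0) (nat_lit 11628816660) (nat_lit 1824) (nat_lit 12929253278) (nat_lit 1900) (nat_lit 11366421780) (nat_lit 485) (nat_lit 5) (nat_lit 509) (nat_lit 5) (nat_lit 510) (nat_lit 5) (nat_lit 634) (nat_lit 626) (nat_lit 300)) (XT.nd (nat_lit 78) (nat_lit 0) (nat_lit 76) (XT.lf (nat_lit 76) (nat_lit 5501634211) (nat_lit 0) (nat_lit 7282637825) (nat_lit 1900) (nat_lit 23507260111) (nat_lit 486) (nat_lit 5) (nat_lit 485) (nat_lit 5) (nat_lit 510) (nat_lit 5) (nat_lit 635) (nat_lit 626) (nat_lit 299)) (XT.lf (nat_lit 0) (nat_lit 14115945356) (nat_lit 1824) (nat_lit 12256367504) (nat_lit 1900) (nat_lit 10290538389) (nat_lit 486) (nat_lit 5) (nat_lit 510) (nat_lit 5) (nat_lit 511) (nat_lit 5) (nat_lit 636) (nat_lit 626) (nat_lit 298))))))) (XT.nd (nat_lit 780) (nat_lit 4332) (nat_lit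 0) (XT.nd (nat_lit 390) (nat_lit 0) (nat_lit 228) (XT.nd (nat_lit 156) (nat_lit 0) (nat_lit 76) (XT.nd (nat_lit 78) (nat_lit 0) (nat_lit 76) (XT.lf (nat_lit 76) (nat_lit 6686424733) (nat_lit 0) (nat_lit 8878145030) (nat_lit 1900) (nat_lit 21475220658) (nat_lit 487) (nat_lit 5) (nat_lit 486) (nat_lit 5) (nat_lit 511) (nat_lit 5) (nat_lit 637) (nat_lit 626) (nat_lit 297)) (XT.lf (nat_lit 0) (nat_lit 17181869327) (nat_lit 1824) (nat_lit 11308065920) (nat_lit 1900) (nat_lit 8931539114) (nat_lit 487) (nat_lit 5) (nat_lit 511) (nat_lit 5) (nat_lit 512) (nat_lit 5) (nat_lit 638) (nat_lit 626) (nat_lit 296))) (XT.nd (nat_lit 78) (nat_lit 0) (nat_lit 76) (XT.lf (nat_lit 76) (nat_lit 8165558228) (nat_lit 0) (nat_lit 10776492754) (nat_lit 1900) (nat_lit 18866530314) (nat_lit 488) (nat_lit 5) (nat_lit 487) (nat_lit 5) (nat_lit 512) (nat_lit 5) (nat_lit 639) (nat_lit 626) (nat_lit 295)) (XT.nd (nat_lit 78) (nat_lit 0) (nat_lit 0) (XT.lf (nat_lit 0) (nat_lit 20859907365) (nat_lit 1824) (nat_lit 10068716595) (nat_lit 1900)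 (nat_lit 7272357026) (nat_lit 488) (nat_lit 5) (nat_lit 512) (nat_lit 5) (nat_lit 513) (nat_lit 5) (nat_lit 640) (nat_lit 626) (nat_lit 294)) (XT.lf (nat_lit 76) (nat_lit 9955392333) (nat_lit 0) (nat_lit 12995503696) (nat_lit 1900) (nat_lit 15647637174) (nat_lit 489) (nat_lit 5) (nat_lit 488) (nat_lit 5) (nat_lit 513) (nat_lit 5) (nat_lit 641) (nat_lit 626) (nat_lit 293))))) (XT.nd (nat_lit 156) (nat_lit 0) (nat_lit 76) (XT.nd (nat_lit 78) (nat_lit 0) (nat_lit 0) (XT.lf (nat_lit 0) (nat_lit 25184896491) (nat_lit 1824) (nat_lit 8521955556) (nat_lit 1900) (nat_lit 5295160614) (nat_lit 489) (nat_lit 5) (nat_lit 513) (nat_lit 5) (nat_lit 514) (nat_lit 5) (nat_lit 642) (nat_lit 626) (nat_lit 292)) (XT.lf (nat_lit 76) (nat_lit 12073044850) (nat_lit 0) (nat_lit 15553796186) (nat_lit 1900) (nat_lit 11783455425) (nat_lit 490) (nat_lit 5) (nat_lit 489) (nat_lit 5) (nat_lit 514) (nat_lit 5) (nat_lit 643) (nat_lit 626) (nat_lit 291))) (XT.nd (nat_lit 78) (nat_lit 0) (nat_lit 0) (XT.lf (nat_lit 0) (nat_lit 30193257664)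 (nat_lit 1824) (nat_lit 6650656914) (nat_lit 1900) (nat_lit 2981318730) (nat_lit 490) (nat_lit 5) (nat_lit 514) (nat_lit 5) (nat_lit 515) (nat_lit 5) (nat_lit 644) (nat_lit 626) (nat_lit 290)) (XT.nd (nat_lit 78) (nat_lit 0) (nat_lit 76) (XT.lf (nat_lit 76) (nat_lit 14536424724) (nat_lit 0) (nat_lit 18470820453) (nat_lit 1900) (nat_lit 7237298899) (nat_lit 491) (nat_lit 5) (nat_lit 490) (nat_lit 5) (nat_lit 515) (nat_lit 5) (nat_lit 645) (nat_lit 626) (nat_lit 289)) (XT.lf (nat_lit 0) (nat_lit 35923064149) (nat_lit 1824) (nat_lit 4436901742) (nat_lit 1900) (nat_lit 311364167) (nat_lit 491) (nat_lit 5) (nat_lit 515) (nat_lit 5) (nat_lit 516) (nat_lit 5) (nat_lit 646) (nat_lit 626) (nat_lit 288)))))) (XT.nd (nat_lit 390) (nat_lit 2812) (nat_lit 0) (XT.nd (nat_lit 156) (nat_lit 0) (nat_lit 76) (XT.nd (nat_lit 78) (nat_lit 1900) (nat_lit 0) (XT.lf (nat_lit 76) (nat_lit 17364264306) (nat_lit 0) (nat_lit 21766896320) (nat_lit 1900) (nat_lit 1970811943) (nat_lit 492) (nat_lit 5) (nat_lit 491) (nat_lit 5) (nat_lit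 516) (nat_lit 5) (nat_lit 647) (nat_lit 626) (nat_lit 287)) (XT.lf (nat_lit 0) (nat_lit 879760587) (nat_lit 1900) (nat_lit 1885727275) (nat_lit 1976) (nat_lit 38775050597) (nat_lit 466) (nat_lit 5) (nat_lit 491) (nat_lit 5) (nat_lit 492) (nat_lit 5) (nat_lit 648) (nat_lit 626) (nat_lit 286))) (XT.nd (nat_lit 78) (nat_lit 0) (nat_lit 0) (XT.lf (nat_lit 0) (nat_lit 4002906005) (nat_lit 1900) (nat_lit 21433484796) (nat_lit 1976) (nat_lit 16546385342) (nat_lit 467) (nat_lit 5) (nat_lit 492) (nat_lit 5) (nat_lit 493) (nat_lit 5) (nat_lit 649) (nat_lit 626) (nat_lit 285)) (XT.nd (nat_lit 78) (nat_lit 0) (nat_lit 76) (XT.lf (nat_lit 76) (nat_lit 1019037169) (nat_lit 0) (nat_lit 6206090091) (nat_lit 1976) (nat_lit 35207999094) (nat_lit 468) (nat_lit 5) (nat_lit 467) (nat_lit 5) (nat_lit 493) (nat_lit 5) (nat_lit 650) (nat_lit 626) (nat_lit 284)) (XT.lf (nat_lit 0) (nat_lit 10742594408) (nat_lit 1900) (nat_lit 18767384021) (nat_lit 76) (nat_lit 13377889139) (nat_lit 468) (nat_lit 5) (nat_lit 493) (nat_lit 5) (nat_lit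 469) (nat_lit 5) (nat_lit 651) (nat_lit 626) (nat_lit 283))))) (XT.nd (nat_lit 234) (nat_lit 912) (nat_lit 0) (XT.nd (nat_lit 78) (nat_lit 912) (nat_lit 0) (XT.lf (nat_lit 0) (nat_lit 4347276798) (nat_lit 1140) (nat_lit 10051439885) (nat_lit 1216) (nat_lit 28951620837) (nat_lit 453) (nat_lit 5) (nat_lit 468) (nat_lit 5) (nat_lit 469) (nat_lit 5) (nat_lit 652) (nat_lit 626) (nat_lit 282)) (XT.nd (nat_lit 78) (nat_lit 912) (nat_lit 0) (XT.lf (nat_lit 0) (nat_lit 18317333776) (nat_lit 1216) (nat_lit 15706257184) (nat_lit 76) (nat_lit 9794678492) (nat_lit 453) (nat_lit 5) (nat_lit 469) (nat_lit 5) (nat_lit 454) (nat_lit 5) (nat_lit 653) (nat_lit 626) (nat_lit 281)) (XT.lf (nat_lit 0) (nat_lit 8095195517) (nat_lit 912) (nat_lit 14337268031) (nat_lit 988) (nat_lit 21860733697) (nat_lit 441) (nat_lit 5) (nat_lit 453) (nat_lit 5) (nat_lit 454) (nat_lit 5) (nat_lit 654) (nat_lit 626) (nat_lit 280)))) (XT.nd (nat_lit 78) (nat_lit 912) (nat_lit 0) (XT.lf (nat_lit 0) (nat_lit 26772306364) (nat_lit 988) (nat_lit 12228825042)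 (nat_lit 76) (nat_lit 5773644004) (nat_lit 441) (nat_lit 5) (nat_lit 454) (nat_lit 5) (nat_lit 442) (nat_lit 5) (nat_lit 655) (nat_lit 626) (nat_lit 279)) (XT.nd (nat_lit 78) (nat_lit 0) (nat_lit 0) (XT.lf (nat_lit 0) (nat_lit 12285019190) (nat_lit 912) (nat_lit 19087686423) (nat_lit 988) (nat_lit 13889804362) (nat_lit 429) (nat_lit 5) (nat_lit 441) (nat_lit 5) (nat_lit 442) (nat_lit 5) (nat_lit 656) (nat_lit 626) (nat_lit 278)) (XT.lf (nat_lit 0) (nat_lit 36154726953) (nat_lit 988) (nat_lit 8312844162) (nat_lit 76) (nat_lit 1290635862) (nat_lit 429) (nat_lit 5) (nat_lit 442) (nat_lit 5) (nat_lit 430) (nat_lit 5) (nat_lit 657) (nat_lit 626) (nat_lit 277))))))))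
noncomputable def xc238 : XT := (XT.nd (nat_lit 79248) (nat_lit 0) (nat_lit 8436) (XT.nd (nat_lit 780) (nat_lit 1596) (nat_lit 0) (XT.nd (nat_lit 390) (nat_lit 2356) (nat_lit 0) (XT.nd (nat_lit 156) (nat_lit 1824) (nat_lit 0) (XT.nd (nat_lit 78) (nat_lit 0) (nat_lit 0) (XT.lf (nat_lit 0) (nat_lit 16939974588) (nat_lit 836) (nat_lit 24327888198) (nat_lit 912) (nat_lit 4991245674) (nat_lit 418) (nat_lit 5) (nat_lit 429) (nat_lit 5) (nat_lit 430) (nat_lit 5) (nat_lit 658) (nat_lit 626) (nat_lit 276)) (XT.lf (nat_lit 0) (nat_lit 42809655215) (nat_lit 836) (nat_lit 3728482024) (nat_lit 912) (nat_lit 230793244) (nat_lit 418) (nat_lit 5) (nat_lit 429) (nat_lit 5) (nat_lit 430) (nat_lit 5) (nat_lit 659) (nat_lit 626) (nat_lit 275))) (XT.nd (nat_lit 78) (nat_lit 836) (nat_lit 0) (XT.lf (nat_lit 0) (nat_lit 4820607624) (nat_lit 988) (nat_lit 25231239087) (nat_lit 76) (nat_lit 17231373797) (nat_lit 405) (nat_lit 5) (nat_lit 418) (nat_lit 5) (nat_lit 406) (nat_lit 5) (nat_lit 660) (nat_lit 626) (nat_lit 274)) (XT.nd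 (nat_lit 78) (nat_lit 0) (nat_lit 0) (XT.lf (nat_lit 0) (nat_lit 813252850) (nat_lit 836) (nat_lit 9212529386) (nat_lit 912) (nat_lit 37780866889) (nat_lit 394) (nat_lit 5) (nat_lit 405) (nat_lit 5) (nat_lit 406) (nat_lit 5) (nat_lit 661) (nat_lit 626) (nat_lit 273)) (XT.lf (nat_lit 0) (nat_lit 15582819260) (nat_lit 912) (nat_lit 20696721172) (nat_lit 76) (nat_lit 12056050728) (nat_lit 394) (nat_lit 5) (nat_lit 406) (nat_lit 5) (nat_lit 395) (nat_lit 5) (nat_lit 662) (nat_lit 626) (nat_lit 272))))) (XT.nd (nat_lit 156) (nat_lit 1520) (nat_lit 0) (XT.nd (nat_lit 78) (nat_lit 0) (nat_lit 0) (XT.lf (nat_lit 0) (nat_lit 6144586521) (nat_lit 836) (nat_lit 15206460322) (nat_lit 912) (nat_lit 27522064219) (nat_lit 383) (nat_lit 5) (nat_lit 394) (nat_lit 5) (nat_lit 395) (nat_lit 5) (nat_lit 663) (nat_lit 626) (nat_lit 271)) (XT.lf (nat_lit 0) (nat_lit 27414426919) (nat_lit 912) (nat_lit 15657969024) (nat_lit 76) (nat_lit 6345389684) (nat_lit 383) (nat_lit 5) (nat_lit 395) (nat_lit 5) (nat_lit 384) (nat_lit 5) (nat_lit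 664) (nat_lit 626) (nat_lit 270))) (XT.nd (nat_lit 78) (nat_lit 760) (nat_lit 0) (XT.lf (nat_lit 0) (nat_lit 12009933357) (nat_lit 760) (nat_lit 21766995155) (nat_lit 836) (nat_lit 16192868112) (nat_lit 373) (nat_lit 5) (nat_lit 383) (nat_lit 5) (nat_lit 384) (nat_lit 5) (nat_lit 665) (nat_lit 626) (nat_lit 269)) (XT.nd (nat_lit 78) (nat_lit 760) (nat_lit 0) (XT.lf (nat_lit 0) (nat_lit 40371401518) (nat_lit 836) (nat_lit 10088652106) (nat_lit 76) (nat_lit 70699814) (nat_lit 373) (nat_lit 5) (nat_lit 384) (nat_lit 5) (nat_lit 374) (nat_lit 5) (nat_lit 666) (nat_lit 626) (nat_lit 268)) (XT.lf (nat_lit 0) (nat_lit 18436767856) (nat_lit 760) (nat_lit 28924050878) (nat_lit 836) (nat_lit 3736849578) (nat_lit 363) (nat_lit 5) (nat_lit 373) (nat_lit 5) (nat_lit 374) (nat_lit 5) (nat_lit 667) (nat_lit 626) (nat_lit 267)))))) (XT.nd (nat_lit 78078) (nat_lit 0) (nat_lit 10564) (XT.nd (nat_lit 156) (nat_lit 760) (nat_lit 0) (XT.nd (nat_lit 78) (nat_lit 760) (nat_lit 0) (XT.lf (nat_lit 0) (nat_lit 2844547472) (nat_lit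 836) (nat_lit 4024705875) (nat_lit 76) (nat_lit 44804955695) (nat_lit 362) (nat_lit 5) (nat_lit 373) (nat_lit 5) (nat_lit 363) (nat_lit 5) (nat_lit 668) (nat_lit 626) (nat_lit 266)) (XT.lf (nat_lit 0) (nat_lit 9775037318) (nat_lit 836) (nat_lit 26868251566) (nat_lit 76) (nat_lit 15613147686) (nat_lit 352) (nat_lit 5) (nat_lit 363) (nat_lit 5) (nat_lit 353) (nat_lit 5) (nat_lit 669) (nat_lit 626) (nat_lit 265))) (XT.nd (nat_lit 78) (nat_lit 0) (nat_lit 0) (XT.lf (nat_lit 0) (nat_lit 2581444804) (nat_lit 760) (nat_lit 14351359656) (nat_lit 836) (nat_lit 35915730858) (nat_lit 342) (nat_lit 5) (nat_lit 352) (nat_lit 5) (nat_lit 353) (nat_lit 5) (nat_lit 670) (nat_lit 626) (nat_lit 264)) (XT.nd (nat_lit 77766) (nat_lit 0) (nat_lit 10564) (XT.lf (nat_lit 0) (nat_lit 24468908723) (nat_lit 836) (nat_lit 20521043720) (nat_lit 76) (nat_lit 8457819981) (nat_lit 342) (nat_lit 5) (nat_lit 353) (nat_lit 5) (nat_lit 343) (nat_lit 5) (nat_lit 671) (nat_lit 626) (nat_lit 263)) (XT.lf (nat_lit 0) (nat_lit 3553949445) (nat_lit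 1900) (nat_lit 6678739144) (nat_lit 1900) (nat_lit 6678739144) (nat_lit 481) (nat_lit 3) (nat_lit 506) (nat_lit 3) (nat_lit 506) (nat_lit 5) (nat_lit 627) (nat_lit 627) (nat_lit 306))))) (XT.nd (nat_lit 156) (nat_lit 0) (nat_lit 76) (XT.nd (nat_lit 78) (nat_lit 0) (nat_lit 76) (XT.lf (nat_lit 76) (nat_lit 3532252501) (nat_lit 0) (nat_lit 3727377256) (nat_lit 1900) (nat_lit 26899839480) (nat_lit 482) (nat_lit 5) (nat_lit 481) (nat_lit 3) (nat_lit 506) (nat_lit 5) (nat_lit 628) (nat_lit 627) (nat_lit 305)) (XT.lf (nat_lit 0) (nat_lit 7589757378) (nat_lit 1824) (nat_lit 13648238836) (nat_lit 1900) (nat_lit 13261311872) (nat_lit 482) (nat_lit 5) (nat_lit 506) (nat_lit 5) (nat_lit 507) (nat_lit 5) (nat_lit 629) (nat_lit 627) (nat_lit 304))) (XT.nd (nat_lit 78) (nat_lit 0) (nat_lit 76) (XT.lf (nat_lit 76) (nat_lit 3693270323) (nat_lit 0) (nat_lit 4280396432) (nat_lit 1900) (nat_lit 26871333419) (nat_lit 483) (nat_lit 5) (nat_lit 482) (nat_lit 5) (nat_lit 507) (nat_lit 5) (nat_lit 630) (nat_lit 627) (nat_lit 303))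 (XT.nd (nat_lit 78) (nat_lit 0) (nat_lit 0) (XT.lf (nat_lit 0) (nat_lit 8540502212) (nat_lit 1824) (nat_lit 13715106460) (nat_lit 1900) (nat_lit 12938492516) (nat_lit 483) (nat_lit 5) (nat_lit 507) (nat_lit 5) (nat_lit 508) (nat_lit 5) (nat_lit 631) (nat_lit 627) (nat_lit 302)) (XT.lf (nat_lit 76) (nat_lit 4094792734) (nat_lit 0) (nat_lit 5077386984) (nat_lit 1900) (nat_lit 26376934441) (nat_lit 484) (nat_lit 5) (nat_lit 483) (nat_lit 5) (nat_lit 508) (nat_lit 5) (nat_lit 632) (nat_lit 627) (nat_lit 301))))))) (XT.nd (nat_lit 780) (nat_lit 2356) (nat_lit 0) (XT.nd (nat_lit 390) (nat_lit 0) (nat_lit 152) (XT.nd (nat_lit 156) (nat_lit 0) (nat_lit 76) (XT.nd (nat_lit 78) (nat_lit 0) (nat_lit 0) (XT.lf (nat_lit 0) (nat_lit 9988532015) (nat_lit 1824) (nat_lit 13544831963) (nat_lit 1900) (nat_lit 12374422629) (nat_lit 484) (nat_lit 5) (nat_lit 508) (nat_lit 5) (nat_lit 509) (nat_lit 5) (nat_lit 633) (nat_lit 627) (nat_lit 300)) (XT.lf (nat_lit 76) (nat_lit 4750704757) (nat_lit 0) (nat_lit 6133602736) (nat_lit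 1900) (nat_lit 25388063131) (nat_lit 485) (nat_lit 5) (nat_lit 484) (nat_lit 5) (nat_lit 509) (nat_lit 5) (nat_lit 634) (nat_lit 627) (nat_lit 299))) (XT.nd (nat_lit 78) (nat_lit 0) (nat_lit 0) (XT.lf (nat_lit 0) (nat_lit 11963551578) (nat_lit 1824) (nat_lit 13123530143) (nat_lit 1900) (nat_lit 11553853578) (nat_lit 485) (nat_lit 5) (nat_lit 509) (nat_lit 5) (nat_lit 510) (nat_lit 5) (nat_lit 635) (nat_lit 627) (nat_lit 298)) (XT.nd (nat_lit 78) (nat_lit 0) (nat_lit 76) (XT.lf (nat_lit 76) (nat_lit 5675552016) (nat_lit 0) (nat_lit 7464975720) (nat_lit 1900) (nat_lit 23874820627) (nat_lit 486) (nat_lit 5) (nat_lit 485) (nat_lit 5) (nat_lit 510) (nat_lit 5) (nat_lit 636) (nat_lit 627) (nat_lit 297)) (XT.lf (nat_lit 0) (nat_lit 14496629042) (nat_lit 1824) (nat_lit 12436653941) (nat_lit 1900) (nat_lit 10460855032) (nat_lit 486) (nat_lit 5) (nat_lit 510) (nat_lit 5) (nat_lit 511) (nat_lit 5) (nat_lit 637) (nat_lit 627) (nat_lit 296))))) (XT.nd (nat_lit 156) (nat_lit 0) (nat_lit 76) (XT.nd (nat_lit 78) (nat_lit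 0) (nat_lit 76) (XT.lf (nat_lit 76) (nat_lit 6884567555) (nat_lit 0) (nat_lit 9088147881) (nat_lit 1900) (nat_lit 21805930802) (nat_lit 487) (nat_lit 5) (nat_lit 486) (nat_lit 5) (nat_lit 511) (nat_lit 5) (nat_lit 638) (nat_lit 627) (nat_lit 295)) (XT.lf (nat_lit 0) (nat_lit 17620255397) (nat_lit 1824) (nat_lit 11468967494) (nat_lit 1900) (nat_lit 9078783136) (nat_lit 487) (nat_lit 5) (nat_lit 511) (nat_lit 5) (nat_lit 512) (nat_lit 5) (nat_lit 639) (nat_lit 627) (nat_lit 294))) (XT.nd (nat_lit 78) (nat_lit 0) (nat_lit 76) (XT.lf (nat_lit 76) (nat_lit 8393699797) (nat_lit 0) (nat_lit 11020503993) (nat_lit 1900) (nat_lit 19148680104) (nat_lit 488) (nat_lit 5) (nat_lit 487) (nat_lit 5) (nat_lit 512) (nat_lit 5) (nat_lit 640) (nat_lit 627) (nat_lit 293)) (XT.nd (nat_lit 78) (nat_lit 0) (nat_lit 0) (XT.lf (nat_lit 0) (nat_lit 21368406363) (nat_lit 1824) (nat_lit 10204518033) (nat_lit 1900) (nat_lit 7390247455) (nat_lit 488) (nat_lit 5) (nat_lit 512) (nat_lit 5) (nat_lit 513) (nat_lit 5) (nat_lit 641) (nat_lit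 627) (nat_lit 292)) (XT.lf (nat_lit 76) (nat_lit 10219641673) (nat_lit 0) (nat_lit 13280205857) (nat_lit 1900) (nat_lit 15868854983) (nat_lit 489) (nat_lit 5) (nat_lit 488) (nat_lit 5) (nat_lit 513) (nat_lit 5) (nat_lit 642) (nat_lit 627) (nat_lit 291)))))) (XT.nd (nat_lit 390) (nat_lit 2736) (nat_lit 0) (XT.nd (nat_lit 156) (nat_lit 0) (nat_lit 76) (XT.nd (nat_lit 78) (nat_lit 0) (nat_lit 0) (XT.lf (nat_lit 0) (nat_lit 25776606787) (nat_lit 1824) (nat_lit 8626606614) (nat_lit 1900) (nat_lit 5377076635) (nat_lit 489) (nat_lit 5) (nat_lit 513) (nat_lit 5) (nat_lit 514) (nat_lit 5) (nat_lit 643) (nat_lit 627) (nat_lit 290)) (XT.lf (nat_lit 76) (nat_lit 12379860984) (nat_lit 0) (nat_lit 15886227836) (nat_lit 1900) (nat_lit 11930676772) (nat_lit 490) (nat_lit 5) (nat_lit 489) (nat_lit 5) (nat_lit 514) (nat_lit 5) (nat_lit 644) (nat_lit 627) (nat_lit 289))) (XT.nd (nat_lit 78) (nat_lit 0) (nat_lit 0) (XT.lf (nat_lit 0) (nat_lit 30881997629) (nat_lit 1824) (nat_lit 6717757611) (nat_lit 1900) (nat_lit 3020282711)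 (nat_lit 490) (nat_lit 5) (nat_lit 514) (nat_lit 5) (nat_lit 515) (nat_lit 5) (nat_lit 645) (nat_lit 627) (nat_lit 288)) (XT.nd (nat_lit 78) (nat_lit 0) (nat_lit 76) (XT.lf (nat_lit 76) (nat_lit 14892632025) (nat_lit 0) (nat_lit 18858393786) (nat_lit 1900) (nat_lit 7296733953) (nat_lit 491) (nat_lit 5) (nat_lit 490) (nat_lit 5) (nat_lit 515) (nat_lit 5) (nat_lit 646) (nat_lit 627) (nat_lit 287)) (XT.lf (nat_lit 0) (nat_lit 36723405672) (nat_lit 1824) (nat_lit 4459686946) (nat_lit 1900) (nat_lit 300024006) (nat_lit 491) (nat_lit 5) (nat_lit 515) (nat_lit 5) (nat_lit 516) (nat_lit 5) (nat_lit 647) (nat_lit 627) (nat_lit 286))))) (XT.nd (nat_lit 234) (nat_lit 988) (nat_lit 0) (XT.nd (nat_lit 78) (nat_lit 1900) (nat_lit 0) (XT.lf (nat_lit 76) (nat_lit 17777068523) (nat_lit 0) (nat_lit 22217415453) (nat_lit 1900) (nat_lit 1927911659) (nat_lit 492) (nat_lit 5) (nat_lit 491) (nat_lit 5) (nat_lit 516) (nat_lit 5) (nat_lit 648) (nat_lit 627) (nat_lit 285)) (XT.nd (nat_lit 78) (nat_lit 0) (nat_lit 76) (XT.lf (nat_lit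 0) (nat_lit 976999844) (nat_lit 1900) (nat_lit 1858146858) (nat_lit 1976) (nat_lit 39534607356) (nat_lit 466) (nat_lit 5) (nat_lit 491) (nat_lit 5) (nat_lit 492) (nat_lit 5) (nat_lit 649) (nat_lit 627) (nat_lit 284)) (XT.lf (nat_lit 0) (nat_lit 4161379124) (nat_lit 1900) (nat_lit 21795628237) (nat_lit 1976) (nat_lit 16863853760) (nat_lit 467) (nat_lit 5) (nat_lit 492) (nat_lit 5) (nat_lit 493) (nat_lit 5) (nat_lit 650) (nat_lit 627) (nat_lit 283)))) (XT.nd (nat_lit 78) (nat_lit 1064) (nat_lit 0) (XT.lf (nat_lit 76) (nat_lit 1105506494) (nat_lit 0) (nat_lit 6341429852) (nat_lit 1976) (nat_lit 35833304203) (nat_lit 468) (nat_lit 5) (nat_lit 467) (nat_lit 5) (nat_lit 493) (nat_lit 5) (nat_lit 651) (nat_lit 627) (nat_lit 282)) (XT.nd (nat_lit 78) (nat_lit 1140) (nat_lit 0) (XT.lf (nat_lit 0) (nat_lit 11033165616) (nat_lit 1900) (nat_lit 19076349596) (nat_lit 76) (nat_lit 13634593164) (nat_lit 468) (nat_lit 5) (nat_lit 493) (nat_lit 5) (nat_lit 469) (nat_lit 5) (nat_lit 652) (nat_lit 627) (nat_lit 281)) (XT.lf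 (nat_lit 0) (nat_lit 4500167716) (nat_lit 1140) (nat_lit 10261186089) (nat_lit 1216) (nat_lit 29454495094) (nat_lit 453) (nat_lit 5) (nat_lit 468) (nat_lit 5) (nat_lit 469) (nat_lit 5) (nat_lit 653) (nat_lit 627) (nat_lit 280))))))))
noncomputable def xc239 : XT := (XT.nd (nat_lit 79326) (nat_lit 0) (nat_lit 9424) (XT.nd (nat_lit 780) (nat_lit 3952) (nat_lit 0) (XT.nd (nat_lit 390) (nat_lit 2660) (nat_lit 0) (XT.nd (nat_lit 156) (nat_lit 912) (nat_lit 0) (XT.nd (nat_lit 78) (nat_lit 912) (nat_lit 0) (XT.lf (nat_lit 0) (nat_lit 18756823774) (nat_lit 1216) (nat_lit 15954208453) (nat_lit 76) (nat_lit 9982137673) (nat_lit 453) (nat_lit 5) (nat_lit 469) (nat_lit 5) (nat_lit 454) (nat_lit 5) (nat_lit 654) (nat_lit 627) (nat_lit 279)) (XT.lf (nat_lit 0) (nat_lit 8322837947) (nat_lit 912) (nat_lit 14630410829) (nat_lit 988) (nat_lit 22224367660) (nat_lit 441) (nat_lit 5) (nat_lit 453) (nat_lit 5) (nat_lit 454) (nat_lit 5) (nat_lit 655) (nat_lit 627) (nat_lit 278))) (XT.nd (nat_lit 78) (nat_lit 912) (nat_lit 0) (XT.lf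 (nat_lit 0) (nat_lit 27378433297) (nat_lit 988) (nat_lit 12407494868) (nat_lit 76) (nat_lit 5882927145) (nat_lit 441) (nat_lit 5) (nat_lit 454) (nat_lit 5) (nat_lit 442) (nat_lit 5) (nat_lit 656) (nat_lit 627) (nat_lit 277)) (XT.nd (nat_lit 78) (nat_lit 0) (nat_lit 0) (XT.lf (nat_lit 0) (nat_lit 12596192653) (nat_lit 912) (nat_lit 19473687075) (nat_lit 988) (nat_lit 14096484093) (nat_lit 429) (nat_lit 5) (nat_lit 441) (nat_lit 5) (nat_lit 442) (nat_lit 5) (nat_lit 657) (nat_lit 627) (nat_lit 276)) (XT.lf (nat_lit 0) (nat_lit 36946147402) (nat_lit 988) (nat_lit 8413515744) (nat_lit 76) (nat_lit 1312339536) (nat_lit 429) (nat_lit 5) (nat_lit 442) (nat_lit 5) (nat_lit 430) (nat_lit 5) (nat_lit 658) (nat_lit 627) (nat_lit 275))))) (XT.nd (nat_lit 156) (nat_lit 1824) (nat_lit 0) (XT.nd (nat_lit 78) (nat_lit 0) (nat_lit 0) (XT.lf (nat_lit 0) (nat_lit 17343927899) (nat_lit 836) (nat_lit 24816701351) (nat_lit 912) (nat_lit 5022311317) (nat_lit 418) (nat_lit 5) (nat_lit 429) (nat_lit 5) (nat_lit 430) (nat_lit 5)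 (nat_lit 659) (nat_lit 627) (nat_lit 274)) (XT.lf (nat_lit 0) (nat_lit 43729724612) (nat_lit 836) (nat_lit 3805262830) (nat_lit 912) (nat_lit 167998059) (nat_lit 418) (nat_lit 5) (nat_lit 429) (nat_lit 5) (nat_lit 430) (nat_lit 5) (nat_lit 660) (nat_lit 627) (nat_lit 273))) (XT.nd (nat_lit 78) (nat_lit 836) (nat_lit 0) (XT.lf (nat_lit 0) (nat_lit 4982651514) (nat_lit 988) (nat_lit 25670204688) (nat_lit 76) (nat_lit 17574714311) (nat_lit 405) (nat_lit 5) (nat_lit 418) (nat_lit 5) (nat_lit 406) (nat_lit 5) (nat_lit 661) (nat_lit 627) (nat_lit 272)) (XT.nd (nat_lit 78) (nat_lit 0) (nat_lit 0) (XT.lf (nat_lit 0) (nat_lit 894745120) (nat_lit 836) (nat_lit 9396321101) (nat_lit 912) (nat_lit 38470418785) (nat_lit 394) (nat_lit 5) (nat_lit 405) (nat_lit 5) (nat_lit 406) (nat_lit 5) (nat_lit 662) (nat_lit 627) (nat_lit 271)) (XT.lf (nat_lit 0) (nat_lit 15957976938) (nat_lit 912) (nat_lit 21045438600) (nat_lit 76) (nat_lit 12297615718) (nat_lit 394) (nat_lit 5) (nat_lit 406) (nat_lit 5) (nat_lit 395) (nat_lit 5) (nat_lit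 663) (nat_lit 627) (nat_lit 270)))))) (XT.nd (nat_lit 390) (nat_lit 1596) (nat_lit 0) (XT.nd (nat_lit 156) (nat_lit 1520) (nat_lit 0) (XT.nd (nat_lit 78) (nat_lit 0) (nat_lit 0) (XT.lf (nat_lit 0) (nat_lit 6332266188) (nat_lit 836) (nat_lit 15508478408) (nat_lit 912) (nat_lit 28008573483) (nat_lit 383) (nat_lit 5) (nat_lit 394) (nat_lit 5) (nat_lit 395) (nat_lit 5) (nat_lit 664) (nat_lit 627) (nat_lit 269)) (XT.lf (nat_lit 0) (nat_lit 28024176754) (nat_lit 912) (nat_lit 15906393665) (nat_lit 76) (nat_lit 6474340059) (nat_lit 383) (nat_lit 5) (nat_lit 395) (nat_lit 5) (nat_lit 384) (nat_lit 5) (nat_lit 665) (nat_lit 627) (nat_lit 268))) (XT.nd (nat_lit 78) (nat_lit 760) (nat_lit 0) (XT.lf (nat_lit 0) (nat_lit 12314440877) (nat_lit 760) (nat_lit 22198699915) (nat_lit 836) (nat_lit 16454836688) (nat_lit 373) (nat_lit 5) (nat_lit 383) (nat_lit 5) (nat_lit 384) (nat_lit 5) (nat_lit 666) (nat_lit 627) (nat_lit 267)) (XT.nd (nat_lit 78) (nat_lit 760) (nat_lit 0) (XT.lf (nat_lit 0) (nat_lit 41238336715) (nat_lit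 836) (nat_lit 10226209140) (nat_lit 76) (nat_lit 75630936) (nat_lit 373) (nat_lit 5) (nat_lit 384) (nat_lit 5) (nat_lit 374) (nat_lit 5) (nat_lit 667) (nat_lit 627) (nat_lit 266)) (XT.lf (nat_lit 0) (nat_lit 18869296748) (nat_lit 760) (nat_lit 29497492912) (nat_lit 836) (nat_lit 3751655388) (nat_lit 363) (nat_lit 5) (nat_lit 373) (nat_lit 5) (nat_lit 374) (nat_lit 5) (nat_lit 668) (nat_lit 627) (nat_lit 265))))) (XT.nd (nat_lit 156) (nat_lit 760) (nat_lit 0) (XT.nd (nat_lit 78) (nat_lit 760) (nat_lit 0) (XT.lf (nat_lit 0) (nat_lit 2959423886) (nat_lit 836) (nat_lit 4041885234) (nat_lit 76) (nat_lit 45705222912) (nat_lit 362) (nat_lit 5) (nat_lit 373) (nat_lit 5) (nat_lit 363) (nat_lit 5) (nat_lit 669) (nat_lit 627) (nat_lit 264)) (XT.lf (nat_lit 0) (nat_lit 10027831564) (nat_lit 836) (nat_lit 27341608421) (nat_lit 76) (nat_lit 15930977995) (nat_lit 352) (nat_lit 5) (nat_lit 363) (nat_lit 5) (nat_lit 353) (nat_lit 5) (nat_lit 670) (nat_lit 627) (nat_lit 263))) (XT.nd (nat_lit 77844) (nat_lit 0) (nat_lit 10564)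 (XT.lf (nat_lit 0) (nat_lit 2696660770) (nat_lit 760) (nat_lit 14631382726) (nat_lit 836) (nat_lit 36576329446) (nat_lit 342) (nat_lit 5) (nat_lit 352) (nat_lit 5) (nat_lit 353) (nat_lit 5) (nat_lit 671) (nat_lit 627) (nat_lit 262)) (XT.nd (nat_lit 78) (nat_lit 0) (nat_lit 0) (XT.lf (nat_lit 0) (nat_lit 3682371842) (nat_lit 1900) (nat_lit 6783067921) (nat_lit 1900) (nat_lit 6783067921) (nat_lit 481) (nat_lit 3) (nat_lit 506) (nat_lit 3) (nat_lit 506) (nat_lit 5) (nat_lit 628) (nat_lit 628) (nat_lit 304)) (XT.lf (nat_lit 76) (nat_lit 3661004747) (nat_lit 0) (nat_lit 3856632931) (nat_lit 1900) (nat_lit 27322761234) (nat_lit 482) (nat_lit 5) (nat_lit 481) (nat_lit 3) (nat_lit 506) (nat_lit 5) (nat_lit 629) (nat_lit 628) (nat_lit 303))))))) (XT.nd (nat_lit 780) (nat_lit 1216) (nat_lit 0) (XT.nd (nat_lit 390) (nat_lit 0) (nat_lit 152) (XT.nd (nat_lit 156) (nat_lit 0) (nat_lit 76) (XT.nd (nat_lit 78) (nat_lit 0) (nat_lit 0) (XT.lf (nat_lit 0) (nat_lit 7851807549) (nat_lit 1824) (nat_lit 13861672136) (nat_lit 1900)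 (nat_lit 13473606127) (nat_lit 482) (nat_lit 5) (nat_lit 506) (nat_lit 5) (nat_lit 507) (nat_lit 5) (nat_lit 630) (nat_lit 628) (nat_lit 302)) (XT.lf (nat_lit 76) (nat_lit 3826275551) (nat_lit 0) (nat_lit 4415341673) (nat_lit 1900) (nat_lit 27298110139) (nat_lit 483) (nat_lit 5) (nat_lit 482) (nat_lit 5) (nat_lit 507) (nat_lit 5) (nat_lit 631) (nat_lit 628) (nat_lit 301))) (XT.nd (nat_lit 78) (nat_lit 0) (nat_lit 0) (XT.lf (nat_lit 0) (nat_lit 8817348339) (nat_lit 1824) (nat_lit 13928984113) (nat_lit 1900) (nat_lit 13149526832) (nat_lit 483) (nat_lit 5) (nat_lit 507) (nat_lit 5) (nat_lit 508) (nat_lit 5) (nat_lit 632) (nat_lit 628) (nat_lit 300)) (XT.nd (nat_lit 78) (nat_lit 0) (nat_lit 76) (XT.lf (nat_lit 76) (nat_lit 4236715536) (nat_lit 0) (nat_lit 5223254456) (nat_lit 1900) (nat_lit 26798036374) (nat_lit 484) (nat_lit 5) (nat_lit 483) (nat_lit 5) (nat_lit 508) (nat_lit 5) (nat_lit 633) (nat_lit 628) (nat_lit 299)) (XT.lf (nat_lit 0) (nat_lit 10290321210) (nat_lit 1824) (nat_lit 13754547448) (nat_lit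 1900) (nat_lit 12579030228) (nat_lit 484) (nat_lit 5) (nat_lit 508) (nat_lit 5) (nat_lit 509) (nat_lit 5) (nat_lit 634) (nat_lit 628) (nat_lit 298))))) (XT.nd (nat_lit 156) (nat_lit 0) (nat_lit 76) (XT.nd (nat_lit 78) (nat_lit 0) (nat_lit 76) (XT.lf (nat_lit 76) (nat_lit 4906497498) (nat_lit 0) (nat_lit 6295908950) (nat_lit 1900) (nat_lit 25793400310) (nat_lit 485) (nat_lit 5) (nat_lit 484) (nat_lit 5) (nat_lit 509) (nat_lit 5) (nat_lit 635) (nat_lit 628) (nat_lit 297)) (XT.lf (nat_lit 0) (nat_lit 12301014251) (nat_lit 1824) (nat_lit 13324189711) (nat_lit 1900) (nat_lit 11746583247) (nat_lit 485) (nat_lit 5) (nat_lit 509) (nat_lit 5) (nat_lit 510) (nat_lit 5) (nat_lit 636) (nat_lit 628) (nat_lit 296))) (XT.nd (nat_lit 78) (nat_lit 0) (nat_lit 76) (XT.lf (nat_lit 76) (nat_lit 5850467439) (nat_lit 0) (nat_lit 7649535845) (nat_lit 1900) (nat_lit 24253715842) (nat_lit 486) (nat_lit 5) (nat_lit 485) (nat_lit 5) (nat_lit 510) (nat_lit 5) (nat_lit 637) (nat_lit 628) (nat_lit 295)) (XT.nd (nat_lit 78) (nat_lit 0)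 (nat_lit 0) (XT.lf (nat_lit 0) (nat_lit 14881106779) (nat_lit 1824) (nat_lit 12623063958) (nat_lit 1900) (nat_lit 10635956289) (nat_lit 486) (nat_lit 5) (nat_lit 510) (nat_lit 5) (nat_lit 511) (nat_lit 5) (nat_lit 638) (nat_lit 628) (nat_lit 294)) (XT.lf (nat_lit 76) (nat_lit 7084171948) (nat_lit 0) (nat_lit 9301091107) (nat_lit 1900) (nat_lit 22147091451) (nat_lit 487) (nat_lit 5) (nat_lit 486) (nat_lit 5) (nat_lit 511) (nat_lit 5) (nat_lit 639) (nat_lit 628) (nat_lit 293)))))) (XT.nd (nat_lit 390) (nat_lit 1596) (nat_lit 0) (XT.nd (nat_lit 156) (nat_lit 0) (nat_lit 76) (XT.nd (nat_lit 78) (nat_lit 0) (nat_lit 0) (XT.lf (nat_lit 0) (nat_lit 18063729982) (nat_lit 1824) (nat_lit 11635621214) (nat_lit 1900) (nat_lit 9230190825) (nat_lit 487) (nat_lit 5) (nat_lit 511) (nat_lit 5) (nat_lit 512) (nat_lit 5) (nat_lit 640) (nat_lit 628) (nat_lit 292)) (XT.lf (nat_lit 76) (nat_lit 8623886754) (nat_lit 0) (nat_lit 11268289490) (nat_lit 1900) (nat_lit 19440168878) (nat_lit 488) (nat_lit 5) (nat_lit 487) (nat_lit 5)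 (nat_lit 512) (nat_lit 5) (nat_lit 641) (nat_lit 628) (nat_lit 291))) (XT.nd (nat_lit 78) (nat_lit 0) (nat_lit 0) (XT.lf (nat_lit 0) (nat_lit 21883530019) (nat_lit 1824) (nat_lit 10345581776) (nat_lit 1900) (nat_lit 7511565753) (nat_lit 488) (nat_lit 5) (nat_lit 512) (nat_lit 5) (nat_lit 513) (nat_lit 5) (nat_lit 642) (nat_lit 628) (nat_lit 290)) (XT.nd (nat_lit 78) (nat_lit 0) (nat_lit 76) (XT.lf (nat_lit 76) (nat_lit 10486646475) (nat_lit 0) (nat_lit 13569639355) (nat_lit 1900) (nat_lit 16098059327) (nat_lit 489) (nat_lit 5) (nat_lit 488) (nat_lit 5) (nat_lit 513) (nat_lit 5) (nat_lit 643) (nat_lit 628) (nat_lit 289)) (XT.lf (nat_lit 0) (nat_lit 26376733661) (nat_lit 1824) (nat_lit 8735905324) (nat_lit 1900) (nat_lit 5461562429) (nat_lit 489) (nat_lit 5) (nat_lit 513) (nat_lit 5) (nat_lit 514) (nat_lit 5) (nat_lit 644) (nat_lit 628) (nat_lit 288))))) (XT.nd (nat_lit 234) (nat_lit 1748) (nat_lit 0) (XT.nd (nat_lit 78) (nat_lit 0) (nat_lit 76) (XT.lf (nat_lit 76) (nat_lit 12690275617) (nat_lit 0) (nat_lit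 16224478850) (nat_lit 1900) (nat_lit 12084277081) (nat_lit 490) (nat_lit 5) (nat_lit 489) (nat_lit 5) (nat_lit 514) (nat_lit 5) (nat_lit 645) (nat_lit 628) (nat_lit 287)) (XT.nd (nat_lit 78) (nat_lit 0) (nat_lit 0) (XT.lf (nat_lit 0) (nat_lit 31581216600) (nat_lit 1824) (nat_lit 6788759782) (nat_lit 1900) (nat_lit 3060828317) (nat_lit 490) (nat_lit 5) (nat_lit 514) (nat_lit 5) (nat_lit 515) (nat_lit 5) (nat_lit 646) (nat_lit 628) (nat_lit 286)) (XT.lf (nat_lit 76) (nat_lit 15253420851) (nat_lit 0) (nat_lit 19253013530) (nat_lit 1900) (nat_lit 7360670434) (nat_lit 491) (nat_lit 5) (nat_lit 490) (nat_lit 5) (nat_lit 515) (nat_lit 5) (nat_lit 647) (nat_lit 628) (nat_lit 285)))) (XT.nd (nat_lit 78) (nat_lit 1900) (nat_lit 0) (XT.lf (nat_lit 0) (nat_lit 37536574516) (nat_lit 1824) (nat_lit 4485488883) (nat_lit 1900) (nat_lit 289139207) (nat_lit 491) (nat_lit 5) (nat_lit 515) (nat_lit 5) (nat_lit 516) (nat_lit 5) (nat_lit 648) (nat_lit 628) (nat_lit 284)) (XT.nd (nat_lit 78) (nat_lit 1900) (nat_lit 0) (XT.lf (nat_lit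 76) (nat_lit 18195584644) (nat_lit 0) (nat_lit 22676355464) (nat_lit 1900) (nat_lit 1887349821) (nat_lit 492) (nat_lit 5) (nat_lit 491) (nat_lit 5) (nat_lit 516) (nat_lit 5) (nat_lit 649) (nat_lit 628) (nat_lit 283)) (XT.lf (nat_lit 0) (nat_lit 1073091211) (nat_lit 1900) (nat_lit 1832550315) (nat_lit 1976) (nat_lit 40309974384) (nat_lit 466) (nat_lit 5) (nat_lit 491) (nat_lit 5) (nat_lit 492) (nat_lit 5) (nat_lit 650) (nat_lit 628) (nat_lit 282))))))))
noncomputable def xc240 : XT := (XT.nd (nat_lit 1560) (nat_lit 760) (nat_lit 0) (XT.nd (nat_lit 780) (nat_lit 4256) (nat_lit 0) (XT.nd (nat_lit 390) (nat_lit 2660) (nat_lit 0) (XT.nd (nat_lit 156) (nat_lit 1064) (nat_lit 0) (XT.nd (nat_lit 78) (nat_lit 0) (nat_lit 0) (XT.lf (nat_lit 0) (nat_lit 4319976755) (nat_lit 1900) (nat_lit 22167597843) (nat_lit 1976) (nat_lit 17188194187) (nat_lit 467) (nat_lit 5) (nat_lit 492) (nat_lit 5) (nat_lit 493) (nat_lit 5) (nat_lit 651) (nat_lit 628) (nat_lit 281)) (XT.lf (nat_lit 76) (nat_lit 1191138906) (nat_lit 0) (nat_lit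 6479040800) (nat_lit 1976) (nat_lit 36474177446) (nat_lit 468) (nat_lit 5) (nat_lit 467) (nat_lit 5) (nat_lit 493) (nat_lit 5) (nat_lit 652) (nat_lit 628) (nat_lit 280))) (XT.nd (nat_lit 78) (nat_lit 1140) (nat_lit 0) (XT.lf (nat_lit 0) (nat_lit 11326607974) (nat_lit 1900) (nat_lit 19394072180) (nat_lit 76) (nat_lit 13896852733) (nat_lit 468) (nat_lit 5) (nat_lit 493) (nat_lit 5) (nat_lit 469) (nat_lit 5) (nat_lit 653) (nat_lit 628) (nat_lit 279)) (XT.nd (nat_lit 78) (nat_lit 0) (nat_lit 0) (XT.lf (nat_lit 0) (nat_lit 4653555712) (nat_lit 1140) (nat_lit 10474788710) (nat_lit 1216) (nat_lit 29970384151) (nat_lit 453) (nat_lit 5) (nat_lit 468) (nat_lit 5) (nat_lit 469) (nat_lit 5) (nat_lit 654) (nat_lit 628) (nat_lit 278)) (XT.lf (nat_lit 0) (nat_lit 19202263328) (nat_lit 1216) (nat_lit 16209688360) (nat_lit 76) (nat_lit 10173673556) (nat_lit 453) (nat_lit 5) (nat_lit 469) (nat_lit 5) (nat_lit 454) (nat_lit 5) (nat_lit 655) (nat_lit 628) (nat_lit 277))))) (XT.nd (nat_lit 156) (nat_lit 1748) (nat_lit 0) (XT.nd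 (nat_lit 78) (nat_lit 0) (nat_lit 0) (XT.lf (nat_lit 0) (nat_lit 8552480519) (nat_lit 912) (nat_lit 14929168064) (nat_lit 988) (nat_lit 22598131532) (nat_lit 441) (nat_lit 5) (nat_lit 453) (nat_lit 5) (nat_lit 454) (nat_lit 5) (nat_lit 656) (nat_lit 628) (nat_lit 276)) (XT.lf (nat_lit 0) (nat_lit 27993938146) (nat_lit 988) (nat_lit 12592297326) (nat_lit 76) (nat_lit 5994636303) (nat_lit 441) (nat_lit 5) (nat_lit 454) (nat_lit 5) (nat_lit 442) (nat_lit 5) (nat_lit 657) (nat_lit 628) (nat_lit 275))) (XT.nd (nat_lit 78) (nat_lit 836) (nat_lit 0) (XT.lf (nat_lit 0) (nat_lit 12911047186) (nat_lit 912) (nat_lit 19867242826) (nat_lit 988) (nat_lit 14310058953) (nat_lit 429) (nat_lit 5) (nat_lit 441) (nat_lit 5) (nat_lit 442) (nat_lit 5) (nat_lit 658) (nat_lit 628) (nat_lit 274)) (XT.nd (nat_lit 78) (nat_lit 836) (nat_lit 0) (XT.lf (nat_lit 0) (nat_lit 37750743081) (nat_lit 988) (nat_lit 8518747514) (nat_lit 76) (nat_lit 1334636843) (nat_lit 429) (nat_lit 5) (nat_lit 442) (nat_lit 5) (nat_lit 430) (nat_lit 5) (nat_lit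 659) (nat_lit 628) (nat_lit 273)) (XT.lf (nat_lit 0) (nat_lit 17753430274) (nat_lit 836) (nat_lit 25315203188) (nat_lit 912) (nat_lit 5056668279) (nat_lit 418) (nat_lit 5) (nat_lit 429) (nat_lit 5) (nat_lit 430) (nat_lit 5) (nat_lit 660) (nat_lit 628) (nat_lit 272)))))) (XT.nd (nat_lit 390) (nat_lit 1596) (nat_lit 0) (XT.nd (nat_lit 156) (nat_lit 1672) (nat_lit 0) (XT.nd (nat_lit 78) (nat_lit 988) (nat_lit 0) (XT.lf (nat_lit 0) (nat_lit 44665715003) (nat_lit 836) (nat_lit 3883493390) (nat_lit 912) (nat_lit 106564624) (nat_lit 418) (nat_lit 5) (nat_lit 429) (nat_lit 5) (nat_lit 430) (nat_lit 5) (nat_lit 661) (nat_lit 628) (nat_lit 271)) (XT.lf (nat_lit 0) (nat_lit 5145387722) (nat_lit 988) (nat_lit 26120499227) (nat_lit 76) (nat_lit 17924971609) (nat_lit 405) (nat_lit 5) (nat_lit 418) (nat_lit 5) (nat_lit 406) (nat_lit 5) (nat_lit 662) (nat_lit 628) (nat_lit 270))) (XT.nd (nat_lit 78) (nat_lit 836) (nat_lit 0) (XT.lf (nat_lit 0) (nat_lit 975334382) (nat_lit 836) (nat_lit 9583806469) (nat_lit 912) (nat_lit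 39176327121) (nat_lit 394) (nat_lit 5) (nat_lit 405) (nat_lit 5) (nat_lit 406) (nat_lit 5) (nat_lit 663) (nat_lit 628) (nat_lit 269)) (XT.nd (nat_lit 78) (nat_lit 836) (nat_lit 0) (XT.lf (nat_lit 0) (nat_lit 16338171937) (nat_lit 912) (nat_lit 21403662832) (nat_lit 76) (nat_lit 12543994768) (nat_lit 394) (nat_lit 5) (nat_lit 406) (nat_lit 5) (nat_lit 395) (nat_lit 5) (nat_lit 664) (nat_lit 628) (nat_lit 268)) (XT.lf (nat_lit 0) (nat_lit 6521183653) (nat_lit 836) (nat_lit 15816618833) (nat_lit 912) (nat_lit 28507295491) (nat_lit 383) (nat_lit 5) (nat_lit 394) (nat_lit 5) (nat_lit 395) (nat_lit 5) (nat_lit 665) (nat_lit 628) (nat_lit 267))))) (XT.nd (nat_lit 156) (nat_lit 836) (nat_lit 0) (XT.nd (nat_lit 78) (nat_lit 760) (nat_lit 0) (XT.lf (nat_lit 0) (nat_lit 28643734968) (nat_lit 912) (nat_lit 16162300528) (nat_lit 76) (nat_lit 6605790125) (nat_lit 383) (nat_lit 5) (nat_lit 395) (nat_lit 5) (nat_lit 384) (nat_lit 5) (nat_lit 666) (nat_lit 628) (nat_lit 266)) (XT.lf (nat_lit 0) (nat_lit 12622541356) (nat_lit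 760) (nat_lit 22639179926) (nat_lit 836) (nat_lit 16724447852) (nat_lit 373) (nat_lit 5) (nat_lit 383) (nat_lit 5) (nat_lit 384) (nat_lit 5) (nat_lit 667) (nat_lit 628) (nat_lit 265))) (XT.nd (nat_lit 78) (nat_lit 836) (nat_lit 0) (XT.lf (nat_lit 0) (nat_lit 42120299881) (nat_lit 836) (nat_lit 10369010900) (nat_lit 76) (nat_lit 80524106) (nat_lit 373) (nat_lit 5) (nat_lit 384) (nat_lit 5) (nat_lit 374) (nat_lit 5) (nat_lit 668) (nat_lit 628) (nat_lit 264)) (XT.nd (nat_lit 78) (nat_lit 76) (nat_lit 0) (XT.lf (nat_lit 0) (nat_lit 19307999036) (nat_lit 760) (nat_lit 30082599455) (nat_lit 836) (nat_lit 3769084514) (nat_lit 363) (nat_lit 5) (nat_lit 373) (nat_lit 5) (nat_lit 374) (nat_lit 5) (nat_lit 669) (nat_lit 628) (nat_lit 263)) (XT.lf (nat_lit 0) (nat_lit 3074346182) (nat_lit 836) (nat_lit 4061866770) (nat_lit 76) (nat_lit 46623333621) (nat_lit 362) (nat_lit 5) (nat_lit 373) (nat_lit 5) (nat_lit 363) (nat_lit 5) (nat_lit 670) (nat_lit 628) (nat_lit 262))))))) (XT.nd (nat_lit 78624) (nat_lit 0) (nat_lit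 10108) (XT.nd (nat_lit 78234) (nat_lit 0) (nat_lit 9956) (XT.nd (nat_lit 78000) (nat_lit 0) (nat_lit 9804) (XT.nd (nat_lit 77922) (nat_lit 0) (nat_lit 9804) (XT.lf (nat_lit 0) (nat_lit 10283456917) (nat_lit 836) (nat_lit 27826917929) (nat_lit 76) (nat_lit 16254948723) (nat_lit 352) (nat_lit 5) (nat_lit 363) (nat_lit 5) (nat_lit 353) (nat_lit 5) (nat_lit 671) (nat_lit 628) (nat_lit 261)) (XT.lf (nat_lit 0) (nat_lit 3811135973) (nat_lit 1900) (nat_lit 6890618932) (nat_lit 1900) (nat_lit 6890618932) (nat_lit 481) (nat_lit 3) (nat_lit 506) (nat_lit 3) (nat_lit 506) (nat_lit 5) (nat_lit 629) (nat_lit 629) (nat_lit 302))) (XT.nd (nat_lit 78) (nat_lit 0) (nat_lit 76) (XT.lf (nat_lit 76) (nat_lit 3790075665) (nat_lit 0) (nat_lit 3986349336) (nat_lit 1900) (nat_lit 27758609928) (nat_lit 482) (nat_lit 5) (nat_lit 481) (nat_lit 3) (nat_lit 506) (nat_lit 5) (nat_lit 630) (nat_lit 629) (nat_lit 301)) (XT.nd (nat_lit 78) (nat_lit 0) (nat_lit 0) (XT.lf (nat_lit 0) (nat_lit 8114817387) (nat_lit 1824) (nat_lit 14081685782)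 (nat_lit 1900) (nat_lit 13692201679) (nat_lit 482) (nat_lit 5) (nat_lit 506) (nat_lit 5) (nat_lit 507) (nat_lit 5) (nat_lit 631) (nat_lit 629) (nat_lit 300)) (XT.lf (nat_lit 76) (nat_lit 3959644414) (nat_lit 0) (nat_lit 4551069992) (nat_lit 1900) (nat_lit 27737719065) (nat_lit 483) (nat_lit 5) (nat_lit 482) (nat_lit 5) (nat_lit 507) (nat_lit 5) (nat_lit 632) (nat_lit 629) (nat_lit 299))))) (XT.nd (nat_lit 156) (nat_lit 0) (nat_lit 76) (XT.nd (nat_lit 78) (nat_lit 0) (nat_lit 0) (XT.lf (nat_lit 0) (nat_lit 9095613879) (nat_lit 1824) (nat_lit 14149485675) (nat_lit 1900) (nat_lit 13366635463) (nat_lit 483) (nat_lit 5) (nat_lit 507) (nat_lit 5) (nat_lit 508) (nat_lit 5) (nat_lit 633) (nat_lit 629) (nat_lit 298)) (XT.lf (nat_lit 76) (nat_lit 4379145874) (nat_lit 0) (nat_lit 5370318287) (nat_lit 1900) (nat_lit 27231693414) (nat_lit 484) (nat_lit 5) (nat_lit 483) (nat_lit 5) (nat_lit 508) (nat_lit 5) (nat_lit 634) (nat_lit 629) (nat_lit 297))) (XT.nd (nat_lit 78) (nat_lit 0) (nat_lit 0) (XT.lf (nat_lit 0) (nat_lit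 10594184684) (nat_lit 1824) (nat_lit 13970832982) (nat_lit 1900) (nat_lit 12789395095) (nat_lit 484) (nat_lit 5) (nat_lit 508) (nat_lit 5) (nat_lit 509) (nat_lit 5) (nat_lit 635) (nat_lit 629) (nat_lit 296)) (XT.nd (nat_lit 78) (nat_lit 0) (nat_lit 76) (XT.lf (nat_lit 76) (nat_lit 5063045986) (nat_lit 0) (nat_lit 6459922246) (nat_lit 1900) (nat_lit 26210821484) (nat_lit 485) (nat_lit 5) (nat_lit 484) (nat_lit 5) (nat_lit 509) (nat_lit 5) (nat_lit 636) (nat_lit 629) (nat_lit 295)) (XT.lf (nat_lit 0) (nat_lit 12641413278) (nat_lit 1824) (nat_lit 13531262668) (nat_lit 1900) (nat_lit 11944656586) (nat_lit 485) (nat_lit 5) (nat_lit 509) (nat_lit 5) (nat_lit 510) (nat_lit 5) (nat_lit 637) (nat_lit 629) (nat_lit 294)))))) (XT.nd (nat_lit 390) (nat_lit 0) (nat_lit 228) (XT.nd (nat_lit 156) (nat_lit 0) (nat_lit 76) (XT.nd (nat_lit 78) (nat_lit 0) (nat_lit 76) (XT.lf (nat_lit 76) (nat_lit 6026496764) (nat_lit 0) (nat_lit 7836417960) (nat_lit 1900) (nat_lit 24644017766) (nat_lit 486) (nat_lit 5) (nat_lit 485) (nat_lit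 5) (nat_lit 510) (nat_lit 5) (nat_lit 638) (nat_lit 629) (nat_lit 293)) (XT.lf (nat_lit 0) (nat_lit 15269602766) (nat_lit 1824) (nat_lit 12815622257) (nat_lit 1900) (nat_lit 10815884330) (nat_lit 486) (nat_lit 5) (nat_lit 510) (nat_lit 5) (nat_lit 511) (nat_lit 5) (nat_lit 639) (nat_lit 629) (nat_lit 292))) (XT.nd (nat_lit 78) (nat_lit 0) (nat_lit 76) (XT.lf (nat_lit 76) (nat_lit 7285364269) (nat_lit 0) (nat_lit 9517082430) (nat_lit 1900) (nat_lit 22498762647) (nat_lit 487) (nat_lit 5) (nat_lit 486) (nat_lit 5) (nat_lit 511) (nat_lit 5) (nat_lit 640) (nat_lit 629) (nat_lit 291)) (XT.nd (nat_lit 78) (nat_lit 0) (nat_lit 0) (XT.lf (nat_lit 0) (nat_lit 18512537720) (nat_lit 1824) (nat_lit 11808043722) (nat_lit 1900) (nat_lit 9385798127) (nat_lit 487) (nat_lit 5) (nat_lit 511) (nat_lit 5) (nat_lit 512) (nat_lit 5) (nat_lit 641) (nat_lit 629) (nat_lit 290)) (XT.lf (nat_lit 76) (nat_lit 8856257761) (nat_lit 0) (nat_lit 11519967676) (nat_lit 1900) (nat_lit 19741039894) (nat_lit 488) (nat_lit 5) (nat_lit 487) (nat_lit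 5) (nat_lit 512) (nat_lit 5) (nat_lit 642) (nat_lit 629) (nat_lit 289))))) (XT.nd (nat_lit 156) (nat_lit 0) (nat_lit 76) (XT.nd (nat_lit 78) (nat_lit 0) (nat_lit 0) (XT.lf (nat_lit 0) (nat_lit 22405548493) (nat_lit 1824) (nat_lit 10491914193) (nat_lit 1900) (nat_lit 7636338926) (nat_lit 488) (nat_lit 5) (nat_lit 512) (nat_lit 5) (nat_lit 513) (nat_lit 5) (nat_lit 643) (nat_lit 629) (nat_lit 288)) (XT.lf (nat_lit 76) (nat_lit 10756560075) (nat_lit 0) (nat_lit 13863936199) (nat_lit 1900) (nat_lit 16335271613) (nat_lit 489) (nat_lit 5) (nat_lit 488) (nat_lit 5) (nat_lit 513) (nat_lit 5) (nat_lit 644) (nat_lit 629) (nat_lit 287))) (XT.nd (nat_lit 78) (nat_lit 0) (nat_lit 0) (XT.lf (nat_lit 0) (nat_lit 26985578157) (nat_lit 1824) (nat_lit 8849845438) (nat_lit 1900) (nat_lit 5548633221) (nat_lit 489) (nat_lit 5) (nat_lit 513) (nat_lit 5) (nat_lit 514) (nat_lit 5) (nat_lit 645) (nat_lit 629) (nat_lit 286)) (XT.nd (nat_lit 78) (nat_lit 0) (nat_lit 76) (XT.lf (nat_lit 76) (nat_lit 13004459266) (nat_lit 0) (nat_lit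 16568697817) (nat_lit 1900) (nat_lit 12244250563) (nat_lit 490) (nat_lit 5) (nat_lit 489) (nat_lit 5) (nat_lit 514) (nat_lit 5) (nat_lit 646) (nat_lit 629) (nat_lit 285)) (XT.lf (nat_lit 0) (nat_lit 32291252139) (nat_lit 1824) (nat_lit 6863642069) (nat_lit 1900) (nat_lit 3102956025) (nat_lit 490) (nat_lit 5) (nat_lit 514) (nat_lit 5) (nat_lit 515) (nat_lit 5) (nat_lit 647) (nat_lit 629) (nat_lit 284))))))))
noncomputable def xc241 : XT := (XT.nd (nat_lit 1560) (nat_lit 1596) (nat_lit 0) (XT.nd (nat_lit 780) (nat_lit 4408) (nat_lit 0) (XT.nd (nat_lit 390) (nat_lit 1900) (nat_lit 0) (XT.nd (nat_lit 156) (nat_lit 1824) (nat_lit 0) (XT.nd (nat_lit 78) (nat_lit 0) (nat_lit 76) (XT.lf (nat_lit 76) (nat_lit 15618981565) (nat_lit 0) (nat_lit 19654847992) (nat_lit 1900) (nat_lit 7429069736) (nat_lit 491) (nat_lit 5) (nat_lit 490) (nat_lit 5) (nat_lit 515) (nat_lit 5) (nat_lit 648) (nat_lit 629) (nat_lit 283)) (XT.lf (nat_lit 0) (nat_lit 38362950691) (nat_lit 1824) (nat_lit 4514268440) (nat_lit 1900) (nat_lit 278692389)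 (nat_lit 491) (nat_lit 5) (nat_lit 515) (nat_lit 5) (nat_lit 516) (nat_lit 5) (nat_lit 649) (nat_lit 629) (nat_lit 282))) (XT.nd (nat_lit 78) (nat_lit 1900) (nat_lit 0) (XT.lf (nat_lit 76) (nat_lit 18620025701) (nat_lit 0) (nat_lit 23143907662) (nat_lit 1900) (nat_lit 1849049075) (nat_lit 492) (nat_lit 5) (nat_lit 491) (nat_lit 5) (nat_lit 516) (nat_lit 5) (nat_lit 650) (nat_lit 629) (nat_lit 281)) (XT.nd (nat_lit 78) (nat_lit 0) (nat_lit 76) (XT.lf (nat_lit 0) (nat_lit 1168131822) (nat_lit 1900) (nat_lit 1808878868) (nat_lit 1976) (nat_lit 41101443846) (nat_lit 466) (nat_lit 5) (nat_lit 491) (nat_lit 5) (nat_lit 492) (nat_lit 5) (nat_lit 651) (nat_lit 629) (nat_lit 280)) (XT.lf (nat_lit 0) (nat_lit 4478819628) (nat_lit 1900) (nat_lit 22549489824) (nat_lit 1976) (nat_lit 17519523768) (nat_lit 467) (nat_lit 5) (nat_lit 492) (nat_lit 5) (nat_lit 493) (nat_lit 5) (nat_lit 652) (nat_lit 629) (nat_lit 279))))) (XT.nd (nat_lit 156) (nat_lit 1976) (nat_lit 0) (XT.nd (nat_lit 78) (nat_lit 0) (nat_lit 76) (XT.lf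 (nat_lit 76) (nat_lit 1276017318) (nat_lit 0) (nat_lit 6618985276) (nat_lit 1976) (nat_lit 37130811281) (nat_lit 468) (nat_lit 5) (nat_lit 467) (nat_lit 5) (nat_lit 493) (nat_lit 5) (nat_lit 653) (nat_lit 629) (nat_lit 278)) (XT.lf (nat_lit 0) (nat_lit 11623093081) (nat_lit 1900) (nat_lit 19720626818) (nat_lit 76) (nat_lit 14164762593) (nat_lit 468) (nat_lit 5) (nat_lit 493) (nat_lit 5) (nat_lit 469) (nat_lit 5) (nat_lit 654) (nat_lit 629) (nat_lit 277))) (XT.nd (nat_lit 78) (nat_lit 912) (nat_lit 0) (XT.lf (nat_lit 0) (nat_lit 4807550166) (nat_lit 1140) (nat_lit 10692338021) (nat_lit 1216) (nat_lit 30499433466) (nat_lit 453) (nat_lit 5) (nat_lit 468) (nat_lit 5) (nat_lit 469) (nat_lit 5) (nat_lit 655) (nat_lit 629) (nat_lit 276)) (XT.nd (nat_lit 78) (nat_lit 912) (nat_lit 0) (XT.lf (nat_lit 0) (nat_lit 19653881719) (nat_lit 1216) (nat_lit 16472747696) (nat_lit 76) (nat_lit 10369354956) (nat_lit 453) (nat_lit 5) (nat_lit 469) (nat_lit 5) (nat_lit 454) (nat_lit 5) (nat_lit 656) (nat_lit 629) (nat_lit 275))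 (XT.lf (nat_lit 0) (nat_lit 8784262361) (nat_lit 912) (nat_lit 15233661669) (nat_lit 988) (nat_lit 22982116959) (nat_lit 441) (nat_lit 5) (nat_lit 453) (nat_lit 5) (nat_lit 454) (nat_lit 5) (nat_lit 657) (nat_lit 629) (nat_lit 274)))))) (XT.nd (nat_lit 390) (nat_lit 2660) (nat_lit 0) (XT.nd (nat_lit 156) (nat_lit 836) (nat_lit 0) (XT.nd (nat_lit 78) (nat_lit 912) (nat_lit 0) (XT.lf (nat_lit 0) (nat_lit 28619115048) (nat_lit 988) (nat_lit 12783255692) (nat_lit 76) (nat_lit 6108810667) (nat_lit 441) (nat_lit 5) (nat_lit 454) (nat_lit 5) (nat_lit 442) (nat_lit 5) (nat_lit 658) (nat_lit 629) (nat_lit 273)) (XT.lf (nat_lit 0) (nat_lit 13229755134) (nat_lit 912) (nat_lit 20268511183) (nat_lit 988) (nat_lit 14530559612) (nat_lit 429) (nat_lit 5) (nat_lit 441) (nat_lit 5) (nat_lit 442) (nat_lit 5) (nat_lit 659) (nat_lit 629) (nat_lit 272))) (XT.nd (nat_lit 78) (nat_lit 836) (nat_lit 0) (XT.lf (nat_lit 0) (nat_lit 38568880523) (nat_lit 988) (nat_lit 8628531784) (nat_lit 76) (nat_lit 1357533459) (nat_lit 429) (nat_lit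 5) (nat_lit 442) (nat_lit 5) (nat_lit 430) (nat_lit 5) (nat_lit 660) (nat_lit 629) (nat_lit 271)) (XT.nd (nat_lit 78) (nat_lit 0) (nat_lit 0) (XT.lf (nat_lit 0) (nat_lit 18168690937) (nat_lit 836) (nat_lit 25823590882) (nat_lit 912) (nat_lit 5094278707) (nat_lit 418) (nat_lit 5) (nat_lit 429) (nat_lit 5) (nat_lit 430) (nat_lit 5) (nat_lit 661) (nat_lit 629) (nat_lit 270)) (XT.lf (nat_lit 0) (nat_lit 45618041124) (nat_lit 836) (nat_lit 3963206033) (nat_lit 912) (nat_lit 46418527) (nat_lit 418) (nat_lit 5) (nat_lit 429) (nat_lit 5) (nat_lit 430) (nat_lit 5) (nat_lit 662) (nat_lit 629) (nat_lit 269))))) (XT.nd (nat_lit 156) (nat_lit 836) (nat_lit 0) (XT.nd (nat_lit 78) (nat_lit 836) (nat_lit 0) (XT.lf (nat_lit 0) (nat_lit 5308929058) (nat_lit 988) (nat_lit 26582250278) (nat_lit 76) (nat_lit 18282282087) (nat_lit 405) (nat_lit 5) (nat_lit 418) (nat_lit 5) (nat_lit 406) (nat_lit 5) (nat_lit 663) (nat_lit 629) (nat_lit 268)) (XT.lf (nat_lit 0) (nat_lit 1055100932) (nat_lit 836) (nat_lit 9775058670) (nat_lit 912)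 (nat_lit 39898819407) (nat_lit 394) (nat_lit 5) (nat_lit 405) (nat_lit 5) (nat_lit 406) (nat_lit 5) (nat_lit 664) (nat_lit 629) (nat_lit 267))) (XT.nd (nat_lit 78) (nat_lit 836) (nat_lit 0) (XT.lf (nat_lit 0) (nat_lit 16723600755) (nat_lit 912) (nat_lit 21771485666) (nat_lit 76) (nat_lit 12795284828) (nat_lit 394) (nat_lit 5) (nat_lit 406) (nat_lit 5) (nat_lit 395) (nat_lit 5) (nat_lit 665) (nat_lit 629) (nat_lit 266)) (XT.nd (nat_lit 78) (nat_lit 0) (nat_lit 0) (XT.lf (nat_lit 0) (nat_lit 6711461365) (nat_lit 836) (nat_lit 16131000861) (nat_lit 912) (nat_lit 29018378097) (nat_lit 383) (nat_lit 5) (nat_lit 394) (nat_lit 5) (nat_lit 395) (nat_lit 5) (nat_lit 666) (nat_lit 629) (nat_lit 265)) (XT.lf (nat_lit 0) (nat_lit 29273390405) (nat_lit 912) (nat_lit 16425741646) (nat_lit 76) (nat_lit 6739792957) (nat_lit 383) (nat_lit 5) (nat_lit 395) (nat_lit 5) (nat_lit 384) (nat_lit 5) (nat_lit 667) (nat_lit 629) (nat_lit 264))))))) (XT.nd (nat_lit 78702) (nat_lit 0) (nat_lit 9272) (XT.nd (nat_lit 78312) (nat_lit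 0) (nat_lit 9044) (XT.nd (nat_lit 156) (nat_lit 836) (nat_lit 0) (XT.nd (nat_lit 78) (nat_lit 0) (nat_lit 0) (XT.lf (nat_lit 0) (nat_lit 12934403623) (nat_lit 760) (nat_lit 23088605214) (nat_lit 836) (nat_lit 17001761137) (nat_lit 373) (nat_lit 5) (nat_lit 383) (nat_lit 5) (nat_lit 384) (nat_lit 5) (nat_lit 668) (nat_lit 629) (nat_lit 263)) (XT.lf (nat_lit 0) (nat_lit 43017681303) (nat_lit 836) (nat_lit 10517065453) (nat_lit 76) (nat_lit 85383869) (nat_lit 373) (nat_lit 5) (nat_lit 384) (nat_lit 5) (nat_lit 374) (nat_lit 5) (nat_lit 669) (nat_lit 629) (nat_lit 262))) (XT.nd (nat_lit 78) (nat_lit 76) (nat_lit 0) (XT.lf (nat_lit 0) (nat_lit 19753094382) (nat_lit 760) (nat_lit 30679596202) (nat_lit 836) (nat_lit 3789099056) (nat_lit 363) (nat_lit 5) (nat_lit 373) (nat_lit 5) (nat_lit 374) (nat_lit 5) (nat_lit 670) (nat_lit 629) (nat_lit 261)) (XT.nd (nat_lit 78000) (nat_lit 0) (nat_lit 9044) (XT.lf (nat_lit 0) (nat_lit 3189402712) (nat_lit 836) (nat_lit 4084611056) (nat_lit 76) (nat_lit 47559650977) (nat_lit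 362) (nat_lit 5) (nat_lit 373) (nat_lit 5) (nat_lit 363) (nat_lit 5) (nat_lit 671) (nat_lit 629) (nat_lit 260)) (XT.lf (nat_lit 0) (nat_lit 3940335137) (nat_lit 1900) (nat_lit 7001412522) (nat_lit 1900) (nat_lit 7001412522) (nat_lit 481) (nat_lit 3) (nat_lit 506) (nat_lit 3) (nat_lit 506) (nat_lit 5) (nat_lit 630) (nat_lit 630) (nat_lit 300))))) (XT.nd (nat_lit 156) (nat_lit 0) (nat_lit 76) (XT.nd (nat_lit 78) (nat_lit 0) (nat_lit 76) (XT.lf (nat_lit 76) (nat_lit 3919559245) (nat_lit 0) (nat_lit 4116618179) (nat_lit 1900) (nat_lit 28207470582) (nat_lit 482) (nat_lit 5) (nat_lit 481) (nat_lit 3) (nat_lit 506) (nat_lit 5) (nat_lit 631) (nat_lit 630) (nat_lit 299)) (XT.lf (nat_lit 0) (nat_lit 8378972334) (nat_lit 1824) (nat_lit 14308321615) (nat_lit 1900) (nat_lit 13917144742) (nat_lit 482) (nat_lit 5) (nat_lit 506) (nat_lit 5) (nat_lit 507) (nat_lit 5) (nat_lit 632) (nat_lit 630) (nat_lit 298))) (XT.nd (nat_lit 78) (nat_lit 0) (nat_lit 76) (XT.lf (nat_lit 76) (nat_lit 4093473356) (nat_lit 0) (nat_lit 4687671442)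 (nat_lit 1900) (nat_lit 28190249998) (nat_lit 483) (nat_lit 5) (nat_lit 482) (nat_lit 5) (nat_lit 507) (nat_lit 5) (nat_lit 633) (nat_lit 630) (nat_lit 297)) (XT.nd (nat_lit 78) (nat_lit 0) (nat_lit 0) (XT.lf (nat_lit 0) (nat_lit 9375487107) (nat_lit 1824) (nat_lit 14376652512) (nat_lit 1900) (nat_lit 13589867917) (nat_lit 483) (nat_lit 5) (nat_lit 507) (nat_lit 5) (nat_lit 508) (nat_lit 5) (nat_lit 634) (nat_lit 630) (nat_lit 296)) (XT.lf (nat_lit 76) (nat_lit 4522184412) (nat_lit 0) (nat_lit 5518669235) (nat_lit 1900) (nat_lit 27677996172) (nat_lit 484) (nat_lit 5) (nat_lit 483) (nat_lit 5) (nat_lit 508) (nat_lit 5) (nat_lit 635) (nat_lit 630) (nat_lit 295)))))) (XT.nd (nat_lit 390) (nat_lit 0) (nat_lit 152) (XT.nd (nat_lit 156) (nat_lit 0) (nat_lit 76) (XT.nd (nat_lit 78) (nat_lit 0) (nat_lit 0) (XT.lf (nat_lit 0) (nat_lit 10900317753) (nat_lit 1824) (nat_lit 14193727712) (nat_lit 1900) (nat_lit 13005567716) (nat_lit 484) (nat_lit 5) (nat_lit 508) (nat_lit 5) (nat_lit 509) (nat_lit 5) (nat_lit 636) (nat_lit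 630) (nat_lit 294)) (XT.lf (nat_lit 76) (nat_lit 5220456981) (nat_lit 0) (nat_lit 6625736528) (nat_lit 1900) (nat_lit 26640413892) (nat_lit 485) (nat_lit 5) (nat_lit 484) (nat_lit 5) (nat_lit 509) (nat_lit 5) (nat_lit 637) (nat_lit 630) (nat_lit 293))) (XT.nd (nat_lit 78) (nat_lit 0) (nat_lit 0) (XT.lf (nat_lit 0) (nat_lit 12984955443) (nat_lit 1824) (nat_lit 13744784079) (nat_lit 1900) (nat_lit 12148122646) (nat_lit 485) (nat_lit 5) (nat_lit 509) (nat_lit 5) (nat_lit 510) (nat_lit 5) (nat_lit 638) (nat_lit 630) (nat_lit 292)) (XT.nd (nat_lit 78) (nat_lit 0) (nat_lit 76) (XT.lf (nat_lit 76) (nat_lit 6203754858) (nat_lit 0) (nat_lit 8025721673) (nat_lit 1900) (nat_lit 25045805855) (nat_lit 486) (nat_lit 5) (nat_lit 485) (nat_lit 5) (nat_lit 510) (nat_lit 5) (nat_lit 639) (nat_lit 630) (nat_lit 291)) (XT.lf (nat_lit 0) (nat_lit 15662339931) (nat_lit 1824) (nat_lit 13014357827) (nat_lit 1900) (nat_lit 11000684250) (nat_lit 486) (nat_lit 5) (nat_lit 510) (nat_lit 5) (nat_lit 511) (nat_lit 5) (nat_lit 640) (nat_lit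 630) (nat_lit 290))))) (XT.nd (nat_lit 234) (nat_lit 0) (nat_lit 152) (XT.nd (nat_lit 78) (nat_lit 0) (nat_lit 76) (XT.lf (nat_lit 76) (nat_lit 7488269635) (nat_lit 0) (nat_lit 9736229826) (nat_lit 1900) (nat_lit 22861011416) (nat_lit 487) (nat_lit 5) (nat_lit 486) (nat_lit 5) (nat_lit 511) (nat_lit 5) (nat_lit 641) (nat_lit 630) (nat_lit 289)) (XT.nd (nat_lit 78) (nat_lit 0) (nat_lit 0) (XT.lf (nat_lit 0) (nat_lit 18966922594) (nat_lit 1824) (nat_lit 11986255811) (nat_lit 1900) (nat_lit 9545643544) (nat_lit 487) (nat_lit 5) (nat_lit 511) (nat_lit 5) (nat_lit 512) (nat_lit 5) (nat_lit 642) (nat_lit 630) (nat_lit 288)) (XT.lf (nat_lit 76) (nat_lit 9090950460) (nat_lit 0) (nat_lit 11775657684) (nat_lit 1900) (nat_lit 20051342852) (nat_lit 488) (nat_lit 5) (nat_lit 487) (nat_lit 5) (nat_lit 512) (nat_lit 5) (nat_lit 643) (nat_lit 630) (nat_lit 287)))) (XT.nd (nat_lit 78) (nat_lit 0) (nat_lit 0) (XT.lf (nat_lit 0) (nat_lit 22934732006) (nat_lit 1824) (nat_lit 10643525624) (nat_lit 1900) (nat_lit 7764596134)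 (nat_lit 488) (nat_lit 5) (nat_lit 512) (nat_lit 5) (nat_lit 513) (nat_lit 5) (nat_lit 644) (nat_lit 630) (nat_lit 286)) (XT.nd (nat_lit 78) (nat_lit 0) (nat_lit 76) (XT.lf (nat_lit 76) (nat_lit 11029535058) (nat_lit 0) (nat_lit 14163229587) (nat_lit 1900) (nat_lit 16580519048) (nat_lit 489) (nat_lit 5) (nat_lit 488) (nat_lit 5) (nat_lit 513) (nat_lit 5) (nat_lit 645) (nat_lit 630) (nat_lit 285)) (XT.lf (nat_lit 0) (nat_lit 27603442183) (nat_lit 1824) (nat_lit 8968424438) (nat_lit 1900) (nat_lit 5638305946) (nat_lit 489) (nat_lit 5) (nat_lit 513) (nat_lit 5) (nat_lit 514) (nat_lit 5) (nat_lit 646) (nat_lit 630) (nat_lit 284))))))))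
noncomputable def xc242 : XT := (XT.nd (nat_lit 1560) (nat_lit 1596) (nat_lit 0) (XT.nd (nat_lit 780) (nat_lit 4484) (nat_lit 0) (XT.nd (nat_lit 390) (nat_lit 2736) (nat_lit 0) (XT.nd (nat_lit 156) (nat_lit 0) (nat_lit 76) (XT.nd (nat_lit 78) (nat_lit 0) (nat_lit 76) (XT.lf (nat_lit 76) (nat_lit 13322582031) (nat_lit 0) (nat_lit 16919035048) (nat_lit 1900) (nat_lit 12410596493) (nat_lit 490) (nat_lit 5) (nat_lit 489) (nat_lit 5) (nat_lit 514) (nat_lit 5) (nat_lit 647) (nat_lit 630) (nat_lit 283)) (XT.lf (nat_lit 0) (nat_lit 33012443585) (nat_lit 1824) (nat_lit 6942386549) (nat_lit 1900) (nat_lit 3146667530) (nat_lit 490) (nat_lit 5) (nat_lit 514) (nat_lit 5) (nat_lit 515) (nat_lit 5) (nat_lit 648) (nat_lit 630) (nat_lit 282))) (XT.nd (nat_lit 78) (nat_lit 0) (nat_lit 76) (XT.lf (nat_lit 76) (nat_lit 15989504503) (nat_lit 0) (nat_lit 20064067781) (nat_lit 1900) (nat_lit 7501897471) (nat_lit 491) (nat_lit 5) (nat_lit 490) (nat_lit 5) (nat_lit 515) (nat_lit 5) (nat_lit 649) (nat_lit 630) (nat_lit 281)) (XT.nd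 (nat_lit 78) (nat_lit 0) (nat_lit 0) (XT.lf (nat_lit 0) (nat_lit 39202917014) (nat_lit 1824) (nat_lit 4545989582) (nat_lit 1900) (nat_lit 268666849) (nat_lit 491) (nat_lit 5) (nat_lit 515) (nat_lit 5) (nat_lit 516) (nat_lit 5) (nat_lit 650) (nat_lit 630) (nat_lit 280)) (XT.lf (nat_lit 76) (nat_lit 19050605150) (nat_lit 0) (nat_lit 23620266292) (nat_lit 1900) (nat_lit 1812935340) (nat_lit 492) (nat_lit 5) (nat_lit 491) (nat_lit 5) (nat_lit 516) (nat_lit 5) (nat_lit 651) (nat_lit 630) (nat_lit 279))))) (XT.nd (nat_lit 156) (nat_lit 988) (nat_lit 0) (XT.nd (nat_lit 78) (nat_lit 0) (nat_lit 76) (XT.lf (nat_lit 0) (nat_lit 1262216092) (nat_lit 1900) (nat_lit 1787076387) (nat_lit 1976) (nat_lit 41909314683) (nat_lit 466) (nat_lit 5) (nat_lit 491) (nat_lit 5) (nat_lit 492) (nat_lit 5) (nat_lit 652) (nat_lit 630) (nat_lit 278)) (XT.lf (nat_lit 0) (nat_lit 4638026295) (nat_lit 1900) (nat_lit 22941406210) (nat_lit 1976) (nat_lit 17857962780) (nat_lit 467) (nat_lit 5) (nat_lit 492) (nat_lit 5) (nat_lit 493) (nat_lit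 5) (nat_lit 653) (nat_lit 630) (nat_lit 277))) (XT.nd (nat_lit 78) (nat_lit 1064) (nat_lit 0) (XT.lf (nat_lit 76) (nat_lit 1360222434) (nat_lit 0) (nat_lit 6761326208) (nat_lit 1976) (nat_lit 37803406637) (nat_lit 468) (nat_lit 5) (nat_lit 467) (nat_lit 5) (nat_lit 493) (nat_lit 5) (nat_lit 654) (nat_lit 630) (nat_lit 276)) (XT.nd (nat_lit 78) (nat_lit 1140) (nat_lit 0) (XT.lf (nat_lit 0) (nat_lit 11922791532) (nat_lit 1900) (nat_lit 20056093944) (nat_lit 76) (nat_lit 14438420019) (nat_lit 468) (nat_lit 5) (nat_lit 493) (nat_lit 5) (nat_lit 469) (nat_lit 5) (nat_lit 655) (nat_lit 630) (nat_lit 275)) (XT.lf (nat_lit 0) (nat_lit 4962258781) (nat_lit 1140) (nat_lit 10913925589) (nat_lit 1216) (nat_lit 31041795869) (nat_lit 453) (nat_lit 5) (nat_lit 468) (nat_lit 5) (nat_lit 469) (nat_lit 5) (nat_lit 656) (nat_lit 630) (nat_lit 274)))))) (XT.nd (nat_lit 390) (nat_lit 2660) (nat_lit 0) (XT.nd (nat_lit 156) (nat_lit 912) (nat_lit 0) (XT.nd (nat_lit 78) (nat_lit 912) (nat_lit 0) (XT.lf (nat_lit 0) (nat_lit 20111908531)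 (nat_lit 1216) (nat_lit 16743442143) (nat_lit 76) (nat_lit 10569252559) (nat_lit 453) (nat_lit 5) (nat_lit 469) (nat_lit 5) (nat_lit 454) (nat_lit 5) (nat_lit 657) (nat_lit 630) (nat_lit 273)) (XT.lf (nat_lit 0) (nat_lit 9018321533) (nat_lit 912) (nat_lit 15544015644) (nat_lit 988) (nat_lit 23376421733) (nat_lit 441) (nat_lit 5) (nat_lit 453) (nat_lit 5) (nat_lit 454) (nat_lit 5) (nat_lit 658) (nat_lit 630) (nat_lit 272))) (XT.nd (nat_lit 78) (nat_lit 912) (nat_lit 0) (XT.lf (nat_lit 0) (nat_lit 29254259882) (nat_lit 988) (nat_lit 12980397564) (nat_lit 76) (nat_lit 6225490569) (nat_lit 441) (nat_lit 5) (nat_lit 454) (nat_lit 5) (nat_lit 442) (nat_lit 5) (nat_lit 659) (nat_lit 630) (nat_lit 271)) (XT.nd (nat_lit 78) (nat_lit 0) (nat_lit 0) (XT.lf (nat_lit 0) (nat_lit 13552488457) (nat_lit 912) (nat_lit 20677652553) (nat_lit 988) (nat_lit 14758021515) (nat_lit 429) (nat_lit 5) (nat_lit 441) (nat_lit 5) (nat_lit 442) (nat_lit 5) (nat_lit 660) (nat_lit 630) (nat_lit 270)) (XT.lf (nat_lit 0) (nat_lit 39400929586)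 (nat_lit 988) (nat_lit 8742864549) (nat_lit 76) (nat_lit 1381035416) (nat_lit 429) (nat_lit 5) (nat_lit 442) (nat_lit 5) (nat_lit 430) (nat_lit 5) (nat_lit 661) (nat_lit 630) (nat_lit 269))))) (XT.nd (nat_lit 156) (nat_lit 1748) (nat_lit 0) (XT.nd (nat_lit 78) (nat_lit 76) (nat_lit 0) (XT.lf (nat_lit 0) (nat_lit 18589919483) (nat_lit 836) (nat_lit 26342065421) (nat_lit 912) (nat_lit 5135108016) (nat_lit 418) (nat_lit 5) (nat_lit 429) (nat_lit 5) (nat_lit 430) (nat_lit 5) (nat_lit 662) (nat_lit 630) (nat_lit 268)) (XT.lf (nat_lit 0) (nat_lit 12348085) (nat_lit 912) (nat_lit 4032002658) (nat_lit 76) (nat_lit 46574691319) (nat_lit 417) (nat_lit 5) (nat_lit 429) (nat_lit 5) (nat_lit 418) (nat_lit 5) (nat_lit 663) (nat_lit 630) (nat_lit 267))) (XT.nd (nat_lit 78) (nat_lit 836) (nat_lit 0) (XT.lf (nat_lit 0) (nat_lit 5473386744) (nat_lit 988) (nat_lit 27055591810) (nat_lit 76) (nat_lit 18646784943) (nat_lit 405) (nat_lit 5) (nat_lit 418) (nat_lit 5) (nat_lit 406) (nat_lit 5) (nat_lit 664) (nat_lit 630) (nat_lit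 266)) (XT.nd (nat_lit 78) (nat_lit 0) (nat_lit 0) (XT.lf (nat_lit 0) (nat_lit 1134122848) (nat_lit 836) (nat_lit 9970152378) (nat_lit 912) (nat_lit 40638131574) (nat_lit 394) (nat_lit 5) (nat_lit 405) (nat_lit 5) (nat_lit 406) (nat_lit 5) (nat_lit 665) (nat_lit 630) (nat_lit 265)) (XT.lf (nat_lit 0) (nat_lit 17114460100) (nat_lit 912) (nat_lit 22149004553) (nat_lit 76) (nat_lit 13051584762) (nat_lit 394) (nat_lit 5) (nat_lit 406) (nat_lit 5) (nat_lit 395) (nat_lit 5) (nat_lit 666) (nat_lit 630) (nat_lit 264))))))) (XT.nd (nat_lit 78858) (nat_lit 0) (nat_lit 8436) (XT.nd (nat_lit 78468) (nat_lit 0) (nat_lit 8208) (XT.nd (nat_lit 156) (nat_lit 760) (nat_lit 0) (XT.nd (nat_lit 78) (nat_lit 0) (nat_lit 0) (XT.lf (nat_lit 0) (nat_lit 6903220426) (nat_lit 836) (nat_lit 16451746263) (nat_lit 912) (nat_lit 29541975854) (nat_lit 383) (nat_lit 5) (nat_lit 394) (nat_lit 5) (nat_lit 395) (nat_lit 5) (nat_lit 667) (nat_lit 630) (nat_lit 263)) (XT.lf (nat_lit 0) (nat_lit 29913434086) (nat_lit 912) (nat_lit 16696773883)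 (nat_lit 76) (nat_lit 6876402570) (nat_lit 383) (nat_lit 5) (nat_lit 395) (nat_lit 5) (nat_lit 384) (nat_lit 5) (nat_lit 668) (nat_lit 630) (nat_lit 262))) (XT.nd (nat_lit 78) (nat_lit 0) (nat_lit 0) (XT.lf (nat_lit 0) (nat_lit 13250196116) (nat_lit 760) (nat_lit 23547149415) (nat_lit 836) (nat_lit 17286840889) (nat_lit 373) (nat_lit 5) (nat_lit 383) (nat_lit 5) (nat_lit 384) (nat_lit 5) (nat_lit 669) (nat_lit 630) (nat_lit 261)) (XT.nd (nat_lit 78156) (nat_lit 0) (nat_lit 8208) (XT.lf (nat_lit 0) (nat_lit 43930875590) (nat_lit 836) (nat_lit 10670384785) (nat_lit 76) (nat_lit 90214653) (nat_lit 373) (nat_lit 5) (nat_lit 384) (nat_lit 5) (nat_lit 374) (nat_lit 5) (nat_lit 670) (nat_lit 630) (nat_lit 260)) (XT.lf (nat_lit 0) (nat_lit 4070061145) (nat_lit 1900) (nat_lit 7115471156) (nat_lit 1900) (nat_lit 7115471156) (nat_lit 481) (nat_lit 3) (nat_lit 506) (nat_lit 3) (nat_lit 506) (nat_lit 5) (nat_lit 631) (nat_lit 631) (nat_lit 298))))) (XT.nd (nat_lit 156) (nat_lit 0) (nat_lit 76) (XT.nd (nat_lit 78) (nat_lit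 0) (nat_lit 76) (XT.lf (nat_lit 76) (nat_lit 4049547957) (nat_lit 0) (nat_lit 4247529796) (nat_lit 1900) (nat_lit 28669436656) (nat_lit 482) (nat_lit 5) (nat_lit 481) (nat_lit 3) (nat_lit 506) (nat_lit 5) (nat_lit 632) (nat_lit 631) (nat_lit 297)) (XT.lf (nat_lit 0) (nat_lit 8644455086) (nat_lit 1824) (nat_lit 14541625799) (nat_lit 1900) (nat_lit 14148485551) (nat_lit 482) (nat_lit 5) (nat_lit 506) (nat_lit 5) (nat_lit 507) (nat_lit 5) (nat_lit 633) (nat_lit 631) (nat_lit 296))) (XT.nd (nat_lit 78) (nat_lit 0) (nat_lit 76) (XT.lf (nat_lit 76) (nat_lit 4227857293) (nat_lit 0) (nat_lit 4825234993) (nat_lit 1900) (nat_lit 28655801010) (nat_lit 483) (nat_lit 5) (nat_lit 482) (nat_lit 5) (nat_lit 507) (nat_lit 5) (nat_lit 634) (nat_lit 631) (nat_lit 295)) (XT.nd (nat_lit 78) (nat_lit 0) (nat_lit 0) (XT.lf (nat_lit 0) (nat_lit 9657153856) (nat_lit 1824) (nat_lit 14610530356) (nat_lit 1900) (nat_lit 13819277486) (nat_lit 483) (nat_lit 5) (nat_lit 507) (nat_lit 5) (nat_lit 508) (nat_lit 5) (nat_lit 635) (nat_lit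 631) (nat_lit 294)) (XT.lf (nat_lit 76) (nat_lit 4665930312) (nat_lit 0) (nat_lit 5668397273) (nat_lit 1900) (nat_lit 28137043302) (nat_lit 484) (nat_lit 5) (nat_lit 483) (nat_lit 5) (nat_lit 508) (nat_lit 5) (nat_lit 636) (nat_lit 631) (nat_lit 293)))))) (XT.nd (nat_lit 390) (nat_lit 0) (nat_lit 152) (XT.nd (nat_lit 156) (nat_lit 0) (nat_lit 76) (XT.nd (nat_lit 78) (nat_lit 0) (nat_lit 0) (XT.lf (nat_lit 0) (nat_lit 11208913666) (nat_lit 1824) (nat_lit 14423275152) (nat_lit 1900) (nat_lit 13227602100) (nat_lit 484) (nat_lit 5) (nat_lit 508) (nat_lit 5) (nat_lit 509) (nat_lit 5) (nat_lit 637) (nat_lit 631) (nat_lit 292)) (XT.lf (nat_lit 76) (nat_lit 5378835819) (nat_lit 0) (nat_lit 6793445258) (nat_lit 1900) (nat_lit 27082272515) (nat_lit 485) (nat_lit 5) (nat_lit 484) (nat_lit 5) (nat_lit 509) (nat_lit 5) (nat_lit 638) (nat_lit 631) (nat_lit 291))) (XT.nd (nat_lit 78) (nat_lit 0) (nat_lit 0) (XT.lf (nat_lit 0) (nat_lit 13331845920) (nat_lit 1824) (nat_lit 13964793331) (nat_lit 1900) (nat_lit 12357033703)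 (nat_lit 485) (nat_lit 5) (nat_lit 509) (nat_lit 5) (nat_lit 510) (nat_lit 5) (nat_lit 639) (nat_lit 631) (nat_lit 290)) (XT.nd (nat_lit 78) (nat_lit 0) (nat_lit 76) (XT.lf (nat_lit 76) (nat_lit 6382355291) (nat_lit 0) (nat_lit 8217546520) (nat_lit 1900) (nat_lit 25459166930) (nat_lit 486) (nat_lit 5) (nat_lit 485) (nat_lit 5) (nat_lit 510) (nat_lit 5) (nat_lit 640) (nat_lit 631) (nat_lit 289)) (XT.lf (nat_lit 0) (nat_lit 16059540122) (nat_lit 1824) (nat_lit 13219303888) (nat_lit 1900) (nat_lit 11190404041) (nat_lit 486) (nat_lit 5) (nat_lit 510) (nat_lit 5) (nat_lit 511) (nat_lit 5) (nat_lit 641) (nat_lit 631) (nat_lit 288))))) (XT.nd (nat_lit 234) (nat_lit 0) (nat_lit 152) (XT.nd (nat_lit 78) (nat_lit 0) (nat_lit 76) (XT.lf (nat_lit 76) (nat_lit 7693012036) (nat_lit 0) (nat_lit 9958641609) (nat_lit 1900) (nat_lit 23233911687) (nat_lit 487) (nat_lit 5) (nat_lit 486) (nat_lit 5) (nat_lit 511) (nat_lit 5) (nat_lit 642) (nat_lit 631) (nat_lit 287)) (XT.nd (nat_lit 78) (nat_lit 0) (nat_lit 0) (XT.lf (nat_lit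 0) (nat_lit 19427128135) (nat_lit 1824) (nat_lit 12170282363) (nat_lit 1900) (nat_lit 9709768118) (nat_lit 487) (nat_lit 5) (nat_lit 511) (nat_lit 5) (nat_lit 512) (nat_lit 5) (nat_lit 643) (nat_lit 631) (nat_lit 286)) (XT.lf (nat_lit 76) (nat_lit 9328101595) (nat_lit 0) (nat_lit 12035479425) (nat_lit 1900) (nat_lit 20371133799) (nat_lit 488) (nat_lit 5) (nat_lit 487) (nat_lit 5) (nat_lit 512) (nat_lit 5) (nat_lit 644) (nat_lit 631) (nat_lit 285)))) (XT.nd (nat_lit 78) (nat_lit 0) (nat_lit 0) (XT.lf (nat_lit 0) (nat_lit 23471351044) (nat_lit 1824) (nat_lit 10800430304) (nat_lit 1900) (nat_lit 7896368668) (nat_lit 488) (nat_lit 5) (nat_lit 512) (nat_lit 5) (nat_lit 513) (nat_lit 5) (nat_lit 645) (nat_lit 631) (nat_lit 284)) (XT.nd (nat_lit 78) (nat_lit 0) (nat_lit 76) (XT.lf (nat_lit 76) (nat_lit 11305723396) (nat_lit 0) (nat_lit 14467653986) (nat_lit 1900) (nat_lit 16833834546) (nat_lit 489) (nat_lit 5) (nat_lit 488) (nat_lit 5) (nat_lit 513) (nat_lit 5) (nat_lit 646) (nat_lit 631) (nat_lit 283)) (XT.lf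 (nat_lit 0) (nat_lit 28230628733) (nat_lit 1824) (nat_lit 9091643457) (nat_lit 1900) (nat_lit 5730599228) (nat_lit 489) (nat_lit 5) (nat_lit 513) (nat_lit 5) (nat_lit 514) (nat_lit 5) (nat_lit 647) (nat_lit 631) (nat_lit 282))))))))
noncomputable def xc243 : XT := (XT.nd (nat_lit 1560) (nat_lit 1596) (nat_lit 0) (XT.nd (nat_lit 780) (nat_lit 4484) (nat_lit 0) (XT.nd (nat_lit 390) (nat_lit 2736) (nat_lit 0) (XT.nd (nat_lit 156) (nat_lit 0) (nat_lit 76) (XT.nd (nat_lit 78) (nat_lit 0) (nat_lit 76) (XT.lf (nat_lit 76) (nat_lit 13644813737) (nat_lit 0) (nat_lit 17275642655) (nat_lit 1900) (nat_lit 12583319110) (nat_lit 490) (nat_lit 5) (nat_lit 489) (nat_lit 5) (nat_lit 514) (nat_lit 5) (nat_lit 648) (nat_lit 631) (nat_lit 281)) (XT.lf (nat_lit 0) (nat_lit 33745132291) (nat_lit 1824) (nat_lit 7024978645) (nat_lit 1900) (nat_lit 3191965726) (nat_lit 490) (nat_lit 5) (nat_lit 514) (nat_lit 5) (nat_lit 515) (nat_lit 5) (nat_lit 649) (nat_lit 631) (nat_lit 280))) (XT.nd (nat_lit 78) (nat_lit 0) (nat_lit 76) (XT.lf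 (nat_lit 76) (nat_lit 16365180124) (nat_lit 0) (nat_lit 20480845896) (nat_lit 1900) (nat_lit 7579123367) (nat_lit 491) (nat_lit 5) (nat_lit 490) (nat_lit 5) (nat_lit 515) (nat_lit 5) (nat_lit 650) (nat_lit 631) (nat_lit 279)) (XT.nd (nat_lit 78) (nat_lit 0) (nat_lit 0) (XT.lf (nat_lit 0) (nat_lit 40056859351) (nat_lit 1824) (nat_lit 4580619268) (nat_lit 1900) (nat_lit 259046542) (nat_lit 491) (nat_lit 5) (nat_lit 515) (nat_lit 5) (nat_lit 516) (nat_lit 5) (nat_lit 651) (nat_lit 631) (nat_lit 278)) (XT.lf (nat_lit 76) (nat_lit 19487537030) (nat_lit 0) (nat_lit 24105628632) (nat_lit 1900) (nat_lit 1778937688) (nat_lit 492) (nat_lit 5) (nat_lit 491) (nat_lit 5) (nat_lit 516) (nat_lit 5) (nat_lit 652) (nat_lit 631) (nat_lit 277))))) (XT.nd (nat_lit 156) (nat_lit 988) (nat_lit 0) (XT.nd (nat_lit 78) (nat_lit 0) (nat_lit 76) (XT.lf (nat_lit 0) (nat_lit 1355435840) (nat_lit 1900) (nat_lit 1767089293) (nat_lit 1976) (nat_lit 42733892709) (nat_lit 466) (nat_lit 5) (nat_lit 491) (nat_lit 5) (nat_lit 492) (nat_lit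 5) (nat_lit 653) (nat_lit 631) (nat_lit 276)) (XT.lf (nat_lit 0) (nat_lit 4797713267) (nat_lit 1900) (nat_lit 23343454817) (nat_lit 1976) (nat_lit 18203634662) (nat_lit 467) (nat_lit 5) (nat_lit 492) (nat_lit 5) (nat_lit 493) (nat_lit 5) (nat_lit 654) (nat_lit 631) (nat_lit 275))) (XT.nd (nat_lit 78) (nat_lit 1064) (nat_lit 0) (XT.lf (nat_lit 76) (nat_lit 1443832851) (nat_lit 0) (nat_lit 6906127152) (nat_lit 1976) (nat_lit 38492172895) (nat_lit 468) (nat_lit 5) (nat_lit 467) (nat_lit 5) (nat_lit 493) (nat_lit 5) (nat_lit 655) (nat_lit 631) (nat_lit 274)) (XT.nd (nat_lit 78) (nat_lit 1140) (nat_lit 0) (XT.lf (nat_lit 0) (nat_lit 12225873073) (nat_lit 1900) (nat_lit 20400559335) (nat_lit 76) (nat_lit 14717924841) (nat_lit 468) (nat_lit 5) (nat_lit 493) (nat_lit 5) (nat_lit 469) (nat_lit 5) (nat_lit 656) (nat_lit 631) (nat_lit 273)) (XT.lf (nat_lit 0) (nat_lit 5117787705) (nat_lit 1140) (nat_lit 11139644323) (nat_lit 1216) (nat_lit 31597631531) (nat_lit 453) (nat_lit 5) (nat_lit 468) (nat_lit 5) (nat_lit 469)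 (nat_lit 5) (nat_lit 657) (nat_lit 631) (nat_lit 272)))))) (XT.nd (nat_lit 390) (nat_lit 2660) (nat_lit 0) (XT.nd (nat_lit 156) (nat_lit 912) (nat_lit 0) (XT.nd (nat_lit 78) (nat_lit 912) (nat_lit 0) (XT.lf (nat_lit 0) (nat_lit 20576573823) (nat_lit 1216) (nat_lit 17021832221) (nat_lit 76) (nat_lit 10773438941) (nat_lit 453) (nat_lit 5) (nat_lit 469) (nat_lit 5) (nat_lit 454) (nat_lit 5) (nat_lit 658) (nat_lit 631) (nat_lit 271)) (XT.lf (nat_lit 0) (nat_lit 9254795157) (nat_lit 912) (nat_lit 15860356108) (nat_lit 988) (nat_lit 23781149740) (nat_lit 441) (nat_lit 5) (nat_lit 453) (nat_lit 5) (nat_lit 454) (nat_lit 5) (nat_lit 659) (nat_lit 631) (nat_lit 270))) (XT.nd (nat_lit 78) (nat_lit 912) (nat_lit 0) (XT.lf (nat_lit 0) (nat_lit 29899670466) (nat_lit 988) (nat_lit 13183754802) (nat_lit 76) (nat_lit 6344717497) (nat_lit 441) (nat_lit 5) (nat_lit 454) (nat_lit 5) (nat_lit 442) (nat_lit 5) (nat_lit 660) (nat_lit 631) (nat_lit 269)) (XT.nd (nat_lit 78) (nat_lit 0) (nat_lit 0) (XT.lf (nat_lit 0) (nat_lit 13879418869)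 (nat_lit 912) (nat_lit 21094830311) (nat_lit 988) (nat_lit 14992484820) (nat_lit 429) (nat_lit 5) (nat_lit 441) (nat_lit 5) (nat_lit 442) (nat_lit 5) (nat_lit 661) (nat_lit 631) (nat_lit 268)) (XT.lf (nat_lit 0) (nat_lit 40247263684) (nat_lit 988) (nat_lit 8861745417) (nat_lit 76) (nat_lit 1405149096) (nat_lit 429) (nat_lit 5) (nat_lit 442) (nat_lit 5) (nat_lit 430) (nat_lit 5) (nat_lit 662) (nat_lit 631) (nat_lit 267))))) (XT.nd (nat_lit 156) (nat_lit 1748) (nat_lit 0) (XT.nd (nat_lit 78) (nat_lit 76) (nat_lit 0) (XT.lf (nat_lit 0) (nat_lit 19017326030) (nat_lit 836) (nat_lit 26870831682) (nat_lit 912) (nat_lit 5179124801) (nat_lit 418) (nat_lit 5) (nat_lit 429) (nat_lit 5) (nat_lit 430) (nat_lit 5) (nat_lit 663) (nat_lit 631) (nat_lit 266)) (XT.lf (nat_lit 0) (nat_lit 69375151) (nat_lit 912) (nat_lit 4057368791) (nat_lit 76) (nat_lit 47503541818) (nat_lit 417) (nat_lit 5) (nat_lit 429) (nat_lit 5) (nat_lit 418) (nat_lit 5) (nat_lit 664) (nat_lit 631) (nat_lit 265))) (XT.nd (nat_lit 78) (nat_lit 836) (nat_lit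 0) (XT.lf (nat_lit 0) (nat_lit 5638870535) (nat_lit 988) (nat_lit 27540664168) (nat_lit 76) (nat_lit 19018622233) (nat_lit 405) (nat_lit 5) (nat_lit 418) (nat_lit 5) (nat_lit 406) (nat_lit 5) (nat_lit 665) (nat_lit 631) (nat_lit 264)) (XT.nd (nat_lit 78) (nat_lit 0) (nat_lit 0) (XT.lf (nat_lit 0) (nat_lit 1212476103) (nat_lit 836) (nat_lit 10169163782) (nat_lit 912) (nat_lit 41394507987) (nat_lit 394) (nat_lit 5) (nat_lit 405) (nat_lit 5) (nat_lit 406) (nat_lit 5) (nat_lit 666) (nat_lit 631) (nat_lit 263)) (XT.lf (nat_lit 0) (nat_lit 17510947045) (nat_lit 912) (nat_lit 22536322567) (nat_lit 76) (nat_lit 13312995386) (nat_lit 394) (nat_lit 5) (nat_lit 406) (nat_lit 5) (nat_lit 395) (nat_lit 5) (nat_lit 667) (nat_lit 631) (nat_lit 262))))))) (XT.nd (nat_lit 78936) (nat_lit 0) (nat_lit 8436) (XT.nd (nat_lit 78546) (nat_lit 0) (nat_lit 8284) (XT.nd (nat_lit 156) (nat_lit 760) (nat_lit 0) (XT.nd (nat_lit 78) (nat_lit 0) (nat_lit 0) (XT.lf (nat_lit 0) (nat_lit 7096580714) (nat_lit 836) (nat_lit 16778979367) (nat_lit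 912) (nat_lit 30078250008) (nat_lit 383) (nat_lit 5) (nat_lit 394) (nat_lit 5) (nat_lit 395) (nat_lit 5) (nat_lit 668) (nat_lit 631) (nat_lit 261)) (XT.lf (nat_lit 0) (nat_lit 30564159393) (nat_lit 912) (nat_lit 16975458884) (nat_lit 76) (nat_lit 7015673945) (nat_lit 383) (nat_lit 5) (nat_lit 395) (nat_lit 5) (nat_lit 384) (nat_lit 5) (nat_lit 669) (nat_lit 631) (nat_lit 260))) (XT.nd (nat_lit 78234) (nat_lit 0) (nat_lit 8208) (XT.lf (nat_lit 0) (nat_lit 13570087025) (nat_lit 760) (nat_lit 24014989843) (nat_lit 836) (nat_lit 17579756224) (nat_lit 373) (nat_lit 5) (nat_lit 383) (nat_lit 5) (nat_lit 384) (nat_lit 5) (nat_lit 670) (nat_lit 631) (nat_lit 259)) (XT.nd (nat_lit 78) (nat_lit 0) (nat_lit 0) (XT.lf (nat_lit 0) (nat_lit 4200404415) (nat_lit 1900) (nat_lit 7232819395) (nat_lit 1900) (nat_lit 7232819395) (nat_lit 481) (nat_lit 3) (nat_lit 506) (nat_lit 3) (nat_lit 506) (nat_lit 5) (nat_lit 632) (nat_lit 632) (nat_lit 296)) (XT.lf (nat_lit 76) (nat_lit 4180132848) (nat_lit 0) (nat_lit 4379173254) (nat_lit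 1900) (nat_lit 29144609955) (nat_lit 482) (nat_lit 5) (nat_lit 481) (nat_lit 3) (nat_lit 506) (nat_lit 5) (nat_lit 633) (nat_lit 632) (nat_lit 295))))) (XT.nd (nat_lit 156) (nat_lit 0) (nat_lit 76) (XT.nd (nat_lit 78) (nat_lit 0) (nat_lit 0) (XT.lf (nat_lit 0) (nat_lit 8911445789) (nat_lit 1824) (nat_lit 14781648773) (nat_lit 1900) (nat_lit 14386278324) (nat_lit 482) (nat_lit 5) (nat_lit 506) (nat_lit 5) (nat_lit 507) (nat_lit 5) (nat_lit 634) (nat_lit 632) (nat_lit 294)) (XT.lf (nat_lit 76) (nat_lit 4362889708) (nat_lit 0) (nat_lit 4963848615) (nat_lit 1900) (nat_lit 29134478364) (nat_lit 483) (nat_lit 5) (nat_lit 482) (nat_lit 5) (nat_lit 507) (nat_lit 5) (nat_lit 635) (nat_lit 632) (nat_lit 293))) (XT.nd (nat_lit 78) (nat_lit 0) (nat_lit 0) (XT.lf (nat_lit 0) (nat_lit 9940797709) (nat_lit 1824) (nat_lit 14851169254) (nat_lit 1900) (nat_lit 14054921217) (nat_lit 483) (nat_lit 5) (nat_lit 507) (nat_lit 5) (nat_lit 508) (nat_lit 5) (nat_lit 636) (nat_lit 632) (nat_lit 292)) (XT.nd (nat_lit 78) (nat_lit 0)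 (nat_lit 76) (XT.lf (nat_lit 76) (nat_lit 4810481340) (nat_lit 0) (nat_lit 5819591683) (nat_lit 1900) (nat_lit 28608941422) (nat_lit 484) (nat_lit 5) (nat_lit 483) (nat_lit 5) (nat_lit 508) (nat_lit 5) (nat_lit 637) (nat_lit 632) (nat_lit 291)) (XT.lf (nat_lit 0) (nat_lit 11520163793) (nat_lit 1824) (nat_lit 14659523129) (nat_lit 1900) (nat_lit 13455555747) (nat_lit 484) (nat_lit 5) (nat_lit 508) (nat_lit 5) (nat_lit 509) (nat_lit 5) (nat_lit 638) (nat_lit 632) (nat_lit 290)))))) (XT.nd (nat_lit 390) (nat_lit 0) (nat_lit 228) (XT.nd (nat_lit 156) (nat_lit 0) (nat_lit 76) (XT.nd (nat_lit 78) (nat_lit 0) (nat_lit 76) (XT.lf (nat_lit 76) (nat_lit 5538286525) (nat_lit 0) (nat_lit 6963141537) (nat_lit 1900) (nat_lit 27536499996) (nat_lit 485) (nat_lit 5) (nat_lit 484) (nat_lit 5) (nat_lit 509) (nat_lit 5) (nat_lit 639) (nat_lit 632) (nat_lit 289)) (XT.lf (nat_lit 0) (nat_lit 13682288459) (nat_lit 1824) (nat_lit 14191334074) (nat_lit 1900) (nat_lit 12571445238) (nat_lit 485) (nat_lit 5) (nat_lit 509) (nat_lit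 5) (nat_lit 510) (nat_lit 5) (nat_lit 640) (nat_lit 632) (nat_lit 288))) (XT.nd (nat_lit 78) (nat_lit 0) (nat_lit 76) (XT.lf (nat_lit 76) (nat_lit 6562410446) (nat_lit 0) (nat_lit 8411992042) (nat_lit 1900) (nat_lit 25884195096) (nat_lit 486) (nat_lit 5) (nat_lit 485) (nat_lit 5) (nat_lit 510) (nat_lit 5) (nat_lit 641) (nat_lit 632) (nat_lit 287)) (XT.nd (nat_lit 78) (nat_lit 0) (nat_lit 0) (XT.lf (nat_lit 0) (nat_lit 16461424304) (nat_lit 1824) (nat_lit 13430497833) (nat_lit 1900) (nat_lit 11385094577) (nat_lit 486) (nat_lit 5) (nat_lit 510) (nat_lit 5) (nat_lit 511) (nat_lit 5) (nat_lit 642) (nat_lit 632) (nat_lit 286)) (XT.lf (nat_lit 76) (nat_lit 7899714461) (nat_lit 0) (nat_lit 10184426499) (nat_lit 1900) (nat_lit 23617544210) (nat_lit 487) (nat_lit 5) (nat_lit 486) (nat_lit 5) (nat_lit 511) (nat_lit 5) (nat_lit 643) (nat_lit 632) (nat_lit 285))))) (XT.nd (nat_lit 234) (nat_lit 0) (nat_lit 76) (XT.nd (nat_lit 78) (nat_lit 0) (nat_lit 0) (XT.lf (nat_lit 0) (nat_lit 19893397619) (nat_lit 1824) (nat_lit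 12360152290) (nat_lit 1900) (nat_lit 9878215405) (nat_lit 487) (nat_lit 5) (nat_lit 511) (nat_lit 5) (nat_lit 512) (nat_lit 5) (nat_lit 644) (nat_lit 632) (nat_lit 284)) (XT.nd (nat_lit 78) (nat_lit 0) (nat_lit 76) (XT.lf (nat_lit 76) (nat_lit 9567847139) (nat_lit 0) (nat_lit 12299553669) (nat_lit 1900) (nat_lit 20700475055) (nat_lit 488) (nat_lit 5) (nat_lit 487) (nat_lit 5) (nat_lit 512) (nat_lit 5) (nat_lit 645) (nat_lit 632) (nat_lit 283)) (XT.lf (nat_lit 0) (nat_lit 24015676563) (nat_lit 1824) (nat_lit 10962646298) (nat_lit 1900) (nat_lit 8031689940) (nat_lit 488) (nat_lit 5) (nat_lit 512) (nat_lit 5) (nat_lit 513) (nat_lit 5) (nat_lit 646) (nat_lit 632) (nat_lit 282)))) (XT.nd (nat_lit 78) (nat_lit 0) (nat_lit 76) (XT.lf (nat_lit 76) (nat_lit 11585276577) (nat_lit 0) (nat_lit 14777345213) (nat_lit 1900) (nat_lit 17095256639) (nat_lit 489) (nat_lit 5) (nat_lit 488) (nat_lit 5) (nat_lit 513) (nat_lit 5) (nat_lit 647) (nat_lit 632) (nat_lit 281)) (XT.nd (nat_lit 78) (nat_lit 0) (nat_lit 0) (XT.lf (nat_lit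 0) (nat_lit 28867442103) (nat_lit 1824) (nat_lit 9219507209) (nat_lit 1900) (nat_lit 5825533361) (nat_lit 489) (nat_lit 5) (nat_lit 513) (nat_lit 5) (nat_lit 514) (nat_lit 5) (nat_lit 648) (nat_lit 632) (nat_lit 280)) (XT.lf (nat_lit 76) (nat_lit 13971324070) (nat_lit 0) (nat_lit 17638674642) (nat_lit 1900) (nat_lit 12762427522) (nat_lit 490) (nat_lit 5) (nat_lit 489) (nat_lit 5) (nat_lit 514) (nat_lit 5) (nat_lit 649) (nat_lit 632) (nat_lit 279))))))))
noncomputable def xc244 : XT := (XT.nd (nat_lit 1560) (nat_lit 0) (nat_lit 0) (XT.nd (nat_lit 780) (nat_lit 5320) (nat_lit 0) (XT.nd (nat_lit 390) (nat_lit 988) (nat_lit 0) (XT.nd (nat_lit 156) (nat_lit 1824) (nat_lit 0) (XT.nd (nat_lit 78) (nat_lit 0) (nat_lit 0) (XT.lf (nat_lit 0) (nat_lit 34489661844) (nat_lit 1824) (nat_lit 7111407059) (nat_lit 1900) (nat_lit 3238854681) (nat_lit 490) (nat_lit 5) (nat_lit 514) (nat_lit 5) (nat_lit 515) (nat_lit 5) (nat_lit 650) (nat_lit 632) (nat_lit 278)) (XT.lf (nat_lit 76) (nat_lit 16746199155) (nat_lit 0) (nat_lit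 20905357816) (nat_lit 1900) (nat_lit 7660721163) (nat_lit 491) (nat_lit 5) (nat_lit 490) (nat_lit 5) (nat_lit 515) (nat_lit 5) (nat_lit 651) (nat_lit 632) (nat_lit 277))) (XT.nd (nat_lit 78) (nat_lit 1900) (nat_lit 0) (XT.lf (nat_lit 0) (nat_lit 40925166853) (nat_lit 1824) (nat_lit 4618127361) (nat_lit 1900) (nat_lit 249816050) (nat_lit 491) (nat_lit 5) (nat_lit 515) (nat_lit 5) (nat_lit 516) (nat_lit 5) (nat_lit 652) (nat_lit 632) (nat_lit 276)) (XT.nd (nat_lit 78) (nat_lit 1900) (nat_lit 0) (XT.lf (nat_lit 76) (nat_lit 19931036113) (nat_lit 0) (nat_lit 24600195082) (nat_lit 1900) (nat_lit 1746988222) (nat_lit 492) (nat_lit 5) (nat_lit 491) (nat_lit 5) (nat_lit 516) (nat_lit 5) (nat_lit 653) (nat_lit 632) (nat_lit 275)) (XT.lf (nat_lit 0) (nat_lit 1447880414) (nat_lit 1900) (nat_lit 1748866467) (nat_lit 1976) (nat_lit 43575490723) (nat_lit 466) (nat_lit 5) (nat_lit 491) (nat_lit 5) (nat_lit 492) (nat_lit 5) (nat_lit 654) (nat_lit 632) (nat_lit 274))))) (XT.nd (nat_lit 156) (nat_lit 1064) (nat_lit 0) (XT.nd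 (nat_lit 78) (nat_lit 0) (nat_lit 0) (XT.lf (nat_lit 0) (nat_lit 4957995144) (nat_lit 1900) (nat_lit 23755749213) (nat_lit 1976) (nat_lit 18556666051) (nat_lit 467) (nat_lit 5) (nat_lit 492) (nat_lit 5) (nat_lit 493) (nat_lit 5) (nat_lit 655) (nat_lit 632) (nat_lit 273)) (XT.lf (nat_lit 76) (nat_lit 1526925164) (nat_lit 0) (nat_lit 7053452328) (nat_lit 1976) (nat_lit 39197327893) (nat_lit 468) (nat_lit 5) (nat_lit 467) (nat_lit 5) (nat_lit 493) (nat_lit 5) (nat_lit 656) (nat_lit 632) (nat_lit 272))) (XT.nd (nat_lit 78) (nat_lit 1140) (nat_lit 0) (XT.lf (nat_lit 0) (nat_lit 12532506749) (nat_lit 1900) (nat_lit 20754114074) (nat_lit 76) (nat_lit 15003379476) (nat_lit 468) (nat_lit 5) (nat_lit 493) (nat_lit 5) (nat_lit 469) (nat_lit 5) (nat_lit 657) (nat_lit 632) (nat_lit 271)) (XT.nd (nat_lit 78) (nat_lit 0) (nat_lit 0) (XT.lf (nat_lit 0) (nat_lit 5274241641) (nat_lit 1140) (nat_lit 11369588520) (nat_lit 1216) (nat_lit 32167107944) (nat_lit 453) (nat_lit 5) (nat_lit 468) (nat_lit 5) (nat_lit 469) (nat_lit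 5) (nat_lit 658) (nat_lit 632) (nat_lit 270)) (XT.lf (nat_lit 0) (nat_lit 21048108300) (nat_lit 1216) (nat_lit 17307983240) (nat_lit 76) (nat_lit 10981988583) (nat_lit 453) (nat_lit 5) (nat_lit 469) (nat_lit 5) (nat_lit 454) (nat_lit 5) (nat_lit 659) (nat_lit 632) (nat_lit 269)))))) (XT.nd (nat_lit 390) (nat_lit 2660) (nat_lit 0) (XT.nd (nat_lit 156) (nat_lit 1748) (nat_lit 0) (XT.nd (nat_lit 78) (nat_lit 0) (nat_lit 0) (XT.lf (nat_lit 0) (nat_lit 9493819544) (nat_lit 912) (nat_lit 16182811358) (nat_lit 988) (nat_lit 24196410924) (nat_lit 441) (nat_lit 5) (nat_lit 453) (nat_lit 5) (nat_lit 454) (nat_lit 5) (nat_lit 660) (nat_lit 632) (nat_lit 268)) (XT.lf (nat_lit 0) (nat_lit 30555646754) (nat_lit 988) (nat_lit 13393363469) (nat_lit 76) (nat_lit 6466534105) (nat_lit 441) (nat_lit 5) (nat_lit 454) (nat_lit 5) (nat_lit 442) (nat_lit 5) (nat_lit 661) (nat_lit 632) (nat_lit 267))) (XT.nd (nat_lit 78) (nat_lit 836) (nat_lit 0) (XT.lf (nat_lit 0) (nat_lit 14210717975) (nat_lit 912) (nat_lit 21520210874) (nat_lit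 988) (nat_lit 15233994334) (nat_lit 429) (nat_lit 5) (nat_lit 441) (nat_lit 5) (nat_lit 442) (nat_lit 5) (nat_lit 662) (nat_lit 632) (nat_lit 266)) (XT.nd (nat_lit 78) (nat_lit 836) (nat_lit 0) (XT.lf (nat_lit 0) (nat_lit 41108260001) (nat_lit 988) (nat_lit 8985177535) (nat_lit 76) (nat_lit 1429881231) (nat_lit 429) (nat_lit 5) (nat_lit 442) (nat_lit 5) (nat_lit 430) (nat_lit 5) (nat_lit 663) (nat_lit 632) (nat_lit 265)) (XT.lf (nat_lit 0) (nat_lit 19451121375) (nat_lit 836) (nat_lit 27410098520) (nat_lit 912) (nat_lit 5226300746) (nat_lit 418) (nat_lit 5) (nat_lit 429) (nat_lit 5) (nat_lit 430) (nat_lit 5) (nat_lit 664) (nat_lit 632) (nat_lit 264))))) (XT.nd (nat_lit 156) (nat_lit 1672) (nat_lit 0) (XT.nd (nat_lit 78) (nat_lit 912) (nat_lit 0) (XT.lf (nat_lit 0) (nat_lit 125337918) (nat_lit 912) (nat_lit 4085388601) (nat_lit 76) (nat_lit 48451071971) (nat_lit 417) (nat_lit 5) (nat_lit 429) (nat_lit 5) (nat_lit 418) (nat_lit 5) (nat_lit 665) (nat_lit 632) (nat_lit 263)) (XT.lf (nat_lit 0) (nat_lit 5805488830)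 (nat_lit 988) (nat_lit 28037614054) (nat_lit 76) (nat_lit 19397938920) (nat_lit 405) (nat_lit 5) (nat_lit 418) (nat_lit 5) (nat_lit 406) (nat_lit 5) (nat_lit 666) (nat_lit 632) (nat_lit 262))) (XT.nd (nat_lit 78) (nat_lit 836) (nat_lit 0) (XT.lf (nat_lit 0) (nat_lit 1290234658) (nat_lit 836) (nat_lit 10372170621) (nat_lit 912) (nat_lit 42168201474) (nat_lit 394) (nat_lit 5) (nat_lit 405) (nat_lit 5) (nat_lit 406) (nat_lit 5) (nat_lit 667) (nat_lit 632) (nat_lit 261)) (XT.nd (nat_lit 78) (nat_lit 836) (nat_lit 0) (XT.lf (nat_lit 0) (nat_lit 17913259163) (nat_lit 912) (nat_lit 22933548367) (nat_lit 76) (nat_lit 13579619508) (nat_lit 394) (nat_lit 5) (nat_lit 406) (nat_lit 5) (nat_lit 395) (nat_lit 5) (nat_lit 668) (nat_lit 632) (nat_lit 260)) (XT.lf (nat_lit 0) (nat_lit 7291661002) (nat_lit 836) (nat_lit 17112827101) (nat_lit 912) (nat_lit 30627368484) (nat_lit 383) (nat_lit 5) (nat_lit 394) (nat_lit 5) (nat_lit 395) (nat_lit 5) (nat_lit 669) (nat_lit 632) (nat_lit 259))))))) (XT.nd (nat_lit 79014) (nat_lit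 0) (nat_lit 7752) (XT.nd (nat_lit 78624) (nat_lit 0) (nat_lit 7600) (XT.nd (nat_lit 78390) (nat_lit 0) (nat_lit 7448) (XT.nd (nat_lit 78312) (nat_lit 0) (nat_lit 7448) (XT.lf (nat_lit 0) (nat_lit 31225862251) (nat_lit 912) (nat_lit 17261863029) (nat_lit 76) (nat_lit 7157663052) (nat_lit 383) (nat_lit 5) (nat_lit 395) (nat_lit 5) (nat_lit 384) (nat_lit 5) (nat_lit 670) (nat_lit 632) (nat_lit 258)) (XT.lf (nat_lit 0) (nat_lit 4331454071) (nat_lit 1900) (nat_lit 7353483871) (nat_lit 1900) (nat_lit 7353483871) (nat_lit 481) (nat_lit 3) (nat_lit 506) (nat_lit 3) (nat_lit 506) (nat_lit 5) (nat_lit 633) (nat_lit 633) (nat_lit 294))) (XT.nd (nat_lit 78) (nat_lit 0) (nat_lit 76) (XT.lf (nat_lit 76) (nat_lit 4311403644) (nat_lit 0) (nat_lit 4511636440) (nat_lit 1900) (nat_lit 29633100545) (nat_lit 482) (nat_lit 5) (nat_lit 481) (nat_lit 3) (nat_lit 506) (nat_lit 5) (nat_lit 634) (nat_lit 633) (nat_lit 293)) (XT.nd (nat_lit 78) (nat_lit 0) (nat_lit 0) (XT.lf (nat_lit 0) (nat_lit 9180122226) (nat_lit 1824) (nat_lit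 15028445203) (nat_lit 1900) (nat_lit 14630581228) (nat_lit 482) (nat_lit 5) (nat_lit 506) (nat_lit 5) (nat_lit 507) (nat_lit 5) (nat_lit 635) (nat_lit 633) (nat_lit 292)) (XT.lf (nat_lit 76) (nat_lit 4498662755) (nat_lit 0) (nat_lit 5103599368) (nat_lit 1900) (nat_lit 29626396434) (nat_lit 483) (nat_lit 5) (nat_lit 482) (nat_lit 5) (nat_lit 507) (nat_lit 5) (nat_lit 636) (nat_lit 633) (nat_lit 291))))) (XT.nd (nat_lit 156) (nat_lit 0) (nat_lit 76) (XT.nd (nat_lit 78) (nat_lit 0) (nat_lit 0) (XT.lf (nat_lit 0) (nat_lit 10226600184) (nat_lit 1824) (nat_lit 15098623523) (nat_lit 1900) (nat_lit 14296859877) (nat_lit 483) (nat_lit 5) (nat_lit 507) (nat_lit 5) (nat_lit 508) (nat_lit 5) (nat_lit 637) (nat_lit 633) (nat_lit 290)) (XT.lf (nat_lit 76) (nat_lit 4955933970) (nat_lit 0) (nat_lit 5972341133) (nat_lit 1900) (nat_lit 29093805038) (nat_lit 484) (nat_lit 5) (nat_lit 483) (nat_lit 5) (nat_lit 508) (nat_lit 5) (nat_lit 638) (nat_lit 633) (nat_lit 289))) (XT.nd (nat_lit 78) (nat_lit 0) (nat_lit 0) (XT.lf (nat_lit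 0) (nat_lit 11834257817) (nat_lit 1824) (nat_lit 14902523736) (nat_lit 1900) (nat_lit 13689489626) (nat_lit 484) (nat_lit 5) (nat_lit 508) (nat_lit 5) (nat_lit 509) (nat_lit 5) (nat_lit 639) (nat_lit 633) (nat_lit 288)) (XT.nd (nat_lit 78) (nat_lit 0) (nat_lit 76) (XT.lf (nat_lit 76) (nat_lit 5698911915) (nat_lit 0) (nat_lit 7134918183) (nat_lit 1900) (nat_lit 28003206572) (nat_lit 485) (nat_lit 5) (nat_lit 484) (nat_lit 5) (nat_lit 509) (nat_lit 5) (nat_lit 640) (nat_lit 633) (nat_lit 287)) (XT.lf (nat_lit 0) (nat_lit 14036485575) (nat_lit 1824) (nat_lit 14424454179) (nat_lit 1900) (nat_lit 12791415917) (nat_lit 485) (nat_lit 5) (nat_lit 509) (nat_lit 5) (nat_lit 510) (nat_lit 5) (nat_lit 641) (nat_lit 633) (nat_lit 286)))))) (XT.nd (nat_lit 390) (nat_lit 0) (nat_lit 228) (XT.nd (nat_lit 156) (nat_lit 0) (nat_lit 76) (XT.nd (nat_lit 78) (nat_lit 0) (nat_lit 76) (XT.lf (nat_lit 76) (nat_lit 6744031637) (nat_lit 0) (nat_lit 8609157865) (nat_lit 1900) (nat_lit 26320991673) (nat_lit 486) (nat_lit 5) (nat_lit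 485) (nat_lit 5) (nat_lit 510) (nat_lit 5) (nat_lit 642) (nat_lit 633) (nat_lit 285)) (XT.lf (nat_lit 0) (nat_lit 16868212748) (nat_lit 1824) (nat_lit 13647981172) (nat_lit 1900) (nat_lit 11584809594) (nat_lit 486) (nat_lit 5) (nat_lit 510) (nat_lit 5) (nat_lit 511) (nat_lit 5) (nat_lit 643) (nat_lit 633) (nat_lit 284))) (XT.nd (nat_lit 78) (nat_lit 0) (nat_lit 76) (XT.lf (nat_lit 76) (nat_lit 8108499009) (nat_lit 0) (nat_lit 10413693709) (nat_lit 1900) (nat_lit 24011996488) (nat_lit 487) (nat_lit 5) (nat_lit 486) (nat_lit 5) (nat_lit 511) (nat_lit 5) (nat_lit 644) (nat_lit 633) (nat_lit 283)) (XT.nd (nat_lit 78) (nat_lit 0) (nat_lit 0) (XT.lf (nat_lit 0) (nat_lit 20365974262) (nat_lit 1824) (nat_lit 12555898473) (nat_lit 1900) (nat_lit 10051031467) (nat_lit 487) (nat_lit 5) (nat_lit 511) (nat_lit 5) (nat_lit 512) (nat_lit 5) (nat_lit 645) (nat_lit 633) (nat_lit 282)) (XT.lf (nat_lit 76) (nat_lit 9810322413) (nat_lit 0) (nat_lit 12568002119) (nat_lit 1900) (nat_lit 21039435133) (nat_lit 488) (nat_lit 5)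 (nat_lit 487) (nat_lit 5) (nat_lit 512) (nat_lit 5) (nat_lit 646) (nat_lit 633) (nat_lit 281))))) (XT.nd (nat_lit 234) (nat_lit 0) (nat_lit 76) (XT.nd (nat_lit 78) (nat_lit 0) (nat_lit 0) (XT.lf (nat_lit 0) (nat_lit 24567980192) (nat_lit 1824) (nat_lit 11130195445) (nat_lit 1900) (nat_lit 8170595460) (nat_lit 488) (nat_lit 5) (nat_lit 512) (nat_lit 5) (nat_lit 513) (nat_lit 5) (nat_lit 647) (nat_lit 633) (nat_lit 280)) (XT.nd (nat_lit 78) (nat_lit 0) (nat_lit 76) (XT.lf (nat_lit 76) (nat_lit 11868345731) (nat_lit 0) (nat_lit 15092440509) (nat_lit 1900) (nat_lit 17364829401) (nat_lit 489) (nat_lit 5) (nat_lit 488) (nat_lit 5) (nat_lit 513) (nat_lit 5) (nat_lit 648) (nat_lit 633) (nat_lit 279)) (XT.lf (nat_lit 0) (nat_lit 29514188096) (nat_lit 1824) (nat_lit 9352023922) (nat_lit 1900) (nat_lit 5923130292) (nat_lit 489) (nat_lit 5) (nat_lit 513) (nat_lit 5) (nat_lit 514) (nat_lit 5) (nat_lit 649) (nat_lit 633) (nat_lit 278)))) (XT.nd (nat_lit 78) (nat_lit 0) (nat_lit 76) (XT.lf (nat_lit 76) (nat_lit 14302282709)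 (nat_lit 0) (nat_lit 18008286980) (nat_lit 1900) (nat_lit 12947935616) (nat_lit 490) (nat_lit 5) (nat_lit 489) (nat_lit 5) (nat_lit 514) (nat_lit 5) (nat_lit 650) (nat_lit 633) (nat_lit 277)) (XT.nd (nat_lit 78) (nat_lit 0) (nat_lit 0) (XT.lf (nat_lit 0) (nat_lit 35246378291) (nat_lit 1824) (nat_lit 7201663690) (nat_lit 1900) (nat_lit 3287339618) (nat_lit 490) (nat_lit 5) (nat_lit 514) (nat_lit 5) (nat_lit 515) (nat_lit 5) (nat_lit 651) (nat_lit 633) (nat_lit 276)) (XT.lf (nat_lit 76) (nat_lit 17132752731) (nat_lit 0) (nat_lit 21337781583) (nat_lit 1900) (nat_lit 7746668504) (nat_lit 491) (nat_lit 5) (nat_lit 490) (nat_lit 5) (nat_lit 515) (nat_lit 5) (nat_lit 652) (nat_lit 633) (nat_lit 275))))))))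
noncomputable def xc245 : XT := (XT.nd (nat_lit 79950) (nat_lit 0) (nat_lit 5472) (XT.nd (nat_lit 780) (nat_lit 3572) (nat_lit 0) (XT.nd (nat_lit 390) (nat_lit 1900) (nat_lit 0) (XT.nd (nat_lit 156) (nat_lit 1900) (nat_lit 0) (XT.nd (nat_lit 78) (nat_lit 0) (nat_lit 0) (XT.lf (nat_lit 0) (nat_lit 41808232201) (nat_lit 1824) (nat_lit 4658486551) (nat_lit 1900) (nat_lit 240960561) (nat_lit 491) (nat_lit 5) (nat_lit 515) (nat_lit 5) (nat_lit 516) (nat_lit 5) (nat_lit 653) (nat_lit 633) (nat_lit 274)) (XT.lf (nat_lit 76) (nat_lit 20381318065) (nat_lit 0) (nat_lit 25104169261) (nat_lit 1900) (nat_lit 1717021971) (nat_lit 492) (nat_lit 5) (nat_lit 491) (nat_lit 5) (nat_lit 516) (nat_lit 5) (nat_lit 654) (nat_lit 633) (nat_lit 273))) (XT.nd (nat_lit 78) (nat_lit 0) (nat_lit 76) (XT.lf (nat_lit 0) (nat_lit 1539636808) (nat_lit 1900) (nat_lit 1732359164) (nat_lit 1976) (nat_lit 44434428602) (nat_lit 466) (nat_lit 5) (nat_lit 491) (nat_lit 5) (nat_lit 492) (nat_lit 5) (nat_lit 655) (nat_lit 633) (nat_lit 272)) (XT.nd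 (nat_lit 78) (nat_lit 0) (nat_lit 0) (XT.lf (nat_lit 0) (nat_lit 5118984738) (nat_lit 1900) (nat_lit 24178408699) (nat_lit 1976) (nat_lit 18917186814) (nat_lit 467) (nat_lit 5) (nat_lit 492) (nat_lit 5) (nat_lit 493) (nat_lit 5) (nat_lit 656) (nat_lit 633) (nat_lit 271)) (XT.lf (nat_lit 76) (nat_lit 1609574063) (nat_lit 0) (nat_lit 7203366659) (nat_lit 1976) (nat_lit 39919097922) (nat_lit 468) (nat_lit 5) (nat_lit 467) (nat_lit 5) (nat_lit 493) (nat_lit 5) (nat_lit 657) (nat_lit 633) (nat_lit 270))))) (XT.nd (nat_lit 156) (nat_lit 912) (nat_lit 0) (XT.nd (nat_lit 78) (nat_lit 1140) (nat_lit 0) (XT.lf (nat_lit 0) (nat_lit 12842861051) (nat_lit 1900) (nat_lit 21116854518) (nat_lit 76) (nat_lit 15294888952) (nat_lit 468) (nat_lit 5) (nat_lit 493) (nat_lit 5) (nat_lit 469) (nat_lit 5) (nat_lit 658) (nat_lit 633) (nat_lit 269)) (XT.lf (nat_lit 0) (nat_lit 5431723957) (nat_lit 1140) (nat_lit 11603853906) (nat_lit 1216) (nat_lit 32750399914) (nat_lit 453) (nat_lit 5) (nat_lit 468) (nat_lit 5) (nat_lit 469) (nat_lit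 5) (nat_lit 659) (nat_lit 633) (nat_lit 268))) (XT.nd (nat_lit 78) (nat_lit 912) (nat_lit 0) (XT.lf (nat_lit 0) (nat_lit 21526743477) (nat_lit 1216) (nat_lit 17601965256) (nat_lit 76) (nat_lit 11194977897) (nat_lit 453) (nat_lit 5) (nat_lit 469) (nat_lit 5) (nat_lit 454) (nat_lit 5) (nat_lit 660) (nat_lit 633) (nat_lit 267)) (XT.nd (nat_lit 78) (nat_lit 0) (nat_lit 0) (XT.lf (nat_lit 0) (nat_lit 9735530309) (nat_lit 912) (nat_lit 16511511921) (nat_lit 988) (nat_lit 24622321254) (nat_lit 441) (nat_lit 5) (nat_lit 453) (nat_lit 5) (nat_lit 454) (nat_lit 5) (nat_lit 661) (nat_lit 633) (nat_lit 266)) (XT.lf (nat_lit 0) (nat_lit 31222491022) (nat_lit 988) (nat_lit 13609263774) (nat_lit 76) (nat_lit 6590984219) (nat_lit 441) (nat_lit 5) (nat_lit 454) (nat_lit 5) (nat_lit 442) (nat_lit 5) (nat_lit 662) (nat_lit 633) (nat_lit 265)))))) (XT.nd (nat_lit 390) (nat_lit 836) (nat_lit 0) (XT.nd (nat_lit 156) (nat_lit 1824) (nat_lit 0) (XT.nd (nat_lit 78) (nat_lit 0) (nat_lit 0) (XT.lf (nat_lit 0) (nat_lit 14546557411)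 (nat_lit 912) (nat_lit 21953963761) (nat_lit 988) (nat_lit 15482599459) (nat_lit 429) (nat_lit 5) (nat_lit 441) (nat_lit 5) (nat_lit 442) (nat_lit 5) (nat_lit 663) (nat_lit 633) (nat_lit 264)) (XT.lf (nat_lit 0) (nat_lit 41984299715) (nat_lit 988) (nat_lit 9113167523) (nat_lit 76) (nat_lit 1455238903) (nat_lit 429) (nat_lit 5) (nat_lit 442) (nat_lit 5) (nat_lit 430) (nat_lit 5) (nat_lit 664) (nat_lit 633) (nat_lit 263))) (XT.nd (nat_lit 78) (nat_lit 988) (nat_lit 0) (XT.lf (nat_lit 0) (nat_lit 19891517144) (nat_lit 836) (nat_lit 27960078850) (nat_lit 912) (nat_lit 5276610546) (nat_lit 418) (nat_lit 5) (nat_lit 429) (nat_lit 5) (nat_lit 430) (nat_lit 5) (nat_lit 665) (nat_lit 633) (nat_lit 262)) (XT.nd (nat_lit 78) (nat_lit 912) (nat_lit 0) (XT.lf (nat_lit 0) (nat_lit 180300715) (nat_lit 912) (nat_lit 4116031815) (nat_lit 76) (nat_lit 49417651385) (nat_lit 417) (nat_lit 5) (nat_lit 429) (nat_lit 5) (nat_lit 418) (nat_lit 5) (nat_lit 666) (nat_lit 633) (nat_lit 261)) (XT.lf (nat_lit 0) (nat_lit 5973348784)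 (nat_lit 988) (nat_lit 28546594519) (nat_lit 76) (nat_lit 19784882938) (nat_lit 405) (nat_lit 5) (nat_lit 418) (nat_lit 5) (nat_lit 406) (nat_lit 5) (nat_lit 667) (nat_lit 633) (nat_lit 260))))) (XT.nd (nat_lit 78546) (nat_lit 0) (nat_lit 6612) (XT.nd (nat_lit 78) (nat_lit 0) (nat_lit 0) (XT.lf (nat_lit 0) (nat_lit 1367470563) (nat_lit 836) (nat_lit 10579252216) (nat_lit 912) (nat_lit 42959473353) (nat_lit 394) (nat_lit 5) (nat_lit 405) (nat_lit 5) (nat_lit 406) (nat_lit 5) (nat_lit 668) (nat_lit 633) (nat_lit 259)) (XT.lf (nat_lit 0) (nat_lit 18321594682) (nat_lit 912) (nat_lit 23340796178) (nat_lit 76) (nat_lit 13851561970) (nat_lit 394) (nat_lit 5) (nat_lit 406) (nat_lit 5) (nat_lit 395) (nat_lit 5) (nat_lit 669) (nat_lit 633) (nat_lit 258))) (XT.nd (nat_lit 78) (nat_lit 0) (nat_lit 0) (XT.lf (nat_lit 0) (nat_lit 4463298038) (nat_lit 1900) (nat_lit 7477493273) (nat_lit 1900) (nat_lit 7477493273) (nat_lit 481) (nat_lit 3) (nat_lit 506) (nat_lit 3) (nat_lit 506) (nat_lit 5) (nat_lit 634) (nat_lit 634) (nat_lit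 292)) (XT.nd (nat_lit 78) (nat_lit 0) (nat_lit 76) (XT.lf (nat_lit 76) (nat_lit 4443448844) (nat_lit 0) (nat_lit 4645006156) (nat_lit 1900) (nat_lit 30135026677) (nat_lit 482) (nat_lit 5) (nat_lit 481) (nat_lit 3) (nat_lit 506) (nat_lit 5) (nat_lit 635) (nat_lit 634) (nat_lit 291)) (XT.lf (nat_lit 0) (nat_lit 9450660004) (nat_lit 1824) (nat_lit 15282073943) (nat_lit 1900) (nat_lit 14881456345) (nat_lit 482) (nat_lit 5) (nat_lit 506) (nat_lit 5) (nat_lit 507) (nat_lit 5) (nat_lit 636) (nat_lit 634) (nat_lit 290))))))) (XT.nd (nat_lit 780) (nat_lit 1216) (nat_lit 0) (XT.nd (nat_lit 390) (nat_lit 0) (nat_lit 228) (XT.nd (nat_lit 156) (nat_lit 0) (nat_lit 76) (XT.nd (nat_lit 78) (nat_lit 0) (nat_lit 76) (XT.lf (nat_lit 76) (nat_lit 4635267356) (nat_lit 0) (nat_lit 5244573490) (nat_lit 1900) (nat_lit 30131677634) (nat_lit 483) (nat_lit 5) (nat_lit 482) (nat_lit 5) (nat_lit 507) (nat_lit 5) (nat_lit 637) (nat_lit 634) (nat_lit 289)) (XT.lf (nat_lit 0) (nat_lit 10514740915) (nat_lit 1824) (nat_lit 15352951706)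 (nat_lit 1900) (nat_lit 14545157931) (nat_lit 483) (nat_lit 5) (nat_lit 507) (nat_lit 5) (nat_lit 508) (nat_lit 5) (nat_lit 638) (nat_lit 634) (nat_lit 288))) (XT.nd (nat_lit 78) (nat_lit 0) (nat_lit 76) (XT.lf (nat_lit 76) (nat_lit 5102383488) (nat_lit 0) (nat_lit 6126733762) (nat_lit 1900) (nat_lit 29591756483) (nat_lit 484) (nat_lit 5) (nat_lit 483) (nat_lit 5) (nat_lit 508) (nat_lit 5) (nat_lit 639) (nat_lit 634) (nat_lit 287)) (XT.nd (nat_lit 78) (nat_lit 0) (nat_lit 0) (XT.lf (nat_lit 0) (nat_lit 12151383908) (nat_lit 1824) (nat_lit 15152333288) (nat_lit 1900) (nat_lit 13929468158) (nat_lit 484) (nat_lit 5) (nat_lit 508) (nat_lit 5) (nat_lit 509) (nat_lit 5) (nat_lit 640) (nat_lit 634) (nat_lit 286)) (XT.lf (nat_lit 76) (nat_lit 5860813702) (nat_lit 0) (nat_lit 7308867811) (nat_lit 1900) (nat_lit 28482510013) (nat_lit 485) (nat_lit 5) (nat_lit 484) (nat_lit 5) (nat_lit 509) (nat_lit 5) (nat_lit 641) (nat_lit 634) (nat_lit 285))))) (XT.nd (nat_lit 156) (nat_lit 0) (nat_lit 76) (XT.nd (nat_lit 78) (nat_lit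 0) (nat_lit 0) (XT.lf (nat_lit 0) (nat_lit 14394638726) (nat_lit 1824) (nat_lit 14664205683) (nat_lit 1900) (nat_lit 13017007570) (nat_lit 485) (nat_lit 5) (nat_lit 509) (nat_lit 5) (nat_lit 510) (nat_lit 5) (nat_lit 642) (nat_lit 634) (nat_lit 284)) (XT.lf (nat_lit 76) (nat_lit 6927329207) (nat_lit 0) (nat_lit 8809143773) (nat_lit 1900) (nat_lit 26769665135) (nat_lit 486) (nat_lit 5) (nat_lit 485) (nat_lit 5) (nat_lit 510) (nat_lit 5) (nat_lit 643) (nat_lit 634) (nat_lit 283))) (XT.nd (nat_lit 78) (nat_lit 0) (nat_lit 0) (XT.lf (nat_lit 0) (nat_lit 17280125213) (nat_lit 1824) (nat_lit 13871799487) (nat_lit 1900) (nat_lit 11789605675) (nat_lit 486) (nat_lit 5) (nat_lit 510) (nat_lit 5) (nat_lit 511) (nat_lit 5) (nat_lit 644) (nat_lit 634) (nat_lit 282)) (XT.nd (nat_lit 78) (nat_lit 0) (nat_lit 76) (XT.lf (nat_lit 76) (nat_lit 8319486999) (nat_lit 0) (nat_lit 10646553012) (nat_lit 1900) (nat_lit 24417362709) (nat_lit 487) (nat_lit 5) (nat_lit 486) (nat_lit 5) (nat_lit 511) (nat_lit 5) (nat_lit 645) (nat_lit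 634) (nat_lit 281)) (XT.lf (nat_lit 0) (nat_lit 20845101409) (nat_lit 1824) (nat_lit 12757557712) (nat_lit 1900) (nat_lit 10228264855) (nat_lit 487) (nat_lit 5) (nat_lit 511) (nat_lit 5) (nat_lit 512) (nat_lit 5) (nat_lit 646) (nat_lit 634) (nat_lit 280)))))) (XT.nd (nat_lit 390) (nat_lit 1596) (nat_lit 0) (XT.nd (nat_lit 156) (nat_lit 0) (nat_lit 76) (XT.nd (nat_lit 78) (nat_lit 0) (nat_lit 76) (XT.lf (nat_lit 76) (nat_lit 10055662205) (nat_lit 0) (nat_lit 12840947491) (nat_lit 1900) (nat_lit 21388088673) (nat_lit 488) (nat_lit 5) (nat_lit 487) (nat_lit 5) (nat_lit 512) (nat_lit 5) (nat_lit 647) (nat_lit 634) (nat_lit 279)) (XT.lf (nat_lit 0) (nat_lit 25128534431) (nat_lit 1824) (nat_lit 11303103296) (nat_lit 1900) (nat_lit 8313122826) (nat_lit 488) (nat_lit 5) (nat_lit 512) (nat_lit 5) (nat_lit 513) (nat_lit 5) (nat_lit 648) (nat_lit 634) (nat_lit 278))) (XT.nd (nat_lit 78) (nat_lit 0) (nat_lit 76) (XT.lf (nat_lit 76) (nat_lit 12155081756) (nat_lit 0) (nat_lit 15413078623) (nat_lit 1900) (nat_lit 17642602373)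 (nat_lit 489) (nat_lit 5) (nat_lit 488) (nat_lit 5) (nat_lit 513) (nat_lit 5) (nat_lit 649) (nat_lit 634) (nat_lit 277)) (XT.nd (nat_lit 78) (nat_lit 0) (nat_lit 0) (XT.lf (nat_lit 0) (nat_lit 30171174232) (nat_lit 1824) (nat_lit 9489205279) (nat_lit 1900) (nat_lit 6023413605) (nat_lit 489) (nat_lit 5) (nat_lit 513) (nat_lit 5) (nat_lit 514) (nat_lit 5) (nat_lit 650) (nat_lit 634) (nat_lit 276)) (XT.lf (nat_lit 76) (nat_lit 14637859465) (nat_lit 0) (nat_lit 18384637691) (nat_lit 1900) (nat_lit 13139861979) (nat_lit 490) (nat_lit 5) (nat_lit 489) (nat_lit 5) (nat_lit 514) (nat_lit 5) (nat_lit 651) (nat_lit 634) (nat_lit 275))))) (XT.nd (nat_lit 234) (nat_lit 1824) (nat_lit 0) (XT.nd (nat_lit 78) (nat_lit 0) (nat_lit 0) (XT.lf (nat_lit 0) (nat_lit 36015630357) (nat_lit 1824) (nat_lit 7295743570) (nat_lit 1900) (nat_lit 3337426898) (nat_lit 490) (nat_lit 5) (nat_lit 514) (nat_lit 5) (nat_lit 515) (nat_lit 5) (nat_lit 652) (nat_lit 634) (nat_lit 274)) (XT.nd (nat_lit 78) (nat_lit 0) (nat_lit 76) (XT.lf (nat_lit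 76) (nat_lit 17525032538) (nat_lit 0) (nat_lit 21778297894) (nat_lit 1900) (nat_lit 7836946855) (nat_lit 491) (nat_lit 5) (nat_lit 490) (nat_lit 5) (nat_lit 515) (nat_lit 5) (nat_lit 653) (nat_lit 634) (nat_lit 273)) (XT.lf (nat_lit 0) (nat_lit 42706451833) (nat_lit 1824) (nat_lit 4701672279) (nat_lit 1900) (nat_lit 232465846) (nat_lit 491) (nat_lit 5) (nat_lit 515) (nat_lit 5) (nat_lit 516) (nat_lit 5) (nat_lit 654) (nat_lit 634) (nat_lit 272)))) (XT.nd (nat_lit 78) (nat_lit 1900) (nat_lit 0) (XT.lf (nat_lit 76) (nat_lit 20838599588) (nat_lit 0) (nat_lit 25617758104) (nat_lit 1900) (nat_lit 1688976774) (nat_lit 492) (nat_lit 5) (nat_lit 491) (nat_lit 5) (nat_lit 516) (nat_lit 5) (nat_lit 655) (nat_lit 634) (nat_lit 271)) (XT.nd (nat_lit 78) (nat_lit 0) (nat_lit 76) (XT.lf (nat_lit 0) (nat_lit 1630789777) (nat_lit 1900) (nat_lit 1717520925) (nat_lit 1976) (nat_lit 45311033423) (nat_lit 466) (nat_lit 5) (nat_lit 491) (nat_lit 5) (nat_lit 492) (nat_lit 5) (nat_lit 656) (nat_lit 634) (nat_lit 270)) (XT.lf (nat_lit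 0) (nat_lit 5280793202) (nat_lit 1900) (nat_lit 24611558287) (nat_lit 1976) (nat_lit 19285330091) (nat_lit 467) (nat_lit 5) (nat_lit 492) (nat_lit 5) (nat_lit 493) (nat_lit 5) (nat_lit 657) (nat_lit 634) (nat_lit 269))))))))
noncomputable def xc246 : XT := (XT.nd (nat_lit 80028) (nat_lit 0) (nat_lit 3572) (XT.nd (nat_lit 780) (nat_lit 1748) (nat_lit 0) (XT.nd (nat_lit 390) (nat_lit 1824) (nat_lit 0) (XT.nd (nat_lit 156) (nat_lit 1976) (nat_lit 0) (XT.nd (nat_lit 78) (nat_lit 0) (nat_lit 76) (XT.lf (nat_lit 76) (nat_lit 1691852430) (nat_lit 0) (nat_lit 7355935803) (nat_lit 1976) (nat_lit 40657717742) (nat_lit 468) (nat_lit 5) (nat_lit 467) (nat_lit 5) (nat_lit 493) (nat_lit 5) (nat_lit 658) (nat_lit 634) (nat_lit 268)) (XT.lf (nat_lit 0) (nat_lit 13157104054) (nat_lit 1900) (nat_lit 21488882268) (nat_lit 76) (nat_lit 15592560939) (nat_lit 468) (nat_lit 5) (nat_lit 493) (nat_lit 5) (nat_lit 469) (nat_lit 5) (nat_lit 659) (nat_lit 634) (nat_lit 267))) (XT.nd (nat_lit 78) (nat_lit 912) (nat_lit 0) (XT.lf (nat_lit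 0) (nat_lit 5590336794) (nat_lit 1140) (nat_lit 11842537689) (nat_lit 1216) (nat_lit 33347689545) (nat_lit 453) (nat_lit 5) (nat_lit 468) (nat_lit 5) (nat_lit 469) (nat_lit 5) (nat_lit 660) (nat_lit 634) (nat_lit 266)) (XT.nd (nat_lit 78) (nat_lit 912) (nat_lit 0) (XT.lf (nat_lit 0) (nat_lit 22012711844) (nat_lit 1216) (nat_lit 17903853034) (nat_lit 76) (nat_lit 11412485242) (nat_lit 453) (nat_lit 5) (nat_lit 469) (nat_lit 5) (nat_lit 454) (nat_lit 5) (nat_lit 661) (nat_lit 634) (nat_lit 265)) (XT.lf (nat_lit 0) (nat_lit 9980062498) (nat_lit 912) (nat_lit 16846590618) (nat_lit 988) (nat_lit 25059002697) (nat_lit 441) (nat_lit 5) (nat_lit 453) (nat_lit 5) (nat_lit 454) (nat_lit 5) (nat_lit 662) (nat_lit 634) (nat_lit 264))))) (XT.nd (nat_lit 156) (nat_lit 912) (nat_lit 0) (XT.nd (nat_lit 78) (nat_lit 912) (nat_lit 0) (XT.lf (nat_lit 0) (nat_lit 31900508060) (nat_lit 988) (nat_lit 13831500027) (nat_lit 76) (nat_lit 6718112855) (nat_lit 441) (nat_lit 5) (nat_lit 454) (nat_lit 5) (nat_lit 442) (nat_lit 5) (nat_lit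 663) (nat_lit 634) (nat_lit 263)) (XT.lf (nat_lit 0) (nat_lit 14887108970) (nat_lit 912) (nat_lit 22396261673) (nat_lit 988) (nat_lit 15738354138) (nat_lit 429) (nat_lit 5) (nat_lit 441) (nat_lit 5) (nat_lit 442) (nat_lit 5) (nat_lit 664) (nat_lit 634) (nat_lit 262))) (XT.nd (nat_lit 78) (nat_lit 912) (nat_lit 0) (XT.lf (nat_lit 0) (nat_lit 42875768210) (nat_lit 988) (nat_lit 9245725412) (nat_lit 76) (nat_lit 1481229540) (nat_lit 429) (nat_lit 5) (nat_lit 442) (nat_lit 5) (nat_lit 430) (nat_lit 5) (nat_lit 665) (nat_lit 634) (nat_lit 261)) (XT.nd (nat_lit 78) (nat_lit 76) (nat_lit 0) (XT.lf (nat_lit 0) (nat_lit 20338725939) (nat_lit 836) (nat_lit 28520989730) (nat_lit 912) (nat_lit 5330031823) (nat_lit 418) (nat_lit 5) (nat_lit 429) (nat_lit 5) (nat_lit 430) (nat_lit 5) (nat_lit 666) (nat_lit 634) (nat_lit 260)) (XT.lf (nat_lit 0) (nat_lit 234325837) (nat_lit 912) (nat_lit 4149270792) (nat_lit 76) (nat_lit 50403657213) (nat_lit 417) (nat_lit 5) (nat_lit 429) (nat_lit 5) (nat_lit 418) (nat_lit 5) (nat_lit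 667) (nat_lit 634) (nat_lit 259)))))) (XT.nd (nat_lit 78858) (nat_lit 0) (nat_lit 6688) (XT.nd (nat_lit 78624) (nat_lit 0) (nat_lit 6612) (XT.nd (nat_lit 78) (nat_lit 836) (nat_lit 0) (XT.lf (nat_lit 0) (nat_lit 6142556415) (nat_lit 988) (nat_lit 29067764956) (nat_lit 76) (nat_lit 20179605240) (nat_lit 405) (nat_lit 5) (nat_lit 418) (nat_lit 5) (nat_lit 406) (nat_lit 5) (nat_lit 668) (nat_lit 634) (nat_lit 258)) (XT.lf (nat_lit 0) (nat_lit 1444254050) (nat_lit 836) (nat_lit 10790489492) (nat_lit 912) (nat_lit 43768593472) (nat_lit 394) (nat_lit 5) (nat_lit 405) (nat_lit 5) (nat_lit 406) (nat_lit 5) (nat_lit 669) (nat_lit 634) (nat_lit 257))) (XT.nd (nat_lit 78) (nat_lit 0) (nat_lit 0) (XT.lf (nat_lit 0) (nat_lit 4596023136) (nat_lit 1900) (nat_lit 7604878321) (nat_lit 1900) (nat_lit 7604878321) (nat_lit 481) (nat_lit 3) (nat_lit 506) (nat_lit 3) (nat_lit 506) (nat_lit 5) (nat_lit 635) (nat_lit 635) (nat_lit 290)) (XT.nd (nat_lit 78) (nat_lit 0) (nat_lit 76) (XT.lf (nat_lit 76) (nat_lit 4576355814) (nat_lit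 0) (nat_lit 4779368204) (nat_lit 1900) (nat_lit 30650514716) (nat_lit 482) (nat_lit 5) (nat_lit 481) (nat_lit 3) (nat_lit 506) (nat_lit 5) (nat_lit 636) (nat_lit 635) (nat_lit 289)) (XT.lf (nat_lit 0) (nat_lit 9723232733) (nat_lit 1824) (nat_lit 15542598003) (nat_lit 1900) (nat_lit 15138969644) (nat_lit 482) (nat_lit 5) (nat_lit 506) (nat_lit 5) (nat_lit 507) (nat_lit 5) (nat_lit 637) (nat_lit 635) (nat_lit 288))))) (XT.nd (nat_lit 156) (nat_lit 0) (nat_lit 76) (XT.nd (nat_lit 78) (nat_lit 0) (nat_lit 76) (XT.lf (nat_lit 76) (nat_lit 4772793298) (nat_lit 0) (nat_lit 5386856477) (nat_lit 1900) (nat_lit 30650452354) (nat_lit 483) (nat_lit 5) (nat_lit 482) (nat_lit 5) (nat_lit 507) (nat_lit 5) (nat_lit 638) (nat_lit 635) (nat_lit 287)) (XT.lf (nat_lit 0) (nat_lit 10805397833) (nat_lit 1824) (nat_lit 15614216538) (nat_lit 1900) (nat_lit 14799883520) (nat_lit 483) (nat_lit 5) (nat_lit 507) (nat_lit 5) (nat_lit 508) (nat_lit 5) (nat_lit 639) (nat_lit 635) (nat_lit 286))) (XT.nd (nat_lit 78) (nat_lit 0) (nat_lit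 76) (XT.lf (nat_lit 76) (nat_lit 5249924082) (nat_lit 0) (nat_lit 6282857255) (nat_lit 1900) (nat_lit 30102925854) (nat_lit 484) (nat_lit 5) (nat_lit 483) (nat_lit 5) (nat_lit 508) (nat_lit 5) (nat_lit 640) (nat_lit 635) (nat_lit 285)) (XT.nd (nat_lit 78) (nat_lit 0) (nat_lit 0) (XT.lf (nat_lit 0) (nat_lit 12471728901) (nat_lit 1824) (nat_lit 15409012285) (nat_lit 1900) (nat_lit 14175559194) (nat_lit 484) (nat_lit 5) (nat_lit 508) (nat_lit 5) (nat_lit 509) (nat_lit 5) (nat_lit 641) (nat_lit 635) (nat_lit 284)) (XT.lf (nat_lit 76) (nat_lit 6024092594) (nat_lit 0) (nat_lit 7485082907) (nat_lit 1900) (nat_lit 28974535558) (nat_lit 485) (nat_lit 5) (nat_lit 484) (nat_lit 5) (nat_lit 509) (nat_lit 5) (nat_lit 642) (nat_lit 635) (nat_lit 283))))))) (XT.nd (nat_lit 780) (nat_lit 3344) (nat_lit 0) (XT.nd (nat_lit 390) (nat_lit 0) (nat_lit 152) (XT.nd (nat_lit 156) (nat_lit 0) (nat_lit 76) (XT.nd (nat_lit 78) (nat_lit 0) (nat_lit 0) (XT.lf (nat_lit 0) (nat_lit 14756948494) (nat_lit 1824) (nat_lit 14910644757) (nat_lit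 1900) (nat_lit 13248285183) (nat_lit 485) (nat_lit 5) (nat_lit 509) (nat_lit 5) (nat_lit 510) (nat_lit 5) (nat_lit 643) (nat_lit 635) (nat_lit 282)) (XT.lf (nat_lit 76) (nat_lit 7112412639) (nat_lit 0) (nat_lit 9012049784) (nat_lit 1900) (nat_lit 27230331052) (nat_lit 486) (nat_lit 5) (nat_lit 485) (nat_lit 5) (nat_lit 510) (nat_lit 5) (nat_lit 644) (nat_lit 635) (nat_lit 281))) (XT.nd (nat_lit 78) (nat_lit 0) (nat_lit 0) (XT.lf (nat_lit 0) (nat_lit 17697381129) (nat_lit 1824) (nat_lit 14102002385) (nat_lit 1900) (nat_lit 11999542242) (nat_lit 486) (nat_lit 5) (nat_lit 510) (nat_lit 5) (nat_lit 511) (nat_lit 5) (nat_lit 645) (nat_lit 635) (nat_lit 280)) (XT.nd (nat_lit 78) (nat_lit 0) (nat_lit 76) (XT.lf (nat_lit 76) (nat_lit 8532799087) (nat_lit 0) (nat_lit 10883114819) (nat_lit 1900) (nat_lit 24833743691) (nat_lit 487) (nat_lit 5) (nat_lit 486) (nat_lit 5) (nat_lit 511) (nat_lit 5) (nat_lit 646) (nat_lit 635) (nat_lit 279)) (XT.lf (nat_lit 0) (nat_lit 21331022719) (nat_lit 1824) (nat_lit 12965170678) (nat_lit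 1900) (nat_lit 10409966598) (nat_lit 487) (nat_lit 5) (nat_lit 511) (nat_lit 5) (nat_lit 512) (nat_lit 5) (nat_lit 647) (nat_lit 635) (nat_lit 278))))) (XT.nd (nat_lit 156) (nat_lit 0) (nat_lit 76) (XT.nd (nat_lit 78) (nat_lit 0) (nat_lit 76) (XT.lf (nat_lit 76) (nat_lit 10304000886) (nat_lit 0) (nat_lit 13118513586) (nat_lit 1900) (nat_lit 21746516379) (nat_lit 488) (nat_lit 5) (nat_lit 487) (nat_lit 5) (nat_lit 512) (nat_lit 5) (nat_lit 648) (nat_lit 635) (nat_lit 277)) (XT.lf (nat_lit 0) (nat_lit 25697612843) (nat_lit 1824) (nat_lit 11481399062) (nat_lit 1900) (nat_lit 8459311711) (nat_lit 488) (nat_lit 5) (nat_lit 512) (nat_lit 5) (nat_lit 513) (nat_lit 5) (nat_lit 649) (nat_lit 635) (nat_lit 276))) (XT.nd (nat_lit 78) (nat_lit 0) (nat_lit 76) (XT.lf (nat_lit 76) (nat_lit 12445635439) (nat_lit 0) (nat_lit 15739399888) (nat_lit 1900) (nat_lit 17928630491) (nat_lit 489) (nat_lit 5) (nat_lit 488) (nat_lit 5) (nat_lit 513) (nat_lit 5) (nat_lit 650) (nat_lit 635) (nat_lit 275)) (XT.nd (nat_lit 78) (nat_lit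 0) (nat_lit 0) (XT.lf (nat_lit 0) (nat_lit 30838709956) (nat_lit 1824) (nat_lit 9631066352) (nat_lit 1900) (nat_lit 6126408508) (nat_lit 489) (nat_lit 5) (nat_lit 513) (nat_lit 5) (nat_lit 514) (nat_lit 5) (nat_lit 651) (nat_lit 635) (nat_lit 274)) (XT.lf (nat_lit 76) (nat_lit 14978224403) (nat_lit 0) (nat_lit 18767886934) (nat_lit 1900) (nat_lit 13338229817) (nat_lit 490) (nat_lit 5) (nat_lit 489) (nat_lit 5) (nat_lit 514) (nat_lit 5) (nat_lit 652) (nat_lit 635) (nat_lit 273)))))) (XT.nd (nat_lit 390) (nat_lit 1900) (nat_lit 0) (XT.nd (nat_lit 156) (nat_lit 1824) (nat_lit 0) (XT.nd (nat_lit 78) (nat_lit 0) (nat_lit 0) (XT.lf (nat_lit 0) (nat_lit 36797769665) (nat_lit 1824) (nat_lit 7393644799) (nat_lit 1900) (nat_lit 3389124001) (nat_lit 490) (nat_lit 5) (nat_lit 514) (nat_lit 5) (nat_lit 515) (nat_lit 5) (nat_lit 653) (nat_lit 635) (nat_lit 272)) (XT.lf (nat_lit 76) (nat_lit 17923230952) (nat_lit 0) (nat_lit 22227090188) (nat_lit 1900) (nat_lit 7931541406) (nat_lit 491) (nat_lit 5) (nat_lit 490) (nat_lit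 5) (nat_lit 515) (nat_lit 5) (nat_lit 654) (nat_lit 635) (nat_lit 271))) (XT.nd (nat_lit 78) (nat_lit 1900) (nat_lit 0) (XT.lf (nat_lit 0) (nat_lit 43620226188) (nat_lit 1824) (nat_lit 4747662661) (nat_lit 1900) (nat_lit 224318232) (nat_lit 491) (nat_lit 5) (nat_lit 515) (nat_lit 5) (nat_lit 516) (nat_lit 5) (nat_lit 655) (nat_lit 635) (nat_lit 270)) (XT.nd (nat_lit 78) (nat_lit 1900) (nat_lit 0) (XT.lf (nat_lit 76) (nat_lit 21303098570) (nat_lit 0) (nat_lit 26141171953) (nat_lit 1900) (nat_lit 1662793183) (nat_lit 492) (nat_lit 5) (nat_lit 491) (nat_lit 5) (nat_lit 516) (nat_lit 5) (nat_lit 656) (nat_lit 635) (nat_lit 269)) (XT.lf (nat_lit 0) (nat_lit 1721421944) (nat_lit 1900) (nat_lit 1704307502) (nat_lit 1976) (nat_lit 46205639567) (nat_lit 466) (nat_lit 5) (nat_lit 491) (nat_lit 5) (nat_lit 492) (nat_lit 5) (nat_lit 657) (nat_lit 635) (nat_lit 268))))) (XT.nd (nat_lit 234) (nat_lit 1976) (nat_lit 0) (XT.nd (nat_lit 78) (nat_lit 0) (nat_lit 0) (XT.lf (nat_lit 0) (nat_lit 5443530143) (nat_lit 1900) (nat_lit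 25055328681) (nat_lit 1976) (nat_lit 19661232331) (nat_lit 467) (nat_lit 5) (nat_lit 492) (nat_lit 5) (nat_lit 493) (nat_lit 5) (nat_lit 658) (nat_lit 635) (nat_lit 267)) (XT.nd (nat_lit 78) (nat_lit 0) (nat_lit 76) (XT.lf (nat_lit 76) (nat_lit 1773831429) (nat_lit 0) (nat_lit 7511226194) (nat_lit 1976) (nat_lit 41413430595) (nat_lit 468) (nat_lit 5) (nat_lit 467) (nat_lit 5) (nat_lit 493) (nat_lit 5) (nat_lit 659) (nat_lit 635) (nat_lit 266)) (XT.lf (nat_lit 0) (nat_lit 13475403556) (nat_lit 1900) (nat_lit 21870304146) (nat_lit 76) (nat_lit 15896505783) (nat_lit 468) (nat_lit 5) (nat_lit 493) (nat_lit 5) (nat_lit 469) (nat_lit 5) (nat_lit 660) (nat_lit 635) (nat_lit 265)))) (XT.nd (nat_lit 78) (nat_lit 912) (nat_lit 0) (XT.lf (nat_lit 0) (nat_lit 5750181167) (nat_lit 1140) (nat_lit 12085738601) (nat_lit 1216) (nat_lit 33959166244) (nat_lit 453) (nat_lit 5) (nat_lit 468) (nat_lit 5) (nat_lit 469) (nat_lit 5) (nat_lit 661) (nat_lit 635) (nat_lit 264)) (XT.nd (nat_lit 78) (nat_lit 912) (nat_lit 0) (XT.lf (nat_lit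 0) (nat_lit 22506247028) (nat_lit 1216) (nat_lit 18213726013) (nat_lit 76) (nat_lit 11634590952) (nat_lit 453) (nat_lit 5) (nat_lit 469) (nat_lit 5) (nat_lit 454) (nat_lit 5) (nat_lit 662) (nat_lit 635) (nat_lit 263)) (XT.lf (nat_lit 0) (nat_lit 10227550698) (nat_lit 912) (nat_lit 17188182617) (nat_lit 988) (nat_lit 25506583190) (nat_lit 441) (nat_lit 5) (nat_lit 453) (nat_lit 5) (nat_lit 454) (nat_lit 5) (nat_lit 663) (nat_lit 635) (nat_lit 262))))))))
noncomputable def xc247 : XT := (XT.nd (nat_lit 80184) (nat_lit 0) (nat_lit 76) (XT.nd (nat_lit 79404) (nat_lit 0) (nat_lit 5016) (XT.nd (nat_lit 79014) (nat_lit 0) (nat_lit 4864) (XT.nd (nat_lit 156) (nat_lit 912) (nat_lit 0) (XT.nd (nat_lit 78) (nat_lit 912) (nat_lit 0) (XT.lf (nat_lit 0) (nat_lit 32590005358) (nat_lit 988) (nat_lit 14060120585) (nat_lit 76) (nat_lit 6847966222) (nat_lit 441) (nat_lit 5) (nat_lit 454) (nat_lit 5) (nat_lit 442) (nat_lit 5) (nat_lit 664) (nat_lit 635) (nat_lit 261)) (XT.lf (nat_lit 0) (nat_lit 15232544740) (nat_lit 912) (nat_lit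 22847280560) (nat_lit 988) (nat_lit 16001316808) (nat_lit 429) (nat_lit 5) (nat_lit 441) (nat_lit 5) (nat_lit 442) (nat_lit 5) (nat_lit 665) (nat_lit 635) (nat_lit 260))) (XT.nd (nat_lit 78) (nat_lit 912) (nat_lit 0) (XT.lf (nat_lit 0) (nat_lit 43783055298) (nat_lit 988) (nat_lit 9382864582) (nat_lit 76) (nat_lit 1507860916) (nat_lit 429) (nat_lit 5) (nat_lit 442) (nat_lit 5) (nat_lit 430) (nat_lit 5) (nat_lit 666) (nat_lit 635) (nat_lit 259)) (XT.nd (nat_lit 78) (nat_lit 76) (nat_lit 0) (XT.lf (nat_lit 0) (nat_lit 20792961485) (nat_lit 836) (nat_lit 29093052453) (nat_lit 912) (nat_lit 5386545056) (nat_lit 418) (nat_lit 5) (nat_lit 429) (nat_lit 5) (nat_lit 430) (nat_lit 5) (nat_lit 667) (nat_lit 635) (nat_lit 258)) (XT.lf (nat_lit 0) (nat_lit 287473626) (nat_lit 912) (nat_lit 4185080450) (nat_lit 76) (nat_lit 51409474303) (nat_lit 417) (nat_lit 5) (nat_lit 429) (nat_lit 5) (nat_lit 418) (nat_lit 5) (nat_lit 668) (nat_lit 635) (nat_lit 257))))) (XT.nd (nat_lit 156) (nat_lit 0) (nat_lit 76) (XT.nd (nat_lit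 78) (nat_lit 0) (nat_lit 0) (XT.lf (nat_lit 0) (nat_lit 4729715164) (nat_lit 1900) (nat_lit 7735671757) (nat_lit 1900) (nat_lit 7735671757) (nat_lit 481) (nat_lit 3) (nat_lit 506) (nat_lit 3) (nat_lit 506) (nat_lit 5) (nat_lit 636) (nat_lit 636) (nat_lit 288)) (XT.lf (nat_lit 76) (nat_lit 4710210874) (nat_lit 0) (nat_lit 4914807477) (nat_lit 1900) (nat_lit 31179699083) (nat_lit 482) (nat_lit 5) (nat_lit 481) (nat_lit 3) (nat_lit 506) (nat_lit 5) (nat_lit 637) (nat_lit 636) (nat_lit 287))) (XT.nd (nat_lit 78) (nat_lit 0) (nat_lit 0) (XT.lf (nat_lit 0) (nat_lit 9998012198) (nat_lit 1824) (nat_lit 15810084508) (nat_lit 1900) (nat_lit 15403190955) (nat_lit 482) (nat_lit 5) (nat_lit 506) (nat_lit 5) (nat_lit 507) (nat_lit 5) (nat_lit 638) (nat_lit 636) (nat_lit 286)) (XT.nd (nat_lit 78) (nat_lit 0) (nat_lit 76) (XT.lf (nat_lit 76) (nat_lit 4911329320) (nat_lit 0) (nat_lit 5530533165) (nat_lit 1900) (nat_lit 31182858909) (nat_lit 483) (nat_lit 5) (nat_lit 482) (nat_lit 5) (nat_lit 507) (nat_lit 5) (nat_lit 639)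 (nat_lit 636) (nat_lit 285)) (XT.lf (nat_lit 0) (nat_lit 11098747330) (nat_lit 1824) (nat_lit 15882484912) (nat_lit 1900) (nat_lit 15061108440) (nat_lit 483) (nat_lit 5) (nat_lit 507) (nat_lit 5) (nat_lit 508) (nat_lit 5) (nat_lit 640) (nat_lit 636) (nat_lit 284)))))) (XT.nd (nat_lit 390) (nat_lit 0) (nat_lit 228) (XT.nd (nat_lit 156) (nat_lit 0) (nat_lit 76) (XT.nd (nat_lit 78) (nat_lit 0) (nat_lit 76) (XT.lf (nat_lit 76) (nat_lit 5398648942) (nat_lit 0) (nat_lit 6440798923) (nat_lit 1900) (nat_lit 30627450961) (nat_lit 484) (nat_lit 5) (nat_lit 483) (nat_lit 5) (nat_lit 508) (nat_lit 5) (nat_lit 641) (nat_lit 636) (nat_lit 283)) (XT.lf (nat_lit 0) (nat_lit 12795478468) (nat_lit 1824) (nat_lit 15672625375) (nat_lit 1900) (nat_lit 14427833999) (nat_lit 484) (nat_lit 5) (nat_lit 508) (nat_lit 5) (nat_lit 509) (nat_lit 5) (nat_lit 642) (nat_lit 636) (nat_lit 282))) (XT.nd (nat_lit 78) (nat_lit 0) (nat_lit 76) (XT.lf (nat_lit 76) (nat_lit 6188848397) (nat_lit 0) (nat_lit 7663655903) (nat_lit 1900) (nat_lit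 29479415874) (nat_lit 485) (nat_lit 5) (nat_lit 484) (nat_lit 5) (nat_lit 509) (nat_lit 5) (nat_lit 643) (nat_lit 636) (nat_lit 281)) (XT.nd (nat_lit 78) (nat_lit 0) (nat_lit 0) (XT.lf (nat_lit 0) (nat_lit 15123614755) (nat_lit 1824) (nat_lit 15163831663) (nat_lit 1900) (nat_lit 13485316882) (nat_lit 485) (nat_lit 5) (nat_lit 509) (nat_lit 5) (nat_lit 510) (nat_lit 5) (nat_lit 644) (nat_lit 636) (nat_lit 280)) (XT.lf (nat_lit 76) (nat_lit 7299390658) (nat_lit 0) (nat_lit 9217976224) (nat_lit 1900) (nat_lit 27703112043) (nat_lit 486) (nat_lit 5) (nat_lit 485) (nat_lit 5) (nat_lit 510) (nat_lit 5) (nat_lit 645) (nat_lit 636) (nat_lit 279))))) (XT.nd (nat_lit 156) (nat_lit 0) (nat_lit 76) (XT.nd (nat_lit 78) (nat_lit 0) (nat_lit 0) (XT.lf (nat_lit 0) (nat_lit 18120199774) (nat_lit 1824) (nat_lit 14338643460) (nat_lit 1900) (nat_lit 12214681543) (nat_lit 486) (nat_lit 5) (nat_lit 510) (nat_lit 5) (nat_lit 511) (nat_lit 5) (nat_lit 646) (nat_lit 636) (nat_lit 278)) (XT.lf (nat_lit 76) (nat_lit 8748555364) (nat_lit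 0) (nat_lit 11123490251) (nat_lit 1900) (nat_lit 25261246832) (nat_lit 487) (nat_lit 5) (nat_lit 486) (nat_lit 5) (nat_lit 511) (nat_lit 5) (nat_lit 647) (nat_lit 636) (nat_lit 277))) (XT.nd (nat_lit 78) (nat_lit 0) (nat_lit 0) (XT.lf (nat_lit 0) (nat_lit 21823982352) (nat_lit 1824) (nat_lit 13178781870) (nat_lit 1900) (nat_lit 10596190196) (nat_lit 487) (nat_lit 5) (nat_lit 511) (nat_lit 5) (nat_lit 512) (nat_lit 5) (nat_lit 648) (nat_lit 636) (nat_lit 276)) (XT.nd (nat_lit 78) (nat_lit 0) (nat_lit 76) (XT.lf (nat_lit 76) (nat_lit 10555472519) (nat_lit 0) (nat_lit 13400825366) (nat_lit 1900) (nat_lit 22114804967) (nat_lit 488) (nat_lit 5) (nat_lit 487) (nat_lit 5) (nat_lit 512) (nat_lit 5) (nat_lit 649) (nat_lit 636) (nat_lit 275)) (XT.lf (nat_lit 0) (nat_lit 26275490247) (nat_lit 1824) (nat_lit 11665115567) (nat_lit 1900) (nat_lit 8609203856) (nat_lit 488) (nat_lit 5) (nat_lit 512) (nat_lit 5) (nat_lit 513) (nat_lit 5) (nat_lit 650) (nat_lit 636) (nat_lit 274))))))) (XT.nd (nat_lit 780) (nat_lit 3648)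 (nat_lit 0) (XT.nd (nat_lit 390) (nat_lit 1672) (nat_lit 0) (XT.nd (nat_lit 156) (nat_lit 0) (nat_lit 76) (XT.nd (nat_lit 78) (nat_lit 0) (nat_lit 76) (XT.lf (nat_lit 76) (nat_lit 12740157575) (nat_lit 0) (nat_lit 16071546298) (nat_lit 1900) (nat_lit 18222974026) (nat_lit 489) (nat_lit 5) (nat_lit 488) (nat_lit 5) (nat_lit 513) (nat_lit 5) (nat_lit 651) (nat_lit 636) (nat_lit 273)) (XT.lf (nat_lit 0) (nat_lit 31517106839) (nat_lit 1824) (nat_lit 9777625557) (nat_lit 1900) (nat_lit 6232141822) (nat_lit 489) (nat_lit 5) (nat_lit 513) (nat_lit 5) (nat_lit 514) (nat_lit 5) (nat_lit 652) (nat_lit 636) (nat_lit 272))) (XT.nd (nat_lit 78) (nat_lit 0) (nat_lit 76) (XT.lf (nat_lit 76) (nat_lit 15323547973) (nat_lit 0) (nat_lit 19158197085) (nat_lit 1900) (nat_lit 13543066884) (nat_lit 490) (nat_lit 5) (nat_lit 489) (nat_lit 5) (nat_lit 514) (nat_lit 5) (nat_lit 653) (nat_lit 636) (nat_lit 271)) (XT.nd (nat_lit 78) (nat_lit 0) (nat_lit 0) (XT.lf (nat_lit 0) (nat_lit 37593150953) (nat_lit 1824) (nat_lit 7495368481)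 (nat_lit 1900) (nat_lit 3442439512) (nat_lit 490) (nat_lit 5) (nat_lit 514) (nat_lit 5) (nat_lit 515) (nat_lit 5) (nat_lit 654) (nat_lit 636) (nat_lit 270)) (XT.lf (nat_lit 76) (nat_lit 18327541172) (nat_lit 0) (nat_lit 22684344732) (nat_lit 1900) (nat_lit 8030440991) (nat_lit 491) (nat_lit 5) (nat_lit 490) (nat_lit 5) (nat_lit 515) (nat_lit 5) (nat_lit 655) (nat_lit 636) (nat_lit 269))))) (XT.nd (nat_lit 156) (nat_lit 1900) (nat_lit 0) (XT.nd (nat_lit 78) (nat_lit 0) (nat_lit 0) (XT.lf (nat_lit 0) (nat_lit 44549959929) (nat_lit 1824) (nat_lit 4796438422) (nat_lit 1900) (nat_lit 216504586) (nat_lit 491) (nat_lit 5) (nat_lit 515) (nat_lit 5) (nat_lit 516) (nat_lit 5) (nat_lit 656) (nat_lit 636) (nat_lit 268)) (XT.lf (nat_lit 76) (nat_lit 21775034235) (nat_lit 0) (nat_lit 26674624656) (nat_lit 1900) (nat_lit 1638414362) (nat_lit 492) (nat_lit 5) (nat_lit 491) (nat_lit 5) (nat_lit 516) (nat_lit 5) (nat_lit 657) (nat_lit 636) (nat_lit 267))) (XT.nd (nat_lit 78) (nat_lit 0) (nat_lit 76) (XT.lf (nat_lit 0) (nat_lit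 1811613908) (nat_lit 1900) (nat_lit 1692676771) (nat_lit 1976) (nat_lit 47118588839) (nat_lit 466) (nat_lit 5) (nat_lit 491) (nat_lit 5) (nat_lit 492) (nat_lit 5) (nat_lit 658) (nat_lit 636) (nat_lit 266)) (XT.nd (nat_lit 78) (nat_lit 0) (nat_lit 0) (XT.lf (nat_lit 0) (nat_lit 5607303743) (nat_lit 1900) (nat_lit 25509856273) (nat_lit 1976) (nat_lit 20045033330) (nat_lit 467) (nat_lit 5) (nat_lit 492) (nat_lit 5) (nat_lit 493) (nat_lit 5) (nat_lit 659) (nat_lit 636) (nat_lit 265)) (XT.lf (nat_lit 76) (nat_lit 1855580598) (nat_lit 0) (nat_lit 7669305076) (nat_lit 1976) (nat_lit 42186488229) (nat_lit 468) (nat_lit 5) (nat_lit 467) (nat_lit 5) (nat_lit 493) (nat_lit 5) (nat_lit 660) (nat_lit 636) (nat_lit 264)))))) (XT.nd (nat_lit 390) (nat_lit 1748) (nat_lit 0) (XT.nd (nat_lit 156) (nat_lit 912) (nat_lit 0) (XT.nd (nat_lit 78) (nat_lit 1140) (nat_lit 0) (XT.lf (nat_lit 0) (nat_lit 13797927219) (nat_lit 1900) (nat_lit 22261232175) (nat_lit 76) (nat_lit 16206836538) (nat_lit 468) (nat_lit 5) (nat_lit 493) (nat_lit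 5) (nat_lit 469) (nat_lit 5) (nat_lit 661) (nat_lit 636) (nat_lit 263)) (XT.lf (nat_lit 0) (nat_lit 5911357067) (nat_lit 1140) (nat_lit 12333556947) (nat_lit 1216) (nat_lit 34585026719) (nat_lit 453) (nat_lit 5) (nat_lit 468) (nat_lit 5) (nat_lit 469) (nat_lit 5) (nat_lit 662) (nat_lit 636) (nat_lit 262))) (XT.nd (nat_lit 78) (nat_lit 912) (nat_lit 0) (XT.lf (nat_lit 0) (nat_lit 23007583952) (nat_lit 1216) (nat_lit 18531668275) (nat_lit 76) (nat_lit 11861377355) (nat_lit 453) (nat_lit 5) (nat_lit 469) (nat_lit 5) (nat_lit 454) (nat_lit 5) (nat_lit 663) (nat_lit 636) (nat_lit 261)) (XT.nd (nat_lit 78) (nat_lit 0) (nat_lit 0) (XT.lf (nat_lit 0) (nat_lit 10478129153) (nat_lit 912) (nat_lit 17536425496) (nat_lit 988) (nat_lit 25965196630) (nat_lit 441) (nat_lit 5) (nat_lit 453) (nat_lit 5) (nat_lit 454) (nat_lit 5) (nat_lit 664) (nat_lit 636) (nat_lit 260)) (XT.lf (nat_lit 0) (nat_lit 33291293294) (nat_lit 988) (nat_lit 14295177820) (nat_lit 76) (nat_lit 6980591742) (nat_lit 441) (nat_lit 5) (nat_lit 454) (nat_lit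 5) (nat_lit 442) (nat_lit 5) (nat_lit 665) (nat_lit 636) (nat_lit 259))))) (XT.nd (nat_lit 78936) (nat_lit 0) (nat_lit 4788) (XT.nd (nat_lit 78) (nat_lit 836) (nat_lit 0) (XT.lf (nat_lit 0) (nat_lit 15583037225) (nat_lit 912) (nat_lit 23307199694) (nat_lit 988) (nat_lit 16271550361) (nat_lit 429) (nat_lit 5) (nat_lit 441) (nat_lit 5) (nat_lit 442) (nat_lit 5) (nat_lit 666) (nat_lit 636) (nat_lit 258)) (XT.nd (nat_lit 78) (nat_lit 836) (nat_lit 0) (XT.lf (nat_lit 0) (nat_lit 44706555430) (nat_lit 988) (nat_lit 9524601710) (nat_lit 76) (nat_lit 1535141149) (nat_lit 429) (nat_lit 5) (nat_lit 442) (nat_lit 5) (nat_lit 430) (nat_lit 5) (nat_lit 667) (nat_lit 636) (nat_lit 257)) (XT.lf (nat_lit 0) (nat_lit 21254438772) (nat_lit 836) (nat_lit 29676492634) (nat_lit 912) (nat_lit 5446133509) (nat_lit 418) (nat_lit 5) (nat_lit 429) (nat_lit 5) (nat_lit 430) (nat_lit 5) (nat_lit 668) (nat_lit 636) (nat_lit 256)))) (XT.nd (nat_lit 78) (nat_lit 0) (nat_lit 0) (XT.lf (nat_lit 0) (nat_lit 4864458992) (nat_lit 1900) (nat_lit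 7869908327) (nat_lit 1900) (nat_lit 7869908327) (nat_lit 481) (nat_lit 3) (nat_lit 506) (nat_lit 3) (nat_lit 506) (nat_lit 5) (nat_lit 637) (nat_lit 637) (nat_lit 286)) (XT.nd (nat_lit 78) (nat_lit 0) (nat_lit 76) (XT.lf (nat_lit 76) (nat_lit 4845099389) (nat_lit 0) (nat_lit 5051408036) (nat_lit 1900) (nat_lit 31722722200) (nat_lit 482) (nat_lit 5) (nat_lit 481) (nat_lit 3) (nat_lit 506) (nat_lit 5) (nat_lit 638) (nat_lit 637) (nat_lit 285)) (XT.lf (nat_lit 0) (nat_lit 10275168531) (nat_lit 1824) (nat_lit 16084604676) (nat_lit 1900) (nat_lit 15674193950) (nat_lit 482) (nat_lit 5) (nat_lit 506) (nat_lit 5) (nat_lit 507) (nat_lit 5) (nat_lit 639) (nat_lit 637) (nat_lit 284))))))))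
noncomputable def xc248 : XT := (XT.nd (nat_lit 1560) (nat_lit 2812) (nat_lit 0) (XT.nd (nat_lit 780) (nat_lit 1216) (nat_lit 0) (XT.nd (nat_lit 390) (nat_lit 0) (nat_lit 228) (XT.nd (nat_lit 156) (nat_lit 0) (nat_lit 76) (XT.nd (nat_lit 78) (nat_lit 0) (nat_lit 76) (XT.lf (nat_lit 76) (nat_lit 5050963207) (nat_lit 0) (nat_lit 5675687811) (nat_lit 1900) (nat_lit 31729043489) (nat_lit 483) (nat_lit 5) (nat_lit 482) (nat_lit 5) (nat_lit 507) (nat_lit 5) (nat_lit 640) (nat_lit 637) (nat_lit 283)) (XT.lf (nat_lit 0) (nat_lit 11394964435) (nat_lit 1824) (nat_lit 16157827846) (nat_lit 1900) (nat_lit 15328908127) (nat_lit 483) (nat_lit 5) (nat_lit 507) (nat_lit 5) (nat_lit 508) (nat_lit 5) (nat_lit 641) (nat_lit 637) (nat_lit 282))) (XT.nd (nat_lit 78) (nat_lit 0) (nat_lit 76) (XT.lf (nat_lit 76) (nat_lit 5548650351) (nat_lit 0) (nat_lit 6600645777) (nat_lit 1900) (nat_lit 31165477288) (nat_lit 484) (nat_lit 5) (nat_lit 483) (nat_lit 5) (nat_lit 508) (nat_lit 5) (nat_lit 642) (nat_lit 637) (nat_lit 281)) (XT.nd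 (nat_lit 78) (nat_lit 0) (nat_lit 0) (XT.lf (nat_lit 0) (nat_lit 13122817285) (nat_lit 1824) (nat_lit 15943241323) (nat_lit 1900) (nat_lit 14686367248) (nat_lit 484) (nat_lit 5) (nat_lit 508) (nat_lit 5) (nat_lit 509) (nat_lit 5) (nat_lit 643) (nat_lit 637) (nat_lit 280)) (XT.lf (nat_lit 76) (nat_lit 6355180104) (nat_lit 0) (nat_lit 7844679249) (nat_lit 1900) (nat_lit 29997291009) (nat_lit 485) (nat_lit 5) (nat_lit 484) (nat_lit 5) (nat_lit 509) (nat_lit 5) (nat_lit 644) (nat_lit 637) (nat_lit 279))))) (XT.nd (nat_lit 156) (nat_lit 0) (nat_lit 76) (XT.nd (nat_lit 78) (nat_lit 0) (nat_lit 0) (XT.lf (nat_lit 0) (nat_lit 15494836849) (nat_lit 1824) (nat_lit 15423830720) (nat_lit 1900) (nat_lit 13728173926) (nat_lit 485) (nat_lit 5) (nat_lit 509) (nat_lit 5) (nat_lit 510) (nat_lit 5) (nat_lit 645) (nat_lit 637) (nat_lit 278)) (XT.lf (nat_lit 76) (nat_lit 7488371326) (nat_lit 0) (nat_lit 9427023796) (nat_lit 1900) (nat_lit 28188137731) (nat_lit 486) (nat_lit 5) (nat_lit 485) (nat_lit 5) (nat_lit 510) (nat_lit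 5) (nat_lit 646) (nat_lit 637) (nat_lit 277))) (XT.nd (nat_lit 78) (nat_lit 0) (nat_lit 0) (XT.lf (nat_lit 0) (nat_lit 18548800447) (nat_lit 1824) (nat_lit 14581780253) (nat_lit 1900) (nat_lit 12435088646) (nat_lit 486) (nat_lit 5) (nat_lit 510) (nat_lit 5) (nat_lit 511) (nat_lit 5) (nat_lit 647) (nat_lit 637) (nat_lit 276)) (XT.nd (nat_lit 78) (nat_lit 0) (nat_lit 76) (XT.lf (nat_lit 76) (nat_lit 8966875468) (nat_lit 0) (nat_lit 11367791214) (nat_lit 1900) (nat_lit 25699986057) (nat_lit 487) (nat_lit 5) (nat_lit 486) (nat_lit 5) (nat_lit 511) (nat_lit 5) (nat_lit 648) (nat_lit 637) (nat_lit 275)) (XT.lf (nat_lit 0) (nat_lit 22324225147) (nat_lit 1824) (nat_lit 13398439570) (nat_lit 1900) (nat_lit 10786991610) (nat_lit 487) (nat_lit 5) (nat_lit 511) (nat_lit 5) (nat_lit 512) (nat_lit 5) (nat_lit 649) (nat_lit 637) (nat_lit 274)))))) (XT.nd (nat_lit 390) (nat_lit 1596) (nat_lit 0) (XT.nd (nat_lit 156) (nat_lit 0) (nat_lit 76) (XT.nd (nat_lit 78) (nat_lit 0) (nat_lit 76) (XT.lf (nat_lit 76) (nat_lit 10810210973)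 (nat_lit 0) (nat_lit 13688009029) (nat_lit 1900) (nat_lit 22493047106) (nat_lit 488) (nat_lit 5) (nat_lit 487) (nat_lit 5) (nat_lit 512) (nat_lit 5) (nat_lit 650) (nat_lit 637) (nat_lit 273)) (XT.lf (nat_lit 0) (nat_lit 26862442907) (nat_lit 1824) (nat_lit 11854289201) (nat_lit 1900) (nat_lit 8762843056) (nat_lit 488) (nat_lit 5) (nat_lit 512) (nat_lit 5) (nat_lit 513) (nat_lit 5) (nat_lit 651) (nat_lit 637) (nat_lit 272))) (XT.nd (nat_lit 78) (nat_lit 0) (nat_lit 76) (XT.lf (nat_lit 76) (nat_lit 13038799084) (nat_lit 0) (nat_lit 16409661588) (nat_lit 1900) (nat_lit 18525698526) (nat_lit 489) (nat_lit 5) (nat_lit 488) (nat_lit 5) (nat_lit 513) (nat_lit 5) (nat_lit 652) (nat_lit 637) (nat_lit 271)) (XT.nd (nat_lit 78) (nat_lit 0) (nat_lit 0) (XT.lf (nat_lit 0) (nat_lit 32206678775) (nat_lit 1824) (nat_lit 9928904595) (nat_lit 1900) (nat_lit 6340641966) (nat_lit 489) (nat_lit 5) (nat_lit 513) (nat_lit 5) (nat_lit 514) (nat_lit 5) (nat_lit 653) (nat_lit 637) (nat_lit 270)) (XT.lf (nat_lit 76) (nat_lit 15674001134)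 (nat_lit 0) (nat_lit 19555732818) (nat_lit 1900) (nat_lit 13754405414) (nat_lit 490) (nat_lit 5) (nat_lit 489) (nat_lit 5) (nat_lit 514) (nat_lit 5) (nat_lit 654) (nat_lit 637) (nat_lit 269))))) (XT.nd (nat_lit 156) (nat_lit 1824) (nat_lit 0) (XT.nd (nat_lit 78) (nat_lit 0) (nat_lit 0) (XT.lf (nat_lit 0) (nat_lit 38402132287) (nat_lit 1824) (nat_lit 7600918667) (nat_lit 1900) (nat_lit 3497383103) (nat_lit 490) (nat_lit 5) (nat_lit 514) (nat_lit 5) (nat_lit 515) (nat_lit 5) (nat_lit 655) (nat_lit 637) (nat_lit 268)) (XT.lf (nat_lit 76) (nat_lit 18738157355) (nat_lit 0) (nat_lit 23150250716) (nat_lit 1900) (nat_lit 8133638004) (nat_lit 491) (nat_lit 5) (nat_lit 490) (nat_lit 5) (nat_lit 515) (nat_lit 5) (nat_lit 656) (nat_lit 637) (nat_lit 267))) (XT.nd (nat_lit 78) (nat_lit 1900) (nat_lit 0) (XT.lf (nat_lit 0) (nat_lit 45496062182) (nat_lit 1824) (nat_lit 4847982826) (nat_lit 1900) (nat_lit 209012291) (nat_lit 491) (nat_lit 5) (nat_lit 515) (nat_lit 5) (nat_lit 516) (nat_lit 5) (nat_lit 657) (nat_lit 637)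 (nat_lit 266)) (XT.nd (nat_lit 78) (nat_lit 1900) (nat_lit 0) (XT.lf (nat_lit 76) (nat_lit 22254627281) (nat_lit 0) (nat_lit 27218333666) (nat_lit 1900) (nat_lit 1615785990) (nat_lit 492) (nat_lit 5) (nat_lit 491) (nat_lit 5) (nat_lit 516) (nat_lit 5) (nat_lit 658) (nat_lit 637) (nat_lit 265)) (XT.lf (nat_lit 0) (nat_lit 1901444346) (nat_lit 1900) (nat_lit 1682588668) (nat_lit 1976) (nat_lit 48050230591) (nat_lit 466) (nat_lit 5) (nat_lit 491) (nat_lit 5) (nat_lit 492) (nat_lit 5) (nat_lit 659) (nat_lit 637) (nat_lit 264))))))) (XT.nd (nat_lit 79560) (nat_lit 0) (nat_lit 3952) (XT.nd (nat_lit 390) (nat_lit 1824) (nat_lit 0) (XT.nd (nat_lit 156) (nat_lit 1064) (nat_lit 0) (XT.nd (nat_lit 78) (nat_lit 0) (nat_lit 0) (XT.lf (nat_lit 0) (nat_lit 5772220864) (nat_lit 1900) (nat_lit 25975283137) (nat_lit 1976) (nat_lit 20436876281) (nat_lit 467) (nat_lit 5) (nat_lit 492) (nat_lit 5) (nat_lit 493) (nat_lit 5) (nat_lit 660) (nat_lit 637) (nat_lit 263)) (XT.lf (nat_lit 76) (nat_lit 1937167931) (nat_lit 0) (nat_lit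 7830240543) (nat_lit 1976) (nat_lit 42977150925) (nat_lit 468) (nat_lit 5) (nat_lit 467) (nat_lit 5) (nat_lit 493) (nat_lit 5) (nat_lit 661) (nat_lit 637) (nat_lit 262))) (XT.nd (nat_lit 78) (nat_lit 1140) (nat_lit 0) (XT.lf (nat_lit 0) (nat_lit 14124842695) (nat_lit 1900) (nat_lit 22661783564) (nat_lit 76) (nat_lit 16523669001) (nat_lit 468) (nat_lit 5) (nat_lit 493) (nat_lit 5) (nat_lit 469) (nat_lit 5) (nat_lit 662) (nat_lit 637) (nat_lit 261)) (XT.nd (nat_lit 78) (nat_lit 0) (nat_lit 0) (XT.lf (nat_lit 0) (nat_lit 6073963560) (nat_lit 1140) (nat_lit 12586094651) (nat_lit 1216) (nat_lit 35225474995) (nat_lit 453) (nat_lit 5) (nat_lit 468) (nat_lit 5) (nat_lit 469) (nat_lit 5) (nat_lit 663) (nat_lit 637) (nat_lit 260)) (XT.lf (nat_lit 0) (nat_lit 23516958990) (nat_lit 1216) (nat_lit 18857768520) (nat_lit 76) (nat_lit 12092928800) (nat_lit 453) (nat_lit 5) (nat_lit 469) (nat_lit 5) (nat_lit 454) (nat_lit 5) (nat_lit 664) (nat_lit 637) (nat_lit 259))))) (XT.nd (nat_lit 156) (nat_lit 912) (nat_lit 0) (XT.nd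 (nat_lit 78) (nat_lit 0) (nat_lit 0) (XT.lf (nat_lit 0) (nat_lit 10731931876) (nat_lit 912) (nat_lit 17891459298) (nat_lit 988) (nat_lit 26434982853) (nat_lit 441) (nat_lit 5) (nat_lit 453) (nat_lit 5) (nat_lit 454) (nat_lit 5) (nat_lit 665) (nat_lit 637) (nat_lit 258)) (XT.lf (nat_lit 0) (nat_lit 34004685315) (nat_lit 988) (nat_lit 14536728073) (nat_lit 76) (nat_lit 7116038060) (nat_lit 441) (nat_lit 5) (nat_lit 454) (nat_lit 5) (nat_lit 442) (nat_lit 5) (nat_lit 666) (nat_lit 637) (nat_lit 257))) (XT.nd (nat_lit 78) (nat_lit 0) (nat_lit 0) (XT.lf (nat_lit 0) (nat_lit 15938759475) (nat_lit 912) (nat_lit 23776201745) (nat_lit 988) (nat_lit 16549122099) (nat_lit 429) (nat_lit 5) (nat_lit 441) (nat_lit 5) (nat_lit 442) (nat_lit 5) (nat_lit 667) (nat_lit 637) (nat_lit 256)) (XT.nd (nat_lit 78858) (nat_lit 0) (nat_lit 3952) (XT.lf (nat_lit 0) (nat_lit 45646667917) (nat_lit 988) (nat_lit 9670956717) (nat_lit 76) (nat_lit 1563078704) (nat_lit 429) (nat_lit 5) (nat_lit 442) (nat_lit 5) (nat_lit 430) (nat_lit 5)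 (nat_lit 668) (nat_lit 637) (nat_lit 255)) (XT.lf (nat_lit 0) (nat_lit 5000338642) (nat_lit 1900) (nat_lit 8007624770) (nat_lit 1900) (nat_lit 8007624770) (nat_lit 481) (nat_lit 3) (nat_lit 506) (nat_lit 3) (nat_lit 506) (nat_lit 5) (nat_lit 638) (nat_lit 638) (nat_lit 284)))))) (XT.nd (nat_lit 390) (nat_lit 0) (nat_lit 228) (XT.nd (nat_lit 156) (nat_lit 0) (nat_lit 76) (XT.nd (nat_lit 78) (nat_lit 0) (nat_lit 76) (XT.lf (nat_lit 76) (nat_lit 4981105854) (nat_lit 0) (nat_lit 5189253200) (nat_lit 1900) (nat_lit 32279734444) (nat_lit 482) (nat_lit 5) (nat_lit 481) (nat_lit 3) (nat_lit 506) (nat_lit 5) (nat_lit 639) (nat_lit 638) (nat_lit 283)) (XT.lf (nat_lit 0) (nat_lit 10554870371) (nat_lit 1824) (nat_lit 16366233793) (nat_lit 1900) (nat_lit 15952056122) (nat_lit 482) (nat_lit 5) (nat_lit 506) (nat_lit 5) (nat_lit 507) (nat_lit 5) (nat_lit 640) (nat_lit 638) (nat_lit 282))) (XT.nd (nat_lit 78) (nat_lit 0) (nat_lit 76) (XT.lf (nat_lit 76) (nat_lit 5191781877) (nat_lit 0) (nat_lit 5822404165) (nat_lit 1900)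 (nat_lit 32289160115) (nat_lit 483) (nat_lit 5) (nat_lit 482) (nat_lit 5) (nat_lit 507) (nat_lit 5) (nat_lit 641) (nat_lit 638) (nat_lit 281)) (XT.nd (nat_lit 78) (nat_lit 0) (nat_lit 0) (XT.lf (nat_lit 0) (nat_lit 11694222968) (nat_lit 1824) (nat_lit 16440320462) (nat_lit 1900) (nat_lit 15603361643) (nat_lit 483) (nat_lit 5) (nat_lit 507) (nat_lit 5) (nat_lit 508) (nat_lit 5) (nat_lit 642) (nat_lit 638) (nat_lit 280)) (XT.lf (nat_lit 76) (nat_lit 5700019772) (nat_lit 0) (nat_lit 6762484602) (nat_lit 1900) (nat_lit 31717157948) (nat_lit 484) (nat_lit 5) (nat_lit 483) (nat_lit 5) (nat_lit 508) (nat_lit 5) (nat_lit 643) (nat_lit 638) (nat_lit 279))))) (XT.nd (nat_lit 234) (nat_lit 0) (nat_lit 76) (XT.nd (nat_lit 78) (nat_lit 0) (nat_lit 0) (XT.lf (nat_lit 0) (nat_lit 13453929193) (nat_lit 1824) (nat_lit 16220932987) (nat_lit 1900) (nat_lit 14951237008) (nat_lit 484) (nat_lit 5) (nat_lit 508) (nat_lit 5) (nat_lit 509) (nat_lit 5) (nat_lit 644) (nat_lit 638) (nat_lit 278)) (XT.nd (nat_lit 78) (nat_lit 0) (nat_lit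 76) (XT.lf (nat_lit 76) (nat_lit 6523185993) (nat_lit 0) (nat_lit 8028245487) (nat_lit 1900) (nat_lit 30528308357) (nat_lit 485) (nat_lit 5) (nat_lit 484) (nat_lit 5) (nat_lit 509) (nat_lit 5) (nat_lit 645) (nat_lit 638) (nat_lit 277)) (XT.lf (nat_lit 0) (nat_lit 15870813746) (nat_lit 1824) (nat_lit 15690710280) (nat_lit 1900) (nat_lit 13976930702) (nat_lit 485) (nat_lit 5) (nat_lit 509) (nat_lit 5) (nat_lit 510) (nat_lit 5) (nat_lit 646) (nat_lit 638) (nat_lit 276)))) (XT.nd (nat_lit 78) (nat_lit 0) (nat_lit 76) (XT.lf (nat_lit 76) (nat_lit 7679462142) (nat_lit 0) (nat_lit 9639293652) (nat_lit 1900) (nat_lit 28685544706) (nat_lit 486) (nat_lit 5) (nat_lit 485) (nat_lit 5) (nat_lit 510) (nat_lit 5) (nat_lit 647) (nat_lit 638) (nat_lit 275)) (XT.nd (nat_lit 78) (nat_lit 0) (nat_lit 0) (XT.lf (nat_lit 0) (nat_lit 18983402635) (nat_lit 1824) (nat_lit 14831474225) (nat_lit 1900) (nat_lit 12660831433) (nat_lit 486) (nat_lit 5) (nat_lit 510) (nat_lit 5) (nat_lit 511) (nat_lit 5) (nat_lit 648) (nat_lit 638) (nat_lit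 274)) (XT.lf (nat_lit 76) (nat_lit 9187878679) (nat_lit 0) (nat_lit 11616130464) (nat_lit 1900) (nat_lit 26150081789) (nat_lit 487) (nat_lit 5) (nat_lit 486) (nat_lit 5) (nat_lit 511) (nat_lit 5) (nat_lit 649) (nat_lit 638) (nat_lit 273))))))))
noncomputable def xc249 : XT := (XT.nd (nat_lit 80496) (nat_lit 0) (nat_lit 1900) (XT.nd (nat_lit 780) (nat_lit 3496) (nat_lit 0) (XT.nd (nat_lit 390) (nat_lit 0) (nat_lit 152) (XT.nd (nat_lit 156) (nat_lit 0) (nat_lit 76) (XT.nd (nat_lit 78) (nat_lit 0) (nat_lit 0) (XT.lf (nat_lit 0) (nat_lit 22831996798) (nat_lit 1824) (nat_lit 13624195811) (nat_lit 1900) (nat_lit 10982429260) (nat_lit 487) (nat_lit 5) (nat_lit 511) (nat_lit 5) (nat_lit 512) (nat_lit 5) (nat_lit 650) (nat_lit 638) (nat_lit 272)) (XT.lf (nat_lit 76) (nat_lit 11068350028) (nat_lit 0) (nat_lit 13980192080) (nat_lit 1900) (nat_lit 22881341381) (nat_lit 488) (nat_lit 5) (nat_lit 487) (nat_lit 5) (nat_lit 512) (nat_lit 5) (nat_lit 651) (nat_lit 638) (nat_lit 271))) (XT.nd (nat_lit 78) (nat_lit 0) (nat_lit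 0) (XT.lf (nat_lit 0) (nat_lit 27458748720) (nat_lit 1824) (nat_lit 12048959878) (nat_lit 1900) (nat_lit 8920275160) (nat_lit 488) (nat_lit 5) (nat_lit 512) (nat_lit 5) (nat_lit 513) (nat_lit 5) (nat_lit 652) (nat_lit 638) (nat_lit 270)) (XT.nd (nat_lit 78) (nat_lit 0) (nat_lit 76) (XT.lf (nat_lit 76) (nat_lit 13341711126) (nat_lit 0) (nat_lit 16753891310) (nat_lit 1900) (nat_lit 18836874759) (nat_lit 489) (nat_lit 5) (nat_lit 488) (nat_lit 5) (nat_lit 513) (nat_lit 5) (nat_lit 653) (nat_lit 638) (nat_lit 269)) (XT.lf (nat_lit 0) (nat_lit 32907742185) (nat_lit 1824) (nat_lit 10084928406) (nat_lit 1900) (nat_lit 6451938954) (nat_lit 489) (nat_lit 5) (nat_lit 513) (nat_lit 5) (nat_lit 514) (nat_lit 5) (nat_lit 654) (nat_lit 638) (nat_lit 268))))) (XT.nd (nat_lit 156) (nat_lit 0) (nat_lit 76) (XT.nd (nat_lit 78) (nat_lit 0) (nat_lit 76) (XT.lf (nat_lit 76) (nat_lit 16029755475) (nat_lit 0) (nat_lit 19960661192) (nat_lit 1900) (nat_lit 13972282058) (nat_lit 490) (nat_lit 5) (nat_lit 489) (nat_lit 5) (nat_lit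 514) (nat_lit 5) (nat_lit 655) (nat_lit 638) (nat_lit 267)) (XT.lf (nat_lit 0) (nat_lit 39225075274) (nat_lit 1824) (nat_lit 7710302300) (nat_lit 1900) (nat_lit 3553965522) (nat_lit 490) (nat_lit 5) (nat_lit 514) (nat_lit 5) (nat_lit 515) (nat_lit 5) (nat_lit 656) (nat_lit 638) (nat_lit 266))) (XT.nd (nat_lit 78) (nat_lit 0) (nat_lit 76) (XT.lf (nat_lit 76) (nat_lit 19155274751) (nat_lit 0) (nat_lit 23625000338) (nat_lit 1900) (nat_lit 8241128328) (nat_lit 491) (nat_lit 5) (nat_lit 490) (nat_lit 5) (nat_lit 515) (nat_lit 5) (nat_lit 657) (nat_lit 638) (nat_lit 265)) (XT.nd (nat_lit 78) (nat_lit 0) (nat_lit 0) (XT.lf (nat_lit 0) (nat_lit 46458946761) (nat_lit 1824) (nat_lit 4902281617) (nat_lit 1900) (nat_lit 201829229) (nat_lit 491) (nat_lit 5) (nat_lit 515) (nat_lit 5) (nat_lit 516) (nat_lit 5) (nat_lit 658) (nat_lit 638) (nat_lit 264)) (XT.lf (nat_lit 76) (nat_lit 22742100029) (nat_lit 0) (nat_lit 27772520136) (nat_lit 1900) (nat_lit 1594856169) (nat_lit 492) (nat_lit 5) (nat_lit 491) (nat_lit 5) (nat_lit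 516) (nat_lit 5) (nat_lit 659) (nat_lit 638) (nat_lit 263)))))) (XT.nd (nat_lit 390) (nat_lit 912) (nat_lit 0) (XT.nd (nat_lit 156) (nat_lit 988) (nat_lit 0) (XT.nd (nat_lit 78) (nat_lit 0) (nat_lit 76) (XT.lf (nat_lit 0) (nat_lit 1990990111) (nat_lit 1900) (nat_lit 1674005111) (nat_lit 1976) (nat_lit 49000921837) (nat_lit 466) (nat_lit 5) (nat_lit 491) (nat_lit 5) (nat_lit 492) (nat_lit 5) (nat_lit 660) (nat_lit 638) (nat_lit 262)) (XT.lf (nat_lit 0) (nat_lit 5938387163) (nat_lit 1900) (nat_lit 26451757021) (nat_lit 1976) (nat_lit 20836907813) (nat_lit 467) (nat_lit 5) (nat_lit 492) (nat_lit 5) (nat_lit 493) (nat_lit 5) (nat_lit 661) (nat_lit 638) (nat_lit 261))) (XT.nd (nat_lit 78) (nat_lit 1064) (nat_lit 0) (XT.lf (nat_lit 76) (nat_lit 2018659964) (nat_lit 0) (nat_lit 7994101567) (nat_lit 1976) (nat_lit 43785687534) (nat_lit 468) (nat_lit 5) (nat_lit 467) (nat_lit 5) (nat_lit 493) (nat_lit 5) (nat_lit 662) (nat_lit 638) (nat_lit 260)) (XT.nd (nat_lit 78) (nat_lit 1140) (nat_lit 0) (XT.lf (nat_lit 0) (nat_lit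 14456317761) (nat_lit 1900) (nat_lit 23072080698) (nat_lit 76) (nat_lit 16847121747) (nat_lit 468) (nat_lit 5) (nat_lit 493) (nat_lit 5) (nat_lit 469) (nat_lit 5) (nat_lit 663) (nat_lit 638) (nat_lit 259)) (XT.lf (nat_lit 0) (nat_lit 6238098878) (nat_lit 1140) (nat_lit 12843455303) (nat_lit 1216) (nat_lit 35880722425) (nat_lit 453) (nat_lit 5) (nat_lit 468) (nat_lit 5) (nat_lit 469) (nat_lit 5) (nat_lit 664) (nat_lit 638) (nat_lit 258))))) (XT.nd (nat_lit 156) (nat_lit 0) (nat_lit 0) (XT.nd (nat_lit 78) (nat_lit 912) (nat_lit 0) (XT.lf (nat_lit 0) (nat_lit 24034610126) (nat_lit 1216) (nat_lit 19192120045) (nat_lit 76) (nat_lit 12329331684) (nat_lit 453) (nat_lit 5) (nat_lit 469) (nat_lit 5) (nat_lit 454) (nat_lit 5) (nat_lit 665) (nat_lit 638) (nat_lit 257)) (XT.lf (nat_lit 0) (nat_lit 10989092754) (nat_lit 912) (nat_lit 18253426596) (nat_lit 988) (nat_lit 26916087634) (nat_lit 441) (nat_lit 5) (nat_lit 453) (nat_lit 5) (nat_lit 454) (nat_lit 5) (nat_lit 666) (nat_lit 638) (nat_lit 256))) (XT.nd (nat_lit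 79014) (nat_lit 0) (nat_lit 3040) (XT.lf (nat_lit 0) (nat_lit 34730498126) (nat_lit 988) (nat_lit 14784831624) (nat_lit 76) (nat_lit 7254355056) (nat_lit 441) (nat_lit 5) (nat_lit 454) (nat_lit 5) (nat_lit 442) (nat_lit 5) (nat_lit 667) (nat_lit 638) (nat_lit 255)) (XT.nd (nat_lit 78) (nat_lit 0) (nat_lit 0) (XT.lf (nat_lit 0) (nat_lit 5137437369) (nat_lit 1900) (nat_lit 8148859807) (nat_lit 1900) (nat_lit 8148859807) (nat_lit 481) (nat_lit 3) (nat_lit 506) (nat_lit 3) (nat_lit 506) (nat_lit 5) (nat_lit 639) (nat_lit 639) (nat_lit 282)) (XT.lf (nat_lit 76) (nat_lit 5118313973) (nat_lit 0) (nat_lit 5328425618) (nat_lit 1900) (nat_lit 32850894109) (nat_lit 482) (nat_lit 5) (nat_lit 481) (nat_lit 3) (nat_lit 506) (nat_lit 5) (nat_lit 640) (nat_lit 639) (nat_lit 281))))))) (XT.nd (nat_lit 780) (nat_lit 1216) (nat_lit 0) (XT.nd (nat_lit 390) (nat_lit 0) (nat_lit 152) (XT.nd (nat_lit 156) (nat_lit 0) (nat_lit 76) (XT.nd (nat_lit 78) (nat_lit 0) (nat_lit 0) (XT.lf (nat_lit 0) (nat_lit 10837285032) (nat_lit 1824)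 (nat_lit 16655051185) (nat_lit 1900) (nat_lit 16236858772) (nat_lit 482) (nat_lit 5) (nat_lit 506) (nat_lit 5) (nat_lit 507) (nat_lit 5) (nat_lit 641) (nat_lit 639) (nat_lit 280)) (XT.lf (nat_lit 76) (nat_lit 5333871460) (nat_lit 0) (nat_lit 5970765548) (nat_lit 1900) (nat_lit 32863370611) (nat_lit 483) (nat_lit 5) (nat_lit 482) (nat_lit 5) (nat_lit 507) (nat_lit 5) (nat_lit 642) (nat_lit 639) (nat_lit 279))) (XT.nd (nat_lit 78) (nat_lit 0) (nat_lit 0) (XT.lf (nat_lit 0) (nat_lit 11996695705) (nat_lit 1824) (nat_lit 16730041961) (nat_lit 1900) (nat_lit 15884551669) (nat_lit 483) (nat_lit 5) (nat_lit 507) (nat_lit 5) (nat_lit 508) (nat_lit 5) (nat_lit 643) (nat_lit 639) (nat_lit 278)) (XT.nd (nat_lit 78) (nat_lit 0) (nat_lit 76) (XT.lf (nat_lit 76) (nat_lit 5852847940) (nat_lit 0) (nat_lit 6926402026) (nat_lit 1900) (nat_lit 32282653658) (nat_lit 484) (nat_lit 5) (nat_lit 483) (nat_lit 5) (nat_lit 508) (nat_lit 5) (nat_lit 644) (nat_lit 639) (nat_lit 277)) (XT.lf (nat_lit 0) (nat_lit 13788997361) (nat_lit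 1824) (nat_lit 16505777288) (nat_lit 1900) (nat_lit 15222524738) (nat_lit 484) (nat_lit 5) (nat_lit 508) (nat_lit 5) (nat_lit 509) (nat_lit 5) (nat_lit 645) (nat_lit 639) (nat_lit 276))))) (XT.nd (nat_lit 156) (nat_lit 0) (nat_lit 76) (XT.nd (nat_lit 78) (nat_lit 0) (nat_lit 76) (XT.lf (nat_lit 76) (nat_lit 6692963714) (nat_lit 0) (nat_lit 8214447319) (nat_lit 1900) (nat_lit 31072622628) (nat_lit 485) (nat_lit 5) (nat_lit 484) (nat_lit 5) (nat_lit 509) (nat_lit 5) (nat_lit 646) (nat_lit 639) (nat_lit 275)) (XT.lf (nat_lit 0) (nat_lit 16251744208) (nat_lit 1824) (nat_lit 15964542696) (nat_lit 1900) (nat_lit 14231664719) (nat_lit 485) (nat_lit 5) (nat_lit 509) (nat_lit 5) (nat_lit 510) (nat_lit 5) (nat_lit 647) (nat_lit 639) (nat_lit 274))) (XT.nd (nat_lit 78) (nat_lit 0) (nat_lit 76) (XT.lf (nat_lit 76) (nat_lit 7872770137) (nat_lit 0) (nat_lit 9854887464) (nat_lit 1900) (nat_lit 29195476497) (nat_lit 486) (nat_lit 5) (nat_lit 485) (nat_lit 5) (nat_lit 510) (nat_lit 5) (nat_lit 648) (nat_lit 639) (nat_lit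 273)) (XT.nd (nat_lit 78) (nat_lit 0) (nat_lit 0) (XT.lf (nat_lit 0) (nat_lit 19424226185) (nat_lit 1824) (nat_lit 15087790720) (nat_lit 1900) (nat_lit 12891980602) (nat_lit 486) (nat_lit 5) (nat_lit 510) (nat_lit 5) (nat_lit 511) (nat_lit 5) (nat_lit 649) (nat_lit 639) (nat_lit 272)) (XT.lf (nat_lit 76) (nat_lit 9411684025) (nat_lit 0) (nat_lit 11868621688) (nat_lit 1900) (nat_lit 26611660905) (nat_lit 487) (nat_lit 5) (nat_lit 486) (nat_lit 5) (nat_lit 511) (nat_lit 5) (nat_lit 650) (nat_lit 639) (nat_lit 271)))))) (XT.nd (nat_lit 390) (nat_lit 1596) (nat_lit 0) (XT.nd (nat_lit 156) (nat_lit 0) (nat_lit 76) (XT.nd (nat_lit 78) (nat_lit 0) (nat_lit 0) (XT.lf (nat_lit 0) (nat_lit 23347544026) (nat_lit 1824) (nat_lit 13856106341) (nat_lit 1900) (nat_lit 11182564023) (nat_lit 487) (nat_lit 5) (nat_lit 511) (nat_lit 5) (nat_lit 512) (nat_lit 5) (nat_lit 651) (nat_lit 639) (nat_lit 270)) (XT.lf (nat_lit 76) (nat_lit 11330023484) (nat_lit 0) (nat_lit 14277503411) (nat_lit 1900) (nat_lit 23279792250) (nat_lit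 488) (nat_lit 5) (nat_lit 487) (nat_lit 5) (nat_lit 512) (nat_lit 5) (nat_lit 652) (nat_lit 639) (nat_lit 269))) (XT.nd (nat_lit 78) (nat_lit 0) (nat_lit 0) (XT.lf (nat_lit 0) (nat_lit 28064687396) (nat_lit 1824) (nat_lit 12249170998) (nat_lit 1900) (nat_lit 9081548064) (nat_lit 488) (nat_lit 5) (nat_lit 512) (nat_lit 5) (nat_lit 513) (nat_lit 5) (nat_lit 653) (nat_lit 639) (nat_lit 268)) (XT.nd (nat_lit 78) (nat_lit 0) (nat_lit 76) (XT.lf (nat_lit 76) (nat_lit 13649045214) (nat_lit 0) (nat_lit 17104382910) (nat_lit 1900) (nat_lit 19156578674) (nat_lit 489) (nat_lit 5) (nat_lit 488) (nat_lit 5) (nat_lit 513) (nat_lit 5) (nat_lit 654) (nat_lit 639) (nat_lit 267)) (XT.lf (nat_lit 0) (nat_lit 33620616208) (nat_lit 1824) (nat_lit 10245725128) (nat_lit 1900) (nat_lit 6566064381) (nat_lit 489) (nat_lit 5) (nat_lit 513) (nat_lit 5) (nat_lit 514) (nat_lit 5) (nat_lit 655) (nat_lit 639) (nat_lit 266))))) (XT.nd (nat_lit 234) (nat_lit 1748) (nat_lit 0) (XT.nd (nat_lit 78) (nat_lit 0) (nat_lit 76) (XT.lf (nat_lit 76)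 (nat_lit 16390983339) (nat_lit 0) (nat_lit 20373151730) (nat_lit 1900) (nat_lit 14196737825) (nat_lit 490) (nat_lit 5) (nat_lit 489) (nat_lit 5) (nat_lit 514) (nat_lit 5) (nat_lit 656) (nat_lit 639) (nat_lit 265)) (XT.nd (nat_lit 78) (nat_lit 0) (nat_lit 0) (XT.lf (nat_lit 0) (nat_lit 40062345274) (nat_lit 1824) (nat_lit 7823529165) (nat_lit 1900) (nat_lit 3612198578) (nat_lit 490) (nat_lit 5) (nat_lit 514) (nat_lit 5) (nat_lit 515) (nat_lit 5) (nat_lit 657) (nat_lit 639) (nat_lit 264)) (XT.lf (nat_lit 76) (nat_lit 19579089827) (nat_lit 0) (nat_lit 24108788894) (nat_lit 1900) (nat_lit 8352911260) (nat_lit 491) (nat_lit 5) (nat_lit 490) (nat_lit 5) (nat_lit 515) (nat_lit 5) (nat_lit 658) (nat_lit 639) (nat_lit 263)))) (XT.nd (nat_lit 78) (nat_lit 1900) (nat_lit 0) (XT.lf (nat_lit 0) (nat_lit 47439032401) (nat_lit 1824) (nat_lit 4959322958) (nat_lit 1900) (nat_lit 194943756) (nat_lit 491) (nat_lit 5) (nat_lit 515) (nat_lit 5) (nat_lit 516) (nat_lit 5) (nat_lit 659) (nat_lit 639) (nat_lit 262)) (XT.nd (nat_lit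 78) (nat_lit 1900) (nat_lit 0) (XT.lf (nat_lit 76) (nat_lit 23237676556) (nat_lit 0) (nat_lit 28337409022) (nat_lit 1900) (nat_lit 1575575342) (nat_lit 492) (nat_lit 5) (nat_lit 491) (nat_lit 5) (nat_lit 516) (nat_lit 5) (nat_lit 660) (nat_lit 639) (nat_lit 261)) (XT.lf (nat_lit 0) (nat_lit 2080326327) (nat_lit 1900) (nat_lit 1666889932) (nat_lit 1976) (nat_lit 49971027389) (nat_lit 466) (nat_lit 5) (nat_lit 491) (nat_lit 5) (nat_lit 492) (nat_lit 5) (nat_lit 661) (nat_lit 639) (nat_lit 260))))))))
noncomputable def xc250 : XT := (XT.nd (nat_lit 80574) (nat_lit 0) (nat_lit 912) (XT.nd (nat_lit 79794) (nat_lit 0) (nat_lit 3192) (XT.nd (nat_lit 390) (nat_lit 912) (nat_lit 0) (XT.nd (nat_lit 156) (nat_lit 1064) (nat_lit 0) (XT.nd (nat_lit 78) (nat_lit 0) (nat_lit 0) (XT.lf (nat_lit 0) (nat_lit 6105907196) (nat_lit 1900) (nat_lit 26939431359) (nat_lit 1976) (nat_lit 21245278040) (nat_lit 467) (nat_lit 5) (nat_lit 492) (nat_lit 5) (nat_lit 493) (nat_lit 5) (nat_lit 662) (nat_lit 639) (nat_lit 259)) (XT.lf (nat_lit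 76) (nat_lit 2100121855) (nat_lit 0) (nat_lit 8160958044) (nat_lit 1976) (nat_lit 44612375516) (nat_lit 468) (nat_lit 5) (nat_lit 467) (nat_lit 5) (nat_lit 493) (nat_lit 5) (nat_lit 663) (nat_lit 639) (nat_lit 258))) (XT.nd (nat_lit 78) (nat_lit 1140) (nat_lit 0) (XT.lf (nat_lit 0) (nat_lit 14792520444) (nat_lit 1900) (nat_lit 23492251131) (nat_lit 76) (nat_lit 17177316167) (nat_lit 468) (nat_lit 5) (nat_lit 493) (nat_lit 5) (nat_lit 469) (nat_lit 5) (nat_lit 664) (nat_lit 639) (nat_lit 257)) (XT.nd (nat_lit 78) (nat_lit 0) (nat_lit 0) (XT.lf (nat_lit 0) (nat_lit 6403860517) (nat_lit 1140) (nat_lit 13105744208) (nat_lit 1216) (nat_lit 36550987709) (nat_lit 453) (nat_lit 5) (nat_lit 468) (nat_lit 5) (nat_lit 469) (nat_lit 5) (nat_lit 665) (nat_lit 639) (nat_lit 256)) (XT.lf (nat_lit 0) (nat_lit 24560777104) (nat_lit 1216) (nat_lit 19534820726) (nat_lit 76) (nat_lit 12570674477) (nat_lit 453) (nat_lit 5) (nat_lit 469) (nat_lit 5) (nat_lit 454) (nat_lit 5) (nat_lit 666) (nat_lit 639) (nat_lit 255))))) (XT.nd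 (nat_lit 79170) (nat_lit 0) (nat_lit 3040) (XT.nd (nat_lit 79092) (nat_lit 0) (nat_lit 3040) (XT.lf (nat_lit 0) (nat_lit 11249745660) (nat_lit 912) (nat_lit 18622472553) (nat_lit 988) (nat_lit 27408662678) (nat_lit 441) (nat_lit 5) (nat_lit 453) (nat_lit 5) (nat_lit 454) (nat_lit 5) (nat_lit 667) (nat_lit 639) (nat_lit 254)) (XT.lf (nat_lit 0) (nat_lit 5275837746) (nat_lit 1900) (nat_lit 8293654133) (nat_lit 1900) (nat_lit 8293654133) (nat_lit 481) (nat_lit 3) (nat_lit 506) (nat_lit 3) (nat_lit 506) (nat_lit 5) (nat_lit 640) (nat_lit 640) (nat_lit 280))) (XT.nd (nat_lit 78) (nat_lit 0) (nat_lit 76) (XT.lf (nat_lit 76) (nat_lit 5256806745) (nat_lit 0) (nat_lit 5469007350) (nat_lit 1900) (nat_lit 33436367369) (nat_lit 482) (nat_lit 5) (nat_lit 481) (nat_lit 3) (nat_lit 506) (nat_lit 5) (nat_lit 641) (nat_lit 640) (nat_lit 279)) (XT.nd (nat_lit 78) (nat_lit 0) (nat_lit 0) (XT.lf (nat_lit 0) (nat_lit 11122578650) (nat_lit 1824) (nat_lit 16951140211) (nat_lit 1900) (nat_lit 16528686996) (nat_lit 482) (nat_lit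 5) (nat_lit 506) (nat_lit 5) (nat_lit 507) (nat_lit 5) (nat_lit 642) (nat_lit 640) (nat_lit 278)) (XT.lf (nat_lit 76) (nat_lit 5477317388) (nat_lit 0) (nat_lit 6120854926) (nat_lit 1900) (nat_lit 33451844573) (nat_lit 483) (nat_lit 5) (nat_lit 482) (nat_lit 5) (nat_lit 507) (nat_lit 5) (nat_lit 643) (nat_lit 640) (nat_lit 277)))))) (XT.nd (nat_lit 390) (nat_lit 0) (nat_lit 152) (XT.nd (nat_lit 156) (nat_lit 0) (nat_lit 76) (XT.nd (nat_lit 78) (nat_lit 0) (nat_lit 0) (XT.lf (nat_lit 0) (nat_lit 12302554530) (nat_lit 1824) (nat_lit 17027075605) (nat_lit 1900) (nat_lit 16172564495) (nat_lit 483) (nat_lit 5) (nat_lit 507) (nat_lit 5) (nat_lit 508) (nat_lit 5) (nat_lit 644) (nat_lit 640) (nat_lit 276)) (XT.lf (nat_lit 76) (nat_lit 6007224942) (nat_lit 0) (nat_lit 7092484596) (nat_lit 1900) (nat_lit 32862132713) (nat_lit 484) (nat_lit 5) (nat_lit 483) (nat_lit 5) (nat_lit 508) (nat_lit 5) (nat_lit 645) (nat_lit 640) (nat_lit 275))) (XT.nd (nat_lit 78) (nat_lit 0) (nat_lit 0) (XT.lf (nat_lit 0) (nat_lit 14128204436)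 (nat_lit 1824) (nat_lit 16797855195) (nat_lit 1900) (nat_lit 15500315285) (nat_lit 484) (nat_lit 5) (nat_lit 508) (nat_lit 5) (nat_lit 509) (nat_lit 5) (nat_lit 646) (nat_lit 640) (nat_lit 274)) (XT.nd (nat_lit 78) (nat_lit 0) (nat_lit 76) (XT.lf (nat_lit 76) (nat_lit 6864610379) (nat_lit 0) (nat_lit 8403377674) (nat_lit 1900) (nat_lit 31630395827) (nat_lit 485) (nat_lit 5) (nat_lit 484) (nat_lit 5) (nat_lit 509) (nat_lit 5) (nat_lit 647) (nat_lit 640) (nat_lit 273)) (XT.lf (nat_lit 0) (nat_lit 16637826946) (nat_lit 1824) (nat_lit 16245404301) (nat_lit 1900) (nat_lit 14492456610) (nat_lit 485) (nat_lit 5) (nat_lit 509) (nat_lit 5) (nat_lit 510) (nat_lit 5) (nat_lit 648) (nat_lit 640) (nat_lit 272))))) (XT.nd (nat_lit 156) (nat_lit 0) (nat_lit 76) (XT.nd (nat_lit 78) (nat_lit 0) (nat_lit 76) (XT.lf (nat_lit 76) (nat_lit 8068401964) (nat_lit 0) (nat_lit 10073907493) (nat_lit 1900) (nat_lit 29718083543) (nat_lit 486) (nat_lit 5) (nat_lit 485) (nat_lit 5) (nat_lit 510) (nat_lit 5) (nat_lit 649) (nat_lit 640)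 (nat_lit 271)) (XT.lf (nat_lit 0) (nat_lit 19871491464) (nat_lit 1824) (nat_lit 15350798948) (nat_lit 1900) (nat_lit 13128609661) (nat_lit 486) (nat_lit 5) (nat_lit 510) (nat_lit 5) (nat_lit 511) (nat_lit 5) (nat_lit 650) (nat_lit 640) (nat_lit 270))) (XT.nd (nat_lit 78) (nat_lit 0) (nat_lit 76) (XT.lf (nat_lit 76) (nat_lit 9638410373) (nat_lit 0) (nat_lit 12125379565) (nat_lit 1900) (nat_lit 27084856715) (nat_lit 487) (nat_lit 5) (nat_lit 486) (nat_lit 5) (nat_lit 511) (nat_lit 5) (nat_lit 651) (nat_lit 640) (nat_lit 269)) (XT.nd (nat_lit 78) (nat_lit 0) (nat_lit 0) (XT.lf (nat_lit 0) (nat_lit 23871114758) (nat_lit 1824) (nat_lit 14094230597) (nat_lit 1900) (nat_lit 11387459225) (nat_lit 487) (nat_lit 5) (nat_lit 511) (nat_lit 5) (nat_lit 512) (nat_lit 5) (nat_lit 652) (nat_lit 640) (nat_lit 268)) (XT.lf (nat_lit 76) (nat_lit 11595365261) (nat_lit 0) (nat_lit 14580073364) (nat_lit 1900) (nat_lit 23688510011) (nat_lit 488) (nat_lit 5) (nat_lit 487) (nat_lit 5) (nat_lit 512) (nat_lit 5) (nat_lit 653) (nat_lit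 640) (nat_lit 267))))))) (XT.nd (nat_lit 780) (nat_lit 988) (nat_lit 0) (XT.nd (nat_lit 390) (nat_lit 1672) (nat_lit 0) (XT.nd (nat_lit 156) (nat_lit 0) (nat_lit 76) (XT.nd (nat_lit 78) (nat_lit 0) (nat_lit 0) (XT.lf (nat_lit 0) (nat_lit 28680540641) (nat_lit 1824) (nat_lit 12454969416) (nat_lit 1900) (nat_lit 9246711705) (nat_lit 488) (nat_lit 5) (nat_lit 512) (nat_lit 5) (nat_lit 513) (nat_lit 5) (nat_lit 654) (nat_lit 640) (nat_lit 266)) (XT.lf (nat_lit 76) (nat_lit 13960953325) (nat_lit 0) (nat_lit 17461285806) (nat_lit 1900) (nat_lit 19484891351) (nat_lit 489) (nat_lit 5) (nat_lit 488) (nat_lit 5) (nat_lit 513) (nat_lit 5) (nat_lit 655) (nat_lit 640) (nat_lit 265))) (XT.nd (nat_lit 78) (nat_lit 0) (nat_lit 0) (XT.lf (nat_lit 0) (nat_lit 34345622899) (nat_lit 1824) (nat_lit 10411326052) (nat_lit 1900) (nat_lit 6683051420) (nat_lit 489) (nat_lit 5) (nat_lit 513) (nat_lit 5) (nat_lit 514) (nat_lit 5) (nat_lit 656) (nat_lit 640) (nat_lit 264)) (XT.nd (nat_lit 78) (nat_lit 0) (nat_lit 76) (XT.lf (nat_lit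 76) (nat_lit 16757857942) (nat_lit 0) (nat_lit 20793376504) (nat_lit 1900) (nat_lit 14427818032) (nat_lit 490) (nat_lit 5) (nat_lit 489) (nat_lit 5) (nat_lit 514) (nat_lit 5) (nat_lit 657) (nat_lit 640) (nat_lit 263)) (XT.lf (nat_lit 0) (nat_lit 40914311608) (nat_lit 1824) (nat_lit 7940611839) (nat_lit 1900) (nat_lit 3672095131) (nat_lit 490) (nat_lit 5) (nat_lit 514) (nat_lit 5) (nat_lit 515) (nat_lit 5) (nat_lit 658) (nat_lit 640) (nat_lit 262))))) (XT.nd (nat_lit 156) (nat_lit 1824) (nat_lit 0) (XT.nd (nat_lit 78) (nat_lit 0) (nat_lit 76) (XT.lf (nat_lit 76) (nat_lit 20009800403) (nat_lit 0) (nat_lit 24601814874) (nat_lit 1900) (nat_lit 8468989443) (nat_lit 491) (nat_lit 5) (nat_lit 490) (nat_lit 5) (nat_lit 515) (nat_lit 5) (nat_lit 659) (nat_lit 640) (nat_lit 261)) (XT.lf (nat_lit 0) (nat_lit 48436742984) (nat_lit 1824) (nat_lit 5019097371) (nat_lit 1900) (nat_lit 188344690) (nat_lit 491) (nat_lit 5) (nat_lit 515) (nat_lit 5) (nat_lit 516) (nat_lit 5) (nat_lit 660) (nat_lit 640) (nat_lit 260))) (XT.nd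 (nat_lit 78) (nat_lit 1900) (nat_lit 0) (XT.lf (nat_lit 76) (nat_lit 23741582843) (nat_lit 0) (nat_lit 28913229177) (nat_lit 1900) (nat_lit 1557896200) (nat_lit 492) (nat_lit 5) (nat_lit 491) (nat_lit 5) (nat_lit 516) (nat_lit 5) (nat_lit 661) (nat_lit 640) (nat_lit 259)) (XT.nd (nat_lit 78) (nat_lit 0) (nat_lit 76) (XT.lf (nat_lit 0) (nat_lit 2169526486) (nat_lit 1900) (nat_lit 1661208813) (nat_lit 1976) (nat_lit 50960919981) (nat_lit 466) (nat_lit 5) (nat_lit 491) (nat_lit 5) (nat_lit 492) (nat_lit 5) (nat_lit 662) (nat_lit 640) (nat_lit 258)) (XT.lf (nat_lit 0) (nat_lit 6274884519) (nat_lit 1900) (nat_lit 27438465275) (nat_lit 1976) (nat_lit 21662140608) (nat_lit 467) (nat_lit 5) (nat_lit 492) (nat_lit 5) (nat_lit 493) (nat_lit 5) (nat_lit 663) (nat_lit 640) (nat_lit 257)))))) (XT.nd (nat_lit 79560) (nat_lit 0) (nat_lit 2204) (XT.nd (nat_lit 156) (nat_lit 1064) (nat_lit 0) (XT.nd (nat_lit 78) (nat_lit 0) (nat_lit 76) (XT.lf (nat_lit 76) (nat_lit 2181617459) (nat_lit 0) (nat_lit 8330880825) (nat_lit 1976)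 (nat_lit 45457500988) (nat_lit 468) (nat_lit 5) (nat_lit 467) (nat_lit 5) (nat_lit 493) (nat_lit 5) (nat_lit 664) (nat_lit 640) (nat_lit 256)) (XT.lf (nat_lit 0) (nat_lit 15133619150) (nat_lit 1900) (nat_lit 23922427582) (nat_lit 76) (nat_lit 17514376509) (nat_lit 468) (nat_lit 5) (nat_lit 493) (nat_lit 5) (nat_lit 469) (nat_lit 5) (nat_lit 665) (nat_lit 640) (nat_lit 255))) (XT.nd (nat_lit 79248) (nat_lit 0) (nat_lit 2128) (XT.lf (nat_lit 0) (nat_lit 6571345321) (nat_lit 1140) (nat_lit 13373068434) (nat_lit 1216) (nat_lit 37236496924) (nat_lit 453) (nat_lit 5) (nat_lit 468) (nat_lit 5) (nat_lit 469) (nat_lit 5) (nat_lit 666) (nat_lit 640) (nat_lit 254)) (XT.nd (nat_lit 78) (nat_lit 0) (nat_lit 0) (XT.lf (nat_lit 0) (nat_lit 5415621734) (nat_lit 1900) (nat_lit 8442050408) (nat_lit 1900) (nat_lit 8442050408) (nat_lit 481) (nat_lit 3) (nat_lit 506) (nat_lit 3) (nat_lit 506) (nat_lit 5) (nat_lit 641) (nat_lit 641) (nat_lit 278)) (XT.lf (nat_lit 76) (nat_lit 5396666536) (nat_lit 0) (nat_lit 5611079942) (nat_lit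 1900) (nat_lit 34036328260) (nat_lit 482) (nat_lit 5) (nat_lit 481) (nat_lit 3) (nat_lit 506) (nat_lit 5) (nat_lit 642) (nat_lit 641) (nat_lit 277))))) (XT.nd (nat_lit 234) (nat_lit 0) (nat_lit 76) (XT.nd (nat_lit 78) (nat_lit 0) (nat_lit 0) (XT.lf (nat_lit 0) (nat_lit 11410916341) (nat_lit 1824) (nat_lit 17254588237) (nat_lit 1900) (nat_lit 16827629679) (nat_lit 482) (nat_lit 5) (nat_lit 506) (nat_lit 5) (nat_lit 507) (nat_lit 5) (nat_lit 643) (nat_lit 641) (nat_lit 276)) (XT.nd (nat_lit 78) (nat_lit 0) (nat_lit 76) (XT.lf (nat_lit 76) (nat_lit 5622204468) (nat_lit 0) (nat_lit 6272754981) (nat_lit 1900) (nat_lit 34054759347) (nat_lit 483) (nat_lit 5) (nat_lit 482) (nat_lit 5) (nat_lit 507) (nat_lit 5) (nat_lit 644) (nat_lit 641) (nat_lit 275)) (XT.lf (nat_lit 0) (nat_lit 12611970588) (nat_lit 1824) (nat_lit 17331508702) (nat_lit 1900) (nat_lit 16467490018) (nat_lit 483) (nat_lit 5) (nat_lit 507) (nat_lit 5) (nat_lit 508) (nat_lit 5) (nat_lit 645) (nat_lit 641) (nat_lit 274)))) (XT.nd (nat_lit 78) (nat_lit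 0) (nat_lit 76) (XT.lf (nat_lit 76) (nat_lit 6163240301) (nat_lit 0) (nat_lit 7260818842) (nat_lit 1900) (nat_lit 33455770967) (nat_lit 484) (nat_lit 5) (nat_lit 483) (nat_lit 5) (nat_lit 508) (nat_lit 5) (nat_lit 646) (nat_lit 641) (nat_lit 273)) (XT.nd (nat_lit 78) (nat_lit 0) (nat_lit 0) (XT.lf (nat_lit 0) (nat_lit 14471732699) (nat_lit 1824) (nat_lit 17097251709) (nat_lit 1900) (nat_lit 15784696881) (nat_lit 484) (nat_lit 5) (nat_lit 508) (nat_lit 5) (nat_lit 509) (nat_lit 5) (nat_lit 647) (nat_lit 641) (nat_lit 272)) (XT.lf (nat_lit 76) (nat_lit 7038222647) (nat_lit 0) (nat_lit 8595129780) (nat_lit 1900) (nat_lit 32201797233) (nat_lit 485) (nat_lit 5) (nat_lit 484) (nat_lit 5) (nat_lit 509) (nat_lit 5) (nat_lit 648) (nat_lit 641) (nat_lit 271))))))))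
noncomputable def xc251 : XT := (XT.nd (nat_lit 80808) (nat_lit 0) (nat_lit 0) (XT.nd (nat_lit 780) (nat_lit 1444) (nat_lit 0) (XT.nd (nat_lit 390) (nat_lit 0) (nat_lit 152) (XT.nd (nat_lit 156) (nat_lit 0) (nat_lit 76) (XT.nd (nat_lit 78) (nat_lit 0) (nat_lit 0) (XT.lf (nat_lit 0) (nat_lit 17029260776) (nat_lit 1824) (nat_lit 16533375393) (nat_lit 1900) (nat_lit 14759390129) (nat_lit 485) (nat_lit 5) (nat_lit 509) (nat_lit 5) (nat_lit 510) (nat_lit 5) (nat_lit 649) (nat_lit 641) (nat_lit 270)) (XT.lf (nat_lit 76) (nat_lit 8266463991) (nat_lit 0) (nat_lit 10296456653) (nat_lit 1900) (nat_lit 30253523181) (nat_lit 486) (nat_lit 5) (nat_lit 485) (nat_lit 5) (nat_lit 510) (nat_lit 5) (nat_lit 650) (nat_lit 641) (nat_lit 269))) (XT.nd (nat_lit 78) (nat_lit 0) (nat_lit 0) (XT.lf (nat_lit 0) (nat_lit 20325419519) (nat_lit 1824) (nat_lit 15620571957) (nat_lit 1900) (nat_lit 13370794932) (nat_lit 486) (nat_lit 5) (nat_lit 510) (nat_lit 5) (nat_lit 511) (nat_lit 5) (nat_lit 651) (nat_lit 641) (nat_lit 268)) (XT.nd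 (nat_lit 78) (nat_lit 0) (nat_lit 76) (XT.lf (nat_lit 76) (nat_lit 9868176532) (nat_lit 0) (nat_lit 12386519839) (nat_lit 1900) (nat_lit 27569808935) (nat_lit 487) (nat_lit 5) (nat_lit 486) (nat_lit 5) (nat_lit 511) (nat_lit 5) (nat_lit 652) (nat_lit 641) (nat_lit 267)) (XT.lf (nat_lit 0) (nat_lit 24402958286) (nat_lit 1824) (nat_lit 14338631672) (nat_lit 1900) (nat_lit 11597180654) (nat_lit 487) (nat_lit 5) (nat_lit 511) (nat_lit 5) (nat_lit 512) (nat_lit 5) (nat_lit 653) (nat_lit 641) (nat_lit 266))))) (XT.nd (nat_lit 156) (nat_lit 0) (nat_lit 76) (XT.nd (nat_lit 78) (nat_lit 0) (nat_lit 76) (XT.lf (nat_lit 76) (nat_lit 11864509500) (nat_lit 0) (nat_lit 14888033814) (nat_lit 1900) (nat_lit 24107610773) (nat_lit 488) (nat_lit 5) (nat_lit 487) (nat_lit 5) (nat_lit 512) (nat_lit 5) (nat_lit 654) (nat_lit 641) (nat_lit 265)) (XT.lf (nat_lit 0) (nat_lit 29306592340) (nat_lit 1824) (nat_lit 12666405402) (nat_lit 1900) (nat_lit 9415818065) (nat_lit 488) (nat_lit 5) (nat_lit 512) (nat_lit 5) (nat_lit 513) (nat_lit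 5) (nat_lit 655) (nat_lit 641) (nat_lit 264))) (XT.nd (nat_lit 78) (nat_lit 0) (nat_lit 76) (XT.lf (nat_lit 76) (nat_lit 14277588008) (nat_lit 0) (nat_lit 17824751466) (nat_lit 1900) (nat_lit 19821898966) (nat_lit 489) (nat_lit 5) (nat_lit 488) (nat_lit 5) (nat_lit 513) (nat_lit 5) (nat_lit 656) (nat_lit 641) (nat_lit 263)) (XT.nd (nat_lit 78) (nat_lit 0) (nat_lit 0) (XT.lf (nat_lit 0) (nat_lit 35083087421) (nat_lit 1824) (nat_lit 10581765590) (nat_lit 1900) (nat_lit 6802934817) (nat_lit 489) (nat_lit 5) (nat_lit 513) (nat_lit 5) (nat_lit 514) (nat_lit 5) (nat_lit 657) (nat_lit 641) (nat_lit 262)) (XT.lf (nat_lit 76) (nat_lit 17130553486) (nat_lit 0) (nat_lit 21221510220) (nat_lit 1900) (nat_lit 14665572249) (nat_lit 490) (nat_lit 5) (nat_lit 489) (nat_lit 5) (nat_lit 514) (nat_lit 5) (nat_lit 658) (nat_lit 641) (nat_lit 261)))))) (XT.nd (nat_lit 390) (nat_lit 0) (nat_lit 76) (XT.nd (nat_lit 156) (nat_lit 1824) (nat_lit 0) (XT.nd (nat_lit 78) (nat_lit 0) (nat_lit 0) (XT.lf (nat_lit 0) (nat_lit 41781347773)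 (nat_lit 1824) (nat_lit 8061565646) (nat_lit 1900) (nat_lit 3733669080) (nat_lit 490) (nat_lit 5) (nat_lit 514) (nat_lit 5) (nat_lit 515) (nat_lit 5) (nat_lit 659) (nat_lit 641) (nat_lit 260)) (XT.lf (nat_lit 76) (nat_lit 20447605771) (nat_lit 0) (nat_lit 25104280047) (nat_lit 1900) (nat_lit 8589368808) (nat_lit 491) (nat_lit 5) (nat_lit 490) (nat_lit 5) (nat_lit 515) (nat_lit 5) (nat_lit 660) (nat_lit 641) (nat_lit 259))) (XT.nd (nat_lit 78) (nat_lit 1900) (nat_lit 0) (XT.lf (nat_lit 0) (nat_lit 49452507769) (nat_lit 1824) (nat_lit 5081597691) (nat_lit 1900) (nat_lit 182021291) (nat_lit 491) (nat_lit 5) (nat_lit 515) (nat_lit 5) (nat_lit 516) (nat_lit 5) (nat_lit 661) (nat_lit 641) (nat_lit 258)) (XT.nd (nat_lit 78) (nat_lit 1900) (nat_lit 0) (XT.lf (nat_lit 76) (nat_lit 24254046906) (nat_lit 0) (nat_lit 29500213459) (nat_lit 1900) (nat_lit 1541773609) (nat_lit 492) (nat_lit 5) (nat_lit 491) (nat_lit 5) (nat_lit 516) (nat_lit 5) (nat_lit 662) (nat_lit 641) (nat_lit 257)) (XT.lf (nat_lit 0) (nat_lit 2258662528)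 (nat_lit 1900) (nat_lit 1656929224) (nat_lit 1976) (nat_lit 51970980407) (nat_lit 466) (nat_lit 5) (nat_lit 491) (nat_lit 5) (nat_lit 492) (nat_lit 5) (nat_lit 663) (nat_lit 641) (nat_lit 256))))) (XT.nd (nat_lit 156) (nat_lit 0) (nat_lit 76) (XT.nd (nat_lit 78) (nat_lit 0) (nat_lit 0) (XT.lf (nat_lit 0) (nat_lit 6445421789) (nat_lit 1900) (nat_lit 27949023593) (nat_lit 1976) (nat_lit 22087652748) (nat_lit 467) (nat_lit 5) (nat_lit 492) (nat_lit 5) (nat_lit 493) (nat_lit 5) (nat_lit 664) (nat_lit 641) (nat_lit 255)) (XT.lf (nat_lit 76) (nat_lit 2263209408) (nat_lit 0) (nat_lit 8503941752) (nat_lit 1976) (nat_lit 46321358776) (nat_lit 468) (nat_lit 5) (nat_lit 467) (nat_lit 5) (nat_lit 493) (nat_lit 5) (nat_lit 665) (nat_lit 641) (nat_lit 254))) (XT.nd (nat_lit 79326) (nat_lit 0) (nat_lit 988) (XT.lf (nat_lit 0) (nat_lit 15479782783) (nat_lit 1900) (nat_lit 24362747941) (nat_lit 76) (nat_lit 17858429917) (nat_lit 468) (nat_lit 5) (nat_lit 493) (nat_lit 5) (nat_lit 469) (nat_lit 5) (nat_lit 666) (nat_lit 641)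 (nat_lit 253)) (XT.nd (nat_lit 78) (nat_lit 0) (nat_lit 0) (XT.lf (nat_lit 0) (nat_lit 5556870763) (nat_lit 1900) (nat_lit 8594093255) (nat_lit 1900) (nat_lit 8594093255) (nat_lit 481) (nat_lit 3) (nat_lit 506) (nat_lit 3) (nat_lit 506) (nat_lit 5) (nat_lit 642) (nat_lit 642) (nat_lit 276)) (XT.lf (nat_lit 76) (nat_lit 5537975162) (nat_lit 0) (nat_lit 5754724499) (nat_lit 1900) (nat_lit 34650958653) (nat_lit 482) (nat_lit 5) (nat_lit 481) (nat_lit 3) (nat_lit 506) (nat_lit 5) (nat_lit 643) (nat_lit 642) (nat_lit 275))))))) (XT.nd (nat_lit 780) (nat_lit 1216) (nat_lit 0) (XT.nd (nat_lit 390) (nat_lit 0) (nat_lit 152) (XT.nd (nat_lit 156) (nat_lit 0) (nat_lit 76) (XT.nd (nat_lit 78) (nat_lit 0) (nat_lit 0) (XT.lf (nat_lit 0) (nat_lit 11702462348) (nat_lit 1824) (nat_lit 17565486637) (nat_lit 1900) (nat_lit 17133779488) (nat_lit 482) (nat_lit 5) (nat_lit 506) (nat_lit 5) (nat_lit 507) (nat_lit 5) (nat_lit 644) (nat_lit 642) (nat_lit 274)) (XT.lf (nat_lit 76) (nat_lit 5768616966) (nat_lit 0) (nat_lit 6426548178)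 (nat_lit 1900) (nat_lit 34672300019) (nat_lit 483) (nat_lit 5) (nat_lit 482) (nat_lit 5) (nat_lit 507) (nat_lit 5) (nat_lit 645) (nat_lit 642) (nat_lit 273))) (XT.nd (nat_lit 78) (nat_lit 0) (nat_lit 0) (XT.lf (nat_lit 0) (nat_lit 12925114427) (nat_lit 1824) (nat_lit 17643432594) (nat_lit 1900) (nat_lit 16769421742) (nat_lit 483) (nat_lit 5) (nat_lit 507) (nat_lit 5) (nat_lit 508) (nat_lit 5) (nat_lit 646) (nat_lit 642) (nat_lit 272)) (XT.nd (nat_lit 78) (nat_lit 0) (nat_lit 76) (XT.lf (nat_lit 76) (nat_lit 6320983058) (nat_lit 0) (nat_lit 7431491345) (nat_lit 1900) (nat_lit 34063751822) (nat_lit 484) (nat_lit 5) (nat_lit 483) (nat_lit 5) (nat_lit 508) (nat_lit 5) (nat_lit 647) (nat_lit 642) (nat_lit 271)) (XT.lf (nat_lit 0) (nat_lit 14819764215) (nat_lit 1824) (nat_lit 17404055845) (nat_lit 1900) (nat_lit 16075761147) (nat_lit 484) (nat_lit 5) (nat_lit 508) (nat_lit 5) (nat_lit 509) (nat_lit 5) (nat_lit 648) (nat_lit 642) (nat_lit 270))))) (XT.nd (nat_lit 156) (nat_lit 0) (nat_lit 76) (XT.nd (nat_lit 78)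 (nat_lit 0) (nat_lit 76) (XT.lf (nat_lit 76) (nat_lit 7213896808) (nat_lit 0) (nat_lit 8789797228) (nat_lit 1900) (nat_lit 32787003390) (nat_lit 485) (nat_lit 5) (nat_lit 484) (nat_lit 5) (nat_lit 509) (nat_lit 5) (nat_lit 649) (nat_lit 642) (nat_lit 269)) (XT.lf (nat_lit 0) (nat_lit 17426244773) (nat_lit 1824) (nat_lit 16828540215) (nat_lit 1900) (nat_lit 15032552159) (nat_lit 485) (nat_lit 5) (nat_lit 509) (nat_lit 5) (nat_lit 510) (nat_lit 5) (nat_lit 650) (nat_lit 642) (nat_lit 268))) (XT.nd (nat_lit 78) (nat_lit 0) (nat_lit 76) (XT.lf (nat_lit 76) (nat_lit 8467062386) (nat_lit 0) (nat_lit 10522638583) (nat_lit 1900) (nat_lit 30801959625) (nat_lit 486) (nat_lit 5) (nat_lit 485) (nat_lit 5) (nat_lit 510) (nat_lit 5) (nat_lit 651) (nat_lit 642) (nat_lit 267)) (XT.nd (nat_lit 78) (nat_lit 0) (nat_lit 0) (XT.lf (nat_lit 0) (nat_lit 20786232241) (nat_lit 1824) (nat_lit 15897186616) (nat_lit 1900) (nat_lit 13618615558) (nat_lit 486) (nat_lit 5) (nat_lit 510) (nat_lit 5) (nat_lit 511) (nat_lit 5) (nat_lit 652)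 (nat_lit 642) (nat_lit 266)) (XT.lf (nat_lit 76) (nat_lit 10101101338) (nat_lit 0) (nat_lit 12652159388) (nat_lit 1900) (nat_lit 28066663674) (nat_lit 487) (nat_lit 5) (nat_lit 486) (nat_lit 5) (nat_lit 511) (nat_lit 5) (nat_lit 653) (nat_lit 642) (nat_lit 265)))))) (XT.nd (nat_lit 390) (nat_lit 1596) (nat_lit 0) (XT.nd (nat_lit 156) (nat_lit 0) (nat_lit 76) (XT.nd (nat_lit 78) (nat_lit 0) (nat_lit 0) (XT.lf (nat_lit 0) (nat_lit 24943325441) (nat_lit 1824) (nat_lit 14589376300) (nat_lit 1900) (nat_lit 11811796550) (nat_lit 487) (nat_lit 5) (nat_lit 511) (nat_lit 5) (nat_lit 512) (nat_lit 5) (nat_lit 654) (nat_lit 642) (nat_lit 264)) (XT.lf (nat_lit 76) (nat_lit 12137590669) (nat_lit 0) (nat_lit 15201518233) (nat_lit 1900) (nat_lit 24537216431) (nat_lit 488) (nat_lit 5) (nat_lit 487) (nat_lit 5) (nat_lit 512) (nat_lit 5) (nat_lit 655) (nat_lit 642) (nat_lit 263))) (XT.nd (nat_lit 78) (nat_lit 0) (nat_lit 0) (XT.lf (nat_lit 0) (nat_lit 29943128729) (nat_lit 1824) (nat_lit 12883532625) (nat_lit 1900) (nat_lit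 9588921168) (nat_lit 488) (nat_lit 5) (nat_lit 512) (nat_lit 5) (nat_lit 513) (nat_lit 5) (nat_lit 656) (nat_lit 642) (nat_lit 262)) (XT.nd (nat_lit 78) (nat_lit 0) (nat_lit 76) (XT.lf (nat_lit 76) (nat_lit 14599102490) (nat_lit 0) (nat_lit 18194933486) (nat_lit 1900) (nat_lit 20167692758) (nat_lit 489) (nat_lit 5) (nat_lit 488) (nat_lit 5) (nat_lit 513) (nat_lit 5) (nat_lit 657) (nat_lit 642) (nat_lit 261)) (XT.lf (nat_lit 0) (nat_lit 35833338235) (nat_lit 1824) (nat_lit 10757081233) (nat_lit 1900) (nat_lit 6925750883) (nat_lit 489) (nat_lit 5) (nat_lit 513) (nat_lit 5) (nat_lit 514) (nat_lit 5) (nat_lit 658) (nat_lit 642) (nat_lit 260))))) (XT.nd (nat_lit 234) (nat_lit 1748) (nat_lit 0) (XT.nd (nat_lit 78) (nat_lit 0) (nat_lit 76) (XT.lf (nat_lit 76) (nat_lit 17509245279) (nat_lit 0) (nat_lit 21657730299) (nat_lit 1900) (nat_lit 14910054260) (nat_lit 490) (nat_lit 5) (nat_lit 489) (nat_lit 5) (nat_lit 514) (nat_lit 5) (nat_lit 659) (nat_lit 642) (nat_lit 259)) (XT.nd (nat_lit 78) (nat_lit 0) (nat_lit 0)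 (XT.lf (nat_lit 0) (nat_lit 42663831641) (nat_lit 1824) (nat_lit 8186408619) (nat_lit 1900) (nat_lit 3796935355) (nat_lit 490) (nat_lit 5) (nat_lit 514) (nat_lit 5) (nat_lit 515) (nat_lit 5) (nat_lit 660) (nat_lit 642) (nat_lit 258)) (XT.lf (nat_lit 76) (nat_lit 20892706830) (nat_lit 0) (nat_lit 25616389557) (nat_lit 1900) (nat_lit 8714058506) (nat_lit 491) (nat_lit 5) (nat_lit 490) (nat_lit 5) (nat_lit 515) (nat_lit 5) (nat_lit 661) (nat_lit 642) (nat_lit 257)))) (XT.nd (nat_lit 78) (nat_lit 1900) (nat_lit 0) (XT.lf (nat_lit 0) (nat_lit 50486761622) (nat_lit 1824) (nat_lit 5146819007) (nat_lit 1900) (nat_lit 175963243) (nat_lit 491) (nat_lit 5) (nat_lit 515) (nat_lit 5) (nat_lit 516) (nat_lit 5) (nat_lit 662) (nat_lit 642) (nat_lit 256)) (XT.nd (nat_lit 78) (nat_lit 1900) (nat_lit 0) (XT.lf (nat_lit 76) (nat_lit 24775298939) (nat_lit 0) (nat_lit 30098598831) (nat_lit 1900) (nat_lit 1527164525) (nat_lit 492) (nat_lit 5) (nat_lit 491) (nat_lit 5) (nat_lit 516) (nat_lit 5) (nat_lit 663) (nat_lit 642) (nat_lit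 255)) (XT.lf (nat_lit 0) (nat_lit 2347804938) (nat_lit 1900) (nat_lit 1654020361) (nat_lit 1976) (nat_lit 53001597657) (nat_lit 466) (nat_lit 5) (nat_lit 491) (nat_lit 5) (nat_lit 492) (nat_lit 5) (nat_lit 664) (nat_lit 642) (nat_lit 254))))))))
noncomputable def xc252 : XT := (XT.nd (nat_lit 80964) (nat_lit 76) (nat_lit 0) (XT.nd (nat_lit 80184) (nat_lit 0) (nat_lit 1368) (XT.nd (nat_lit 79794) (nat_lit 0) (nat_lit 1216) (XT.nd (nat_lit 79560) (nat_lit 0) (nat_lit 1064) (XT.nd (nat_lit 79482) (nat_lit 0) (nat_lit 1064) (XT.lf (nat_lit 0) (nat_lit 6617620863) (nat_lit 1900) (nat_lit 28471276856) (nat_lit 1976) (nat_lit 22521975321) (nat_lit 467) (nat_lit 5) (nat_lit 492) (nat_lit 5) (nat_lit 493) (nat_lit 5) (nat_lit 665) (nat_lit 642) (nat_lit 253)) (XT.lf (nat_lit 0) (nat_lit 5699665804) (nat_lit 1900) (nat_lit 8749829252) (nat_lit 1900) (nat_lit 8749829252) (nat_lit 481) (nat_lit 3) (nat_lit 506) (nat_lit 3) (nat_lit 506) (nat_lit 5) (nat_lit 643) (nat_lit 643) (nat_lit 274))) (XT.nd (nat_lit 78) (nat_lit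 0) (nat_lit 76) (XT.lf (nat_lit 76) (nat_lit 5680813956) (nat_lit 0) (nat_lit 5900021755) (nat_lit 1900) (nat_lit 35280448249) (nat_lit 482) (nat_lit 5) (nat_lit 481) (nat_lit 3) (nat_lit 506) (nat_lit 5) (nat_lit 644) (nat_lit 643) (nat_lit 273)) (XT.nd (nat_lit 78) (nat_lit 0) (nat_lit 0) (XT.lf (nat_lit 0) (nat_lit 11997380184) (nat_lit 1824) (nat_lit 17883930774) (nat_lit 1900) (nat_lit 17447232871) (nat_lit 482) (nat_lit 5) (nat_lit 506) (nat_lit 5) (nat_lit 507) (nat_lit 5) (nat_lit 645) (nat_lit 643) (nat_lit 272)) (XT.lf (nat_lit 76) (nat_lit 5916638680) (nat_lit 0) (nat_lit 6582316836) (nat_lit 1900) (nat_lit 35304659404) (nat_lit 483) (nat_lit 5) (nat_lit 482) (nat_lit 5) (nat_lit 507) (nat_lit 5) (nat_lit 646) (nat_lit 643) (nat_lit 271))))) (XT.nd (nat_lit 156) (nat_lit 0) (nat_lit 76) (XT.nd (nat_lit 78) (nat_lit 0) (nat_lit 0) (XT.lf (nat_lit 0) (nat_lit 13242156151) (nat_lit 1824) (nat_lit 17962942651) (nat_lit 1900) (nat_lit 17078456778) (nat_lit 483) (nat_lit 5) (nat_lit 507) (nat_lit 5)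 (nat_lit 508) (nat_lit 5) (nat_lit 647) (nat_lit 643) (nat_lit 270)) (XT.lf (nat_lit 76) (nat_lit 6480541850) (nat_lit 0) (nat_lit 7604588806) (nat_lit 1900) (nat_lit 34686266224) (nat_lit 484) (nat_lit 5) (nat_lit 483) (nat_lit 5) (nat_lit 508) (nat_lit 5) (nat_lit 648) (nat_lit 643) (nat_lit 269))) (XT.nd (nat_lit 78) (nat_lit 0) (nat_lit 0) (XT.lf (nat_lit 0) (nat_lit 15172480974) (nat_lit 1824) (nat_lit 17718360627) (nat_lit 1900) (nat_lit 16373603099) (nat_lit 484) (nat_lit 5) (nat_lit 508) (nat_lit 5) (nat_lit 509) (nat_lit 5) (nat_lit 649) (nat_lit 643) (nat_lit 268)) (XT.nd (nat_lit 78) (nat_lit 0) (nat_lit 76) (XT.lf (nat_lit 76) (nat_lit 7391728866) (nat_lit 0) (nat_lit 8987474039) (nat_lit 1900) (nat_lit 33386198103) (nat_lit 485) (nat_lit 5) (nat_lit 484) (nat_lit 5) (nat_lit 509) (nat_lit 5) (nat_lit 650) (nat_lit 643) (nat_lit 267)) (XT.lf (nat_lit 0) (nat_lit 17828978415) (nat_lit 1824) (nat_lit 17130986947) (nat_lit 1900) (nat_lit 15312032718) (nat_lit 485) (nat_lit 5) (nat_lit 509) (nat_lit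 5) (nat_lit 510) (nat_lit 5) (nat_lit 651) (nat_lit 643) (nat_lit 266)))))) (XT.nd (nat_lit 390) (nat_lit 0) (nat_lit 228) (XT.nd (nat_lit 156) (nat_lit 0) (nat_lit 76) (XT.nd (nat_lit 78) (nat_lit 0) (nat_lit 76) (XT.lf (nat_lit 76) (nat_lit 8670303206) (nat_lit 0) (nat_lit 10752557712) (nat_lit 1900) (nat_lit 31363563967) (nat_lit 486) (nat_lit 5) (nat_lit 485) (nat_lit 5) (nat_lit 510) (nat_lit 5) (nat_lit 652) (nat_lit 643) (nat_lit 265)) (XT.lf (nat_lit 0) (nat_lit 21254152514) (nat_lit 1824) (nat_lit 16180723600) (nat_lit 1900) (nat_lit 13872153504) (nat_lit 486) (nat_lit 5) (nat_lit 510) (nat_lit 5) (nat_lit 511) (nat_lit 5) (nat_lit 653) (nat_lit 643) (nat_lit 264))) (XT.nd (nat_lit 78) (nat_lit 0) (nat_lit 76) (XT.lf (nat_lit 76) (nat_lit 10337303752) (nat_lit 0) (nat_lit 12922416294) (nat_lit 1900) (nat_lit 28575573418) (nat_lit 487) (nat_lit 5) (nat_lit 486) (nat_lit 5) (nat_lit 511) (nat_lit 5) (nat_lit 654) (nat_lit 643) (nat_lit 263)) (XT.nd (nat_lit 78) (nat_lit 0) (nat_lit 0) (XT.lf (nat_lit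 0) (nat_lit 25492468757) (nat_lit 1824) (nat_lit 14846534832) (nat_lit 1900) (nat_lit 12031377621) (nat_lit 487) (nat_lit 5) (nat_lit 511) (nat_lit 5) (nat_lit 512) (nat_lit 5) (nat_lit 655) (nat_lit 643) (nat_lit 262)) (XT.lf (nat_lit 76) (nat_lit 12414743654) (nat_lit 0) (nat_lit 15520661769) (nat_lit 1900) (nat_lit 24977454649) (nat_lit 488) (nat_lit 5) (nat_lit 487) (nat_lit 5) (nat_lit 512) (nat_lit 5) (nat_lit 656) (nat_lit 643) (nat_lit 261))))) (XT.nd (nat_lit 156) (nat_lit 0) (nat_lit 76) (XT.nd (nat_lit 78) (nat_lit 0) (nat_lit 0) (XT.lf (nat_lit 0) (nat_lit 30590438575) (nat_lit 1824) (nat_lit 13106408116) (nat_lit 1900) (nat_lit 9766077083) (nat_lit 488) (nat_lit 5) (nat_lit 512) (nat_lit 5) (nat_lit 513) (nat_lit 5) (nat_lit 657) (nat_lit 643) (nat_lit 260)) (XT.lf (nat_lit 76) (nat_lit 14925650785) (nat_lit 0) (nat_lit 18571987663) (nat_lit 1900) (nat_lit 20522369001) (nat_lit 489) (nat_lit 5) (nat_lit 488) (nat_lit 5) (nat_lit 513) (nat_lit 5) (nat_lit 658) (nat_lit 643) (nat_lit 259))) (XT.nd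 (nat_lit 78) (nat_lit 0) (nat_lit 0) (XT.lf (nat_lit 0) (nat_lit 36596707292) (nat_lit 1824) (nat_lit 10937313525) (nat_lit 1900) (nat_lit 7051537499) (nat_lit 489) (nat_lit 5) (nat_lit 513) (nat_lit 5) (nat_lit 514) (nat_lit 5) (nat_lit 659) (nat_lit 643) (nat_lit 258)) (XT.nd (nat_lit 78) (nat_lit 0) (nat_lit 76) (XT.lf (nat_lit 76) (nat_lit 17894109850) (nat_lit 0) (nat_lit 22102216964) (nat_lit 1900) (nat_lit 15161322018) (nat_lit 490) (nat_lit 5) (nat_lit 489) (nat_lit 5) (nat_lit 514) (nat_lit 5) (nat_lit 660) (nat_lit 643) (nat_lit 257)) (XT.lf (nat_lit 0) (nat_lit 43562145675) (nat_lit 1824) (nat_lit 8315161454) (nat_lit 1900) (nat_lit 3861909908) (nat_lit 490) (nat_lit 5) (nat_lit 514) (nat_lit 5) (nat_lit 515) (nat_lit 5) (nat_lit 661) (nat_lit 643) (nat_lit 256))))))) (XT.nd (nat_lit 80262) (nat_lit 0) (nat_lit 1368) (XT.nd (nat_lit 79872) (nat_lit 0) (nat_lit 1140) (XT.nd (nat_lit 156) (nat_lit 1824) (nat_lit 0) (XT.nd (nat_lit 78) (nat_lit 0) (nat_lit 76) (XT.lf (nat_lit 76) (nat_lit 21345306203)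 (nat_lit 0) (nat_lit 26138352017) (nat_lit 1900) (nat_lit 8843070859) (nat_lit 491) (nat_lit 5) (nat_lit 490) (nat_lit 5) (nat_lit 515) (nat_lit 5) (nat_lit 662) (nat_lit 643) (nat_lit 255)) (XT.lf (nat_lit 0) (nat_lit 51539945236) (nat_lit 1824) (nat_lit 5214758619) (nat_lit 1900) (nat_lit 170160637) (nat_lit 491) (nat_lit 5) (nat_lit 515) (nat_lit 5) (nat_lit 516) (nat_lit 5) (nat_lit 663) (nat_lit 643) (nat_lit 254))) (XT.nd (nat_lit 78) (nat_lit 1900) (nat_lit 0) (XT.lf (nat_lit 76) (nat_lit 25305571444) (nat_lit 0) (nat_lit 30708626461) (nat_lit 1900) (nat_lit 1514027927) (nat_lit 492) (nat_lit 5) (nat_lit 491) (nat_lit 5) (nat_lit 516) (nat_lit 5) (nat_lit 664) (nat_lit 643) (nat_lit 253)) (XT.nd (nat_lit 79560) (nat_lit 0) (nat_lit 1140) (XT.lf (nat_lit 0) (nat_lit 2437022819) (nat_lit 1900) (nat_lit 1652453086) (nat_lit 1976) (nat_lit 54053169059) (nat_lit 466) (nat_lit 5) (nat_lit 491) (nat_lit 5) (nat_lit 492) (nat_lit 5) (nat_lit 665) (nat_lit 643) (nat_lit 252)) (XT.lf (nat_lit 0) (nat_lit 5844087442)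 (nat_lit 1900) (nat_lit 8909306932) (nat_lit 1900) (nat_lit 8909306932) (nat_lit 481) (nat_lit 3) (nat_lit 506) (nat_lit 3) (nat_lit 506) (nat_lit 5) (nat_lit 644) (nat_lit 644) (nat_lit 272))))) (XT.nd (nat_lit 156) (nat_lit 0) (nat_lit 76) (XT.nd (nat_lit 78) (nat_lit 0) (nat_lit 76) (XT.lf (nat_lit 76) (nat_lit 5825263848) (nat_lit 0) (nat_lit 6047052145) (nat_lit 1900) (nat_lit 35924994569) (nat_lit 482) (nat_lit 5) (nat_lit 481) (nat_lit 3) (nat_lit 506) (nat_lit 5) (nat_lit 645) (nat_lit 644) (nat_lit 271)) (XT.lf (nat_lit 0) (nat_lit 12295832775) (nat_lit 1824) (nat_lit 18210020006) (nat_lit 1900) (nat_lit 17768090055) (nat_lit 482) (nat_lit 5) (nat_lit 506) (nat_lit 5) (nat_lit 507) (nat_lit 5) (nat_lit 646) (nat_lit 644) (nat_lit 270))) (XT.nd (nat_lit 78) (nat_lit 0) (nat_lit 76) (XT.lf (nat_lit 76) (nat_lit 6066353013) (nat_lit 0) (nat_lit 6740143194) (nat_lit 1900) (nat_lit 35952038044) (nat_lit 483) (nat_lit 5) (nat_lit 482) (nat_lit 5) (nat_lit 507) (nat_lit 5) (nat_lit 647) (nat_lit 644) (nat_lit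 269)) (XT.nd (nat_lit 78) (nat_lit 0) (nat_lit 0) (XT.lf (nat_lit 0) (nat_lit 13563265551) (nat_lit 1824) (nat_lit 18290138265) (nat_lit 1900) (nat_lit 17394695849) (nat_lit 483) (nat_lit 5) (nat_lit 507) (nat_lit 5) (nat_lit 508) (nat_lit 5) (nat_lit 648) (nat_lit 644) (nat_lit 268)) (XT.lf (nat_lit 76) (nat_lit 6642004984) (nat_lit 0) (nat_lit 7780198107) (nat_lit 1900) (nat_lit 35323512661) (nat_lit 484) (nat_lit 5) (nat_lit 483) (nat_lit 5) (nat_lit 508) (nat_lit 5) (nat_lit 649) (nat_lit 644) (nat_lit 267)))))) (XT.nd (nat_lit 390) (nat_lit 0) (nat_lit 152) (XT.nd (nat_lit 156) (nat_lit 0) (nat_lit 76) (XT.nd (nat_lit 78) (nat_lit 0) (nat_lit 0) (XT.lf (nat_lit 0) (nat_lit 15530065036) (nat_lit 1824) (nat_lit 18040263082) (nat_lit 1900) (nat_lit 16678321152) (nat_lit 484) (nat_lit 5) (nat_lit 508) (nat_lit 5) (nat_lit 509) (nat_lit 5) (nat_lit 650) (nat_lit 644) (nat_lit 266)) (XT.lf (nat_lit 76) (nat_lit 7571814617) (nat_lit 0) (nat_lit 9188254724) (nat_lit 1900) (nat_lit 33999572435) (nat_lit 485)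 (nat_lit 5) (nat_lit 484) (nat_lit 5) (nat_lit 509) (nat_lit 5) (nat_lit 651) (nat_lit 644) (nat_lit 265))) (XT.nd (nat_lit 78) (nat_lit 0) (nat_lit 0) (XT.lf (nat_lit 0) (nat_lit 18237661739) (nat_lit 1824) (nat_lit 17440807692) (nat_lit 1900) (nat_lit 15597924963) (nat_lit 485) (nat_lit 5) (nat_lit 509) (nat_lit 5) (nat_lit 510) (nat_lit 5) (nat_lit 652) (nat_lit 644) (nat_lit 264)) (XT.nd (nat_lit 78) (nat_lit 0) (nat_lit 76) (XT.lf (nat_lit 76) (nat_lit 8876292481) (nat_lit 0) (nat_lit 10986319320) (nat_lit 1900) (nat_lit 31938514167) (nat_lit 486) (nat_lit 5) (nat_lit 485) (nat_lit 5) (nat_lit 510) (nat_lit 5) (nat_lit 653) (nat_lit 644) (nat_lit 263)) (XT.lf (nat_lit 0) (nat_lit 21729404372) (nat_lit 1824) (nat_lit 16471267380) (nat_lit 1900) (nat_lit 14131493571) (nat_lit 486) (nat_lit 5) (nat_lit 510) (nat_lit 5) (nat_lit 511) (nat_lit 5) (nat_lit 654) (nat_lit 644) (nat_lit 262))))) (XT.nd (nat_lit 234) (nat_lit 0) (nat_lit 152) (XT.nd (nat_lit 78) (nat_lit 0) (nat_lit 76) (XT.lf (nat_lit 76) (nat_lit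 10576902949) (nat_lit 0) (nat_lit 13197409909) (nat_lit 1900) (nat_lit 29096697027) (nat_lit 487) (nat_lit 5) (nat_lit 486) (nat_lit 5) (nat_lit 511) (nat_lit 5) (nat_lit 655) (nat_lit 644) (nat_lit 261)) (XT.nd (nat_lit 78) (nat_lit 0) (nat_lit 0) (XT.lf (nat_lit 0) (nat_lit 26050642630) (nat_lit 1824) (nat_lit 15110181221) (nat_lit 1900) (nat_lit 12255997042) (nat_lit 487) (nat_lit 5) (nat_lit 511) (nat_lit 5) (nat_lit 512) (nat_lit 5) (nat_lit 656) (nat_lit 644) (nat_lit 260)) (XT.lf (nat_lit 76) (nat_lit 12696103859) (nat_lit 0) (nat_lit 15845601312) (nat_lit 1900) (nat_lit 25428458846) (nat_lit 488) (nat_lit 5) (nat_lit 487) (nat_lit 5) (nat_lit 512) (nat_lit 5) (nat_lit 657) (nat_lit 644) (nat_lit 259)))) (XT.nd (nat_lit 78) (nat_lit 0) (nat_lit 0) (XT.lf (nat_lit 0) (nat_lit 31248813353) (nat_lit 1824) (nat_lit 13335092256) (nat_lit 1900) (nat_lit 9947343926) (nat_lit 488) (nat_lit 5) (nat_lit 512) (nat_lit 5) (nat_lit 513) (nat_lit 5) (nat_lit 658) (nat_lit 644) (nat_lit 258)) (XT.nd (nat_lit 78)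 (nat_lit 0) (nat_lit 76) (XT.lf (nat_lit 76) (nat_lit 15257387797) (nat_lit 0) (nat_lit 18956072079) (nat_lit 1900) (nat_lit 20886028981) (nat_lit 489) (nat_lit 5) (nat_lit 488) (nat_lit 5) (nat_lit 513) (nat_lit 5) (nat_lit 659) (nat_lit 644) (nat_lit 257)) (XT.lf (nat_lit 0) (nat_lit 37373530224) (nat_lit 1824) (nat_lit 11122506036) (nat_lit 1900) (nat_lit 7180334105) (nat_lit 489) (nat_lit 5) (nat_lit 513) (nat_lit 5) (nat_lit 514) (nat_lit 5) (nat_lit 660) (nat_lit 644) (nat_lit 256))))))))
noncomputable def xc253 : XT := (XT.nd (nat_lit 81198) (nat_lit 0) (nat_lit 0) (XT.nd (nat_lit 80418) (nat_lit 0) (nat_lit 228) (XT.nd (nat_lit 80028) (nat_lit 0) (nat_lit 0) (XT.nd (nat_lit 156) (nat_lit 608) (nat_lit 0) (XT.nd (nat_lit 78) (nat_lit 0) (nat_lit 76) (XT.lf (nat_lit 76) (nat_lit 18285325059) (nat_lit 0) (nat_lit 22555153326) (nat_lit 1900) (nat_lit 15419437608) (nat_lit 490) (nat_lit 5) (nat_lit 489) (nat_lit 5) (nat_lit 514) (nat_lit 5) (nat_lit 661) (nat_lit 644) (nat_lit 255)) (XT.lf (nat_lit 0)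 (nat_lit 44476677133) (nat_lit 1824) (nat_lit 8447847482) (nat_lit 1900) (nat_lit 3928609703) (nat_lit 490) (nat_lit 5) (nat_lit 514) (nat_lit 5) (nat_lit 515) (nat_lit 5) (nat_lit 662) (nat_lit 644) (nat_lit 254))) (XT.nd (nat_lit 78) (nat_lit 684) (nat_lit 0) (XT.lf (nat_lit 76) (nat_lit 21805608363) (nat_lit 0) (nat_lit 26670379600) (nat_lit 1900) (nat_lit 8976421301) (nat_lit 491) (nat_lit 5) (nat_lit 490) (nat_lit 5) (nat_lit 515) (nat_lit 5) (nat_lit 663) (nat_lit 644) (nat_lit 253)) (XT.nd (nat_lit 79716) (nat_lit 760) (nat_lit 0) (XT.lf (nat_lit 0) (nat_lit 52612505369) (nat_lit 1824) (nat_lit 5285415990) (nat_lit 1900) (nat_lit 164603958) (nat_lit 491) (nat_lit 5) (nat_lit 515) (nat_lit 5) (nat_lit 516) (nat_lit 5) (nat_lit 664) (nat_lit 644) (nat_lit 252)) (XT.lf (nat_lit 0) (nat_lit 5990215944) (nat_lit 1900) (nat_lit 9072576784) (nat_lit 1900) (nat_lit 9072576784) (nat_lit 481) (nat_lit 3) (nat_lit 506) (nat_lit 3) (nat_lit 506) (nat_lit 5) (nat_lit 645) (nat_lit 645) (nat_lit 270))))) (XT.nd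 (nat_lit 156) (nat_lit 0) (nat_lit 76) (XT.nd (nat_lit 78) (nat_lit 0) (nat_lit 76) (XT.lf (nat_lit 76) (nat_lit 5971405432) (nat_lit 0) (nat_lit 6195895875) (nat_lit 1900) (nat_lit 36584802951) (nat_lit 482) (nat_lit 5) (nat_lit 481) (nat_lit 3) (nat_lit 506) (nat_lit 5) (nat_lit 646) (nat_lit 645) (nat_lit 269)) (XT.lf (nat_lit 0) (nat_lit 12597982598) (nat_lit 1824) (nat_lit 18543857676) (nat_lit 1900) (nat_lit 18096455054) (nat_lit 482) (nat_lit 5) (nat_lit 506) (nat_lit 5) (nat_lit 507) (nat_lit 5) (nat_lit 647) (nat_lit 645) (nat_lit 268))) (XT.nd (nat_lit 78) (nat_lit 0) (nat_lit 76) (XT.lf (nat_lit 76) (nat_lit 6217843049) (nat_lit 0) (nat_lit 6900109477) (nat_lit 1900) (nat_lit 36614644215) (nat_lit 483) (nat_lit 5) (nat_lit 482) (nat_lit 5) (nat_lit 507) (nat_lit 5) (nat_lit 648) (nat_lit 645) (nat_lit 267)) (XT.nd (nat_lit 78) (nat_lit 0) (nat_lit 0) (XT.lf (nat_lit 0) (nat_lit 13888612251) (nat_lit 1824) (nat_lit 18625122845) (nat_lit 1900) (nat_lit 17718243299) (nat_lit 483) (nat_lit 5) (nat_lit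 507) (nat_lit 5) (nat_lit 508) (nat_lit 5) (nat_lit 649) (nat_lit 645) (nat_lit 266)) (XT.lf (nat_lit 76) (nat_lit 6805460517) (nat_lit 0) (nat_lit 7958406381) (nat_lit 1900) (nat_lit 35975697171) (nat_lit 484) (nat_lit 5) (nat_lit 483) (nat_lit 5) (nat_lit 508) (nat_lit 5) (nat_lit 650) (nat_lit 645) (nat_lit 265)))))) (XT.nd (nat_lit 390) (nat_lit 0) (nat_lit 152) (XT.nd (nat_lit 156) (nat_lit 0) (nat_lit 76) (XT.nd (nat_lit 78) (nat_lit 0) (nat_lit 0) (XT.lf (nat_lit 0) (nat_lit 15892698673) (nat_lit 1824) (nat_lit 18369864231) (nat_lit 1900) (nat_lit 16990017132) (nat_lit 484) (nat_lit 5) (nat_lit 508) (nat_lit 5) (nat_lit 509) (nat_lit 5) (nat_lit 651) (nat_lit 645) (nat_lit 264)) (XT.lf (nat_lit 76) (nat_lit 7754249732) (nat_lit 0) (nat_lit 9392234357) (nat_lit 1900) (nat_lit 34627324716) (nat_lit 485) (nat_lit 5) (nat_lit 484) (nat_lit 5) (nat_lit 509) (nat_lit 5) (nat_lit 652) (nat_lit 645) (nat_lit 263))) (XT.nd (nat_lit 78) (nat_lit 0) (nat_lit 0) (XT.lf (nat_lit 0) (nat_lit 18652495477) (nat_lit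 1824) (nat_lit 17758098477) (nat_lit 1900) (nat_lit 15890325207) (nat_lit 485) (nat_lit 5) (nat_lit 509) (nat_lit 5) (nat_lit 510) (nat_lit 5) (nat_lit 653) (nat_lit 645) (nat_lit 262)) (XT.nd (nat_lit 78) (nat_lit 0) (nat_lit 76) (XT.lf (nat_lit 76) (nat_lit 9085136296) (nat_lit 0) (nat_lit 11224029611) (nat_lit 1900) (nat_lit 32526995062) (nat_lit 486) (nat_lit 5) (nat_lit 485) (nat_lit 5) (nat_lit 510) (nat_lit 5) (nat_lit 654) (nat_lit 645) (nat_lit 261)) (XT.lf (nat_lit 0) (nat_lit 22212213152) (nat_lit 1824) (nat_lit 16768906211) (nat_lit 1900) (nat_lit 14396723401) (nat_lit 486) (nat_lit 5) (nat_lit 510) (nat_lit 5) (nat_lit 511) (nat_lit 5) (nat_lit 655) (nat_lit 645) (nat_lit 260))))) (XT.nd (nat_lit 156) (nat_lit 0) (nat_lit 76) (XT.nd (nat_lit 78) (nat_lit 0) (nat_lit 76) (XT.lf (nat_lit 76) (nat_lit 10820018403) (nat_lit 0) (nat_lit 13477260922) (nat_lit 1900) (nat_lit 29630199729) (nat_lit 487) (nat_lit 5) (nat_lit 486) (nat_lit 5) (nat_lit 511) (nat_lit 5) (nat_lit 656) (nat_lit 645) (nat_lit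 259)) (XT.lf (nat_lit 0) (nat_lit 26618103481) (nat_lit 1824) (nat_lit 15380393008) (nat_lit 1900) (nat_lit 12485730466) (nat_lit 487) (nat_lit 5) (nat_lit 511) (nat_lit 5) (nat_lit 512) (nat_lit 5) (nat_lit 657) (nat_lit 645) (nat_lit 258))) (XT.nd (nat_lit 78) (nat_lit 0) (nat_lit 76) (XT.lf (nat_lit 76) (nat_lit 12981807301) (nat_lit 0) (nat_lit 16176475573) (nat_lit 1900) (nat_lit 25890368183) (nat_lit 488) (nat_lit 5) (nat_lit 487) (nat_lit 5) (nat_lit 512) (nat_lit 5) (nat_lit 658) (nat_lit 645) (nat_lit 257)) (XT.nd (nat_lit 78) (nat_lit 0) (nat_lit 0) (XT.lf (nat_lit 0) (nat_lit 31918547411) (nat_lit 1824) (nat_lit 13569648751) (nat_lit 1900) (nat_lit 10132781866) (nat_lit 488) (nat_lit 5) (nat_lit 512) (nat_lit 5) (nat_lit 513) (nat_lit 5) (nat_lit 659) (nat_lit 645) (nat_lit 256)) (XT.lf (nat_lit 76) (nat_lit 15594469421) (nat_lit 0) (nat_lit 19347347176) (nat_lit 1900) (nat_lit 21258778972) (nat_lit 489) (nat_lit 5) (nat_lit 488) (nat_lit 5) (nat_lit 513) (nat_lit 5) (nat_lit 660) (nat_lit 645)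 (nat_lit 255))))))) (XT.nd (nat_lit 80574) (nat_lit 0) (nat_lit 228) (XT.nd (nat_lit 80184) (nat_lit 0) (nat_lit 76) (XT.nd (nat_lit 156) (nat_lit 608) (nat_lit 0) (XT.nd (nat_lit 78) (nat_lit 0) (nat_lit 0) (XT.lf (nat_lit 0) (nat_lit 38164146528) (nat_lit 1824) (nat_lit 11312705330) (nat_lit 1900) (nat_lit 7312181711) (nat_lit 489) (nat_lit 5) (nat_lit 513) (nat_lit 5) (nat_lit 514) (nat_lit 5) (nat_lit 661) (nat_lit 645) (nat_lit 254)) (XT.lf (nat_lit 76) (nat_lit 18683070210) (nat_lit 0) (nat_lit 23016725464) (nat_lit 1900) (nat_lit 15684467220) (nat_lit 490) (nat_lit 5) (nat_lit 489) (nat_lit 5) (nat_lit 514) (nat_lit 5) (nat_lit 662) (nat_lit 645) (nat_lit 253))) (XT.nd (nat_lit 79872) (nat_lit 684) (nat_lit 0) (XT.lf (nat_lit 0) (nat_lit 45407818273) (nat_lit 1824) (nat_lit 8584492627) (nat_lit 1900) (nat_lit 3997052713) (nat_lit 490) (nat_lit 5) (nat_lit 514) (nat_lit 5) (nat_lit 515) (nat_lit 5) (nat_lit 663) (nat_lit 645) (nat_lit 252)) (XT.nd (nat_lit 78) (nat_lit 0) (nat_lit 0) (XT.lf (nat_lit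 0) (nat_lit 6138131329) (nat_lit 1900) (nat_lit 9239691251) (nat_lit 1900) (nat_lit 9239691251) (nat_lit 481) (nat_lit 3) (nat_lit 506) (nat_lit 3) (nat_lit 506) (nat_lit 5) (nat_lit 646) (nat_lit 646) (nat_lit 268)) (XT.lf (nat_lit 76) (nat_lit 6119319033) (nat_lit 0) (nat_lit 6346632985) (nat_lit 1900) (nat_lit 37260086564) (nat_lit 482) (nat_lit 5) (nat_lit 481) (nat_lit 3) (nat_lit 506) (nat_lit 5) (nat_lit 647) (nat_lit 646) (nat_lit 267))))) (XT.nd (nat_lit 156) (nat_lit 0) (nat_lit 76) (XT.nd (nat_lit 78) (nat_lit 0) (nat_lit 0) (XT.lf (nat_lit 0) (nat_lit 12903991815) (nat_lit 1824) (nat_lit 18885551121) (nat_lit 1900) (nat_lit 18432435672) (nat_lit 482) (nat_lit 5) (nat_lit 506) (nat_lit 5) (nat_lit 507) (nat_lit 5) (nat_lit 648) (nat_lit 646) (nat_lit 266)) (XT.lf (nat_lit 76) (nat_lit 6371191620) (nat_lit 0) (nat_lit 7062297959) (nat_lit 1900) (nat_lit 37292693933) (nat_lit 483) (nat_lit 5) (nat_lit 482) (nat_lit 5) (nat_lit 507) (nat_lit 5) (nat_lit 649) (nat_lit 646) (nat_lit 265))) (XT.nd (nat_lit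 78) (nat_lit 0) (nat_lit 0) (XT.lf (nat_lit 0) (nat_lit 14218365838) (nat_lit 1824) (nat_lit 18968003825) (nat_lit 1900) (nat_lit 18049207101) (nat_lit 483) (nat_lit 5) (nat_lit 507) (nat_lit 5) (nat_lit 508) (nat_lit 5) (nat_lit 650) (nat_lit 646) (nat_lit 264)) (XT.nd (nat_lit 78) (nat_lit 0) (nat_lit 76) (XT.lf (nat_lit 76) (nat_lit 6970996327) (nat_lit 0) (nat_lit 8139301067) (nat_lit 1900) (nat_lit 36643033352) (nat_lit 484) (nat_lit 5) (nat_lit 483) (nat_lit 5) (nat_lit 508) (nat_lit 5) (nat_lit 651) (nat_lit 646) (nat_lit 263)) (XT.lf (nat_lit 0) (nat_lit 16260564504) (nat_lit 1824) (nat_lit 18707269098) (nat_lit 1900) (nat_lit 17308796288) (nat_lit 484) (nat_lit 5) (nat_lit 508) (nat_lit 5) (nat_lit 509) (nat_lit 5) (nat_lit 652) (nat_lit 646) (nat_lit 262)))))) (XT.nd (nat_lit 390) (nat_lit 0) (nat_lit 228) (XT.nd (nat_lit 156) (nat_lit 0) (nat_lit 76) (XT.nd (nat_lit 78) (nat_lit 0) (nat_lit 76) (XT.lf (nat_lit 76) (nat_lit 7939129826) (nat_lit 0) (nat_lit 9599508626) (nat_lit 1900) (nat_lit 35269660553)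 (nat_lit 485) (nat_lit 5) (nat_lit 484) (nat_lit 5) (nat_lit 509) (nat_lit 5) (nat_lit 653) (nat_lit 646) (nat_lit 261)) (XT.lf (nat_lit 0) (nat_lit 19073681203) (nat_lit 1824) (nat_lit 18082959246) (nat_lit 1900) (nat_lit 16189332927) (nat_lit 485) (nat_lit 5) (nat_lit 509) (nat_lit 5) (nat_lit 510) (nat_lit 5) (nat_lit 654) (nat_lit 646) (nat_lit 260))) (XT.nd (nat_lit 78) (nat_lit 0) (nat_lit 76) (XT.lf (nat_lit 76) (nat_lit 9296940872) (nat_lit 0) (nat_lit 11465795771) (nat_lit 1900) (nat_lit 33129198374) (nat_lit 486) (nat_lit 5) (nat_lit 485) (nat_lit 5) (nat_lit 510) (nat_lit 5) (nat_lit 655) (nat_lit 646) (nat_lit 259)) (XT.nd (nat_lit 78) (nat_lit 0) (nat_lit 0) (XT.lf (nat_lit 0) (nat_lit 22702805639) (nat_lit 1824) (nat_lit 17073732128) (nat_lit 1900) (nat_lit 14667933493) (nat_lit 486) (nat_lit 5) (nat_lit 510) (nat_lit 5) (nat_lit 511) (nat_lit 5) (nat_lit 656) (nat_lit 646) (nat_lit 258)) (XT.lf (nat_lit 76) (nat_lit 11066769977) (nat_lit 0) (nat_lit 13762091430) (nat_lit 1900) (nat_lit 30176253130)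 (nat_lit 487) (nat_lit 5) (nat_lit 486) (nat_lit 5) (nat_lit 511) (nat_lit 5) (nat_lit 657) (nat_lit 646) (nat_lit 257))))) (XT.nd (nat_lit 234) (nat_lit 0) (nat_lit 76) (XT.nd (nat_lit 78) (nat_lit 0) (nat_lit 0) (XT.lf (nat_lit 0) (nat_lit 27195109916) (nat_lit 1824) (nat_lit 15657251313) (nat_lit 1900) (nat_lit 12720656036) (nat_lit 487) (nat_lit 5) (nat_lit 511) (nat_lit 5) (nat_lit 512) (nat_lit 5) (nat_lit 658) (nat_lit 646) (nat_lit 256)) (XT.nd (nat_lit 78) (nat_lit 0) (nat_lit 76) (XT.lf (nat_lit 76) (nat_lit 13271990703) (nat_lit 0) (nat_lit 16513425147) (nat_lit 1900) (nat_lit 26363327566) (nat_lit 488) (nat_lit 5) (nat_lit 487) (nat_lit 5) (nat_lit 512) (nat_lit 5) (nat_lit 659) (nat_lit 646) (nat_lit 255)) (XT.lf (nat_lit 0) (nat_lit 32599938150) (nat_lit 1824) (nat_lit 13810144619) (nat_lit 1900) (nat_lit 10322453134) (nat_lit 488) (nat_lit 5) (nat_lit 512) (nat_lit 5) (nat_lit 513) (nat_lit 5) (nat_lit 660) (nat_lit 646) (nat_lit 254)))) (XT.nd (nat_lit 78) (nat_lit 0) (nat_lit 76) (XT.lf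 (nat_lit 76) (nat_lit 15937052646) (nat_lit 0) (nat_lit 19745975833) (nat_lit 1900) (nat_lit 21640730225) (nat_lit 489) (nat_lit 5) (nat_lit 488) (nat_lit 5) (nat_lit 513) (nat_lit 5) (nat_lit 661) (nat_lit 646) (nat_lit 253)) (XT.nd (nat_lit 78) (nat_lit 0) (nat_lit 0) (XT.lf (nat_lit 0) (nat_lit 38968899758) (nat_lit 1824) (nat_lit 11507960949) (nat_lit 1900) (nat_lit 7447122888) (nat_lit 489) (nat_lit 5) (nat_lit 513) (nat_lit 5) (nat_lit 514) (nat_lit 5) (nat_lit 662) (nat_lit 646) (nat_lit 252)) (XT.lf (nat_lit 76) (nat_lit 19087526165) (nat_lit 0) (nat_lit 23487122518) (nat_lit 1900) (nat_lit 15956481113) (nat_lit 490) (nat_lit 5) (nat_lit 489) (nat_lit 5) (nat_lit 514) (nat_lit 5) (nat_lit 663) (nat_lit 646) (nat_lit 251))))))))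
noncomputable def xc254 : XT := (XT.nd (nat_lit 81588) (nat_lit 0) (nat_lit 0) (XT.nd (nat_lit 780) (nat_lit 0) (nat_lit 0) (XT.nd (nat_lit 390) (nat_lit 0) (nat_lit 152) (XT.nd (nat_lit 156) (nat_lit 0) (nat_lit 76) (XT.nd (nat_lit 78) (nat_lit 0) (nat_lit 0) (XT.lf (nat_lit 0) (nat_lit 6287913435) (nat_lit 1900) (nat_lit 9410704732) (nat_lit 1900) (nat_lit 9410704732) (nat_lit 481) (nat_lit 3) (nat_lit 506) (nat_lit 3) (nat_lit 506) (nat_lit 5) (nat_lit 647) (nat_lit 647) (nat_lit 266)) (XT.lf (nat_lit 76) (nat_lit 6269084780) (nat_lit 0) (nat_lit 6499343414) (nat_lit 1900) (nat_lit 37951066413) (nat_lit 482) (nat_lit 5) (nat_lit 481) (nat_lit 3) (nat_lit 506) (nat_lit 5) (nat_lit 648) (nat_lit 647) (nat_lit 265))) (XT.nd (nat_lit 78) (nat_lit 0) (nat_lit 0) (XT.lf (nat_lit 0) (nat_lit 13214022406) (nat_lit 1824) (nat_lit 19235211674) (nat_lit 1900) (nat_lit 18776143513) (nat_lit 482) (nat_lit 5) (nat_lit 506) (nat_lit 5) (nat_lit 507) (nat_lit 5) (nat_lit 649) (nat_lit 647) (nat_lit 264)) (XT.nd (nat_lit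 78) (nat_lit 0) (nat_lit 76) (XT.lf (nat_lit 76) (nat_lit 6526481379) (nat_lit 0) (nat_lit 7226791028) (nat_lit 1900) (nat_lit 37986410974) (nat_lit 483) (nat_lit 5) (nat_lit 482) (nat_lit 5) (nat_lit 507) (nat_lit 5) (nat_lit 650) (nat_lit 647) (nat_lit 263)) (XT.lf (nat_lit 0) (nat_lit 14552695999) (nat_lit 1824) (nat_lit 19318892662) (nat_lit 1900) (nat_lit 18387698871) (nat_lit 483) (nat_lit 5) (nat_lit 507) (nat_lit 5) (nat_lit 508) (nat_lit 5) (nat_lit 651) (nat_lit 647) (nat_lit 262))))) (XT.nd (nat_lit 156) (nat_lit 0) (nat_lit 76) (XT.nd (nat_lit 78) (nat_lit 0) (nat_lit 76) (XT.lf (nat_lit 76) (nat_lit 7138700182) (nat_lit 0) (nat_lit 8322969978) (nat_lit 1900) (nat_lit 37325742383) (nat_lit 484) (nat_lit 5) (nat_lit 483) (nat_lit 5) (nat_lit 508) (nat_lit 5) (nat_lit 652) (nat_lit 647) (nat_lit 261)) (XT.lf (nat_lit 0) (nat_lit 16633845630) (nat_lit 1824) (nat_lit 19052586704) (nat_lit 1900) (nat_lit 17634767305) (nat_lit 484) (nat_lit 5) (nat_lit 508) (nat_lit 5) (nat_lit 509) (nat_lit 5) (nat_lit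 653) (nat_lit 647) (nat_lit 260))) (XT.nd (nat_lit 78) (nat_lit 0) (nat_lit 76) (XT.lf (nat_lit 76) (nat_lit 8126550542) (nat_lit 0) (nat_lit 9810173907) (nat_lit 1900) (nat_lit 35926792848) (nat_lit 485) (nat_lit 5) (nat_lit 484) (nat_lit 5) (nat_lit 509) (nat_lit 5) (nat_lit 654) (nat_lit 647) (nat_lit 259)) (XT.nd (nat_lit 78) (nat_lit 0) (nat_lit 0) (XT.lf (nat_lit 0) (nat_lit 19501421471) (nat_lit 1824) (nat_lit 18415493864) (nat_lit 1900) (nat_lit 16495050781) (nat_lit 485) (nat_lit 5) (nat_lit 509) (nat_lit 5) (nat_lit 510) (nat_lit 5) (nat_lit 655) (nat_lit 647) (nat_lit 258)) (XT.lf (nat_lit 76) (nat_lit 9511812648) (nat_lit 0) (nat_lit 11711726034) (nat_lit 1900) (nat_lit 33745322720) (nat_lit 486) (nat_lit 5) (nat_lit 485) (nat_lit 5) (nat_lit 510) (nat_lit 5) (nat_lit 656) (nat_lit 647) (nat_lit 257)))))) (XT.nd (nat_lit 390) (nat_lit 380) (nat_lit 0) (XT.nd (nat_lit 156) (nat_lit 0) (nat_lit 76) (XT.nd (nat_lit 78) (nat_lit 0) (nat_lit 0) (XT.lf (nat_lit 0) (nat_lit 23201410218) (nat_lit 1824)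 (nat_lit 17385840942) (nat_lit 1900) (nat_lit 14945217214) (nat_lit 486) (nat_lit 5) (nat_lit 510) (nat_lit 5) (nat_lit 511) (nat_lit 5) (nat_lit 657) (nat_lit 647) (nat_lit 256)) (XT.lf (nat_lit 76) (nat_lit 11317278008) (nat_lit 0) (nat_lit 14052025001) (nat_lit 1900) (nat_lit 30735035215) (nat_lit 487) (nat_lit 5) (nat_lit 486) (nat_lit 5) (nat_lit 511) (nat_lit 5) (nat_lit 658) (nat_lit 647) (nat_lit 255))) (XT.nd (nat_lit 78) (nat_lit 0) (nat_lit 0) (XT.lf (nat_lit 0) (nat_lit 27781922885) (nat_lit 1824) (nat_lit 15940840826) (nat_lit 1900) (nat_lit 12960854394) (nat_lit 487) (nat_lit 5) (nat_lit 511) (nat_lit 5) (nat_lit 512) (nat_lit 5) (nat_lit 659) (nat_lit 647) (nat_lit 254)) (XT.nd (nat_lit 78) (nat_lit 0) (nat_lit 76) (XT.lf (nat_lit 76) (nat_lit 13566791586) (nat_lit 0) (nat_lit 16856592596) (nat_lit 1900) (nat_lit 26847487638) (nat_lit 488) (nat_lit 5) (nat_lit 487) (nat_lit 5) (nat_lit 512) (nat_lit 5) (nat_lit 660) (nat_lit 647) (nat_lit 253)) (XT.lf (nat_lit 0) (nat_lit 33293286194) (nat_lit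 1824) (nat_lit 14056650176) (nat_lit 1900) (nat_lit 10516422026) (nat_lit 488) (nat_lit 5) (nat_lit 512) (nat_lit 5) (nat_lit 513) (nat_lit 5) (nat_lit 661) (nat_lit 647) (nat_lit 252))))) (XT.nd (nat_lit 80184) (nat_lit 0) (nat_lit 0) (XT.nd (nat_lit 80106) (nat_lit 532) (nat_lit 0) (XT.lf (nat_lit 76) (nat_lit 16285295657) (nat_lit 0) (nat_lit 20152123449) (nat_lit 1900) (nat_lit 22031998957) (nat_lit 489) (nat_lit 5) (nat_lit 488) (nat_lit 5) (nat_lit 513) (nat_lit 5) (nat_lit 662) (nat_lit 647) (nat_lit 251)) (XT.lf (nat_lit 0) (nat_lit 6439641984) (nat_lit 1900) (nat_lit 9585673591) (nat_lit 1900) (nat_lit 9585673591) (nat_lit 481) (nat_lit 3) (nat_lit 506) (nat_lit 3) (nat_lit 506) (nat_lit 5) (nat_lit 648) (nat_lit 648) (nat_lit 264))) (XT.nd (nat_lit 78) (nat_lit 0) (nat_lit 76) (XT.lf (nat_lit 76) (nat_lit 6420782668) (nat_lit 0) (nat_lit 6654107070) (nat_lit 1900) (nat_lit 38657971361) (nat_lit 482) (nat_lit 5) (nat_lit 481) (nat_lit 3) (nat_lit 506) (nat_lit 5) (nat_lit 649) (nat_lit 648) (nat_lit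 263)) (XT.nd (nat_lit 78) (nat_lit 0) (nat_lit 0) (XT.lf (nat_lit 0) (nat_lit 13528236297) (nat_lit 1824) (nat_lit 19592954673) (nat_lit 1900) (nat_lit 19127693995) (nat_lit 482) (nat_lit 5) (nat_lit 506) (nat_lit 5) (nat_lit 507) (nat_lit 5) (nat_lit 650) (nat_lit 648) (nat_lit 262)) (XT.lf (nat_lit 76) (nat_lit 6683794865) (nat_lit 0) (nat_lit 7393671245) (nat_lit 1900) (nat_lit 38696026892) (nat_lit 483) (nat_lit 5) (nat_lit 482) (nat_lit 5) (nat_lit 507) (nat_lit 5) (nat_lit 651) (nat_lit 648) (nat_lit 261))))))) (XT.nd (nat_lit 780) (nat_lit 152) (nat_lit 0) (XT.nd (nat_lit 390) (nat_lit 0) (nat_lit 152) (XT.nd (nat_lit 156) (nat_lit 0) (nat_lit 76) (XT.nd (nat_lit 78) (nat_lit 0) (nat_lit 0) (XT.lf (nat_lit 0) (nat_lit 14891772645) (nat_lit 1824) (nat_lit 19677904849) (nat_lit 1900) (nat_lit 18733833882) (nat_lit 483) (nat_lit 5) (nat_lit 507) (nat_lit 5) (nat_lit 508) (nat_lit 5) (nat_lit 652) (nat_lit 648) (nat_lit 260)) (XT.lf (nat_lit 76) (nat_lit 7308659814) (nat_lit 0) (nat_lit 8509501360) (nat_lit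 1900) (nat_lit 38024053044) (nat_lit 484) (nat_lit 5) (nat_lit 483) (nat_lit 5) (nat_lit 508) (nat_lit 5) (nat_lit 653) (nat_lit 648) (nat_lit 259))) (XT.nd (nat_lit 78) (nat_lit 0) (nat_lit 0) (XT.lf (nat_lit 0) (nat_lit 17012725768) (nat_lit 1824) (nat_lit 19405930079) (nat_lit 1900) (nat_lit 17968042323) (nat_lit 484) (nat_lit 5) (nat_lit 508) (nat_lit 5) (nat_lit 509) (nat_lit 5) (nat_lit 654) (nat_lit 648) (nat_lit 258)) (XT.nd (nat_lit 78) (nat_lit 0) (nat_lit 76) (XT.lf (nat_lit 76) (nat_lit 8316607619) (nat_lit 0) (nat_lit 10024327316) (nat_lit 1900) (nat_lit 36598941819) (nat_lit 485) (nat_lit 5) (nat_lit 484) (nat_lit 5) (nat_lit 509) (nat_lit 5) (nat_lit 655) (nat_lit 648) (nat_lit 257)) (XT.lf (nat_lit 0) (nat_lit 19935919954) (nat_lit 1824) (nat_lit 18755810116) (nat_lit 1900) (nat_lit 16807584626) (nat_lit 485) (nat_lit 5) (nat_lit 509) (nat_lit 5) (nat_lit 510) (nat_lit 5) (nat_lit 656) (nat_lit 648) (nat_lit 256))))) (XT.nd (nat_lit 156) (nat_lit 0) (nat_lit 76) (XT.nd (nat_lit 78) (nat_lit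 0) (nat_lit 76) (XT.lf (nat_lit 76) (nat_lit 9729858358) (nat_lit 0) (nat_lit 11961929747) (nat_lit 1900) (nat_lit 34375573637) (nat_lit 486) (nat_lit 5) (nat_lit 485) (nat_lit 5) (nat_lit 510) (nat_lit 5) (nat_lit 657) (nat_lit 648) (nat_lit 255)) (XT.lf (nat_lit 0) (nat_lit 23708257017) (nat_lit 1824) (nat_lit 17705332244) (nat_lit 1900) (nat_lit 15228670819) (nat_lit 486) (nat_lit 5) (nat_lit 510) (nat_lit 5) (nat_lit 511) (nat_lit 5) (nat_lit 658) (nat_lit 648) (nat_lit 254))) (XT.nd (nat_lit 78) (nat_lit 0) (nat_lit 76) (XT.lf (nat_lit 76) (nat_lit 11571663392) (nat_lit 0) (nat_lit 14347186746) (nat_lit 1900) (nat_lit 31306730367) (nat_lit 487) (nat_lit 5) (nat_lit 486) (nat_lit 5) (nat_lit 511) (nat_lit 5) (nat_lit 659) (nat_lit 648) (nat_lit 253)) (XT.nd (nat_lit 78) (nat_lit 0) (nat_lit 0) (XT.lf (nat_lit 0) (nat_lit 28378805836) (nat_lit 1824) (nat_lit 16231249806) (nat_lit 1900) (nat_lit 13206408696) (nat_lit 487) (nat_lit 5) (nat_lit 511) (nat_lit 5) (nat_lit 512) (nat_lit 5) (nat_lit 660) (nat_lit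 648) (nat_lit 252)) (XT.lf (nat_lit 76) (nat_lit 13866348360) (nat_lit 0) (nat_lit 17206122512) (nat_lit 1900) (nat_lit 27343004789) (nat_lit 488) (nat_lit 5) (nat_lit 487) (nat_lit 5) (nat_lit 512) (nat_lit 5) (nat_lit 661) (nat_lit 648) (nat_lit 251)))))) (XT.nd (nat_lit 80496) (nat_lit 0) (nat_lit 152) (XT.nd (nat_lit 80262) (nat_lit 0) (nat_lit 0) (XT.nd (nat_lit 80184) (nat_lit 532) (nat_lit 0) (XT.lf (nat_lit 0) (nat_lit 33998895555) (nat_lit 1824) (nat_lit 14309239028) (nat_lit 1900) (nat_lit 10714754916) (nat_lit 488) (nat_lit 5) (nat_lit 512) (nat_lit 5) (nat_lit 513) (nat_lit 5) (nat_lit 662) (nat_lit 648) (nat_lit 250)) (XT.lf (nat_lit 0) (nat_lit 6593396646) (nat_lit 1900) (nat_lit 9764656156) (nat_lit 1900) (nat_lit 9764656156) (nat_lit 481) (nat_lit 3) (nat_lit 506) (nat_lit 3) (nat_lit 506) (nat_lit 5) (nat_lit 649) (nat_lit 649) (nat_lit 262))) (XT.nd (nat_lit 78) (nat_lit 0) (nat_lit 76) (XT.lf (nat_lit 76) (nat_lit 6574492623) (nat_lit 0) (nat_lit 6811003886) (nat_lit 1900) (nat_lit 39381038151)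 (nat_lit 482) (nat_lit 5) (nat_lit 481) (nat_lit 3) (nat_lit 506) (nat_lit 5) (nat_lit 650) (nat_lit 649) (nat_lit 261)) (XT.nd (nat_lit 78) (nat_lit 0) (nat_lit 0) (XT.lf (nat_lit 0) (nat_lit 13846795490) (nat_lit 1824) (nat_lit 19958899468) (nat_lit 1900) (nat_lit 19487206364) (nat_lit 482) (nat_lit 5) (nat_lit 506) (nat_lit 5) (nat_lit 507) (nat_lit 5) (nat_lit 651) (nat_lit 649) (nat_lit 260)) (XT.lf (nat_lit 76) (nat_lit 6843214571) (nat_lit 0) (nat_lit 7563021406) (nat_lit 1900) (nat_lit 39421781050) (nat_lit 483) (nat_lit 5) (nat_lit 482) (nat_lit 5) (nat_lit 507) (nat_lit 5) (nat_lit 652) (nat_lit 649) (nat_lit 259))))) (XT.nd (nat_lit 234) (nat_lit 0) (nat_lit 76) (XT.nd (nat_lit 78) (nat_lit 0) (nat_lit 0) (XT.lf (nat_lit 0) (nat_lit 15235766042) (nat_lit 1824) (nat_lit 20045159922) (nat_lit 1900) (nat_lit 19087731085) (nat_lit 483) (nat_lit 5) (nat_lit 507) (nat_lit 5) (nat_lit 508) (nat_lit 5) (nat_lit 653) (nat_lit 649) (nat_lit 258)) (XT.nd (nat_lit 78) (nat_lit 0) (nat_lit 76) (XT.lf (nat_lit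 76) (nat_lit 7480962989) (nat_lit 0) (nat_lit 8698983949) (nat_lit 1900) (nat_lit 38738201746) (nat_lit 484) (nat_lit 5) (nat_lit 483) (nat_lit 5) (nat_lit 508) (nat_lit 5) (nat_lit 654) (nat_lit 649) (nat_lit 257)) (XT.lf (nat_lit 0) (nat_lit 17397389382) (nat_lit 1824) (nat_lit 19767416272) (nat_lit 1900) (nat_lit 18308736957) (nat_lit 484) (nat_lit 5) (nat_lit 508) (nat_lit 5) (nat_lit 509) (nat_lit 5) (nat_lit 655) (nat_lit 649) (nat_lit 256)))) (XT.nd (nat_lit 78) (nat_lit 0) (nat_lit 76) (XT.lf (nat_lit 76) (nat_lit 8509396968) (nat_lit 0) (nat_lit 10242066776) (nat_lit 1900) (nat_lit 37286335029) (nat_lit 485) (nat_lit 5) (nat_lit 484) (nat_lit 5) (nat_lit 509) (nat_lit 5) (nat_lit 656) (nat_lit 649) (nat_lit 255)) (XT.nd (nat_lit 78) (nat_lit 0) (nat_lit 0) (XT.lf (nat_lit 0) (nat_lit 20377381580) (nat_lit 1824) (nat_lit 19104019719) (nat_lit 1900) (nat_lit 17127043536) (nat_lit 485) (nat_lit 5) (nat_lit 509) (nat_lit 5) (nat_lit 510) (nat_lit 5) (nat_lit 657) (nat_lit 649) (nat_lit 254)) (XT.lf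 (nat_lit 76) (nat_lit 9951185107) (nat_lit 0) (nat_lit 12216517432) (nat_lit 1900) (nat_lit 35020163601) (nat_lit 486) (nat_lit 5) (nat_lit 485) (nat_lit 5) (nat_lit 510) (nat_lit 5) (nat_lit 658) (nat_lit 649) (nat_lit 253))))))))
noncomputable def xc255 : XT := (XT.nd (nat_lit 162240) (nat_lit 0) (nat_lit 0) (XT.nd (nat_lit 81042) (nat_lit 0) (nat_lit 0) (XT.nd (nat_lit 80652) (nat_lit 0) (nat_lit 76) (XT.nd (nat_lit 156) (nat_lit 380) (nat_lit 0) (XT.nd (nat_lit 78) (nat_lit 0) (nat_lit 0) (XT.lf (nat_lit 0) (nat_lit 24223578054) (nat_lit 1824) (nat_lit 18032309403) (nat_lit 1900) (nat_lit 15518393467) (nat_lit 486) (nat_lit 5) (nat_lit 510) (nat_lit 5) (nat_lit 511) (nat_lit 5) (nat_lit 659) (nat_lit 649) (nat_lit 252)) (XT.lf (nat_lit 76) (nat_lit 11830047662) (nat_lit 0) (nat_lit 14647703380) (nat_lit 1900) (nat_lit 31891529379) (nat_lit 487) (nat_lit 5) (nat_lit 486) (nat_lit 5) (nat_lit 511) (nat_lit 5) (nat_lit 660) (nat_lit 649) (nat_lit 251))) (XT.nd (nat_lit 80340) (nat_lit 456) (nat_lit 0) (XT.lf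 (nat_lit 0) (nat_lit 28986024872) (nat_lit 1824) (nat_lit 16528570077) (nat_lit 1900) (nat_lit 13457404626) (nat_lit 487) (nat_lit 5) (nat_lit 511) (nat_lit 5) (nat_lit 512) (nat_lit 5) (nat_lit 661) (nat_lit 649) (nat_lit 250)) (XT.nd (nat_lit 78) (nat_lit 0) (nat_lit 0) (XT.lf (nat_lit 0) (nat_lit 6749257103) (nat_lit 1900) (nat_lit 9947712729) (nat_lit 1900) (nat_lit 9947712729) (nat_lit 481) (nat_lit 3) (nat_lit 506) (nat_lit 3) (nat_lit 506) (nat_lit 5) (nat_lit 650) (nat_lit 650) (nat_lit 260)) (XT.lf (nat_lit 76) (nat_lit 6730294569) (nat_lit 0) (nat_lit 6970113886) (nat_lit 1900) (nat_lit 40120511435) (nat_lit 482) (nat_lit 5) (nat_lit 481) (nat_lit 3) (nat_lit 506) (nat_lit 5) (nat_lit 651) (nat_lit 650) (nat_lit 259))))) (XT.nd (nat_lit 156) (nat_lit 0) (nat_lit 76) (XT.nd (nat_lit 78) (nat_lit 0) (nat_lit 0) (XT.lf (nat_lit 0) (nat_lit 14169862183) (nat_lit 1824) (nat_lit 20333169444) (nat_lit 1900) (nat_lit 19854803711) (nat_lit 482) (nat_lit 5) (nat_lit 506) (nat_lit 5) (nat_lit 507) (nat_lit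 5) (nat_lit 652) (nat_lit 650) (nat_lit 258)) (XT.lf (nat_lit 76) (nat_lit 7004823008) (nat_lit 0) (nat_lit 7734924602) (nat_lit 1900) (nat_lit 40163920651) (nat_lit 483) (nat_lit 5) (nat_lit 482) (nat_lit 5) (nat_lit 507) (nat_lit 5) (nat_lit 653) (nat_lit 650) (nat_lit 257))) (XT.nd (nat_lit 78) (nat_lit 0) (nat_lit 0) (XT.lf (nat_lit 0) (nat_lit 15584846939) (nat_lit 1824) (nat_lit 20420781474) (nat_lit 1900) (nat_lit 19449513123) (nat_lit 483) (nat_lit 5) (nat_lit 507) (nat_lit 5) (nat_lit 508) (nat_lit 5) (nat_lit 654) (nat_lit 650) (nat_lit 256)) (XT.nd (nat_lit 78) (nat_lit 0) (nat_lit 76) (XT.lf (nat_lit 76) (nat_lit 7655697568) (nat_lit 0) (nat_lit 8891507037) (nat_lit 1900) (nat_lit 39468432564) (nat_lit 484) (nat_lit 5) (nat_lit 483) (nat_lit 5) (nat_lit 508) (nat_lit 5) (nat_lit 655) (nat_lit 650) (nat_lit 255)) (XT.lf (nat_lit 0) (nat_lit 17788021808) (nat_lit 1824) (nat_lit 20137166357) (nat_lit 1900) (nat_lit 18656970316) (nat_lit 484) (nat_lit 5) (nat_lit 508) (nat_lit 5) (nat_lit 509) (nat_lit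 5) (nat_lit 656) (nat_lit 650) (nat_lit 254)))))) (XT.nd (nat_lit 80808) (nat_lit 0) (nat_lit 0) (XT.nd (nat_lit 156) (nat_lit 228) (nat_lit 0) (XT.nd (nat_lit 78) (nat_lit 0) (nat_lit 76) (XT.lf (nat_lit 76) (nat_lit 8705014738) (nat_lit 0) (nat_lit 10463491073) (nat_lit 1900) (nat_lit 37989207418) (nat_lit 485) (nat_lit 5) (nat_lit 484) (nat_lit 5) (nat_lit 509) (nat_lit 5) (nat_lit 657) (nat_lit 650) (nat_lit 253)) (XT.lf (nat_lit 0) (nat_lit 20826012667) (nat_lit 1824) (nat_lit 19460238331) (nat_lit 1900) (nat_lit 17453539825) (nat_lit 485) (nat_lit 5) (nat_lit 509) (nat_lit 5) (nat_lit 510) (nat_lit 5) (nat_lit 658) (nat_lit 650) (nat_lit 252))) (XT.nd (nat_lit 78) (nat_lit 304) (nat_lit 0) (XT.lf (nat_lit 76) (nat_lit 10175900448) (nat_lit 0) (nat_lit 12475600846) (nat_lit 1900) (nat_lit 35679312059) (nat_lit 486) (nat_lit 5) (nat_lit 485) (nat_lit 5) (nat_lit 510) (nat_lit 5) (nat_lit 659) (nat_lit 650) (nat_lit 251)) (XT.nd (nat_lit 80496) (nat_lit 380) (nat_lit 0) (XT.lf (nat_lit 0) (nat_lit 24747607378)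 (nat_lit 1824) (nat_lit 18366879576) (nat_lit 1900) (nat_lit 15814487242) (nat_lit 486) (nat_lit 5) (nat_lit 510) (nat_lit 5) (nat_lit 511) (nat_lit 5) (nat_lit 660) (nat_lit 650) (nat_lit 250)) (XT.lf (nat_lit 0) (nat_lit 6907303110) (nat_lit 1900) (nat_lit 10134905593) (nat_lit 1900) (nat_lit 10134905593) (nat_lit 481) (nat_lit 3) (nat_lit 506) (nat_lit 3) (nat_lit 506) (nat_lit 5) (nat_lit 651) (nat_lit 651) (nat_lit 258))))) (XT.nd (nat_lit 156) (nat_lit 0) (nat_lit 76) (XT.nd (nat_lit 78) (nat_lit 0) (nat_lit 76) (XT.lf (nat_lit 76) (nat_lit 6888268486) (nat_lit 0) (nat_lit 7131517242) (nat_lit 1900) (nat_lit 40876643809) (nat_lit 482) (nat_lit 5) (nat_lit 481) (nat_lit 3) (nat_lit 506) (nat_lit 5) (nat_lit 652) (nat_lit 651) (nat_lit 257)) (XT.lf (nat_lit 0) (nat_lit 14497598896) (nat_lit 1824) (nat_lit 20715892027) (nat_lit 1900) (nat_lit 20230612991) (nat_lit 482) (nat_lit 5) (nat_lit 506) (nat_lit 5) (nat_lit 507) (nat_lit 5) (nat_lit 653) (nat_lit 651) (nat_lit 256))) (XT.nd (nat_lit 78) (nat_lit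 0) (nat_lit 76) (XT.lf (nat_lit 76) (nat_lit 7168702768) (nat_lit 0) (nat_lit 7909464279) (nat_lit 1900) (nat_lit 40922700775) (nat_lit 483) (nat_lit 5) (nat_lit 482) (nat_lit 5) (nat_lit 507) (nat_lit 5) (nat_lit 654) (nat_lit 651) (nat_lit 255)) (XT.nd (nat_lit 78) (nat_lit 0) (nat_lit 0) (XT.lf (nat_lit 0) (nat_lit 15939186684) (nat_lit 1824) (nat_lit 20804897175) (nat_lit 1900) (nat_lit 19819306363) (nat_lit 483) (nat_lit 5) (nat_lit 507) (nat_lit 5) (nat_lit 508) (nat_lit 5) (nat_lit 655) (nat_lit 651) (nat_lit 254)) (XT.lf (nat_lit 76) (nat_lit 7832951580) (nat_lit 0) (nat_lit 9087160523) (nat_lit 1900) (nat_lit 40214997277) (nat_lit 484) (nat_lit 5) (nat_lit 483) (nat_lit 5) (nat_lit 508) (nat_lit 5) (nat_lit 656) (nat_lit 651) (nat_lit 253))))))) (XT.nd (nat_lit 81354) (nat_lit 0) (nat_lit 0) (XT.nd (nat_lit 80964) (nat_lit 0) (nat_lit 76) (XT.nd (nat_lit 156) (nat_lit 228) (nat_lit 0) (XT.nd (nat_lit 78) (nat_lit 0) (nat_lit 0) (XT.lf (nat_lit 0) (nat_lit 18184809386) (nat_lit 1824) (nat_lit 20515305455)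 (nat_lit 1900) (nat_lit 19012865027) (nat_lit 484) (nat_lit 5) (nat_lit 508) (nat_lit 5) (nat_lit 509) (nat_lit 5) (nat_lit 657) (nat_lit 651) (nat_lit 252)) (XT.lf (nat_lit 76) (nat_lit 8903557392) (nat_lit 0) (nat_lit 10688699919) (nat_lit 1900) (nat_lit 38707801339) (nat_lit 485) (nat_lit 5) (nat_lit 484) (nat_lit 5) (nat_lit 509) (nat_lit 5) (nat_lit 658) (nat_lit 651) (nat_lit 251))) (XT.nd (nat_lit 80652) (nat_lit 304) (nat_lit 0) (XT.lf (nat_lit 0) (nat_lit 21282021055) (nat_lit 1824) (nat_lit 19824585560) (nat_lit 1900) (nat_lit 17787189070) (nat_lit 485) (nat_lit 5) (nat_lit 509) (nat_lit 5) (nat_lit 510) (nat_lit 5) (nat_lit 659) (nat_lit 651) (nat_lit 250)) (XT.nd (nat_lit 78) (nat_lit 0) (nat_lit 0) (XT.lf (nat_lit 0) (nat_lit 7067614557) (nat_lit 1900) (nat_lit 10326299024) (nat_lit 1900) (nat_lit 10326299024) (nat_lit 481) (nat_lit 3) (nat_lit 506) (nat_lit 3) (nat_lit 506) (nat_lit 5) (nat_lit 652) (nat_lit 652) (nat_lit 256)) (XT.lf (nat_lit 76) (nat_lit 7048494472) (nat_lit 0) (nat_lit 7295294336)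 (nat_lit 1900) (nat_lit 41649695856) (nat_lit 482) (nat_lit 5) (nat_lit 481) (nat_lit 3) (nat_lit 506) (nat_lit 5) (nat_lit 653) (nat_lit 652) (nat_lit 255))))) (XT.nd (nat_lit 156) (nat_lit 0) (nat_lit 76) (XT.nd (nat_lit 78) (nat_lit 0) (nat_lit 0) (XT.lf (nat_lit 0) (nat_lit 14830168587) (nat_lit 1824) (nat_lit 21107198713) (nat_lit 1900) (nat_lit 20614765048) (nat_lit 482) (nat_lit 5) (nat_lit 506) (nat_lit 5) (nat_lit 507) (nat_lit 5) (nat_lit 654) (nat_lit 652) (nat_lit 254)) (XT.lf (nat_lit 76) (nat_lit 7334936589) (nat_lit 0) (nat_lit 8086724291) (nat_lit 1900) (nat_lit 41698384424) (nat_lit 483) (nat_lit 5) (nat_lit 482) (nat_lit 5) (nat_lit 507) (nat_lit 5) (nat_lit 655) (nat_lit 652) (nat_lit 253))) (XT.nd (nat_lit 78) (nat_lit 0) (nat_lit 0) (XT.lf (nat_lit 0) (nat_lit 16298957351) (nat_lit 1824) (nat_lit 21197638786) (nat_lit 1900) (nat_lit 20197240911) (nat_lit 483) (nat_lit 5) (nat_lit 507) (nat_lit 5) (nat_lit 508) (nat_lit 5) (nat_lit 656) (nat_lit 652) (nat_lit 252)) (XT.nd (nat_lit 78)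 (nat_lit 0) (nat_lit 76) (XT.lf (nat_lit 76) (nat_lit 8012813284) (nat_lit 0) (nat_lit 9286034976) (nat_lit 1900) (nat_lit 40978155413) (nat_lit 484) (nat_lit 5) (nat_lit 483) (nat_lit 5) (nat_lit 508) (nat_lit 5) (nat_lit 657) (nat_lit 652) (nat_lit 251)) (XT.lf (nat_lit 0) (nat_lit 18587939582) (nat_lit 1824) (nat_lit 20901962747) (nat_lit 1900) (nat_lit 19376547265) (nat_lit 484) (nat_lit 5) (nat_lit 508) (nat_lit 5) (nat_lit 509) (nat_lit 5) (nat_lit 658) (nat_lit 652) (nat_lit 250)))))) (XT.nd (nat_lit 81042) (nat_lit 0) (nat_lit 0) (XT.nd (nat_lit 80808) (nat_lit 0) (nat_lit 0) (XT.nd (nat_lit 80730) (nat_lit 228) (nat_lit 0) (XT.lf (nat_lit 76) (nat_lit 9105121772) (nat_lit 0) (nat_lit 10917794011) (nat_lit 1900) (nat_lit 39442366605) (nat_lit 485) (nat_lit 5) (nat_lit 484) (nat_lit 5) (nat_lit 509) (nat_lit 5) (nat_lit 659) (nat_lit 652) (nat_lit 249)) (XT.lf (nat_lit 0) (nat_lit 7230271523) (nat_lit 1900) (nat_lit 10521959298) (nat_lit 1900) (nat_lit 10521959298) (nat_lit 481) (nat_lit 3) (nat_lit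 506) (nat_lit 3) (nat_lit 506) (nat_lit 5) (nat_lit 653) (nat_lit 653) (nat_lit 254))) (XT.nd (nat_lit 78) (nat_lit 0) (nat_lit 76) (XT.lf (nat_lit 76) (nat_lit 7211052805) (nat_lit 0) (nat_lit 7461525819) (nat_lit 1900) (nat_lit 42439936190) (nat_lit 482) (nat_lit 5) (nat_lit 481) (nat_lit 3) (nat_lit 506) (nat_lit 5) (nat_lit 654) (nat_lit 653) (nat_lit 253)) (XT.nd (nat_lit 78) (nat_lit 0) (nat_lit 0) (XT.lf (nat_lit 0) (nat_lit 15167734774) (nat_lit 1824) (nat_lit 21507225084) (nat_lit 1900) (nat_lit 21007394642) (nat_lit 482) (nat_lit 5) (nat_lit 506) (nat_lit 5) (nat_lit 507) (nat_lit 5) (nat_lit 655) (nat_lit 653) (nat_lit 252)) (XT.lf (nat_lit 76) (nat_lit 7503607414) (nat_lit 0) (nat_lit 8266788964) (nat_lit 1900) (nat_lit 42491242571) (nat_lit 483) (nat_lit 5) (nat_lit 482) (nat_lit 5) (nat_lit 507) (nat_lit 5) (nat_lit 656) (nat_lit 653) (nat_lit 251))))) (XT.nd (nat_lit 81120) (nat_lit 0) (nat_lit 0) (XT.nd (nat_lit 78) (nat_lit 152) (nat_lit 0) (XT.lf (nat_lit 0) (nat_lit 16664331860) (nat_lit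 1824) (nat_lit 21599142184) (nat_lit 1900) (nat_lit 20583450647) (nat_lit 483) (nat_lit 5) (nat_lit 507) (nat_lit 5) (nat_lit 508) (nat_lit 5) (nat_lit 657) (nat_lit 653) (nat_lit 250)) (XT.nd (nat_lit 80964) (nat_lit 152) (nat_lit 0) (XT.lf (nat_lit 76) (nat_lit 8195371234) (nat_lit 0) (nat_lit 9488221692) (nat_lit 1900) (nat_lit 41758174299) (nat_lit 484) (nat_lit 5) (nat_lit 483) (nat_lit 5) (nat_lit 508) (nat_lit 5) (nat_lit 658) (nat_lit 653) (nat_lit 249)) (XT.lf (nat_lit 76) (nat_lit 7376023999) (nat_lit 0) (nat_lit 7630292663) (nat_lit 1900) (nat_lit 43247641503) (nat_lit 482) (nat_lit 5) (nat_lit 481) (nat_lit 3) (nat_lit 506) (nat_lit 5) (nat_lit 655) (nat_lit 654) (nat_lit 251)))) (XT.nd (nat_lit 78) (nat_lit 76) (nat_lit 0) (XT.lf (nat_lit 0) (nat_lit 15510461649) (nat_lit 1824) (nat_lit 21916110836) (nat_lit 1900) (nat_lit 21408640470) (nat_lit 482) (nat_lit 5) (nat_lit 506) (nat_lit 5) (nat_lit 507) (nat_lit 5) (nat_lit 656) (nat_lit 654) (nat_lit 250)) (XT.nd (nat_lit 81120) (nat_lit 76) (nat_lit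 0) (XT.lf (nat_lit 76) (nat_lit 7674798452) (nat_lit 0) (nat_lit 8449743148) (nat_lit 1900) (nat_lit 43301554215) (nat_lit 483) (nat_lit 5) (nat_lit 482) (nat_lit 5) (nat_lit 507) (nat_lit 5) (nat_lit 657) (nat_lit 654) (nat_lit 249)) (XT.lf (nat_lit 76) (nat_lit 7543488864) (nat_lit 0) (nat_lit 7801676225) (nat_lit 1900) (nat_lit 44073096630) (nat_lit 482) (nat_lit 5) (nat_lit 481) (nat_lit 3) (nat_lit 506) (nat_lit 5) (nat_lit 656) (nat_lit 655) (nat_lit 249))))))))

set_option maxRecDepth 10000000 in
noncomputable def Tp : PT := (PT.nd (nat_lit 21697884) (PT.nd (nat_lit 19913400) (PT.nd (nat_lit 18291546) (PT.nd (nat_lit 17073420) (PT.nd (nat_lit 16100214) (PT.nd (nat_lit 15531594) pc0 pc1) (PT.nd (nat_lit 486954) pc2 pc3)) (PT.nd (nat_lit 649974) (PT.nd (nat_lit 325182) pc4 pc5) (PT.nd (nat_lit 324168) pc6 pc7))) (PT.nd (nat_lit 892788) (PT.nd (nat_lit 486720) (PT.nd (nat_lit 243516) pc8 pc9) (PT.nd (nat_lit 242892) pc10 pc11)) (PT.nd (nat_lit 404586) (PT.nd (nat_lit 162864) pc12 pc13) (PT.nd (nat_lit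 162396) pc14 pc15)))) (PT.nd (nat_lit 975624) (PT.nd (nat_lit 489216) (PT.nd (nat_lit 244920) (PT.nd (nat_lit 83304) pc16 pc17) (PT.nd (nat_lit 161304) pc18 pc19)) (PT.nd (nat_lit 243516) (PT.nd (nat_lit 160758) pc20 pc21) (PT.nd (nat_lit 160368) pc22 pc23))) (PT.nd (nat_lit 405756) (PT.nd (nat_lit 241722) (PT.nd (nat_lit 82290) pc24 pc25) (PT.nd (nat_lit 82056) pc26 pc27)) (PT.nd (nat_lit 163566) (PT.nd (nat_lit 81822) pc28 pc29) (PT.nd (nat_lit 158184) pc30 pc31))))) (PT.nd (nat_lit 1059942) (PT.nd (nat_lit 570570) (PT.nd (nat_lit 324012) (PT.nd (nat_lit 162240) (PT.nd (nat_lit 81120) pc32 pc33) (PT.nd (nat_lit 80964) pc34 pc35)) (PT.nd (nat_lit 85566) (PT.nd (nat_lit 4836) pc36 pc37) (PT.nd (nat_lit 80574) pc38 pc39))) (PT.nd (nat_lit 245388) (PT.nd (nat_lit 160446) (PT.nd (nat_lit 80262) pc40 pc41) (PT.nd (nat_lit 80028) pc42 pc43)) (PT.nd (nat_lit 159510) (PT.nd (nat_lit 79794) pc44 pc45) (PT.nd (nat_lit 79560) pc46 pc47)))) (PT.nd (nat_lit 487734) (PT.nd (nat_lit 242580) (PT.nd (nat_lit 158574) (PT.nd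 (nat_lit 79326) pc48 pc49) (PT.nd (nat_lit 79092) pc50 pc51)) (PT.nd (nat_lit 157560) (PT.nd (nat_lit 78858) pc52 pc53) (PT.nd (nat_lit 6474) pc54 pc55))) (PT.nd (nat_lit 479388) (PT.nd (nat_lit 236418) (PT.nd (nat_lit 154674) pc56 pc57) (PT.nd (nat_lit 87048) pc58 pc59)) (PT.nd (nat_lit 251550) (PT.nd (nat_lit 88998) pc60 pc61) (PT.nd (nat_lit 243360) pc62 pc63))))))

set_option maxRecDepth 10000000 in
noncomputable def Tx : XT := (XT.nd (nat_lit 38049414) (nat_lit 0) (nat_lit 5700) XT.nil (XT.nd (nat_lit 15186522) (nat_lit 0) (nat_lit 0) (XT.nd (nat_lit 6735456) (nat_lit 0) (nat_lit 5320) (XT.nd (nat_lit 4135950) (nat_lit 0) (nat_lit 5396) (XT.nd (nat_lit 2917512) (nat_lit 0) (nat_lit 2356) (XT.nd (nat_lit 2026908) (nat_lit 0) (nat_lit 1292) (XT.nd (nat_lit 1379352) (nat_lit 0) (nat_lit 456) (XT.nd (nat_lit 973050) (nat_lit 0) (nat_lit 228) (XT.nd (nat_lit 649038) (nat_lit 0) (nat_lit 228) (XT.nd (nat_lit 405990) (nat_lit 0) (nat_lit 0) xc0 xc1) (XT.nd (nat_lit 162318) (nat_lit 0) (nat_lit 0) xc2 xc3))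 (XT.nd (nat_lit 242970) (nat_lit 0) (nat_lit 228) (XT.nd (nat_lit 82212) (nat_lit 0) (nat_lit 0) xc4 xc5) (XT.nd (nat_lit 81744) (nat_lit 0) (nat_lit 0) xc6 xc7))) (XT.nd (nat_lit 324948) (nat_lit 0) (nat_lit 532) (XT.nd (nat_lit 162708) (nat_lit 0) (nat_lit 304) (XT.nd (nat_lit 81354) (nat_lit 0) (nat_lit 304) xc8 xc9) (XT.nd (nat_lit 81198) (nat_lit 0) (nat_lit 0) xc10 xc11)) (XT.nd (nat_lit 161616) (nat_lit 0) (nat_lit 0) (XT.nd (nat_lit 80886) (nat_lit 0) (nat_lit 0) xc12 xc13) (XT.nd (nat_lit 80574) (nat_lit 0) (nat_lit 0) xc14 xc15)))) (XT.nd (nat_lit 485628) (nat_lit 0) (nat_lit 532) (XT.nd (nat_lit 243438) (nat_lit 0) (nat_lit 228) (XT.nd (nat_lit 83382) (nat_lit 0) (nat_lit 0) (XT.nd (nat_lit 80184) (nat_lit 0) (nat_lit 2736) xc16 xc17) (XT.nd (nat_lit 80106) (nat_lit 0) (nat_lit 0) xc18 xc19)) (XT.nd (nat_lit 82992) (nat_lit 0) (nat_lit 0) (XT.nd (nat_lit 79794) (nat_lit 0) (nat_lit 4712) xc20 xc21) (XT.nd (nat_lit 79638) (nat_lit 0) (nat_lit 228) xc22 xc23))) (XT.nd (nat_lit 164970) (nat_lit 0)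 (nat_lit 304) (XT.nd (nat_lit 82524) (nat_lit 0) (nat_lit 304) (XT.nd (nat_lit 3120) (nat_lit 4712) (nat_lit 0) xc24 xc25) (XT.nd (nat_lit 79248) (nat_lit 0) (nat_lit 6916) xc26 xc27)) (XT.nd (nat_lit 82290) (nat_lit 0) (nat_lit 0) (XT.nd (nat_lit 79092) (nat_lit 0) (nat_lit 2888) xc28 xc29) (XT.nd (nat_lit 78936) (nat_lit 0) (nat_lit 228) xc30 xc31))))) (XT.nd (nat_lit 650442) (nat_lit 0) (nat_lit 1292) (XT.nd (nat_lit 326352) (nat_lit 0) (nat_lit 608) (XT.nd (nat_lit 163410) (nat_lit 0) (nat_lit 304) (XT.nd (nat_lit 81744) (nat_lit 0) (nat_lit 304) (XT.nd (nat_lit 3120) (nat_lit 9500) (nat_lit 0) xc32 xc33) (XT.nd (nat_lit 3198) (nat_lit 6308) (nat_lit 0) xc34 xc35)) (XT.nd (nat_lit 81510) (nat_lit 0) (nat_lit 304) (XT.nd (nat_lit 3198) (nat_lit 4636) (nat_lit 0) xc36 xc37) (XT.nd (nat_lit 3198) (nat_lit 3192) (nat_lit 0) xc38 xc39))) (XT.nd (nat_lit 162318) (nat_lit 0) (nat_lit 304) (XT.nd (nat_lit 81198) (nat_lit 0) (nat_lit 304) (XT.nd (nat_lit 3120) (nat_lit 2736) (nat_lit 0) xc40 xc41) (XT.nd (nat_lit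 3198) (nat_lit 2128) (nat_lit 0) xc42 xc43)) (XT.nd (nat_lit 80964) (nat_lit 0) (nat_lit 304) (XT.nd (nat_lit 3198) (nat_lit 2888) (nat_lit 0) xc44 xc45) (XT.nd (nat_lit 3198) (nat_lit 3344) (nat_lit 0) xc46 xc47)))) (XT.nd (nat_lit 247962) (nat_lit 0) (nat_lit 608) (XT.nd (nat_lit 161148) (nat_lit 0) (nat_lit 608) (XT.nd (nat_lit 80574) (nat_lit 0) (nat_lit 304) (XT.nd (nat_lit 3120) (nat_lit 5320) (nat_lit 0) xc48 xc49) (XT.nd (nat_lit 3198) (nat_lit 7372) (nat_lit 0) xc50 xc51)) (XT.nd (nat_lit 80418) (nat_lit 0) (nat_lit 684) (XT.nd (nat_lit 3198) (nat_lit 10412) (nat_lit 0) xc52 xc53) (XT.nd (nat_lit 3198) (nat_lit 14972) (nat_lit 0) xc54 xc55))) (XT.nd (nat_lit 160290) (nat_lit 0) (nat_lit 380) (XT.nd (nat_lit 80184) (nat_lit 0) (nat_lit 380) (XT.nd (nat_lit 76986) (nat_lit 0) (nat_lit 4256) xc56 xc57) (XT.nd (nat_lit 76908) (nat_lit 0) (nat_lit 8816) xc58 xc59)) (XT.nd (nat_lit 79950) (nat_lit 0) (nat_lit 304) (XT.nd (nat_lit 76752) (nat_lit 0) (nat_lit 16796) xc60 xc61) (XT.nd (nat_lit 3198) (nat_lit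 760) (nat_lit 0) xc62 xc63)))))) (XT.nd (nat_lit 1137630) (nat_lit 0) (nat_lit 3496) (XT.nd (nat_lit 566514) (nat_lit 0) (nat_lit 1444) (XT.nd (nat_lit 245934) (nat_lit 0) (nat_lit 684) (XT.nd (nat_lit 159588) (nat_lit 0) (nat_lit 304) (XT.nd (nat_lit 79716) (nat_lit 0) (nat_lit 304) (XT.nd (nat_lit 3120) (nat_lit 6384) (nat_lit 0) xc64 xc65) (XT.nd (nat_lit 3198) (nat_lit 14212) (nat_lit 0) xc66 xc67)) (XT.nd (nat_lit 6396) (nat_lit 4560) (nat_lit 0) (XT.nd (nat_lit 3198) (nat_lit 19000) (nat_lit 0) xc68 xc69) (XT.nd (nat_lit 76752) (nat_lit 0) (nat_lit 10716) xc70 xc71))) (XT.nd (nat_lit 159978) (nat_lit 0) (nat_lit 380) (XT.nd (nat_lit 79950) (nat_lit 0) (nat_lit 0) (XT.nd (nat_lit 76752) (nat_lit 0) (nat_lit 18544) xc72 xc73) (XT.nd (nat_lit 3198) (nat_lit 1596) (nat_lit 0) xc74 xc75)) (XT.nd (nat_lit 80262) (nat_lit 0) (nat_lit 380) (XT.nd (nat_lit 3198) (nat_lit 6308) (nat_lit 0) xc76 xc77) (XT.nd (nat_lit 3198) (nat_lit 10868) (nat_lit 0) xc78 xc79)))) (XT.nd (nat_lit 247806) (nat_lit 0) (nat_lit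 836) (XT.nd (nat_lit 86736) (nat_lit 0) (nat_lit 380) (XT.nd (nat_lit 6318) (nat_lit 836) (nat_lit 0) (XT.nd (nat_lit 3120) (nat_lit 16872) (nat_lit 0) xc80 xc81) (XT.nd (nat_lit 77220) (nat_lit 0) (nat_lit 3952) xc82 xc83)) (XT.nd (nat_lit 80496) (nat_lit 0) (nat_lit 0) (XT.nd (nat_lit 77298) (nat_lit 0) (nat_lit 7296) xc84 xc85) (XT.nd (nat_lit 77376) (nat_lit 0) (nat_lit 10488) xc86 xc87))) (XT.nd (nat_lit 161460) (nat_lit 0) (nat_lit 380) (XT.nd (nat_lit 80652) (nat_lit 0) (nat_lit 380) (XT.nd (nat_lit 77454) (nat_lit 0) (nat_lit 13604) xc88 xc89) (XT.nd (nat_lit 77610) (nat_lit 0) (nat_lit 16492) xc90 xc91)) (XT.nd (nat_lit 80886) (nat_lit 0) (nat_lit 380) (XT.nd (nat_lit 77688) (nat_lit 0) (nat_lit 19152) xc92 xc93) (XT.nd (nat_lit 3198) (nat_lit 1292) (nat_lit 0) xc94 xc95))))) (XT.nd (nat_lit 651300) (nat_lit 0) (nat_lit 2356) (XT.nd (nat_lit 324870) (nat_lit 0) (nat_lit 1368) (XT.nd (nat_lit 162240) (nat_lit 0) (nat_lit 456) (XT.nd (nat_lit 81042) (nat_lit 0) (nat_lit 456) (XT.nd (nat_lit 3120)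 (nat_lit 2356) (nat_lit 0) xc96 xc97) (XT.nd (nat_lit 3198) (nat_lit 2356) (nat_lit 0) xc98 xc99)) (XT.nd (nat_lit 81276) (nat_lit 0) (nat_lit 380) (XT.nd (nat_lit 3198) (nat_lit 2356) (nat_lit 0) xc100 xc101) (XT.nd (nat_lit 3198) (nat_lit 1976) (nat_lit 0) xc102 xc103))) (XT.nd (nat_lit 163020) (nat_lit 0) (nat_lit 456) (XT.nd (nat_lit 81432) (nat_lit 0) (nat_lit 0) (XT.nd (nat_lit 3120) (nat_lit 1444) (nat_lit 0) xc104 xc105) (XT.nd (nat_lit 3198) (nat_lit 456) (nat_lit 0) xc106 xc107)) (XT.nd (nat_lit 81666) (nat_lit 0) (nat_lit 0) (XT.nd (nat_lit 78468) (nat_lit 0) (nat_lit 12844) xc108 xc109) (XT.nd (nat_lit 78546) (nat_lit 0) (nat_lit 9728) xc110 xc111)))) (XT.nd (nat_lit 403962) (nat_lit 0) (nat_lit 2052) (XT.nd (nat_lit 163800) (nat_lit 0) (nat_lit 988) (XT.nd (nat_lit 81822) (nat_lit 0) (nat_lit 456) (XT.nd (nat_lit 78624) (nat_lit 0) (nat_lit 5700) xc112 xc113) (XT.nd (nat_lit 78780) (nat_lit 0) (nat_lit 2128) xc114 xc115)) (XT.nd (nat_lit 157872) (nat_lit 0) (nat_lit 456) (XT.nd (nat_lit 78858)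 (nat_lit 0) (nat_lit 456) xc116 xc117) (XT.nd (nat_lit 3198) (nat_lit 8512) (nat_lit 0) xc118 xc119))) (XT.nd (nat_lit 164892) (nat_lit 0) (nat_lit 532) (XT.nd (nat_lit 82368) (nat_lit 0) (nat_lit 532) (XT.nd (nat_lit 3198) (nat_lit 2356) (nat_lit 0) xc120 xc121) (XT.nd (nat_lit 79326) (nat_lit 0) (nat_lit 5852) xc122 xc123)) (XT.nd (nat_lit 158886) (nat_lit 0) (nat_lit 1216) (XT.nd (nat_lit 79404) (nat_lit 0) (nat_lit 608) xc124 xc125) (XT.nd (nat_lit 3198) (nat_lit 7676) (nat_lit 0) xc126 xc127))))))) (XT.nd (nat_lit 3660384) (nat_lit 0) (nat_lit 3496) (XT.nd (nat_lit 1953978) (nat_lit 0) (nat_lit 304) (XT.nd (nat_lit 976248) (nat_lit 10336) (nat_lit 0) (XT.nd (nat_lit 486174) (nat_lit 0) (nat_lit 2584) (XT.nd (nat_lit 242580) (nat_lit 0) (nat_lit 1216) (XT.nd (nat_lit 82836) (nat_lit 0) (nat_lit 0) (XT.nd (nat_lit 79638) (nat_lit 0) (nat_lit 7068) xc128 xc129) (XT.nd (nat_lit 79794) (nat_lit 0) (nat_lit 608) xc130 xc131)) (XT.nd (nat_lit 83226) (nat_lit 0) (nat_lit 0) (XT.nd (nat_lit 3198) (nat_lit 3496)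 (nat_lit 0) xc132 xc133) (XT.nd (nat_lit 80106) (nat_lit 0) (nat_lit 684) xc134 xc135))) (XT.nd (nat_lit 244530) (nat_lit 0) (nat_lit 1368) (XT.nd (nat_lit 83460) (nat_lit 0) (nat_lit 684) (XT.nd (nat_lit 3120) (nat_lit 3648) (nat_lit 0) xc136 xc137) (XT.nd (nat_lit 80496) (nat_lit 0) (nat_lit 684) xc138 xc139)) (XT.nd (nat_lit 83850) (nat_lit 0) (nat_lit 760) (XT.nd (nat_lit 80652) (nat_lit 0) (nat_lit 1520) xc140 xc141) (XT.nd (nat_lit 80808) (nat_lit 0) (nat_lit 760) xc142 xc143)))) (XT.nd (nat_lit 566904) (nat_lit 0) (nat_lit 0) (XT.nd (nat_lit 323466) (nat_lit 304) (nat_lit 0) (XT.nd (nat_lit 162084) (nat_lit 16264) (nat_lit 0) (XT.nd (nat_lit 80964) (nat_lit 0) (nat_lit 0) xc144 xc145) (XT.nd (nat_lit 80964) (nat_lit 380) (nat_lit 0) xc146 xc147)) (XT.nd (nat_lit 86424) (nat_lit 0) (nat_lit 0) (XT.nd (nat_lit 80262) (nat_lit 0) (nat_lit 3496) xc148 xc149) (XT.nd (nat_lit 77064) (nat_lit 0) (nat_lit 0) xc150 xc151))) (XT.nd (nat_lit 168480) (nat_lit 0) (nat_lit 0) (XT.nd (nat_lit 82914) (nat_lit 0)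 (nat_lit 0) (XT.nd (nat_lit 5850) (nat_lit 2660) (nat_lit 0) xc152 xc153) (XT.nd (nat_lit 79794) (nat_lit 0) (nat_lit 2280) xc154 xc155)) (XT.nd (nat_lit 156780) (nat_lit 0) (nat_lit 304) (XT.nd (nat_lit 79638) (nat_lit 0) (nat_lit 304) xc156 xc157) (XT.nd (nat_lit 5850) (nat_lit 1976) (nat_lit 0) xc158 xc159))))) (XT.nd (nat_lit 892086) (nat_lit 0) (nat_lit 1596) (XT.nd (nat_lit 407706) (nat_lit 0) (nat_lit 760) (XT.nd (nat_lit 239694) (nat_lit 0) (nat_lit 380) (XT.nd (nat_lit 82758) (nat_lit 0) (nat_lit 0) (XT.nd (nat_lit 77064) (nat_lit 0) (nat_lit 1976) xc160 xc161) (XT.nd (nat_lit 79638) (nat_lit 0) (nat_lit 380) xc162 xc163)) (XT.nd (nat_lit 85176) (nat_lit 0) (nat_lit 76) (XT.nd (nat_lit 5538) (nat_lit 1976) (nat_lit 0) xc164 xc165) (XT.nd (nat_lit 77376) (nat_lit 0) (nat_lit 1900) xc166 xc167))) (XT.nd (nat_lit 242112) (nat_lit 0) (nat_lit 380) (XT.nd (nat_lit 157014) (nat_lit 0) (nat_lit 380) (XT.nd (nat_lit 79560) (nat_lit 0) (nat_lit 0) xc168 xc169) (XT.nd (nat_lit 5382) (nat_lit 2052) (nat_lit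 0) xc170 xc171)) (XT.nd (nat_lit 82914) (nat_lit 0) (nat_lit 0) (XT.nd (nat_lit 79716) (nat_lit 0) (nat_lit 1672) xc172 xc173) (XT.nd (nat_lit 79638) (nat_lit 0) (nat_lit 380) xc174 xc175)))) (XT.nd (nat_lit 408564) (nat_lit 0) (nat_lit 380) (XT.nd (nat_lit 242736) (nat_lit 0) (nat_lit 0) (XT.nd (nat_lit 82914) (nat_lit 0) (nat_lit 380) (XT.nd (nat_lit 3120) (nat_lit 1216) (nat_lit 0) xc176 xc177) (XT.nd (nat_lit 79872) (nat_lit 0) (nat_lit 380) xc178 xc179)) (XT.nd (nat_lit 83070) (nat_lit 760) (nat_lit 0) (XT.nd (nat_lit 3198) (nat_lit 4180) (nat_lit 0) xc180 xc181) (XT.nd (nat_lit 79560) (nat_lit 0) (nat_lit 4940) xc182 xc183))) (XT.nd (nat_lit 241254) (nat_lit 0) (nat_lit 836) (XT.nd (nat_lit 158808) (nat_lit 0) (nat_lit 380) (XT.nd (nat_lit 79404) (nat_lit 0) (nat_lit 380) xc184 xc185) (XT.nd (nat_lit 3198) (nat_lit 6460) (nat_lit 0) xc186 xc187)) (XT.nd (nat_lit 82290) (nat_lit 0) (nat_lit 0) (XT.nd (nat_lit 3198) (nat_lit 1292) (nat_lit 0) xc188 xc189) (XT.nd (nat_lit 79014) (nat_lit 0) (nat_lit 6004)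 xc190 xc191)))))) (XT.nd (nat_lit 1543542) (nat_lit 0) (nat_lit 6156) (XT.nd (nat_lit 731172) (nat_lit 0) (nat_lit 2356) (XT.nd (nat_lit 403416) (nat_lit 0) (nat_lit 1368) (XT.nd (nat_lit 239694) (nat_lit 0) (nat_lit 912) (XT.nd (nat_lit 82056) (nat_lit 0) (nat_lit 456) (XT.nd (nat_lit 78858) (nat_lit 0) (nat_lit 2356) xc192 xc193) (XT.nd (nat_lit 78858) (nat_lit 0) (nat_lit 0) xc194 xc195)) (XT.nd (nat_lit 81900) (nat_lit 0) (nat_lit 0) (XT.nd (nat_lit 3198) (nat_lit 9196) (nat_lit 0) xc196 xc197) (XT.nd (nat_lit 3198) (nat_lit 6460) (nat_lit 0) xc198 xc199))) (XT.nd (nat_lit 163722) (nat_lit 0) (nat_lit 456) (XT.nd (nat_lit 81822) (nat_lit 0) (nat_lit 456) (XT.nd (nat_lit 3120) (nat_lit 3572) (nat_lit 0) xc200 xc201) (XT.nd (nat_lit 3198) (nat_lit 532) (nat_lit 0) xc202 xc203)) (XT.nd (nat_lit 81978) (nat_lit 0) (nat_lit 532) (XT.nd (nat_lit 78780) (nat_lit 0) (nat_lit 8968) xc204 xc205) (XT.nd (nat_lit 78858) (nat_lit 0) (nat_lit 5016) xc206 xc207)))) (XT.nd (nat_lit 405054) (nat_lit 0) (nat_lit 2052)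 (XT.nd (nat_lit 240162) (nat_lit 0) (nat_lit 988) (XT.nd (nat_lit 82056) (nat_lit 0) (nat_lit 456) (XT.nd (nat_lit 78858) (nat_lit 0) (nat_lit 1520) xc208 xc209) (XT.nd (nat_lit 79014) (nat_lit 0) (nat_lit 532) xc210 xc211)) (XT.nd (nat_lit 82368) (nat_lit 0) (nat_lit 532) (XT.nd (nat_lit 3198) (nat_lit 6004) (nat_lit 0) xc212 xc213) (XT.nd (nat_lit 3198) (nat_lit 532) (nat_lit 0) xc214 xc215))) (XT.nd (nat_lit 241566) (nat_lit 0) (nat_lit 1216) (XT.nd (nat_lit 82524) (nat_lit 0) (nat_lit 532) (XT.nd (nat_lit 79326) (nat_lit 0) (nat_lit 3040) xc216 xc217) (XT.nd (nat_lit 79482) (nat_lit 0) (nat_lit 0) xc218 xc219)) (XT.nd (nat_lit 82836) (nat_lit 0) (nat_lit 0) (XT.nd (nat_lit 3198) (nat_lit 3040) (nat_lit 0) xc220 xc221) (XT.nd (nat_lit 79716) (nat_lit 0) (nat_lit 3040) xc222 xc223))))) (XT.nd (nat_lit 1054326) (nat_lit 0) (nat_lit 6080) (XT.nd (nat_lit 486564) (nat_lit 0) (nat_lit 2508) (XT.nd (nat_lit 242814) (nat_lit 0) (nat_lit 1292) (XT.nd (nat_lit 159588) (nat_lit 0) (nat_lit 1216) (XT.nd (nat_lit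 79716) (nat_lit 0) (nat_lit 0) xc224 xc225) (XT.nd (nat_lit 3198) (nat_lit 684) (nat_lit 0) xc226 xc227)) (XT.nd (nat_lit 160290) (nat_lit 0) (nat_lit 608) (XT.nd (nat_lit 80106) (nat_lit 0) (nat_lit 608) xc228 xc229) (XT.nd (nat_lit 3198) (nat_lit 1292) (nat_lit 0) xc230 xc231))) (XT.nd (nat_lit 244530) (nat_lit 0) (nat_lit 1444) (XT.nd (nat_lit 160758) (nat_lit 0) (nat_lit 1368) (XT.nd (nat_lit 80262) (nat_lit 0) (nat_lit 684) xc232 xc233) (XT.nd (nat_lit 80574) (nat_lit 0) (nat_lit 760) xc234 xc235)) (XT.nd (nat_lit 161382) (nat_lit 0) (nat_lit 1368) (XT.nd (nat_lit 80652) (nat_lit 0) (nat_lit 684) xc236 xc237) (XT.nd (nat_lit 80886) (nat_lit 0) (nat_lit 0) xc238 xc239)))) (XT.nd (nat_lit 729924) (nat_lit 0) (nat_lit 5852) (XT.nd (nat_lit 324714) (nat_lit 0) (nat_lit 2356) (XT.nd (nat_lit 162084) (nat_lit 0) (nat_lit 1596) (XT.nd (nat_lit 80964) (nat_lit 0) (nat_lit 760) xc240 xc241) (XT.nd (nat_lit 81276) (nat_lit 0) (nat_lit 0) xc242 xc243)) (XT.nd (nat_lit 163020) (nat_lit 0) (nat_lit 836) (XT.nd (nat_lit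 81432) (nat_lit 0) (nat_lit 836) xc244 xc245) (XT.nd (nat_lit 81666) (nat_lit 0) (nat_lit 1748) xc246 xc247))) (XT.nd (nat_lit 407940) (nat_lit 0) (nat_lit 2812) (XT.nd (nat_lit 164112) (nat_lit 0) (nat_lit 912) (XT.nd (nat_lit 81978) (nat_lit 0) (nat_lit 912) xc248 xc249) (XT.nd (nat_lit 161382) (nat_lit 0) (nat_lit 1900) xc250 xc251)) (XT.nd (nat_lit 404586) (nat_lit 0) (nat_lit 1140) (XT.nd (nat_lit 162084) (nat_lit 0) (nat_lit 1140) xc252 xc253) (XT.nd (nat_lit 163332) (nat_lit 0) (nat_lit 0) xc254 xc255)))))))) XT.nil))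

set_option maxRecDepth 10000000 in
noncomputable def Te : XT := XT.nil

set_option maxRecDepth 10000000 in
noncomputable def Tz : ZL := (ZL.cons (nat_lit 76) (nat_lit 3) (nat_lit 295387336326582660986) (ZL.cons (nat_lit 152) (nat_lit 6) (nat_lit 584999950582609527332) (ZL.cons (nat_lit 5700) (nat_lit 6) (nat_lit 174975646467255662390) (ZL.cons (nat_lit 5928) (nat_lit 6) (nat_lit 173489015846612831018) (ZL.cons (nat_lit 6004) (nat_lit 3) (nat_lit 86728215466274694346) (ZL.cons (nat_lit 6156) (nat_lit 6) (nat_lit 172037183521800430762) (ZL.cons (nat_lit 6232) (nat_lit 6) (nat_lit 171972652613557143018) (ZL.cons (nat_lit 6460) (nat_lit 6) (nat_lit 170523729636428340172) (ZL.cons (nat_lit 6536) (nat_lit 3) (nat_lit 85245891821124247377) (ZL.cons (nat_lit 6688) (nat_lit 6) (nat_lit 169109093796073910036) (ZL.cons (nat_lit 6764) (nat_lit 6) (nat_lit 169045828199756961270) (ZL.cons (nat_lit 6992) (nat_lit 6) (nat_lit 167634219244732545880) (ZL.cons (nat_lit 7068) (nat_lit 3) (nat_lit 83801449821297721266) (ZL.cons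 (nat_lit 7220) (nat_lit 6) (nat_lit 166256403205036023330) (ZL.cons (nat_lit 7296) (nat_lit 6) (nat_lit 166194378110607642186) (ZL.cons (nat_lit 7448) (nat_lit 6) (nat_lit 164911839760651826350) (ZL.cons (nat_lit 7524) (nat_lit 6) (nat_lit 164819711242408466978) (ZL.cons (nat_lit 7600) (nat_lit 3) (nat_lit 82394502875058594591) (ZL.cons (nat_lit 7828) (nat_lit 6) (nat_lit 163478359952951564286) (ZL.cons (nat_lit 7904) (nat_lit 6) (nat_lit 163417551036845308262) (ZL.cons (nat_lit 8056) (nat_lit 6) (nat_lit 162169798222123421606) (ZL.cons (nat_lit 8132) (nat_lit 6) (nat_lit 162079476145414245748) (ZL.cons (nat_lit 8208) (nat_lit 3) (nat_lit 81024686360799633760) (ZL.cons (nat_lit 8360) (nat_lit 6) (nat_lit 160893512888460969072) (ZL.cons (nat_lit 8436) (nat_lit 6) (nat_lit 160774256340572460046) (ZL.cons (nat_lit 8512) (nat_lit 6) (nat_lit 160714639756154561984) (ZL.cons (nat_lit 8664) (nat_lit 6) (nat_lit 159501379771416091632) (ZL.cons (nat_lit 8740) (nat_lit 6) (nat_lit 159412828715818860402) (ZL.cons (nat_lit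 8816) (nat_lit 3) (nat_lit 79691657777607970284) (ZL.cons (nat_lit 8968) (nat_lit 6) (nat_lit 158260347270663118404) (ZL.cons (nat_lit 9044) (nat_lit 6) (nat_lit 158143429086458697790) (ZL.cons (nat_lit 9120) (nat_lit 6) (nat_lit 158084981454676444788) (ZL.cons (nat_lit 9348) (nat_lit 6) (nat_lit 156905943064297854478) (ZL.cons (nat_lit 9424) (nat_lit 6) (nat_lit 156819128303908412092) (ZL.cons (nat_lit 9500) (nat_lit 3) (nat_lit 78395096916364539462) (ZL.cons (nat_lit 9652) (nat_lit 6) (nat_lit 155699885360700188954) (ZL.cons (nat_lit 9728) (nat_lit 6) (nat_lit 155585259689911541294) (ZL.cons (nat_lit 9804) (nat_lit 6) (nat_lit 155527958090125018742) (ZL.cons (nat_lit 9956) (nat_lit 6) (nat_lit 154524783011860368808) (ZL.cons (nat_lit 10032) (nat_lit 6) (nat_lit 154382891742641127738) (ZL.cons (nat_lit 10108) (nat_lit 6) (nat_lit 154297779232455399912) (ZL.cons (nat_lit 10184) (nat_lit 3) (nat_lit 77134706051924105264) (ZL.cons (nat_lit 10336) (nat_lit 6) (nat_lit 153211552945255104596) (ZL.cons (nat_lit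 10412) (nat_lit 6) (nat_lit 153099174836638783360) (ZL.cons (nat_lit 10488) (nat_lit 6) (nat_lit 153042996797632388702) (ZL.cons (nat_lit 10640) (nat_lit 6) (nat_lit 152070783949205477348) (ZL.cons (nat_lit 10716) (nat_lit 6) (nat_lit 151931674861735633164) (ZL.cons (nat_lit 10792) (nat_lit 6) (nat_lit 151848231224298645096) (ZL.cons (nat_lit 10868) (nat_lit 3) (nat_lit 75910210156949719911) (ZL.cons (nat_lit 10944) (nat_lit 6) (nat_lit 151180659466553599122) (ZL.cons (nat_lit 11020) (nat_lit 6) (nat_lit 150960137394101638298) (ZL.cons (nat_lit 11096) (nat_lit 6) (nat_lit 150794821464618536320) (ZL.cons (nat_lit 11172) (nat_lit 6) (nat_lit 150684646848328025304) (ZL.cons (nat_lit 11248) (nat_lit 6) (nat_lit 150629570339498226620) (ZL.cons (nat_lit 11324) (nat_lit 6) (nat_lit 149879177732274919272) (ZL.cons (nat_lit 11400) (nat_lit 6) (nat_lit 149688168820425878282) (ZL.cons (nat_lit 11476) (nat_lit 6) (nat_lit 149551787362122109472) (ZL.cons (nat_lit 11552) (nat_lit 6) (nat_lit 149469979874438787840) (ZL.cons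 (nat_lit 11628) (nat_lit 3) (nat_lit 74721357138004097215) (ZL.cons (nat_lit 11704) (nat_lit 6) (nat_lit 148827481057975584306) (ZL.cons (nat_lit 11780) (nat_lit 6) (nat_lit 148611282947728563890) (ZL.cons (nat_lit 11856) (nat_lit 6) (nat_lit 148449208507058856068) (ZL.cons (nat_lit 11932) (nat_lit 6) (nat_lit 148341194177362276642) (ZL.cons (nat_lit 12008) (nat_lit 6) (nat_lit 148287197600078160284) (ZL.cons (nat_lit 12084) (nat_lit 6) (nat_lit 147563741538341221648) (ZL.cons (nat_lit 12160) (nat_lit 6) (nat_lit 147376477899273534400) (ZL.cons (nat_lit 12236) (nat_lit 6) (nat_lit 147242770587211015962) (ZL.cons (nat_lit 12312) (nat_lit 6) (nat_lit 147162567167913641810) (ZL.cons (nat_lit 12388) (nat_lit 3) (nat_lit 73567918094530059431) (ZL.cons (nat_lit 12464) (nat_lit 6) (nat_lit 146545133791711150636) (ZL.cons (nat_lit 12540) (nat_lit 6) (nat_lit 146333174860096424738) (ZL.cons (nat_lit 12616) (nat_lit 6) (nat_lit 146174278349635926874) (ZL.cons (nat_lit 12692) (nat_lit 6) (nat_lit 146068381947972613710)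 (ZL.cons (nat_lit 12768) (nat_lit 6) (nat_lit 146015444127105832968) (ZL.cons (nat_lit 12844) (nat_lit 6) (nat_lit 145555060253820064554) (ZL.cons (nat_lit 12920) (nat_lit 6) (nat_lit 145318890251080790956) (ZL.cons (nat_lit 12996) (nat_lit 6) (nat_lit 145135298448073254442) (ZL.cons (nat_lit 13072) (nat_lit 6) (nat_lit 145004212848011961852) (ZL.cons (nat_lit 13148) (nat_lit 6) (nat_lit 144925582044779242098) (ZL.cons (nat_lit 13224) (nat_lit 3) (nat_lit 72449687601382992152) (ZL.cons (nat_lit 13300) (nat_lit 6) (nat_lit 144333226313556430850) (ZL.cons (nat_lit 13376) (nat_lit 6) (nat_lit 144125423439424346636) (ZL.cons (nat_lit 13452) (nat_lit 6) (nat_lit 143969642546816015396) (ZL.cons (nat_lit 13528) (nat_lit 6) (nat_lit 143865822545185316216) (ZL.cons (nat_lit 13604) (nat_lit 6) (nat_lit 143813922720806119410) (ZL.cons (nat_lit 13680) (nat_lit 6) (nat_lit 143375796512645883884) (ZL.cons (nat_lit 13756) (nat_lit 6) (nat_lit 143144257294274047028) (ZL.cons (nat_lit 13832) (nat_lit 6) (nat_lit 142964265330541168088)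 (ZL.cons (nat_lit 13908) (nat_lit 6) (nat_lit 142835750036363430258) (ZL.cons (nat_lit 13984) (nat_lit 6) (nat_lit 142758661013586254026) (ZL.cons (nat_lit 14060) (nat_lit 3) (nat_lit 71366484015610157507) (ZL.cons (nat_lit 14136) (nat_lit 6) (nat_lit 142191415241585041764) (ZL.cons (nat_lit 14212) (nat_lit 6) (nat_lit 141987686933612410182) (ZL.cons (nat_lit 14288) (nat_lit 6) (nat_lit 141834960568310124652) (ZL.cons (nat_lit 14364) (nat_lit 6) (nat_lit 141733176252985909770) (ZL.cons (nat_lit 14440) (nat_lit 6) (nat_lit 141682294072221991332) (ZL.cons (nat_lit 14516) (nat_lit 6) (nat_lit 141266523617807256734) (ZL.cons (nat_lit 14592) (nat_lit 6) (nat_lit 141039524384109377460) (ZL.cons (nat_lit 14668) (nat_lit 6) (nat_lit 140863061674567339288) (ZL.cons (nat_lit 14744) (nat_lit 6) (nat_lit 140737066288118576706) (ZL.cons (nat_lit 14820) (nat_lit 6) (nat_lit 140661488814807619618) (ZL.cons (nat_lit 14896) (nat_lit 3) (nat_lit 70318149808204820096) (ZL.cons (nat_lit 14972) (nat_lit 6) (nat_lit 140369219720343132018)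 (ZL.cons (nat_lit 15048) (nat_lit 6) (nat_lit 140119405853581284420) (ZL.cons (nat_lit 15124) (nat_lit 6) (nat_lit 139919672218313998556) (ZL.cons (nat_lit 15200) (nat_lit 6) (nat_lit 139769940487625483332) (ZL.cons (nat_lit 15276) (nat_lit 6) (nat_lit 139670151943189978544) (ZL.cons (nat_lit 15352) (nat_lit 6) (nat_lit 139620267452244960468) (ZL.cons (nat_lit 15428) (nat_lit 6) (nat_lit 139226970511231845532) (ZL.cons (nat_lit 15504) (nat_lit 6) (nat_lit 139004422242900591344) (ZL.cons (nat_lit 15580) (nat_lit 6) (nat_lit 138831419586486828428) (ZL.cons (nat_lit 15656) (nat_lit 6) (nat_lit 138707894697811570998) (ZL.cons (nat_lit 15732) (nat_lit 6) (nat_lit 138633799135742005222) (ZL.cons (nat_lit 15808) (nat_lit 3) (nat_lit 69304551921597483286) (ZL.cons (nat_lit 15884) (nat_lit 6) (nat_lit 138361868382417002196) (ZL.cons (nat_lit 15960) (nat_lit 6) (nat_lit 138116952826768132004) (ZL.cons (nat_lit 16036) (nat_lit 6) (nat_lit 137921135537290400764) (ZL.cons (nat_lit 16112) (nat_lit 6) (nat_lit 137774339722889895642)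 (ZL.cons (nat_lit 16188) (nat_lit 6) (nat_lit 137676507816580577224) (ZL.cons (nat_lit 16264) (nat_lit 6) (nat_lit 137627601452908990874) (ZL.cons (nat_lit 16340) (nat_lit 6) (nat_lit 137523760211399964278) (ZL.cons (nat_lit 16416) (nat_lit 6) (nat_lit 137256915942694607806) (ZL.cons (nat_lit 16492) (nat_lit 6) (nat_lit 137038731365899260562) (ZL.cons (nat_lit 16568) (nat_lit 6) (nat_lit 136869120918434787116) (ZL.cons (nat_lit 16644) (nat_lit 6) (nat_lit 136748018086400221006) (ZL.cons (nat_lit 16720) (nat_lit 6) (nat_lit 136675375378488882014) (ZL.cons (nat_lit 16796) (nat_lit 3) (nat_lit 68325582153682167157) (ZL.cons (nat_lit 16872) (nat_lit 6) (nat_lit 136423974321313715408) (ZL.cons (nat_lit 16948) (nat_lit 6) (nat_lit 136183861031461881884) (ZL.cons (nat_lit 17024) (nat_lit 6) (nat_lit 135991883296679792434) (ZL.cons (nat_lit 17100) (nat_lit 6) (nat_lit 135847965831581258000) (ZL.cons (nat_lit 17176) (nat_lit 6) (nat_lit 135752052197944671316) (ZL.cons (nat_lit 17252) (nat_lit 6) (nat_lit 135704104782580370974)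 (ZL.cons (nat_lit 17328) (nat_lit 6) (nat_lit 135617801318852364262) (ZL.cons (nat_lit 17404) (nat_lit 6) (nat_lit 135356189290709857916) (ZL.cons (nat_lit 17480) (nat_lit 6) (nat_lit 135142282842871282186) (ZL.cons (nat_lit 17556) (nat_lit 6) (nat_lit 134975998090455131748) (ZL.cons (nat_lit 17632) (nat_lit 6) (nat_lit 134857269823754576740) (ZL.cons (nat_lit 17708) (nat_lit 6) (nat_lit 134786051482665028706) (ZL.cons (nat_lit 17784) (nat_lit 3) (nat_lit 67381157569212638032) (ZL.cons (nat_lit 17860) (nat_lit 6) (nat_lit 134838080789035079328) (ZL.cons (nat_lit 17936) (nat_lit 6) (nat_lit 134555391566489952570) (ZL.cons (nat_lit 18012) (nat_lit 6) (nat_lit 134319986380360704018) (ZL.cons (nat_lit 18088) (nat_lit 6) (nat_lit 134131772914888067300) (ZL.cons (nat_lit 18164) (nat_lit 6) (nat_lit 133990677360869896288) (ZL.cons (nat_lit 18240) (nat_lit 6) (nat_lit 133896644386716379930) (ZL.cons (nat_lit 18316) (nat_lit 6) (nat_lit 133849637116751379596) (ZL.cons (nat_lit 18392) (nat_lit 6) (nat_lit 133781153820478942352)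 (ZL.cons (nat_lit 18468) (nat_lit 6) (nat_lit 133524671439947073388) (ZL.cons (nat_lit 18544) (nat_lit 6) (nat_lit 133314959236183763848) (ZL.cons (nat_lit 18620) (nat_lit 6) (nat_lit 133151934969109106556) (ZL.cons (nat_lit 18696) (nat_lit 6) (nat_lit 133035534707637974194) (ZL.cons (nat_lit 18772) (nat_lit 6) (nat_lit 132965712804609005536) (ZL.cons (nat_lit 18848) (nat_lit 3) (nat_lit 66471220939441878922) (ZL.cons (nat_lit 18924) (nat_lit 6) (nat_lit 133033172430031332750) (ZL.cons (nat_lit 19000) (nat_lit 6) (nat_lit 132756026133418463378) (ZL.cons (nat_lit 19076) (nat_lit 6) (nat_lit 132525236735252533426) (ZL.cons (nat_lit 19152) (nat_lit 6) (nat_lit 132340713729887203312) (ZL.cons (nat_lit 19228) (nat_lit 6) (nat_lit 132202384755359584670) (ZL.cons (nat_lit 19304) (nat_lit 6) (nat_lit 132110195565013000008) (ZL.cons (nat_lit 19380) (nat_lit 6) (nat_lit 132064110006223783992) (ZL.cons (nat_lit 19456) (nat_lit 6) (nat_lit 132311154069111654112) (ZL.cons (nat_lit 19532) (nat_lit 6) (nat_lit 132013749031242901990)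 (ZL.cons (nat_lit 19608) (nat_lit 6) (nat_lit 131762295716995971630) (ZL.cons (nat_lit 19684) (nat_lit 6) (nat_lit 131556695517228021104) (ZL.cons (nat_lit 19760) (nat_lit 6) (nat_lit 131396867804409729640) (ZL.cons (nat_lit 19836) (nat_lit 6) (nat_lit 131282749901006658698) (ZL.cons (nat_lit 19912) (nat_lit 6) (nat_lit 131214297054899826678) (ZL.cons (nat_lit 19988) (nat_lit 3) (nat_lit 65595741210917929177) (ZL.cons (nat_lit 20140) (nat_lit 6) (nat_lit 131297549044360712532) (ZL.cons (nat_lit 20216) (nat_lit 6) (nat_lit 131025836988857899422) (ZL.cons (nat_lit 20292) (nat_lit 6) (nat_lit 130799572873008948488) (ZL.cons (nat_lit 20368) (nat_lit 6) (nat_lit 130618667965788036612) (ZL.cons (nat_lit 20444) (nat_lit 6) (nat_lit 130483051324094292848) (ZL.cons (nat_lit 20520) (nat_lit 6) (nat_lit 130392669764930974548) (ZL.cons (nat_lit 20596) (nat_lit 6) (nat_lit 130347487844549390220) (ZL.cons (nat_lit 20672) (nat_lit 6) (nat_lit 130607145310031941202) (ZL.cons (nat_lit 20748) (nat_lit 6) (nat_lit 130315571743493948924)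 (ZL.cons (nat_lit 20824) (nat_lit 6) (nat_lit 130069048886389115240) (ZL.cons (nat_lit 20900) (nat_lit 6) (nat_lit 129867480063087202956) (ZL.cons (nat_lit 20976) (nat_lit 6) (nat_lit 129710786226990838780) (ZL.cons (nat_lit 21052) (nat_lit 6) (nat_lit 129598905929536847658) (ZL.cons (nat_lit 21128) (nat_lit 6) (nat_lit 129531795296098777050) (ZL.cons (nat_lit 21204) (nat_lit 3) (nat_lit 64754714004390580523) (ZL.cons (nat_lit 21280) (nat_lit 6) (nat_lit 129942267081694106128) (ZL.cons (nat_lit 21356) (nat_lit 6) (nat_lit 129631221445513781334) (ZL.cons (nat_lit 21432) (nat_lit 6) (nat_lit 129364837077373768482) (ZL.cons (nat_lit 21508) (nat_lit 6) (nat_lit 129143009512815973448) (ZL.cons (nat_lit 21584) (nat_lit 6) (nat_lit 128965651760638608864) (ZL.cons (nat_lit 21660) (nat_lit 6) (nat_lit 128832694268781997330) (ZL.cons (nat_lit 21736) (nat_lit 6) (nat_lit 128744084897053253900) (ZL.cons (nat_lit 21812) (nat_lit 6) (nat_lit 128699788896679151616) (ZL.cons (nat_lit 21888) (nat_lit 6) (nat_lit 129302653622787074830)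 (ZL.cons (nat_lit 21964) (nat_lit 6) (nat_lit 128972517722251522078) (ZL.cons (nat_lit 22040) (nat_lit 6) (nat_lit 128686661284469176710) (ZL.cons (nat_lit 22116) (nat_lit 6) (nat_lit 128444972208876202508) (ZL.cons (nat_lit 22192) (nat_lit 6) (nat_lit 128247355715442955174) (ZL.cons (nat_lit 22268) (nat_lit 6) (nat_lit 128093734307505343232) (ZL.cons (nat_lit 22344) (nat_lit 6) (nat_lit 127984047741373979390) (ZL.cons (nat_lit 22420) (nat_lit 6) (nat_lit 127918253002709204284) (ZL.cons (nat_lit 22496) (nat_lit 3) (nat_lit 63948162144826359002) (ZL.cons (nat_lit 22572) (nat_lit 6) (nat_lit 128339202258521578110) (ZL.cons (nat_lit 22648) (nat_lit 6) (nat_lit 128034255556384004784) (ZL.cons (nat_lit 22724) (nat_lit 6) (nat_lit 127773094411148698066) (ZL.cons (nat_lit 22800) (nat_lit 6) (nat_lit 127555616406680271564) (ZL.cons (nat_lit 22876) (nat_lit 6) (nat_lit 127381736257486776872) (ZL.cons (nat_lit 22952) (nat_lit 6) (nat_lit 127251385775274412622) (ZL.cons (nat_lit 23028) (nat_lit 6) (nat_lit 127164513842207017104)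 (ZL.cons (nat_lit 23104) (nat_lit 6) (nat_lit 127121086390859858002) (ZL.cons (nat_lit 23180) (nat_lit 6) (nat_lit 127731026695318565142) (ZL.cons (nat_lit 23256) (nat_lit 6) (nat_lit 127407364047734689896) (ZL.cons (nat_lit 23332) (nat_lit 6) (nat_lit 127127112638144155220) (ZL.cons (nat_lit 23408) (nat_lit 6) (nat_lit 126890162564033396202) (ZL.cons (nat_lit 23484) (nat_lit 6) (nat_lit 126696420903804722342) (ZL.cons (nat_lit 23560) (nat_lit 6) (nat_lit 126545811680336475342) (ZL.cons (nat_lit 23636) (nat_lit 6) (nat_lit 126438275831188079416) (ZL.cons (nat_lit 23712) (nat_lit 6) (nat_lit 126373771185438299902) (ZL.cons (nat_lit 23788) (nat_lit 3) (nat_lit 63176136223573813540) (ZL.cons (nat_lit 23864) (nat_lit 6) (nat_lit 127147752532421619246) (ZL.cons (nat_lit 23940) (nat_lit 6) (nat_lit 126805740918713918588) (ZL.cons (nat_lit 24016) (nat_lit 6) (nat_lit 126506773563677081992) (ZL.cons (nat_lit 24092) (nat_lit 6) (nat_lit 126250733225211095016) (ZL.cons (nat_lit 24168) (nat_lit 6) (nat_lit 126037519495340088640)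 (ZL.cons (nat_lit 24244) (nat_lit 6) (nat_lit 125867048760836662472) (ZL.cons (nat_lit 24320) (nat_lit 6) (nat_lit 125739254170432383796) (ZL.cons (nat_lit 24396) (nat_lit 6) (nat_lit 125654085608601603874) (ZL.cons (nat_lit 24472) (nat_lit 6) (nat_lit 125611509675908310640) (ZL.cons (nat_lit 24548) (nat_lit 6) (nat_lit 126589151034864898482) (ZL.cons (nat_lit 24624) (nat_lit 6) (nat_lit 126229150238682859186) (ZL.cons (nat_lit 24700) (nat_lit 6) (nat_lit 125911833917522197178) (ZL.cons (nat_lit 24776) (nat_lit 6) (nat_lit 125637077633609908282) (ZL.cons (nat_lit 24852) (nat_lit 6) (nat_lit 125404773639383673948) (ZL.cons (nat_lit 24928) (nat_lit 6) (nat_lit 125214830835237915264) (ZL.cons (nat_lit 25004) (nat_lit 6) (nat_lit 125067174733798457420) (ZL.cons (nat_lit 25080) (nat_lit 6) (nat_lit 124961747430711794748) (ZL.cons (nat_lit 25156) (nat_lit 6) (nat_lit 124898507581937501106) (ZL.cons (nat_lit 25232) (nat_lit 3) (nat_lit 62438715193767440347) (ZL.cons (nat_lit 25308) (nat_lit 6) (nat_lit 125677365893649342644)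 (ZL.cons (nat_lit 25384) (nat_lit 6) (nat_lit 125342060390014341998) (ZL.cons (nat_lit 25460) (nat_lit 6) (nat_lit 125048955139978227690) (ZL.cons (nat_lit 25536) (nat_lit 6) (nat_lit 124797935200305691436) (ZL.cons (nat_lit 25612) (nat_lit 6) (nat_lit 124588902131804704794) (ZL.cons (nat_lit 25688) (nat_lit 6) (nat_lit 124421773960722914434) (ZL.cons (nat_lit 25764) (nat_lit 6) (nat_lit 124296485146601072594) (ZL.cons (nat_lit 25840) (nat_lit 6) (nat_lit 124212986556570896202) (ZL.cons (nat_lit 25916) (nat_lit 6) (nat_lit 124171245446087275382) (ZL.cons (nat_lit 25992) (nat_lit 6) (nat_lit 125150171497595708762) (ZL.cons (nat_lit 26068) (nat_lit 6) (nat_lit 124797229540554493764) (ZL.cons (nat_lit 26144) (nat_lit 6) (nat_lit 124486135108044040818) (ZL.cons (nat_lit 26220) (nat_lit 6) (nat_lit 124216766202247679152) (ZL.cons (nat_lit 26296) (nat_lit 6) (nat_lit 123989017188300390590) (ZL.cons (nat_lit 26372) (nat_lit 6) (nat_lit 123802798752863372272) (ZL.cons (nat_lit 26448) (nat_lit 6) (nat_lit 123658037869099197916)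 (ZL.cons (nat_lit 26524) (nat_lit 6) (nat_lit 123554677768033842356) (ZL.cons (nat_lit 26600) (nat_lit 6) (nat_lit 123492677916294338786) (ZL.cons (nat_lit 26676) (nat_lit 3) (nat_lit 61736007000106669189) (ZL.cons (nat_lit 26752) (nat_lit 6) (nat_lit 124647360307621544350) (ZL.cons (nat_lit 26828) (nat_lit 6) (nat_lit 124277127709986001556) (ZL.cons (nat_lit 26904) (nat_lit 6) (nat_lit 123948396824069334258) (ZL.cons (nat_lit 26980) (nat_lit 6) (nat_lit 123661038735798633954) (ZL.cons (nat_lit 27056) (nat_lit 6) (nat_lit 123414940755727519980) (ZL.cons (nat_lit 27132) (nat_lit 6) (nat_lit 123210006374844199742) (ZL.cons (nat_lit 27208) (nat_lit 6) (nat_lit 123046155226724797428) (ZL.cons (nat_lit 27284) (nat_lit 6) (nat_lit 122923323056017109352) (ZL.cons (nat_lit 27360) (nat_lit 6) (nat_lit 122841461693242426614) (ZL.cons (nat_lit 27436) (nat_lit 6) (nat_lit 122800539035905543456) (ZL.cons (nat_lit 27512) (nat_lit 6) (nat_lit 124168735142868036010) (ZL.cons (nat_lit 27588) (nat_lit 6) (nat_lit 123781550936806681652)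 (ZL.cons (nat_lit 27664) (nat_lit 6) (nat_lit 123435529410295686558) (ZL.cons (nat_lit 27740) (nat_lit 6) (nat_lit 123130534868618771902) (ZL.cons (nat_lit 27816) (nat_lit 6) (nat_lit 122866447706073319290) (ZL.cons (nat_lit 27892) (nat_lit 6) (nat_lit 122643164359066173640) (ZL.cons (nat_lit 27968) (nat_lit 6) (nat_lit 122460597265500469406) (ZL.cons (nat_lit 28044) (nat_lit 6) (nat_lit 122318674830437553372) (ZL.cons (nat_lit 28120) (nat_lit 6) (nat_lit 122217341398020538118) (ZL.cons (nat_lit 28196) (nat_lit 6) (nat_lit 122156557229648475792) (ZL.cons (nat_lit 28272) (nat_lit 3) (nat_lit 61068149244196296521) (ZL.cons (nat_lit 28348) (nat_lit 6) (nat_lit 123310304877183914710) (ZL.cons (nat_lit 28424) (nat_lit 6) (nat_lit 122947331742247108052) (ZL.cons (nat_lit 28500) (nat_lit 6) (nat_lit 122625046559975865600) (ZL.cons (nat_lit 28576) (nat_lit 6) (nat_lit 122343322944024198636) (ZL.cons (nat_lit 28652) (nat_lit 6) (nat_lit 122102050414542714348) (ZL.cons (nat_lit 28728) (nat_lit 6) (nat_lit 121901134354853184702)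 (ZL.cons (nat_lit 28804) (nat_lit 6) (nat_lit 121740495974343966748) (ZL.cons (nat_lit 28880) (nat_lit 6) (nat_lit 121620072277571723536) (ZL.cons (nat_lit 28956) (nat_lit 6) (nat_lit 121539816039557328694) (ZL.cons (nat_lit 29032) (nat_lit 6) (nat_lit 121499695787266266776) (ZL.cons (nat_lit 29108) (nat_lit 6) (nat_lit 122863204728741378074) (ZL.cons (nat_lit 29184) (nat_lit 6) (nat_lit 122483612369857697334) (ZL.cons (nat_lit 29260) (nat_lit 6) (nat_lit 122144375579160643318) (ZL.cons (nat_lit 29336) (nat_lit 6) (nat_lit 121845361322614648558) (ZL.cons (nat_lit 29412) (nat_lit 6) (nat_lit 121586452339726949918) (ZL.cons (nat_lit 29488) (nat_lit 6) (nat_lit 121367547097563081634) (ZL.cons (nat_lit 29564) (nat_lit 6) (nat_lit 121188559750930038268) (ZL.cons (nat_lit 29640) (nat_lit 6) (nat_lit 121049420108711493136) (ZL.cons (nat_lit 29716) (nat_lit 6) (nat_lit 120950073606341870336) (ZL.cons (nat_lit 29792) (nat_lit 6) (nat_lit 120890481284408475902) (ZL.cons (nat_lit 29868) (nat_lit 3) (nat_lit 60435309886686648367)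 (ZL.cons (nat_lit 29944) (nat_lit 6) (nat_lit 122440075158087525654) (ZL.cons (nat_lit 30020) (nat_lit 6) (nat_lit 122044189442393184048) (ZL.cons (nat_lit 30096) (nat_lit 6) (nat_lit 121688333427749255950) (ZL.cons (nat_lit 30172) (nat_lit 6) (nat_lit 121372367562777449626) (ZL.cons (nat_lit 30248) (nat_lit 6) (nat_lit 121096167939295423190) (ZL.cons (nat_lit 30324) (nat_lit 6) (nat_lit 120859626243725340554) (ZL.cons (nat_lit 30400) (nat_lit 6) (nat_lit 120662649714617958550) (ZL.cons (nat_lit 30476) (nat_lit 6) (nat_lit 120505161106275588006) (ZL.cons (nat_lit 30552) (nat_lit 6) (nat_lit 120387098658459663286) (ZL.cons (nat_lit 30628) (nat_lit 6) (nat_lit 120308416072171040894) (ZL.cons (nat_lit 30704) (nat_lit 6) (nat_lit 120269082491493529210) (ZL.cons (nat_lit 30780) (nat_lit 6) (nat_lit 122040750232057395156) (ZL.cons (nat_lit 30856) (nat_lit 6) (nat_lit 121628890637136915446) (ZL.cons (nat_lit 30932) (nat_lit 6) (nat_lit 121256741265682326482) (ZL.cons (nat_lit 31008) (nat_lit 6) (nat_lit 120924156176763646076)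 (ZL.cons (nat_lit 31084) (nat_lit 6) (nat_lit 120631004944855808076) (ZL.cons (nat_lit 31160) (nat_lit 6) (nat_lit 120377172608691397644) (ZL.cons (nat_lit 31236) (nat_lit 6) (nat_lit 120162559626177801288) (ZL.cons (nat_lit 31312) (nat_lit 6) (nat_lit 119987081835361092106) (ZL.cons (nat_lit 31388) (nat_lit 6) (nat_lit 119850670421421341974) (ZL.cons (nat_lit 31464) (nat_lit 6) (nat_lit 119753271889686417662) (ZL.cons (nat_lit 31540) (nat_lit 6) (nat_lit 119694848044653678020) (ZL.cons (nat_lit 31616) (nat_lit 3) (nat_lit 59837687987505672752) (ZL.cons (nat_lit 31768) (nat_lit 6) (nat_lit 121237553091812320442) (ZL.cons (nat_lit 31844) (nat_lit 6) (nat_lit 120849429841131593374) (ZL.cons (nat_lit 31920) (nat_lit 6) (nat_lit 120500551395402252102) (ZL.cons (nat_lit 31996) (nat_lit 6) (nat_lit 120190780939547540020) (ZL.cons (nat_lit 32072) (nat_lit 6) (nat_lit 119919996994957318024) (ZL.cons (nat_lit 32148) (nat_lit 6) (nat_lit 119688093371849393872) (ZL.cons (nat_lit 32224) (nat_lit 6) (nat_lit 119494979127626470338)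 (ZL.cons (nat_lit 32300) (nat_lit 6) (nat_lit 119340578531212381568) (ZL.cons (nat_lit 32376) (nat_lit 6) (nat_lit 119224831033353631844) (ZL.cons (nat_lit 32452) (nat_lit 6) (nat_lit 119147691242874590282) (ZL.cons (nat_lit 32528) (nat_lit 6) (nat_lit 119109128908877029808) (ZL.cons (nat_lit 32604) (nat_lit 6) (nat_lit 120870023340715350172) (ZL.cons (nat_lit 32680) (nat_lit 6) (nat_lit 120466239424126644572) (ZL.cons (nat_lit 32756) (nat_lit 6) (nat_lit 120101387099171165196) (ZL.cons (nat_lit 32832) (nat_lit 6) (nat_lit 119775323286505792248) (ZL.cons (nat_lit 32908) (nat_lit 6) (nat_lit 119487920117968696170) (ZL.cons (nat_lit 32984) (nat_lit 6) (nat_lit 119239064886434960454) (ZL.cons (nat_lit 33060) (nat_lit 6) (nat_lit 119028660001617709124) (ZL.cons (nat_lit 33136) (nat_lit 6) (nat_lit 118856622951797406002) (ZL.cons (nat_lit 33212) (nat_lit 6) (nat_lit 118722886271464317640) (ZL.cons (nat_lit 33288) (nat_lit 6) (nat_lit 118627397514861450666) (ZL.cons (nat_lit 33364) (nat_lit 6) (nat_lit 118570119235417588272)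 (ZL.cons (nat_lit 33440) (nat_lit 3) (nat_lit 59275514485531180157) (ZL.cons (nat_lit 33516) (nat_lit 6) (nat_lit 120526157254531848964) (ZL.cons (nat_lit 33592) (nat_lit 6) (nat_lit 120107019743915713430) (ZL.cons (nat_lit 33668) (nat_lit 6) (nat_lit 119726506753052255522) (ZL.cons (nat_lit 33744) (nat_lit 6) (nat_lit 119384469061160744470) (ZL.cons (nat_lit 33820) (nat_lit 6) (nat_lit 119080772535812987526) (ZL.cons (nat_lit 33896) (nat_lit 6) (nat_lit 118815298080332377728) (ZL.cons (nat_lit 33972) (nat_lit 6) (nat_lit 118587941587089314834) (ZL.cons (nat_lit 34048) (nat_lit 6) (nat_lit 118398613896674683916) (ZL.cons (nat_lit 34124) (nat_lit 6) (nat_lit 118247240762935381202) (ZL.cons (nat_lit 34200) (nat_lit 6) (nat_lit 118133762823858175590) (ZL.cons (nat_lit 34276) (nat_lit 6) (nat_lit 118058135578290487784) (ZL.cons (nat_lit 34352) (nat_lit 6) (nat_lit 118020329368488957906) (ZL.cons (nat_lit 34428) (nat_lit 6) (nat_lit 120205819983816254658) (ZL.cons (nat_lit 34504) (nat_lit 6) (nat_lit 119771629930035972130)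 (ZL.cons (nat_lit 34580) (nat_lit 6) (nat_lit 119375763345145084288) (ZL.cons (nat_lit 34656) (nat_lit 6) (nat_lit 119018064987345594704) (ZL.cons (nat_lit 34732) (nat_lit 6) (nat_lit 118698394582771699656) (ZL.cons (nat_lit 34808) (nat_lit 6) (nat_lit 118416626770480428992) (ZL.cons (nat_lit 34884) (nat_lit 6) (nat_lit 118172651053290492016) (ZL.cons (nat_lit 34960) (nat_lit 6) (nat_lit 117966371754450049534) (ZL.cons (nat_lit 35036) (nat_lit 6) (nat_lit 117797707980116419024) (ZL.cons (nat_lit 35112) (nat_lit 6) (nat_lit 117666593587632999060) (ZL.cons (nat_lit 35188) (nat_lit 6) (nat_lit 117572977159590972616) (ZL.cons (nat_lit 35264) (nat_lit 6) (nat_lit 117516821983665617326) (ZL.cons (nat_lit 35340) (nat_lit 3) (nat_lit 58749053019109657703) (ZL.cons (nat_lit 35416) (nat_lit 6) (nat_lit 119384770682835011880) (ZL.cons (nat_lit 35492) (nat_lit 6) (nat_lit 119635238576675118692) (ZL.cons (nat_lit 35568) (nat_lit 6) (nat_lit 119908885906109463104) (ZL.cons (nat_lit 35644) (nat_lit 6) (nat_lit 119459938457070212934)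 (ZL.cons (nat_lit 35720) (nat_lit 6) (nat_lit 119049019329015178098) (ZL.cons (nat_lit 35796) (nat_lit 6) (nat_lit 118675967377188258580) (ZL.cons (nat_lit 35872) (nat_lit 6) (nat_lit 118340636306706385000) (ZL.cons (nat_lit 35948) (nat_lit 6) (nat_lit 118042894615188976232) (ZL.cons (nat_lit 36024) (nat_lit 6) (nat_lit 117782625541188378390) (ZL.cons (nat_lit 36100) (nat_lit 6) (nat_lit 117559727018401061826) (ZL.cons (nat_lit 36176) (nat_lit 6) (nat_lit 117374111635641619752) (ZL.cons (nat_lit 36252) (nat_lit 6) (nat_lit 117225706602563871992) (ZL.cons (nat_lit 36328) (nat_lit 6) (nat_lit 117114453721115631196) (ZL.cons (nat_lit 36404) (nat_lit 6) (nat_lit 117040309362715937268) (ZL.cons (nat_lit 36480) (nat_lit 6) (nat_lit 117003244451145809936) (ZL.cons (nat_lit 36556) (nat_lit 3) (nat_lit 58760693927333494616) (ZL.cons (nat_lit 36632) (nat_lit 6) (nat_lit 117532795801187633424) (ZL.cons (nat_lit 36708) (nat_lit 6) (nat_lit 117567024114454083896) (ZL.cons (nat_lit 36784) (nat_lit 6) (nat_lit 117624086217334288282)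 (ZL.cons (nat_lit 36860) (nat_lit 6) (nat_lit 117704004487123493718) (ZL.cons (nat_lit 36936) (nat_lit 6) (nat_lit 117806810264319656754) (ZL.cons (nat_lit 37012) (nat_lit 6) (nat_lit 117932543864913834708) (ZL.cons (nat_lit 37088) (nat_lit 6) (nat_lit 118081254596200378242) (ZL.cons (nat_lit 37164) (nat_lit 6) (nat_lit 118253000776113125214) (ZL.cons (nat_lit 37240) (nat_lit 6) (nat_lit 118447849756095178660) (ZL.cons (nat_lit 37316) (nat_lit 6) (nat_lit 118665877947511237428) (ZL.cons (nat_lit 37392) (nat_lit 6) (nat_lit 118907170851612837224) (ZL.cons (nat_lit 37468) (nat_lit 6) (nat_lit 119171823093068253190) (ZL.cons (nat_lit 37544) (nat_lit 6) (nat_lit 118746146569754250712) (ZL.cons (nat_lit 37620) (nat_lit 6) (nat_lit 118358042074763184200) (ZL.cons (nat_lit 37696) (nat_lit 6) (nat_lit 118007357410253880686) (ZL.cons (nat_lit 37772) (nat_lit 6) (nat_lit 117693955052828493386) (ZL.cons (nat_lit 37848) (nat_lit 6) (nat_lit 117417712099601757440) (ZL.cons (nat_lit 37924) (nat_lit 6) (nat_lit 117178520220003780010)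 (ZL.cons (nat_lit 38000) (nat_lit 6) (nat_lit 116976285613297463854) (ZL.cons (nat_lit 38076) (nat_lit 6) (nat_lit 116810928971793904530) (ZL.cons (nat_lit 38152) (nat_lit 6) (nat_lit 116682385449751335938) (ZL.cons (nat_lit 38228) (nat_lit 6) (nat_lit 116590604637945427658) (ZL.cons (nat_lit 38304) (nat_lit 6) (nat_lit 116535550543900961688) (ZL.cons (nat_lit 38380) (nat_lit 3) (nat_lit 58258600788888568138) (ZL.cons (nat_lit 38456) (nat_lit 6) (nat_lit 116939646840957458466) (ZL.cons (nat_lit 38532) (nat_lit 6) (nat_lit 116962690892929159732) (ZL.cons (nat_lit 38608) (nat_lit 6) (nat_lit 117008788033755688422) (ZL.cons (nat_lit 38684) (nat_lit 6) (nat_lit 117077956340747172590) (ZL.cons (nat_lit 38760) (nat_lit 6) (nat_lit 117170222938729883404) (ZL.cons (nat_lit 38836) (nat_lit 6) (nat_lit 117285624010683421922) (ZL.cons (nat_lit 38912) (nat_lit 6) (nat_lit 117424204811930122872) (ZL.cons (nat_lit 38988) (nat_lit 6) (nat_lit 117586019687882239860) (ZL.cons (nat_lit 39064) (nat_lit 6) (nat_lit 117771132095353871754)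 (ZL.cons (nat_lit 39140) (nat_lit 6) (nat_lit 117979614627445987822) (ZL.cons (nat_lit 39216) (nat_lit 6) (nat_lit 118211549042014310464) (ZL.cons (nat_lit 39292) (nat_lit 6) (nat_lit 118467026293731219414) (ZL.cons (nat_lit 39368) (nat_lit 6) (nat_lit 118064164403481185260) (ZL.cons (nat_lit 39444) (nat_lit 6) (nat_lit 117698427195807734752) (ZL.cons (nat_lit 39520) (nat_lit 6) (nat_lit 117369671244354917518) (ZL.cons (nat_lit 39596) (nat_lit 6) (nat_lit 117077767625220203040) (ZL.cons (nat_lit 39672) (nat_lit 6) (nat_lit 116822601866396087506) (ZL.cons (nat_lit 39748) (nat_lit 6) (nat_lit 116604073902879110484) (ZL.cons (nat_lit 39824) (nat_lit 6) (nat_lit 116422098037428677078) (ZL.cons (nat_lit 39900) (nat_lit 6) (nat_lit 116276602906960296922) (ZL.cons (nat_lit 39976) (nat_lit 6) (nat_lit 116167531454560060846) (ZL.cons (nat_lit 40052) (nat_lit 6) (nat_lit 116094840907109380524) (ZL.cons (nat_lit 40128) (nat_lit 6) (nat_lit 116058502758511216474) (ZL.cons (nat_lit 40204) (nat_lit 3) (nat_lit 58190360230155948012)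 (ZL.cons (nat_lit 40280) (nat_lit 6) (nat_lit 116392356565762953098) (ZL.cons (nat_lit 40356) (nat_lit 6) (nat_lit 116427269445294732582) (ZL.cons (nat_lit 40432) (nat_lit 6) (nat_lit 116485472790232541054) (ZL.cons (nat_lit 40508) (nat_lit 6) (nat_lit 116566989425417530600) (ZL.cons (nat_lit 40584) (nat_lit 6) (nat_lit 116671851318157616896) (ZL.cons (nat_lit 40660) (nat_lit 6) (nat_lit 116800099590763678410) (ZL.cons (nat_lit 40736) (nat_lit 6) (nat_lit 116951784536675952814) (ZL.cons (nat_lit 40812) (nat_lit 6) (nat_lit 117126965640186954724) (ZL.cons (nat_lit 40888) (nat_lit 6) (nat_lit 117325711599768649240) (ZL.cons (nat_lit 40964) (nat_lit 6) (nat_lit 117548100355013029182) (ZL.cons (nat_lit 41040) (nat_lit 6) (nat_lit 117794219117196660978) (ZL.cons (nat_lit 41116) (nat_lit 6) (nat_lit 117413724514264242828) (ZL.cons (nat_lit 41192) (nat_lit 6) (nat_lit 117069916019647278600) (ZL.cons (nat_lit 41268) (nat_lit 6) (nat_lit 116762658806485134188) (ZL.cons (nat_lit 41344) (nat_lit 6) (nat_lit 116491832381753040122)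 (ZL.cons (nat_lit 41420) (nat_lit 6) (nat_lit 116257330539009924996) (ZL.cons (nat_lit 41496) (nat_lit 6) (nat_lit 116059061316748830724) (ZL.cons (nat_lit 41572) (nat_lit 6) (nat_lit 115896946962333576486) (ZL.cons (nat_lit 41648) (nat_lit 6) (nat_lit 115770923901507528846) (ZL.cons (nat_lit 41724) (nat_lit 6) (nat_lit 115680942713462520728) (ZL.cons (nat_lit 41800) (nat_lit 6) (nat_lit 115626968111458142326) (ZL.cons (nat_lit 41876) (nat_lit 3) (nat_lit 57804489464491901844) (ZL.cons (nat_lit 41952) (nat_lit 6) (nat_lit 115855797472435006660) (ZL.cons (nat_lit 42028) (nat_lit 6) (nat_lit 115879302405446141952) (ZL.cons (nat_lit 42104) (nat_lit 6) (nat_lit 115926321489089201218) (ZL.cons (nat_lit 42180) (nat_lit 6) (nat_lit 115996873162220515068) (ZL.cons (nat_lit 42256) (nat_lit 6) (nat_lit 116090985092162880096) (ZL.cons (nat_lit 42332) (nat_lit 6) (nat_lit 116208694185555489388) (ZL.cons (nat_lit 42408) (nat_lit 6) (nat_lit 116350046602827124356) (ZL.cons (nat_lit 42484) (nat_lit 6) (nat_lit 116515097776298283682)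 (ZL.cons (nat_lit 42560) (nat_lit 6) (nat_lit 116703912431919348214) (ZL.cons (nat_lit 42636) (nat_lit 6) (nat_lit 116916564614653306604) (ZL.cons (nat_lit 42712) (nat_lit 6) (nat_lit 117153137717512995700) (ZL.cons (nat_lit 42788) (nat_lit 6) (nat_lit 116794571827637063830) (ZL.cons (nat_lit 42864) (nat_lit 6) (nat_lit 116472262071310772424) (ZL.cons (nat_lit 42940) (nat_lit 6) (nat_lit 116186082052551248424) (ZL.cons (nat_lit 43016) (nat_lit 6) (nat_lit 115935919543900154766) (ZL.cons (nat_lit 43092) (nat_lit 6) (nat_lit 115721676442412922390) (ZL.cons (nat_lit 43168) (nat_lit 6) (nat_lit 115543268731187007286) (ZL.cons (nat_lit 43244) (nat_lit 6) (nat_lit 115400626446414085564) (ZL.cons (nat_lit 43320) (nat_lit 6) (nat_lit 115293693649943265882) (ZL.cons (nat_lit 43396) (nat_lit 6) (nat_lit 115222428407344559684) (ZL.cons (nat_lit 43472) (nat_lit 6) (nat_lit 115186802771464006694) (ZL.cons (nat_lit 43548) (nat_lit 3) (nat_lit 57676401598807301788) (ZL.cons (nat_lit 43624) (nat_lit 6) (nat_lit 115364672025174681794)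 (ZL.cons (nat_lit 43700) (nat_lit 6) (nat_lit 115400283162297096868) (ZL.cons (nat_lit 43776) (nat_lit 6) (nat_lit 115459650574133661512) (ZL.cons (nat_lit 43852) (nat_lit 6) (nat_lit 115542797542022350844) (ZL.cons (nat_lit 43928) (nat_lit 6) (nat_lit 115649756672617238868) (ZL.cons (nat_lit 44004) (nat_lit 6) (nat_lit 115780569910675421614) (ZL.cons (nat_lit 44080) (nat_lit 6) (nat_lit 115935288555505941504) (ZL.cons (nat_lit 44156) (nat_lit 6) (nat_lit 116113973281087163452) (ZL.cons (nat_lit 44232) (nat_lit 6) (nat_lit 116316694159860491858) (ZL.cons (nat_lit 44308) (nat_lit 6) (nat_lit 116543530690209759402) (ZL.cons (nat_lit 44384) (nat_lit 6) (nat_lit 116206463538624500354) (ZL.cons (nat_lit 44460) (nat_lit 6) (nat_lit 115905230976700829360) (ZL.cons (nat_lit 44536) (nat_lit 6) (nat_lit 115639714874022305768) (ZL.cons (nat_lit 44612) (nat_lit 6) (nat_lit 115409811106627094860) (ZL.cons (nat_lit 44688) (nat_lit 6) (nat_lit 115215429516175041652) (ZL.cons (nat_lit 44764) (nat_lit 6) (nat_lit 115056493874591459064)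 (ZL.cons (nat_lit 44840) (nat_lit 6) (nat_lit 114932941854173765300) (ZL.cons (nat_lit 44916) (nat_lit 6) (nat_lit 114844725003149247538) (ZL.cons (nat_lit 44992) (nat_lit 6) (nat_lit 114791808726674366752) (ZL.cons (nat_lit 45068) (nat_lit 3) (nat_lit 57387086136634076200) (ZL.cons (nat_lit 45144) (nat_lit 6) (nat_lit 114883176488644951532) (ZL.cons (nat_lit 45220) (nat_lit 6) (nat_lit 114907151520316309532) (ZL.cons (nat_lit 45296) (nat_lit 6) (nat_lit 114955110985632229984) (ZL.cons (nat_lit 45372) (nat_lit 6) (nat_lit 115027073692226170110) (ZL.cons (nat_lit 45448) (nat_lit 6) (nat_lit 115123067860767382438) (ZL.cons (nat_lit 45524) (nat_lit 6) (nat_lit 115243131136027843916) (ZL.cons (nat_lit 45600) (nat_lit 6) (nat_lit 115387310601644911584) (ZL.cons (nat_lit 45676) (nat_lit 6) (nat_lit 115555662798585494096) (ZL.cons (nat_lit 45752) (nat_lit 6) (nat_lit 115748253747318979918) (ZL.cons (nat_lit 45828) (nat_lit 6) (nat_lit 115965158973707617478) (ZL.cons (nat_lit 45904) (nat_lit 6) (nat_lit 115649169016524978842)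 (ZL.cons (nat_lit 45980) (nat_lit 6) (nat_lit 115368600370682308256) (ZL.cons (nat_lit 46056) (nat_lit 6) (nat_lit 115123343009259667414) (ZL.cons (nat_lit 46132) (nat_lit 6) (nat_lit 114913300752899635674) (ZL.cons (nat_lit 46208) (nat_lit 6) (nat_lit 114738391232089914982) (ZL.cons (nat_lit 46284) (nat_lit 6) (nat_lit 114598545854861560352) (ZL.cons (nat_lit 46360) (nat_lit 6) (nat_lit 114493709779890168508) (ZL.cons (nat_lit 46436) (nat_lit 6) (nat_lit 114423841894989476158) (ZL.cons (nat_lit 46512) (nat_lit 6) (nat_lit 114388914800988934010) (ZL.cons (nat_lit 46588) (nat_lit 3) (nat_lit 57217313487038959950) (ZL.cons (nat_lit 46664) (nat_lit 6) (nat_lit 114446733178189199682) (ZL.cons (nat_lit 46740) (nat_lit 6) (nat_lit 114483056538054063060) (ZL.cons (nat_lit 46816) (nat_lit 6) (nat_lit 114543611298127358994) (ZL.cons (nat_lit 46892) (nat_lit 6) (nat_lit 114628421205373822116) (ZL.cons (nat_lit 46968) (nat_lit 6) (nat_lit 114737519518580607898) (ZL.cons (nat_lit 47044) (nat_lit 6) (nat_lit 114870949021399954298)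 (ZL.cons (nat_lit 47120) (nat_lit 6) (nat_lit 115028762039127084588) (ZL.cons (nat_lit 47196) (nat_lit 6) (nat_lit 115211020459219930974) (ZL.cons (nat_lit 47272) (nat_lit 6) (nat_lit 115417795755568725950) (ZL.cons (nat_lit 47348) (nat_lit 6) (nat_lit 115122469714467087722) (ZL.cons (nat_lit 47424) (nat_lit 6) (nat_lit 114862159809880299886) (ZL.cons (nat_lit 47500) (nat_lit 6) (nat_lit 114636763959492838212) (ZL.cons (nat_lit 47576) (nat_lit 6) (nat_lit 114446193772775138988) (ZL.cons (nat_lit 47652) (nat_lit 6) (nat_lit 114290374516320646254) (ZL.cons (nat_lit 47728) (nat_lit 6) (nat_lit 114169245084538593544) (ZL.cons (nat_lit 47804) (nat_lit 6) (nat_lit 114082757975691027112) (ZL.cons (nat_lit 47880) (nat_lit 6) (nat_lit 114030879273264673400) (ZL.cons (nat_lit 47956) (nat_lit 3) (nat_lit 57006794316335172802) (ZL.cons (nat_lit 48032) (nat_lit 6) (nat_lit 114018847579703168458) (ZL.cons (nat_lit 48108) (nat_lit 6) (nat_lit 114043302112007953618) (ZL.cons (nat_lit 48184) (nat_lit 6) (nat_lit 114092220766630192478)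 (ZL.cons (nat_lit 48260) (nat_lit 6) (nat_lit 114165622727356011408) (ZL.cons (nat_lit 48336) (nat_lit 6) (nat_lit 114263536779268047984) (ZL.cons (nat_lit 48412) (nat_lit 6) (nat_lit 114386001320033718688) (ZL.cons (nat_lit 48488) (nat_lit 6) (nat_lit 114533064374963127710) (ZL.cons (nat_lit 48564) (nat_lit 6) (nat_lit 114704783615842521874) (ZL.cons (nat_lit 48640) (nat_lit 6) (nat_lit 114901226383550677414) (ZL.cons (nat_lit 48716) (nat_lit 6) (nat_lit 114626159083704921936) (ZL.cons (nat_lit 48792) (nat_lit 6) (nat_lit 114385710690153313268) (ZL.cons (nat_lit 48868) (nat_lit 6) (nat_lit 114179786909408184110) (ZL.cons (nat_lit 48944) (nat_lit 6) (nat_lit 114008306987045712844) (ZL.cons (nat_lit 49020) (nat_lit 6) (nat_lit 113871203676037522030) (ZL.cons (nat_lit 49096) (nat_lit 6) (nat_lit 113768423210379294732) (ZL.cons (nat_lit 49172) (nat_lit 6) (nat_lit 113699925284006066938) (ZL.cons (nat_lit 49248) (nat_lit 6) (nat_lit 113665683034985927578) (ZL.cons (nat_lit 49324) (nat_lit 3) (nat_lit 56811663463292149883)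 (ZL.cons (nat_lit 49400) (nat_lit 6) (nat_lit 113635675254777805144) (ZL.cons (nat_lit 49476) (nat_lit 6) (nat_lit 113672725081839965786) (ZL.cons (nat_lit 49552) (nat_lit 6) (nat_lit 113734490937114727642) (ZL.cons (nat_lit 49628) (nat_lit 6) (nat_lit 113820997042506120026) (ZL.cons (nat_lit 49704) (nat_lit 6) (nat_lit 113932277321977041524) (ZL.cons (nat_lit 49780) (nat_lit 6) (nat_lit 114068375414852774850) (ZL.cons (nat_lit 49856) (nat_lit 6) (nat_lit 114229344692934447746) (ZL.cons (nat_lit 49932) (nat_lit 6) (nat_lit 114415248281429151064) (ZL.cons (nat_lit 50008) (nat_lit 6) (nat_lit 114160042492618574754) (ZL.cons (nat_lit 50084) (nat_lit 6) (nat_lit 113939066168709298602) (ZL.cons (nat_lit 50160) (nat_lit 6) (nat_lit 113752232652319397402) (ZL.cons (nat_lit 50236) (nat_lit 6) (nat_lit 113599468675403228056) (ZL.cons (nat_lit 50312) (nat_lit 6) (nat_lit 113480714330518862654) (ZL.cons (nat_lit 50388) (nat_lit 6) (nat_lit 113395923047334973994) (ZL.cons (nat_lit 50464) (nat_lit 6) (nat_lit 113345061574367960552)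 (ZL.cons (nat_lit 50540) (nat_lit 3) (nat_lit 56664054982971074494) (ZL.cons (nat_lit 50616) (nat_lit 6) (nat_lit 113260016112694115620) (ZL.cons (nat_lit 50692) (nat_lit 6) (nat_lit 113284959735644996480) (ZL.cons (nat_lit 50768) (nat_lit 6) (nat_lit 113334856763359680118) (ZL.cons (nat_lit 50844) (nat_lit 6) (nat_lit 113409726763300015428) (ZL.cons (nat_lit 50920) (nat_lit 6) (nat_lit 113509599096250292734) (ZL.cons (nat_lit 50996) (nat_lit 6) (nat_lit 113634512927831276854) (ZL.cons (nat_lit 51072) (nat_lit 6) (nat_lit 113784517243859274054) (ZL.cons (nat_lit 51148) (nat_lit 6) (nat_lit 113959670869556256104) (ZL.cons (nat_lit 51224) (nat_lit 6) (nat_lit 113723937150388012310) (ZL.cons (nat_lit 51300) (nat_lit 6) (nat_lit 113522051090833964116) (ZL.cons (nat_lit 51376) (nat_lit 6) (nat_lit 113353933519890364836) (ZL.cons (nat_lit 51452) (nat_lit 6) (nat_lit 113219518509098020902) (ZL.cons (nat_lit 51528) (nat_lit 6) (nat_lit 113118753346687994138) (ZL.cons (nat_lit 51604) (nat_lit 6) (nat_lit 113051598516910319830)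 (ZL.cons (nat_lit 51680) (nat_lit 6) (nat_lit 113018027684537634184) (ZL.cons (nat_lit 51756) (nat_lit 3) (nat_lit 56458088684223131995) (ZL.cons (nat_lit 51832) (nat_lit 6) (nat_lit 112928772663203639472) (ZL.cons (nat_lit 51908) (nat_lit 6) (nat_lit 112966563486807043328) (ZL.cons (nat_lit 51984) (nat_lit 6) (nat_lit 113029564659187300420) (ZL.cons (nat_lit 52060) (nat_lit 6) (nat_lit 113117800886686520652) (ZL.cons (nat_lit 52136) (nat_lit 6) (nat_lit 113231306771746860580) (ZL.cons (nat_lit 52212) (nat_lit 6) (nat_lit 113370126826480108574) (ZL.cons (nat_lit 52288) (nat_lit 6) (nat_lit 113534315490123414928) (ZL.cons (nat_lit 52364) (nat_lit 6) (nat_lit 113317672035310399092) (ZL.cons (nat_lit 52440) (nat_lit 6) (nat_lit 113134501921202652818) (ZL.cons (nat_lit 52516) (nat_lit 6) (nat_lit 112984733316382878950) (ZL.cons (nat_lit 52592) (nat_lit 6) (nat_lit 112868307488064873654) (ZL.cons (nat_lit 52668) (nat_lit 6) (nat_lit 112785178779061061242) (ZL.cons (nat_lit 52744) (nat_lit 6) (nat_lit 112735314589877714730)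 (ZL.cons (nat_lit 52820) (nat_lit 3) (nat_lit 56359347682965420324) (ZL.cons (nat_lit 52896) (nat_lit 6) (nat_lit 112604024183311015800) (ZL.cons (nat_lit 52972) (nat_lit 6) (nat_lit 112629466678720914278) (ZL.cons (nat_lit 53048) (nat_lit 6) (nat_lit 112680361646989891588) (ZL.cons (nat_lit 53124) (nat_lit 6) (nat_lit 112756729046929033602) (ZL.cons (nat_lit 53200) (nat_lit 6) (nat_lit 112858598826538316456) (ZL.cons (nat_lit 53276) (nat_lit 6) (nat_lit 112986010934750920258) (ZL.cons (nat_lit 53352) (nat_lit 6) (nat_lit 113139015337099477406) (ZL.cons (nat_lit 53428) (nat_lit 6) (nat_lit 112941087827732763490) (ZL.cons (nat_lit 53504) (nat_lit 6) (nat_lit 112776266679748842628) (ZL.cons (nat_lit 53580) (nat_lit 6) (nat_lit 112644487257403407398) (ZL.cons (nat_lit 53656) (nat_lit 6) (nat_lit 112545697882491616454) (ZL.cons (nat_lit 53732) (nat_lit 6) (nat_lit 112479859814082131838) (ZL.cons (nat_lit 53808) (nat_lit 6) (nat_lit 112446947233324596890) (ZL.cons (nat_lit 53884) (nat_lit 3) (nat_lit 56155293471811034765)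 (ZL.cons (nat_lit 53960) (nat_lit 6) (nat_lit 112323434144274592526) (ZL.cons (nat_lit 54036) (nat_lit 6) (nat_lit 112361980784350064458) (ZL.cons (nat_lit 54112) (nat_lit 6) (nat_lit 112426241980177926690) (ZL.cons (nat_lit 54188) (nat_lit 6) (nat_lit 112516242932227131326) (ZL.cons (nat_lit 54264) (nat_lit 6) (nat_lit 112632018934988678054) (ZL.cons (nat_lit 54340) (nat_lit 6) (nat_lit 112773615390816591010) (ZL.cons (nat_lit 54416) (nat_lit 6) (nat_lit 112594036847573702506) (ZL.cons (nat_lit 54492) (nat_lit 6) (nat_lit 112447204882064120282) (ZL.cons (nat_lit 54568) (nat_lit 6) (nat_lit 112333061913124899404) (ZL.cons (nat_lit 54644) (nat_lit 6) (nat_lit 112251563178807436256) (ZL.cons (nat_lit 54720) (nat_lit 6) (nat_lit 112202676718823763204) (ZL.cons (nat_lit 54796) (nat_lit 3) (nat_lit 56093191681006551169) (ZL.cons (nat_lit 54872) (nat_lit 6) (nat_lit 112048345870709471668) (ZL.cons (nat_lit 54948) (nat_lit 6) (nat_lit 112074297216027568118) (ZL.cons (nat_lit 55024) (nat_lit 6) (nat_lit 112126210083661924972)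 (ZL.cons (nat_lit 55100) (nat_lit 6) (nat_lit 112204104831599849826) (ZL.cons (nat_lit 55176) (nat_lit 6) (nat_lit 112308012006801318336) (ZL.cons (nat_lit 55252) (nat_lit 6) (nat_lit 112437972357178174218) (ZL.cons (nat_lit 55328) (nat_lit 6) (nat_lit 112276382996409624352) (ZL.cons (nat_lit 55404) (nat_lit 6) (nat_lit 112147187484306256480) (ZL.cons (nat_lit 55480) (nat_lit 6) (nat_lit 112050335155961363398) (ZL.cons (nat_lit 55556) (nat_lit 6) (nat_lit 111985788030069711814) (ZL.cons (nat_lit 55632) (nat_lit 6) (nat_lit 111953520794032912844) (ZL.cons (nat_lit 55708) (nat_lit 3) (nat_lit 55902046990135606222) (ZL.cons (nat_lit 55784) (nat_lit 6) (nat_lit 111817198124936785898) (ZL.cons (nat_lit 55860) (nat_lit 6) (nat_lit 111856515697813767270) (ZL.cons (nat_lit 55936) (nat_lit 6) (nat_lit 111922062117558186746) (ZL.cons (nat_lit 56012) (nat_lit 6) (nat_lit 112013863088648375474) (ZL.cons (nat_lit 56088) (nat_lit 6) (nat_lit 112131954611465153138) (ZL.cons (nat_lit 56164) (nat_lit 6) (nat_lit 111988001704102817624)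 (ZL.cons (nat_lit 56240) (nat_lit 6) (nat_lit 111876096832593777548) (ZL.cons (nat_lit 56316) (nat_lit 6) (nat_lit 111796196112674696030) (ZL.cons (nat_lit 56392) (nat_lit 6) (nat_lit 111748268210729918528) (ZL.cons (nat_lit 56468) (nat_lit 3) (nat_lit 55866147165751890212) (ZL.cons (nat_lit 56544) (nat_lit 6) (nat_lit 111590582687904741026) (ZL.cons (nat_lit 56620) (nat_lit 6) (nat_lit 111617053060129199402) (ZL.cons (nat_lit 56696) (nat_lit 6) (nat_lit 111670004185116243396) (ZL.cons (nat_lit 56772) (nat_lit 6) (nat_lit 111749456828012926746) (ZL.cons (nat_lit 56848) (nat_lit 6) (nat_lit 111855442146718424628) (ZL.cons (nat_lit 56924) (nat_lit 6) (nat_lit 111728779879950416910) (ZL.cons (nat_lit 57000) (nat_lit 6) (nat_lit 111633826616867188398) (ZL.cons (nat_lit 57076) (nat_lit 6) (nat_lit 111570545120894980962) (ZL.cons (nat_lit 57152) (nat_lit 6) (nat_lit 111538910575760864326) (ZL.cons (nat_lit 57228) (nat_lit 3) (nat_lit 55697181018066298702) (ZL.cons (nat_lit 57304) (nat_lit 6) (nat_lit 111407728263691482326)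 (ZL.cons (nat_lit 57380) (nat_lit 6) (nat_lit 111447832188026003324) (ZL.cons (nat_lit 57456) (nat_lit 6) (nat_lit 111514689536165311192) (ZL.cons (nat_lit 57532) (nat_lit 6) (nat_lit 111608326526677303696) (ZL.cons (nat_lit 57608) (nat_lit 6) (nat_lit 111498615868335107542) (ZL.cons (nat_lit 57684) (nat_lit 6) (nat_lit 111420281829198753112) (ZL.cons (nat_lit 57760) (nat_lit 6) (nat_lit 111373293690037206542) (ZL.cons (nat_lit 57836) (nat_lit 3) (nat_lit 55678816512064614005) (ZL.cons (nat_lit 57912) (nat_lit 6) (nat_lit 111228459220345150268) (ZL.cons (nat_lit 57988) (nat_lit 6) (nat_lit 111255459000014097812) (ZL.cons (nat_lit 58064) (nat_lit 6) (nat_lit 111309469147500882684) (ZL.cons (nat_lit 58140) (nat_lit 6) (nat_lit 111390510843255499706) (ZL.cons (nat_lit 58216) (nat_lit 6) (nat_lit 111297419408860177634) (ZL.cons (nat_lit 58292) (nat_lit 6) (nat_lit 111235378726534484070) (ZL.cons (nat_lit 58368) (nat_lit 6) (nat_lit 111204364466599075604) (ZL.cons (nat_lit 58444) (nat_lit 3) (nat_lit 55539587814252288607)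 (ZL.cons (nat_lit 58520) (nat_lit 6) (nat_lit 111092809180614639836) (ZL.cons (nat_lit 58596) (nat_lit 6) (nat_lit 111133715183435851254) (ZL.cons (nat_lit 58672) (nat_lit 6) (nat_lit 111201909678537945280) (ZL.cons (nat_lit 58748) (nat_lit 6) (nat_lit 111125111600953284074) (ZL.cons (nat_lit 58824) (nat_lit 6) (nat_lit 111079044797853728614) (ZL.cons (nat_lit 58900) (nat_lit 3) (nat_lit 55531845601913149340) (ZL.cons (nat_lit 58976) (nat_lit 6) (nat_lit 110959818945584727648) (ZL.cons (nat_lit 59052) (nat_lit 6) (nat_lit 110987358720847054144) (ZL.cons (nat_lit 59128) (nat_lit 6) (nat_lit 111042449071283574716) (ZL.cons (nat_lit 59204) (nat_lit 6) (nat_lit 110981624872925051614) (ZL.cons (nat_lit 59280) (nat_lit 6) (nat_lit 110951218735733474686) (ZL.cons (nat_lit 59356) (nat_lit 3) (nat_lit 55428218070945508093) (ZL.cons (nat_lit 59432) (nat_lit 6) (nat_lit 110870342365043280060) (ZL.cons (nat_lit 59508) (nat_lit 6) (nat_lit 110912066487920915710) (ZL.cons (nat_lit 59584) (nat_lit 6) (nat_lit 110866902955470371140)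 (ZL.cons (nat_lit 59660) (nat_lit 3) (nat_lit 55425925206153112073) (ZL.cons (nat_lit 59736) (nat_lit 6) (nat_lit 110782620227257547130) (ZL.cons (nat_lit 59812) (nat_lit 6) (nat_lit 110810710798025120158) (ZL.cons (nat_lit 59888) (nat_lit 6) (nat_lit 110780900859602005522) (ZL.cons (nat_lit 59964) (nat_lit 3) (nat_lit 55362078953325754004) (ZL.cons (nat_lit 60040) (nat_lit 6) (nat_lit 110738342254266817162) (ZL.cons (nat_lit 60116) (nat_lit 3) (nat_lit 55361792429503924760) (ZL.cons (nat_lit 60192) (nat_lit 6) (nat_lit 110694932476824925034) (ZL.cons (nat_lit 60268) (nat_lit 1) (nat_lit 18446744073709551617) ZL.nil)))))))))))))))))))))))))))))))))))))))))))))))))))))))))))))))))))))))))))))))))))))))))))))))))))))))))))))))))))))))))))))))))))))))))))))))))))))))))))))))))))))))))))))))))))))))))))))))))))))))))))))))))))))))))))))))))))))))))))))))))))))))))))))))))))))))))))))))))))))))))))))))))))))))))))))))))))))))))))))))))))))))))))))))))))))))))))))))))))))))))))))))))))))))))))))))))))))))))))))))))))))))))))))))))))))))))))))))))))))))))))))))))))))))))))))))))))))))))))))))))))))))))))))))))))))))))))))))))))))))))))))))))))))))))))))))))))))))))))))))))))))))))))))))))))))))))))))))))))))))))))))))))))))))))))))))))))))))))))))))))))))))))))))))))))))))))))))))))))))))))))))))))))))))))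

noncomputable def vl : XL := ⟨(nat_lit 0), (nat_lit 76), (nat_lit 37314629), (nat_lit 152), (nat_lit 82733088), (nat_lit 152), (nat_lit 82733088), (nat_lit 1), (nat_lit 4), (nat_lit 2), (nat_lit 5), (nat_lit 2), (nat_lit 4), (nat_lit 0), (nat_lit 0), (nat_lit 0)⟩

noncomputable def cp0 : Nat := (nat_lit 2177803402370403789651252869369224155085392814062896231302906333935118486917421729757759257868944014217329246415518913498734603678085588351271394539618503226055312566058414264870561884880047915178438543060160221550136815733342871485896624223651050860571847128759380005602208635028685451233492760760292531250048572623358868764275376227274532277413934494056326452670595515635159987635689805781804545949005712593668216494442726465181598597989831094367307850311287203608864618840892511594418362296683030218009329897560292882054630169216587045730059186331749559100127884952276616798627330136414601940691505667328638387938143430308862229623668442566339445002281835403489950361562946960791481201349364598423575883205510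57185919435058343140422405189604848797428155711575615327761328481583105950860322729242124306375606182623380319231600285825365409791723061755013534609724789672506850672198035774720480573806447590031492086740814325216898256135240543631787667361641591595617151972938546270442781734519056820502132578108265411078332391743495464985840690389256046942335681056751005331658293051258173054113031763916925626607923081006295810513230098535305344857058872905833518456836416888023782960919879058715413760243080572074476987108935130181086297497704105670496939578608609033446817607388968293471382943982491114794836467663210119333212935038633285000429444611137138800208620398401151010479819830571407501334800620402555358761323299094609250947507324398982149384915398076890179656885661363944778999749392863815232511317302090718979977513574270308908622990717217514645360334057092077768593512977820961678318893648912743359383161779729628244735414925548365819206156446697416287137533722251187172956978415840490655903482668367911093426079818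57561739700567457387408479898286646833980912570038975402212806173580896660308702101162873884078837081761709768779802720905541336755010383108941916526837881654313676867338754534636610812973232730724803840585939058932952096976852033437157770925731080189307870629845509866528239509911851560497362027009824729954897493309174641047181300004929059114689324066787666473461968233482741788320629426496741475823656266985921806612327192828142804461251396422699228061051107838111737005218782587207445732614460530990096250959860518264080708706629965220402968393722307485548651318409013378115552331956921304841923833337264350121866906788204618527969325236653017050596111331180846382846111468497640314984972545048369641273706030195418463813348425245672292293371484840620971801978955340291378068856165541280057396532316798401414576904906964003300775184046418941161186584829090365484740115818550452141907438181099035513954754366760390365447185738421832182117454075390776078374313692568408133840038755904302384304177109063952727243561732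67241721055277773990918311229883610109263658795402776977374794930389852060633773986705192875312793844553096529812001163510564409999803201055395359434072635011254575783169782350521265005473857915258530607353675936508230017796683179971377818808883126866279566895311901547806370306246137365838608884068291867138029092557114497868064979491233497536799766794791088384427399411130897296893895616944951334957980515351334211159803656021210721596058569403580219434521052549278434474406929442148613198205531645096171485401556823958499650662730165608040534357245284801405359213444170265149593255830344067903847056607470208923721035391917517316962431569023726252549499035357050707084734206348450586100845219671419883980323595693920999911668949641999146313644799037156233770094579286116694483234553516764659238885803173822378853295322253569664329808487800949860430063125166778582966637949310205563008695576540254896398224452588713280623599346870340890220536659600954077834843479487103892323766569260893554988535409017352121774061156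39896605941569659001812704360902101978076359630190982264781905189017715895601665023054296111819403624007221871012781838579247592287143461727306993870207829347397240811042745848482480196533796943254627120725041670829100993566641334338525164523681651334320177092545342235324650078683646576552689984465842776809135089590487254233845524240758557965943494422445620902786777923750692465647623217051460385214001764500305348622401051148052301481793856006531055425475370772846715229512521593803411480619358111738323029540724477750235641374746316187019764447747310738661606126975739346698219273934841745801440132821652874924887258775425055456264472808295343008257853680069771581259290799924850995687887299582246878318072236414356514104831401230936043238759597506564396264489123691938532886743340100819275402160042296857469010851624080672353565417149913636605865795481170753257954015142279434754109826304173910728133447953037660528951610238537690713800144636364458482355958630012903634131800825933066771576768514266549391129775334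84270686329322517882436374784780802198571840875010302609387002203523244514932494496696715762620106544581813986736185825456209087540527914432057608004650726936723118424404739197014743739184052478526314965280967286557163759289863618788878866065780648306552121424877992750028697378482820998802425274970508596360162826224286347910609012889068687110713717806952672200956129355941607859840969748093151642198891481528366838967304798474475683365523116508783219321950909735714675426511161203671983833784794954628849754529921118242582007016602085814181255274714402257170525401591489046698093419304283582764013886784235478568874225255838036270595616681616138638449474929091551846105160985087966295038536530387707975853231898586718596115092276969174624009086947191581287678781339790767251762554491298238560834688828961452397846445090813337737866135236896447942565441365602148514155880663483619226818692045661333683088658194055396489363222128293183014265931350590040207387342760732633006102336688694086086691656694155182024767548457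37294585636694227269855035821126317057149229230974832729693485372888436009750188365046773384760277831622240214584578636714710988771320397722707546950686468055640826382996541838979221761447160463175985310938614129125435275715418596161780227923631039984671910159252115572135900413509384449051190736935339931854194434952607744762997626697043922095632476317628504342167612851928585872503929123990097689791720460263017870409893895684698324337985869299288414902554291633678030904906762517296172497052548943471351891873688366937819216117759666140348059039118067172300093388288017167566395898485289846896639973989924581384894243476225198048462931976522022795959218604328519316301501094208814485223225203098656984940442946714575581742589962717761103460479149002265241908208829515060806294181308967204169230504044375943794298308336928528932265111967701057062106699733549121506084456219768701050547977277044233970836636097767895356089223759710717797982091735324156640327768873179580081813985149006677397453499860688936397195987706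26982006872563337872433431049048729674168362583498565071349783888715259480785915513116610003718544605443406680842209882498058789302167333373402299403091890737103137576997824381159029064743702942042911192945411839821563744116475423679661615187194567601470678046098456651446047292947676137313300102315754418506747731085549516731282236538665429222509422006112378223240955656046380356415692613880976631937890944784268732391347742771329747114188459071761601330776326344414252723481455764794298678659141585596650640304007650654371986569333677987466467393273606409938695400782731743688997008602275507239194181408577241059945010363686140573478159707503979503144477645711596248382623504310588389681255141990136908859300841597554135517406612943020824571117910869162880796594910213883688091445581836259192568716888360674996841266801675734620994845418385023605346881117831942881749943556148400671221046928798296805940837222478260272317409072851573484935262434789431506762690199405175271491098825680115985684239262440531100388587113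51046495519658380918555198159227460739079373336671296648062396656819307992156027926902461195820112021595453617480981049170436124130218341790163903294739128910795233227049393925826104562860357848998727681139164253602508037730110539111965491939165759971672171791782847564919763907296929392075094324549871510693848694161395152638105341100390214893622096115798345096012146155584447978731364445251947298293107416982253575517864757523103815912517567549113192374412315992039711587794603261593728970519342506880740385567829433002977211173607631121907717262420840895345282636757256474469185741456883198505357686897619944216602227370628443733579712757806580948665955379529191529850423149397265393510140490526692550577813608960324548985163336740248060569429398749502717519913059531734496527427650956507865547024628884479181488420937463890368994500530586171763569354070737320160721380305207842248708160717586303920372112569439657576907344704882576125640330376775987218140884717852659173741024598034981076376549921020686417954258849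52974817355481417958227454720901868987570303375926522037722541875565221182068985129710622039229506473219950268740150747147712644365062807123476657624368691560046387515403500796960458852829738826906327571828373853086707360584336961637937660000366854741904262240394458278327584076919850355138431977278980491673868422391099507291391270811247707457878434542368604784365257258579839582930125477295673125328557669989913230899419304243687411156436202381843988102172957651439825795280696876968498481571085489666897704254954986715373445044823779662136658864713250880389693756753901218648466201881254964503232571207412943274986005238702941814268468702179904375592489127477876579556106942186909979241706406176282084480777252785448816899824276238705428990510975696171275850731188357931356268304238926769566654719632896524993906634971309341172551495395046975353798944820028449185276354888518584849045112262613385967342857466135835628558800233450727742016524901498247711684507098663465192654026144684515436393388609938015986946876633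83895166067673024107782998273944707603745568635387374162973070017434924087989853964609946790709319364137225902567245123427486140223828645920017493584250175489668125993537775470775429275403844739434279431181146374233783939109435780063478784976415134804661206726455071640358465919724200495271670590323118815683390876648645442342847923190857130676949487073292381254819463933449494384491698719021280396511458819185139025493297238235008099019965942371815728512272201767877822140304429090391582527731136221165735319732723259121044637072231105272800447397515483287412950818081606797318529427902466411481323520348215644712855597392920502518319479595096171567320365967349136721779417638290533065288113327848826338366294684745480737727522912236213962711968862375460596625780332058025117414062511645587123306449852126490996807180707561597859223922491715628396352416740831211130836330004015078932889529984685438818832892973859130879703507927941032935809650264852522350197775587717430804258676150918228107111347498212646972921094915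20038371440161015808428309103718639919018448242416261672817787105669172578528743216567395120516479043814038015072438449182577587088105122421269658054660611064774453251934041196567788866554436000097574858908611953038365452082261648388191644117529115787008598958683562626186092787766377023902941774031611997595704689957639410200975456246743237834485246147318066614644525209286503871528161318083207082205972715589211650487533177944435388286978605193977544635638172532449574194552207183488128567741316831319332540725828947522570474766428996372177559527551046567733638047468850219774455523624420060223860966014468399081972970373443626509357168087144393142225036057283165789148525769373436294203238972058493049300636726109355393585722020869869250717563260863403287269559497730675786025421384896331704866320534658626644513124324841509796187047163964581958227836722605597211516790537144489475302391240856321521294105164867494210430566927021174733731318379369840171743352135692493711973251848872755656980130021314008062444178932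73328967541383332742313423603735603916830141590726569168579732954996070808163101936539351019392661082413436304646658605910271732660553537293461330247493258371409255314520944012995834187292979254492210495822985049860441560861481107852513760426760426358994876883852885643073418044773816849870575371249843754737834521266336806892843523615842861046904262472036702462925276807426798756376689464151311405739958164593773751829895787224690380162863241911983410329688965833605563060754625352578366689316278096682987802342285706034791383669980357061497716285692653485886176422778250062924444420067730838889120175844118169959964296303504901075368442153556716954642543553679891604953720992441102511950207328149650518996562531961957341352770083308000780314535585854885869453459368212210706007851813607810210812159120974959547155093979478397263910019090304753603535537290618579952665332100575628187887738186205692222018328961368921178953787724115575836103416568423200275844966847977647274073979280970150415851076246487460193993307567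17905033985131819806669443556487447751319740961989177729406116560521132875219531995127168710490991481343437452463947127917622045095790977613474899626894074982395225233600320110366239495207746900247621958686057278016163386165887094835593603958466943829403432107832841848542315509049914951082898631751333188742256423503475490014521854402950359823170459519537257530214417703348086762419225441365256777976970148731491519367475084695112152484143158003222244466204513287096615372659646872491573886941216581082724701378590782830461263793515639121153482702151975471079786079811135184242114694751809526448394732574430781228651199479625025352387855689477879053400005875014124752178321872355891148201621580323727108671458136616133504097059631736713234734403628498155701419954869162189822074985687991377433084474729969112746907531395993262434252188440412419786027046682025662480033608130998329639070943979221155910780286330632397453070549350217686440444395694634936370823987462245858102045476331069033749705228950764308778167348303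44991761715381629647392073849205498812847063184255746333613855235604139338714899577808457017757702156711468405661421297945361984700681206123747850798372072594683345537621929605597197714029959635304666869202233529496464835855700044331638938969625288538043471155527025657464858496053653578422742801397846817387124627967157679259532583589295381714856923392629826538954687260630955860343739223179505383731945204945077790727058035850181664667696757025588487457330882106028359055470622290982526849768280419901847246008630015323029057924814963536952997608360056735651970763777350343642785844047363196782127923061798892291264726500509655448632749998016868309596107821421843522087995070957440007513487288919472245108818583074647185914611921310149272888594018723717088734166124235792123379890766319412140787406532301295170630651974856578225077549258341276012331372467254293793305787853495751908728916931511881789650101034513764980837583358066998342396833366017989353637457268294259980386745993107675361246854696389068597272240036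93349624497875033179554966515954109932124392504155657776639312308586802251051657573397266990445974804435272149450831121102222286243738237861895885393588162946793550239050566534184082956525794325113529085632886751256240014743950102920798495950693285211900270814007442307542220596607438693315379068433509839623816146523108210002529689486661099674921535420871939251449501234307838967598779219549318222725899759022735452945973484865311885171989162121303579242265963754735147359757929219898491049365813673784234242950740296867584472005734363376584923233539913690740919006599387970180454337163035166207688517679012400578978833623092238864636169218679969862148167870423253607016313331960404172823341198616083360738989148426268684498556965099612620693849650509484704562383387119666009549840565211311023125526405185675020267051629658180061248022247657948769666614617572357922532360390935074414194643477646949216945991465553661115841659626190983619327374929629990478579751883916021062162825004965744697881574938377995441132905605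81596105277665993679213721911773535921574611926948349690013001073296478349644634031491596496719183855170783818106531715604686182962976683314761174293435594125777047028506230911285922177139031577458362189154281091589231491622272030060846407646387809705559012519723399382702062314036145992792896647364543865846156092616062166499157028117048531677207816020957241503999201867255221787142207475825681392049655114571885958019641596513625314557980481102882689075475276794975693042736308292257419312365170488617297553943819803124769149875779190497369002244511833524106602407987757951279298310152892104514912230642797974513842324964591168759915332227918143400919366329663159013738645268848150111832196580462900805168576474333967406355607738148504516049129651688934160776599795600507972196122298851626981628646555766223605143830539353438682906148065351057227035988909491853740563503139896469745321649323543447361671694270958242979472652236254350642851987176871196815464762936629633859163985289062531841357152209642123083635311174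839150003309828467908022703624274252151947597815560921397350080888029009564582775137928358119307535651187572887007439632619279520306257318238180316929810281962083210297053027177446145514683167655592990119046289760503066478791441161070122932388739578250483222052967633809969930590502790118836532849030074159532750163892467978007605846974457203421189649698901934486389223584481494624685176113217445590878853872976581815584779959059066140071932510958045342438521811286549180630537454973723240535121104866555800608762882793379655704715449477522086360641591632533753891712130294893235192936250659162625659531564370665184918852372331995576309092442474317443191035176392155130846932275441893653047385031270580922223197317175368708652274118578818695808629059218644299045824429730623227386858231355645838437816112062693979524597488766038080296230475096008397999431208144189063954115641961570413932091703576744470199082017019149614100152299003606815419911720782902621602887175466877622587695502865188719882176432826719711180828444670218194304764431238912433776937120839967167891048856539693244875610240539970393020116976694198401769460074221410872899665920)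

noncomputable def cp1 : Nat := (nat_lit 23744698870355715459117626368454930411843180139287184454103351819605227448934538852670867890938967227373544355334529045856001634196984464201002637929560801083740441743771025304412007088517835075541600495999980100126910071518334941498931093810197094036887594060017036118554917479032526828224000807485187779555070598869444861026611331199860329786129430103661771987485276440040238846766919773331609724506703041678403262014305778093807581037647419851046415618023999552195989148154542565533068479684895795745225631698202232425793896646661207255079761031826161559260960847297259563089747823608191793523121505747206195878840251143859985832336256225430068612960566049399541978998070527747311818541545645094685603721751749732913019705020454633328291961066341145717945018913476316811228796312885915659317169405335640945800783694666737459902144251920317515556120571476810408913143638894572498181895102745805771967133726772442784481568643888101280369975714684250895552817954997973329692957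70772243830621476733715444155989480749831166433449779170713208121368825054781386066483238554934635120087561510863428686847464431613630964868889002472146137782667749790457321850595149199516301143120366959420768809442296315810445124586637406691799456176209215402372196381829824411994355012838380697580438098065418101826067753708800478944577669356708739642251755062604425265733022313704303482364996856044957319214219348982319154569884188386465853857111699043088392350718210614496601962926941564214988524138714735181445811131447317058474652634593530084270020998222689207666469282750782125456344010256311665023236346050494898451028858319281882279866299594699413408646743153834645800968193695666330556605946743082037312482463863580130665399022198152626510750108506671095912700119742220405553453660348881093874614024507067274671314132582279539728778338906440664023630139266579749986703535855027441302613400551690141345322558074396543351210804871844726778778394215354241998187631718960567206780838083955385409780988024281762073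60324395907547444850379866734505356167843355648982133565465322801084373759314609507597739099914780985829954648802208334541933446817106074198268331321744941230663861158571530419441833647878150501726743467777057309704582864133439475191537445544273723306089109597229687391418659252239304300431780541882867984641469414049799558519048268262801088968499521959578024122707787863298227188355240876037180467721474759674305632160002036648291484773190687124526544007435356319144812704584995068158650805818799034549513477973085127092083906717922326054218490134635105166012625568809047697055439985080957313559112692139274011911426868665015361792698953767998947246652582004502378175078948634897137984204646614424490848623142033143612685241650687858761175791309338832551580612125340422354216555936644891283581275845302095024091827647946390242912340955008878342841438606028770333914750666834514641921704439075480811274497613675095378390487195799493514679614681983233781558083444696466619853890765260978586324179189584210964639634774427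35818388280834963937294515974378628578840836319266973281105534642848467774237616943357023751948743856291600778678201872582832986444985614953406671080143830199899180382018272682937098732371115260471755880265760481670871255966547646511380513796474341053171027585018478715485675232903105316193700618801628744979719315450578386271809875231188639340449005578333524907298834932075539575156632792113410937080371115019721125946820454461117929750085036099709847176704535524860430720624852240722802859478052240169828343962790391652756585658346680529945828799130543598619462489243062700274625081765239872404297781646725156677144421592727879021397052674193487679694669040330758289987695453584079519581275526549392812047739341937579168107752592179153432631259061582298165866701234739128732229604972527917105146049015270829834127146312228078373761497495559415267946246111250953048874707408834621730588359559591764827349290505085966096889902372922738983891478651595787135140883665036465008544256883375480505886680837330414300318505230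96691573358682690255931942123929722735470058953329256112467039100076196843177348075701808164549507854743538889862647422186526033199514105569819027877280527674497505495217673673554760097038120427670953288527296757771215264919034462176594732654917505960635097748100480766845243731099699694280575736937681282541111410750022396503901627521646918481581644162592907938133246013269543325179956947820119886302509352112858430610745516732054055386283380747813017062461356596235522770429714425395467344884586651997560886638721743321419232822382710501143181935786505606525158465410209286491064845926558475485931444714312037175990450749743252161690518197128373899074276995505480709447271027481641174755214811652183447416002275343530367518534610322403767433304804456905819609690450421329862231671491589660852474152708748130197768401150563739787457730841153852176746323843089675275377207337967501927226440172653052486417078795412118073034511427067507963580706475647913041075490029516320078193706712194892622229008598436008331427045101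90606212633070108744520506463019223075817700053780116762301057409734689827018247945868247553872148582899226075305649285619953175535328923577820643951235252775713449077181490768416401663287638130105768885077236360240181915579127205141940679305944420620353942320722484321457085420735852734816464257058165200039716915786266572187246460136133444370880906235774030664681211183206311738221144744926830179442098972539457914124666696986418618106451138755662988321070970267112845724707514202961565563702452753295130099087547069162157067886081730541701190379159992915823686990995150242895385485552070938498585735641652298080365647808503348655949688722956089555508464993819782320885371321556605281734202691146614411138475793752373870817868168980728573546887136496937425644787700501693475138889099357524432778224064978403869004900576388584234899352217666807618438577553051986834910929107372450940952244657960857932476944308305091525550524729985432021345427462417650502656901469862676643795352011818569198695939032925319107085246791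85163667244027986823025877238387776537644427620782705159377362867867895814577911653647031883850643137371864717174524773775052911327005278469846486899532136688886188981048178901137370277386234421234305886122281540695555052007636744272795713206681580148009133158789219622460748916568789728573057162435555973544391291361548714487142461269587120838787091175753248527571976164902517960584985271143792398845607488133079470077194531736105765297858387521216830237631601163123717782539087950125260156670988380220618334396050053482706348461754919927782052183782332007281985990425723994153311222698251888536838228087186937827987014545048296405897659752687494381390246631475817765911059981750112423049929965007998943778889816948091104312384352779719394766281529823221712614417667599177577525343951338137970913819551319500223259684332760436626014430676619734948414169435275514873868411906338552182244946533292026899699669968362837036014072545062240733189691267176452889377086032930999169274771598945404580172338184857391713159066486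08316105761904003187337321160104271104403913187634868682533198042449408291522771418539154307507000288991310383301909528547588905878022818383513830340130476698843278755246101657975420260886150699804730170174157687208112834097048234861110466620864784429534743398773518661332416571299392722624463490720460515663663510684614909490388380301302182592372329172732460101851633793282420715099009058386226378284418718370144274049038023236709181477675904837353738246648807378177531809477717662588777390585451658419786395495911571106349626761482211719947015692693187606655402299616881276884837112667694221920435067789385957825370463683447951918125552598278547225673494578002632683492024176057834094457845987457707797980791495280980714348301011045287646106044095958471278599357178825140094240816986677843583610643027754997727967103955572837679640499441944394543278076526772591730199813915416010089912209967922944468722461385617846351506917655772791542717782144544574249720824224042441894934862407005887097534436734277951202900231715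86610367673934070968551485082420059529746882295090605513897773281235089361985690111437613968214528647553255648035617130516227780895472373471709972380885768955212940857199079261771069188513489933176994646998563174629082570382144019526927715110435329566946914496202914588732225086375318651799735456516328613050197558088183200506758405877890210540006395521839328962774230146470064323694839251918420133430732597223897554146669863826202468115045448506838795917761202784789806051339089873657564733172390308788674122711430363666063110968110911200785744386157960106945496045992634996629496562469611132307003502900155087377105214541133557839975903193652442709027363121766893863282834138146633805608917261351233962332656665389419287610057202704324836529474874536399355206286943991500768287345091381235493140459676086571901504017088951306835471758694132717682866121876312515837098820644947714618741787212545062447781314271670093484658379071405890227877436862420694661303389282016966253961409658443547563299709465561672239499370757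28047725680141001010592349897970706799378760286019601783258547781070531628512137893331478101397227442556667692246055185906415773715972387200562322504042957413491353975519711170964322822728905285443282356076397544906759282093956903188457620123183528824092901271678212222951447418422100061638909864727940758540072430102581036112291383501820626117456039753634733109940339130228584449512769572127651441453446092876544712545482100100278550902970056732716087903235984182058386888457927949497073000890922094593874102995394675922365790528376924652462299019533410613597919696067773041521670821286711226364995111050975485341501033559578062657614777543690279920351730609916437507540753094098755025683131319125975873699352418418672342827737473592302025605322835704853553894111287415628901538094773295351111814140003118137577262820097700643390338064008043952529291668311382218194172128937127206134727477844999039535652030788759546648313067515517862093386327263952343197661065725736558582528469781671858520162710120595809465230534467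07687182141095009150672894418740728604733616118475194715986809835638878425741228895195389431681159128048027374217588451319988648867054839152176696047575573239174543509541935930125941846201807466272524761470749914566231999165217693347099592958754918420142289056561749482651069954924367017527227602258310882458244185439693429632051412476113819215841772878527783174024860545152340077649751465575564894238703641222451906967585289445493073077879833546430528387024479927872591652356061492399330464117817779529965466203768144806740428683381662135124286004208949573807847666728379866015005196022258868336705492650506119870698858900891840512100743501503379639587608679269201457033502122842440306436272838359314814758088029696331704604217276549537206071978562966235467797407641208170949733241462742864731777733067290599101355221358884651085604743795362381356450592862581669004004590167440007273617556776225656818406746670005744214054749357719589592172594716957968846290870355390707718491599185868941438947199720798914281372814825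81447619018741443896839795537842301384253131584236139667794638219737565679224962555963385191545048236764187712555629881084016078515127170270009729403705220678346650235839340665096767542207409231953047195918323621722699769913040848814816268162676693781625243836025669499770543864096077789557774937346761592101886475578800150661308679012413201610687441090291449013124576966916753194550967004886922075609080307367202299535332816289924913867372240485341041827449915305421844916375424462574273307548572243806850002894175205453152715236273061524371531826384580990007056499933910325152309034797415667543613856502928444642554405037949488066560282269868354894843690746955420868762231543566859492799094572897495690708180366856081526322311530856031876266668709125542707747427348176788254165419187520189019522536326792565658290608812245487974693535714039467050548909111783792924649173310303711008981055493593657684253045763720614122737460031823798896635540696598805273623266335446793899508582630179156520772739500610664208027131046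82402495831752497625116535959683154914376676192091498603104920887902740342744290709228621354070912144378807462805506581034261111377958777122140714242676045125363963429976777339490905746171267637413277533238649577377776413772669609266641821101232987947263604425045140415259199022498930972303810936208210081227787993284911251267771135697173074379589930317500790496549752118115381186749372167695951065872534847097547616317876615976354841075796519642419909138865159653513897190388334820663201800859423435428727553361367014183279270664340166612089555178178835699555034608536591279459922533218319048174913419935770289392549003318081235983661858646564556489935112009354395239074152606383012482465097404469928617027560950684118225130411634302935499484613412054633396649887412683680137463559285694648791171967270510696418335770594452729269978761171470985968749356003503969871737088964215264412862736262399236081658027278699395268555163735313073973482310686900737443981721495690995618471080029062666991105003915138025043247390258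08224573803551762845830902373958151960845215764818259672931950971935823627175182429731080833104898883288847645246457423983686235509093524115895769425771431431200361455065648085435554965631474135562976124087656019999864923746159257927448297054881003817054393423657288841674995822642980039617617244841555093015546992311342816573071749429718232074741542203715092316132689734744899898841194174714506443048616011888863391550343671781127086661900268296355171573303726095874375626797443065374160090241553861762784888060486796029140163521819654984365932022360923098622205808495775411857691517751372301684112729544223667841372620985031080116987750369883684171663588217805706391633105278554384069612198302116935786262825304776168807908229737311910594739020286088237086873412660327372767243421862564977179929814165446025402527524390015152753239375431302941044875825579738045706060142010458372158775969320123461889567370559136002600627950974256314292698891855832830346647197283884968996618521122687950835136222656747815864175005333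49286214503133763930439150784759526559799002350884364479456361362392741811942405215086968374023576074579943614608934674611666147234843050862124005306513739672234159393884245149057816172082612449146966818484877968695704795024863248365978448369775743100701263977115256499813982877465817785818208246524385259597432499526700609933517889853729930632879603799009623045434931181535198289652967493011539041372828867270141128773257175146059572221150692716477415200318641423988789940661336148343974144062036167866559385157156517031744685278180481684939332799654405443298183463708418551747767057377257103653697985449919311387447001233833283233282110638785318745611548357466673190231725087991703142589360511913337812829041578280674984321940366709768767704883771234681479839140166619340051258869838933842074630811297886392098219483837670704607964948345274532323470567864440229388362463771551950460746044355816035144443326099329498577245434760432478234512208085055027940613492420620180802807611766441386208153679510012491508968058070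56496352265475421243331138182144610099795185479533412769497624860783469743870569963936954981872770186599890933960398040948163180162580104023800174006768233655094477485870767486788005727128098423333422778248190842096429240641326697383366688581392294854383180719496278269609984312222746842663212731071424005292683068890671197731146789196268026620893825691557747543374561590137465619893904348430609984479810222685361373942088089069933162543803164439584906708304881528469480770129678898985386273722076805814966594235481080653852449663678646122510599827768756129736941736115396470542489730971531890690343255472454577071114869812043542579573282884446494456850660049651495888155063542113329451300908078836112031267905038636176121436019656202657663260224484343677386058263503814502409926813857564573653140828363845967655311912183007933636521316315870610494266193450965752430442846831628203276987829933813312888727084769058744049709084055647394598774983179947757256537748526535233832383043325914610776957985597347775266501537647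90689713257971043107699162877082667346870182654729517543513012483529094390194675623308102756880165583868503965999067924639671771202009732175846271133671046311098516735631458474777822615982584306269044237619446286251985731503828560324523418735133080941281114516764522934910748776407824484191602532164101193652085065379390231125455724310717010864307071270047765624985479019585472454797432482254899017393392869126517055020401863963060522896063927691970689675600483284293820650374390080679258442675573196724394790103973626632781369537766961437519989624592854748838131802457789250710330435964120117800000536915829313429964232336136947510480821373603130130685533536891829991321748762790478109300495413358963508681781876086457227479051061024579547342163056434823682805599305585411258881349159512972727195389256538142454053924387033534575996200705736607248809826873109594162500994869360981050867870339921341083614513418666455911123614436079454878262083475715478350700093886206347997936005057175545066747175211566467519725394201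14376401058869689918575444505078095673856020981255081043199579280105034977663358222137896748562297949854766355958534200702322239856018698389561421174659650735021107948234816006348767476657336812810893014911743774365842097629213941519143864130215273058414431050180680824503155580448177933219435586188045828667341239311884652660242177468257201990373534451446997990198294882165494238558606708439300118689434731509850094481753064266836764653565115742034635783956335403608778222896741294031669623153950547139371324825577857618016440680770609883560004869155874656421562705530946916877232527061909116946224124131494241945329415246413408461926039974163956824184762673640342078209745145557447619882039837275220495128327038959174186091083350911184247337650102373988803452917718454531744212155467777655896666417052791527941777055569140797716853919388777601871158897258281119273869367704551424)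

noncomputable def rc0 : Nat := (nat_lit 21823917297831785183907716954319302785723066126192058468156797595625191722232361411117816818287967824034353327893381161293970500091752707750813687093674093753676173124968924262742678619877445489866180061073572264692232551431563158390575101020607547738202850348870605753859415122817228986050116000752394241011973737232944233086098054133339860940844570172080364662017559799431579421997901416477286079923700488635998126343944045916845192092633271357018226464051745193345533921217332453889291694710728201705063533780454896971250194465773691693678208354796522066909370565530491391400042434658283196359158539992248625368673415262406009541942715681362311147487620097127084125069938142073234382002971717553529471327723698526947978223805793901290047538836449750194908569322526922912748654811647233783942931341577406404574788283471913438692218888350014610406179470858379372264361478500896887273599493280591427953749900850253400219836286111765678567039763487959444860932786052050937075209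46438983177743955849864589011832929924228928562540797108486900920142889702613607430996149994666679781939590871269716575865764183639119268265340079046841485855371861005205126955093647295412131123126635863005613385651568308120618880573647762848213129188878098384160270288561335036698932174704311504719304805576527669573467226936624680243605249084048732970371589991250699445354375400571084182381727120147280280445810466252513498773353188432489965148001120873168912159612658182932709350443686301168499141713926716630016535036633062514422765466616476369064827560600574431810944751330942776329719629437655826341995489126502714699139405140365811578163958333355948771125137409952622162270130259491026076332452972332444019553905554512162450761036628382335614869363302225294008861575349527550103158508765443667439264956221182221105048368985592951516024420366171871325395252578305979515663028514959000943848074970516652550342576728882589857605476595577630302762978906771463422093751386966481126683963143010987396869381944261000603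09763494634261245033312209707090934671569330789739952141488540165107213625732877111516174923177347684391286845060938242425039704822021880984327090683750830332262662179999641387675232429490424024640314961368600352045376420827616218455548769850982748763571817847070915846960742054533228998521007459233667368219298005505310987427859439185803825158585944000248003440880919191233237932596504338961452843211119611323373123535715771701976840743129321956868041820372205962884266522853633208004600766905844655356405540235301979237332492867322224002700173372905286092539448304697529368092498924969900338084303386253080065192664590164825190398255302205687942918429236992763582605753942505582404791374624254237815420037548818763609556903066389975614738840964613167145284411082124780702032918606032275394081665948449634886535384830406187389115479745292940181892448329465566790094157125325279621107524542115667508569150674445800110810881647894953708969674886667939182884108747186544363374282403298085019074542877223806044942375947004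92316357598032312547084761009849153521198573697478771920802271101723386914652492101856132825108953416278072923358960021855567250015606013739590848565119726710449174442421406302435472518683039796785461742599622125904747383619361437420919037388465754858802511548194902047642752851015611742899327200384912654410817660608647952704493129705023900084904021798964602134643918321268074342242523431424099487955816892331309258885267966928955225290202246473568669915097674455274094786169431234681632264143494832773431297355934668213882593093113881373393956703888979712253723930523550820796434836928297228254148295713955388939824003247171336463729507929781345263564449064120916440978093852006318662926697890376676526706972946432696614638206021051018193203498882931256778643292778867731685452436384335326679905135100395478589225578530107099611699555486618235458696336484558901320271814348073378608338884809089782705900578232574914338288467003524465645866895610807748573179571310172709052898736045138658851560683458002899339354645892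52875378118959108317755360219269066923535667925971593373299682847508138590966427568150792800879965783123773261536087058233985888768541325894468869975457593367135334705524759219803739207520600467369763415272226098988843195341163978396491256394400966157275379709953449800411917333110689448521483752786988707096862863797406223311426273011070755879954023505496049937598014195634310000234321932358099891287573971610952036327620379816688733349248460912252468991750359530477746102640693705595918787397167939201100069058417819541695683785426639975933908522892483662215208916304341447913399442180159042452560144132531852284862771702352491331096076084792064541392965159998684547900701064849610618871736656356887794795275919339358456822589867853499397879262291114893767180909729690826285193239665680304538628907328620741782961282016333398778064354126327560296053428727156124747676844373901984687172559491337785137932219692398004427645786433464527775964386530587465184834410537923011364549986426552038315250470972017671413039384016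58736991449198564267264835327019125661632625636128511250048627433253976365443508899824440539925747581316636731362803735968380056683500504215974754270608568769890989750228514555661373464673601412840346085209324860076151727345012546747781269068969487844087903849895843357155531248524759023932777662963248244490632456902229026001196650248544854049662321874039566450980188052227985593306024403122823966745477216777069720925900573521790390030856227074565229571804788962117826701102929817550506571415755456667257685985878536262612897088204082684362232785302579068745513561525415189985750461450169503361801344638853431664101926214967110192982142018771050272039339416953147712918252264159827775475058704334487421862880257510883648397433058490478189669861219683004626074600956682642209624344248258791588799656210895215228127860497776989745631950301813040232726708676963188221677228644651364383786903427464231033911563123290592989215191262972860577845456234933959737746441032256400424859446437157187334171360003676008898541423307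66395448712000986336366409446878581292852280757979334877638204291821129056431894330792225847360752922749869441381075328484740083375546274226271608717054169754716671734423675576236364238966605868788409388367358058239391887176558019492677734735823716556139800950368218536133506789363143717998574994269612481047409213971053438937892605415957880982821855624789994778715192045769915568842117384379892478880141711637286398508466068857925398134514619222435759729073985298230791343031528110488273048684119567334868582895519230985807844965350551856741399090778956776058921566854628663028446299190491416615871764522211546676104159521507537684938038675720829898802858728422007644361733315352482237329221869206907691314777271612783198454221047201441212301142858899534974225641199891450513552577917870785642146821202604656887507165017148716330028907325831634292399101939235040644045442508235354417828421684825913954634409109811426100758697913141013612128706197571510665182931036028069264035919898654264316154232345071664055910081018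69229822699599281021204561524994627672787496435448862680736574803315483249023450916073703209993309240989290242526114227768595931206919326030691441803148595396544683399764004463438735717478641902877050773167629611872794111206140570853369650584674990943616021435623730642914767256338304823445922825328214753139409302008562685129591086937831054529948995286511588406676496878631393583598742918684404755866309094423925775444619246165777526113665104448709397234287567815074664118795918069160334040994433834078306083369561008380157214016226991015596649738190371392771067241489601469040915687804689886785111211175187943949286755942334313186137187897541664097621410532398447075395141079615151117119108180421082249438718791133510841863754277670223393979271224143018439924975423395654798923022809908162653342270030187883838368660133458042785822483470759142101842712046844868349392354575165890799811514782561914914360183045814265528153559937907307383532588231438301184475443271053734947670431700740843524845323744825760084102256998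88733084091196585778988805527340468668085988734727701524450123907727654830116650696799664709370506448230611799475941164999236756497725665241149753550390362955555314867160037121268239255285306249444719943092490611387246556996364520743017584217295814992722066334298984492819331323457282138671047243240103198671217407932697269545559013233950221466441438844797691914074189929227570188936098209201669768191191619006938539353942567326147808338406438689541446426791806264708111845720592357471495398755972451204347877875965183721656649369638045219020741135049919861068217797609388756410913080643121809716981732862702212969423207430648466546253855690200981933920870771582564474678752593584982576134983895181826859629521918311004546356424337515828574151272364566055589193189498794681620550828795815152063608561620928925278743728698682407255665346581536614780361071771940844443693834527740164392602149038975576228591151123199412691709999559680497595409045252804478061544238028399381270434957975160646523350242391313562255019395334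26437115233848944720763142424251893397265890846217324863677799537965904158711974836985781977016118962608665435592056837524703042984588323920355636924099170058656382608629960385277002745500686455278203134900247166034029224617545529520875650249405265171930986209973063246917079768699386501114293744221069150459485954975376170953626088615216181529018183917774005404448442619651284673293863792267705914369109937018843797063335054337296848846349472462329529804504481333309741894759707939612946153966190511508979209219357768649588128521799337043633289446661373632232276081422917079124794533474347724436519766399062638891099371796425227912077051792579375868076508585326481092917020746268864533096798107716996862440539965372127482419779914473321034559678447369246971690817135850361610483406371560606005547950140301850250590781023259881270543580162854690586172254069934740397850074274952389199739467705241839816099283943651720317049234041818779005866893565800786631840567312311921323425278393523683051994710274082881927965791695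12645575805643615764969702636131691522493060378382182978583715709253022657913787360578059009030894285176624907772065248309236751106884954946347646131562646864811904032192414892819802663370302704199941580452955860304367139968568699210122977280140191108276520198600927866570108820426623161579661460075422512807548624050884968829706976302824930976336459958345296066840306947857372728537681803305450684999687364631824274950602423098429258309300987992842891014918149258874394022555407780583131834696698644305126930964972893871622476796617870973179022191879117771437887860274120133218694833651707448144544314160804054913380962775054571441024321776811803175658398434049080199173016153773207468649973631847509230505719811088753106776748784686917028960246585436446905969137625446588621341657969204059869488113783119717514671133240722361246991177652777259492381791708661421013070385667402578710010290822334814642184843002516668619867386223051160975632296974046360210703860775819718259424249869180832912294504922930785397962722216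93686965268469438647077700486959912481665969122678034854358172340425976833820032479898123179322205957932572987024581228065758177074144314426046612132599271575922000688052690968929559187137226758333510436621304893854112428399864455013793280843100192059575805566765834497424226959809036735594939828260517958786848510537474053206798811825784596580052831569247328873561668068620332451424506212889490586288059507571889153135983036053808587101388730787905711833449909002229272734819753795079087522525236936790505984654598385661031208248555024869073933197609989139111421129730598829001404722417724966217826223186307399712555003167876671951171540335172727212847666552675500906086240047525446659755328451439174681809205671034528202729859094204791275307548369072663714473367753603320378797942752806652066330890781485705472980439710870380075486892101397389008200673030942888568886908971964131256289404405604546205128937798603115355785847970051784685148939662656543144464891733864540241895644898790288519506099147809428921534039076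77105830741991993797098022579738837323792046710888082774708369992680169436676884477368719157119145165177317114141967794079074563118579679046300550528670871628794689072747273391194908853374293082343855148725976445272506406639877225153943385307187298121880767390631290749188376872975002927386683191172469111866224357167400565263061007245351822832152313427838626614258681498190607713566989594399172503024016958238660302489910086204090828117135682836521764715227813037929362056434388476149041731475353887744830204871874884527341114858093186174427865409682706827889937096517616439103400807080789164086288329254911052842293439042572240280607254274462951936004198827997992723622678925296841682213990865109740830228295172226276326106897691607900829261592004961434200956765099928842949530249669450956650705539816006105820792115896500857130602646921121433702159055579181658279397020278079092582117790487740355666578307519614396027235709258375167046208674241498934024323948733843521070774338528104816536877692781563753404374285980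33819590585728599008753001715320373244785472538742467213975313339129012566439127425467611184544092012600823866413213195646654609836780075534467004900069734096886313143713978036026207277850329404872495215920766112931935701998011289181397682401145814023573118937634523726578004630775005199370497445354775716851664653686291484221749963917549723022917605362976141565889326503480192235123566277801761319427235615150912131668127265856710295618009294864737279295809636045587472810156002916639491977176716787662272523350065880841622747506123834373512461578353708088397456426340466157694526674792616268084911203996151000488667644125935203692932253346636061679009724157128488526793734903058677742427864024362262220743592106919134600547728896529536010114653190337701227419093576829783945486440301644604452973904582662079659727330315178764374208394238290228551238957299810783825825878451155617313887392027465919348275359412030582952774017500694253566565085151161501979605955283940692653234251734145788443214119820731262519046850285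03015693878546882308173377892066752008756140954291191766801673392177934030570163844590037743193359480900118150840217950915287987802025323266496683043832120053019818771612729575952614833094742873575247668092761702119283099193473755860590560874423945055628690955725903825324922356366441197314620534978827645109569907066199834794506667086910573821421244271275573017041576566653981928671805014588145995271314111504625038839774205523252379760096414231820483868930503649414163016702555603117168234840591743594735033736949001118990607402800981865336776584985902495880478199068426010633240125894458442381501867009791603692479476353773071348582952103336334521854086123934470135457911532426235716196589150627717192542345927253982574921308833219138222883540195643617402319595721186620454076126570196512155128039838235544977150926589830042875906172192465809379881065214514304935301696268895792924090435240798606027381696145622270607741225436096139854463598575214549454461077556528340595254127645887005825093428770820743132002153585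77185757343933972793233309962190601126462121753150814579709267354830500693916108739821343206452679193639234066521149777412564023664895928974361203226221589913390809642405002266750291267256193121940909250937509327375578409759411739921845543281385988556645032551270787585918538834380483341003153466756543034510750032716984054375820782271942527121058565843274508184719329810254653484158098503154027386578754793298310196404054783518145280921840897649407644832217013818826655719313406843035056975261266158239405955782936646849900663265725073579362306146631555548693804740514479137499028403447384705854103274018421468188285496926640472036314991260287681947932900952471162398942220360312583086863931456753053309165421214194121970684579327421450638484418397062766822955346452850176960540095154814681615393751938245300984622423125703417432614297695685554698377028934430746077731546761115376316680398501351943134110586306428833762146588492305752500756365174348109050695617814918700337198178895718325150697200651806720141392979599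32931492128969174789529098022683749419265490143351328385527650672851413851736693210041185238961334008780441894138349552768983880061413586533528566391604752091204612370825439279540925467871172272312230811527229204180367747600041341858372894860422319790509112007186137615608080203382626248944149423620005828008747003347824455483332357011120875387576632709016877600324114450739330899964171658385515205683814087186677053463672146963530720121639758981373776585497650272182965246366250937644050248880403055239361798828645835919566393071151071202131243567163446024967312121014144184402661790264435060850170597006650596973824903980839342583522834924626784565078280525113723704048372436360234012040422965928303738850860956567999879380906911303700268756274129806072601435174102852018518859027255130404890119341963969752256854876345409020994324769713026328736469606044592851423657081887504746349364435368429361825326426554027493787156184667040980096671734718264321568473428069889902123540743973555282922638076181594413636461054982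02660358575567815453057175949256376986614813179181085616636941249214826406150236210072219004324839277482288129482316319607983909495327121920346273993320789625506869278244146503236242545387929349169024586316511774056971121691990627958529495401837024022186086383386970584261263991534790719638107627865946612908726032036201603562353622683227686811923989752184703329899355574788333623353059483881222222954015669371037872440139910628625685423758052109637669649555848859385606559504608501324317627454564467351940065686675122444379583239454263768887667864054656120599313562241378178630294884839303828616220385195059496624069407080891991200962353018273202269925513952375946938120109585265895775449704734731598726832960786702660513911965522503619988970674679777270631184966307782034996176751749123731473924494836413613930018690247613871825654989866751723344845956680318078441695249220763648)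

noncomputable def rc1 : Nat := (nat_lit 21869418558316749315875828022763347189816708418212894858866077415453028779748635759611344637057565052713955651686598808500727211653667888044282116437676706427398811960913112798971902059831582202444963449296316640762828101790022602002297525316750250643524590458629200517921480508189685495682890518158297562428504090884537692433551702207963294655158124778912802535727014859828889007818548355148401446847218034532962087413531272793889069871472061154889356284464383701576557057844393777429416361917865828693734157064837426840590916608813185935425902841110012486159945709607997462890194269239436265257920222140967729273836280818687716803214058890288671764121662678420056958506954924313496864982621377012767617563936542374216094361926662077288022897575031220131411676399346125882378188409724329264260583802281826577993732952558117967635050440177341156861295324539913337926749663165020877252128542107571303117861883794524965859640388416692490908300345913487807379400288036199470118524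78825024781189770142710914724350942826947879141737037949177179718645124108223154297265342256950426771989951071416425420912660363517593113720304261653451164280454034298669581291214545676180441016714565258775102744842857170489158486153408721545651240815307587543455262420447701888959505929192034531029534570691532862864553465185921575014057752769844173269982958381857566490447476320150568268388532668105254611721404310577884744041656228952924298710584936380673510946178098620523060527004805653259794082934192332934545197411791982580826228273248578733610765972096064747919133339213756646361872987878037493971777175320103254416167802238303888252583316539488826063894328796063756143448597052973857359633450895904058545462535444231496353302068330920307472530052028257508645657000848481123300375733487751140519802149970753260922975004857964072014529373438673048382004487977620764851847864721694248730792117923330693032775544828864920480132357469566668579663119442677394489447640511469850886056804013592294928277582245108682848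75031939491988299049643696829530254782338690004692633676855344483491680668522609533658474336854947889265902090298261510632286326475077914356423891871011544048280596113957655896075358595214748527303788516007240481674834697691684772552392798967986802760079084015233858019410918216212412039256005258926033405871129970255597284665247606905269795606606099956626295499000142062626647301886248174918793116998333053117386839002452335474145183066495751009834668888446779640046715497588538896393441049635480700980082355502639651949285513106934298399954942299970253503423278585959182607028527810350678979190842724345066173190335369134566125832596317233827470362469111615045280123579243360459661428952058298993478317935002629237867797183039616587458201142231046755529358906453759991129351876645621324180871624160660103047794139439187803081952183554916530478441926792121373833127893289249067405554907094747254963602242718151553503115694657808243848587901835285287116848899551121896870140426072157370011208896253757791962312947606154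66254673665267864578119048374576020596124232534438722477516527115491239533491985946957376834863832152768317424821746560839487720786611348189594366348073138802601317993484721000026747644344432244882069629388558934836276633504818532696952881746460661195006035702877423680558065995930051467286812010896285068767033067067420883521751768254430706796230934420631270785513655002909246446636559185761316013864230216860750439974418256176971099071404198220826140579894807212799375235073749467366720408376378037197737360122057723279622209315993420823006196717115785709750404615559320293270749851748367162221571193339432420475688935577182410833479746565158452121921632759314136234796699407475999985944398740914589228713697954042432141724057443553980254726155863498590813583551749222030545996631580379528848556675339535134494507670073542643917016607002376662122013996048434002527393888957919129271319704802422021963223363759782718069675497010992321487862465322770290215798332429328528552984733379539012342444893323548684638524475281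50086306794338037561810635023256073724412793359676253807144327915474866860441807582516273244102448453644606979779931667275450676132284909564130642376029761336698076581674685327197471285756954200820195975284008082735997780715763801001051963269129120139939226034807871766477554096977913732969823003458551792991291820871202544750725810930690740433056539982896723668549762250338136488532958683066821607441140039358678702036744578179465886754579234007246401615762891050806462792064821951964166269883021237960248698568839167872995573782365257626530289705918565432151853228463764857775929202970454471005096953885955412425235936289825403919726599885532025432672917918497092050260266741332220405709261602310720000709734316907800860992293203577619256464235441401644310788875521295589167008690659741587448430839278093047108900448217644679020410229723010674341228179359313014856625713311352153772224675966515494620038185361074200089074295729442994284942184459632020951169875804366105747035427160541646772541046629492111824346721388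01146501401214221686672789100961390545631755924789019392638475093018233075155051020128732565323013266044907268684632542861151410229904306067478984725330858331606980981269069387413605675148754903941053772995050131424510277480718173186700681766537924721288361543554318182712784971468032741138565619628017377392104195442097761492599145233178916799618581515579866418950990794033688177696553912218726143004353965159039192492558188262693779894198311302496183422691904077238172199861440966685669669417735374024012648698990439963854886820886070231143531424214978725643629570405244270238226571441310050955958248363622633663489620055357186833154659497332740832821274256562645914350651446006843557744650500515366531102446785376147274299610701686630984887441261681728170374574449405511005872403316788151622722401402910478852734640617723434195551353940777772238122819276731397882807163789359462156129406144337914692477710195846044456185834952701276671314110269744409526330444634915069678174699511766570290455598536868965480507590677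82775173143081809856155693594226712917110795721357000249617565815417988874597011790755530535153831068137527323460463263931384015342301437811857720360946665705205348961358313882116150917870080128710426339577910434047870988377529947332353758675899851863404812216162717520024252347700833798398810603538707044763232788536124558729917616448605948808109555987152930965716123851711876330759334372442419969307891848688970505110243542817323506318893950490231018532882879090783951669166352819594238235557439560789841503472564258645482556688972119595668739781874778839730149135037084350982841413406612499744743353932413619916263482596843832307024966631105675673626651580895156693884300754154850986391593608444611272936324353057665525056765454625169583634011278071719802726374245237493089335666687074016312940153296305169275497526263855507576226136060201651629034898716819553021238716796045075401454114398960962966748376310280493734046488574004459086947229122319055595998511136390430019123026617737120322703096051466979393534350164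00430855897164013032339403487158348227932945460386534604377139630912462992829367521935517366753485393325950909440392912358206597893999330709247137938228670235371627799606471615905090667642132855626790846519351231457693986519268984164609075847073523118751233660590969005773354399217480910922994552642813775484693333339142592461493972235121405912275153612697561581841879294715365931984577207791394336416551208485727204989080269910891472221593402235728144397684254151784504580485739016047698504362990291359832483210166036080924587133436549683951189189811852416071669337551415243920900090111550528335293815368850746638631471888862397287452522523064142647534066576604153489026032828161394427326736162754178292114161158269461627897073625535428371642054384546122356849349893618174592102252434890968532643780443635008276610163192652172010063049499336042491532052753963975339676884088533547478763881904185593111520492398961188957264217173099658627119939296581923790732075573909991221942952380795127153946305411632024538038000790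12919228389069301267869817855897524888358316217798134320643437469810256885164982211398010112595302062491504334052530341051231938020599519401709669628961335291494748357297612400332335710049240247537317408159083052455536217729501587284970684821356875846270363654859569021941418696908030700046869758748058602616013149443124504584979605510804741127222730128393381730484824783000977470303436962581194154919209377241412696020084182501253932795190459723401239261809512089546802893172255962350410906480196936635557304301494099968274944504939802623782930640842875647629088576477207591014696023780999125700061197737026027575050496098083482106529641718200950804479140619677803684306042875927073829137081750691127625533287278704939561262007581466791319257749120702293587743850317189624119485017137121743747387649910046247089381085545181786680992637052627590127686220244286210655952269363133327070464430116015236776317784655651090454989594741696768150342906591139273865744421882740483022851886761710566192115397486830460841739970320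74598094399066605292770504375444638964552553344857233400635416435484990428980053935826064532432673193800933087171477727383044825523150193844784436585293843088729067551350348487220664424578631808387644792803548711033712356974098542838117772825604272943257907808078907033021171881691868629657758952542874590315393750721613332789105528200331680241923569643480050614725944937135769551823896433021659320169118350514726212905043641870243810737786102382290748215574009700923092483768994387332624609952153414926152794947792531642561481730533214655349980620605309113691442015604841062489758754464863966056270464076004979015685180056520261193087372887724839178884103453852180601180506497733144661217981253341441808933216698506202783173240356531722606608396792109477888429723753239645216547343891576620954877933226834499202343639033567976523350398622282104051167166129265290541793095722438747369862004360401404221220546011902195995198005738253165195054022796401078292455935405279920596217926651226119881320842634661361899286348373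93387124868588304686941772186270479722644991466610084030754105436802683311846881359596144710340338056992527227305659583478300547219782526967401110714455635989113960340334322186097754340772598081376479396483474273893205034326945341267624857988674215728651033177545250854198066796583679407589896821121028941029692938349121887266299604813416912706571523514507108595271129866588553756408351368419420053532972257543860290838492109634578888793973293799993750765562579272834876954162719607257546442642965900604581399671626160795205109275928607956575172158392741856692446250922575466752853093143738300584551328921329727697731584119831876560161768980594401700396533846241544715526726711172607707183833864299561160044839718637188433526104266608730822786817602091897357105453328227379923595978704242825364544656201756354077819322241270259419246433834188062136485146540347111971450028762625460422278709007530111848398738507536317429387433629085356998382328173844811054558936070474002602971725011179114652477811120401628889046931639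64138518923821726453889650525034408187976658314840140214949133520483469142922467744913582020164711810582795996389062019069074520070188079318301280508609314879357626684309875482357351527130311769645428399207823210144931880038462696527061428591138366178038728535406527955298022708631328895476146342104393998734792795626950551449731757415677218356527301293107205948007939988573438954374909822136417336983144120516146396813202587980864749707132705024822567477429176243735195158691285594688728737667514466748995686906899870202037989119259776842810183161607180943605288249542800021405114882223866711521209293440175036716613133210147816869394254701068800983863082514693496280891659507092162962184678143778349375387447765227856016189303122575223006112956081186968177851008376924449393980882545896970829232162224917898400829657901915882048867304708594408077312407553455762530147609184722787411943215594328339920851901809489725580546960577606319643940794331251835929505305561314227044625069036953302287017484042229670517663338541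53117319212589620507855890285924237775939739159137933786246679496223531186783155896909937303724931373621681674101926960328870588448439422859742260769954729014984427026509449228227145232577783961302227436622090213865902356370065668437761646576597860330643629395550899813489868534876312969058492337053494310647084674699279066610745601767599541770273037823486499285542722537372791554402756226122621979145173384393840966302401707807728921532537822248462170003785703285459514401251573032495138614020557302658532792109071712737220181053642157473099246416253609161239301336418324779995314836872880100143349845555367384006139179885715809502530198646251197367148955910956639937611356769115096564156739795214325584399467459203960756244992873846142032899193919580616974274525654563718987500569935949382429406989405249934405578412186368031935096512942550420730463604537558659036780421017917292325758981439999758013648102339073022940089994907717912576302557792070074927514367385098663259255890545973944389235728259020498499293687142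87183178445421361161879521074417669228957227196960836061876413694110256519726036202504562933827691516205735296996490514127792647073847470728495200451360971829534155405618777440911886802149971785812359687207070877716660294409747758005430878931865635090728289517083130191993805341209502214518520627104442174764466657967915047774769897941138041690203636665438431881551361548372513526453591542252175418224188006293446369848185841548523839108044876824835573494984650003098652009493318619237530753505278911310667690605768629043557378795733783735068973299596771499982968936403679059230291342351367326077110161191430990099384072986626726962040978192046733918779910899019351451322389855389627351892281966364298166082107575390248200298099288070758528306646328042679273370741576193704110567364049441112259294533299198410736987631513445751214581293748038196552153388111020457675415860207068641307731364862994715419457095870195364932694909698906216565040052536058628627162944255079636851836733593215750899761785852840007031939984740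51085219831905455806688042638489555505890899320979626333229840142670028162087985179603448583432314880750164342291844996293365790894658201016886035573355226367602047813864919446873573719628820285869535233802006349076333715970775977031463470465479082247351015213043826849128798388152096178137620636184196581795217749315347727601408399401136477054581142180891735846609060442806466663852030705261539604802934011071405176023374119245214787958679313701989508135573864769733200518590852450357609440239374153462506059593676042294718933394411595475454367574890623067639239552164173137538397618757143535437904907161888223751245139275856658428409292570736873164768639915718544909025334683874086821506200163956588621548061866526246203269527037630365439893343297421030367996183886064224462639567000700532111886690975976626718071324594353290423401967827013491146748348202556805244139553934808918586825032223583979723962610773452265463802823174276675093114129870464206686058318500420714228662037609137016894099884929996745143996347969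24309572857040706751837790155793588201626595947216678080195264341029457764331142136138096116673875904798081311403504282550724997104832971838715451119861499477339130407507485719674028752119758002111899478775977760184876670181324808233831923891088423138170109887347265499483420944676574167211710496624193949501453807079179889605545267138895783151410593097226065393750827490349114159388053084099621892157800970385427589676643887420693046044150862408913180611323716234495940399832621966215918954484917653674336312936111997161488089976726289802356742714005319992872906943682812318468421982162383606142176839848477177026012858328175018704138861391629725485740199920918665376014656911823299818624948113899503168647280107245835959745222406586622488818499646765630068804882681846675485580761661896793537363810500041417433110349372309485452756863342184791562148825177935717515958377051309169733865648797681960373740362936516645569731237096936180248474746026235797360631278205583415131189240987797406115304125285926207507194447880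40073470227328252697790936576103996896168695007518796520407381309518790752694804567741130276084162372973107547307722665155549068153626749731880408247812825537647950560476738737141411661112845298949343606244646625454421669880421112517079420144978446961252133165778047559182106650875038832007724070831596154446468938616155637731450194190350224394671193191440747979909999488190901801202207732721655136009571449493978020172149789383744582407538699022891290867493703370781095684416366928300693472985248385076105420992523248796115332725719702846810561606667283898438497685985421276120763916922287954809844353971351571016703499757866184459334142795166173910187070851502893991312672609336858017976298694668895945165237447390624943630991941280754795202087738408948530895061546239557593100534888579446378087653300205207952350770220013467776189776942386293348492626860026779889098531780930407722135212539854803313375995354644396344671614708855042147436517007755486738120603721894098781624519520809025869949851337814154151540681011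00875618864485847323116020574376951653631280958184236944574067206429860239231639561214892852989907906157297897880758829797467818960057863962184653349065731845779882376620348325741993577854342917810420614099108256429354358276482411834071529553340599943617301280548967155665134406167189716685728492348435546011957126708179090251437784530977672231976663038128962600608593454957728695512918109437596321100712358025712561255040374063850775957327131640412257537486171002860027471806963380774499558139277145293310794003413491431554550558991887521870864630190152224211268304222272323678952330989158430120269915154120106179508351129654332110122756547624000420602192184986335131054276200722969754792348515262938062250792603870537308467995273425648796476411604517348301846715525785364777675442392972425248844161765932392288560958330143609464224726048230811871408547323656779826167837209133056)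

noncomputable def rc2 : Nat := (nat_lit 21914534296491534323511916837323766189711511098309588827404306612221031056072371555053787346872192969759257847917279437150151965074716546301601074870761192069803080889738822485033958776645717085194924051190589392848789959460132111310193666684906665135318952136538432242606839281675548972609080784170091369072679944037565193166586833679928937444227944478347208152035292157622825868411988262331591752597027816572153676178024918203879653161499061356634989999158756740687846834863699059912073152910324100200984388573377068495773333797193590023009310731386021410767444949323389912157065091061998519745277694922797253338805814321718337559718188417206825045696288546653905721155096256969736343682607389280021611623813766042933591409690965765420998684862528618955256366763378803504078846671636470080943757170214971443656403436191744249904089571736931228212868382881138985128840470648705024913172151563405023595915443431124585603933836013642060981658710985720522599135756723973659331435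49747585961283860043801067330873007019399355174549718746032721060433121368991981155561240720355848596600938726854584869726075591938278421454392307483609870469325662405071538280037269344841460874829269234523099800482028642449345241320238723876938012666878196896141156145494015043384457225578217617313214567414909249258819921004058997588395533780595859728767958209400917607607411964194639074158541510565766665049464904535517657241554461957033038971589483745509867978360306177896700848985402984184648616312337388882068987495468144235685494447947138225921151155851736361090450778660082709771983727393522359424824192688481206959140758091716800357478376836945290690959896411364643173261774360611882569940191500649147760148137336941997461977820062921331863873588945198908043844783996817625712693422419873830186108533172492823068709548254596302888206608686690768021242496303124822575965540133807605281644067686140086434767787536696002872964122553055318140322804547532414254592679283807928810324777188921069646505754890949472027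66800089856462340464100535923557389468964518895934746865652504036776372333213381821230343997644284801655250954158421262139708621132572409923597249668807682964561044426130198796155238664295737907458827650091353804274910264632971919434456289384304142967695979364434855563055329981544835578261873681555010098331157588411416731480257892963646088818078400195057621264883000820145409142204420384963102984267668074851705254621371252296762838920614338654971215245061409447844231499305137390561097146442063483995794330765678223185610319382688659163302734756206409585768363191572091170005551144121255016117566555428915308222967859246909727610408301513501582428912815391249404047958941307856220323184554671209587348422354664647958115854958502467214471178172030203281077772433604627288036034196419754737839817275442973411772478935734113298390373715796996073856489841996327246996935406617986739034491577955296091050973424944046215652205146621898345305722595543367252262790004812216762825040850518235563118883269750700771300146082426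91981673420618284999187521619071564250769536833560646522223056329642744862741808714296113424599270642500609770979986029774763104974885774514019708089784112423270717321696426281787244068767668328084661344521926250182803826112532003107167683344501681717155331648524976349447764442503599715215283886500002047733969640051782500402458298555986076512584371751926563798189023270890676451469663454129647761056512944762859257635346732121165642533976641634737173044704112618021744082758880284473024849526562881186197185701373134899697307791318187191903253836032820814947292756809499524480656043688822962703768892946716996971984899820008722135162251167689961472229870782834652299829341609101656279009230825734095805399456012380704211474814263881157771053702552985953600605409476025875202242043505134932410896694971534939217532520109131508923071631703691783872783841819967641423535004898390399159469393156771771940662395112482769015613421465085432525368526833846106770063051054829562528531683533834071929864867605339700153078411029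14215207583311965924487122437575912415780752883506998463958728875669897764659005044944235953930602499922648760242550588758950297081666103930865258029760383827806622456982735489514194722088033232755789355679494019475459797581033506585300230009444919001074141369973976768347211819042730343631317422996553201480024565976799620442869656678821003758733758489478589320673038785116541284382899109856355669770750490218777786051429222464768775754144872499399734235761613486265301414927543936803915173467986838269856120669262811482882276735779007301812462647432065470959392525078016451803512829014770869946514156039143691877455130594324682524899914973531216930322411477879274689269737715450933898128595590998189579867495347046414773107356233178485203115240641448880415714248102612075262247804265021983661061449374709632883356039088222733223820520194145790004693486958456711872362871514920180263432404866480232877491275065096375522271973352218516109606881370380092622721012553121274287092779377986774619834789384445747817426939730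26030777177107068278495310567120500153785437966002249896577897650232844314947784550840213286199952987350067456525894023218053113873210212691212813748848087587864384270474273878809266268564295371004838394363472990040329052873815258861310531105851956846465273556690647204584055421091647481095573769630896530568941830954344771897344940283918223657610059286538933646601812030469705599475370033476261953038749021440393467643216922697165156170079276173548069707235859242402999098608790838211509405963727064657567897885311792996953684537391802250945199360289874571327438213778323628590375192979976240055483404564599999323667950194221122640819497052331560263483374732752094628562897789486909715355779140164675467326982438238224042262813705864496990004676007435136689656688552223850188191002942528619751084063657238463544134177274459615329251971773815167359420257965253356362757368546201170528929932579220852212773459699466548821655082766177956956011500708894659926212567517034802092529607351491630348723503034204695874521130582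10961522922317493865433986313540017675538206237542145891377084515974909411535321327040060353862687609773306519243098436312323970584518870619191707824895249787679744993789234561364065874818791697092365585271588123436203434731308569153232751465411034505262782624560491881348221206244920737461961963399469762425836233757038371042573253766011997234065748570954381035996904103325439282544873958925448256685026210448504122053378353664508472701748816654485159666966469820515506921198363669346881363329780875423777638456451495198321288939532749761468799260500123233411502622979669441149879622973389393793823202357600432675457107015188009163023643176060465929092163584261621624190330192674057969135204354604637469692049692213108959556921028746372979167222308693037645474058433113074959820805386492417248172993184394282590909533776195378791318866552777689340066691527859351141717623495970309525682970956915801062646611329839500520358068152312463486435598590154539515828737091464507401994313573751101055336828074105505278570481464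56625559141739649924375298251205765835631779489885962172432932777625593523044394324257302800910239077238091557603048304769586534286078090059746760716152091165279405916818770275008224434000250542186961466873788514696591751005423181246352076639207307806996006026255104489702844205420752691132695195949991528322530910476368798959659424305475211502794043175324301708465960405406141492324751556410971255190537188300676559917704105664755382216307651412719193003822314856443109625770704814559999728702229712924114598596426604955500792312171536633834354782188231213042549461897373013054559731666869458460310285858869195293798390755747545868732829752312192710851560969472215924824267227116321481950225081845965888198841069761092272035112202755733930011557451565363928349682946582242844417428539696525382703428714151285376513788026920818620859844260113445498849854890026086273722802416765911394940456013107339748834041541682375231161209817996174467879121144244050788861125645475596730922760770040932725038869841777389345113923293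08119826251397243708503194553910287759822218615811401692608003577517246510924154483094490317951796861474781273326194796297911891074066745394767695750458949904645696131592842122188602106096543813929245840683301459727441981667566185013816604191457471221379891451564675799739397295572167993740532374329519780176035294579892058715445909115693700214025627999908427601367812587212535120585732044776062447373337540476711205434441798340339908835755146856342181916041078011104897867324652775892694452978386676040377214755716188156479029528853317307632812487848108329429085578662113455668979358632300858963136740339022831687705803290027426686195472342061240355834819138941400988998363329224466204929519188303113646865862040672494380856967559531997600858916737709157695134201436128607304469026802157585852300944303768800523026860397353855690569816240821696711839683583379746373968468283495522539616724714380697350953773303652127864045530123610767135155924123912839200306486390987695754975931609339793476034781811999537317700165158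12748916206520201169704094736919813292093446028412356138681291837197485276579609731318604554406538666594277790032573607342744489573325515114275963471441909179869616093828371616681406214608434400060330758819623697261954239373602937920724698341825265520347215748298879713102234132918433613356801449618456305993241985399918945160592403380347284598038747975543056015908807997463759878402752044494560816475286985950137007380464037595920099767783902641527340845089937532634642176138212773000992790943421131563652607830522370279816046056942429016487496378690302946704709692348889130682534382389817001644830579260459390290724204792173364374012042578744860614089407527951718117545927530593625448432283475484753966088360801604592453616978576214532698189583936799239532750846424592111815997842576194847080556027276175505854484374642290242329940115999638626869623563497771269591688784916556779320843868147973518960104856682996748401464271088338303173077898476742176131923408597206787309431515717347770277049355339797686182827541809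47517312095873029882505074287995613459415567721273130253342500722720784904117232765952438092013929226946430430292340559916023970190305680986510144384813425570101265574777289339999847611521999582704459846780740516098806883253460129142603339869114273276288261560561581857654498268868969403669990163843158863039028154687907109415447700075301024693499545813330936449784936866908300712486214394705621084609809734396588947723939055062369568302655187931572939833450650295767491321189944502613326154442335868980976031707345303839356387157639264644994717208419463731254258055406222659417520873454326468494010281512808962138629760390047396851336720608128852489829113936304721410027286131370797172662268195210179421455510862960671616662695714789723557238881335078370346293709235148002707096927443161441226574561588485841525607487363515813750570549268799343559663267504293830021164709818152953115570965733683225191316399896536170751748535739842936059880478757998715525093232307832460408371390188871295600329684878142890393118569866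16624574202460895296980763727675685881148086676849695739925491890798808085822693892153840667106216749020380255915589280444515914939521404470512841732173644439211794042372386355176651103910072383775574932964195096702507111647389826119426884273604217769670730424896933684076218393385932199384803288872082059170032026659735391748362241041284386763982456947275882618139554547623310349688506525553326830355772940219828790522477717213981786100365714729024047179032718005496082103875854879537138638876330114444548740115516586715455686171978177484302232295164562112389223385733646321433006272706992549812691367131449785478192229099140316320247214078750119435955776493803202536694086183733735415473712905981608198273368227983273891432205262946178607369435854580157567520276100486938310696784793880172032360601099018502500666608015055618150204127652728191776490457041950421218116700964792076361926084804589353566618670628744199073740833563191312567373112887667877006392833915257755773420463201951211866799346485110416094930292991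48908770796933614943071973671886185227832257253084159885563651490139926045421619289177916103667389989037144821212017434045989889786142711719785545003934691127579048228605122071972998084098835532198632003821086041580572691501237221119546265590593206934063220908044221427571017122410413083735822994958827597433883450678323190081840720044699687879573786053054948096933060229290034833955187857877320587440251682121435228542124278598079942506951673284845464727968351089139869362869194403352462672900481771858435536206301380222213555467585450656250258907209935224388630582022482527792137920894451968201951372583790147197195942908977776824182346973764529331976711855570682182651762499911008700075598109487363533266674010814219690678972811291991771405738744678951927704801085966137162903454090522990056620965349957877265292721886512826755077831809753308473708934925742784697375440358257815258760413300936085801830952501200797149600081141412941745682268668834969704766001674671414165305821501680711609810678238385396665144552626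96227618175373910491679407310223888012307337029292319804788557583882559037467298353033958411983110673430212253709050991770744270525111260011895566333804976893304220039463654619526159695381158900582329257596501548023184977202052556692936901199655720265336947294290150761358740243926292822389742387304477701864077996320108910561421120107973746560779635785882053488704242568250091776425171096158225141967336842335897901329163349611617721767127338627071119477872039062976812082326639006078869129856053690493108539463050397194514942467922788759541088971612634413974228901999546759287754251950169929376379380058751902510572602782656936212665972458870808801977166891797660349147145425002880828964524693468717077928510091905049066383274258169380305191963931303581080579806777173998025772221913689966125977102999776141382539003828881052247919535788083253597909952016835922915191016637634641729621565680171887956965056230223719580461501595961169039545628315867257137129784634465176819718612762925039453335687584016471590680663932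81561730015547290311697691761517149654623794475346599978317057646322549641968317214940174535523359334718765549029452158121627047972033834464457647450849124877585098788886986246284596444443144029875171336850856200321252893671928789093441001437911880385990077049325082369444604167843265212721582195118349131126312586515363439987996556056536023248248885626980237723970172855240364342939981147739746130491038062796978032816384874703819442995457826894417055354419182625203428001943241716018999926083587510401642847669049900424188470466492626176427355044289246894500515988321647551904913699519523460177280967288103218125006966700635185244167665086748950880125260511526016676854208565717848587198122398705508354971137711854345956433943402955881194450744037632445103765173894203888394152812829819687492758978596215698673265672683849727628138917781666595568559734593008759223890202668485562838655844323910883356418626033445754068597513107353112107745687063238905660685269102577887933588053506999187967414650166439358985050288243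31496365332554649088535940952479450197458537313748547773029521101112963015376683170359511215686135341720093852863652327378200854569971843625201468895588146529257305705458040125712098632969640970922394446625224172818281100660963109439902193912130646080963462886481422027747832918952578478128761203262035461127250173344581484944728667354085641010514240436721251633237286091478776869503731061622619182381304087125471039693360407379367235843026741221977499387285491021063580873463350366812636567530412130904651991762768038711912365176482779466988557259257979099839280864711040118905238930748304740517778568171819142052249016871626820453783511171749775167988623081100367074516577667483243121396235852994496217145898925600616662835420445863802905519318110958294846465617424308097539563767037968873627335031409205310158801688144520790637922550364197808061314714633899078168106933675006582458404158084098653147844856432433276240522914336755764607846852638089667913223979868257331015797670213459002786051231341495672341227656711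93199911793969063104249348528868313813641830860655214199181953581467235049169496565900688446342402237046471473444274173193000300489708478801748147845259855482595586568468316626973076812796861296448240637931258223636031797032352072393742588408972566857296068417075459098436607502966868177873813372138290761869647542454912223035002229207150056874082557124905297602466907367667419590517935713828612462132659736216938948919623665156355831499517980663322768886588535433078588308252229938486069767186742033819479015558644903874456978626649793502241152904506653991978341839571354372995410051140119666618900198261348868863891790971479561065376696446562665461578958281314924282994603910368101955372876102826090830317505465681895120016873652618331687172191781135562500456183328863400329936911339315938164138711486284665377805084535148990875683766944374753008521003443848825731680787451292924767091858386239227975159494453457522996936084790047403471175454271399278242416173982238389179102932626689273400597705074569227773706862504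75813238396915342021185062711788755131536701466834005998666066848738969062891440793807927588696222164891225730362921929457165868109968936334141303654631145003380617156146496610928006982129692953593708549786478700195646558032869337341544681370710409913455402081644033084489243828853165280163255623008165300126395748706510732162214363805546975392464592627242251278013959037058694359133393519781176240850693288924944257195643267181008428710939883200656085509457115543670391070327705246977848020973066473875813234845651250192091582847485767369075244656639354901338490178658495348188077945103690265772994678779245599607742132379192059099247244639323039737256861083845987543235965970003906979342909446760094963970153086402578469885800467103750410411792028692087959701384387597085509834168171550024346411523140537525903082934529721088757837064209403703838747955983590074211124559583641600)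

noncomputable def rc3 : Nat := (nat_lit 21959255361879892866462944501500067718081306117956243344411764982222216341379947584090728089477558455202492440289681551426533131660443877325960973827151476854459846775109548396920079330128867740236062023160329025593701922010358074975964178080219078292164813050051129877159156930460539109219156732533772880626791284097768896449186263965194058463371013149343424239619925276392625011492942220039712693128876353339688651635146060413594803936858059749828219473922337135201639694374592026305996489028248912119053282050100913405847641758432693550065773425055639906792061108174249131622300355487303721019167871290991286731747195914162218317506925371932367719076453561362569595469601178362542572807132667003356242589932879621695129097336691348410315124400192930195737774543933183535704328243359972245371461242966062257868349451896566923991132918215103485043282262474181862016197074916307574445728420624273356275985486842736866672575330833807259358911247937957188129879607533595116769627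83881917419625759116941502226423026288945620335831721319640264989886380853918941801626394596688531336036965994883880379908924057686864929367963411811960608263041271683453110241496860916345548397175403857229146687961096003317232773332186935110936689555205996547238052814030762053937265452241627895412930838229555921126437323193298101867065707251724113322089061829745393572083590717609373945489203174704119608885985296700390639725743395568550912502060873629251564067503886858718502994940326213729050219553323468517957251750770327248407930829314522840224814837311551206658596204402869908031258431496979200969705227066243615621159099102202832864747867496894226545434769663869467939991241026157199680784974981169198209127315566622970554292115894749555302349038936571993678971836882690937761003742263527796347451902737592802879355430278708899770674180489228201501404636744109780296755556404356422586021238050734978598561509174772166988597715895683070561293251162986781281309551997279383949214064716233003294099274766171033400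89696316177942612724275829840222146577047531855640268059952932276833829766964457299167233101928173285289842177162300619814531123230955496261498330698600960059105602989618653390755467751053676077264780148322526089846854541461535609292437016897072368899189565457787220407561054534246973605876223451375231514094417500904434052406865778938923232612315872017241240286668007092591229389367928715604090115543630244986611956330427342118927322514087811098010480984270945899118433144462467635824065346960628126817076386099954579063548282660782456276686403494091170509021028621193216658110168709794523575735896267222887337007002371363427876730535191189589315472380996759743749036805348597864812322448389452202189555922610676123634564346299588243748408145780065781827105650009631764665954312800832886468758474153334262741068274506437292908880446791354593096534473824546855489830882971358278583208316955819912168036154017912734722066521746926242102444338097110472064230337806005215722768973965340175062382021601449441153968847298899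84983365690562001040777892498610120615055009770685974052253497179079424157763433363376140324487572139745963479350370594190919344926267310685684219852711222012094212036783421127321093104436017895059506227126523634639882204590034517859259861218794843350486017976797827124207462292683780301158191621581466027162102169902935832597777918768022985697723082267054363264188738641297507393103966467565703783952139031054184652211486952455833794203812215032709582833205336757095431849888545792437661466249762618454907617702186762150699458476680307906769573098450017181770370465631292764140453064509201719020997320078099528049793892662677224451802051195932494619568591246963391151904961007001400532578976595110126996315999675161475638514091034596113495171239191364490372913616854842860228116891157170265680126313358313944899845113418288542712561927833713139225538080541411793721873637980952133748411633036093869480070451527077909041907140963453664230445920403471184481690107071211048194256908713665180584424858475055695544338540985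13019758565467801559462564285972139386011144116029778381865235659270602645811634667922510781021184855998707007892074711520852517095941487030537782403375201744957902567768663375265041086059480213118964115638015744514266776574511574873688495621695915092949434205001460146920986651226068948703874222551862711221841975433843905970011992268211246325775659345359068835960004540351377318266310364907404498939750480484575755225139259532271720040745717792884697279884981282147717256978661811422916409368302206235179526072836765918198310475243181962040191498944958732136057221310908758395474170499170848747027368778642715600345695722316525833036440312029220007626408976936625947176408262693593799667790740871814209719078480440424759730371606573044745167918691958070234769214960849973600600969619687277589805315793028444464877724798655314703576474150267565028976482224695449764599958384427952681468579699000333968864854560781405181000183422504067993649933008280231045415341595739670114158827040592951468449471465674526237783825707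46458053753833507049296665274638013840004135942869472637898059326246462420979885751021527155858544293678850308379050128958706625272582053694405598359224784534302797622535352512770640014677198252511815992387540791398681050275036747800826915908210515319737937158049601662811755363539276664592671235816337695783776048726643550640963484950045840931439172360078294858880644841421977180029058262178175782875108220556763976363543884284627748702583125506029825724372694307560113694182755312614428120079250093386627798082361727563328925415392468118402684655629815612671111569185888128737421192149294152840390380355429028885211206070793698341729791973306376339768386390026125371865011878399426565803970640344679182284234058918396744052345756509706799607764938331537983723406259225410918817494916295934274626435444449861055565545212369222092121087128074342595153372703508537856266340393258175855839820889879124084096318476015512897155223112883149425801035005832623637473978110357945849463338615083007739174329380451780834737986954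71941999734217594654478079823114115816511013227171094747721257149872793205305974448540767853445486843542169646839786562871188496094371846956400314215318770816337244543483002743048752508427898914685425556724227261480691135099985242681003164975671399359798750829553639750618547475113694886005090436669582014505871887923414644871100611005678710221657937084995589689538845365009745905479631175621111365454411840534701635707426892400044556620300793300285618809518305316444561188232113067606397270350702399513481232424000843149938682435224734910533162250769848705203626767524671745112906384809478813359931414379121351414066144707606618378600913858775559674171357777491219544762813958104354327990648371441265410129219064855190341337985287671424740417759378443506952369016423957958713848965266615735400219853707133259036085375903514062700260601541744822143427266054459329513267987308824875122962044666345831755365199710624068133084134389394140173431496693072843395519131536193583798549658770031461912019074704047134547487849556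28982734503401017414840157703517443349491280085387633068515790130752871196179519557014893666150815708827725233205546312295109249533474504938368926889652617692449428159606064533957044773107645240770672705391631443543357990493787729497152056911166040526356345829803622656078649154070398024734210430722359764170965322505652053210179774368472140293465166561372821891750192010435965161579349898086603745508550003417189274585207797232897347301565683278825508540451503114789557805347025722989979488442394233341154250086881830480068334960784270028938158492840146939992117607998987861298055598465159674198922804841110182482985754625662584505478000330846882942958475397032166845324080158229656786706115468328804716763866942534363277902551026714416766541404289394978600022253230822177904609646867147706462930172433803797465132784950336641999144212443353874838119195704346991051259454095219098848118440806743488890952309730372049353347684676520535974646727974671767970999115519421514684594715653748040589319764900401524627361269850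58388162984072888113137842644411809113537586421842225474308044917176275195994676171528410088666071101327185550916948638202347995721179100978070041058196852889853179751029015697807616009626561735218769554235024705934836293607159586199765999913073003082600557619787979140679654560440622180345851635584318700357516742435900632134580737121024968628468926952704988328713365359122531165349971880118037147683863610902603440563158797793338304701361706540900267818793334682614048530385676951265560493306826396137156921281345557688142234708365168025176554050237794743217675641190235641040966931893231841548589356296051342986960275734895585800263554617113527668095986259154152564362132420775317792514473352024078933574117584271920652499928895498877693675933619760992012945878534934561859321160975889396512948542790861582025642313574491827946145188416954139475055589774573030858623721644159696144923229482766949371911290885783336859882652884683663721457457954797050672914335625238969921531582388556486140014857044805668307726500702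18216377707139742919365799673232067306983641419097850726740394616151718534988357505696296271181608267813403578101949681422345998381362133790995522717361024840334702943718130837805048490305573040897253951756570391334859248460514835214680914161781903748575990950732372475529688064340705102672280280363407659056044784418881630244041940251549810773257368620606314217306294398628037870732636463435554398769548027401438841213266188522034777224777018405975107999494171962089171628958622695476152842940859273054890644342087902528798391990892606893887990614094380518668835862950976484647881803110221562205118759853768737525315747605098201426923432871450511298066074863302156622107789081303849703092240769008090577026286402616192703302247271833770840777934201985717430929154276031109251258773476333213071196331905309472362623399772154801639525100407184506846658656529711944621197223317567032840821154691275516531209894810473674695467938149151038312233398621346386071402080758821636252869291160280564861218846388572331261077294093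11948579784975821795183725397355803196321343613898262472725767723473862293765611967193041074523831588575840446181949730446264108053398355424065089130862664060978403207365744908588644166168946702866783318492701571576954731326821062921978062466934518653122927187707185789529056757515614020820820544717924803705734150617722642474489880539553879725806634524051716688816006624649319620567095938607558471480227685170974059450519523875577564268259966428999999895341823066336044484080441464195522340849006885660457708598122255668670608513855681804377086799919722416842418476856368629536133132757003925738738996708779046755670322635378053216138207947529113534835185809309888319862777656270486582042393136663873985721553001712987633595380321663498301333581167291988772888075709403039012615328383016473637274231161680986043830029589725980564457617309223442140811987315376525548623127096294807411650248111635474894251180276814041151154713948452605738888090969671101472428244429569807548556479976933000159006657892965209248105375166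67058072374119001886638829586639858944930122004272150452228126656153381010057415931034553811580372758445879787674915318714698413253241622134422775301831643083200109493610692415955072275818912341182624687029908508131971018052880011484732739389004031413311066410495340086509735578661966290193852662457941562743870171955816246623764927486529019144611427087103203169835650510418994320366196895126332250577356819929294360589423413064803083263204322688150932919591103069398232729699117704799425331048940188874550620369096991644158712953743677214076897201874285381348962820575489566266205731124111223880585764378963907202791390618928272810390818652689531816053016674574206563776130154115499363781688233888937414445379841111342844649098222344190556526952187458716684475550037391262504534241574665418214175136894133242807946654502949588112734602532028130564312902810174252113694254926830373111420721995387026192050892605041032789815830655069347064324907420954868043630352552659051053048787372684236332401805730392264646803856841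81457086221614967485091207922566417818844979675396103880385454041247191378594096813563688842250873165800788912642566303051724296666200005296638615396359965478480522584133463488175928489580549458214651278748420820251868212769037959006176581687827086827966553646017702876038761636756135411651182291465633313254952764908603678310213770111523536525099321081820434001230123315297150585402291376908720643422529373899619759436950928272642697807684822280612270796490838278593698822861340492919141847919183226214181817360951523725437453587548761689890087618585858634699176859667865854664942499608425915063637623653410263440550909811169646351998405367770693925543561103954556338757751443404789823771960503408377227350527927282429751767870163807339907170563623232978070753873126894976424187694071707347865263191754571395813759904140861097921174781862061258375924444590153768783442198232608128852821517715854855088958922281271183056808850374660976729109138533003510755360492128176382194484815782358597468314521563972270266261092701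66647425392669865990686412726110015303941290014909095293922391692178193054028437330140705168594393498106959776444226443020216932579227475919488929250913481918733852210445035745751407844485642009171105906948960679207347472078559138953749073390352306145001153831928344773777931348548407665707390420725827369716117692062814048041410262671922200622102948706999710083151935555119433979434822782437383218512983058749972965538658443842940913898556054439841881589584865173444128406535728745494313763337469605681228840527047060701068952458584415998489640600920420000899785476381924712912151024908559486167005479443351840300426626386625004627150514231458330873421915972388377918510917801702952695316583413596633304497096628799089074626701357076889685001328527644536157113943460109661142429419100905456763250984107056781957182288467263713488808399596303315176958293076423161966250015137383595644895085612406184901612630905728247435662431208922114425712693104371102056832101992118877574695928884806832503997287971681533433418222588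41606448028392866401773230970633043251151499962330578942866699560330902836977736059637011098683076212795352403555493276674704842189391421945670368166345680660430129740818964377511687169771069190002550694313078275173879590825602946914888926006531760266330482681540885187050253789205891673238175878355388196199593192971318345255845038426828212632468582424259004677954152884970690870136857662239343045587599273197613904802856693613760338389952793321217638325208429738473679705972291343969971336187698426883487693806554640072551155277118900034494269851143108772420537208083202934358455483766399456568660686064987227762031666790401654735405425487548926646383717206841840151392270932286274233602972772006912243381639775227344159339642834046462963338489063708655129397934442015921430507300001636429264253261449146372954411971108966660497957005047449545518447667589638112241541702095982860271802865234814846887609116826485484333370507275707445602144209175849776294099489329509985971189680990566540618769050867088476465844451867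59240699476917503961936270302493318420241789155154527361649669811324910130200116208743898618699991562271838281020839159275293231384403385039584361369255720263013954625781862559494222279615577093055513007755929356476661283139331047025913124266794528715191778954497279761039690906487450245096456187675066555856160935350277255897534051673526929612778295074644065010647455407203884667833197724050070435877890249724580693706549777501988509043734876402418667913492755190980112055598517806579963489601353528155262436192818295879967741478535997689873307995413222564763146705721593714921724529046785534141795072641610651235492245440976679168927519078353190748480977023621983232235354634656321111990703143970866021596036727321336433220440812483623773542249145558127302238802755392078491506886632252598132514107431229269553135921147576845971658052898976218613874713576741995016334683698649195737420967501253065539730556134272124409006274581185687917304268691096330746553314369814953107184590038650085753035776057008278216802514969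53147565178947905774268873854046782380386233377432850473609479981790302812824940964913122642029723222743608913683681301580881243951094840636605826654329089207510409473911821961718293767364361438468520457193954772587197978920416009003910972698810574185617341615417991973898845588693261737397266027571465814309188953507198453249899687490406529450526804941631116597792053224655428615036036697262131578331094301475855716323178380115932439790997459970491324716649632042309359685904394406710969080665961808642246612300171616577326737423490734002801794967482167631004385927118321585232516359599939245091754592272871032229834024577634966221927605944406538458735853109245023407019679871986675741807497499318243552496105282528872870724898982387457503791212950065275124731512930191419488561683444978864613654304294454567763698794438476379113987109979320311654885355415878601395733395665188602389062059199311424127197974978547458541277956821440501570605576611677176437275019094242998331512682340167267125634241492754454232856215134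37341575526698056605329204243282757874906756956232048117138891428603004493598274557281740182084302036684034129262078949339432839853589029797258048457702338886915042269069105595292050265889112199026585653197892870219888772496450532371468434209660241714452181873836395459518131856524167187227081188989106736782859327664286857839476512712887462511422287221678380707002136742521836232593827591900802812226957122475485295129186253982110710590395606573890267454786832789589455965205460037601917946187306102881452101632111905141520801171384416822316493331328685866950980368888245416698726570064873536965157938567801700741978122625995647947618676338899040555252182959653409709067447341151474083446120488799714645510341502142960571019915340438119001550994666334738562503639020098237797030506365936434010192487668187650137604957483516208354244845843710088505183348610581983619604915272286208)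

noncomputable def rc4 : Nat := (nat_lit 22003572987925521337759176117551156426109482351220328341938129565784789728608210865163690630664248179835295319542725147293700340372703178983454235584715377031805529169132523745977688201107203561509700309441842819503609122800284056951453642208310261987829501079639567327983576135668317335671867643967447167052931178718036056829423650383913617041329452707498825508403049623550295009438251608143744459075272672531435796901655670252207717446977780949172970007233041277899288938662772536632490746896292910586691769698768984409745542621208637901458832817628467995691411857347315200423307055765569684866270874350746687727607804586257752859205668957594021342533267316769822993365885951214791004228295640755390231771157225914292025382983628258479143576271030760284605078120397420381573282459603501664134756436081294608537289359365349880148234671062934957948639453928099421663285221313154497285232260790987749384326351262850115387150379025516134805165214016226786021820160542618264713805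62059581369004148348388546352017655693369166436142900749232193953012892263436166432486303704583794635902652806287196250343018869811270940043665515459451176813159311083163968894280134098816141730734061180309782736503847118941411254537467646621218871277486104126616470645247100545614159633344072427021449690057128928876474595184402133743539286516566722757374425767611543204588829605832968792394018498940221179729794213129199364835700522228444790512103331427207154578775153003207467538804259071984984986814590054005391546532077505185456517338642146436381737148600776920548982684646807450004357949774926777973327505210308228452122937439993428750948410864056941974454226897101214930386971852695397829349513377226431975776218259285649034875890646035414336405763419211351193260563997851130394389375209884517554735759168985668980620323860107203847920075113647580361172839224461884073740678724113254947355383552297583075065705141574067382550793386943012493968992222654606261081892138825049516634172470390394759425898855214787873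95858492180774595174395061939624289723776509135756456922965299676129321012222272816874489910390544582357193312491587204849326298964889504630789348926945522646576821556844756334994495673048612416641417232943568076032617050183526128586886998806270487202738767475737874044537980153790737362337707683708971244785073934410669811014899736886473400875599669521902963680741790768230908229311941076696302178581731961647309434212981261196240512518562271062441426055697288547470160705844866907688086265353824659931893379938186485171954645091685936587568762817136379375014745651158353574711812807265211792413010340736126413348681190571387588381311362497372618835879949523947640565193315548743168280415783168499559890425217884190355764661011530226687299711896601223351777170429526122674490581060658746317964471369599999558534703036241859428947448019530267729934143808994271146564918467774520625892199270821012537055817982052282044656375689001818975951778859078216529277432056903890358920699487865379300362978142901394927712677123908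72859774988651852780735763367668115642156235316387485729121105569975807518289317135414953683931944626101997515696459316907334269369488725179242764627995941928014116337549910983758110442093113102187791149257409527665304589913015718119031287829484142201360702264250194934493581442027475496095602613641327716405727924592089327689137972540744166035397735333101112203296259638508210316220090095585017511077765257085377600721545905238328236810158053718006313165484149491794631667471817034015676488435755086756828199041911526521048690455443383025716523191439380387028388680329708937634639912508976664785311670169801155203831559682759084954782713773967834537742743514509358175868737918379360039919466415229431630574312754091662251871072413863233721854412120773626464651762730863419170785581282938154534579954666328783184246218174284511933818509382242407249263943954553079198726548561209991593731403132186204055033487446061767739604629008951354233281990038052041690955152464421121573010523439473536744681266783751325126475676076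04194329914117936688169284905266183096381535050758342563443445400262841383428087105699048846211803891990858958828408575429431477210414137512748112078570650586709549984994423337402071474383822656946992326517914284081568156053017613040298878826401863617417352941026130032213885098178819377149417804297167272704425727867650429321109034477656063576459169214874967864664095066479619040546330942745512481245453460796182584791020308441525937685647029585014075838088509165379490427906183611114817140788555491309380794840594623651856664484625300237081599049580160681520130375980455628121695925294676751526981460390715831630102436400096441524123785544860062890809867158903007190772281909828131875320305629773229740238380909973847484871304364399508944794816950144988032455722969852785402610072350891432372821850299709027293338042386107023421264637941707333046133419570911128889867548031472113694651528486753972340433017743858517200091869047482880092620589773535445717222089425402416520319742216405772864173061988533780261699496382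80100095119237525151796948111799164021023083300475330964213822623035635872463941055698435212081118482570595345256405051935608626912366528530036364390738929760750356093258909502962428946675179428853059919230331119675983248589015238466406434453459456007554287102018321573814883023018613881737748112629645156762877519116227198881254000140314978695133856657955528526954927539477715253914497050678749029506552111975395022801246136643514829787416563817157379237366047838174000482229834006128676128469433660150792310071594502556986090630978417885873663620595662589909613483554257605679571077382262584462965574778314986071362885680390886385921844627262639127054022099499678484342357337140870159190745482938405987482548354032677427378491482607612643973684013054157246953029568962749133528259392803247133533556509852179016603089992947190698322799569441454163107192489452809889971423526659799970172131571651283194013421796808797424875163105119735152158400484548218385175580627769166933916831255392165108834325142591341546612159267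18352014020811981481632493956575987877609098720131025979870292789779817260894541809486603089313130660066337586028069505603188703243391928440089930056264009301656169310293570267404071206894127812727197547994469544662965359139287582128261669981844090694409517088335194667540855570962715050589488757964094979982929833414261999442130492302234359428516838699925758421921737991285681693263321107663524050001838204375600630478963374328406341915815429049565740832317568354387917205686658396965331147533295939035273220372697890396083711893614604677385042220331348687329446912531605598268515910933577343558527687778126243429204511543610524852121031145306585451219402335211172139748475902793735739673244572380919198581859239151642570411685754481898688493938926214378211815206445011285103386592712620551757781464166536198996066723551518245023905804806169683918947896731584714091040084711782344894018318046682662781788884070823599649967512870326839167884775213594506967320465632845402834109162344768883095568515939972687146342360245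85169811624564390963623628787700269310904742372069850668292853089411536649394016296163135458608806908747180913936142546667964179348805345265837778727257856999419007091459171024669710159912472067409739135690686060340388710961209187639581672207536000012381398287792579849105758781881585707498297325190566378196895585495211040137389582560177349283061893197638434254796025087348896929644324296813119646941700141241375012832012000552838587638941748655129212498146009438806314277057099093345332287952731414881722046990592907184319909755460911917372217404567343566601998478020255350686328197927161672498043959085549980377996636478541653612434274785763784093191314613255989890980357465878009249606763980838013510846293200408740962896273045221943267511907905343704256655645548783532189879218464953225724909737469172975381964844083068656038580759540186014016490485732274658650234699056029608907546075526584077106099598250306712680971553121350371817322077827678233006470877484536175654777961697290867104680972232200064968458908762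29578567144021991494342138035250482632135557623830404044603906960383570526421497815896520535308263465975236066115396779992990057388640342157696196608087513061787992513699569958784554795928317651909302968237710418526807906654745652572932489814368545036048211058453769911238714160916725872366137944793805664289560227106410562305318707931583724468566863825522749573877310789097069081150484026470371653778685086611896887503983746442096273301544470958310731108547595061525923889991200872590049318908472115724958806647677993093638615147172218358311685859304084907257858500237390923857411527923472569512033419519565650267887421624962746603376175728264989732864867948250117041221313208736415559460189420232382435671519902480968524309810537829485967386331326107991830640277559277650821583740112760068346352558484782555790934631579932512588599104053505805339020851369833037319573256337716388415610011343875009681607322661760012405643868060526332461178768515686489956305476545385911693674725731998865635193999508675804825690490567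11977151722287987611700626931308749687329211486291373055790220580066682518820170062434731717621329506930841765516912807277149765174891598488508449103981107706759037705929643202445104512372647402619450523501932010271868175565590809657148936134779168561047686229291104877601575750380813459025372942570103487045509038175841940618776283714580816626634733374361633836084201581170147530616081513024795322302032958693070863585088691050723215059433169034018029214787271086601672359662099277287419649725442765885669859722214111727941878381919255392751894093411006984130661469959474036298282560775881485153422516964757429149194700278914076717570407862935379279782532573684842891171109993726072086394104950796573528147291105136768503227980145349478889865197025642036067745969117370511150582907172160861470021552615131174518247504143356367730550099933526695110163526367468314840557084853315544192753221128104306422169001917516727431078485911708782538234915474510688890291417323993127173540573114381761786799274246996726248225759459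88369519785001378299449628824842070234872301704235217118708536267050751502756659173569911323329893307900687552512530626618023802242029966670048825741492729575894025467533389750803902201026184459784769398335809286730925286057577377599863204833496477572234752381759905093759698949763344558048225955165845245761759370507009156260743492647771707735582158631434140753162395336221157804966458673796988827494918848387421813975348598467246811624930013466791711624547538797137986562407121535168258440219290995529143647375275935963739346185760862234101973794223123606577490353804344741353569235242115679727950926592166114869167597827668815423392052490513095122525167834822293648731068592704967275598350933222951476150173769459516079664714237057060227325556569066445804139342014520492745849353024620866429082455591833730057395574852785827853961844589433916326710777986358343579081389384539606415345115329207262835283349788322222131789692524973640637670314298513162032780627190212232144279434222846139028206397891633442965359441946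19440947646644164185617645917496611655475054641538763865905904263123123699544778021189295020092754123071196492430682281058885569956813976355548436970128467585947474137378646985131433929741766055727887849513628873035740161249877996515848198187482570958754039434862119731195609417278090226886280743714267029221659762273965784805883730581071689036759432646953725195358105470131157781154664733813659938190273513296244735455416734828928246034739552912207269815894877008138431773397721856603138685244348079405943239962600408914223426855662296717622598362779940313115615880266297924420005670639341794045236437909994126721944748778882582421037742133521197867924164598190820652787833628473587341009807538911945381699087687488286726504937786177198460601145003725531332314590224633602114978382766783894263789149538521794620062708146275653476288286369213944086080195808138889018378383820721768318192815957212718071100735401651444750712100476836045000047178900918014765778022674126920516908597696502271467685892259037652619367918173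50990779880097305296009196348550372672271020754971602346838149037840289795132566186169330109425202137108981661066524946115615056349803757634730967750847249647243008585660589938085101090158447341920225899387960799016355730888650680812518225823364931315555027129772665588274886359464086581226966313491262213197974267799464639924612194562893023117457031656334731079156733960896839968560840317150846127850637396180003244938213440711767665045539580911405066247277855857863011904705287760718893772757327619083325032493607441715970706473566697845356315744882329971041989376012825915780741135895725384316881411936839257254879578432216969536271334157100400605401813028588008086845876878759497169576361957526688969732283160614684356440563437607901970513003706464089995277569564992193693544290152766185297739807402719296759548422347058808206867765619580264398057546396624584956904106316194583272859714205803212517324548302041721645860172871395692119278248524909443793034678712570042252177697672361609584360517373452904021646276418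31380951724839191803242670915965800900478899314424383795311369138982637428171280025761723714566666583374638417336368564016981886580889946436411075077356051017231503052805255833812806784962998317801853137596029233690243527314787612139243901575485536629930969469445821156302444368211479115457931366298611464993669718371148423737652097241579233701171073376729642669452615414006219014421446586123490014255150655374719971250659851324478635181179166807219844657576169705133713532350726837363854518032910918654339039347338851391210227751110773731363329981140750416612297264517005016173358846925410598335270445867298909195055055704107208107094350336018428335254663311384996100094884950936123896512787481761661856578656651738338228015267861153923722812091260420750301789788263248817931558378439931002278200357069875500948215226020274921316761110477643010022653629241015789210050656518813595848766847753616297597783360683015179271653095267818401459428882324864330620469960194433219576652466511681114318626400920065846022177402896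08608242800858810351864035655426097440797633534863700622068201178755803121908819719108256405622552553153183554650710703165781366694291748931160569697606941448173192454632824909416476487635429232038210215114666057491375109865282499572095572688552575961059728850922628717011952836399665029265342719336507105222769501765178810895350276516154585058927349495682165400892473705672535903526672716874807137756371664514517078571226512216421900585497840215414693912249380093996996358978981215892444929465553808402291243550748252338574259500552531325819890171820772515330314486773230856331828098177880147487946496343804848529741231394729492688724974273371624252170187587248795166944363185114720264691954644369148794018705915048886428494936620928246992671719594234877779143629206819812513229830620972299283408843181090347987840167963315322594649459943678817771430063860694095893352934846416555491558875839190310915726639114540433569840797824248882572881378530025023570703010941848717263908794733604698144960044193674689858057759325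15132694432129609256352265607033431083867812728123538566294933840896601773771628579331238080811754905858388921815610938523161529153932342926859114368451850282768588634685132395993412407410010997082327711198270048327632501916896606445031854650037507296574811324706196240220695166864578908278380755248306820326728732126371970625221491519286315757926182704162025152667250469210919395736736131726734625602003970828040559491768379862595705386300367385910966600584901806378363508669182420365599174787152376815507957602720811173907405141673741551034705491081528758001957900641001048000129584493042507442443160296691738042813879868195607957100733405182089070671617527106043400893180472034743913658814141168901303550574966526169046118849148224893004003091031269983124423112079394342062720973742134368983225823391063356422910240713361893885991275961376340533125932290472092706387820127801892134525888771518567628341897925064647893190377634854100883928926632718356489863396282752133824344155782686016904238428113873286273266269010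68477486018629373143312104917181281387923400206399693844260467622240760035959987226526029882373160608651235899987606359521687354946564321400000741789200516024202524591163914239135885924105775131280865199869016673670299764841585923043327247938003834708244306358037297523317095207375118854355092613798035028958005356533539392362850689948695990220083365586760077527515432189067280237080416253731679003907859561312588125105079809615021022263476950478820751249957016219651608570193179892537814903487635545845618579104926308764246682447220026484181549160100772497558272935682613500375936663526951154760869356701350437045346540176894574925948986092218279679445090112259191164554065561651945041705778184701316796841402450499096773463606905736302329457304850839778180198405083541200681330798737443245029087518686571693640351495975323627400603022983163047746847319485121013134532617322533365187002518980498029426226069921944569835025048720082022706381702570924224085129573428754230845900680557287529984163447333800222509701487749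94820361039359189192815552987575971561870833434687530501821992011483275230325784253409992697476257224252650894468179630601179642480348197350749793324690550356722467454581676157763827135979621426316711729248207747425953907828251709960665700608325795420585373605180387836376223621739352625740173633194318256997156826162163601918390303863147928241879136030470121942862004061763051348535138479671597388584700886552544220203106163376068733399830890114339575832121211850815716992679878499792342057965824808815489393692305972357239722110911881524033618135646576545256822499728949449536441408078172359951417063576508252041274122443049336135448424334339989487811593187716092835136451634967597672571903764873208483184018820558633319138582549085489581722860134641570567928612565094261411356927005671257843716492685246653702384931090005676035816253438846949694000459604922528295089727248269312)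

noncomputable def rc5 : Nat := (nat_lit 22047495798869721090520746145999474137612039192609265961737646138793973411151384102058989738703262046749892463514241832098191196976804268889513559966080046001172966283781881662705653852344597194542808064969689869375471774710758295178001483120123257870389575038133222774114708697870714064391189140388505946792529875810900970680819872882951261846967808614869588634095987005324873257599496903930656445627100201409987714926116258649475670461440099127432898269745047758813633968627331049743926668669759845108184026288029747305242919443353158098448170374445479842789786118095271599924640073908166903205276695256647968493162791746919078578479862567152032277690517973438682304459635827484282123126041358735655667510473221662906010880468042406802753842390930479925053718574437658554942595629299138074385041413169475552899225380468422295978823442593419985618963068979674421353925617752997618354491605844040418807455186476706835749423654753260786884422826018784724461684909560300461390538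58876788808239494433575822802610200075618846620346098450399989646377311226811461665149148507729355632582273416765893019982276052949196116207068020278901635370176089058800827740122011508879099566508975272019309329290619898601741447440319601658204314122559790133794314110517964397851060791592319670724821258816441907512299378256617921270380258809228867868561686121586414276975935630876723008834438388560362288587862515199731377647716024258171904198275122872715870354549029485313277044556314394600591433209211710983790603501304410029884958730312704357876640268115510199321410281513355631562863061474598024063429113126978913647989404557984594624705889158486246391030116960431512566899719628659290583027435488515656514775351327776001878056223857069774207013865152353310855197819494521886464766542916362046899145121710847333782761167296789320703174489083131186644196854777667320480719163633058781392985392709445335210067210025793708300425216756800277066352298050961346933357574730009399716433245004243268275696445325095788218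69239635338592014648377298089272922180026093085569169900939037610965684999131975506417750856746986501107300390758224660202730883589589971697762944114406202186398830107655300004020362542444399263962768461344745932012492923010857640636610406473509369632562357760800966304537090714283633397705825448348386357262218390548098934601871658974430772265249038992167373730042422033767929476642007127649596162394467070643567222350165964185881469897250889027556547281104317356575155068280506803312453456775073496715944101124836492087806263909200426325994937792853918793178777726659888335948775472730999952336416672902171970499687157504648579733559849582380055468615531295400298947970996982775564614478694931705375315233641277781379832895722348288820654207917583086921562198733172050146615730377934060148792351186168339484086271357017763861010290791489668809996262603582877733519935051184178432766207007346572268038362571978395374584813435394892316708075165823388815758769931155760946990971430999790743942108876405782184664201437902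93712898337828919307259076297025847774236621583716721629774264688084522608189354254126190778280795982712169348260313778068720991379406918287015221893458735793802468753015634393048421365962347639586291487472699135410492992198021192448571856269038544803551093723381788066641286279124572052943751426420527999449761603612079686603682516020193533142063397174142703841051992012938212504813785160750574807447885178210817852994962644163863693767807236749603221859502674313114541845092798599886702881410094386563540838907687834932143952046225419293652052007369273496151795773451321342090427019322659740261623449523491468948815647590007511065342738563995796174188093398571952906769184968144810943542917442935079689823231297190015851232793860089659400287836671087019228613782589791390804120884618200832996886229213422499558254215140989515639588532504748321996324395596384629163516865028337520942271102248396819388771613495481800474770788599972458092369507248225969768311385465522320894683025134776209540503697389489116141366104282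36115941568709317613997091101757719811158937811158667914977054018854934160322820777815207648773942190886435521388651821214906253445432866306841661455049557401665792270328526073327255383728158595592238320854193116358548560288706418114870353534549886517770206219891020892453903471368455964037184416570713993623651431014353847419732250113842236057708485526853299591293476426626126050953441531744562862167955229621700742473304153252739703702105971356763048633660619245146083265164147321765236922740457341708961836480029322108796000016027182207233775516016260610309453078967530541235786806093719089151322207251813272364543792568969491440422967305929254698938808312836572195586990173322624255296192860555260345301293225098124676592593504320266402120479357241269165080727019254750646342637800053783486343841849268760601534096287934073822937418923906116544913703865838589204121911939732701730609759545614050465397541199944484762400895591174530546177665848601693149586086527398618848158778326836651959017951347476216757277743510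73570915754092631459255568757435924807065831612719200188114779221394846016400417133279249792277416547491394473879900373582507866770100780760356596710525191392904906804475922268902742137570233895090020241304319175799535852447948929245123313088785775393880122648375376464143686121150294884697500963016581043010913002066195920452091583083193609057608125251903286813957599721188037017877004505474112065171040396472341098185674060151357954465574334453993683802330918037534053658585437532224157409501818969794832932679768928134396860227015584914459851393751452121950368158668530494859813143426472139889422367266157756348000261493433733084642081939070267745698129590780581827853374247146986424607194749537776584860667107353767928987581563904223300053769994785511687577270050745352954337642732401686259672210975054278095762051366096982361165211810570911995728421724282967253667804359872717885408770130153468176333809816160226278439067988375715134421684631765495170490650443681849025983248461004349379207159936744419158705049594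08615706541458233390640122495295166763633530297619752740590123270334238450547272526330872200937949414358573881482888913037221716566354378828595961114970908490699042832929812861096433582817069858164989587527011970845963291578618327580235963873023280455285754756678472606374932159925011702305422280384142070865336521045467217852043073504586748989499440720979681942586961554185046469820868713380300750966916406773244967903824283976738099941119202282518425636616142355676394994055568812612922749137731941396368802912187395298365331024524548369475599978247933122635185741517592118468553505008482343435411737337760998168585973701230393328247183670671307748355073006184919088459673521832889013325636041751006428624960837358720418391728926457999710109128536077798577076874947356352462149662198860487992581624991871444102936916409532505934310534164922488098176902393849027792830037904228730453670960273008740267597520198969236243261930384765529184150626218944865671106102489651125145404702819696660396822174961098671894071174622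58072940868503800741412638205126325696683272375013744071665542161822084784452673063917819806498829710472062082273787823443971601397807473369847218387165861498804953326752318970382611719189000124285028618533896600383747759295990947734334881097942611931813371562758539103298027949819196264411561893473372569521918569373239032876870283255550325510915251167473325841354574913398446815168817814150577835358412762560706246554195196956069761749927697930159581877055077145589708115902117527938180887517359361490497171700984033501351702887490718040055454705557116386408860535663310114060699790756230356355557520322234826488633128457366936517620952292361433535378937867754547359972308389536085410915936258879699882328920921846247848372153720592119385977025227916538700670767567286900770771922258232811254807873981389464938572333505733087877437346970587503593690013581052752142096376542998838581622753913540324536316800749429126459966401050222046502076405290139893933043933536336912992517264245929911598191701710835552670519029415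72775800523210687121803620305611418477064485090774679556510102959255010884046079406898668387674022091411972174822839056050598987993015583270646924757041481325684855473704367697654335286037754585586923628703014521908373068050764599938748159691176028522199402714624428434577411040229521074069993010084928304355821659465118072482608840151316071714601443025102445840878803103242068540983646341765032858423113415534114362202483139756135816396577188989660296766447777960140776099747471996314310502981612947958195411659651914784126300912416032179033748654502005384637542659795125187880670279961781713616952987236509516576011559747707091318396860490004642237310234375250439153970247779621045120142243536548684755452100915043736662276566105311448265288677945685426145562308381878099957455004587862620499379203273689471595274811164380643886866705871514516144417637989389546921685007973504840564003139276679529243819786784483746675942660483857110988060687152514231497386539460902184007496808565178173877164587878147419395240981000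04499907683652671777944495497949974292780548397619471173040008990249755146503052717619101537622125331547732854846853886842658982834094644019841071655963499578328145287773549192463258673754973566187703231070987881091690590684135117645580206837593881247094048910048765855562134331591948570365054670279262983074173551889196855475278589668044408833564821492828879885170246009395422021680379512796991896711229595313086991535350305084041118310847972337393903214213684021076488640497243404422590666369482114262643327254246712724381812632709036634692437765237349531883530618796842934078248204464351279368342948971893114863126253329361726253460208553353642850668113295855344336598239790710943850581033671824848519971980050699251374157597308921834657528464123023234843895431336622209923940540290412669800447291468987103985433404870244198315108066616400643681967131881013743629585305747820422222953346944320270860999517530010691214552207315917136302553059678559721675061099499941884562256001990992822780110503582544926119999619159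82058365607003165663887243622677930604429026365741431938447397028673624122737878380757584549869578438775957571444935874075912916226138169097310730928891169646525277252824191007956159883556168518829993564679851342050616827952094597126688103717353032896100946672313313073080741725173038731360773351186556452634749331962030590300946973622669173768493746102726377091909425848132038350580485468215542718508924665256483179771535466858869422405075018191363938508921825125101017594998634576508054064235979122199444123631053369203528323421936836439740420241865507064967265956380986651177981332756483832337736276938788744203856900817140040278231209816948638757019037107659123223812547601924599108327544988780481022676215977116581211092316735714961584885874213392137745615070295065075922942291136336028994955281052561493540199465772696787426535741865728380803273637078845231178927441743080917243735179777564637988652680138974802319135898751172531893134742918556371126206077419584679051826414896399351563415112998186871664294224712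22010540504385645698562314877065477812493636655111627763520400638916065704030883186772120065563902941648670320055955892652869520978194407014846313908976763888482645133732529119124100396296488667009152390321178102842228876703263696907969497234327897170513525346141841078201100065740073860496801404135805973848576065065524073932097616899849317442955753255538626894912153699776923925705435364676671183154056307356145992203439834128912077667936387117469287774980203537146620949130675187744514418369372583792155511252963278987990461798357113606207963845873451241324727847999022130316808802736459202755021278530017346560231031477284251621763907852811655873381436721094986379126326308761023222250011392230697654579754841810904921732067513777188905102274735755547193582027462055253446396367772579903229325761250944552212054281725948821673642678119726020873756758567234846306129060132885496309866293720062223623503220472375637419380561620541404060024830246472568784898856315438039728004383106822029628334780859598276694169989741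76118968911760822103381213175670445254945082036781210617350274035278691674081953855881246054995781368994166695586977308738369108972493548279989947215726766646398179533608301021404145525742411922446787992672860594657931319739021835898090044881846475602277497875122451277318581764702458118910656648205266532217309229077666210144249596120852161620726011251998339489512171112093273912524516576629851783363616626038021186951997662030432608508183608420751132071903266232883241324686326017595383974416519041723351793686807524523948378021123048530987493525260472104831989123521223740196652461509758829050196239528847623969490159800710150508588445012334378897980892997860563727378769467834916696924220888093431089481105129305978101744775252370881058038330829484816754291490708591727394927725139173626091259251878448152621507640338730724085413446673978017480525991472544984410643932657021757471604186797852056531616527290944200025647761584598809689690910484709114350309376418759710281553570843159198548287150088942860559893753204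99335329839490739346617728206993086570418194774457461270068399676429807784196235462452411516008941403158410068428613486312379587485923400404669163166713112110252535530194795625705221418599759958108610010571572997861181429677203199944123342897542163725810460318109815103691392978914360685378222218258597144321831413651942615684327550439960996481579631822832663874449548634139875037258067342493426999261563083821729436769004706064641552535128493752446055680571305461841395417541181512225613245482969764049114838948142193312691858519319859307028996596843480352066701949783158497654573719537161438711247975669249797073092136749103990324966803918364773310807863372042121166776154669632492024773836455640008240111489149953202937161045664009904727041000903145150744071764176876853683965014157481563900544532142626511168362783267546971449655965547021917208319573303578492686315077581123495642300939079181440675132673230567296506313906250882825181595703145788656805710215459463069362108232192203497131345522389822610547749314711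80611411804117196941413673445254306516587330073074283286607521850310217320633413583634913403862247273394852286488171263488272864477473889696367674201934320732275755858892442778839615767065210919104393735229727290961525732611828408739210552394539014041428688359302695133398051070740537418338837425562081007881386288124473572279223045757934760338182469830377959817850774748032349139167873324743183111629781579520656393541826021738006427753394526985858999296201516878892355865187364668890181465021135675884188457188835250012306901581936559751358484807712471594804594950718938536565239082611447049350904834936852295102540695415163661162643954608710777549766758285100278551820247650811731935842597676563756598153650725086826970320245197009960610221970864197664165516397563898234775523595608327737721039389755207980039479975059897918905350532750075412480126767440622827887974465143623528205257942034215024151472910073603469757069279495360814105795842786925393457753238385419619257226086815790347051865668787295129012999298092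98882701841937043975963912704269539599188815354406769330876755759857671501507504242130505466247408177794605377439078492508051634477831030027500260467411599367244487800213219203212798445037460298062722200369032525461664059486609632042783064564803725432588496322124501266021148825303207854108326170536185172958459279173726234967093088418407617961126890499830619587384020391375020829589526816565203500058775998047419382674521832877884944854145621548468600264849614605274409697479526980983759400929791032808016941113285297729643026083829398807282859880657551576247410418237413887419098393542391119133146578364716482715437013348569405051224759052793698026472616191741044325135539369477953166611892832214833670565853231383733097857133070946830477315633883113115975317261644028481401801726731887988970885599824845370214929950414871205598766612102091957795908141023939450073328184713479677893068747375665323096203979040217554349562709845907019207897100448019445661618319608941997975480155938138726219269806337976143983086445946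73641731083959524182257563289544737229760254844351127117286498137552287666961124392544668240683120402642239396731280658144347575280830611786981946713318039691882484028224458587009004299682914652631894615022174411453881116584393679268581503708681323075907662871569275121767386432920545899670974547385383426594123723997164262866249262338012922718018067822841608189815131150849118877751965464322608661429138974683634883537259419358992746758903315058779398027947973188383135330933854501161865495832390399028995199130553538641300053807098901644579749527635292023876351824875127294497609908913614123856673356442586887548336283178842533181198255024075083036725402987851422430068597052324992865782422649289294638712728629347242250169405547466427729048987364510519667579365406215091767992731341628142287355192842787631038460297070661013999759872275459361722639933937957644768450865466857799961096255365858677060578075294869553829505645704892896245270253970472116484502960674490897501939008397916077310874923399641241930120105817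85859463239496006445576594324597394056219136585995812224847165850014456706143364930624914392078053436105830657938547342708882220421821817382143632421513678361036781303901882091279439328701078646885723605454490500379779001609390331416592190835439405780429423683932279167683057092325938237637994947141599200383104062748506489524450488269089223959867408412584388497024915958354795448776606975541209764878999796375312789117108759580494343913446421836013108406041905084215259778795171224184447834570175188165402740799046054585214231858663593337166542060625138704256209564400390490441046933111990579079406535143961683854218999398571149681069076844624737338174697785870252225449920108164894185208972087962866748760537753892551086488931977223517880764739283584820357256739734060982387186406095747741173576871221502057252211293563381719255458118226210807761140823661291419360540193930084352)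

noncomputable def rc6 : Nat := (nat_lit 22091029101433762543249011302427859220459483329294690942987814045423126205977733814874281379195001677387786665141944496014342000890561136678868882866536567927016667391496687962847404785989098572394684218377830615384301199464197125709964039088980995266120742594285640747081954675180164434862274705227529962704244560556643298881028226064501654230326734112459288055400586445900271829479557988130681149747444965394294526701897135494940251794308016762305489137145091633233112154224796170097567971086817420329014742729345023248296717583856541932613804965084450507822142663516239630755176508304374925687913276786578390434309290303499183214903207968130488350388946076095473345147791071802580990084222601993845352535636142828313149043699001831109108635131615875680834506991787119839703664725482076601018114395101555952373064745945027076844754692150517265453328470799447556705232496349327824336445159826735596001022559720182976636296714266477796731622773742669707418066615947576505362657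84618246545748742626356344125119314694982234767935311560720341582775235790753506422562198893791003058146684125856373282479859942052787066071753984759273482622107038763535885967287390656036692052214400016145102849653758174765293711173862390093850372705168696977114818717697618521819979624474454725746491177346047966947832959841074698158449085148795135630387632796497362816743541699510843420078668011733965470469380942554038272680213705182832259693075037571168649610180909819923136304409408233542004032519878098818633962017352386256589497878453035049980457502153705957694003656301579108014085421137825132758998560948687818000663635290232989271709984014047308199434436753672767855889218748730637106699311284823262173576603387029798612397882912016233379583212045629367445639920216028864640071463617216176120943762959440125182670968968030100169318046215568770249131023845654256632039352102265218132225520076770548801725050683702093243780216610156426597080238632585220712014369191258879765110993267010333482542553809941265122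04230149706494071916258705062070091933010419501290839290262301803813903953812709297882876398744490943834425759273240806985718344623565238908897329912850739681364990541959461539013880597182170070176766807271421323155629679011609488517156870302548252416123037979931231748116006055958902631880231604947859611928697285762423904661401157888936028514586519699758097364580419975437211650056649230414965022824551100921967432529530619876582514001742659593901491269704833870723309998993400259531680259487105468629273702067066180336693142738328560317331945716919927485641002573930090267264953434917838476856454757311554408073020832782907351023478902352836229477078536252545248631497971203340889232893657426900836250594221551393363446649037947736314636057279200849229734558809032272534172131668750689067526255262716094181855226076375073440102133893919103216514608535036348759035739210869779989970192568180861363719061314359724458726494397338163934779775428407541719485971686407474662055088184986142734391193803012777554136145810067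99940440403512865387746575441975466435549307785649169923422669963403443917143021349790040795018036340226772792771961065621760202144644996624719450530109135390125612705666508249088637625438336262455056404393093408972125116735686407860110577087645273958268250319024296149221177022182506340714119539198132994729387925828797040531635893485698771825051591352986752445624310313516301140644433996362768519585294547920769129648814380348280119594553843232352746908959392045151087936795051042010425502337224401779608351165246535427298257816462512109147148997245990350722683750561175435773265098643880507049972732223601071203705444460972028072645040671191084541376173712204098479771779435089623459206483383659353397490752406661862568852787379590289473062308775770360308089306201296874161855639812676194322995575853765966693630493235847924469048346561708007233822085114171968020642213365609172232496691364002349697671712475220415375064824950048290521308976388988761617945421697587185237968032342507396453921015022998112343950153668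27383345990905369301483379098506693727375598925171820857142692862004616798781514046902735214989931026365858815581266025641750193067204475465332419873699995122795309273343243556380833265181307649662794407351347990213727272160043899638107590115260886827512667038069502068014227048374844244832964305253811856042739559918988430532499705738108338942039829529924578832111628361080980721892043121592382738863389344802886075929895367738521138868138913391329346422288461447786848837236727249113258575967764640514625730688659654834248748998057702973925766859570984316380236793122257743957277799941086611548848895060880859863637973841603562720811795330016001392866762008405430814395641674929703630935746304271424897105945190157462837538731338474011215711244146074427056444924813963310045651789371059158723776573401221874161754209216422293383111693961112978737890223551047045406918423130662825787376659517963236001507331866454516457167601516668901991390366044400079834771583692150990813515661152303532833995592369368783896099399078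51479779935899577590918796512685065568574541603152905621198130445767984529682472810864990080497212347965075577601085360870583024061545366520034112074231945461057046719455072645213510453589912637569728713348279695791112550017300900855493402881492353059118903449684482594626241987468092683322089648028510076915661025768744913494710896044857699283857465930264181841003466461784901988945138095141670643900336114186237802053165126286818325887886960547846122115086427415251659732797468059868963093851112920113338257307106685482528167199498524180217319669387705755801499638552548899181930327439914190475749464088931883030311834749284822706230490533081687145822094186713608007390986172300566489000515605910498455906392149942323233577850286306265277255134009178354928055631143590801796096232460815576250802776689299343263808190719864449877241163945579468253423654609798333329631599544107432595370817100158152828831199437301371285614810775995060328348818400828168079224639472836731983455809146166580997084250743614395924772278770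15133133773073889113874564734913420563484575611520901314256586213775764173349738894672501853516550731937424738355074639947787320831874980561205865684816908565752565947466791896661797101081676610920007096057328633510594361408430045639033165121447981377822633510332051792753491542314942785794220704304950216870436000597274254817434903141668735441382164740512071122241934730078992349000139631201901854090022355497352748683785707016440138160675528869621176552958560034881064295038888317117905905283412002685580628147388954231582542488482806925918641118640298932859429998262524411593401482666108948786777333085836584941376466842801940207901252216858896236478521637107733757073760587046652715179483323626406232431066306387357069963491717499320896278497712667030809358364961025494125430997600163266907923122902680057978712773038946661906492630315518009837933129726733089609105684719654383882388287203798539612800052386658724930324228440674876911827876753325540509870072742572347368336616503749159886511899935499234848931166731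80730132005883147260826702395167384380892287707401536934729221531859439421895870852580518472484552994772287832675814572992709732065116651203441396803732007208595579571042949828132728788277445471990300548030209420402187166688435517510627715638164230778483968163307837219072906178079390700784511961696754053366928718475175193076080267801724413644126443289470545171809871606566002465114411583057466330632248096306965178175109998262539595021112127151294649163120055641785190008116609629322381889866641032548592562970622860927322441794171697244703272575011178752077509730874292879066296386145639853063688417929222407575548263560068996365832047077125862226319956103856346970993124596307458389640724506984105857484704250359311903631043086171667672209642730067810958618585332658079248245949537922512478488123281542556353832594963305269811373567878017738906238841677463021033589392398932287402912821080095721201375305080119732444061517233060783509007717755043567006250755932863199613259803583147973549975088738630382924588913260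22140103819627097767328480080321259692219503897464848902955242815489250984480670384185202215901770267736075971062635809131509357129836281852376746386836166212790193613788653141439408161770087659128599829241217204465118450093906818774697503655453227959759998491732333772621645528465586202894396642414601177638640426179555039633787812323774452734337975216001837776904436702140219526437678861697505988228034810102681765956563223679478624867961782800497930782964995557876999816156043106291947885595057858108226096399267884097478185192978295280939909910365841866172772975675917902087920805786242209600500277704499465555726277880273671693881715666961949824698994184524980454587097858102387629909250403564720646246583600715741105941770060189938115267955649224044955394210017177362967362845187918525777946596610356988064457546769910482984077135589709014724321290662881661913966598323887356573298586498668456998289516285936582515453787233420950113291158463743806341746288101749000042439277466184201767005882022274888486136232922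42206696869511519188679534558736578888794543747182630868517544394923601172542754047506346460696557923036534022394152989289887201922150242495108553210039068796230538823930758825782574056607467049545710377116631816184811091886048131810344303030517380020019432683005115178239477917163237798945737211378153130098634387129575860353172491751386427014889807400403167916043925864851153032427057849850593846929995673235998570968192078029815428150474858424051673221518827272012584550416961423222644360793868589538881267597977142408353628716210589971934368541060780634122440953624363988569631996853697611345243897265310209908186684695365683420338868566502620754225280737089573804134602082617391676408413636003765002692434502813295674703878731883977401138280297649174695504170853331508525599343765945835500178608320286472137746054084170854038905094757766225125103099713230864720960962237935943750614215353861863603466834071646962221824658679501098189747472629558192603825519906075536944087481152818571396388202623721967104346492045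56667811350932911252536175171626375656218566433829268047271013893251441331816061712940042003021520548503525313356440814388539847491615726392806856437789389813962338315296912503279942075440828639807254725383674238842042872483106758432915703038007620235682770644664875146226131812376378504283937895734795525936012371867943164380091768913971055722730971892454864077261638987200649515700530284861119861210689499517562818607283976390087614150610020664275234327228836226884974352764293513619801354486860111747986243515986753853347503220947348052558436895248367826071876675252995396378078198707721190849347511786171054660444016760253321493382941792484809770500193633674448388923476204351622353870115269931165265142711607246465118716626235784034493456177903971618301195433635227113161989218332922327933028506763743756347469340338008051404768774944374048198585159735279470874536354871843856426336227931386178063063563039210934960230256102546184357796171269351918423416555727568302516599587653048353854359587276030058042940110930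46367231177808834234836351669672602356747717388659124783861145985121842883495483755167539845979766203746170237444000285534084680997217585247613456534797886070144851353004904078167296902653220101676438904668194400260922203515267410052781645314750051021257985708012699933698766609114479167899727914597717147168076805652002684293107131918253537918361422432749416347137497538350971878417576702718157787757032340363049010518446258896820224611160645100036413387184016271043987497131702671117400695673671698938666373467999856513415453125058973324555347323159218490251935454545098604368082321605120159366293443426564786305649982416807129058271588450352548337139521873889547616020273534096689846579445151149451310555002606110940539312662862737711237621724823070377016961592397684184157652270336540868322737545653895488041167439334849722033405317051886736369931104384378178827274467991426781258446306933870881854772560482331958128755775363949306487582431112281311926306188527724703018306354945100896031204417380330641230364586560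95315551040450554268907020989180402455538420500720619952041477413872074913063487372703387082299448985479769029116566488045628091779967119026381162853234739100298725195571577585086242830148399891450801198629556410085443820994633500434716201233152826841077101100151790714896465247020597014905423430224680915837081557315145566211759493242564778708033663190360314426571267377036749949055742248626166888269830969555419702626962140571923954306788512265826866263987768301787879378563554560120918080807690752766268054144941393951697376603341787244179973887611449971133754701187345194933592353439179527137431425040247765133849355980918291746053941276304471921462880262366514293631745001898745178651448247417083865991534040319190586096462606425503781373562568389944087529542041656279760010660683777124848167834958395021962756033153147578832741166933216367918509656407600384248728185796177234200336067042413764965943550919521457518975480408146178826748918817022783284867140231832787536792625878641227073489292297847463480261259497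57592701706899833930015141095204387225554110432734543245069575824463727213816240999530575767675180055114401409268192835830235310910771653977857568667187154950628999850824627059293623130472081629969902031206478414545684704570567883719388746255662663763748723612150129301938948045848152578283955944829398264551386049695058332770494749832611548209851360564808188575597127170830599564515369569798867270303876935697627667068710938631545696407545986427792139290549370595640786954843891565378029071057210581013556925440815153264154432857613387979363426191312560899831077679375251315059042132309606369013952245329789293375586172651570669434845546483230963621527830655056829735381726819948331990625789912149628234361898133192802818035645450114562241746226321661591947443209770206396344899457374835955324936451335967898526839169838147273058882244220402134195028568961670705102526845459411075354831213903078553634416438466234190632378663855986300407601187619822471597071926600965742365593501608209138929275789934786403029368760398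96831810770299527037328763355502190495534522995661628662241627593228299629502481162408501773701489992151556092369977735280750783180971903529370250931301867477646212704546661859961843406154155113047730147891237961489937498040321630403996812564990532567292557726479848379861426543379958625244771890004988573701839112693217304471309343229062616466153173504971841874748827912439761976773174408279167183121681679240784171429139028378789081472001653192671908558514927812308443813819708177447379237687763423330644614237140297267890084426248308955559501486517272025261950002514506908813765793783317087560746932259289539973150788676928613807268034092794068677145604999466393798983532120059992545808062743400447233273727220817922101928189034851571963529273952783109956309492110915524556509017719040282771754108429799810274938355168289925953844300329859588341220031711812382014261157559013465811652866699232397736117856663729037343660226498584438930872052906748251433902460155793382492108130493323162077115259572060880899025518732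18002212758502339834468299549087370314993159415278409588394454728667867929189925338153645808679891211317663442606417089232399192047032565376882002538533330087114447420559138598672768320411174808642696292503105293510013229618737793036371008239545887622871835870022228850993538922399174824901946873940872582234258412627054746610401186145860431904199706852912479082477820531120394244717851310106543493256175132957696651903290947457696570436060754902013424611721113055534985557643950477197645567600026968637409307155241154461437200050131999619295505895494933373859180073037450729071685723247948311683747853579076075014509341819336673398885381640969395296039325168590345788660002677492637266327642589413309521408734403202415314219217058942494397956256039461546499845393814176621802627403753337834588259727871668573179074844066708165052787330018049479986022429656715859994484553298952168556735933974968934972989231250792721597710889705574000628163557937497758092262135177469059534268292863308294505796422618329313172141073980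06413511839664310523169518011448661767348695096599584513034471616700465960852499272415493368395823679831689641114980645301890895094210472214457729462826811767466482725349550189808248166349937412826860199711949257575404264067593586437060365380389140326005367526451479311063235026231769875300005502411009313527144126974731906020853239711506934687967131045489423951971397716411414110857375143521816275537692040321534733312305628847797591351739841879333788189288294526332908846048251296335750582197823735064841328692490647876333180977830761240714219865429610679873280516506532247674850468943002152687257145245223914436102147179532876243951430561492745532341748359264326168548076100883418637958905587060664226246485084988099687062796691746326085050178493862790935956754305223059438023134320442920443956153187949069247456421811492544643056136769138507624130826572349161951549052275894408326775345375928059826511386250823541319603612568818440306488751660153223823047571688008469597137180341723817045593391043820126477094329287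33257923092957544033699849594324674205140308410913381908705344508756851073545904526313717718898363698517428462109354307475433793760167388845364624251173784801737130981617060132361334501393016014328444863898038003432779558604534803928873828697658132260629858356828881480787641727501159452897757507281651314513055862903556826399258588127272965615104695392789424683422578077280087867447875041390643204671872946291460754194316395233196361275762439128228741551636094799997932927817472988189189632363674572150550947806949057792507781464535641605337917360054151035664813490430660998633362876915945780853557889076897010107975255537015669998193915183690634186183506106675081478535521390143194839753053574361060894306939183653809574112120237640117996730655411268652385194404668584879137107059615910041563264566723542121548966483606373137143067317834025715025217200275200024263071346498469888)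

noncomputable def rc7 : Nat := (nat_lit 22134180986423811899303317318895090364977243623361430337841715995883141379319919571079539778711102004587105024337008622317678578036196293495463110869118132930724267621175016067191751511040610990395026413097194254401085504047632052726373689985880938420016064004004943772003388999016614312214077103875034368258937729805588524467850452565340152039165170629377026788543297719219917274169732014074697996480126763750850914140965819070050742484186844116344131539375906319800047956143108506376423644404041480356505560859486776355698527392017300218321655646292261232195451852957109070007616214470327132203681780829195692800991247608092608681538533702532427444050668351533722182025405239394232795546487371524517363342513274574430803106866515423633989507860258442414764548009962465184939734582849822006100526984191309969810205991882940709413918185519637780290958676694810564976210255796492295494014469968735098351050801777839292801525993513147238384744558211361524487387074518075303585642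33677353722080733582083087737426973886912785446768903144284306801814052383326314537098123184389052971299672044845646709082349474111087004404842817824805412915840589730112651987142565546863690359082178917290622122817392881117619464700981330693080046108126253346632084200944463082609776406561760085794442692994220181990836042209514849827281692263054159989152743064313982552794021455642698823396166630488583742914081602076129939774362830058097841236042406821716318663037714372430742133636828981093587946628057691934697015448379238583661475814584834699766028048030170879171426503780446363886405757753679787057037629776362536081664853303511453170107059309367123968407849722808426101278190009464640501271314875768031301756589369562960608130914253676208480679958919071869242702050700120077743822999300210424956482099331512107401942758470989044523723445715569596098119178442820278463481716911599119384152382379307479920929627528231663013534660276482726711352294204309536918057977531109784608352687661319401007107282186128714429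67219208618908642898448323056118901428512028826106687071410876590100509254273490397556985281490427611055149024718253039876310416030149668739395057840471421596802274265380286608876469125493824188070007268943936728725090518518895010573302006671617699895242934859798799244152578519937715227170644230139149849327142678366938465406587368508291250698261970806853197881675588525419308327743453754186321252563948142312128001457123630001274139079245547678674999709676410443264142320643126118479536632148094036940196899638837260140624608883201113131839213525023550757757685593364163123567381150766782511368905361634031494135849303609412160051813134763854706955708070707073137944794605455407642686992445068626276136439644667064743464526483281501200815337274240341665559340371402651218706843364159913702304354462580698404431333754248719109225218069579639803732801039552310539490878099381898484360233883613648754447356150879453111268991104071637004511865337345037766577071831698602772942151437882501975850324420363291736497393879172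45333383996643713933380533570930927922948872914313455092209023612099409770521914389071904387486678209580930926684971602560678114880736895908067674590292244933548978318223254674911195342650554878234976199811394059123597890584754588726163575934225478404969487534602038832624101471795168753152911231772964738196659489601750817182269247540949641405152360192861362324224095137096529515255527286288187637678907979304464293403343106393713346087748555976383967457960409493908077204104618217209690388414048625892458396786220717939666754067507525729593908742836551943310654686587511711591829052469044425327925839691829081592016584333438423268833713266938171296824258452980838315767196800552291995546942818438375271562131487026115367251401849813286966337107908516619143945204004085880237773939840989924608407598512669440421488754691643383291153166129754633651548062786850469022122315177969062982068068061094171926659371288376609103214493608446525813707080968417981716436927517111053671420960655918139713126959101524090599128192249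18053169272922280957602314830262273551380500328520299314158745267898398223118065732192985393278104128667077392643166505655687615532951363598535158662896500670963265324194180987437866269904432971804931786631157169701453439113205196297522347703271144466168250019631623265764154527707723444256336349401828601261258191973981344344502626828786916123138741657656684000809187015942014168568076969949040279076489043765297103095976984994249126191330837854277623871693363519510066059330120864068893362146705702673245125528939256696910977962475921554421524498072122001519462756457479835736581045568267613965612653513298974887050721477660641613251915487574877816879868859214933253348184021119806127706065319136377361676489352718365680984651566032254733339109794304402771419867820286064730175200648534502512245501219383410901368208907349725311889812935270672315305478726949889146457795127719659373535688239245970251678570890330924629023736132074765493326666553990911770101138723681975676345853608258316624301954987474415658307147871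10561752725517982494291083143108277918922986666230483753479682527019521556575698175939536213949263517185278998934681830013385834769870306498884624607665988090969549419515619810504241747345804611216936919681298705604089858663671893100477297596835230143468946479285215905310564427964161291773165852007138110085588326347428973387615194024023420363775742114115632788797284122145371795394399708097013304475640533791552535509428323757962250223521453983763898134717377755238995865961812983629091633367945500202627496107938465119850715670525009245314112302594575588236082092028781015036880551756928691979521778322162350582047671579486623826239244517020898027386934812453416504159286998390094876953210305972455058865297485381543731906551416414110432126004918423566241482775389265030666743464585266069924620054799393106194715384524687193916420868209342057915849338070389440968397392788857911093688509924825059002577479917671337893853467206428619344833346892419519118137883306122554016291573867589809837561173089045653239400561284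86068453308788966745883695422119048792147921832008848646917211804219684892835720024706211800823799963832575684691287758530211330105839976049558425323113894133922809973301809251197874052333246029346127723748128622585366795544897985742547703339474811678919942113206094510560952481336046572093025144840639722308980044130738050607094369045670196766043029644008928477335118576766698406092099487325230225618018248632282643752362051671077965799413150036800876866782247518014885233658464753835369570732454371579324851465264750790810188618855576401759660797980424088909597824919315721718197369011702288598821547243718315308050162381989442620267605933877868420539129631651498334262289474980272416305099650728632654156389431153443438343946458144334160991050102784518282553631296041289380909812505489636258957260227386632853094923537745470229244787557137697235244780888125763036840155772461269064766855956079891423717578982192917542282391560383377246432622691916291801922028607407999326482740953208298802719117854237613708508180200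00576089544908682193412017791976627372333387367842335519301582354821775819094620957789900581012973622622650462621610333830237731844939104956447603222481415125945098908548479854767408216740201271887991686629922569913257846208951399667091526273396372807453109114130671223402293697277932129474239158498185873197089503253742234694765606625610709182257500373532023056400435514528441651051516216239781842305139939110174914140734542407074909251265306667791786043200101656441931373003169266815390282756037619038357681255116248309721603001323958227016428918177468309779113262757448595483320207356793924069062244872019320120502093720346742417972783311846901893536897986078971515304157641847744476323207706450575951157218059834881643775062349772060667679700997754657833436838031185061832727031484255421286612701421267672358266526593486970303908389020666983397573159871820370889782119816627728050261463488939354540869490380115591392441076503671417151895478022106349388172892944497862202416271690797797555537786713113006034603311358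55508502070582046328277646135304422584490229484349519395810178269795296603348523355038673970987663297527994834909055158198911686965090738214285182379892597653739892176448520614207060658645741391877445406267278384684915558506222625496825999742942785104335336423732243887778672249570932630596775286129326981635149799962680507675428355751519111308769169650678713007620842679184051401819542808523835484934512232420397156010148374209619056365853863827922490332229352479239788552494296932134677786349326074831485887078912807608172553820213138739793770300209845274817133398581007665610424245941836039292684228929685456572993122298227214172432559797982606530029796656386181126778574381316142291794886979141940285261355067949239801383045641482282760632392587214727900708154398639253063117190070651917249296305274853919134534011370095170886779850441568653429120128499095313440551976850530116553281331022273624542377226860931313871843327792878512139316104024802235358280499352269547903228158897511388218368599814051546525585734145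11672625057416067863814346082531545463402101250605462673469782822881517360809677140404354057990048747470715620304653100128694066600558122400653600331123607099673779097108290897093318459899133792690320363759155097361702551488287996926992461696751822063768079717879192700671207396778439647085413471234042672722816286010294802265807677381131473341916197380426730544826409108544530494886378092654474307229007487143564634904982152274482102189495629397794320937321358400380972670221199391706112712678412584097302864940280512248214874253757587611113853672266738051654688170462487069600823927595895485109886255675218719107518043712112956653955692894825943134823376040877207638616801847405410906273229944534342005995760172768455523547961947093690721673346754997642301793887677963169184866479520252891217368549725553319260149120664883378672867630792713200534679915273111800691124098706453420717618698285899701845715736181572053078144000462830105368060856444736665179868603616941397438899821834429260497802114926819904225603036506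86074657544209005754742727135846411629440098851835307709711286148303696781235546683800667991632510149429709142371331211069768033915231559350418498276899061945767873312384359966062822871665004438431065400517123167883871068784873965763320731170620315071257989372430264599220737023418916596574924406850504110953250200590288170841576009568140829715532255953943843248671140645238134254465418605161248894091089562179818646061853338164867751774049862324641354924572144129563101665184608949997019941858720957764433925696637481554612589617278228877824113329198168732824100931610523895144638964111383598066487746141664763567024872234156180159049566576527389369697091735115798681500732129709104097427483923554292095448350791618156786463688588534126237878536166811027359401304537635681444642741019208209597982772923811848120861016010402501591495049762046765939628308923354489140989875378283740875521877530323452287625675632282208933986577542956195571242078828669938594242965153929000032642403955172502835383343870903583830855078591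87728883820241163054745378214180012420503345749142387852013017549125058426388986817562103896086150888431097728262424980302277663744454255660983190362831435099071588531956346494712569549102207353608752424862782942201002145802985842989249185918960113386468647509297981083494781456266498383614464504552397691881955396132714248847581676923427387213212912511945713621838403210902491409392076649695962115160565367011972787698450363312052861875729300121696584643998319891407851114896295240869514476377015049198337834191827908819689025467618052551220888111642110521518045989636525517706226779069389215125276232056177784740971848486525523086010030440475162756883804197645412028384220445942127066587409785939090247540194260703526160817930158775795620517504576253837146971755866253738234601316040057759621012906611978876907752541452803768157986650140540420640734005832268348345527383666184078594788305103243977872795624171235171985649008216921524537891261071533483784538042032877446952255692236933516460176145686950673765333619815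44700518020122742730960080962140563394210671567904722082655500150002614729253502307251969047888341223104621570056613853933979619920475626749957069939677776124714347724599657620315679572900135081775633958738802052217940778234389455323706502746189086888292334812518314538040496195216595285788082973630762417923689882794852212591803227927729334671433089777079710869383711391807146227662344542993806772316378696805173970175589406328273195707923658890668693561410449827621639429151876599774775862798553499288210141792339515909997318364285917917906933675603293603615503301466810012242507751114110703783106976544945833626287212435324246328546362316182666125942954879167451619582564793635760893458947329273146258929919422998896830381124512451487245279409858074583358588185255905357808497149747667303929932313444188037744478726812170593320037210502169246522784596593436669390133925223971525509661940108352000068506573913404051067136035389443147352846068540279192577114882029206774026831307554200340188017033394137816457762064591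92871508444579258719962501710816993943058004373331343640182361391895821266446055921134621123997561438736398720833862159229732696073581814547874427450799487333115889284192949660681443718789225594209847331929430777680851556933529368707911586570027790769818248312021201876691115443855896906757000957188458297729070378533674302850159925314865506976356515033538968530730104175808563339867002285344873715571746450785229889731403308446765642323733472017686283369167567809734144336275663485145026461517692061811513991206719740115542110336702577404710072682336019403709944797026514926488763929104219743363608427506519304858761795110042728051223895703211688706080704366816314099983171078874468905453640777751579764188156877829457363415400521970570691733530701039015902969199929760760870298648675219720208014478221173851505166348694750263304265118668592008024904047501852531008033522010678348854008261384057847224729270968545868838109220851239795268417912774548533022617411179885734602582647095951628928626963128360102732044530105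64834251821719173698365442585570563964391134388730468722104922119087491577258865816815476638601824335966510206549191311197005038403846837111888702155184019655262899098203646280269574326896022051750505810356711299640836165370562535616621200037791042034948463273569072808065766940279430583577121954504507777341675170324164780017251879518524604621805887379652927731374408625755515512699230590565975060188346714221230671079984276505656077643759631004305000917750551237076957324614242453780478216323086969227260871037408353725176137835117234826986102497867466101523820988931428182495489810575578242644698817650060582386247305350036091061428529314885094796552585543855878966920199286627792221963127449047250643834107059860090701577769915119447870009615183918902661719463577146219986436450583146599809874790944743569034012578131045867297693767173609630594876353275966111542651999882651731622992703851735215886524806277695656814257743424036325114672696205501857561527890151281561263014429382647919965188788493208591519094592439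95671291722509421690580522805720340159389654809826132439299548325301868990434987242070341770928489547840595815194632693609584178095739079700979604701749397907089329797962826799655376264164191144945227503028120048402380600354275645185449178987143557618923342737637629736269068893239613066856387306838967794257859967346995137419784704031671894184118765208986376724679980291145784779148296225476527927249266864393613920848212266277100969517910921743381109420035537227035770644294475278243960384326464402152566176077741852620515998386245514890739425298771058604867964558152213008091226396395648309837118149347852336642053881157019080786292596419996531142407837626973251803158932671097194480168922407145206964822774984296695979792083786884181415818761366988186728820828304626664291184449398371251109040455871664951207654422410402843253011012330796047141345924875382988123091938289178250178888536348565263700620176852539018615773986108128814466185481540757974956243772700333699995841418011615547396723159368137866082706269905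27779195534485911298564892015860125247678130536853768647099318594667514813505283614557195046328646227645178532569340666638950379585163020349741138767081148454189321327824713061093626887872907639807240110354845299178250689666659796645333739201871213757977985325953268616603233377198827705903376499375610705096528265792144858890355511776787344064814654400533445109233138035321066619977851037737812957891014893313527249120374240014220272821793548974315893601906856176457619387114813540029264197312404005601509219618261625080719198728139781000485555016798459829620459084252944377387446351547189001471510116361320882064251359135622427454355248175286315022110223782917428060761550118894785208442150992760958684937937894031061193543348023119414749506888475016871629628522277959646145542056762446598798309511197493522600005791397722754180549760923441006721468066187073968646095161088808879103282544464962602243249871770255390633389702858851009400048170456256067406019400052098117689020904728152538129329048208372526886062290665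52722410399686459511667257857130501912681648415180053596642825715132658784499108042278986880771787289739134162814035558225777747930369508113984716233621885220840167426923895685695265947315353433206146085376958043550123341359766559625478670746544103746452608827771130535141611198909933983710849878398630723233361536449646118588069623566995663281128501165571489554388678336982098850226234125770108554833898223178313666152496089884668513312804185175565934010124763034871850789222153295368529861592718671571710578875765426625748339698485652990318687937613350694180104501985468533287484382477600261434956812928098775292217872438368696808952403441575035579072796897400558729713963965414734699324315177987015497267099001684654544974106333451541319520455681703265357787206687873957460443498809551632977164220877700353370259133664142403560154847038020211093293224763151242666067644320317440)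

noncomputable def rc8 : Nat := (nat_lit 22176951223742302023428207231501867039345756880499183167331767573581255017683589706062113700943926854940451104810363346149738278464345552918129567104754391317679787797959744032284056813830215448963617685418493958969326618991369097878702437118334810521092105187596149265928331701130142651254231226331442076657150582570340172765059913365738442490032873722145518082589338896913441592981194939438528908343663230816030754359670432732360252773430376329729574586270463995356529856216674924746494873500744737564920393270421176524235718751512426815372253621960477750213026116918982143377876962724637098249996851887458657812697818100892803255898675345121019242877020308755254756086128263334612507066043774898728469645126050971234342500883264764840427084117039821636018355731370878299353520657913438045487384348304862322870750180784028395778819313219917500594089168603755120437818393820773349391446115709943695474201946630757840236957312418917949307080297698998959542402056566590775563395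76942734538935659229399306176836190064939967332047694940065796465095951495480757685442786508720973247386723249611409084789033837555721055321700088597655232217273597240551030830089309573942652627360626299504192294349341324102111518614638904771899154309511318845113003600228360046658362485435424286767559816804708099580804197113675555558771957496207588475274006034932693664906750631752107854213074053555059460068288211566254630406062832710521862217300020636085223565150085044700383663879277945042133889162834409694227854128635819213638542244747550766068267180057872131392417225024892431015051794655899830254272132118394581125894660280195489025711977233229331562790907860989926947598008361572977899195085929699015150675491717707092762283454276330971496160462327581164063227286223799545450717247882955924418442234483928434652027756842816787646362336776280334060780192136780017215119705506665611506059847590524889318226277263406077140563083387192605833623595816069867317073297717216967206530727170935995714603090029667268766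35101294569655161063621725781771483655613524166437281617674276531423810948553136187252979921889867619524743366300273096779379809313148105279886180341965443907489783405463309359714270464972083394613110873655402128336649587084350509512011094529057581612320337772305454382717647112184949905226909571226260102691040074102752163127242478758751163882261822245781682087484195183994959161747134438034721977245798465636662468210208414358709324831023902809199490240213675338169204959021628612045669812140109067349939254633986933106057225387517766409339624327715219700982500642269228324325937207145259422039765366335070883752314923571679989056227523608716842107286305292866051944033059037473140005935392339085195161411694832931923109771529597441929715692640118962002327694786995881851926787217722162758675905383463691800833561879313682526195074440027938014764438768125793863561005585605839088787803048584307913148433876009192950261075678773636377024898110875053132482950036770453874106645447769880590655989212003746653844719985505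75378551999104793220243703574659261271158169137699435193155479411599429222966879533910891825706279293127805356792576603487708352304783066750025736248284926938211763457584969343560574599438436947647092016026976591039338317794633127291229879136794546500017136538767886591796239245010191180494646511509198194909234717934256473907627964161088654659348790918549722079996091055042937749275799157258127053679324265996871798927832122782203964294724223929817356102897553737671781294543824518426676310451723014525090657518745305115743269242421080943848506037797091076919512858881175817240647232535546118995454455080730244390460180096294285968015521439125880633445791446147665915011490174982178237790548521786680397325317227741906898738390585457337222436645022488397396892235991614506347863762403910984893015806249990315315355098163041848302726352136905833172795800643404795124315768591078679867098144239354906545974474068153286315486864870789949534228293309368661763758034454631924248668068478293822990660177760629729747778166877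04926276265495236728122704264660898579651197528809583947635592046618793389010820165782572915028487983975005611041915165077968968780736256052737079553305998978177689400327357109177653062466372407614025366152132824879011782148345559602022815103914892958727539400832846182229110979734787646005263444137182906351868542983501039077966633907192745074236889710229771800131620980475103552415483462690478915799829415779576078415038461697444202976346865323237839215603348424711068831532109531243294465432339232904077867867932543991811754512611370283148776870026685787281056361762187819606983864584683042961197062591071251548442702792806964761232610921538966968891153598396438514968417267737827558585694864129903682491272417876718647973816889311355651300553874699595500672000341602192523990303933548952346503351238696145147806249841513790755267899361472714658285571684743029248367522049765456354722325808802693379199652208098858866859035622008953135544351012561211910579783312372160442641288813431164719066401735934378544053113325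24614291622526681810978898209585741659974089445537106820855022644472960700215733440354274538817304930335127458943540385504765595100809181877195298575708075619146046057108081177112774791547784810099500379732587593311970602561282867503970451399870993484525666811633122988582710362671746074399376065878976638329572912732850609671690107377493069120971044015150493959343612700813401578014771670543654824527592001660006291762089454248683940353310884882941202585232672708999312509219171047953738082959575609849008233278324912625453279975871298882250409388765659236009324789092605347618705138744272397392555628770953636976869308075427576043355700220882631744532098218507082464316280785617385723542613087066195003949455647144042160197732346833365191004379334126274744856607678759212200474543429856248928316724703294752450343135323292430445416053967385915148472704322667440988402960306348193689675544697635020610097049336611074584939016904197708383504790197706968991423951956096946247073304363914020048983973173933460496941714296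13633093934262850898350025441979411758377983738090499539731240444149125079860927775528341165782600787936105368998725900877395406199975889907185868148806055240756364706960509858291252965620521285765825521072499249823903556175759037658874662906284079380204550648009883459684535698891325225151258124131896530366744599223253570234877006261984091016904872231038380459915383455270087696122959006257705994933712775298678469666521611682285960542989019464098119337317179754228517136410073123174481896238389652047666064190487930917989116992291415856653691056592183336346045162524317348455209638494323985688324324948299915015528716174247792895959360101131925967503293605875477510896619990346461495533720056365511612670745545630331080857325664789588842425997449168128379943538231765667751666708350012994997724870399908691966956948395895137641754975582089652865273079641727888961234072805497860456263610069731941152749484941027115947799096267542080243738964195054495201952793358056121016568558816301977065890615456151783547493618151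85695915213245920429423294366326151579120126956989410661879298794689622176401533521908611158258939360817666203415784210291342196309687018391825925805317713449511826745732392578145822705475560223172543241092652400379769291786242246391750810154579152949789200296727223520962819589957014031834433599300054957584722839801940183191416958188316552526911821489222655820276040589484643938505459065100611524307794746507381767973981313250079831622985455647546182807668381759407306385821191569431419550006296229929016157728744176683037702540708099134331593442440620723163119868225523571808813957000520690891139926411057804471666769587971880705518577809998723100858026643795943662570133895538518644221115133292491048549945455210663243424155239634982258098062737201182166376907918692446617288879531331584480904292384928469163808941440061026733511309578358097537019323759783828211169924770379103154711900172106354562238560177157022507949616708389402689766514375394375140159946451771617895576806730385310603814584438435283239681931946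67519906268226876063973272202622595779047921716410439561904369275265839061554420942884609011282393726817756690746287563604953105062259104444705096485845536656776318999647912434530390115046293243926863081894484744691709590354225316285353993818882145906087394161731777199297622259510501782077676779802279973573801173503898948432615979773445625801208180059763110086969307509517891031887474491117518218770197378893605988267471450607791948450900044933442638400079639017714810333393453116836449628641962935269246639464753584879807937185987797693052239315847233332370103197096216077608547961273204442741368750484156875987746508766376405643477098456483696056687065981098028190827551138746367971259486947334652593979956475867230279462043336563589212228006360282654671342271807945941214518851023183284921606771045023557354732577971648706386283722607665321233801840354646696403784704999666749600449265369047402249964220402372438498210267468178930441219150519960483216477216043120831518343939308941129937050539488022091452730684294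01103807320848791112700279015300182520512587805159515888198854902251993880197998181249875720850168324207686125984831082370531568411272365885565321319103592303739999564761211969730886405608650426021911108723467452347708963756149835865386661465694449853519213153142540109272528273975253849646940131982179737457766731249361969826139475089661917058476915049956239611646482681508841429666575536816691535216500279663523677699395317418218493932196426709676968698633051196021416066825381437546868573129599855608650331586947727936248036778888921259928953942739807904507758143426851939090943215624119445459735150259323148757753989845004181408322247289172320808941377750030199065016257237152998575123501187337211729001564297218841065569992417880971823481762190515847253982784908018250733066602765445785770801888822459727815271393120486644640986411609386433855866560878408698673332707132393992392043290996927282316437473936427103817775146199444806150984606101093109134058456238613899547855352868614140821069894121485461523168234283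29489314176682704753483662298593597691547824545084052876395332763064333583333111803167610861973928851542049497022773785093867607777534101091117777344299597137090368421288894481412422079369040248660897171092246752423529236517072701868787480564877305501995394764885383443912668228105803405581177460727327590095630622938706635487367876378436219730663221746591112581877649282180600535168556804050820793224150548291028341794634985038358889204340505367409296234741979656774207402988183040411346974751177244563501398709163318847297302514971891060033907314280599800969302661355207112902531235610629454433443784045105110025580228921937454196128055842604079271003635181924985637827800982259107347827713457087447717428459688255342227606011582300455078426577432846795630505407737055708146589298941140619134533893648665644557151964884504532112265317551004567130120079625885911090773391676306801752321951906933304489276377964528710799480386009343329505999841318229479470933210340911695552924250059591242428892929005781155923118159609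89927601093174332848032306189444175321229037301758529722077693337823976526330653890032789042720207529808584906678391624830091684629259437638001751159041907976054675765989752051856751382597369425608173327420213969228934782010343498591346843780770436860013443894814223488314364745341181011786348617704356602157966897893583196941302779566713753063556596929778161145025919501726489817635063404703056889512373188831794440542485195149365903972057171605440135017886388125661489483635908576514805463990242039260256288753373352944777626040409405231652499676415199061678253942617688557720657373407851360431779936755021696723766584074614428086469498102166830817813635853634676533583958044231608815585760413326832363180339834587308381591952891336590686256926982871509661727405978589753602606484729120781786188734213212455138415120928678510887762272097748790766438485979628973357499771681199367184580571289409420773972055967302859792925983007572613511682676079325995247499028523263250340008441219271210654187781420757217198622674725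09712771332466959141312622258059146172468106275396792850369381962676174235545988941941798269607005805386868992030683732952892358006909588751960852634550029865413227437951577625108890939600561352698841132567031027356721478765996716377549463729891376075679526063201218588088350641987317721425559517454385459442447510838609532220338522159686459102812269765294356524754213544137866168996712926905385161475087002383917262593217028078244910185836744103397093376597280087472226598180784789452545169017074284399633221488734572504507295237783397208534625187491797996236326425935042759102299118347846738269847461711896376284037910043738545954896957618726865901396815892392350770364467158980872430052312077949045129991307611315938828414806755520811616934455146251001452013336248140929369998172652221113065685732895622017745871422778629527899859334188708547547390309903297788566421007640564966230446997418759421540548950230279184989010241379337825012931004625049696898083872463030559804009321537662581440454133654835094666862425685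37336159620721313978830451991448475053678414694534444282921701307057595835489363434789928270983507096926087520174901354506171630956460890620642635909792376810381606970759676122077964904639773939179674983675796225281174467394474115223514698810473089832534586865677337549645458279251563232637228801993816127275233479384342299342527562267953597780563376938123208213590719750930110873013264171774609056197782249139203083204279521858449611991495270273132377259123662440483879649975493998475909733012258274762987098026122899335786617493329953716990583238897941764653940018508664080814786023615731709066300601491511240005509185824424589854123179744692580563211805631733234517490042913406283961388575870642704430751978603296079137807616204786701205772687540420386953298925456982921885297275568298733656149933356700632103557447519950242735844389586504535776061449290976977353067488276580671647880447201169127805957188059021143717265941603957812293453817603222802123293235601258993492706127611006080955559695014224568806513418187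34977626054598153594073303067120784751055300901756855775349603590358020417197040706889089286007048789980435555479609770399345412715939551843940158922564595985878791193202814065641542141838219363101863371008319755516797467540857789934859873548672091025647576737983945730736794292595280997207738918860247277135785231311667354178648395447545398246553266451613494402488848444220869025861728382626024802333212150388156907438795757166132467978279458233014795536795920433704898070670465850004784738690492127997269692432512200604110329211740543556836674224526800256818027369246503751818562342144701284925006155482728849548909307643740318965116924732992122768650522869929243049202363945086153362855053388633601834908031958582013187283177125525160752160357378124912821039827174313754240771460593335992149803805584117478022771940398428141355606721020105286445291923414346847686119434197499235203810354389517039936913237431633594710377258271752492770839162646990713580153036933367585567999996868496981303222781215391925258628916388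25139248246325172951109620270321275565002366229134481836509649630753910735903187818722814312499030924583962951515760797470640440725248126773363727166213463883616377239585607337050619380696323980525408029402796918397222637905177059508173198445229124903912648758935994895924243306063924111436704472433455762193991090799677612977443128337198964434685149487970909094088963230124218572205321389684312825791494770052578937138141920842715063396093492652456181607826721688500238824197618628200209026330768217012200866001699313403535014235380585959803827975718255586541966481090507034552240612072431693972787234355951882982397880051407074611911268598756964927429545252242098429959148687758604590756175123340907026759175896356320915210488909822255788045609847714254370959208849321857967806434684505973310476020532183116863486073457530171551019074474882324184595746823747364386800902998496955949303576973942715827823224072293820357255949860150203858741364468339796124265573032699415212629338109289010807205724882236360078903544303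95987570276915191619946803547682365579783354598788509765922702488714304753470845392494797769726028429899012214187973606646470822667856251464659242156487739235790445167034015748522830114798971926344078038284291034393183932609885614383975987908632383528550612973918888951348324217500228761377111115350254461160324999129968009702126920653156602927279005043274933353166717003400516622736439961852617284910385462675796795332434932986551938872275621233650948786281353460299146261874421983831909226263900958566173024210893947926563900879808293624290226062803638438546702021055196884555729380250223021244403553406131305240132468581271219609568635140986011679188147169652509584661251527008600412169690722565875991549911697415591751454295958191087226415154967918007193460082715116043138410296079714360866659043956867525325508643722967003441559502263523652947537209302652449726928044572727215307201094913979070773381211692594355412678608754507037138562974463543670963624316408696590227441599899790331106972022976906751922850736949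87142459320459483091019850629658131954229535509558890411773496582611001671662367291508966008078452613826323796377987041074512217634426779284469885298929831482147167679149303174118300407194963800358858647261512005431112096464656572698054180431168686242441341901725473188917811375687564857458944080969548784357496407945897010778469511438507661236107364015768795399705807329157432970516776378278545792077416894187814260497875173373927446578035081035703962084409883445259648880590494211146654907905033366233888564322236257435952365677969590524031918014795092140298332877543297763581199734481663113556364686600875144547013250882064476332082046091216687625342962332284416926376480907758998081412760933159039460942286328799220094704136801746197066078482065464997358865503660972485626069850782308033630801667573064946673892700987519153601050645397041068551720479097390935608969241135415296)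

noncomputable def rc9 : Nat := (nat_lit 22219338831654044157854651532198269442460085173124211530752481408886154273227750877549288628267514145736437312694333265195298996398478377582294542128332112768540099738487050104759537156502054020744319776120374626537305535926755583537453508180660404017285751225201112921158435786674587723009081622665312484306917536823061097307627031688439461420302521043817673680744292056444809928314123366790636600134684484450493146063360806895900524113117058291093896679903962539912696868006403925006176091718194275960592789132580702245161438610083920516443760202558556300632010585347517321480636724403880063426099324588917320152007054679282421622073195275814274367959074419200528000913886818046795618711690458731083136334482015763094839417501521478898264491589446571321841536754016425809255612211890441919106119900313888819851493761504873932752063148454519354655379705604243543561919999592367035269725162560897167272482632192992522177729580424320479403948856947905093413264095067480963321688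54185078329781666542838774835898178989462693435376975711920909303867610552818661583863331312908417647327928324148058281868763826967176289764393303299945415432008077349476887585491111041145289410912233387796554305312271022944602709531642920774376077040146689173944770371007841511672669270853028191504690950978271260084073202947652824636375281450844552670812994746710312705824498936390103219396967184586764373599735960744818643297941174602384100149391156816264325311869325990124120168181900121236369048727263803879646545336783854695714557661267221273243185274767183238749019434130181085384739021823398225577517515616295169050561797044539366614302242417634300061428101402087162396540157137206390739571142812764605664676396878460020181432185730878752250413719456173803414155259706746337168138626936384537850372237008900379348240195661432156147269615514701739511080964436371767976863461809262865857084470046759900397977993121732966746496388336889109020164368186885671617086702794975632719203085661726066046371210280755323137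21160018568126019388931131484344619777392911802355049921720323270905272732346743621799645861020678362941658104964103834931265315856387650225047304619711301840287679653035652510961915981208230848896681902957860486428432343667020713407363869713384234192802610785815436442435578982802728342157356051918315267298838714685189722454787036604950822000640130431664677262857361408262703839807420756541395060506247790723169611930147011461376824054776961811986715303858269609944664399581901257627734753356723393913176615182473839765733760833531040881606039296651449059816053163176333322556183528718492706660626267025263216311559848045488388474136418177350675505047304830326782938816865444674862341770942645838543684049280076006640784608781941528811106573263209389185033325059735885007717940846319558238030096535502616951958954289782633664339776329977680776599285886894435712857770459576322123602228600117662238595565381585986684684536410764380746651916727022700302147456612173370691614121138784116845528577105179098404601836565838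61998812745735878333788779251984010739274101258426250206931963829091952810203196917009888991223429061538354735975997210231194663224931533672157939798582691768953656294313055679800200265648998287993056275304074815102115448473499491899281218029554834288447403536316949565131449136384036544948132741857014234620718846052756861996771201319780707712977094060724427050770404122984041525771163037750869389766396209109386968293371431988953127538486386209432634281444965992490354198050592302275273122624864430607063312011457963502959404475411018405224476167848519735436463388895413498383546107109009407757125916551562718971915808318741914336839407965874338569563295220180273719328216911410876640026712588543475563822541691101994079024610421844627093731863704779005298881686021879208002521380376596929812913861446632464123374529895536386689418326916678454859107585235391943282768815038877742179394048973953180201785348714441193778380793578489675855282953798601213252173366753560020371940903557705842188549267477526039265609122901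59724835737965588944375589937355747427192622153016789153235508878386726276106591644421752001315010077954208138014866429620262803377015799837271927459551994566808696967845373475827266262491711550905817889012942342007020516321402830463791579296270332367796856886341607160819750690470969360405679924023373758815758881742207971512905268267055265241006963905427166012876887005144673539210917913128490619831016414385263888379277035484960016259019042270925564625417094439712633682766908298228374119299280922319177659239466542589938654053806730667377283202971843463339443626815642720388220844876903288232895541835128061821166540704084088347012229830173310618283630060830128864023626905179250839715963550158865747357396914497936023040190685558692476380979258665404612767925687654683184428265334094255050545756101522659719445703816180529992202790905134461549981156191272813003425842796702491223483788248310632929985168267698641320634226689479125507729697365970331863730496231618659329628139728336654067851272007975378219457841635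62170893726577331555164826599379981427666132986074651362965885587930506031235214261104766049381546351542910582477278373057100548098532687620637826722538536059672701614061161559032183586643988631013748963603336434726514396744281664571173154429074701196617200036996444526340030239418533596553251392615963486499770099722206473024157360004323783792774884950914587268325345956513726789800741823744457326227626677316620119412780186317070714325327597055707148537703012788391457863967709911327943174609996654831296651402928757325443078456513686333531652432206676905341158220988667868522408006558485801718390705069182298914238243441044073676414091274272759767458733030483060302370008665196052239795516198706594368427437269509879173692228484493001065456984087508128113767737624529520798101659585186130765280893679224209583479900872218944818075767694880174942366830856458658578384092576508068376104401170998304890466809821698198165816843357189568338144377854187956125132789540630755427775688194622586087832428359922751146176356165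41813748470730664910851460952711664536114439000598238408632362566811771163488959674627817295283855557056004643726664590144568075680196628140427048086388660337240563829697763384313562974183114273278350163173816003828115170489946214927829596957470648148319362816298440810522364347192628782197262015703166587398964228265303738809779786039117306430659737064987545368667691731216495454763221468181321437864846359050093263954441069138240109110551104306958389501387862454944631890973555122214884673680950913593683441727845029045074338646670278750339270543703588277963807478766978862243580840023921533583693059535717535461419850053693021883846187089372520546983257289980613077222766873240609723761812624249952577326788488691095170286037939122969982457848098688010033490059441370574292346085894652790419769527592260741493382015321530305659252884327670869268017969836640046433692279122603806904518074611222072712574044735829248726854754188306444668515232273031175200272912089516121279850998982974439928584573980462584982330489355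51742598372928428783968444199479817975412836413364527573254670246586701165021637898063175177682717478354819112482165405428718570347092941395317725389556520405368731796891635989576380367398448682907234475242596264435506396559507247226366276965269807018495038387516646227139936449260577658609732895844651464042134001021181804873960931016908155743586850992081368454739498901477625327013105069628820584840627557635640938948410369633501505207970606230430990772475320908784687894445337068958876292417247985682858295672053719720935287401601131334852036726677052122475330739426472687398821660664112306145540412935040138156423010878815627589666772115614245254120010726540153499861859696005181035912229711557205262410680418853905380644175402655438001775056114750050841225355091589747663000727051383704562991576335730783800902323995500878877079528001503177754273936110369102642223750902368406354108911880676534926504339532697816528513645681283725670982893848206834471625469687283153558266135090180793738632561780612744362510496314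60599003270498748204038578864506847053887203791056008135871358465282683038963597527403894803447991065874267344641103601458275479112970162013795689379023082467150823591288841480260086432502490531767071089597302761445386851504346679824493609696492336703449748824404465023786612156395382224415399643603325493138211163118949688095738077984847454740493011047581655067531209476585826201946572746918862508835391456784901889433487719850140756153285090376770397390553209038384908188351163587572509063674850574925911105636981007127866088139711363153892177292545269403960131173036480937560763443670131317017226378496716780899755422217159352653477552334118810962234609492981926720082714410100468086691595766058596346373917647468182480069967751551177032187089196149696649822530198113850606217549848203779896987049518834005986309169509309322246885045298237816654093168548804671627563524724943405008527725404912386255955478939588381830844664077345073868339137287431798211384206089529314489410552046321530005565667518226307888501535128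75331351523164886323160420005237039943175924650706056997028332083327499903899620215953002011156823975487636321186088256533250843980269565156563517078051130422520061611534817936083785704935508900285616251199131385671314294584678705427327020753306620499123396081116772824904377236340707582389884482471988979703855370307657348402354259774762143814093172049495157232247477250411332027125243850006746060108642298331466744722786949361091794340351368682071960279485724422365669429271838043900138257820481655738366087900863375464331494354631671198972345309736866347617028468244282959926185019898869308001295559890001793262802632412421456166489343295402330069941121317180628072218779211478062047751799890062871248905820994106475802342675002028473630941252501402076883233385673042640857910099466812553196913346920465381719529632374901933194325106980559184725871424626957488358922256870088634790368270485945613087643514459613511207327215179039397360947666609975790510984157685578454255147904874369036638368224856184376694112407870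09508456650483936709602202594912634779231081492369241267782705830070328929743159708855599283828780078449665885703672356854323747455897313692186752344104110208627668290052633823786995116780300837506643704383537091232210987031315889932689193422627949578621139746601732050120196573728637342513416319778422996126567902142284530371539185006029321590687934147980919339753778760121145345980886128969334371959421156329298097723571179063357944700450715291165018085734076459073405473600222007506618164069935585307765595091377125864714828596034701542959476479300029819744736721225873874366784736180465856575453879393280933024513173478790562596604757072232471200074396017766987692310786235998407592936515719476840245509411454011187723709681780056049371853848357767797471139007739325081312304697235301401548667556622027464566873863385532048304715198481251057220547392038471677213121098073364976367911677967041045613442591751865100441336287013984253391040232344246087573204596346616880694080331528147271183937588729747420283913718464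94703246792600692420025662121268322383050686956625947176650208327010927729769742143308985490875832673226471414832347629959361302892392038113088297132917711693892773740024015908326008251295002903903655384823401979427525863505965523167916098763757577390395124557659447406441314101649813534287077087567605974924688801751019173506566899878944443302445051122739040807939169420916594995022635808061705842277235641455456330577863190574282062877362375620856834763523796189808795459045262548365292857559505173027195834351985448771312403124278116290406272070484210988675888356724322686468124700722404813187233233299702579465536993316690615847983480649287241694862599147786268483667399211180739567212939024899932929435293830076526823460658715611386276855076386485240635840551353557026090147488042689923232975797836278933152598501107110987315493707047249132649621110691839684194791973132685859515622975278250491914468299504779680879623523837181419657546124319715813698036076395323292345779456223677678940364359805378172122224831032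23745400637347414635681015128891191456973865903484130138076775259983418323247543832491048923536021519519206023567464367001173911140595007057801903901405603348444086176636492460272146714859702730897980790380366298199514589260845317471431611992761924244459925244516935774208182396797943191665110881481258786118857088574087322783619343777088722125326548141633536345655290235083044980683786720595517117183701588114548616258414010472569608312112577962153556720337946370720875414238156412785376861588924989418697734733124796685765299751715381665833015490456567791183481835179894936081115748760520014917644384440878802843969139392661601572291995976769033917967435967988909704563733923326628076234752618964578769929423620333207495368526553987311380507864028695000011793274734810434366365387595917758063223205096753416069240559992187593967849016806526574268443202125775782932615769391874883101768486081367772620460122390851841351120345948106187231388132642227182913452075655445830817434666828477588127888535728615887709792930826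69144359765041039725802352838633621546616665579774346639027523220007096381372107168256124941303980067407940469674894320828258641145168123381055635773414247573513382948586602353448173390179502565208119851813242213370491194130523112392887194465298529855862254350034887770977891888448365786941297515840564029763543432293768005051242232993164611713410799228217661237883297482649737749724542793008605150840795320658483805520365904424751666904218396995223443597814730190503923598653117784770657384010635990203661607281271410226397560653753695829510018785746504974971004529125256008742158549471368578315425069526636904014664898941442414471184435037216146644353648733168736555837685725297413521586422910315215737367720640338944881189709651123517413990172283627519427939484858076699121319945640932400010246521690705012142242884183080861645268098914613021416100646997212852933500639309266545301968063752914103671815424986065789227848383967412440645044841348680822911864997524064121792056874287894224351578659532278587733726009213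12965686583093705852307750344939877302651998169864105926425178466195767052005518411394084374409024717932364842751379462038862684763260217097553052529946379143664019621332682499752228644583585545414736634532649163904038158898819961629621854040719712823708076046767703660787795712757940556627115402102364919927352240878528390992537604549914577309833700254619982166879493608329880692676728299773984998725604437531130638049727792428713281452482944172202115903641457475574278241264425273296768677152687548878753314010350035389986881828739134091342714371780651680731756851580749614158501564463278911798992441625905754973791775427202590368141764061147237078287196760926905540587626751443143244719986454876351818298833737335033209217214025620140610700018195841207048338914868495579857712235154016581272785714197352026047537419420251012452493831194185735905231285983407833839832455765060475889778910980261998951726424987136842307309893655537566524752556967239217256586849680064927729888415380257324097053509469269232907740985057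80920101126845945464988100886960446867298785365928667661851066952820175093931977730637173437805862351281877918698084130205442755737272964458070168635192150546348910273951618139038465973273488393792098026383801577220996505043908280054782609913588040446525163812808346216689919733011483617651990972516053112698697944087350785982406481569689929481723119614293831728154505260846773516620911046664726368278498151226968559606600918665154681277348213031663892296077960725483074239725923555598707178046717518095323997447990426515439743439273556871800924761670968205269782706827123544171979115359284834765443290067920152980924375367583934418578577049011072087148859689698907905818102628771288113384064445117246234396885862384160577782595760817179972876760268813735915488447312150417995560548573133602509747000128824720686984735793104315888175357688758985775772763639900998728694534788738011041999043334158823832190047650400860413641975294216817661924400139534719232644576837408060524952076729931499888478331930623170256772045791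82718953291272747364143162647057335014060531437292711826122217337818777561623201148892311788012170654611150777029231104878174049939154206793715335982139677049940168198031573841869606584754590042762565193145487559637721925074805344386251064143850116537836954407729985142889275128649425176290956721214359124991943028292615929344886821796949783456090779223685388291616158022749012353102969620295115397483971538084258278226909085173083961434519117626161730308472015358510434144803247922362123351613088883313086029436342257327172281597374401245037383831127427075518117245178451449710892749622246996414950721044081897252460959856371589424569907641431328872982426129483532346149136879222341978529940202701787333009477881934358952856941911256380412804951597975669724808242335616495179932830848460427793378658728491799096863881503858191477060442232180533941744950121997098684229370618531806756885963125408992784899495539237739226663640711062202530765400540270113102674969825602973756874249214085713108455814664562162311857815580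90437784936617576889045442016240569562376736516240629330161366465004887666895659080427051605767406638136299751447949512262383807711595908146893806689363842468644680152189221244962449412464229021727727100750237300558890768070539392078773998113797198524508303702519193860594257010874290474731894004734750271642264217982915383452586226334789906622501645128669927149784443518607757675131801388085283054875276582057954856487162136620501447492078351753838038937078033934651614939269878926418220734280457554641834340193333000892410522823466461632308546468530706157738194360144225377780179736127373960528833058424960032051071616634523953718165088441404500359265704546798950640749581953041743377794001838149657578572871153640068656241572003928987390717346192641330067890122430993689251134377912336005980218807393237358066707247616857214006699271393662687038693020943904809132748335684255744)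

noncomputable def rc10 : Nat := (nat_lit 2226134373001659087314097867128639204083584660573284127661595746185145547707975357474664982478902199089970689301445576359546320312988903392612557270491844581606899116632244564114859573279484405398434528777433465951948226601483196212691905345867780479217158642853663773414159789301210083984388071935517400474156707759749887631074366939322614251141496835549670654665096238261207889975809973224835738454310605225941910613483830689126718611246801790415626154978641093434153915127813248465581233783940436950320211702641550375822656193394981491954831837350200140253491681036074654491629159017776712375493347337881752151470874384613123467893068673231729471428445928960178127763538708476730739609764060541965138391738124627944863020108779830094273286503197373644624797912819307330194705058141401303145480979731220852664402911705914008895352512885642693719561241895182937811828511224981638725967046908205382848561277413769569977369935410842281325198118083932021997824189604310870530334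55056729444695976065752287694415361516363744373703986941064534747030967337357939803299462532202344789959701128727350512887197867900461340732484059297409391325968881297013212303131278948536132891565347821864208961226806157222384713654786628938545656061097924412875432859085344296415923633416107550059109209397029597790150467106715264644480216118786908879312957520658961938732118838624522775645125075495883428115072260871738832243849535538835920608814360781163555853696799947799096567842561934809081530088519428750086174646987762151056987056423009527744780521456269506939355416422235297326100626365927963871994706856141554929525512420755654062276287197845067094375154515606466696095349120075444563801375203554366677609367830849247727316407779922763543389949815912965995277980757887224770385673795091571196427900371584611694832365773864038202409360750371795661606085082494235431028796530587066152657991678209726591630035935754348565456431834966828414889715490193278452031240610161282438751749797142273596424373022885859791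93543035651102670777866424598564164751459446429865746644350462920395588139669782663333751129209531635470326687100685780422281392429514193695064726393816140822612849601917573034821766007992753182934562275538803777681180401987681543427040405749566338178028449055621037390641042004471642106357884106620353067779708275531229321905878165624641604463239767725363725286682008953616148829819609436457754282138074825627236165996247214852922973528920647610458826425080600417817999296587974920877873841057192413687623590661909335753420430273853872781422788051607987773481462335445546985759061862964555327826505723670031145529515837843437595397877404239965835175896391358281373151419894172121296688202837673740645278178171875971362133718281474243926960778652777506164020413959223682330033599540724396927579127034054646986531515818220530038664737620665083125543100897537285467434995792290534399236634772967064874861278281227184426355708431562889361372881490907993314787447882553851696255655756039784627628689552560262149055319083750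67137571711977282599009371908504696828713736576720442937181008959303179987686562243944439930674178305855109825951915856298384475084651474462962830108339390668283670316760178196915544614023021189395057138850549429391260255789656951675164103901212798904989773111236531346157989787968010612447044530495120731873024668408459738578442187841604194116223876596208537990594222250773326601188798320126532067222850588223708381042770541265756584641630791467558019526057056424937087254711695005324652957968679595833403920553867341386140025067370417841915953609931020287871541276506464559038796677800759494408965204590650451687634323454253646378859263556859281356183846553206661917108805067802527882870960836118298412129544697063466901238984200677900139031963254873604498784675018613590504849369333883581514431101067511844036436770714422063011864687944236740276467488292295807998307834009284527592406926079185322563277800723401566575764217671287074833872766107365492808878133742964286999592200275348726876300000795441585319152946620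59639606090791890099620145966660311122440619898045346026557434038479428424832554483526795540948005485301604531557262196008052261942789825023557361356679971258540860770143530772035668271800458813819012091980928948142661491776412326018858551272137140902644473091332291080453995512718060909575735757769054258046079456294452510351254453509293229947227106781471380611860602118624628716861715893340807566722610166661659643544657825009688297811850871649535207052240568694764531902687722866390634245856719576724355287466263969971773307581836973163787226022976477130463049993720573695126513242078603581466297806699544733364173436456346384362109906471546313767907906353893174144113454824051514799778020657125537749009936863933657656749908291044219204417390090275560286303141621150249703625579808697539171313619603922453800414152830907371945145052918149653867327011805593177253478469869033875470726313094710287099967399287580585125387560238693571506005678919457599948930355511901545277949442821973531818758126713707193910037670734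84310968235233231504951450385591451088963547538324422162527006728133076671789462163511277890438797067136905010221470801535481069765937727836023870638759594113363266890164601413447823779160308287783495717641079309055177188644323696251184173940496806109647978622206342429561750313899878001051829418071807530940171340507726104437237629115724176402034404258934947334087674656858294538156808191210928985561757010161407338694954304226227330060168913635707015442287814095525231892826970329882568826395345538211641373874322529548786657048262572880692813160590163993935558057183857424734551041687954523194196113572660794602306220372561740648076806221926343513265850818369202916657939922928739957647310847945074280141272650694408865119961893623488702601458853400557737073724257678253673876093922803498875074407084373970254533137827429287624543130241157964708082605302410516955536759399360973606056141501242766302895118380232392430944996644267610958914113943889151247277670379493687198968789045612087868501243571080818039769773045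86714950083494625642875136027038158757827830503057170071180294572335537111589471362115961530016549813928276349671393296947887936563857942618501927813445178854464126462641536664188465188419433139553977974670483326177539408164153191399550900522615194049777243391226283916906917352830520497500418702100282392616997620685859143126227532413987887945929442271325188743622304043637169678874168736678505162312282773908528203930617498049911065893291634929269788868646511266964254436839671376445891376051912243473178688136624713736491792964895697515080264808774084894688012013629363768180784386012765500674411893451251079043879481760565679320652337083070425411737656315299175771392577254322600843571648890936369594051758342101658474131358636233892629299147274891152301883426464563448655924361849551348970772594723028473589425901334748135838616326692839424327071170502684236857173356597814937577356563735237769385563618261647074900421329341301817390543718570424517684045810149864637260525914502327242903097162647555001320280650326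50592416044397551049844259373101971085216598588409883307644732103349804111008659595298146581090636016358881803132748261182090497787194644508926253932215984907483841784510122732464307145194137055138580671312287438819506033796287163891264861902729052283555267160144708217465730917546493897239589302748974665678093444332807304305540514096534324842376584282234086153427457380102404112394955664283987039482873244840799082477231868654906965809085288345579723013712531281348187189886817797273683595703092343556979768437156065283359616833344228997756190486398290506145727201968017210889595043165520541687424393654716992714939735113621050791834245146105093367638133473010210074080876939919152072934058912770260059833674555006913029170434064086021631073293266305918530803348831501400872353282181131079365432485501917022003348226257209748296322708748332329994390951682485715794537324972729318730779779498532671607044277614687589975914931992721257688088750194576928336547658996528243245188073321988839073246322878851376590452237010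36103903877472268648689931517010502108503585933374352746301440087777916944872028315829321531742737189146760837276389788123887433898964568905275100241821916826407164300905054488909268783392968547122684177750783237317889114782193221265507764823256539806266450943383929610408846827686744595603635717201257222226686408986122197537467471275416941934690206485791492207982384792332445345573493062634722595600170417893376566309408432688281022552883061590889730188673888596982749790880623716765039152617670517634825303391971018976070643159757693487437110504690120987968018922283863572243988346277761031980735353653842828536895133961168223519532252604370371609493385041794352324603702647034354658516187309402712768495331507635888239192942737877633265977704868979784867943978412581683623194825965430722144275157067377025355917504759673731607614320134292125664450512693468984115471835207601869113251562663488828429878660362581727647606335529286305711751484281262643921611469813966325769501589844311229323147369365237542940493208207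53728405072320563021830686982659902075263135453996987328310345979090884253586047319342457994144008555304478996728470097865065643067160622629828272731601204399584074672606979496277343935135224525322071280041677430065656228067521649202917857077259133227543958054806231035804977820244242744608276560318114453354810345919432316134149905706231223059051615583982914062882870703404314254666300004552931902272799547053575889331623605567029199786554975193448313514297827252399943384152874813564098189265104900443791015523380545598288668555891076817260629479086370958682594488276770233883657629194360692859765189102818961413118077927681548231441545105608869775049733488428240719643935083380889057959350644663442330752761156476259154587543798158710681954143075972679941816940058431824729394725229549465884549043162556347313915276446871858041699929340966614553974187071928687652745488954241645552413047756344755806825936495330285323957289730979358761760782813268310114602153469324067119226447494992153990814147496672289110827232566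02893335338272893484936096019345307881567193540286565845666059179519523034354376379150368986461485001604591772066036191922310104567749297479680433498215945382162724861771051532546026824061975093863035310397769635459597844556708934166563462689977476669408946672852440413087499639201087135607286619943051194668495222430611632088641702092383371634513949447677304546074053533672875440945373869218957322190568340362409851378947001610392882927104259075421644340010163559165239685639273279830606451812384711271490726514248144806265104655620832039931951895043264697291419399109504151553548176860781342231212183448774651372269735060574587397573165259506517139214422650598901371267772490489208973202792083779670777352487547793897414035607965313524128182729927305236124559643112894718902034334756325066624004776415387603980442165411191794422394042766955463433680269968198197077242252131291061634467131838470171185587294841885856580319713395255816960791454942705586896370865275271372582703063151157894627507841283145097224264001972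13433991615975022876120060898991096610976730905304562849906186358520596542666017179990509890782987158106823394009331921703958584211474942129789259475752443788698475885976227317095355794995510520370374925412771433375314314927301748686689209207975300909416408808305099316434952976397586903311185636352586527056193271698431887737038559100075822126861856934752073740375716090797158391700346220798069958652926359526680783048126879024356464410839881411241720471186376194830500683754202811887616516413561204798395563951211202349972220347401015685111230044938209475214415725161664987201540539271830605599205440926959472458488535329536682328818821596388275269095046887979985521219528091269718497620481984919957818235982668586609931035510304290471046709810518824993720121611452145975258956648418679505021890950678199213545800800789291699464396300191671697850509938097052103875756038906757708170717803683223475152269442053834906460952157268941576422924108159922564392066628070739600374072951804881784177083217276688614834730954876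93652577994868189952231067438587307495294170270095405554242456016076824485528280074940577003058972399296670643196710370599486120219445650487589328996549817461794293691363647179949928144440585992590595929139001523025197588903400111569838625148431893533005204813358273372607511910276176065627226996625799991211951311549591838475324645873714193928491091997442016434566505352785881489325314151590584896925020570652553801790400739858747269447452412651337755391209890578334980853630653199005323478091664893685132078187591244341405208049316625786280742725395650983608209675653424080813563924377267006814824748207005064912012189465037989219358935911224944231708871667013480725095024296936344884089713019525272731424582634218450350691274927965128820699278878787348659857356411855887040014330046024336119577002060076594641217688439497781848607240358843000115009795404726435535707877783875780012785962146016724935291331498870126359666948730698031396691939349405992273245944477871498736845355485381284853493796673585557849817928043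76819063050754188137972737044786472113024237052059659427090160397055868655585226592558926773041767845149290826162897570363799048815496585107857861801685325488759033064629843985877587771898409974928256361554665384962371088985261271039987637990676041211836593176001090028009696257015491909703861635218676487178251875392396353399910300287983632433962552940446158682221896493638364528471452007281182612147346213915708258577673143624375492364282314202155788524564842083665135077444136084250265610523017940098565898174411143217444868067129910124069767513214355901505015591227749508454125897238549556348224697011670354523685862609332304443503552253137453765232164869994879898987387036567394434569664346776261949430193693103613251597396127153416399883906264792668786853735881958237012484052339931170942060109954004603397651523238351778291178718375041458066368003759968008467839955742882248434193812442205530227250836923751690984236378407641227446686862049080215099571774317286695680354895150061461437648057063513662611164007135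10314507571597255532963697262543390568395503348998641104041637481121527798864172283713047053922926197034604120230307757958154124905825875023974184736891350036334797436801422249505572280441574842610098212770685635073654744982104646870431360846114897650527374100401941252546269328781789006465065935406807817476103194699052474336520603177219744207482436012858286868619650177802060847982113830743928939028794934375469334385739772900468937381223037311773869619885034078121355305657457496284980283730691534085531390127148896546436040385015356797034345798037975225088052022159182185780238403780398585109142926293776950170475056939772020751537810087148237799917518081984210184414616399192485055388412589754693100780588868820644778857235078918404951544702164812479002907901701354574257520088558038242788576958794988669313005262660170827082083331172715460593821468861320071131688870850719412013315322799171640838912477137765059106829656051373352070818606267096951582232436304556618564619650260242996814743418116598938555970027835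47856584293436644403190905215285401639130525278997186741090159166819552318938346036890582700205727387313748678430685561217448698729511385257517877425454416343488987082782276315229671943374471771294331231927757689817963141280894742474724527898989858190175896432400635461850699334125856355258890218715385389539146634756886295943745487531817803960678958998746157129705473649266150984536140387289161956925584744663514892128570310367053257663386231432039761029482209852147301680324682103671902294075023357740837591178453080611309283651902599443397565899719041160432250144104099970199971934650480590698200451490365971551616053670858386159414956841089803392269012247189577167283613870768964026461315858081450621241198623527245385626314820397864523036633326446495400278097883218485833924750256533639209893153859113483255255899154273176534466584608167905297704632116228304692064416848976766704364313600606989334803076811779906466349348491867251645996062817941568852446783421781647452850077608857546262297444379542634371082495051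12798823976317130723122173793674299688233995415099581970499747122457463013450606699248293482356319517608729635639618776140831164306448845717174447440605022561763793615563230789648997603709334346118672689459669788646240944556307458634465811599672156267243045819725568677834341826100479917714755857571439809869507079165094369535209207740975039509913097931354367602127701164567845680674558080245400705701199803239223705516993288277416209897801978673275631488243371657871101579960204421116149504181332609597655005867844625985509191330913403455318533243132565592149336675428067254844047655587639555968151899185365595334106459765991450175910303127964571837886254351400173884063150124216787733526772768555794094787744721030230905619917238077681710494919743531295557872948751437125940395511711634084734822639115003351122964500200479134994013469234762150136788613630137727558465137769550176682361426210158478383842988970327197683068080492928749197882954330277132783169264876481393653024727206529786070126642802032969462315384823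749805554388313281194155301361858533805123636896625876044881044677098115667182394469494558990739881222824683961851320689586748764133478315541765185107995767113175908536273477673293396016541927255686475370031998852117222306879644543278824244171319836559787353964795577405320948010093023752429624104282013804843570516339664871021418700670835929824402393496715172535224953190462285057238499063800017590779351737683458001407136154315185579415175143228721565418259040763872891630709075191149922094428974998167724564812783506059633248442021736662728022179001542745371390534946563425923494262038538553644225299616528733516491384007811393359286726201965529904139215002870796056793453991488841523540902278420200785821448892819188404394612844246232306543670607047453952163825815334310864864167480663929037791314594292284887052685706872779893314591785448579564084069380470053827002400036093952)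

noncomputable def rc11 : Nat := (nat_lit 2230296670060386606802820572904448037124825981162578525231816496598007307889908721326317089335882863882228062353791305831372549095434485494918014508715155337397326971339880680788413234768066022209222286028349374758302095753356643834009002979811565485053151827664875840465912228241867855452416685964194817688142686470361850575894560933286929888072287824791310977586133502668588254841090560160613142532718985984638324275591209450214244780776937602319681707373918166365261724131178552235150619631763370009820175494554356010019407923776446623251753274874204375109595989936998523995569899588633703634636330739091863191027278554309933892479237575655161548958789120074142295734048395553850410440554597981288635771238395865705185281201315508223275487134271569276651061222393478322265830172911692575273885421128912546350076246075625485176701537427418554219059927024939602186508431454446586568781463589620044948064499049441622709567487676892743149896392839322602263856723168475405956084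83673276245020017790891324534151977982382432208761480427074105291293208969397454092193209259575638516471915501925927152398496351491460726486699943321245162272700568421315417741067469236405452343540180003738332824854140208720155001075971631686910303888455698775902637087424105629651946712906946329303968237659734168796663171800008489419386580120681065671774923934608912928945274559445441777562623378757511927444682984477565489231763988186859179972057655942374362346669044074130802947212031245320616078094316231184165390815066762690039593081158972915929404891241094272443344260460340794713825922190905429472864591275823002189877616541354829092161126741028980857713144574911057762144911019424062427269204912670544496394211991251497101341712333215251956562113234022228998750201198314897586232257606500501269289734051698833601745273839346900188268937301662451887366882742636210142133738998926691699580861572490917543619843082362170622154491706004274950106611211438216913643263167540136117967640277898553241843257826667756583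10937155345884174861658445971586886464502375143967976763209577845147708325749343191374072746205996591964376215057757177447684079617183397901622966194783091815072905325766781167734500684268561641527271502478203980010763789856563574534846370543624665629080415908724461620307810481771835906449053524086109065929920494833748402415369743166700140257177367164021991467520151521817588449538478545922314835513694434446007516787760499757643605865901454012028408459056422300805728781732160514001977529099438272898113196605671737396133620881486103227686956187581617154671505145650264410282712674065185241172064761462954503996845310252287604129348065783982849927793193978560975046484502395833500158002507968776968050157076150570703801159636101950544018492942040198816165701210520364988521997808850768110435805021816765988187054747601029219427467359897304176017546343416059544765822333290522798024623303720830930076003278348836389326410216801287873440604755190424554732140457743986582431469868178310383136807455591768422725399597414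54393179614166271829376110458754290731065080343443847213108463453057078879424384805723284714783384917697552885224022092384886285809438535451329808119349050254976659518040667434318881249810535107229306770462705158194438702433084170550285209810247325923600141351342363131222833767848324181481700635968621809134724139412927226736482274907010374805137463239978722793908386767980742029577741750408949755730796027098513345799236738935843915947222306993142806762308860930059783347802627201837742953322291749801246591951486227187567476579613365549906995566998448073441750628964126173424986356884204933180111748818217768239467478662934198612520516108665118725715372181354867606279315728532963009875204950423724025110651558794959030671513120987712442332317766281522813805411181678617634836645093802823372630899121940076158158004922694815676396390151970083353268430767196539076949394107503474285591154344158161990166145730859519088978583643851087780546050860148346616329898184094333335339646725543261487019579741766453187490212801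09651938272263478824617074307000848980078398264228295081812398148771861417060748164320963426794127419747781909670098932051807269462945722054555697220291352735170862265264898575941528210306587477676909155549462500315795368091062599768305563562919794929408806348855446215142358144779861771823974730118113456352456129754836408200105937674741576194924333744758025753303430909078820334077445929552844557702149215309655873827311882319796053655123418784094275614469018813256624697540760851197901058687864739529051154766142463671303098715590137627391533590014229732034662520269854877939529847682859437897144586154281864692854561418264968851465101597677594711502387431313450782340885896950233277468633048716278774262469855750487101184281836326332707053053605155906702104937874873499699217887651528997281826763455631234642534192576398843338324297889717762697143170417640551452793109857879909823239348318326297719099538040401807271119806501581899098483388990175347011175558897067219495066886688099349737686599993067585761288496457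61332749687432946600856044219917684105813890342193739663338180334140767646790530666505412180408391724647025533102018306911231221796499965271562658448016091529931687514164312894997590233821776644395931719992744801575136840653724727701146545925573245918945412391352520601298235936695203304762544271402001694062161545704868665868495153313157992913923575520481924460362543014192329549144832017486836793094085421942953056073408412945511536590070096598650820306724330209707269543369894943851263126920318180766374139090216342732862320500262416830300894488668258925068603487107954895305684022268775519518600258189432394252895183634922487723340557987957233024326289401424276016045832241053095116816380865272548385656848185002440465040281940853845854219156906449591630591822216885311038574724245855819655453152737497415075160150454182984376381685137806187687385544591856230297270737857641007023327083488708067642772969897466384013134278828494737071459107059930635831834354349514657557712527576510395312412453923150148511303587881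15160257171023609904968814658292966106661765614996102841711309605774155037524453357546469356792778940334748266872904271538440367444230907017801720612277902292108325987359973710686169431273297327234340532023797714238326176378961200640696771636019128863969212498353027379863652543989980395076451725092700185385881495104150479696111381755161335597952672716568224896207895555940562035053585282923708920841348799644480912907249630828521715697349901063397342509306278505983489856605953638235963905450073058792732898177015526866323349629998258236812726116255079055093127834411585166137679150654650092184321163302622192624586212396524816765367803113601050299067455022661204116172673878656751687317541861062018153151217315159910950126358616349717539088717550901840493555651476438351754831274027726259531830165809440886824294140729953530008648589338496819821483393571661436949722378341110343470007869485674385527095855051005225456827387289057060416331383009998617932444978082675115883451738470455878070843852182969403473826417550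56848938905219654534319424565117182222971948445634438217988100771419861667386406149295683420506222204369186213295410247815042034114279217415076817234179455064452264470865315127877926945858754163847477624830695742124315399585639214804632655350994288106632915042200286216033037253238647488004718822463372002205208717873920386060458412629299938819067115999742287864049480740544354734340651143061975772856753493569532508655003215806874744333563949962564465180384459112866970718707537031967510724224055544227243150507478808310892252683212752406385564270937715474937457406132006965971531489177370197992670683904123042357113627833273685152811165796739684743908084750396375968123335579702659414340963642642599764572842118396350814791838614903186388674191847938698468431032114120724209927922960558290238594516923323236174825221174418489446105289911749190818790907869959989867730679538695199210991265414958503171447769010158728197313287671813421407422219538612069638692329768546712646832200977811554336833832645457193426405673811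70839146758748660762317615999977379387462100992386717760280043533771399778063109064678423179663616073405733935884483479007844080479890880565785963379194429944294917629247321209069076495239305035170910325627934577848292335202889424884216555893926954414932229070465790751195604153518933297442022893849544837211193111242282338611148121396941240816988718480129719562907292686666234533616024093963316956933339981251658734908989739888142191096086645990962985280444433771145790328577048667331895655649460077877401000198449253789190021269353516661142159008514545194418135478626143018090916940739083825705359231282407203738941143294590647752484929177419874409039968202690207293220328857598467412190365857239186143343985459823043937706488685361615636583775622880894558270818007457806703194150155906422040889805009457511070398297416340258936553205817325310321271821064970025107298198939668388641835655328078560446128823612341788428299933151875549863900781174151218669696883886840093847335305502992734295986512574780278085424199854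93862647832196120183979101124156569205854997487918460829555583405173507436324880321670406146581281047567405670454395021124094716475836341059226269862882751530636010086911122187848900831584689429679405211194942715255936472189377085683672222926727330638737333395026762432847463942674052017490952319795685753729257012993568564683340139747074847930177063649647228652329613232407577522879668164822513726651686160697646679450367796758781907011411135672348782795736326998118270531204164757433220516306061154003834611244425713909311176183797718429479193880343427957113998805489702112263921630821163594126999741233533532425805022769191934895535614782019495744125792238872022067897022446102912073951714290590585869530511360932271143169012387486813256842124544235808820423548577719081205882133015327817891955919760503834619934523277325873992948721731627285809435037285662531729398579288088467507309308223920126151319298352357710686374459462377642223771167674493650688127248874183903688533749966423571703626905649381960552513476817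22107883830431379499929279987061006513176530536678318798059125271282728428270276384617608691295443744382279134817603289251484957840859964237956770815951505878851236030876155047223882444814238128763038985040549580821827473619176607801058254660334045538997532717084486586646238723352954979924155038820568345383039888597271575105486480372102465533494605729514076307750538351119041477523725634513382679557344799033155283481385723805638678455681917175221668571888135693819803020384503812732172124116446566674097303615129114026501648798627107570324137819995442924832303000785262018333863700073991636501232995562710995067357682291257891632425174355822605324659295509121925864176294978840350790455167547345322082518442192312449421595691743526889735928154132165003971537307887185180045086569615566533639144196205252409536780056917985479257770817118050916899627967558498682643856957607829235447741376919830216446682161143284748081824874268140150238766116559676128718711980379702891501388406439677659479595972368572798355147289777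31025308667238345583202496870074628579209688366314299767818872619789884656880882608881635724869234097515254259190313283900626361503358020010675474692489565807980269099931466537249667864117795003599937710120401286075277496238003778930528192670850415448281585921982420291094060896475047507540143889804369896223383592319700202079095736778513224442637537367226126560204143461036379397889133488735452994293768046403483509688799785630207726063815634269389394033403963503849973113739511586551380765802088352333085527014907140308016508415523789037260960049033333297934391808543505793310704433026370442104821623990646463598559303848240420604531297660992034363741467549840095167921125337880410676858302439898338297291447787720332516597876565176698809886404343539339675444804800658833406055077677716398818336683700596209931699156944387820609913028457710140902423762847554047610205914695061388435364051991747621989583847459397383354733286572751951613891782016486929919178783975593081226686120549721138503815416231272342994986976697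23006095936906485482482822459488894601778017746491626258546806123195700674849269572139508775651437532319501821744450022629986728428496296803776023992060465360671334306536353916029488785930738474205148063902351924568268471207627268107062269562541000303835229674422362235788588167989993810749106220479607892778966777148103874515757450236917501500660428063708531613320304458072963458500563081416523044098646011474142004032395941492136807606039403150457391010337316864347296325061594614353267761828215626186245706309074426942426842127281172829756099161985452930223050261394059325730057306637395561674773158712559169123698810312630667093710108959127538391826581979783477012053359040681624789650581007114689061413730158672089659122515455350505326577166074971552511177691246115581524357997788181548919702463033756333340621787512194933899955553546882111701638666993120858853394925676835962815622208816651965031623463043750176908899676397740049742285707111370310212472410684990368818773046907746922420724875617786764787379881062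24739167841716464083057665696946492105994048097833158179781573697414620898598856072949372043258305433903366892120738321179714378733122511874285610068850307256652044628514348528695116129476100424227188109137264395109726161845266066868747948924651182454262556541696198728510218586607129301000812747009923630719501754378229845278455163519279905141100321805618458320193210836291891518576359879291139391742683073554777575333706173596583787976632302486101485412460232784224356794695474759127351713174516135491360147743493968168332566718032229582248747112620095703977844117487255363679221455177583520839344118337780023818876877340540977068964005377107896584778657914130204444683923137646364973927281154436877198580617551295609118955510592739542377654860268232569056607553417414443909808655435844395278361448640856186142290648602044988558663796766613832206823530237270182623305157986373750876237763581987478374470914717443519242290779076603974765688124982295314407164853012352695866325569655291683447207580451356385719014942427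32075279241242663643905431352048565126347111894832695818069945114611660474996648893662558403352595084283413953201412926043757172628373843987845177282816421503464073627224991262823406536188144461525564818574986801591255849474592768566933903535149987193342208342389799206521688944564015430595603762427844949804845977599946207050707042911215145425595287594222998604626649578274978155619317048643731186279536078981683500801252600444329068989877166820823506739118534016494157463156430240810715094298173432848907459028446118678255382809965869413996036438937262135999854977123879279423684325423825522373310041047111654028059934350127055102647626638229738590975018193199683495962209961686027725235548824312375306947019023635637666232024953205712968081943997895370235977044694096864463556763300283817049241367022022984450286900241378956795995071776095930988388984417392249234273836515429036116036102532947289554072205605907052731169757418584225410637459191993787578838409787900854781879499498370257067481178875263838831931840090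67197476540279395373013708832495420294227331216467426707254890764725998931871623243974350556426106738104574029148717223369437981474217800874086323084552026704630390817661979748396602543137220227240724883095678040972653900667119675922223234898651545623782854107011140828847312566642701972960484341996688467346514345657344400413174351315725885138809314698863829451246250202969024141489922265764045897384444641386151467583508274435499771796833764938147930838333206913613411469310598738468401919575665016163149811338810015322689298296385301458465069688852633457063657336672174636314098875644307745348522544676116500632351753313045457855622781986731287243171100436976201893264147500551036898532726111185819316790873354487038793634563566671382768666964403296651367225247861716923399763607374584519689370101743813081787484042709499417128818838010429524176060143605683577390364543630369529705331782757856238165590031010808704064106039954782803477298644366161318577859619827569846937979746268514894727596973862348196274296229918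88195244283279375361036872130915089391880174181479062025579787053269968306219029416393834373355852979514461961733791008239954251818800381021179557979728307461992697467832861675144536328757403228878744498483217938097283763270924691247189122129704696698049655183492970872445376848125961676269282804388645944332499734579416464068521003040553834939058724180647970524130084179836248926559049915513786091100022873072922607605673468491232398073030628406543974877387924021917473364499964816012865390553482096240559975569176209922270015927164630958409386629537354323430710251384176810596721555195680387142246682902600584723124430925291447212289884407062327661726146484356792126673220817502486106037557290166354260798256718938771994976854346583758054658926486544915835506403584034428572010013103434733789563998857622586305899618756251464377304854476812486243369194115010230823827326532952127844510030729160406472412204054908934946214002777687893231277993268349069336781750079715320673224902854776740636348693138326088989817677714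054980037620067109272736873840104540980470472016324107114514124495365999740894809400445194576199698971021910975218590872943026576325441259346792116916066661122662707262989736793460098308985291487146992533156510458347078994664092635804497099641739716818328171474538716460053237361063027014029933004942690733983572236231382360208941531194261130912150239287325251043711444090036636390122159462331574469686756742293414842773309162501325875446383704950589531074074926024601590925212594997507248040141305790011504217977004995514514431511143256169476974284187366680642905686830473504295083271490046586315299280651836375997600495378690728686415663190173289525593755483355439040528215745719130858170087950561877661594662178928829468771093126633444645174415659736210241448519202668393213309240054323614569938984211240231078539887714455523214988648260527701674227921637646579448152803137028096)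

noncomputable def rc12 : Nat := (nat_lit 2234420744635103734060679831693377088364956260483367378912172500828543112374807530398249120771178965813825585376877980703430054506553005631231944287580308490696301877232843817666481607449100917822242330100173850328803935282305220003199798335972211955211307377321422738082578651704424489938583178430681230158960313222970934177350880976071539487459501059159487328266883491063250287152783598099070508727844017484024152172715086160881691829340951393562845368209557161648750343527278312895096382503691303985859924674388080820482186591973938592497291375257957476019695625428130084219260256951758663738088683631706718628189226183413048595921009244428621718507407478510449602918599242831681113384337231664229869437857543594024342584291975754687120435170039725148544793562081606754853631390131381332230420842574454730103303310123382856957419533301162516350305246235301835404491483915958082216534895296030304512502241419301407262457534930165104784781201813955358659466442707143828007704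58818139074178083768202707049784129827327292448148583606446105274128197645513478664046607255270630853448810377930996029619810372394678219628142077790704824206114943082147348368443403828472487074627967999768349376346244961627709901349515559212003218717412600447148893689274359757544232164882604105304239150035996779051129383880736724566849997168325841641991897066782834723631384037066702916011926617162823045503869923061694750218954378936442756927629096673761396569542816270670961768789465241563288195420251594303596367180256676928191820110553166990468705023666359136344651815324084777173384366797191174721366787055928589586770437889354590194902496105118303565339692754603266963164656666355068531484163320598780656860570978160711376620365269866677188018689278154472973111585059687625358992634981178190632688926926511023677102868013499644690669944616451589071598573391178758453283307439715804354714183933176362144210936442320222146808061512194952332146137776473229181514010796874536243599647398764238467815385068519256927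02573836821678718886883315308227008084830943472251170838155700967474876948641129733787262140922828527083062682093666085573645474388369961551265767508862785677913028018537218114327465712181405940399879588822354003345774235380441981307348807247082970393517499221846278803414387868738337577957813927129286696648809014659587033807845477777787143542737247407086665816335499898105078534116674482970898694368129386430549215616656809961767501067562647463342240084701345691918490905357033489719383298475535479196548570994535458285417836907561380837483348853615059094872631091105760944902930686291542684946390314510905290095820513550713970573354706648953427009908770930721541831903917346251540876180959558113449575758535499130011670581344802749111344355790293050219347611497258250037783002448681090230102402561678608642615677410009339628567011594381369229846016576540878860573603124962533361903324446396227131991408293055086099285415291354859721979604097200499644096920390352196614950626379439188440075367098739948343582452271866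56921015415545015609389598822705764198227482793475234483695471324181042820577583348777866831714473484466345678514010986776447907579815047874423694853278272790002098394806256381012048447025720005407810439487709406944260635286312769790618422071001677142014894658505085834322845953564677661590020075987162795521946146325106441198445007709827081153678344044147450112988195154586459675103796191767739856094780233227103303181795940538177679867041701796210904124496576858038970168851363187365548583602093117734665950280212926627077695608144356129866326777847841230461298711003643495317352000175565107476539393960036125818934230005432447774610971173769305644090352579470437473633474524987520536446333970577328664419796063032862575969054114012544649070645714076462644969870273094078789215016305500201613175472088121264958962989475162009327896536438487080906456753863212533785980525086265899612153233153743468285888381735770525977147760961315420970515127094695044177654267765404437441439982835502886355756818398336064524455763135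16607343163665508873200444957037562954260231814519113985053382758355253943886304404459635338487110942775683468523291887289953231511289991438128754851319579808131261012359972039489875991212350584110929574726203765470679815620334740414193059044902110451321121230332903170863356698236436847171454991173117286448353967331057446581606601923522142497709612881087258249102246415739292935616110998347419602963630618079605624368141375779601869361491972099481635091921539850128921119653929786316033269077158842985861847078193709027291308291198725581163861049822284555030095683603106776798567094075243032884622039931869081923729104448226667333653694479995873660509525387091165979512720419566627249609540177166322839267007278480961951317866418963308230324010908986441033434236762092960301869235639725325270288732412209371626850690094473381149608985200263118955740549281549115706111282019522018632246063442288633374382289609970724428894075476472813734492413955511916393017342487864798901783134341422255296927286084754384695744829931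58111906138839972810424737921307274172294159353127660535238138491478297735418935457581949758645252928208660206590126765964960528016458977319776816185582675498128489844212179644118602037562054345533233525231455199835175141090830202714600403367990852043227971549822564186824497481145461065490500901876714894474271980701644322811722674587683357429989880986253182443905178950202823960076010279029094221340899515307695403301787410349496237842313639213075302815362583579277385950204225387942163055148027145845999526951325143609881555102608822096623089736372010618750413408786206369475024102433478485774625947256566068317991795138282503185801967879949911329514970632649375236430362334439822541845446683374857438975523165211828522191127024018543794321435904906315420782867775812103922835599285807074911269689568083751534346654280590821466345627031503959861996479115626955986679517172039525519530004477095457063974155718840312500668728900648112719564273807504930079760167125769002236988873548373324184059743477106011682310456638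07374289644018458425884626325884484132559595733491176727290581334206717958408386563993448537946839457797869769690555184288819376197310926452505530690233937346741901966054540306745281664416844049297913263515024155267299120601585898180467104780535532182515012678295337037004043403729525322185581045590353594269614314614696327486604404067273088984920474832264988184011724568989764547213899947601699726461863818647173805685807677696108112463554219465709308323500065234521063787075012049818962367797283303852401282163137011703565578851268702401496398127400124973537911803438341108765514765885840325061124700507247187284161987761600416754698473353907441206500742590715015861380943357135361895424850040706246813377249417609353527508607581186465568493010771476476148247398828813977927313400980558707926679716359562064906235622229779185072388018919346591550863565009913181005989507825106810805617649801339847697808718897101457708672013169840476032514348095485729444430325277305332539269898255507571056294186619188263598657558556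28238131981972362805419424201685441418993732929894738841240018276449257372469835118785650254565739692738668938762845187632751320614660980906865299106499541335472681132293858413230537754976315502265822035217478235510010654764572254975677973313844998011526617614337522727774623053855900060109114675364200917827839182171707655714766689164017136761182427784467469614521057488710959093176896476958202878571717663894966688972648494654575334589363398866782465152919713393750116683826885388317486128805700048791600998117061209215128032783276941947941574834962971619177900667038079202356673789236942421847335202465834146108623368904642259771448011576548732431629884498913308184147207594259578751800263656929192459719861461846118260095307747114399574214074140582675751617313865013713820158275898453729997154800364034142773605223784281667227362879678620881484793746223275707927033325728183801533849698654142011820634403893354267960410075821842432889397849305768033535380476235062384009002093712141186362518056410025736805644061457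03596196873558956888868370675744087194759081403858855102625754715651793158755260143265857097847240930027469783192036007753443002614577194502573340072980074485186441334603081673090505634573730777527048064710268981157211502047931450532871628152258638139520566332913528043781283895893094289411427692294300889923378362299675965710612022288678757918066668792028139515525942023278544887276005069712759149793376950755074182157523670946964154675669421083806132011696068139207347693516830384468799446778697277215977400188837662866410421200806469952673286453398424974357670463677603437318636656670231406056343456956712257907152029317579610667021253871474993035120422725313922868868865902542037857162081204076480948453620067763741336635841963266719862136269198953394030962112672566673611528282994644070768189520626335581008548721892112518143599376334011981967729738527226756619841152011520529466870430379477092868032798906375048874311168980717608725529787230080551636147882482599268930097529507970786391881510149945677651426291967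21649246481336104480836972780031489748966735556055777807723051197480434292577275904216172326241349767626850403666178725857006227687804815377943519108491413347125813526669931457514521918539788352387506155240489573704988318581675042063394626644301158168616458794067810592026821882304096752029725842030276291657007878632860205966508188815007708915311323115870756162405124636475037248792741354370520813135865891783893080370104916220951006915344042657598840605190403256086730067666973644698071519298367996632706981749532873510238756864555912144579310332370496295169637974471822340400239430109731385959199843533349695350801343222362193671317926902008820909856053448176927148708851824550125697911049675905102415079752537574313756993113142013191127368277424865461267460915784867541162772520596003210925634727873748387377264798716806798698511643849699207822770949181922914803524625903736969868230475566923369175112640570702948525111230470744532545680703686151680860988748112570611677339505223609247280137359076170726567358894481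86770130184106936002668364750779993990880783205223182926175277820069496296097725984617412945667579885543493136311931127666977182577169355802055275395822871806401003187662253528291373606008841359421266381770685884975725072466635108084749215588674768168517475431963004218039344375355548769378532134042052466204472859188502436920302131620709615350400221624757176620988020087638883944234798476608499352543609354862791831957814994060610125898001813109226664701193289231606273777476651167087626897445044654780563828531837562121453287434119946956638124864763121557952377739525862273319820821821692988338184968000758310936781521659926114198985298403757732103927126399176767458845287694200872765066093622445669826022897906953437727058217220057034447440390900661112656469010778224190738816827019955317662900361164033009456914024605358226290840685634833007442327199429281391925430953992551986718042039180280184921377100865549729358485312236723890031839910214706594098535828605199062098997418376005828350516541599305660738220894521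71151698568603076437981933898783807976308254206745469770466902178488407923793857942552031755322986648622279706234281614856481911696337839686165233902985875214011366290907369962143443284981717430298213321156446606379520844621542585241661658140908755378100000616797833696207245765098832822163230812058952784988511975499281042766880571815242889809288489063066201452808426859760546808705063776608143826378938901317908685981391969611646300807987324131795962786208779658718491083963734448377937632939000210856264668283046079777874749548456236454081963047788785704999474995494889088217043539894498563516202329921234074604260453839011449389748809737132958350455938597547894562250323190461523656718115740931814234307296440904036231804286160405520118663660954380569164879718126424718337816100689912104198089723430326542423817749917845079713607391614986251485645689596195557853020931331611047103988730766228846724927625282128920149013452640960073859507362357537353422244685837506084601233152900278721726066579626555571209673824477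26060358289021234956159710710846879421011479181732243123661339810988908897786745407701279265820798546427337065165032539463628183962494890299735798823750315193015635562160078707987676077321433521144489056957928967647915272314111075508472309083839207363724741136207630791123159075753886114214855740194506420577182352151669486095182283731154364134445239947847191853752889723039045924013259008645459507623466756351842269398101038423013495615383751925393662902985907783494931137319998273591797814015065102974804209687362288406559311513699519952412036843301282349223781693910840179951553891256838657071941917411144589058141691996215921805245526532923328409306376928639321927082811298052897197049357443812960609561815237675921021658417671291835995056534845887952907108697614247941133859371088155478348479542971626834156668256944266427026868180169476097858031949191774900432333689785440713266728425620236584389490057995229885110561206015714955008776201862345405995013155073365197471144364498990714949948980020013584554285811880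59283417293255350974871619631376523106947591420890270158279993370673747901274596201818951038632391372341193199911290259990865645836115968053035189742625640286191488054618565367477706642746365559732898856745297443189594486224831164995960289053825573463803057778355653164548630721175530446986678374814798463726324520650976638987198911364575880787695652439401511619672760112353054042526654823063054553694128753731363521544958940088238273809493287159497577906782934298138856488434701793470808595446085683292793945455538791905063817576193700506194601539701484663744132317196713909625758962543700587824109343442402241999091000019211205805928349800406207692468996552254739956211497300660075901294191636680725075936469837124082491013410659553186378272004742328692040179212669629972205694462794709659028398621093553387181548006607156479385517136993288008371784254680397500514900175673632181787115578720840924831392495026790407156649936969521353288044634432117792150965028351885007765719459173213932576255541696364468031084852143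59119752827127264162833239541670032808004383837818879404170175602768139913465591280308855517096970830948386302378348310400463358126009322979754381971810720837583202216361758877072012472022218822327526352885505125077902428194169301829036843972609881797903684506265355565253703773515383857913101753294019264484264955335313225945951892057093147623581453136521532922797535324564461199698169774601356801636734873859629646896386715159424187610771744935738109444180971762831917285950215052143675656195416111933393600531712608091814430581549377246288180151122358994576704081668085900342829911849129687693221535623942975918206787100293588448442410303966947409992885518665686765503112428938096976011743415936825790690977617109041760805528274269940028006245556693630257449455233008088775242761836690309489440563491343396025961021341985930587196122436734633170688051789818450543604289510358440224183941170526621284257881589662152973419513527778368817316076523679391745200291252670327596553436450722592611021264093380841303844701473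69891043511468229018005243391898817826284243165195650446579355054662818302571879723527613579594104409199287362976575045274097634436195250848284811081529987377355268776829392893710208062559227985012661824542161396092167547888491511553314620137980742417855567482384213556172161914736006673744630283474965012698693236538471486544919347696097031454646665275553791712674363499142275560124771929290028530717418219247698305733692439409859862791190486401059694499868818398094189001989550946186295011890253986278541677487861129878435164467372965519229800780193383426836582803267734476873774811067790976269305330757105942225911735689438619857179767937689865969319792610180772103950774060386085361798221449230350633882732086376392508372227807506899549651760541891004368067865701738697875667509720534243661363690498992223301417948738386762815829282587953627726133012025764003089651196724627437667999712768643266651501655712761922990631246207115684724411163365693278248805516642110830668920111034963759673800981443671647372381695203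20019449444414503566772303056259652996125241382781970694295776770001125788084175818057175200375952722721296969749398242075379208012686573953032583208331348106244803672932519282314560287714011830566706062062293167668292767852788540600802988536812151207107785591415449035574839014447173224885169566209521767022234467308849983433728652491582447177972486134588318521289600042538629256783392658620004251443500249505703322595245183130445319850152815829126212676485590297913544832560043205578477317316547640770752999308119159001215664734416974473091961123142200258122502997955040191423825139313119585453863204531649044890372015165955899201426283108703615874964825271255522905633075646302762068386498513487571421925102603045373748199490422218191961771951251892024534199990902990729440396716903939201754999768309032097472451089281857630799913889715198993396025119749826941928977928233911862486362712233969588305242287894369237621881358424420083095274698519674687687898581484592844183720354049437707483970673312446445770628232458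276264978333388939961414783944793384800969393956402020040699099952754991413072849594601084812999404672956666459707570008777292183074858779968175363336849772694970856950770257309765205467744001086678050935915304994901225036480124501669016433752278105177427768379058535564940326142578966682723994659911748046103097153663341886411287969291315930442047699920186115320164912309000710268563306554530124427838291728805405970225650565537183238474521228184351676869796127326786501971772006672691869750933510621877723384183958414640557662156647087833118535830603380139305795664811403620956726082522510693188096227348513341342400501884805746456736182635037169295221561584247456633586571744031108518171426258893477880684619134245561863767973494997433201958690461137053090766356660618469566415624881976638853001358538264733061864837582774577434869784609670869448485810771288124383733282980757504)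

noncomputable def rc13 : Nat := (nat_lit 2238506636416903151910089836105073512642043369906649035470905910571261460187478217916643393377547355544626138974293764260022800369984948412254989315469789758469073158610065314230761466251932164824954826627766670611181607374043457211497730877109363713815398662036530367045796233893269220086768732666355711562587453926484027693921292820638733819853430371024403915593470378455367039275357198659195338156726110953787419620402497310382089603581669565696144372670195932674284265258232820106734358643901826915023432251581100184531617801219795098930434122203736780607799823587656834238084902088180474802828790423519135984013869032995017385801394302689831546807294261049730662544862304547443919489134639115773266962482919044377714976889585486930674772127580882811119682477788725625013382851082227969657393675168047683674016973597777121427325016761448460789139063795692437495838026343739115366117685378667158885219371665222323491019351547602093924295317850214245355095840647596996832494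03002660921933967908834338983095895859379637876564400510465518586261781329122912090848469387100743527927946579775956957927913324401079223949650981382349099256496797969388567023987844723766227941238017333042029441350736498489813988322262016285883417268163430644503055422067239488929652336375315619907414564676665432002241001986038099394900228527992138342515428932929394641246139408968604386587485276786596904892055713481415649122806963925040619686967041727770225787880332843006097825937035187217594096075393658208524144271789686469498608134934066434621695860630898755258596939122160426216259134394461031844010121188715139676081336864016977311694810597914363941642081531988783215354096997338995554640168222196343025813697774133810933363513145191235230860953375070307768812468141184964706871575642773939181829998479826356812684932456382932099385749971225490495088532933967455692404207572152142405384381221281508505474727497460318585562683583109491643185691497336132907282476446162419212906476703372087729749202951740083796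74533978229039695919566353953658172131859254426263847185629175092251175301598220857389754433338435243295740117835845030110570069991067821400201501787245556172284657533052514451896919029340580970573690823078072153992568921815250586727703949583125137640564745226376452738635963680928148646485848757777611023646752083661071652584097331572955481553283890910161935921968609008848476860478804440282667052290991615050154242804966236491021688002528835696860447029222000660962133216619355967919764038334645517499581553197825518782943974353796448556410363764657165388193870257754790936715963589139678947553888040700963925223717512352992397533429126991704673703882508491723272152313277132881449001394123771473115952409030392897830637720859609968696694541003793390842823814643568624055243382203049713558156981443940022346930355831348906825345180005119838416387466840963336847097755437503646128564473095730185380454565307718345124669936477865640736575269236649677976356775233178260702935413112306524649818068329688664684138247548503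81186920563686319415913327411455234393641136021873762616035507556400758388174522270866594125267609816727836711885166112410805804861558405053949117031299151079240416028395183942821603584990088975768366903395470808538515407347139853220302840179890822838305892225986257254728845344168119547855874765381161288773030895569394038677355476509749532437470993947701026648987542463406790481309317049620118746513259909432988328315503374724243160403132068871726818505223277245297979282189463306057730296371756804258029041303260786980976622132337067941473232331197400411159098795242570201557041447331710917087597097904256990218336620829061129679558764080704027758603535352452582243079796144456734328774379572730344085617356933853235552482715385034656669105617444503293084820454186990486616171948104507986770888386361717710553820813580180212526549242306451957031399178519654981459218655546660128673101853414991796441506375040836811661903377257012528660686237303921708155785772601430309879705142828754147709920242119769645500341272670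22458235862213108136893995097750833524012522899426302187026438411622698676106801773176485961287181891181840624093332634421461198936047627515884011050467694142504124582797849987751493335310912151778349225573482832378913957375172745109102279607524222608223617004772691722166398400085783568365596345866444711547378244969629024875424502337024165902027615957293904257382267603028908614356515789680923643377520470504586353610901816626635436327097588223982672556949104413243847322913656746247585506051414688367038145425357475826420314546086402780015395465355236067995023562138372843812652207248474413823950613531731085062556421034126617795084597313683440441119787932189820405231280240024629169098187553416245713659256420482041426237071220274397154909418180852656347966192681490472262756311680154669743303466298878727828012914307321003929693772026128359987556003413926704017868416925257710199010932973441784274790560409304494058474779270871788503824039088074264658724591381078079237618540434018824965690860885708179920971547134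48291886600178963744156381739432148673006105507646966279092424658348456259966517100498816243771820780413504330897417737341036888281238375704046968889984317642117973779910704751824703802286857727172756284341519252888699613780166911817781394414559620309162914051394519892399388503928644885742836018723957688788558806163872308761130300781094007321486213638080078882030958208287585573955821774923012757575150647157364437961938209230851053410406514121157920839849261910210989990558262786692489171134806402866462675062863450991588629389323153555558964641313581949148913173301711804829544825284041630052574013698961620752381632747327918614254635739499399653809206551930126430562950617635950457853028963576312679630519916917348271937945251406547096445248749615686750161017643482006014002846488546871131184072368109158869400930583561551106365495869286337923898523251844597956809393882784002247806209902816629745059365741590564686577268797287690634101280140356843653712941747860887760506748158261251925328803597870532965572051374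24866395481883082190986589190473563031977701925446155941081665048787588547708659548470124821581620326797597543023027274907468864453760297771266364216974647320769222641446815425047736917113654385078313788449623686031538968750396897384518187616604236924722238432024647301562563336264329122491497991023153369717503973517106956816315034421615239289780665735985314996730820545770035010266537126300146586503150362197305377096011710981739784246758170202387007530401696416861788637125501506276010471436833062361466650513414105938558140154498958001712261852873183739517159077156232266631706198182584501029204054232192553543588233077677404740657307698282732468048926026053128968406471690703960662533865949033673233317408912683588625959298736855394188583856462767155457308629888411541334756029724755700417450996163634758642712173792194584812556689843441904997933741904897922653824172598531797348372599896463350111623456057563738730348186225164909222605479705961099648042964231175302169995852670768974247489662132686521051284286167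23485098310038886044380521454567550800336718262874029121832602045921574156188883959317307389402162709949574459876866515867934937473174592934246234831686195164464916217199419251962399479324058183362288574710026430125449218898596717618779136422675398606507266299271642195175239559873916181420301206070111080439216203021659527027106563132821356526176018355451606885142564489053642538302204685241552583986020103530705360652581552824432698585654421669140950129510853229559638720353724115568440691475704166129213764207477760437375212034050616482403030240962119072365269038877656567426502884433212243940052236715864712251333095494018373420375139702887265366838831180479745279778277468525259030265505001179057582864609208904256914920188838586082607588882574954769951057154443655714284552034671446759869597725857072413159677587501038020855735386432239970571382693490706079095378715751136969501702805990346062680605659897197456995262755132886929185910159566653178361497235308759423733084743816134510141783703510353750748422519252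09477802553158304220127079557593184264171544305544611470884479628386436250310875976799870416163473884362358232461353117516741272296038841318892904504653763945093876165919002370725165593283858169007251250269989845734764007287382387718434740125500515811278161263839218457711117850021701200540631108922077827422983110871275435974644722712139237158493898945907937775321416250182459976509974019439914360332573580093799521567352029918117816033373900698145019089365996504691880834484035746378779409823156760194802159125913023840258219071451904875539084115534391156378181315659575051437404774768382237140571306627304858074212384734094048218079950369619353829599233331084743579421773070189288269233493393869683135795018296716566814400192195459235747257835051944274394538887968961958025104314054048317782574845054262978215110995474813173786073813554372247392029158180546382516117107513144466794068279586523147880445733843871122368131514445244314431221492649144395175753335386187361101115253581193660675675893579291447567692682900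52112237832980459225692833337204838011569720512543642279162052638834203062388639257696801749800428156205443876167894612623108110466299723925233819705366963805818738926750656308322413273555981912012503861732894507802476646228627997353420463965851250368483495178640526926465040444918496842344743519964082953572880532595551035462627316150086251630781461934987626137100962339318090868238635872274268108238164964488708005697563805063728602915391065235349519966642193231884113612236448504077510567742551467413001953067842599892037922639094778579195127775165072687688417335123377917903836424321118618500139770715448493601365076556946212765348924602983354946052338809107042840468587089188143655173003931984566601037706392013600610153926930749520586277640048217669479849920452136424711360207153487803713919643869626549594291259304534725923442423401940518731788547142660681524270070785784951983931021708737953312934245657127976735578622739781085891716377422163275074511805971061515292215597991173173927638293442170959462332663912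08615222927783223446646781297285972625632845099158637808352891788726883280890790995120483063167319707311774917136907785450390261767005457491429298919421642383346424755670970865085448211095865372640344881806505399163260472335273442862179387053150452915402031298390185837275987629313874351212857116549612893280814294319028828097138535246135334286676731688124627571224485833948075444016599192142497326621485110671038161507756236672119094929944665663152913333195959915244445184879060717436820835616221119615734826524865840773481949276312681171100904135920752936919321321603260035997253064964179800725517712792993113724539463113497767213410513659460559273276813198925845180556185667560618266032330103392242103057506082367687896550845326371874653372728081773640205041891304307542299834391719742905645286891865219896258968862792059711668770508140328717270243722214302578835838254378350906254245326610047548758144587795008604877379855284934240982643513272500075135547765609773280553548771388009885308878618953272663742553065295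10441802121066836811896642956658984677432817438084970969428127984802355738790437232011598339658350559841417105148682391342086959957581861318441972341356983784897564747341158054175191922532365056605878288346465436165094595078519695941769819118283111649938834112304927090072422192762730148288666805706439194402951547444396733553116893975729655857601717588747657071513200243808761460968644450569516861395407388194955189632495161159851527310963508505882738287658699534920562756714063707952533491436981522688525552180108895815313925586831670844871448808754496094149851215021124949842402662923238420527834685656010108298667720040945901383035978874491264728129471291193408023859860279879763410790866426270133177000950147730498107357783507268541237554412557568386787486421798244611418654696401344594490153822438722512713935425337037944451467739669182035573035879136745175903264758248865716128210359292961886347925274024867614658939322337419049724743027037034648400978556173751123357422742041354558763192525797550032284407714783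25564216481966104115027181308079092918902731309952688765833666878659714156189934898624407864119299062198926400867343213121849057102183706261899510070500081541307947694117255114888552296153996405178835687883118213064528949125141380462475864265507851782042071967641124839823691241226234922309223887632329016107851048208515894502820594502007436582421848285052417059674750522162686581440561028620201475048649775268206238097983719982480506795736403603098968860285585205156155679638302637690691827802253995807788749747537178997427601610207721276655845737829774035461424347126122118775738954226552088290760515454656383217428103753695900517150649425533402541082668785692310380006277224506185586939556846375640458624408431552586518831498569739126305645945968396314785009850863158661500258155484332734384545759095824178847530000338995280515468098890657465710277257810123955466466035304551669648952100357409282622266033764425710153894744207303518592441332691550114668743822252251364294087361334426493395923363706013538650923255677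45354359095221441997469889605311534855862059113241051943475466472227656532221848483810948724235378645488951727921692796926017012152527082566426980472277628807021469407871189499852926192510911981327979581066660866847290764189786750463031429758133967532867623456954611651539546368143686212820202416638190681709359342946484649698684692049867217350142356812983263256906809030536332840207690786740386230484423556467407489897441470795301791772753273249703624266568571825631541381433613962208887268116073698273470780432390591047107577794741664880809148143341073152728279058632702998603655117740960000316042309371868051926565427288816141688327763457133720674840471445005222365778610698106541415239389176136653029538822791584044137801197403417939943546226586106336972308766887386745118120118244213240792118354835883324897180766137506145224502542360842225763428005331303215972041898914805529784809033292530543695801968741179217987092617771247039948101234984999729311961012479675979388926760227272805985070772923981624628557257128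75268208281163175215089431611501597336274416598341027918306106625608005438427224784589183070544354175389031846425873711733188408022661183857199981988625589610619580482562565529056770508374089107914641006944601836955655603839874560302414277651973707285182636253742264195501806900115110124532893826192790930109588993685523063838038553830134865928312443277292878814899126268414153024831151072292349509134176690108344753545952780813057419986483466727290362847476325654548614950678835348796261498489656041837269110813873590544447063454462299285361474897054494030868785527269960206214738207748686273907443540019613566999537336225789558991005770940390447278779176588889769792227223062183998841579964219988360276682162213298879159643031572288060501830891915892801780162271313071807935926323128773652268798951188130955611909671668623711536976215394913846565980764575552201911017143710801994629230467099516060586828276202395866208790457542899711647434898314000272679103676118030313018028958073963008101579564718913830120770808091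68439199601907696070826851053900476153717503112433450971663228040332978532899526988774038907678531417628244954572021650782031810284438909370031987042425148366140477746485939731456990603597624158036045681890861287694761221196321273640470709688895305562500909425269041150334429371647723717850585278510406930959908023213222444786601452734085872100635904216900203665404830386953344482393608099502223915084967232478664972275251882247348303630830557342237920065541192442948733429648974194235263773086002121140413686921412984185705098524582567801385143993929526535372314387071973252367106583540259675176542269403601685752217177123183235704118429652492199178374337765740009309316521412419957496424429391565765711123637959762785272024793221695475188321842640670651685606385399791667470272571225779258029686147762587634942464316246806997874647432708315671335793015169500238496453040090219827190126838715897411618115229704563408109049067575057636031231325195607170605582421830713111901209599715442726358953207245276457644286645443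44249280343293912289134904805258811970806991178327004076568903661915852513653113527482548425662923818795008488043437911279935441184038796329481715181263750948678376380629962902856122548394739535319475069014540039904316330712104963203692488372416939798819248739285020089385559770686717983760395941904294315042544948505756453417131501443148441614159664046701738312223753337342778840204496095789449278592721162569947944317908550746987326385085851278329367819923444732976006023828211726655049383520246144155659688462557519206470777498673480084301652223414995247186072444024960380144006376003897683247352737489451255646994846832772708413832141596581604224538582942666763889964072197703368652286713285688869128352524384710767044458480644537049250279430140265792670480675514500359433593104578605297162936370137897772094933412011050695807546480733764575047276081069199076773166049663140174798793083776604858820307521743699395375381325784205045871523309644094044682158828134550195449106644740462033673320780524542945234206743980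980763193385217583622560207781606942111966483131967067694298152365204108053457193542919307634197866478748436180899925403445428731289672471468443016113201081213851475134154743766069114142119990830822832763123509500714233934198815388996849021385606191660933576212732330007405719202927324816206371502628043040759420721571822904045198070266718885273565031918336810370383153822434781223582197485944727746395807042752909410193619339863966214111173344483394379095143860694422583478853783948729357883763027876514448219204390523977002116931271195872219626923609392616254986342094372962402522329140817241880456289752054124245789185696309887025059317869665813817455136865615207805821561236588232420931236613064226293865152164556908981867375245905044070995934278095690069691014763752499055556983712939682843004679880033888577372243999581667040209063779949524363912202650676010451037398224601088)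

noncomputable def rc14 : Nat := (nat_lit 2242554376830236936852480538047905225031589762915435914389547856846137864051711861804686447987389513014250944867567505364357686069547526449225293333848806703487754465387323695791448258335125213149773292597075032433858838645979426957965443238478046529823876869166876677434776120528534700382957015812206390271254864039494061673144313760581046835238056429141050276736487363471937659609795692701239705904907239114827815386087593331480232247698323995964004363806048022547584584653633454293754792809442985592370547359508483305106783324152398913044168866275021173712655829512018132435086003650110849204857139653910769272975219757310403113976958503996020321740868725733053811315545160308826498477740421710748463456521712896566262410868617329988877367837069564470560389315792970645066628972187852600093972329564889548390635783666744124074431968067147859353986336224148499334525075891203508932387700502205237010132079328636398966797048069663927740134338440663334397783786344235201576099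92845568837341618229506880730271853840851838615348454380445438498065602058049455631453645723733895230753417545150473363335820350347601362970699115335506713339491018680447396534499851110015786903489783210281622064349562662347914271062489294118926535151837834480484533557761997030568476237020570816918070178022680849219579559467557606287379264188118560248054717704783254142736169754742881443941339495124532446433849345587897566511347801268318917266411061567065238880039084769631257453980362672197809319495278791800113073666511363407778870469307066102986735366434779286376285591488054712600397197269347137634857881084153435855645997503583352419514505298826575989778072426229452452473369783007834634502961374874170024295442572884373125018266361893306954930976815017514049785027156108423476584601948933584019425417031260518276739192356338555619760577412562182839734875494575031096060282909823580864092356032314632296740902353527678273681014805837434444683864695731001935925270700588046859443932094412049092016152507784548149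31564093242107917474006233306022776787700159751322574089283108408134262383851514394948404012659168135561952451130813222615048450357752606436496963077884295816959485986635855921973289957977044334828040833427183153548863462306548412288638675216195891830258755341300922609516929995030135599248923276869783843043269506085722522298357615925093283492874464139678253657899194661370149563795196307257443125580262585960049223068637503454828109916962498259506511431228035312648546741629329650668770972617084201380904322766236072538833291817207260490082044633341000600703707954801821902091230765331095048569069034230887690339150659012009607681483703431522238089569778572695446001857818723315858052050996877691149890276012104939539881632182227580141547127756627739738899514123609179416212371295628492077731715356388217728102357648606496919645163983257983330225546006367384098823713042718409429284704044653930602923094741656368578586035260200091983599462590301926919952796929739371304376775427919846290883819579408769063405126785001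72343098025445831823899668826797445615524160312000153494712469939592271542473463842630769869764728800136808436398821975077569345542477851168133750931403991254200638326090506909957990554173071960020475414239841743248345864523142386100595499401500845705317985112054698961819064872354548878253620809382595517382597863110436314672135538581186532853771913769826571991759830955890295460733423463867340979836633822343735854529484815293288008205388320827149048866139485651324619947409771050303607503539439368209339385200852125385578743453951378505303530624604862614788433738869288892635758121909212682431208990815331469298476583476206030407825100312746392106386233096173662676548781513555248229848865694096903035442568591821868095251168322601428875758933419787802817997613545014545633651803709615899848662290603780795390010717235280349046692900961241517487943682539881560722330765836884081410728167670299096867612906328279422977499429045552370994893027448781270111005048044131228736043305606325506560948187955402019286167787485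13131221683167207245126295648121962463003911557415399438061598529558200537866828633758867006753667862448733561392518915393178651469980553491807650822058547325048364667599385473917524316746208464350736704450164652812335828838236479233324604940587449640755996434774075352246836839228012266335898689162862219043108941602346657460584668142685071931488827521218865002818817555379879513950716004529392557892400999964354881944080313227739660724265861761610428302865464168111549051010350564234463698827258983992348435342010136747219638830000567239002266571865001977163036649694507536181442500477780600148660142054608586885445736102849609958612984277220831584983401205615176861952356458318032506294961701671827541032124175207077813115724483500088163206675001703452474141515206469608214170202058160817879673198619616666767737155215873466405581790331537529389281607939401638779658879770694557900016043584755034059440263203744304682715299346936645968678185024848627042389803414171335738552869834469558381004851602923102137053197904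53264769497241244693962086558936686549015226332748983023665596354884783965287608205590273497122425495407471675263926085406307896267392188536128849721232260559562627580967609433270232519442469759799950403578668309349163707685526997446622562179843879176299476267617254342074662079814337941959729842949655244767994628761427256020416636142226349775894555338095930898560710252657273844512509354250639280570228267273935039146042107380948460180402511331046476109162598534203602205342495383099381308144362612633478091313035679815849876010227566107954073392332278107548302292500270227715232789288252018005761341699294740798651152335105955691285946145084988913572504532521355364568800351591219583571987632420878947080531483563779765072247318791496238498406277867125158715096638820104228834048696279965000236293053321043239615772940749953785109378715156901026978728549503322690015362701099422522305360308505110725206475547573371388581076685024284696117353903541339666646571114089160737707814624362713742627140707162553705376120201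59048755355490995871802890794373374643977600179564327948934075484789423328184367373863625523411793922123783299658623125624661952242249021314209236696624423789351549732359309027902184119814156425924408427670459632532142636624358859137642700236195676501210459542252575190156757776796477986859977056833322322424194260754864224367672187452181056981723232108144650461801381775067363522678349132199838107851643989120206495924577172740501249072878798669110362532220551262047856904244141052362040682647973650273280119792705820118977613837507572235538698638332244689523305211836988764182116620500592120578216104210043264640730292914655109799132759705022021809456348219356094444489410940330509312442820697454426204029550259656708436645120821051472966486311859967990831963634745738646802612061859583982304131796375718576573649179644568075663895704789953182767112319583865699736238755428405097542754959149035588349110118368553651766858189076647790625100003611710114270071235026031341222070686962159216090785259242532525994121759957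88784556690587343173683323722116050811505444838595377181601635025817382317634861198842394452785138950493390478904622338366261303784801421571033018542706741248130924174620229642010361652854108675141039780107811587472792615342220972566074027455165741016088717515466393103768893025482771526169827733291104224417899266937191337671355551322763092542691309656750634095424626516170477159246517450637461009809418179777332199594438842285620886717942687068549954702315696981192020739681499751539676373158246067408982662645942857108047071758492006179816787476262324643184112664170878253316432251699415113116599680629593722073102393424299188689824983337178879448511611755747879498102013942431269359527630060196440092713592692901868479368775992503488987860431229835850910296011405508725328905272625998456343225115820666477700912435599446536908275317886992988553143245318648514197657824593152028283099264047755668246791353418969128845855500519722062327398989761022501724913322536033096836946158341088704232292990909384117404991990256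48845412391714241846922643105361983153532406826630368435980864133415702315844018599152810147480610599730712910970237652925960195847635729892094779542036249700049813304757750380156924929170818417696821491887409590034381212443493222097398338565356172423953902941462393904266460744401464109771150071449895703367110963456330040258051623303864084714389164654829027693897083287735986677575218136373081260555110551384357026292675152529655009610490640747698969190600131943583405528021905313894580842330665531413344183511380370519996521913998428308893562173693454401009397658135877507680297392725348674803541847547941347001517886927472188262937467915417094949084255249981318963332048544299477139905517713734634438304968103752868733850716887564878957174817255680593943714520176297608380192867547251190330140161782522087338153793089688997471982861162181094176647637677645018439285289422560810156728938200817990471850880475575835699227317021844078407977436909761870484117364449300268926232277448834973882380117598828476346122888673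06191606695646289353863903784392102454784021329781705039395845707657559948032181040596069853308050864807203274446429819335938121518896805841992581846708458557557134479858721970838476665194836220155985729890639066771159397365510029219876859876481507716249005644397005615368542891339869028000994706072307695466821126507682027924045854615940766408720269508432320746944531538163665109010635685737258668362551058089593812189137624359387556295157324865007073323000509893714929901965637756403748829744481804346770924055940218619187001718947519906849283941845282471319880640388346852541417870826354135663713995522127660569863879396277443770550667550993641403201547407313942923288384243886188509382933593201818898967712510470910539045880166688575044777345348392651385203031222890031389070004208444996073606431333939383398715437899308857687633919686260498313669630247961007771793718121341601847053668442376751229845713386280282717252362891445179356798752878647795241683291130510058624228327304808752790934169902217698960306601113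25833499093556486717010088061885008863707374848649494052110762180652317828906066354353561988451131256532227206885877377805304125625957562382428987334430449507783138282184992377418091346240629199682126700339251287522962086725326600400088150798282165272029380391627334501921815712134498245058664356993026226319524181724607847103581010022556239657398036757663402147035330678976502652648890321394511869734605535706011569530976636775150483077674520645646942347797779500416673618757320361526269229661286770104368403263894292138223242403518407758172780472890391427191390694774297452547625311201467894096771782813966624694171041384152100895925585533622609961125471359037379708814406240170596298842133725069542516661719496875950701940487910817661308499548937741533614584763619345696886882195798177212237561401539941443474327740089345461442331132895487525023128529705027590744544839031883306488862162737419763142184927833723259228532442311509732704065725747866932276141747782530445757766649056479249520082768114476451720396355085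41281183174336552082402814591292361351242442604275602797667082702499044439749149856223144123991812349418044523886738932892478963694012112165219185672055729394100351729685298830126440618975123710688492973093459016092724211832693694671717026285046483801757179084704801952532899614644739772865601110376247287195161546917814354709206054848074806667136978627772405669581388150853517604210558017652025522669058458032468302791296858736350318162744464881280388277182857914066398636585472402563197272100081110341882547208932928487522556346078854362154224175451267627368955392777907108921495489387152990235032342458314222919237916941143228814659733878795125003865862171338849653765059471528208881742956739603876992541148213933964480013985362738550641337016373704143246675864575106216985843406630844245652150829772577547290139966310153036732461632602779784727842418169429639094377846691618731643141328489261455608203230660167637368878618037526504837278213781274613132724543623774268678018717422433747844205561016991383575725226397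49848363177846414413055035703622749546111042696448845390604188003313945385495319299161337899814909989215645033402345763481478351058782584326085981348449317928903071798577307248363900251686680412108009522580221278855598049014165718828429235722192115351863647251121937304296586529326732080893015473352415697653626313540005124653511674114234748034072419672457948744403748607319499954549347962497949903577185137782327904325776612706394221983309876491601016873287331239193460957406963557114753848490347100692212178641815174351482808176406928956380237635963740501338063904719991719676310061111324063561331879204146084928491631629061822881122258327992880263992284241675534883991669888808490562203964773911106940275575953518054588697508622936929645375475144304635110415423560301027544788159863788265696790009592563227185539321767696314112231402300149566529622853587646597797830832222251288741961237066079514562166596692817743769964384349253906859753642574654176776352625565352394039542906077136177458543764196618548845123117818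31756313270571358663118110739758520341737889212086493865285233099473204117780149188087613332497473014617211436414557640243603967346820999666941790860346564376578692518951294694351557716201652978356378984449487179572427917964174087595997551272682632037600925868884196220047944567822162762123831033814866913199782345070203506579317389053071907647350138970380043319838355526302505664283807781799017985375873419786638325707313713314803296821409326112578417786240363878572764380420179835084113151414083229669153392907672334951543825600022593792232608460982606011521366698591802420841952565701533429224320731453637527561245556123977323949961610301674551508712210790703212375819258139028237514803386549871676478947840006444953769390199535416457572190037054778709154457234640701198787242795602747369186535235298978429537130651383453311795350757355087303244035237348812693654887650520673206687918116572577771515068116312850819742217634718444727451761795299569149411328674056200530623692777462245802328875429143390236149475667955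74718721218836392412730122467833199332359432679129349822808369039141184807715098847817767808796496590665684999577045952417703121784623518090324467571927394401765791254546252704807140283577148971001093304710734034657537348794253281511760948076157371909354998752401901634951192887211151510736848082688712386131973407223822481523400099714376641242927123029654638760728481879694657255514432110443426223614469611649516889961708845474577966898157311030484498264980546696706971587610971596611971385266963806853828540715517725551199704505747007010644741218209735283372921092680021798355099008710594767859837813695197071106745716420324169656304984817304745528451561233501196690625761266392775230528867127724227730112735081104831765173484375290149024378234995185784978088030754608959773320324810091049814718529983753619132227348311310450244040613859460318719631160478107833044847547325158847104394120184095027920897057539065075191921601265553930980744571345139927225589295879057442318969229043503919387314964599618805399347650406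48361117941761198168749790333014805338920628811873161546599756010663847261716336879304186762847690880968491732124784098483113103323920108292064907768571790419721410238531524242920634465489318379860620870331553023974596537726605175365461345881108448757743770610710191864128087895517922806264819575101292956472767022940068605594561117082226996764087235894794896542212866563813875156764214733514648526357613311491074776435883598461662894704490033374876763859392895275659626919227649858380361917387253511346320342389995576360600735828858423850548968027814136705362482148858769736192296742026443453452079391131445944575948144243397526379114564998234022826345123432982726385457026773731938488236575878334197159208555764461169483070170318476391106881279507525150712166236769363556120659190905417633228409915729720083819801777519522391157190558920085354884435956800139663621655208726877702731700261495627841685707778611766639646383316511984008638749183800929705179449724684313044513304150147134974351736112943755615173014990888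20988325184718172976414623918989478142784210900797753495065824570476811407604157316289465442095558434167765047173763579548004557636443850991299435405027315720362941628322962301128319586607048331707864312967051679282864348027239817333342487831738384564276950155764027319135629151082198950091152482166089182978646547512609340650770812846193133280476087948782179871609856945010693954248383521054761017033590252609322951088855560145171901132957132843399288232218368956050500395157086881573358073681729540256480952432494273158695440498297546994021531640990331442586235129808526646953340863572216666314704263415689864639793601569323896566862103635154049489162269198708583834919235007348347348582275146091723421561599976783012748548264354182022881689170359023375437895287057778902819724720740470860959942813758587309806592177207352385963174283551314391063574902736137803928513392297138267463185001965818733601188661991323288411962786226456627256144133843106013820629829861319210693448469427256917607186723357994023309235894357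071351190168741313087893315366391938411753685549365444354112130328239297723202813720813765453147403803417134516553282626823910764287181043899102190032328696613438359469097670586671440020917213318545890048821055086369815703603398013340475670694282595572963460459717438524055599918892614326303352623069702166832579314905827511285083798614080196388772237073255579173366660513491764826490566721599010044470810385433203892537150181005904075085342667232301631402663408993351532577952363922986617976796493580324868712862233558784823091276238759629550828057983043272591893444497239947141468072482264212768533660945411634134613178868668563417755576492812391793856182091976453634396023246584773817358488403002198521566221023248144510903305078439362449687828355077188658423353268737089270195184710149151099244910124117354617176606571890031649058538242278015926147170075768852046577288442019840)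

noncomputable def rc15 : Nat := (nat_lit 2246563973192575240591438711208512684156964347176179993978602169176270616653876646519667752911673868030919985679366770174531308647568274546509298025755912783134794566227227020019292608444302134791038427108640450108735750234909828032117179331166971507579025570052772652745594523873603032459442932616841693102296235547172424722358513216942379785292487540196914727002132587280944473287840994130544536089408669698609678534466749912119405216190424230287881124186958141294206042968050064161555393644150146686370000994667723380321591071585733046798869364568571741702281721158275921761594598443230212321547532189789269844700358777678717238252420310380075832252426345442307131270698830300179494663247561569615798075315166785052299194451867858107225075934899717389748396369875642895173040243268359286052751944652558368534443053061463002402158343758235869443994769886756727214767947673896985464326047518958290893635494910318943109169097331134284826534110126569714710560548147195527198073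61971599337251458089280939823643786348342918343662913244656441874676452848934408348667700075925799036158895476451399237779895982294216479502446067067805752955005327312206394088411218763146588556570381496662611198829474354381447608611435456466887960382943218025089057051583676539440931983846085128260184661935303822300361168675012767404577036034685235921293091735472597933574854359044948079380586081783599999701784371435067999478125278652581529877525429465939796526822855889116472827103254120869610831778643006061958581727678507733691628447064354789314702598935576228938249203880624827937112339719752402595314178353438628845690404614802384904422256557483396275383412328302815622111356937734064526174041687246681668904746717392500951520638691726162545215765070863680006091452725211569684140792294763675332918692280978778770145044421629486156136107609944771490167402146647133078558839401220913393968811221578321867675465969181275816559060567902860238827334321815426044373405253467050346301224385043024526366493816509381328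76992512802229344706991286714415376185694007028172141028025435556163528672436159844304157775370937786541723013889039681423530276358551437633071160624341553568514981090396460608967067033472283796241456925904373530002055809491088544701713404492132668894464362431613671617670261664683751639386573226362121306002807209963366388363953622078036537483421317540204152108394738418829804278730559310514602926688692934279980644601688944463869779400082947777837739845313150531142360347412265139308502588518213533963734357338465973855517863362230069669922889750739230529565046273527791055789330208844174261959642181787402075755723984395810899812271669389844920919344236435671918485361067696386662953654069275452171515097115604698632032740585194139135874070759140177328343729044125549981044366528193911118670489320395867725869893005634722916159057054170329768714052691400694798416796441449708627427246736975874480722965810714377184500002838962597586251673493584760005457082637807144419362275715831414168501992626037077494759997206224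22725803933078424543678483761989687624467013491317829150328865945232594643323994624901377754695943588648298586419835470386204763153120522748838671513063796876952166357941204265336750922562063282835589521212710160757259000633019455032931245575337262428357548999054801917606671475786149133133137993349523102603878099820923679217146787478494099638161323105178390456950570840081296432828539645879271168939524646224983715924462339791850717314519402214063116733250111395749906336637987374905835141912370345201549784910031218999295485895506971140885685047108401752909117092904788404813213347116922183065795989083690515093585226825385760735131773804075066452100147208486885006630410748002383700590761084535088716829632902299371243293326984609135515862260438479320563567890087422121588614827258242755528811891861828583856890449092160808496111396564710004412152641696557988949375264396585158195218436776046600089911148213972661789569392372726179789679583347657533508866430663289663613823423842174004386658973839360854222931552836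80997358434374512811476460349034045223483837919136984533209337909694993894211869184888553163111647708192710139349999910526963718765559804363391059684580990132440620003383706444190025320915147977857594168277959308868021575457998216478303672682603324537902377057190760425679034585046934789435151752723013968787874123879455128750877677659177832295367441120648866580636656140628981390480259508854957216814585658168965654975151960426466698658126822418069258289954381337302979678927915522533445481307647394903035718081604668033157525256081279319003599767587264805164569787427674292621344828879100953897733651125004826714619082783523823302605708305387597648497379774056058135244453759849309123101061518487581797276542102103829487803258904143231059665777700711862989226002533374130382134859976363073097181891174890380318167402401130142132420051023335490293917474278354240118849922836290371773210492252902043586025933388880571348324508490741188578660910084739618751246366384945244285299151317028517859313296851986174614207479420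30726083805882040034158094441860913741170636799718613719213962416522320003070768921579848670784977823034396927085195715070123978696794558173520295462080260866458064806632613502286848314561343288736821958722199752816010031858543677031250605982859701696534101485636049253031226175112265104016372986764157028056707789725091262372364217666845021691018945203917597943238055960232092311174624796664126818678185117219675929746804425251846000732536516327313323225135665831851383838771862605350014063685439522706230530292793399048328668697691664157159137750767386606040317763361539127941819969173826491631213389941580194498361598849566638952152392505565587304513804956687425144484742391032147800673840618753613872523583452948909851246046589731263209884809976967405647741560780210733678778013845612358662388237971397244263767732509346371697583285488362821438912502783663512676080129599959596624361722877168712152202534899834087352442319963296078799855539522336245071029362341239400869971539344709316984951728179679912365696981256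37629519018364517400950620948898554921536361223708949454336190774110544120018792699566185178116499803158540947876749381095741732521971959050269557278647804552570124630981718773591387181404998458419880481520897335747960962025253088900776420665849090406535746595080136097089728050969267433711847437826103942842059201787097999006328587760014324124234148096238075591015394150012960635131768599337054773082127945744598961467219962971166428943795629019348582691169881051443145379657686663040758886002173543249540591852447611670880148750206547848410286409161502325545083852509763100664652750378566071964440639910460426712110864118500040122847324518710345038673063343087090103276338223325803999523386167753892325584810937157125849690891893756438165200640146007080859689110803666348365447223192915389159758195695233731219400918890408319310864013250494523223070531294917994049189517212635831399447086246808992281016300995366659541324362050019652711329594944859446799487339655022679457583522593086076785524173631677135954513749010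41959634751907247405758323646872387256733776413241774614748516776081146301296555286406843241842507074251372989004120583331194909679524652118198752469530290197103344396349180708902850912146146814281821664826834236016764741541722506900496887778935417481014430610201594281427520757226018104730891044795556655614652329253135581572313827153782434847152162698518111687027641063676575498389674691516109789950560687901322074924928384458540038958149266920870197968533883079332198678763947799456639432773487275640733622459394134984004889162634214056546867685817544159761024901774863343550873328146087073334824029554140734111236265788841165404637418987790927938824966966918798339777170939859962597461781003991590046418215251705990746687092350421902716574868558927135099691329486068932314894992729438562392549974030826326190434138487070635138685593172788206947080913258921346565032993208281413370978864322227255717693756055885818301065464198951979483088991037045262339518260668317547313542274568373480992761481080673839803515605197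22039416447199228103828322612249230939495977959049871328901979192859828683120348783715619590385896403833898604340446011565655655135660638477159827170276898822545887903208035043238633789974238645596308862140461438671430007314341261133226923431445956034681010142422353871917258231783566377134953827100210944712500115971174418965574937146816190228594709050649245815433556441839301659371678628525030620974638260663275236654026302736099968036747567084250814981696976180243936157080948358520601743988509453783712504497152159815069172192300862043251042515112536145462909224788254489518906016933681113363858517282597027438670961942295804934093045230037381620141936966346433394117564933734101113946331227764804379562736428415843589689399402595170122245125888057500271110327172990214393325524175868436122920320332312327673439555095876891879321424117689889343399126588960398768700482756888778033759674736029775113938739303943338191458716147679505941695003849013951918611726986814699980883549000976095510106991685620166235393897272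78655126480754137266689129988651803844104396280371791646322925301818128528797624895970433975493844550834561538149793591603351067683429253481539565475974986046617514921064078537841545519670114536027286469563765781661724511802289370480031243125850548691085937141506214425603046139042522746716900669792939499284589071135875578486129626469735910281335629236147306422601374376799891991378090289565157874013226017348458289374732253308944319594531816598054208457500198168306638019945923863150634189487832842927171177142549906710133919722360489038835070254368819709655184157656637469045234396592275473801235881847219672971304422697875503000699894812619493753411400110786730431205927388424518854052791142990645286249012572869372968039843975881587584193271094445783765951448712993286075290114953930708847435654292494797575652717318354328524734605880852064953541790621775304305790084711832614453817893143289347417714480731551396551345714390856188549317603777488250670257422464267742893025480259818935309930431202328156812863147061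28341482318882760788253011463449428261516177913719104180300277718153378385454454737984729425895584588244349637988476113691615162305854910670622205927317505723778051969483410673102118368101262483877292277094532503460988996432222274276533356806993754747907076267925793980866937243120776901072441251038846700237347931142959103702663581465984606165939947361767198448489743264074280063978240131730613613570748689338027939791182406557341114663792162350085862644288117948832805616060283454393912987651590456545924480209280153970398457628897564597608770747926534073294920393129828133260898123770398307339417189006487973213815234652792231666414562645493892495089277879813882563969300787846140767185255816068656903594592678487294183984333128312478775967813505914994375494222123090544013995233191364562328804630871951603178632528408596297606527890897924674031999892471600582015673083155771622833370877623797098039148707867868796311547470566495701978560518761920583433004093670880911247603811227608762630982845899935622156047511522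31761506581905892679188061728968649813431447116444550366613448614156438463759028513714412522053116450487932279736749357162179525228155980416589813346319448752757571599267721285058969860880371883319234273899267384212054373254608041514742408853640637490901329365800887889111633040122788733208907596212419232153374542317134328016345228746868074163406437073924074329196590801595504521344668108825858796294595794685216673761011228003871842494843248408592235850631732703693855060673952037239349857627639440196673999414097099448348926791911921042695784856206656012367099483770928741424525315769706129392697122939606105799553515031837318602374629336473568749375552487563767477667017549307987250949565710696124223598674205256885689481948834349074159661983548515441478198623283276618171353255908852047749320921449706434077305104116866620826582611889165612392565985920630920348903883114879703325861131929327766473937786134187126864611849884962584842221133705548070266704197786477042233115149171618492624065736268484183437621279577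19381827068635337948275488911066719870659609453225639288279164688563015710337494314136932599475190879635434928582939756779554595394204836782030251926378817619555378841563612884466895669008485357328290513473195734142518688270039934664441702028855792378826657922842648201421396522590338142466613975275262596856558788506143637922253561895747688758498869931756322683866856138191570639130209381707867977004964042990086573577680106947974559286158844729237641603106879311316865437190356795625688940361926634645209452582408532469611975408898563958744485306104731015487998823915580656470033356030708125433919210334617476093478904773070840738394518006483351450471570191808979642616767167557400719150160686148652883010976624747636803835382706482871692371668513678937457310969158489774128812745112942989594201154264059523270923251626024092916136669651195976851611416659201798258749497794456260842356428796306314033055785425069368343314050273124038194807364970181203402856693604460715444034984901271645940119335571585920451419691169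88127812104930441134096099534442204139117034012404411410432573251740439383957898426009588928737405535187283732284099645269697189020911965316184623551247874654685220540820681128031567302915739607221421832263515270248236117414576116812066498553582449538254596159808542452994447612557812485300434921048416925893363439267557737038608193436201785388951923748289328508746192923183176628212955471390692246128506163279683849006422814182903006039760685148042520417247631413765825590644285478468192918533777179737231696940842015186115643958803124101655166220395156585729675112807950796702729582968079063261837023226432086202665833764448956528059903796046810124002451872828244735299883318381073606132697470148010421450765558502727041654171078911830989708319165512772695283703541799303863996271300928348400598361120571880008015392501875073215032008763741992890296611407099022839898880192805620817445028578654786005011573185687396291069866759834646587339809407913067062735298717712000459168145568678713296948983730515487046794932953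59742275455375784339847124244866776539006675791720009248955660187950833584491178538315151873562709134993035569388185837246609170959176398414221284143245897215342410714847561538281867474880339188877833854670654528240858414457887094045322316022420905313180478920969705447269544622149178541244333330281476301963402803531842236883581852250189634858265347071500405985696351162093803069156663140666737161644883965724941748043444481999588290137695017738885247751847337034236789605806492507953912031086844764677771033901164710966729657171016688859024721935043903628518477607585028086919328080381193732318363548155757920303237289368850822332142669060888026256642433612835015981619627517345821089440041612892795293760529627774880712040407234480994435265646276232230394499132108011832626773456034720755305086005019049105566612997993370859964989373749796143884004902471162924996662050467563829120460073579552971633215165652069358202933776654329175999292733711589844118374977657515165382765248197595017545187657319611318415046210691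99639682633304475297410477449855306477622219492674984636828953263903140860540455700914255513850891009385735566407632281465800743719460479782425304998415538363690658594299775973008396757971081454250187823077675705438449669234406775436168278156991106371929989813711871599431462714778186721931917862740339391704170385796683183788080264135319507240243307514247738046500367030703697257599013304925585071864181371015427273830118016102058049014560754326738621828711583341182684023857083429359057839602114112639757346508000524882535112192463163421534907149386917061174517244441403627164323757471378201956621533152185686533874362425625269234487887890896652890710427368369934155445271784109986780108244251880580840453824776243597716892759206096361885777687095737220776807692539775274801982329196057986421700775821967181581886159214084508030499341617884058475199022332635986997587802053891893543011308509148956014875293222374208493974049781495426255310411686459827959022229508820787191579796860369227513357464574603041555670733056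12273974120500517194432467452947862010538536531116143500589698584985629003666130863253688457077252662917104314318133191845148806796140477548335691273079277606264510753072952972271089962156266036226090797720622474759344777117561836215944299063280198255113212383521584501168304460251699029892286549083001838067637134339114954598145711535646160263639374096050566551185808909816538800215656163486338428356284231688712201537939331321479067112668778636908769288265690908574195714445994911431490362314804212144229261703573259785795609665686071975361362898878308658874648805873733570418648976901751427969620760450925110105959046076428719587551886501768786580447513961557230754704981714354493375998412509942781896211227505252200373501958933795143912753794275301271947813024908514164585258609730671937947774919464330270429232952949478984079003139225363340994718466671872755533068813096195922862574621564584431346314386228449533422406354072785572325983408714141770455031598724561421500641249435972177058451612306978406932320278622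487821074891259218122702345398433275734759718171648391132577852773035213045129173998211122453066631658960362612158318447109079342635218379556710499964926105406235513034853190745362333429709126998799765856764684187555993587490267732937610954561925596011315132163634572119224946824375533999642830778753625027737063727452896080818433638092831973354591137187686865252476659148322234218668124469939842753824583304338369397367090757506736093324055120634912987850380535429380393785530623999072026013721289121759772757906048940183921757154628333997129149983118948890904139369900282620496895491371442558591288572426205497446982112052723147273820596206133000237506266957226586489978516599588489553774167866630890772463014800099068003439458075875829181911938570268565923506916828557293908140084090800944464035951020508998587486645187116811771460045297060786912336726532262806192673043026804736)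

noncomputable def rc16 : Nat := (nat_lit 2250535373198814520974332392411518486197638652240781009746014214026871311882299783005415180777879399559185087797931544064515036955997367145645919607947588300031743225675572049382007230772246367401815995956033894230356377521447559264659926758475737429167448365400828624452540631220690756190999012425002332169866943092957121583078830000887859912380471747137218820335477097823485652702636706190728517191826738062878885288817052852895126545168224917226580898957965806684601147353775844409598390216165067202664712860635353139915841169193090036823693332724239357674229801411340165854531425100259066743606260346572243913838378951810093316965146200117286926765531962258709632624470706569175722401347810109900355431713497215075159454429925019504810324286545106371727370362026422795530226120938610951432679596887717163717867172301454296110659528319269718250829767210267246304464421019420250215079563721757776106430636416813755030348284904935527574387349641592889641879462378735020886767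90417760277822511010641721375912529624397969047374543011121506956692389210664061338830829960426485213684565264151262853737039523226565221224801967609260689805878598068557446140188926103199837516391848370813750254245389678081313536609429041985624945182901237183509226971594998410560040225036232074937781210650526962360031014240627843727671196364693650487311026861410826207905319684837525626202989626754096114040787347096131682360415213212176146383827948667864831756364673692118168118744235265927984087013898893886413269424172083528779577237583153686885839532085706969878492703483937779377752243771257615211236934526585970805629032462518122724617737499842953081335776998802652779108865486406156783945617978359008410058797583341014556892919055970683380373068133924403327063109182337234216633985921207884221970650219697881968098315853824689655196405607709743344104104154231151225920657600193587929207860413846312798211562083077354443974292973484323454876666324303144583067853137749129794028226478313715079044601053714200314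70815216765996683428923434153217821154395500730959630313951041865112629213596440298164477551656367348868966444744735405110595794858419675635810570443182819118859430056435290809503881337633268995176869304980512697504531284648951095203634449047264716910275951760497567346817020055487872894452268734906151484547904558352515373094283119438306438812814827225000432323511874740139683799941434238694589953274830573706636063625055167429630480878158760869578374680943267780489734872097884383579247966528572119518585053142070942308007529133910167240299222446127584424145621315959783266897501273612462127709832267315681389802235351764972949315980706362832680887927689347263105632753940694481923964646938865602315228578361482352216589170731862971934455529602885383643624514021467565813566969241244369306370615041134404683107150324404781783145921667285989500759162776269866710980291220854636283549016707547883966169546021888665664736276110757827386124218053764419392585168833446654102945618747672526589016381770598445567742408118516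47034053310554719396418069839038289057455547927378386902773159513466385053845557934803717425054151161641342609532310570496817786349344350904640607669620992065450848552431572863988352915175615782096083535914996525623843965500836187265119592751125914791052248494261636412715727845365520398308081560634596696555445991513039378684267251745866231665615343203846604032105404017790989541519146964512160490471220142475362977217345642564024601426079769692067294188743680882753610494864934124571455340649189519838602226261211073239509679741482988081371906039921186083208190751347314633931564155621511134654260922424395219288392348181099130523907914229396767674977966440329843744099320863615190565942272629458148703521022176219103406899881619459616624223588265640754782645383770128327841848358251594834125344254604847327184256944089663303523065176345956649278698256302818915629582398313312167466360063738221099093041777110050002109200658434916054243919782668933387119085744303100040037838070000676744428102001303196753105573014956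96746456736171879321009529244913118432887191096544383615435098057223480092455207510486953331273592629109028234138841185474294069762982580506482732516758360723907641155232222409343209310651553644449644078916568124763914535832003218361298819621083476271428368864972314965268586577727167029719157755680175108333595876232702005202173251943854842721334053953499468841885643310558908592087860196563217907451143466180797407834512170473501212519473045480044036968263324824996156627181509604388602146446017988100245864296947690236327428260648735849264088027841415416230421399027090931179333753185865559299656134780743842920488115415640733372704173239129451167499719598712742089217452395363336099960895850253204447158852113723367942427849656931494202371955366953017018562557103784636077469442818620923181765411545286527378529872273193840662169968802907846678210115734112521734905736406793730084877478057536979197444038905311550015069923782603456243184750180915585167061401059499945388955947033328150679895986670373295693045448456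58216624410261368990291619324710078010205089353379785961786572703730712273552189753627962231142698939207323207331925523899221854217006344037091114358544932910885706722829451922681560932242421429242401220850206887946830202746750722906178363726637205693211784146733911021410816686701953997080581968349443806025403533685085580778205870255652465708746183207444542231714803762343026333044419476283660958233046336273567452145490533740507761534928318966417662851531714523466452172153810363903063151397240798096343150999203565705280973640029252454831811461798939023887445655067328538179315316307038482403335407841839278762356089202775735857783801756867284541497731064183473482573024145209115100358609440865930871598977955601255380063474481131204797806400682311285454339914254215408541511511565430912229806572979646124138683129409147384962647750658618642930916363833240722160809588184812187078364293739471173081971346612535116228789884232707437809468604379106726666364388906425320435516256500549367448612641232023206334790121278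96980006509610916296468444075443257519420557423203144192303761946308638249028594356037816937229097734650147064831199796618382318730312582110864807168611561621078232897043887828532971072671651694730419450735233899915166673866686371709092005331406353345949536916008007109402231309317274207901873814284338052457245975848813257442609805730690685544245122028484811204020138608434544403236681618167599970185959348952492385802185149260020015687973492214511226156799216808434175013672050475152901656612791327685385238579658475791006693299722920015964484660503126981254901776299277122846851791845514795234932036813870439137329658493946911373484139211891247450727714821943064788546008709083261357217159535520257119035324538718323650381180762470088191925438250178599372592753565728650067117026177554503355777056443586280239327192726305630099133804895592893433168448601016211835576099914445390700399583104322295916694688164464666700012908811786629249286966148865587513284771655458866805565278169142162724146810572247359189187236221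06490157413070544041434064228515715347842927163898873532716622146323965929921888542541647940655767476356267378766056729331109788316349143121980027446273692574074503803869307404860882305650131356409145501137435979417672070312403041632384209110790814121573563139175827494709260838116996330650485434129792390999722221701179143735478186963471478358292962970900893821570807524751098168829420083009380623951197510108224747640479695291864395564081121196744405055912110234225566445920896586505717285170664196933338940588697625359716031809351899209116814569955724465935694086626815928084260043594945206675185742343494309660166520264499612798684592324197629316437121965362784191293767292639363561848179818660955823063616004779181970153388267088014116607902901161786643327484211199826735742471507495793360215950589960570452828851417944611043167056773693156430788298480024228575709142886822115038614341289696854667140547952707606226575947328361265291408306194558842196135955654797016534921317629041486366870251004047138709553626882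57782258646066185921171475063909881598323925534286151368554839646027064004330969106674043431595361085342254380252226344869084022776875660909148693046677926149057497535347927138913588119629929400434059942403257038587621005008783870921249039448444815549802087036061517659345872906364843374391672535854083913699283826676560624139509247498446585734809513659179082052551756525519600774214510974354629972974599545978185346838914836862225642104815900189379851967448889364592785917420689634005537359323914233998855516638613255409399451867895449961704358592616215765091977637798715640250408976175555647997113900435451520484819986079448895658216955020444918194307871222197139882503773525908775865120488482673171921102078093460358372483058459038472135645882201514212756574741816466774003487238612056695232193834848105236501817425546523908685689091737757618711982225318207509663794413231356572200367806961174690112980704196820073472633692022068052386123613606326021962684078787395566303930481347172660401453541681944431733689278425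69802173446752989924494870989598320794183948038719216895166106387002555653277488431031564355629685607451589805986517773729677844337829044626852791025297760700306227140333224928689116979089283657262066221303957700002865647131764272116896456477464611744227161718140403562033911634708684114908733597494494256433536762644696930294239494435967256970527987246570492450621136780056064626702388186390281539812082701846898659520806093123688417735861621984190053272227010205741707575704118181368247715554032114398391262903830067019090014377398159184097726963978169032546295855343627025976221427351674953890210545940191135996048680991438767002976309720715188662045120404764260616286959730811124718430215554203405123214344348199446409902452110776423893448801992835207482458105167713025541052964346170080567460023925943833118910199150178073374460775153616448347646633591273451017906674038054679460847915244014559279103923578751618732469488508065917354295229803320387106306666523502294753112604171765178592996314843008998157065528618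36491626994084032621314902391381260930547471737295979089686698573685299585516457881759953891476004081102453268220052944775142672210754418100988841768524854281403627541005415778491521521946899615155025005968284460022819117185073048462755631165310176832846496047728846701101859997793164507310698191572349665454546343889953382333821110057493680963183326629446513765609814835356399385637330121295514443019591665277817052835812508738815285338759587370381211918876527373142441281590148234837594339420074377905200233055030455777679217313899362887070613182545312781069690158366547371240934786896726857724932798206241475127856332814995577550742061271662750932794614528409286370971966287166788830426467788654163939587538145816193090067198885801964943468527645979326211731523139530470968497681400078909524539528831183317682311251634054471465460032021430766154975891107292828820618979118146092838718808400980793321203912687158084133955302871073904897192387234933817429957881778515513849928487613892105467797708533281102076450094408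21636275745650519367324943403919072230166826012206537474975405687242420446936504619401200844386666553000964040334660677263335460986301288839217312934926567674077106469859172794333319464281024420370554153796491303674190218947651103533107981764099205177794322940022524196281693951801646254464878155875624549402239033276116235442706950447892888844731826367077387833448677105056053140011367619601729007977464485279711343556303149652843285439378422853006245888954822398472951640695276385179600068592267686342475796262574255547500147044714041186514580858175348032425553304358600787722929642331683870063065126051861752318650613447705529029076106913513391279602716778112721796299886568812701813977631671130420145863483107354795289569089225886440723502080759330093732870158083496698885632215346095933795697969783924195369462047831526908296800775966221288093157224006757559299179135947745649520328848009865386569888775006222517065104497874358951533546573866467524564102630628781381029508122940122554412933497649615363388825647406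40724042745044394682882821623831256283933576879625658218033261053927711283961013934454343372212763690854643327118208370106033698650015530697230079688552527436703144409573810219606329598525811382530155261852127626045272558959567013961116907173705046557756107561926710192643552196208211772416869387698302416437463815915865539734932587181951561682541829216134085203099399198031998706025546654775783502569533032445055932359904858356746304094550278871286525657718603918361937343778288643876765019485200069842642607907132559929587158913356696139685889332061803553478432467649708392677288294728003078573097134932742665269667683920924929531772442933649240295032194827601920759974032882827876731554042905708536865524924283623139620525495004144120843986025692819686724677036389788731368194916742796661352500517696959116359218723467558715421875644470826414058838514552999693981622005227713731375231980056003753714111414319006207071079631848684246289440657472157068464019124495099034817698412463643573804619324986012827327559620672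46229112806986964358789184650024606880276417431185322798835463318200178264591609444185953243496775744853457213557718209091813180299630959065224892556351528143110885773525117725499618989462593170825192219486953793326339916265970822150793421398889308875857893794922987868261132891806372086051424427411405151229303976173779191340921582138760374126680369315325342871787093961678966882135911756920256781962767716590317742316591819158107689395983629144258390449021000788835320973487811826471669965886359678173767620954124416696865447351119928517001540002264151793169483840809098801574853888138135859474926307253522343761483681591171942143035489635708702862910459847485050264761041893509486395657628952825235428473347627369988063685211737101190686733361303288535311977402874081891262643553655099258097153403175542131101935012463334430966892739442618698214834090002216350282439879917684136138279235467583057954049427449763926906094115725992357456073841961295373767719203279380571560193816392305483852763050060580384323082947249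65819187330088842698312000444915058441216737207925140673252743187815166315694149217274862881381855522133511959722471330945707285570207705223686371713449259413104265356403256913249342189045965714373067447434791963368471779940410735793199446116816524571243897590397337162584705687334685316580379914777904767797604678533110766080919688069442921664257671261082955533254834728163420010533988284032889410990550871993498678064018324652594913407241528269530240337617313274451770545821462682990461620495677570076477101347400285414228819075755607416292654547186041607027823453449651313584594216087079502904680265579523998058987025943237357259906505899980695180347079753917836405286476686237144567314410827671046687886911817256226748187165936364861723311322569065126286354271441664125478915943606711285845731004550759821569246124827469546490720780580034681246232722863431015905545635949698442590556032781690583996556510540643613798056861914955366043020695611104656144237201507198214721800579224500518132218325824786236688921728792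83462469243860883760072796941136533645614084234291937395537551777725819276709355094364935624915297434464688306320309163374372670888184771689814991971650624316885402456944613830719019241749850486868593086623991011908785816118978601538301555500134797261826374509820753448702862581427076868460113587070040630201107646555430276826077551214040286201399297591532297756825856413516937248447278702278584465648182035675812089745010554328773638730836071943101275714037703890994284061322359938417206876600614268196900436996159586359531879643944774142816570369761044362274412403304862998272306575965020916893787434600679103179629735940250896905898009760832418592086126208909431971084261795170067096815123761993833165045466542926746500886122172330030312275316471928460364709999539387329268372166617346393983671482178581902272101355611246506646546552317131779964409138819934715011700230282168097735773550340338763672241134653070071054291016554662541239366241338051205369189187472584382971379430037768855404604222999464794711335769513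10250991001573279596961595299445280584604689794659839299795552829499840400759838076032564945471092031164538287723700656929358421196515538020626245889535255733961106778912437822718643085957536752959409469127886275715856230526716329216054217265205589299039118427770853851475854255731493388614422850234335682361159011135724554959247807252347314056273198512163738125076371096878615701475137139824396139471984596085895197412948822522021315754403473028219422764187692902493363050663654007971619578394479346093230255078578785435356361205064353965879250430564186409012253096797681270976481120916241734911967165319082960496895287106304997201240552523733946764664550748009258360180613614224693724724643028837861010853613059330721173762051070729826291159245322884151102263736892780044365318454824350213812727192600094743125537872853900892518022614843798319085867145914081482501102561539950603986528026113770120340154217244736516680540300051647682059231944616602134428255491939050816778729533410532652790250455734273838851383910250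098881467916971408962553211709065437579875605973536643124702902087716118305734000813252375684153142570158655191041731644016858352373688397666940960057699445046914238682905763142469591171167234733573968697197001629896008557537851189209152208469285456675083749475473219340842638522475907670356166356741916498899244483073806747821528029112085485704431877973938465213055581310758691083017593349142209697368749921748903050085555645789676385305515339556561133930447275361549727138340625253692697186957281106497161105849819066863782001894944845121124514841014024292893518436536597964044263165857192012591967647280585939510137397603089758221223678674101280178058303534778237263783366948334321142155817062846286597043443010315240590966747124298276024589773523837805184479371849382387112421518448270649297228179977580234403521338468171214887626983862621817842428613563829653296600359005847552)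

noncomputable def rc17 : Nat := (nat_lit 2254468555409112144131192383505072011397804357314585284505059218679064335782673569709848504347765288483423738776216050159039940419078616586661072861507921535095872017153905658303873647589686910090264772195118835142531196716878233277766160574808063422914352471790311278867292396110278047460195069361449900364278514636404174994511929791201325086543693121159565068951158851702527363447549504032235939932749075117954327396651861252063265071494752315725054617219740547526260915494872704986681867319114185628058332386011071906875882569992614771923974272073278038830138215942747326963994848624073153633474046647414311639582831789141096517934601694548268247820510985619511385482182177535797825611941486159180619226000750344763252981550502435704993306564223006959922469653462259309351016548628328200985633127465417529162634805208162569450696709409456991295704278770335883600391765648055708596776498468638152225036071821348211858715241462931478801908978715147843023456596500616384898905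79342004536159268504760015213738270992928945966119493017440969264691908555911922949321934268100527571031270025050152946185579743359846288620912302432281013875643069601624666411538713622756058555674192586726275245693103418368650134135057236753764367131778243724705705202973744726041271640307422828314255756137917821604698758874718140761984978486797314436643419420379476046699414821461047091674093150017790932863107803802487694809632726207020455320570236226822626010879715820341521643566046339295280059099660518552980800581027380995691654604073178260284372133876380178180749322625841676453832694168190638738419275463493322983403416244425531948425476280568113762558133326580688440153824346866378030681739432966063414112182145332441672102306959469702660490725930946135567306489810959588933995539011724729000020249188309045824380104634929280460344464667742540072593124227965824489427147409935273921041545260238027964611885030908758689673013601215450188645566529332511380480114347550907785662041742700286638213739829098671900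81483973385580327508919537071289688953388586241659535116176052437690676241495788477961010547225469177266629011190835053101249319244958231480843869380084313543222359393157865426410372648807399931490743663228204117481845362737577004894624696699762831102165416567022723349785825262171301563497130309596632193186392236725120997013761800140153959522961627600806195410005322139228056437435334969744713238349938379355492180899522024473964630105374707006449483005554542384013328626376834300439493375172518513793084328983212799277431886206593060219125441300157649117755416819921568647316718563521135904325299313359977290000758299925054187073861158310671016042636018641753190076533452014248284202479095920487389644633237718501614333171486656984657883501678959333398511729965830529195771427017719667805303096527561691668499211904270813710375823855155914464470264256896679668146068738549595234790175778427109600397258478503781077906305618523000650704131902470272350462269908199795430468159485127242478204198825568489921199081479602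84314682249342365569539843717538043652677040193063803305247851022798190182379916497918662665278520984202025046624749644608241863530682982256873063405656142635651195445982417419814159623364565828226173828138025426856630085415159377641774610962793994969899467614568547540942089350587916978802220345861724292313485857802356797589910453874161012160401675401326920899229507791893222658208418568048344888854821874389808230029553318810163773463522027754249239491775625035963877520960778811537270547789783901325309898789121611147559674619646465669904689754859253468119258447035989026251896256177548460809942009948191488811905441431274505991484339225917341304442789442673047695696329937196598354991429799524662172544162991121031839859953396285275941113654901611921819073338985321104998943784023382582138316826367630416005432625088165548546752371783818019616038098744803001489526284821899717358080894000931238493668474024670573416685579037515337813877080698742263950199566722360822537333718593410253485670626107892633332019653229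27387840155206441177349787110677733448333305298060039361076001788321914946271603822192900748132958267127337106692976313578381213995381355248434789028687437262428961142734970400221858119093842964697614167706735939536211033737760758774774434927017085033013933637646306358707048150746015102599370575717661979504571061420880272962334679253346221539414011003018274721271019280043258408284418411015962950930469469765392011078019069077533775153216984567284387484325317889714377737373900215343646637408399839527603820786338270439277807742243994824356563466827561220501606677936754045362568268349648550269089816941255860515133188403541967943209151354559494806510496340918749808999973646958835780015541408266031914700359834749938504969317996951946760237147951458194140712863918727454205220268119076054510602569654305150000513816365399209836768773533563692123789888793183466666999237150178146236171089138714713338455102964588137190577865895259331350048522639601665779209138482900151223585803365414695922606511692658731271321568870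15739843381648638589548625590200772956493113957958764539076701111948086969036109601296963646388697268200935702171350214193353383866594688525323551045245117661589637815429251530947496285487026897925656362166602248837292975352420262108659085376746251712806308138610915680154664019779884702496529877834954179815423160508655139620005878372490398343625638914943947964948913083831732074563419050616617756787635313366392838579497522250397563850975817720317553553691564446035166987197039833154744454313322621701126602055067055060502456249768096165083379799523900526221295967585077234796933651603299959300167911461286322193237024897185887720097987439388089571586781524316924812426589718895442429161590156293247790957260913484788827967742529635541701184167085234189741239639643673369738548792999566085538006867495959580766898717781866250356342489525799839101512852164981504682475476507946940119878013859291756856266442172062356417211085918723038872125862893749116525909486473002454365536649087965987247536786822549201549751525190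85463000580737560818473065559676941796778502779334207687687580207643749848769191034120870387378268271626808010403516851546181634454077032906693463055786653802706840484529861421143965405295956549465665596981723412906187071041615946350954431042666106045967549744088329694675843169360451019210196830530767980023654838782093518348267806226831398736596221776137820187065995508823574180682303370161639043857399377006754391926244993884105858325020633061457647157771756969853142166853311062077500960216209093954143527766663981269834344877998184891843621496198731772719675997429746626794621966966312230021908719997493808033394095388494213890545526177502335849815627935986104390026900145428873105775921288504957703592508796769963390449435439725372806974840921677497679086244791680966304298372698207914054056233893394179159622492480720683226718744211769516696822440728900124053323341787369488977600651549517151093566551565150990666349509701554667643111685107406998395540562030779583947758304525336699598439607855890232220390245930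58845454737594846330445842149806907199382230533527565548877941929800173838534024724817856067432339652497877696057696894528978252704758972813781642923330610561344597978292649009385620681746040152857742101289168441631706949912445633214280235308392103021685318772777954599103624602137459015012742808392504750767713185005886287329442042444932300082551209035994114983202788984414579340479011172676133981904795253932267475554019052635812045058388079163156651479677001020200549141333538787809816648665594824497220451188635067343426367682620194835893329704243840480093891291221730932899100087648497697219311931557984781933874941057139656392576814885914803183302153369573028455220016946959093370341730377829035860915491651275534531576771078340201880958788103532970275587369809785510143711688937330967245007444229762801206982774951575408989462173600735032606118321693440023196915450748744017690843233670928586594558487262098357893266246431363821432695442436634126556973480188933303799181359933038752114400102480996962989560952143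35630398861474737253911915047227667356316974754865573124475493012297714333373639771600946882101521964999279549054897970202927829492880234735516886446059680082045911399027962856025291878933036399248726124537466905680243758488713006878279307918789121676863729573215597099786149712807521211764960427731701614321510478640882027242882689447187027184475363189558049146193229838297568940096191411947059183942622904888524572385647430769346577788702160171904167361720056555865884661601526346180940970596984065183087615571304032698955127833838796780457120173325322295053723999000174257048618206488380148075358840425871792041902633026222916943114673435500646775202805333468289298146525215744747874825938947138818443897210864380243609848203708313003350128796887243969934499419633492251457284180922939398730949968137435406010882720050065787871215449331029714439730514313579590915742705938669171464335412969443453806124211519213996634525520990083015852235946863414933763544913597371304849389449171210263516486745540219759372074251841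97373429266293963542255888461298616496744127518516985374671701486062509027557873397666857593300601200682525184516810002612909166236047451699104374356911108162449101027997847439610498866388422136979386793532806312237614429807628201445055585697161732333507772075460638314923933020620703315839152811144206353995832897878073318066621981879633499250073125692941845735954414577709667263823096250228158511335876612977581232534836524633763410191380334235890176696978232130247200040110194924899395348921739332138174511728022124530539083109080143099421814444282803664807079001246798709413809322824035458627472125925679218523570944787017684513897560287541906870751253386384091076161851418259131271549470705940228173184523144617518687942417259848986485843223819850379111681235472260673829162789567690811379107250729636682754214986217937731938865278961293042502599959739748076757470520588254165489472383610130879107560020456465929202987668221629132807149917307294651157261062623919617332420323918003840304587331583908521697822519712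69707738327028276884639977071841582206177505494749557244235207891589049357273995079569714010779740916886411424912972897841171768003844345520120924121477306745176704030803754829402655774859323299021530596967739416133135253327106600672962728161776539489118762319281937020782989493837383836009020572411427144835523590113348052674850186342625216317948435945707707812647528163484854653113852166271109941932645088655177321140131203148028192683895814530704752451317074565882185446751379035364117471900577909453969368700709156157041918496901626341452913011248008612914170644480339935307255280610876245518408938020955897061555904683478251145630270866379773675470143423534392124576978966430898618597109584155582990394381656776946534927145049984768556872926927215886751466341778505717025114301084887261796508290192891579369792154198512919780697948676627967336313316656430230705849900271689537008904604697459467920008583673182980091805041473126642421721459550019073595147840807361785581312714735392909783415433473064498576390489984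61211163204521404188869342123533760420516853609826129533250756047196951121079322399356969506586716982043353079843869741154144652752163985167845332058896444745985516276208192424946151108733694710125308483823434511564419438712851196195399538411887645247993630326862233292228308305958752195735507029466564263097807920128971507994340938692653208867273854158103774751967809751653676121144205718491722190678324665382022458142382315373275850120289283826226052171632746310070353741251678340225103461157761963878729261230584786167605186791700562007999461423549798580577580958683650142062642071205883398070843065180417078080243032219927511512793556791168429168882858230901291112679963455155035848669495121302415591954611608674475880320627421843460469859545750425642575484310090886027444064634236754374137710495810449461665414537415619903729211733174802398782286062618982382963968094236176619282328299718296798073828941063754098089582665891922517963105473358999151908023117789594629627185279308109889416822932340825807519710146235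12709185830583670025817144491815109717469467802131267634728065892306203332789864488953283872285882420573289217104263413535938518891579633955805271510831063890950160509299263074197431714193506922363636548464425911214872241552668717850678404346771489997970101350840927903318587218902935842458349642721858654122148821874207113059608428666220972762713329162279233235703307407355302215167959930216460834349385801364704029185732919801230198869902225527461220293963715928446181487979270808348292542773815093856845201282150851891809581550160819504198509814066623467955546821332204219277431160571153784527418518826602598180082627881984905337815799990599088574378612084779598915671007250504712773869061043537597259381317101320719334167346606660666810701442341703177200091253208284528643135402858915617679461905612030355168233586114379657129408808978477691992756163859253428186323075208205298872968801346850961816404713110696232928229568118036244261004578894159790860317624549034648835661658714223217351110510256338477792241674685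67686708507832329281573599478474714159653227471383712493365156146919968459808081675282073478776101710435851885325204169873203194224300109846759756237862423093262638231066302261864226725653640735028877767802762757644035128142614249423629026431811576712726882822558964715854256876843683326736476544185326540080136962481679598202920375128167228468931125517906405243819278365302162989009868158397192318359365948396510189522159719237434653552781688678657299554860936191092162605401805538991544881959513812798075660747661476838664693776375822138903871754828852539742044054516621255197398087546116489606319587866632453956059601604432579154885892953763910315544536315357326954961088590824651359491078698604938742687765631510264748275626960571478743505242959676134934498458603914171038992325347286085292991390559917912343236743877535444773301745853916358472176024885010390904924089362716164464752137232074520553366214282763742123209145038729037047040971860772599533044284467002445064711432878383947846599972126148218722200952886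28903554170416748450550420296528382783341896562929946498711809275743921335333129200412467702361843898573109467656721923654833140239734469207473090964903143969439468575846192391071181105806893865052560501008196922639208270718702540253791855162373368058452577873847509110137075862232697051990173260976033295816406726341095284944979273389576958426513832490321629773039331925905747714127694361430967084202866928318098317126846369985761318046204769169660044758194005606546839065842452136442943798084098607241815765614122313728184739308266489573028055008863513709058980560815075819613477655758594615465331670564621426100248275476337974274757829120877898742734723141373296527330944549607821075492261713970264651512191904571562100356803189174664794429089885532158157919789909802456815949919618831000308074936882658077714387155882580081000727323514222110475340271221830639814235285702166473857392400009609465635354795487705236026026105255491206280994606055800855442923529795098475278066838923994362454097890056545709166662598652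54413268920780326100061423332678356882656122711252794185392260989699901792682774796368309727249033482878338937096677517001946305587602099492268964986878722528084101835210379542524380989188210794233740964582358563428217620973555588523428215726253508268107082243359378670130643052000419966202829947492391796708441914750689748539681109641064186423533095733436380658841448456926271322717011794235327089511091975496872258789017387977609535488047846659324871642373913819577102433832834669020818213116799921055880191041521109033371697832863550759706278057659543260905126918941073909224662470399346900449858051811981729945581090999979605642061016187212807523771066463149647904556615811718286297857952003236157266938670541202862021248832896947644648333386064414260382233831558813043624259555001026220440516598113017095868044141767904040565790637342861079454904045582999026325494146537998846118477717246000876229534249532728578223145037814184647505301097425984427539669954524781665921037136734933506417934200637818708675085693011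11074775803081110553874190101958532558350017331520400587458017067449321952800498343304812309289405411654407610515712913006197445660643751261343216714808990435674009774347838887227306664672239982839513915894921969456600984958102038919646040056423505991371914435989095578904647715675486498825071702215247522430613838347474932366986835786008915811867170249789523854281360481198808942166861963456603658356306778295329878837328952639511589215643302776585756468781846403365068989723231473194229663341706905247141903848135314932964601471951935089596560668375427305420087787912289114125062798024620232187947643095023105794841850637494293431635526986980678869937027977386241312320833800459210266747976799676714237140168586732574225219747682141381735953970075321656379616584757038950790465906463567826768411612542554441224184817405810730481570189777122598333704148382806127154398291075863444925543291816456854707942994810830452581116575548894178599682267153935867574396134584588041392379225816267650545584801387894481498764250040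591000053125754394032501559397540596579537441556338043742256084545188507997432660002519443407677275854356255704312835869344952810004251796663250740156936040242132667004688020652864338962914391641819549647148365029159780172442635769083047587190192143642555714654161469283329192195504415675525570661407178669622190135138221491440638045408549228465625067232887132655325411492519313090959929303357854449087159832862814737081730642413668051436557861177184692084368603936686372100453573878701916916326086836446138823265656023145707928675618357325957800152541713696093566662869748693176775115754265999991616901472091470719897770235943944666485084422032757420756033138078938342554777398385631159466656829243806515477768223973648386781621152310168146650115910062806075787363832653874042750778281123928355789061212249092539766815463038984528020017582989879246495694821880549655042147112452096)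

noncomputable def rc18 : Nat := (nat_lit 2258363588459742566858817096814526928594523004411920970048700276271009028912814717023597104244411122960802629425420581309035700753229130812359320808837589636417655608777061046162716138395705484055716824901886670824983964053942761503182492856453207504489672939051841065675605594783785604294784539626239073559301094879789908075632270501771129806614225583337692735499060455172623081438677733908858659065898988206708227987493227557149098045086114550006398988607086799176053115775390090678150318356358369676652052933252745709588324146134349607889334464066396995898522941819571848276981103790858092587768165860283785708824491042967871615274866208462102295510948319418518757094804680209521943746077218169916857366364542545411322779322994289703222542985166239424461962370939992286006062985034194159667615457292775860277230458201345608790213111017341785143867352787363178165238919726125669897053877909655974079124907001718213948217297187173472612365248793467661973294982931741521356330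68696690360448869802286298884379862942125060266447535869002035554716673542875456932107526353649235483642290738758285059426858862739797454707148064337693844614354467965132635180019298016194388954528661035045127987089531714612326879348808170097950568409813539361586382839440219086974924513664568647022140963855234259265241264201474459359617034888367317966008902896704647704797313998353244473482391824023328853618640820343633085754508966560880795387497331984755618694074486885524000890342967547277414877540846557623001428867953943177479810278001299938122289643520064893823849067052328735900801259140725391051983920038834493096379920989213047155448989089320753094962569238580398787085361852580852931830171067270671621849739265806041148958391236406762047706831768751651868964916778512895570293195157882234824730165577832368598886696594439033976690773746039299385753201904562683644827818581930326164973538848119899027992756070794793843307701396738370561705104831299349324487070656194807540721034367214584760094073202107351460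93111945810148060997037633446977273283843933409085334669906276040324133663868627950524202578637603210985885994471944284831752330846738621564942251526132180731549907402347538323223607875917136895811691894004501316201807863220113851046819200692238905476981614224995249266391360977596509549415025094534354372257246873968167145334258816038726205087269885640810799047223567555150893657408465995410322284986935568412752929283885836005562109475192090869118084951341077628275354051088245702168154145493775237254932086807248751465128075065652346111981941479524019781921442746816238328433673798671055042378826475134791460403182233317556875152127285593550494281352293740217133739285965182420560028653427647050520860937343332364774730776163710165133078868472463232757610908626812214855106312093695461164374725985247143676029102441114775710161334593376125344371432930257897241431746515403533155590656707043208826042434279560296657571087909630624693740282903003998016218244380736503436157147529489506496486544500266690929579831646150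60074888417076078426038056253821389317303526152830025265717488021278747033562580289908199942231927684918044803937254953670742478069760269136521644334421056881081242575815202698026866193821693974481149546542682943458806477198412621358294092741896765625097049794848074817365283588067476650093125323640261218158849804129409545954539806034812902908320341638026130053882918906045232094089859033850536381980750751747037212068678961365408662090725035507008619210620184320159229949540868698264816853249004908658318511869228252457003856756584955909924284848508934356376752061659375152649818344552399862383023007064802607901705081969661689881163982215912209058475140580749530204857644393642427064730982750673564942533854958798190310403544402266729023227652514563335500931587793248912181970293703905151746961704343839671402130828769672465114165608872755129930906843988892801241369382750946876294676279508703720518736847280541690910233471451661931016742271507843760017026753034457205542999051813375821594459065707516517886781115975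80988047568642953916028964116114540965395928047118134333144401288213240727172494237566194874305898803990801383509082742542615028079559010040965451454114382271941056686824256490441926381840610647343614022167841656439620105496871966015770054320444888105362622964570511265148508591339544318351432623781171541406579853422067817086278580412381277050172210772398225817395407187564923870045287411924868075786932568447486625021742196624156072468538205545996526429565374919639559281744760353438464120180215517432143659064650045614306905232318221848871563464559028967147405755045220677208645619402311538293407765521024028284252359704271770106282990109458637633302165613003092041195719134839369381565404095490846660752286881322488728311567455904341799551569286341093031230753059951936810803421685213109157082810860519288249486989718767761281886685641576509597593170587276411935563856311113936361991758468293467963355883114117809131555553151184247445882973273282473747591426600103048195458950907759447435337920260152144053262586564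18303960658344212877930730110834448540386705599872905336164128441337795864871347829893662629486677298272108054973885750496185706437332511138440961379413285787622603618136159509416350186489517735800662883761342126564407491527013321679912817143183801271544346492950407755269811537915560780365719721834720019465200237264380621137345732194250485153358763397127330545089550480095883424011539369171387517129888789998483294573700416805550638267709502816477176759768177146690887878248598331577848702503063168099160019416706963189303852176789533834569764053396689907516217378976619617008722940999867709897048944853251252544753339255598622242081561188439302408973789849356917370669502511562788019313665295255802588160559652418145230925729787667721501218141145467811449959310239574606980351701962865085440789927612204939232713707984858482487378231671355412939738583012366477691347879463079659834956393217166693014015888084853368876760555251031668370458613031025105536647933285491365640904186088106272255057252383610427863689290668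94577381073650867790760987777986015957628101343810240126964879213816349215019993574143479526263279995755630457416301615888234412025830515448030616142262753787337488976568490783928425651756054887897953491287361168879746712583093169153713214455057627225583249369329169609687100844091115202300948856888030438192300978630060906057261831995389345714489393680860039609241744425181400880417979763678763587450364328745406204003454193114469798767028238971761869962853187159997409037520493379496465729874989625148654050421405851598130561663655246354391677068225927266540253329359703782991571296699766247510772589708108001865086604146997680765372795284756473213442404432607875392421873953917318341217864227892752112328282947322677663763208013828606083012643954777363663087743749553120513872979561003587731552615854762605189477933147699345627174963377791393582592823924498334413454660354284939399439037087684923571839795244743250589876438575122155860033901176093302537443034077959067254344204486298648307779188029355847644111703116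18059224487278173474117447325398359820307198392218480506854466956058743613765025429617325633924947667009664343128836655902542953391495893330081639759235416309303832881887891821870933365526856624983454361148197342197480551520850909375722457662875317672072268920376688007996673355170556235685168877512502305714949088366031935667758720301459144057472538505026389559456513578818805785834265410632268295857677538092274744768723591814122692335329271236908284641502485889016182805809348243117922942370514049104301493352320618556795396721219830528838739986824850403690250678740177642565580343712425807696930751417335632925876262148514252633301490345500964632118550397492482870235794351604561834964690730580392213353280753628252341439166179082711112226060348180675751059987742694290941340247244685164004520370189695790887690451599213855799085202262237408823452034421375971097695994175024335482918776959783969187895008693272537589721696908476002082191790468594552900221991781964702117304956753379495042226083521817154209128956571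09040179750269155871589156315947616103803302610698932918782392112976779240901225184795764025677278164897113390847673229232958769111604108296374079832458337221981705220087412654102434224683818741197393888392176340653398960356875702922201637266821793875294977025604167460652776537741745092304378117481985848104481745413935782477036732675484954388788409867003809760046334426335527060381659721436766072897808679104872386500903154388476198218302276510222676299166279660359359681280895186252881921758814025316418847395798580272217647018453344587778334032736912328526642595796081394605330716770619467010980982045406763371468140544166155866992734005677196354716362931927013634375001489304612839201874699354757937497296438316583914452228157073426154134094269917105807454237879956635570995157087930618463571624020591905299143345386493502289888260837562816525893252646515666803852964625185599885457707770265228115709607369475560605988066502077798698900200614535223575867720209071465961400812742290295835982096367605619168614850207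82502939017329168062107669696675216185381752292869790067570435142412415678652059054581868086425873493771765645527159549034961525246413970209776472775918364952017619157392979219362120339112511082630467298971174641657028832260641276983625213144775678169119733984842397383872327820527315133399015301700599379637971578751988913889125244990009553925506886562058428859467216955526594826420898744778222744144668882400032929483914338958808780939810566797329028843089323809061624452349377823840168038213522090518533298939745420103747950245897958191650491609068252792061648897982806362950655495838232325391850112779453434387283338055643742107677855281955607524796019246830762302241223140524565893173294091243168956007661704638396944058098599667959848974112807281253289475760622808373735248274678067554186140759285147165231063766666906579206851425497022901505152682491073742814726627940925363326661234679355541856250850320473656839482231006842147163961117806474297685607674961558447932989960295099515085466853115031521005428097571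07667724063331116326004617012206682590388420633045423298570804224108380868658686513418924584787813923942436128000186998825602770135469511489633323687155075177876138453685191063719267006914904593127563541140423340965605015367289656726799300148392387420803422162362441329393130286190971081088473212566012285721957141084654959787622038045765256137658740027046282940254916606097811039514165277654943944222694875010530630888582188161578225866397298293063183700330116622310584001048979459101222940535922114980655400130483191999573812285178852956375780201307200101280625952733480119000959322215770090894815736443833567163319662658331483209377036202106323967444479503163934832038954795583883641388480821838574997059961044221795674130276559019084039391508336114236057698242672599754944973463683607578350213907395395742809218445191230524241339985929363313462123167557163437929717803033138700329823686425168841962467830826463425871987493433532633387808967645829016535438133018105572336283261209563079636073911136238215854425685608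64049089732425321417127245697545955026950927060270947893292778011526417441522896299615725978242084726076331110025066968475438254591759059140353445259395767399044370442800638352837149023668720710621919330826247864034792311223887824297155645011444792249067940251051445352281458689474601410686334804244321860652496174369362988867497022760218781828339969881669735798537282131664662575192274458202500746872539472681545216453661250171005771015831928502559389094761154067279663181231654406229396715876779979800048798316102577667355270796471564070349086983042967667374473224418849931889661859106334856750810377327813297043256883683734553952997004194457923719671268338816823890109673407557246041047656066643442257678224445132398500677501179359859798243458720181329860644629168416824210463565424164021201459917456896618452097671681829359573631794572794063287236433412532260377733056754033238194802078168652466332072072784060012575912529022717808479534744430106947963672076351102148925432471700485260428508831936983811787097330584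90893944311950740029513479642179754610793289149623291740114283998796250441306820840773106574806919071356435842667016466545421558302551126045614698962014106748664857043960144462965877203296197953816983321733055251302725265343166551615167285110216982536640099363229555613247017950927877270519256870675347302443643448349769124762391842101558503791447831441218282213473801084312493118544654754853723645101357793965740094265371611712776407111663424835126149284985692952357460765641635617196561538466356476128679208005279766876705599624855598129265966046862594446362826344979212241418074233127680002943637968869656170553216269582687203199437041311177511414824966501776367043434694116821572441777795490980042818430224672773728643808796427651652984366053216404930121904682452790436489991204013107518466792408140230600519298645409002527430026921859223031230284300018368703999623923607680958714537990062259620718393075906730839711281855288626704526655328735088996235026444937099565564911431890110843600771409321819294333829636392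33858755053957485575352067735396134608002702115625236614816516192212273223292356546639549690755489491252696270602717491286158988104983287719128534869188228045477279761996819413820811595212585999409597234938654716459046693761123115285984769680138886647500263704492295608349442670235496180379113672201353955930272079552946289482812986512676747224231542194581283694223987656017826756174329348739312033578894096353997827645604576406388234231488347899178116299071608448582345771498445897519857294063747488336011729760494171221613350744929876889899305991048181708506020767702983948000285370509409509396365536417670526100749833854351619274307045411409236519029477872420589329877472792672679515459040557656922543093711232816008654672914184154343618995639616727425790841589817917022195410748000336892583288211055522357339344283894471178821474620846030624626557021066877634881054991279763410734382043905338390106086828631134639977618179436324515519832919420281805466015528035097299849537245155001904740314756391465052889754378318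39307369395444629441087552920864579464712269360054553848082861465611379252956071290172934613140535237691233636298989458221699287284040191749053473818554558393019201819891020318796807973613043485174010407795487631146700304033931014990434189103467735715333967656932985444500641271262930130958108896541389802645655324762505592846988347874321055999874981223994703755266781358514094130790062448348787056591636923808093785814817471981745841128908627109828947245265894167469240038524851619196260044660591069100296729785529080708889407212179266793729192520265588459472058980737526545985118276082476962432399642118871433951698683134497442866393099903533273903810000802589906659195850406593243506008208675725008137768029558572023398682248682793969538155256746596819930611763553912807836844494929034266042899497520315617581204186291118177442389117276878485964339247084693612940369336696031011420794485676829240945344591216198505496021250170404155708786414223957351716894004982518753674899549464707769345096665089944231656749518652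94584404359516030321260236058210616033802862656123882267177532430565693211786121701579381112944665968376341696786649634289532176570775658864477238655790254290951298604501233999074923609127152515719684227872131935735678375384096829505915220431244677608586697914572999553047656014930122816848225050958271554944414468033243335527660857167672534113591918550936967584424806621774664922773592483114432662815324244080806896687975096389335787879626322453636964076946031887805314259978003384192474958982669180631986426279935176672965480889605765859164363571084859585802126757392705403902645038021742288540418921423081499821033349382716197504915720172073147295519017121211391989101126389541393179086616739106495972337570839525743574974920308046979004467696488118007750969639659372218225217139750335440180814432222945957099517589733407191675449476124718266414969921396994240772003462551632945378051812305163133320462261880820939149499172529145809144926780399161799042766431774094991234883817399727907748892149814903227258530402137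21344815902960759897610048377587376125663137923453359324453607592007961800801751503751817504845372918409142147076559959038637746116821610013449992881126973924526501602851375468448942028894770170150696377362998594504071982963381934822984476213830956462810781966860574141297885141707641726636938515278333675670151999265935579420302189237092123826150796421279220395879244606700564799990958588566597883569444162447904755129480142737066782209633111902241766134609804543136007082651582722741831607946578964129559997316837944584014826399505478184033746502820459522703547403839535462353572291653192278452910058497519977850061531272659560350623608498157984014650919057766738933363388580650622683743361599225183975607881673142936186308535641122879195868308505081495535930038083035549072845737263368596670696635996973167138357831544148715996664874284422212970871525577131989465920468182832326681494047444017783992223816595279740268810355805627506440825257048610186634777752876579753030343675022204774827298433928214413042327593018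181831972157397404546862800150388722786374994960059282663769323421948981699625449014980143459834827693255014205563275176041489684845138897147141266990276178432746115179024799212759154836621839820477939471691082776376650603365288957605415300030314107561756403481928148970264608926561888143513674016817295693010924253443141061097353148533232468025811722837849217759115924481883539455809111709734896058790068167941979675257299575929139235534185520436607944690995990714550193798336902628764589978632636917959021967791075835148783478414181044551303722554179967261881702985537429220588790549969369188086610820971318457427985069457155961828679583345358084612085217525546494431513040638212517476749762976837591268424517272707015781914628075793827000865900774647608471315751730826485081546377690587114915473982109631170295489640027044895598306560442573108055178632581851700082959310206795776)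

noncomputable def rc19 : Nat := (nat_lit 2262220608723934252887894078399592038051507628351131757329864537828955569222423377966201466674155377053340834999082072354758672654894766351371722250434289913361289784792246686211716842023812871899148674057387662291543310933474449221109641141583740661188707819949817004659195214115503256890623412923047762431935797731357565348737475092867802213249563348460397618724006231912825672466118759848159116961475958817399267709267240979226431515331777725953647291857749864508129285479938379965300567989169109687563348795944118498264631182646736298993260306060333101095235589857138195453735637416329785850410471330379920135031187630690771354116907337209890690329216388040967912209646800961958958365182618287364154556358843667307709998197371723795369606120020197202514473809527885251777818330707944881677281828326851704529651684195949694475146695923891557305757778766173590322189034954885618027167239009168013207103523257433534582132446543879160126023423238690092403578289835478367063692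83764457934908319449792843669885490508621266641959576412164903101807484982411071544265598444611906286787339601615438709360795166235158209731426503628884505108100363863368951287341791822435215543956221846924568220462009147551936736204006246288164063035855195157515080436750740805881716045524617813810983380190632618215353546649277423417061497687868190528864397602981141138343273862419228871714312193035741542350255268803842997475643702207800327536081456499447697860408445361319874237713223578930333883009774909861192192544875286792429320123521443838435656256612776902443940942407911065740644848481092452171705284218262119967533846128475428585347039064479151592853529091259527331370922448881714745778732686081309769952188259660990770867321379902491834060084711999445057032001446924520837168214020249762968846777555728401567111412848100530091119324445560513981356211732841252086246965794129766477021412269295866674978105198620987209576874620483363808247172683717673625988711367798780551177343377341204389808272956202019520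85719917767236666753397162167749716299606590718466523657750380749744019726802563845104689527413702021126664654772244525115460718245691006637360917992154167382945097540322849578648234636267154768890409452009660468018397847955910052668322128077293985714056960236535988517799040649422665544525573277844620807200692436669894938311183270758265324107165468479450702464706177074789274344782984297152715617414780164378519574974246248228194560188222296171802180146515326726548285028254947319933436014440966608489618984478599288524423297068155630059490642601202226863515689006211679461635820939930547447237338809447415972432233308946284038432776680235180752750844235628230511484236288502932378773505036954528367001362421972112034054668772297287326881822846919879675009176964907055981808951885198212186612802487567327499057684508134142138217831472381965866387920514327170558037140104041181065558446763980433450424086323198580462613517547628397030107040379498725952353015975478245852623711589116536599712501946152872139794460255543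74510759710457015639156205246180286879740519722678662143114038367434435103580071944470191168492108327600782061811574124995776172267446435590068916638014381812498409963018861476334970997533749048730049653273546361972890549854934219858558247743985589276009367056808563321209921668524344253385102380540031958530763743654495435763216639420750573386604764220739802980114165662707110623711355553178585641602024496070095898505086775566400394670524073111039052221443977273563415542727678281062804306663182756153982778166356411000327367417496840229687729744166323237742120341692127302578828750189210109243835433685043806518545815235207014338383523572678678269227933949043322978266095774139218136214469910845951365297229782645245139417447237228380081758647973661281525129210639764385027522456303351548415020242413814700254102139825999276841076148418454082313675010080019227480483124503624349445872284127929454715424464086534011866175341455822253280665637019117812697835455125922564290141140406976214268290394226422428763227432590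28084928308836736981745543499050426644488018924776697207183522704665929410272063278345539330467764621551375861120352445588615605891310428570506573386018090383797263177060394590546955816985954008660354617325907157673329569930505900004299969672409589202771672713775152004507236504558537295584629860337157841487463833489803760007595589133856079015573073636187713528494036579033212628630690051829592961059201748226261338865504257548162638283242753034980694605842268365133893431318998205091889802880897143129928233031404919619397932891639755799370110189786382993808797334848445243319025782423959053453581553395116173903551680409004743196560570997576534990334616207145592772636174949775006586409440739021129844963383554233557278693576085383835681063003245381793129857030094009101950823413258465888863580596901463099355404153424800940915090845934319904402970616216777521398223142443351959094476293646251052456957485920565942347619018862047017905309560095137377382058901302556365303746161310827286934270872068931894569360300608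51083438577677048153936088791381927047631271925362777619740783620025331361176967032880083576217259374314481412278663095788096600946425269674259689803101095302286749367626790012662642116685921735871663573310239095794727145245590628276090604043433792641333443075769221705612022710538784938181908805236697694132883505041331851213942188937866324010924599459952640795275221794234395350838452272123596438362498870922615182509310283665940784931690322367772900420577850755220975911021123506286249334121199864674091862772089821595159177098634356790258760495810542837079646789377931826404815671129139312065632838692259131845021436603180938761749892938444497192326897870099367621289099580442654633439111852391912280306683817915461975995609237408309604716755696212206959202018961685370039446855493841300833221477603074666950257725886300592505362280385679354424955982269198723657099116556791905021517432596671481832913912534733408848446816484347005026975403237126576416110898706204302148136732798408274769749799633948905834486883814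83508481374935563062343200847581066596766339422630281440055720101216131191563267263909116149466657836510542295777290070840235720036518659127812205857257506507679995137272056356272257694068399659728468224615600254317799930847930308430483072612726661988817334088244689379670268381478933755521552021652552827341423840970067731554905658356298105252874685672343055541191923155245365049205062300095355338797429659084828896292982442967637632091823589958383497411758170305934552866326906121381663650060378902154442347694610643055234369983926842724768224237334055507814038537155518276186772657439814439394730367593466511162933343116177445733368608993955349767020333171142454995893462676902548391555056339866989740457018677476446259488861859048193080835839476153720279951299744286312952675190273028419155631431903987693974742413689877605156013505541496273063300854251844036484802740431073571237145302860356795136026554140996144788478151975615883846960639531129504257810657294780174620184470200799720597052600473284667803880276285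95957318834276081143501702349307950688227915821541303572572951881147966791583861351238950267821814475576679299655712906907034611172250291784090224025026507861772294953408719265719573291590734032522692371481939539651192491273805498675877131086418446574520468365838730292315080854177055493464690607846562710438956764742268768902273979984194644965274068691632204805011787252146421737037056814828362068648292105539952823087382504751613528826887810975510577616069621804883405901864242697888315927098324837178883517767751144289421048697935742299832833134608731199260777610280510785827374598600976313553181445264079790554681151139601266286116441021652530777470591537844097878977188075046284200110807257744424562212613168116833383704375432764397508688591316784163039112932169769802792625145136524477144506786919900656755300390486167888427246178284904237328779966761833276967616400378063370320753407276241396376628763519968430798466099643564992927206376572642925943470253466404255082133415817897036787466852867133247798130571785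15542013590382466925402505747932961029100261423150913231196190848466609013513484580431473861032127928333009074829613528953100121138706646668199614478113425848971893443408203533749021802769123694033508031330620613856527326218885987073938718229625558710617471857000526298554889851897641627025972760077212049506254943835211120034523968720219058616738624821862830005256966028977654436952520196815699169228285893544077896672266222457970042096219589220890392343799204471949856994412754977154703957591945221636176789519138955819014776431250500851263739564145259482631976142102306597596614652253615742970318630816561463214048182821476521397931381623327796904304671852483036284481146737711631446660895436473261163939052377417653388667058696355783660526727652803641987646922287411288021796501062419857492763014352498141434368586630539334236899652769181759415763785193575084616128760841190938030550942618311950520551390298698423739260655894562467419771900685803891743848702930076180219754617761071438626523514430180196478736972504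13840426116037134513388852043359570719922694562059035224850573057952249128984388967647552139723296142281960832066568970819478359718457842912647320602598674743357597457646982109387168002837802441275659070218775492048216029119811752980664708438809488191182294242417244712582621815167859066562346182944248165305738627358757344583113997804731925240327662259799020472010232943431833780390905101653904410640934560063232407604853101043526604842630315251497469515932216595811072657565191895167455752114057542485031169190363732552391547289975130331598528239120620547679103828646797777980364658560788731701126339413117386679461242588605295752903201292255067992681159992830279116140923321358220318166469658368433787476329881702495398636214788784355493105785120043704417091095808631584522298281058038716052248592894647816523024923379869103428694224874778164304382895535026273945091390811660129719549293146736067404419229118056892671811627668341152475161609581521211393030933502533686967626351884179347631224491664985338161271148348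88557083871383226111391828421535222633928385924713464802012472396596977695551918605642601686256391076144958961519705540949664659122686194618569149402923705853572825040385452368383045671619904583606698830594466006462689096332151537085697164947836542006690898286516268730221305579506386575154954581278295387635421136110503738600088127193382909627729890453795628175773141811986030605306552770197127572520297050647354456956887718720404661104393764393450981372146172995825691039196702719360253557136810268972367741502357470294741534698271672492636438574773803515463923080475657631565591889053866475758739067668517199757745995752807978002918067231248404556852774025205509131430381851628082132801884395639087633759131387788545853448043351742417879130834127538395796827074288094433349771613754396780010782824513660355356787959406500322951892523008608807126056858271570055916549020232328832952708763051953493388270439898905117513752720066766603109980810480457173649849882013292353429958885698383295238094550836839566405106242004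93086801590598521511425735639289662018580546527407800282112191028502485486741371546663988578527783735552564693132653108247843371170790450509873206783977077897663339593564574945483775724874215531228940373868533907779623833244054999755791812496680779105062992090933953736542909073819862957401913752811499542046474115139753203364291662034965134997063828786283249008339229171636412913315445224628614487342790179885348785215311852357944025366008067378111571236435285927485912780317302462288327364501220935407396080891564342900666980980303083368638194447145533750634946763114345125808932212166702660892927127128788661186073673890559663892083680604709539128141085746225671297541649879291986229507302154053767302971880917027416476015292869930867183080084398073071592404752232106919442847498640393471479072080613775294319415925398780932676995285844240085907512768521584197682605011498242180751456193879324726135547081570783371580661385352416293311142849249418389570331399671494602749052030330801425596119560447583190839477862288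91298907559643193541212198436225339901450495089658406933985854959928383477161237828024881429365206073122762158933349693637307834377590241434153635402187677800827604003187315245030744918315638097326014720999052048238891878600283639339257828962018852435718491497780964950391723519915076120830510707085318108943796767691714363867692755538465519092955016594466438789803306077153938619783683833362042562732047939236110622890046098198408259710313253003883310017672455125281071687253151938335403244207674300043098111942409040399067145877665884693755740656782272209533855878317143488637271486566008549597105984198359787973997934807843055139603241000074779822618779229399538004285961649788774229407156321331297514031970688559457182088327207103711008287508431395503798286102528091100448525699300459873537047421734782216618704548687619539810657375519619237043427084103666232707331762106990578033370181942843130388575566567241459729795904288044537649254767259295911587921096966688048152667346195445237055103076492423951891418978442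88030476779431043659295738985751087579870801837559387172875011908243171514943667587128686602599574494429893903908112827255367073115364895111631321231116789042247373462308967923388816679660636488596850949668644426795453358650953065357759513492752279919801266794491110592118220236852256005630642755783818173146464670651801882085666478515117321270115438265273555549216596082755922812985641746692299370509955298551789408874944951135255023994542353119870471870239751926035355642801659932524594532191818040198727755767515672129897837817496654484030575509496177614715450475457642325609340317746509091104647784664147612779248368112340999580848222826916568141383600245250458559805042865133134056983617260542716514585126750832447949200604835825844959015656735148626323317216391134480870028402979777993529908399192314036585588802754275546689494188036426381075356165667767752649410739703989586388377793324147163606576331694773665631186409976640066539050380022207299780023685937486618662317071433278664539835747460295129935037877091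89675646368729591749349909061404468220965199263264954485090215446907551012804817566796380386602459256351162860817685606921519418401072578190935194430516343416447582331326986423888064793452781325053469437924026664684720008772536336547532301408269377614401288805984358643334247621114770616253277898315405126845098945038232461828974434762220495946210049693991640151596762216399029482315850241389502440475774635665274235885222018769344849429252727331088143163169942643629657337790993815284020956335220923984053549670487392417145947024029437334893680283297788404365334316405976054689937684892912088751040350711515395076649048731565476237326451524716845814926266645636211931033065480831755723085225049934815597480710137481363411417537072430594822724517394476067960566352769730793471929806229594226030246277670767625252223503558149633895216953989323119251697408408121064277800976258509037836558041329795455599943265125406521937606362555032930282326237235681694349704426279710019943716892077438732936888534148045587763768363708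89701478578723765011127622338724394827435014102543232584082081067775311286356528444975422227086970240449831870503299816692998438069325613238306406670749802360615870308254998820226406196218933566808481680664359026858952766483455584163789111516230858294429707744437811733910602607218339387462766178075830189395021725914430852854103235828865210479881904941418357368650829089909723309180007230121386443489316623720224873906247509599497689686619029957021788595594236326068095851190646243829322226452170335502255003332689899413739605369239446792030609754388810616363850939695458666550518133538135646101411239669912055585518883665055826615772158797451824696011926675242789632075340468905191440399698282385247568567429278443043728581303014949228504977749014016288412156540793189468026837266154076061521160026184796013470125004592709526693035810384275169785807727430255666649051672126504581472814188305428610101652086071703005957737856126978846210856945040986708070666103476333587820370811518704166584164523966442067638348272559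49266476118419394221933056840721500651998469621915125287395914802272964391872223622468486262403947568035918236817185738517449020422036674447260384021823916365221755429707107823702517685995963562014013595754901063177531590134316837021016405395755815810787062880512359885771120798286408965364920325480040064320114893426612433578247231324216734915724376858307704838695633802467265608166377832307034990031169980898850968111065726488101314393038456455656820820647136947016329372844124376835833020611501102806189625045531548914159756147471220885278620170593574951520123197485006371925025174954391112010914410036110367864902596285023016987467327918101032301243550732889370092592418437525648897666381716545035639820499397392619159052473037169914506349907159794456896389686158185537730064698333157925463786439355192526435424631304061478073374937071944550697152892905098139169922915935836113028299887573452126602427232910299524942045343348561110281218917065976472775353275405719379318609761221231371243811621138780065910154233736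807512321516271762374566765612832731223645702627506169584011028397539382372930779062507636540856620270328516268427795662981445428595195094509713683177804975515979207416247260946367271916491036057554071181002941962082482939888484181979448733213450736825291913801761360943571040798689834873999730179934018925170776232380632498951756388899503495733851630210482812403878345755524135440115446412336395231667296910068666287540970784907139978471926762930515935322986328511337554383971961224591563347398039757945292789647396305576154137333270755897444684764265949012675498293052884427683451193221456254851472080700289173325656685227228543634794669339097732634148632845368088229556664408561049305033471189612807602789046491954045437098862051852806295907841573038464746614115059440102074270582533430019319168336981417101237853020397617799191218555498787171060254039257274806343272809694756864)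

noncomputable def rc20 : Nat := (nat_lit 2266039837036365131595316722456569991165683592610501631413123200770572818628105707429668109889995907452014571327191414523573432706687939562785044345696398304340399093361328702332900263996946164586742016640434557245779505425611146684721125110190643995184484319818941684734835352741985745866591519205984526486390047113421359140175579057917340699915046163920539430439012361005770973212476966411438883182416248429482331561776896072764104285370918249755079211126245765006688262977078153619435241397820979167645249293262882449606278704407474639502755917106922527647384646323103435991336492802845247650290584521412403437801819464371184872983644341283242454701795443080305857337316583589881234645441151982570646402562768460678108816690774242729595994242542548989583482195752292177666901771648001690257805410042841324740822635177233375154575384337717995061712854335932871495460523235344051755167814615067282749911908112669499489927776519520311624717675012856246157192693640524180437708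30399468294905687647449227199279484542816850650092065676662580688556584400683938710229746648284996635848747749763645946495165056112018602743016558534639395057293834825679206682455621309158183639317504750099086063226402092637472410819936656759676273953256077578166757691599002743238907327098600018418425781977838416918805733782127645600324228240723655746511375249727546818600788162575198357810727782102168043586071538911932357445215436267085430132318160562073569390110502944068516517754266854944068205971385482377106014508919240365832906302689475954028860752334268748604401683455902074767261167399175232114880874825719117222182373884856121791452773217423245470862854956016267264554992123306752494778834025231036482337942263863126815980482868813902405623173461507387248959821333380108275185389478614480147118885503757013507775300672832490676791261804352546336956525748433650436740021112695435734141203300384532815825614474227347444688268255415384260777898580562902273868558135586238777621961969411499003442989097662430063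42925567797484065868741809566470372446888182421800327798940545894700607427155458926840891475491854136762855110373882941935788670149725587698052154862952127757839814172074795686735268686589249298260779382060290561240597606197592518024270845997804831998439543330486058470366136068682167149257850970544926122255309103721472929157596524964285030942602033238842607201243685616654966103478177738805302223737339434731818319891411210344081498905379012234504442346611777177661206522840815681876152757928116279481971652639410837851674969622892507038343202146817405995174773014932096023080517175410116134582585439352597423475315367773864572530965900635530397232893057466896679094287374555230646552787615926297584802369592057549627715173148356978820608308432795503961127024709793983399643461693466226891450622148930691597663756873275536224583865696343041611591091622000212848851644117224121130789580316625186965642012083259937183653410573950572251607558361808052388286270901374436918940456569533963370376090322408398180675010641465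67101911107531506609600745383982666120927070294496931660154682145149380101834297043537403944108169681769732798664273142429554767193212212919733859368760290157135756808458378149742936700270509744663131610464710307784385869202275128917694724010696645209442691565354791413149258628858153132504481729768332932521446546675340846472419323621703188223848015650775860900570163291060020411766652382846825576409552542498569670328864077184101002117405572931867380541658081263846090629155569989881824610454753989288352367045933495265728227677261055168266577974077376256729067943081901188970923958051558057610183527124787775917728295561245962664161586296690968690404180489193576798426768633395644666604581779882731791400952272907900782041691762801156224881953754707926309321572340972419428343755960216675953588310052688869961682530143610509730282029266314843501718111877131929520084603453145309257210009866952648662188945292328189420028772226620031639521538220156572860996977481581325595897741742418712631989448075735977414894309963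73921378967530539700060457453640441658828822399571149107129600564010909178096726204918668102859110373230801238926645398243710594848887246745453373577855668865847099356092094864093926249813052280781749880806882674397240819502409362095602373247316411416903338121691880354428316139564581321398300745396469040158695997464383144094073636197552625159379002292205392099337946740835523023549176520772878631383367907165344120146185525333924635413105106783862873770824493197444399448257773691686359545134820071318174523018024873339672502632559120233608172334047307950253912417858941383448887569080667169388005969877533875371122306377439545711035966558843107772864578568848991271179567046376203513031504105696570573018397845811501907648747042496403130722208567166287108155580245788283983657661687468651648356939247072786922396185997017837507279491164579738496457451927682179319020658191746062015132586557972160035841912869893457949960954408422410337935121875402469066949806687086442457459038891692555246413022413556086933735718939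84880067266373099882816000580669154054762360735491099541080591715815261754587104077400821579233442156275021841337257112910436254231912822595426712217505467882620764505687306399458790245001791180471911289022941563803138337586971295632448301137283633923918390023544232758788514658147755334419983391143232039459425257417074595741926166541441061484195553563261297144120968104838537824095657371859742824811716758721625146442990722253483350346475990184847025766366665758293608607773189776171181923107587538964270490494924628919800445534139718595674173725933919007063978280849101611824980766249104245794471992192891961155905701852118466935903691271330434402399769535790674510029308693037026452437141984996529387071983917261205988475583244982186850005181914774488678909268633524222915771053147659413066673285339209180468605322622075758592011251463764819104392143647538300636995977449007048575298632619916286815194223638612834986632137736778417313456418624789306523201881764306906614920702985018030920128419191783471364456664224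67738858896232522564132268455598874625844234423139761991733267013561453561831056605614634920525839575126575145320147263864620336374965341292443317684018572281909562802219067238659536166983185662232029776478648131117170990089060159912863120729638735379158194349845471515867774209298175049222084378957708700997518168787956806377050651063379040028218011019039868352819072858208968943267812501852900833353634938602779016570148877458813120351746371076006269771247075294823538260337765488086674055710625349078116613751675762332134690515743088181064532103963906261681579901282090176897447746859257776495884296974848068776221221439881850292595783937435550945193711310249641074261106975148482054257634175222240681082303118295105242290405025910299867980625214810534682522943431047261416029370859398639581893085975607095482242350130093846722880931474297120216439123292665511296280528858425067956605988423373701249885486345471280388780202341951436966541748308200135740028340733902023961076158996033572714374014829279120507849283355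94332238381938235270641873295343644065338843749972318834171124665320936513955517239269094026497437570366331279768826771885108843246153849006837536644906237524754454376733119939900605395605519986120710938338563995520249162873155672901663424982192009373123971851042194059722983134398043545488864651192070185083763661454419776257395325689931813007982243515525746314785378839735387165687480675285148908034473930694367400348253178811499837809083557042054546209523518403278547300901762412520229340522057048259017509506942507248946735039364651899303386053760756795712485854966565376853950975509749321952602152102478074073221294370917857356362496551121969650356374681373999770625914445655926325684903378464193975185815115382917135435073343694869562059264174422382957456736166310789877376797972681536816381544456401513370181128214587023211512241944847689025998705338742025859264912957999508510727814699855284198100749853680005200149071558604583228468690637035630364336197595456035907653804415403511831872693644990624673838946567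72372878576838928954295840427678640184696188080954180799472218991376945076348562547846469289120443488728909981321568751165798416679741173798801329130097202900736152451724422065741006056487197701595804469672586532870751197555635214585836592258865513182252829904020542477640949460619539419354618871998922448248913078929141929045012419756259849595651661654647232349248603715420685223977869691237327012920897643504854179556239575656585070743843585252012977774872993049895170697803684723100161906002844413715557328983059460110804606987225544435936361593532259083900404277904113558642987281497900836458325932507471446405617038550236382200744488608168729898550002717273847864654471155567609578918193821808751755693917487088261900394098650199306132809495836795379178527786161243614496252003064956327657216327324402089315337729616247302167769852597926567439537935389157128273710918232500165410943817953859868366759463424578803814826458309678329053036427121012344357348294609617310484593650873543029597992217376004247657745567419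46551329252819621967996598407686993921940633613976784293308996164357024723182657466259912908755430242208627266676179736973473083417644902993184045056469657770912364008396564507197734801219848378929322668524193669661176746979005885018890068210959036757029618265106596559680733362179548421465360374264949980456082697710784582393844039548896777776961785032474919494818190105896006655867761643474370274949051324437063961589690029210310806046787085565885004497177008023965682158236715437372431070211911272662859878912836604507670043186721189573826170015583657682139250571112197336457988225829501069963735413255390122867931655846853611337077991904788318615460867318057803822273005965001091170106580855385150351007579833293790323546790128688350586047316910821720837738593144079877437056882706219484368456165396089331738649243100940305233880829208802570367595919590602885240432205739202793320762069100739401220076806862046180926035611884581503078865057173798487325551245291989780047600533536833088698183333612671714732080399582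65216562083410871417104831278644789923922013737626788806768480433476418658373261452282461882602292377677092322055419891410921486296644704921535407530898941842720729259778655142293867568373873857133172402465069843421902818267481145930068720082498376349045703983738601224278957150597698730090536141362515368006266852160854938840209433832681969402023206970944130777134705774191596557720753084623315066954351313018360468076796890681953828279091460543650726270213890374658672869826724089444158879258392856817707459168425888260127566958128273567602419160800947867749011084011258886129062445207870729837487732687126714908850191428905516497162940972976547946778484584540147956821899888790640347677781259254742721455796443070800831573495259758415856367078896277352124801349421350765688135593178685127254403398450331430489053651417144600917598648895547270510048265337624187560165981946375487857130734882681138115209315443928484608581266924177168562492628741370409025357417860498185372375592666104010068909114932388942281510985736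42271096909171765263454867373128707344984203691070990768345288349733027300132401106815296389609691905768523257558990834499388673922633782739234314957806530942888417467815387412820308406360996437796348373786104601762068710815283929217515833176738969427137580230219769251611694002514295820877134563653080229202232231235707574626899941732650290095199518950793168038303853568534670085433365202371344737686060427964058516876470002012633248218575365787722451914784859838574578123251866159810974452831421258152342569441356894946095562169936227684771282335817603602500371769624207120386346862372576166674027793927060539318516480140859469915892263929504283319460307550694131446137432649725746518977004472761001322836869727180914508506748432643572630988495190876385604272023539808372460810331006642734389829602482830515973616967298085414203078441540762685110390825063894613215067734545494091750277537026228246832878069048073940182142863723672547458942298021686271672641258020451857542132423205283182506050874262308302261182972728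27560368307805010712676839990014498318468644760356851018142283109606271964234198092037899292667034798644328414664275659397299904695988069006104834114099709880236268372527926720428555808150149955732132170394977877250842250170709275289645210615335753607211029549813166780267993078915180663232774145837720697514640143076534546580623893351113381915708394827095453006134682793696657992802327621302277253470460726000414683945056662094834675042648541058272820221110681495006511530722050563301045594535871001253814370373180739492008737455249043756625978423407036424103212769783502779038695733465719746244646191053805278149213603353779208913604319831606574936767948445058518021608787298582170154436644033814620420740917637164503693392818438334280575062429174248620081997074845112204412833891920195826583479511086333986084898095290911080620742645773344827770125434774780308935340241343639389602908826555892568429902164488245678188305681371970040038846419992250194221149177998990446412660512471049591085108404369034989612558126882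87873602239191724790515005316716234727196358250093493734390951820812566342958666461335496868087917078705465157723637325854835666129940837319615311495074495406115669539613703980583386599455847631904932450235347391783458368782990651042773143994935357940610412672014522647652838486897261770513357853394861528768797581406119999952335411173129653886780430437101943717241896754359232153431498949581568801428284614209687468320772503586000205359163055983237021452850016418560053216282745650994118384293701007107090683106155433019533209016666111740562773623067649100942481244569883838345867433768973680142064095101882726323912817082427070226602841516004448576049180982576269411577469864524580668083074953659482076083146666911448245629698730257726912512802909814026883517885842627983324421376953393462100486703054055484013597555885716287322873934429585275562864664875333442947142188199438340039849611791407138458999324314846760762624857154735507595102837997220686612119987402092501545554398198583572761496448725392148548362318514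38811485321559264995032496031463150744544892935677183335195455767027619614645580372610230099703211598976702954332829179274853616258172402674008101686350087059044853512964076720645117558239966302298901165802035462674678523905889105184299589013614568978888166307007343952703999841292854964415319081411262832711799816499290905284585523087292906946552614795145501800713351155065584876770062517393929517848040700287714534643053060126918743403413518084982099886907562893212665903799296638442378072452519900478019772020223968348387609475596786277374061697080058798804533399234020950827169365084558001523085302612194745333125519069009525697665685083968338361909322096872022625191952088105586443379789789234910267621074211667331264183066213924355450970972475703001660258778469763336050190826598524628260550744096342343493664702407877284606462572499835427989036922979155360136939659947457485894061039226411636422419518567046845248975524420179960874049363870049251958689919019277564191822033375096606460773874891499915195381105474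13212837494127588650103678851271559754456743523161142093826329648653781869517946831815057840601646916119155590445530705465794075967018684048211968029301201651208649377011203237266602246181936966729430254950998800324514232991950696794872790029733374591689569553691121395331737928379104668426049011326929521819249624675415943713824520166465767442432353190304251426908618461430108150438460609688843690648262671327627211094629972162583952117280844687067369177416871979169252495520405158233153046357290962545743200575589740941149128988928927333115250965667824623360965801731295554575249173326770346065237570951028860925434489881389495832172743503177426567385634904375225439352342083205663995302875488122545422946059654122218255034639937472640649422395157223534291292205861626367527112132788546286182720121610829492712385049903911396557280104788061461371384495372666069218175253628865811344130877348584926750444947659530092807641722243904048706679374889331507906846478863460119038032647395813781836887110896072889352872447142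62822532896379910297938533920476974852496647917019983585221238612022039309638030965455560777287296742069383628932974133087255003715336787436157258386842156494453895373310619852411998934931465383135110477484595908250325190333073454303761485476356162362541663673709863800130596448121768996896028409603939624913350065263173620948351107447541907872650025982370654659336624429465916809257600589412696060743670827171671312095151834569748097960291028489389873879223562070197934550571068267739775930410725842048594433588993380132388728911612138867204274900337599227004224518293609773107010746335197535277505511437192950506659584455672265998040120362011306448515745478681066743461618083454093954457235398282906037269373153560705673698669860803565267526107411563960758664790162293529206511271228476451108032436117505477317584313504813287626798295223057929773079980936361884054242308648290256016518320168206080993528125808636374985018116312664452382559272495512818334494728677314141658080265316688687830276672957619336332988310014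018122505258890435210907111998093678932695099308784293086645094870757926600761292149029598272306275517870060347277356075956879920823532884134379296339947945054547693147701027365698478877912232800977970830146983159772468755203994102514794598620803713709363153958501834394809019298959154791889230701476933560578340453351552113132453765669943135386711146474564261984657419791486923723839444274225204132647502298434374594799967522574114683158936531860777586615825482276422485624766045527074147553798018946361532369734369505054973501224781404571335575883919137115020439224937480384882284782142176092246508456282256836921547012155481851054814325429872286105785443558344881033841028965319926823778142678238519118340246978981734844672115734123588144101766390589945570636959146455872479441253443362222216876428024724615425294625626423770825252897585914202377606532461140993646693790154489856)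

noncomputable def rc21 : Nat := (nat_lit 2269821341656248904042094243004340691934205995959671095062460547850840128408139564964122952667082946623829821278764893186318246203598568019322492507915839298727042126000177328641565768876383607165283381852527400005691757655013866359609505128112298043419354509594973338511869418551337537562509913044132775426624610019257117382683232277624096113685568927061088056284433143056032532459178842104146867097072476281267516446848065844294420222233767767771326997877350533194272380879561742122623193867655380494523960098274573592152237912761734081972259384948028555441512681636781504827084505411334314442042102286785129154839206962367911144921505598435771032427537201962327544855843838790927520760275439336627861342183254686356357782784826320892363474889691991442091238690762932098475483919360141008306557612272970582613272969004168602116766517742953778791644349295395100272880878647546961797787697195420473004236228438973058014307700576792263673163173958060191354295018054497974811662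05622999771865921047294370883160541050439699877686025582813162685294388973482812507592521293828961464003392063017502567180643056669054171453464914736835264944250755749861411689583507332994085750931812164296350894949415724200037506860892336409287716399379909161792263255419758821785922515428377839737081684973816998875573198813899668434442047584637319033026691288172307920632991796066993641214779459923734323098022862098267254082906203699757015535398343809685439097402075426228826940782491363707870689073785166921531818674876302705398330211163978850922889642614807906255229641279799985818702326730074126026697462692438907071751405548499965947565831226261596512110058794905269530866239749148171524394175095104451390224785934072180634699449074705321649316097677108349895886733957945944647998452356069043047382774374090688531334559357889766021269746523374578173322925499484685846697383702912820254421346271426788959059277760854755234061529236397782151837752613848680157993615486353626512617968877693292499986415196091049260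43864959843073978275262877690855475383989049253411859836838336687861929317200582916150035082595187397230433855794284253198332613341420695162013521550336322845141380435280012572575197620700777617019412826098388882343260805165851417720342496596037569815372848023871974854842970982863140695546792254101484904366780229887008402130258182316780575324265840427947762734825620121838895392349747060860871527692511197539173290414874168969450896039246951035175514198092737818715457068614952720482571121340103269147293011956357478113574111802634325838373060407629344513211207947248976153310684481851972464219200727109100904864975024835050825619359829708486352879826348831637618682397584992098261334957060168523976969965107169699298226505001328654273533594904850803139858977894013996251741477699011679701240080831959699849709267173740544651185077971127597570089167532575022306868290125811783385339545400595614382004361045586011712681775052433055986857826999546561880345895934682328837936873606568042596407580714206245989096240336529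73567734284230876760515917364335843292447338700164955356820784805696591535144556882587897362396877403940607580090935324138702861486044347796213079465436681993269624554796263041956844203193524900344520639199523063499412846152514898935134407007170176502449815176991852918566224269200179275533200345225144525817162422515755685835853673262814847406990065430193036634479403782699414985481682119439584757112221870008508969210701605503399274574501633326145802533574316565603342258273394376616108155941109315298291899303713732571508822421030333458971107623815534002382910334176381351840456985646954126509094692632893333344015391792037367269085822014428582615713165549464164225515506059391481338507802946839506081293011392150675587155664147266299527531592829441406167339190335742548482106332670694298061020103273991488195555043164671647795776762331672962835796694884600903228340348429300786461062864016309536257595862141714115232128446366078476505237429665441064067877943861039291615108588552321836870461745742180856639587975873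17642467082263780778579534513747146327509888312783406902995734411336261686225930694293078740855146087471172211086968533952011135009134261872879236154691819410667483809096084341791184997280469531599501485136926882293387257299130035763588779403828487398102933307751101558839061924234527975940038007369431617848269742080517985933828610586219699368408530441494213390729865591688574735077961508930431242301256087837216944110992828517919812068141454677624824239569795099994329568252210235157360440436569933416881570351720452286932334061190340839038961197884864820681326116629768913407624017610575064703630429209461328514190536131602905090331678015256111484922778465437825754150315299010343502624752636270381215005061844546932215390660094616574054543223959489436624450469683331429143798970208799240794851121847765467808276601874138862277680733544436324149696878193291605961530054367648854322632983869334376625052425734984772494668427745113477617732483383062209720047788407513573447213667476072601465874338297201055654011566686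14531873379116070383811307336383917977627068243603514146177351638977167871114232594166835555629725334268502043823691862862314179159979552005863437424247269944366418448901856550779111959576542227151408903909166398568257475221828910867745679542711986067333026180473330672837527638332478337769249204681681751909505447291054532123799092526086656628410259979762814579152993022359881347601395130799857556414643581951627108142261087681281124271084710217357689726041514772067767045136508881537709882718375042076262963430606688968578372166589475146643219258293876995047643199447116197142206837241335638126137193551824523955158466838294333746092100684861249396431843684926415421564685716785566222963274207137294142993089408426594807655380814944237996932727074832967424996567952407509637215071015293006262074615577973293849937222590725345074629628178132688276892345214133648864445717613715418828072847294304364088445437577555678482599627463196913294396106699032812049262936187676813797581450191814204188089088158897968370561558429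46976731991559270243126154460456268433457902818281691341397366458076804636836147066041200263034603240350605525263157019446736955816380116150678467930205017045358000140391765585773040878242778603737502111028419175231773098449610434193769453198853146952186456627203522595432548699055986061356726809715466906272589067162591994176091916346179418784472513415371596625053576807055362431099360909999775238589016125548191142948839259384919177872497253039194635044773685007632264895862108404426051635937245047108497783465480292585087675168183041743903882467562235757914807079951682406211508413098887051955008355110511083420966536351490451260640104198040284044777865466888959580829220370141879450130794145875104494304128389796141289012013320826011631775159272064218856180220687105863342217171315657645694847903804226433808779231415419914447734071879793900733005250652879625135817201975615646346588514454214373939307095921521324868894407203526084976499287809443780015151304793758578869871751172853255207552260307364074731763254512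69681123881965418948421483881443704233079052875325106199677093126424992730808578433787817186740520188431894038800044978492486756922425097766300174774163025517835405523293814968567215087918051360727953333091549894121509903855375677927429038106559452608729946402389193765172042331744408186816690081688879810614147639194837030336513467391775832323174360451339898362535792004565759368373468659568892795214319998929702532236189746031008474968684420545002992463674932253491387037441876962412927112049010905668977060219052972042952425964494570653120441612991088341271937882061128923801327714130477044910517207808732230239193583251519661607673710156496405418386156437975082392543291625957947770517021578635494049496461902150901412986267759991504091859691483368035707276903543963927816553935862856534768770296006365913436918140351622811454019712829602458414906928680966823752288859501512970472797295609853178271602038802087588266489567562792750768521552664851993307722879922824858673595152710440869628463024683265900274735547125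11669638793042840729276936938331420241109370389511076053143021552438212339615332600668944055024912834510532800685258209740424589530507390912990069148053191762238918453293346552907957126259815202774024443909504316669368574483778730297425859441177926599952454064674374460841388420108242633372113946787657443315392934011993019106986143317918175499934324589821625572029782107702374946193333261901130722186359865769007467656744910143233441492130353626745103039569561440974610221238415871244059718572936106236702560419894739763016424768863655610235956136633763620452362781201599082160434752977248607604715883111905835060010063500127763894119804088126795669561097551063042126931103871889932394979499184277316974616433381866811078566406643574259252263041082682698727620435574525334035299109427585601560699509108828723531956644168767615636986031820083922383120186676211172591996728255555687262934663834577354649312654109159982666216857013901744280134108677009366802774824772558398162472428054179234278383322816052518708858802079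24914963319740042372359544592042147219349207748185583523156340958415348065981172110677560425899625798472113310467615637924934494913232547279861266411760455436699021139926560085422406171453520669180968797203338286272801923397346264726827509966843637490343583720592959121835187134219731075101061738868025646441648819864891738397284130815941774094129032137978691478254634495098731246644101439480305843378293539074649715978433558820187426532972407168128516924235094476704801403793991003249467429292028606873583256281066686920086589784225386148395439997372007542579663113583786550876013123830759348131027386970145680686557484211436541334156400147923720270075192351030722069684115023536905082486346400622769315802684315144689847995448967252207614751151381087121785746499524222392658763008717530110983221218534727586060892753797852072159118437275509416751132444676349432839141275332577129577825095758221648540633045831478301995951016368188197861069412361575092760061191282578062640770426445780790282878997491978076531758139864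40238007514190911595625355062405839697712881294740445099614509720842779594732773213713492207150428023445142574975023111281830112331347630533728897675409460155381414469257755719020105769796645003027933627113179721193474411037594211805605174471811300689556639312609265708699692740410841622732836430263462396510990477266138079508013728676157064676037208575458328619829498113449461283654587085171452878925482243822175634506949565959368387393449141461018500333311870470917249470827773674102384646248247705250284093263559692330471255024309269959395180057283988779783811396648716946424790910470564266815518737265868889137823974586676388353310641280641368037381182722296280162607460983635125094218969515380639749792197479220305185797409991729558398307569142908196312322888324619142469282461054987522061993006150381330133364611689215599903143902750545159961495012060045409126069559975730406858499687213796346145052037944749001209480917681925589765679876374038198179636108575204890551374916140046202665156310931398375051532915835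70322370324700630619708327053335192937323814432441193319990061870589051708215552474253069444270521629769656003443672162514607984958368619170630662602153030625249087765261227106155688829633564501240963293299318214277902353615416659493858750336929102413464664180235641558337435720525074056920824251998480186186673338667142089941340292060056463971193041944648469116345669313262661884031972143852084027692352468184835129144156912921205950135379660359797316078071040339988591213380879921845641824886416302872143285429905597936656524563706548257622839918977477773421353974846360047832639961071576380589890164318072932533292890585090664877864023672040497096652796771177009275897530670397677824931955974885084667659406182100131928519467177955229910873828842475492738824847587317655988653911759443688403831727798600050759225365575361394663527908167305769639921277208645231060809524794620828469972837485382277343514888516185990110217344367882162901440074814939395421124487986097734278317116171584966716429877196432015646903042102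72390098550124582379289669903899208401099303242027672393025219087346709160418550456657182351665229007973533907279829395885770518026555415799310592569992963637502267667884149237473202704687263331660046400523399973921924412443172214388669225984407905497783744464806698029349379699521073745694899490290073598148727273102444314277185321197830334000471138186578505508151137691968392590423217903328734582490040158492367949190884028349050109276074210925468723131598241643197988178654126253343906563320991020893374659762139294883588704564538822643849212305876285528868750434984452481074076671616939302923866346765856082241234212818900025250538892628004943131616065820972420625726617934788747701438363235558090270506522567368488235801911028134682580538594883848267149022189215533233780786778801847963785572209352264677372121727480563344489071696401493057449594240718008777912496067228583360321323237729250331119318668549832347111499660339295412420154163853733043182545432717261597387841993393856399189290730438496667406889920861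10728624027170498880443783001164497095373693434016562275022009637088680659259859700411364204055983501818643684870343209445845792314006375973637702919749530368398255353001275720077551078072079756121031630607393227337570491421745683057962329382672520797350327135895990225981666681627318436939352813802209248685660071301156899810015894018635762279146153053339406654802933167895930286183686695114949188422101377348308538185127772685508287973910758140791508187549292746083653961095280806129931531021336644724785582383580974510148759151971756121735458118674333183568066526525131340601333547427221258777698851933429293980737458072510147506989218982256564267644581711817392019404305759471350589026377383921232097344845667514091584156043216476333363662985215341136600304888557339733584152590188480800129129013161899690477676323313147366031346923313934198513836687197550559637301634637960729254722286161059963021547710353588228102911553457975745470890802993645792807389102333427046977430384025838876408121316902073304389606154127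61175376589012211131243563792182803534840630957162528903684423471755373635776850085726013365071431286999660161703517178321532913306503939859159942954937247674195701228545515638488191749989295974454523966674937003132931053449916440611356506039832578904986072350698376912552605784008349472234859807606246461487709304217991524657805585618748063148099847656058086752163179224789689418011307524536884570718447319216249548506415666262482999394767420254096483888742826853057779493312143122636495814452752171908543114961207067882326867800577966912823485254136945832528753809617438475141539015550412704338346024279425651011417735049209024271278179938445192028182097166863646138384320483014082342262595474453907966826903981793623211015554859372008076348505488986899033323060627537142090681316201741996459327602896763921744022699026910474850736284376709008956409562027764972412519022888889020084479899038403583164187666077140889486016253527241963038979998270940396634538681442146602466332927036371612210524893607736117663147650874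87799300424593591933974184274449077825862786598812377152612419100510641354180916742793098671034081569090539132685909565439101043449101102097046870295790516416815626106717379442339648089077600026823157802856421432299568362150737504003826455518345448296954999229803956109179972743131669303519798119578041133874675353342174025155833198929589161242270858140768471392496482016770193127855161378512765464639879935663851700648993702847619901241074775939858309896401826392459819784982773848020796652900723081524000172051783198054151302504826716377647705360696205096683104861949750903026685193407821446477839621397250946197729738673818382516995559285183616850113685999098850023921752559971830837819139897326759763328528529676723375825650059864172242073260964524210476779288561995415722219372814860472830652419265560310219368720699126423584437860381566204706040772424481388852572249984996449430509966380822949371616985029291131682820896502842586296465616868133185088764915644315519928055460103743970454919729432751345481530708875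35405209907175818932135824252712927432936328902139276331184324332556130624213529626771297002550687365160868156332370479934489471095544846677678000726531823021707332315214080077470237253765745565443702635835283391361120471779895778473175260347178882322157063525977720083014296649593149666879040111625106790638201248134001802828028268230478716663566457156286844302103745005220008542525943878865633869816990528071281418950579661273756473298647196991327246553935063467631936077945340913806816061849491117227708632861058108672465688104384070191671792526667546081275578542515954595618502185299498606810109893308947331148484427449198379061704843770130911755567745373783537728853641561179402670794367654665087863386413496165498031927358274904262161065566785841362916689209667799925425453889396682670851208857607099382064959685064267015545147122146593890291911518870748182376061774691575798908102085675176166221533280052927801540941331934233649902049521109654993956013595294961370529450565298882840855256864621718660792418495850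860177322816552418525623680557800585465889675593110515070672971619086262041217302382307582842276042404274758235815499404851536751715886589713112129382395046172438292859129237552983872137657446125642304759846746540684222935929535582548022168593220667293596238655549880642215411897512258508861910108131376730371510877424904930622358992073386613928710956699851137666254320968322250542022231233771280354763963894903934378406229190561488636362293276682729384183894557325577592318094750321565503285656211327935628686102160097576638307310643939128249536863260249191423887117701749055093163111216413050797059477160094189182806195037943568319317272550751250751909716439904895470095990307259372481975300485864196098140249845348397475733199220867779894567185223382509449120237420021723525210417743629248318819970294309364256351790517307305033385822977271957449958953669049499465451593965502464)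

noncomputable def rc22 : Nat := (nat_lit 2273565269679545338906319984489839527342453414671461465387754384593390313835699290450964303985618711044180699962927345553188828489835753358950821009944470523032436209002300405328546991625240760121409574337210437463315201828952269719284656812190134625545059923162245972371207002824796146702326364262448892052377750935401611524981122256077971972473471559672844167862552123287986178992877482253140273819709292406980823874712526326859168233971531133498422506999955087232843430558194206220207497350726625205596843042355256889844859105949504028230054756423303866007831824572191841709713522327091402429561547145754335757985350121577185539368696953669256211399374704958955297520610916626611274639958086097659186508337428622796725088249209380983032275428586973809135399626932739342101916826139250557517482513192961431532600653189744519328805658365110728189917803068657379496952388155638017626497771908577507147380753839959342624675196400535141416798168486275881685369889704779580000630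56289906449132642288076805903471343575832028156525285661462430359599408932535191840651586524078128952820167224257205484739018237486386884210988428572812277720441346602943613214014696795205306484433744712503854368531612453154881260946656639902047113926465506443784932450894012794891899003566233595870485251071976476001234701351730523896175362157948900854037387401879864003286274714443748774179805397013709948934567549894601261496841081628128056504228274491666769661732907366416938908020271677426125935773749523254800742723268137964392851500111608352747705480335829981575389821197046417182229977705785025861705881377337082568548279696565678979130452508506301259262481119895429233645590653986194406861592484729650970149388583906574010798032800153985281779171745918785966637849700760855228707266147585067164747206128230631321603256611837784322641612414461927862020314094932797094472787530561866055646101597529903264785560892366440568902471613824304583576714008474600551330314425791534025940122484254599997179916067550831307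86593315520611639055234506866784399439669648493726357096548376735649198541973345486295432718731104008162009959954070248477352390919599767410754282095131806885236123429625240822232209514980731240249972132790223443543606102214006913240567335611614707379347821723521288017602319241492472968363336529609182343247315199012893061551257935672445195226977544488868227465998722021270777340191942651818552359697909137667219732468527794146879356801349013162849349248691304952045252530393711352333429634301234737112695235056395587800912807624228091652717587361603735668819606982423105721787417238346943637287044298032895361664923966614826141501238565041452845526420633974028920026601118606266453809329010720566111371960697122102792250363991469481801415823321707469484281631340335110288844051473285691424314760789084087090980512424650759232159551918738024073879658555851758037525073330752668649325671649277829568222957042525385597390017452916360600591587509699048236661599627327509017768448198794636949954866018837638033929043564339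71735083021855017757694778160951133813726819542642067311357028137070951570814792066622137065093898145333222350496129617410631046031233764090932680201502164519212699249445466601275232395330235696209639990853340554286372842806637990194315871824219455879230821929873596356538856076116363905528057809969470992472605907443882131012575631035919926731652464881216689875028352157515614426083454059841626168617725408236570445429353307043204611758163537537842437498763518271141963414459106112513528621821406458510305661292339443269707264750464542664796969781017730509031802963935706365234095050177359028776391051503432009710862594756980930365120681590514582164514212243440735632942334188092893634249565597473172404107586950370721766346827161082514554857333992130146829593796401752237827232480580188488041719677756341831722140074260963681491610303541602922815195630795457615829160746482211286433630579011247731469368717159312718222143974449933364944225187801795105523095504793152514737965042047851495149164373588788342013909388792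00585677384431566463191699889560810083251980486734267191812622410455102155505640149408163811337485833260717082957170397343629147951851194821395439315206469316882868583466525889180690101978660006820784742069991435137850747321110603917523874442837067132884451458998743918326079909067475017051185184213320597780929941829410189665391102753765112236386547920315100514424914587942920319458318393262419810520477056760175657624676080114651157004214090843300686401058403396179618560112447595182616831278308872076300813051015972830701939740000413437915835824801193861790019969825673511557419685425968488650273036710796947240787702764138999622543996435187720106738528976601323898890902190893015524561542698526210558853260011562536837221263086402360739316973221738788235457824173546236383142425715303716101535266869284122762456377967192641855337440572374914137401720062122655080189225728369067507070406041036608351061031260469575972395963526960799374884939301825896540240494246007739569253768161862226714997420672484219642222337377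21483611149387367952508267100762701109732420964448248671520519004432959918976392753373630985253899703315066160245304994465491421458071576918374179506848936305290958308563546103579274046124804519675127548439306848998248573983599960277190530682169915411219628845093950640436542220580745507178211633441061242496932214089731962259914267935007393675450916516484955203235980196863709113859170430200399289556793476345492332697061664731130370985225016264043934168896595480290293703756667815645411078291340510210256820630974451511691708377549140318598173864154152020825537469936383764780984129975049333996019957265597164328307092616750350834015858368788312507550842250895515715368325460939638443153926620297774689907194671112209809697464482578783100419748252206282580968535045617861989104040816460629135075346738997928876421403632662971067016157479690282453276538978605049069716862755779550581812759222281262435359732007157227831805989268472023471910850702676345277355706559417056948584364762024525842495801176965368956823137670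19554369085423907058306577517037776578343814104354034000186656646216127776026097401433730788847181261522202768760789280692203899177728126749449665942688849563320980256601222824300674167580350500550614149464219310398336162946157035032374437650371582248560964117339944375500680766177732137080117786236427221814406891963326771067808096090486204141089310356007883966831338291235145514129601860162642611112868412178762710031347524543399205762363843859667128443221954065833663414118426204506469628838183447543625424384082500702150432622327925899404128478103817244122638045445960811228306358569387146474391290122205653774169188093365387804583631823886006269852158155823179072276434268832319704841313446351844256608264329631570452883483452836618275323065391442838449803410898372483847931916528563268465053885682775113165682151377633718482745446892826137615395167660883366380512947447488282008653849445970349201987581015774626761834690872826593677521439490597642367157413975609216374070985150539013324839308768277939403317806535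56485222467895631741280967421483319976634231225082763089384495543753073549693306108074862599830403734459177681077332200089418734483195381439268375384961993638629737612181735049209675140117548979366699613440795779286002948310516506908560185195149654441300207236201269296516939279674544587288834391093556695320261479123582038028419853003260323514493039352697332709378874181882043756139220417107479089701823779796663489289823957934174350973551463006115395862603220742692853924083711475204914624057631770565954054156911433574692795037827538133241604413439209088149753154620126918891915553415993296926407891234942749294490131610307907185714960468030054592160792595897884952209332900639743116651206910552257969940369008138055104218141831625433557151916664096981156070925561356286371358236141956193612602703041875031546956053896746248268289299883287762802635914794888357355198899894242474972190773776225942142981132615996052762814671659268951378995349458605611874086808526530631049380728064143876921475393407175594442633036015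87270213619530797857959514469100326579091817028178366585212745197445858959550717174231536591480409986205230937624509380916116606375449507500157436079809850468335242916489318018781770087790901892272891124479811247598571389772206669958343863792087021395834292985976196140983116234508053091347645136760221711817261731798336125071862416165027399928876450948285503083754408370555506552386446338651717124951664678357260544896089985199309694620302907083935551162049326666296254318874653841335054912054019365300435035220691850125318343249520383110505199573895246818081974796292795987992466521647424025984913078468161424988906691124323195980952640065028448148542513203967319107684651426742248528313478634129699667315610334804262919604636982932807234292666824839470915428818943154966183678229949818808306045135339909792472764793494791621269630687477282966052724891325345915795430693199123849791094495136733921452930119006321411167509391619836266088946027870058024645330881910133589741946101193252011724413512410401153015099471613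69065345217853120020468833322284650177933631139128061044025057464103386590332127362915921912125940203211121770498438348775144978255481203266535389768865105651945948550406205417679043687498218668495899102674224227121140310712414461408190735888043772939215787266802078573131825516747047341014592975145065287141292814910802947892472670255038728488696149452236077128517365570985810453972888623515137419699910345619126349292002829756111751497763036282715197116353444690940014728317033095553187327473178126409177156174630764498239425027055428082230788812424008962954124882868361945397310961953074931608628892534143362560653685318554173224351371980705952019008805665450405140685055404444823551137306449235411274047005353545913142023732860994435630195964275464205981358606957730192394393839433827762432923387133446012952096651407331003416775845588899068846629438102097979595082136305933077628210356460831693480173490387907801992176301604008358540446723219331320513852843747527311715670461905225513302268586734534238687206525975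60865419576973342851002657573180718533434671663746644990914246531956479473562303860773867132240247579102013369277750621441415203144807115664703578527794135271851347062804022328878817534746178223761814817618662319259839754071797309378369321368180488880194680214797296534363106416198917481357809257631261614619197394560049345599878997079023855824629597550955425011461184299562577699829138315151848930734880296220440113898292143245171535581908343493155571520688831635334880441804936422987986470753679808276134537109941783147867367619011553666985785809420292138754004271229940535575998266977315078757538194529543293365637799334945785850476621712343431663852137336106953594234092571125850190836192053034512096775091674009789322132834220827383419703880134093369630626966184287882775076002854870217967160065275822305125672104375475811841380325611919751248804273493748916107760037595125538233349511447360096918758409078267916350738743446156739778852512822929048164709612159835246835588724545511754246936536124501184978988379760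48291187641806999475850842256973586752754368047594895286819578725121847891562893349108840253793043352548912280641140737134597031211475427552797275482268745680400593593412257321287701223812651023912425463007891580318888834985413561097808014027934632255139184645025784278832663735397290412627988149119624165629704732835158340431695410910470112198570540193515577834811301597345018926668595977375796846315035693786458960384426020671427625532377198113575186390755602288275008751011865607730797478626957163149757920686895866121779970661315436873795677526030901686214076866398085104017456116703255641500852116769987230964578439373042681176447281346341533911821887578919771615245805851451402220626844112935338030064576150339388357322609868768208404111467415727112429913538466754911674463369641326026721012569087333852327130285107925883573485840801183060453482521555701041801093397027681216598764861106293639516952766220530766908377803604301427445586551438477600741197536407010606914363572804503333829019854060056501065105602550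00782542260304247887496931311261425185604764432426603060654438622987376042467203522012142828334072980385505404976598222731762808419328980832314242323787119917080412088311261582963245288532535603098816077813646854494515254960473742506505567519848101098518926123148750153825295162489889287581709358545007437981978671535554014277206777326064705860310742957105021149731204389775505718300892653611690462022871578272852357861333239868193674792415385527073812361421895445960289922699873173152548367105126747566298438882033319237303923331351885461472262843843214837958964880618299240629117285382036160655301214129205459017649156916112866530728409943085397043741447101548760390557823341348152601272128681579391272941268091024861441452737920931436370855655795497236090656429240286543285870470405394287522132582876372625159607073234863049562740369000694309451809105125883255489642649150238897411710375846178279360849122317273989638773629889550431821375778481726168160750400690383659183299492583476721254929298885848982004040150359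36057051816746416651452471630680063091627974328823117920981802401441965996250935773580404620804337118613466323378523548979063210538057867031254754165189361266665522961266113582115605297875613017036760198830707604689016299727898085757706525793054597578492227938110632482130588967952787681083571361821559792170846702801020345960367696990687686313711668667054000845538240320480042297408020877945354574729923345024086068596108942198804351005224176963577874808920343252309162607972228638375814726327645634593896155936718055531387929595367684906698328698059524637022963464912488107962155961111245680961149463892491540577191440772182385665291268109377317697700665344533066204808501877738111526829645570285634015929478364720739986455586845239877426796357409200394630997730772664237534810404584566326103599037895382266621364755201782753634521852220623918214906705651995815011321137865512179283775037769722634487002560630934767222134976884315622510905041147479956049079577151000908547992924722380538744061162522020060102738885557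47251132171637426231158919961820026915263127967327140135013502801160915729135906244111283029387504570841911087000343469489097266458853056920133515384951993582536566377625139486759804877906334964245636693505236890082085965317063772867734228478433993362603887504862895614078732511196374084364738572528780175718771716984147770676960740480223079133670108908488724265531383353214990213640774689066860126461745669096506735107848282564243693822318204199715695864707619559873779185581396914737474264661667779463923537295640737881181659258225933648743038666910820481251935053292177452730599026836858868197085136242255526481741434075095699238423120176217287273904837721632339039264860188696159579455214662082404083606785922613730763932609160173913661053436343252061135678217283982966437800983819425477764798967564119498708332568571838437851436518749979143560915597586208221065027673012376127331456759248502563464020158354728355004477871344977275816643405258345140072649319600077815894261961819029752397384924350703650170665678778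12286427724375604169336782319084476100662481053395153203004214223989930419817303374306532187505824634301901895338538606227442461557293408108062162518529580854224471296098307565865496656440387284117232047530289780231424390039797674769292929355071997396248046387916974291969939417313062372791898757994724480453116449838001783345035822043394387775175129653800715808029684626102537154223812509385746643691367211571830649002277647928865688991380623704845362417857234632737695522939832069923726977132726902806827604327276043704001326944201350682441245723520966128241277835528363908218277171402949035939127655385202222154655460861168140413420501783677239350476652412227759770889615075994781324058575687144912522481066342486076947840614085852137351186239870865838357642315946895785549067316730064019422480988138969512765555174310050703694040177411217098968168525656853500442498173670304361624850469179540508007265606801549107508905329428117285642117946603027482248563273081468238548576172939402416540719835038813115887953087077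61506528039563311182556314685643263319523982084979024995730172023550684418700720600094489426368536809132611961256441543680760892677373829823677803741999108111312785769324316788237567424838862628511588899117573450571994770245061251834733737926351692014597525271431645386597166561114533497197336013843613929463252670844247166235965560566302159537551615727891809859136348919073294013070904026006125288420939056375320877829251940749628856638924313914512705356811963837859743069666069548546742067282425776474563697991835869104451351196727116777483980535586919748237132945374589108685489466285555186868775819048830852395186011563559078374958176115784320581745813197374295903114112859461882914612066216216618771105523839500576991917185921219650266832609554188290207931295690160449912746920952513198698153814145094014166665568816755369206479837732500315057701205624275487539594384873864329980109521217757831922241697783286036607268020847561751666164014782050062371649394416480339732068090608331255691198988068021912755374842885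521323279041583023902297473888031287405223816323434512739634600630010196563538489722317448294731146291621137399997206775534546373402360039976743565289183789096951391882049630137884120682811191052748097855703576783559303301230090381907317575047858314053874566312145136639177579757547728689362779674445371081260434668718946017067143730309180984075971613547246519544223590865200423956163146282600649767089767635355577057413406119772062177867631486218692185429093914639674165638171961710096248525761490186576172735347099998696882661271446280912535588010722131873268102405777601858873117769576468148963568511013364059811701938839775436909955068721779602271275167677062909869445463982846279748360610300434389688593338817767791080265509724364859882478670938526417202519092724057330416775620971052569058861662834610987098753886369152562865911963397803543120625030155594250267282918942441472)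

noncomputable def rc23 : Nat := (nat_lit 2277271599594823572490052949057472305635879482857806892284662540940702710630312296521785981464852600041866251364486252802867022333155724596353149460075884857925850228186081205362839777516773305955341465847029322850141908263705037556163868325903186370743921370015178578780822317455483810230461246559599332726061926442890169719530156912944012751774352920970369756336197989903062705015682404635059133077661550264321018274131956708706004681203913571493952090018648099829331235320157501030608327456518007710262642828007443405052555797308314456392620752110117474818478238724467007100067582504638885051898393517658021260828734323267408170807440956530974239681904183391666840534956193642409377113167347994976213709784066760290701123408442157085234081759553930433712714270273691699731985917825417405427292598416766509956188278161608865990462796103746420826728781185053687612439040204088778617932936891053201605192166288623018603061155386192845191040542331566227088569298792044366849183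57420086822540832939721288765535139214402885883082365527976187411789956871120028720312855538439956554850308306508025655407610579170700975422877006657921764999629101247042444214029867807584604883566673596868111340104800272146570915748326883964066508168707678122736421505849814572440329875573555178458687903529380196201629903320019243148739723123468342554822889949498665158486200596907722841373018784637953923485732022230795762061754950344705277068632160077173400776811832871121774067058245516954806779245809416083642742064597826475092874671835738030705752332058365158364324052260405628283021381255522625014753911138674573179086689268720684060579130292668335535900178292895780684370119984286997583663363703981099795807401818505329857525557324312630065550426148759590478040584563771749891003984068330814414769083380272603016324972714264291745350284092458373241990628655118206241737451952414478196291774540664982705486801456695311476020274450106358710546407870262993695408924985913259675399136607869860335579792144168647805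60464641604619498987240635847763908562891830409691012349598252195656108064370240948645527510409822044560372753015802874419466911264350401764449254782512440767024467599478635145594202063300686471395129474144981821601309572772330619850724465800134144637782797922271642184625600637356478248792232272923346355147815888044177329627073046312520702250001943227571667252606533403753394387565780494249188953128855217825785082714149609937152167619912825928020091979054261061006395517123911202232393102903116107948916491341723552249715724329408985848926497905188700424807219294021020843673370049986865695367438693004896669698873795479576503325894038514787494447700810485067163478950688456868852648499377259098691962159202277692965444482519838884922678969046518016285200946733775322072968986685915951539774790607052831944788667481655429382134037463449089173685348660012514672731174548522777980023472494042840962324330703856034225210160806811204477702268394220294405663391398984484568649268226986333245717895720536105712800970982432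98189876062674738641592255108323728313298352264887487652750811732911882393693422314231295255615963708047549323051952637586935578654379528852312822486710794012877046071049474879104492963230032575749345639193977962213336648588765685871868214587005519368462611000475693883758353917001730100023306974519503217197369669707842312801506253989716684293362141009748273487723327235191305896530385041879434831203308071791201731973272689166967506370430750722665783722918025634899614187612912241934826323740205600654831214448908768086518559759173621695432553044323511665627996516829553740944788861770300614066785236321829210732007167082416525197637655837486143192048523510394233666851039703612466455516349832963822430045887390119187625400241944570792758977123259823727288418309452299628510246272475699094532132831097325100599102389845243931926190479963895452489631120993359824593644119778819577279018271280983143299400584144364937798168461592367350190096206991277048333544973986845061934928660113878254046626445996574878475552260099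74203550134547855568720377152559272642118072332753662471275719952360465164992306844547590426368199446806667425007763694703817400651018953249116369010054530521900766709823110011590019256774393300240419977912643110378393034670663930969736960475003438262818917035987879496290147764858129247654537333333319418928192478208854563708372580060279652483752538050912789833977950775895801596247652516765674561567228149976132950977555014867719383966143532950864432085922055620730186443730335169489761569125238962069337779480636319141489649734120740316068076214210953783002421048490353117364883333864777939209077258195200947982966337759067625465624081355916821852371314746392049770668076729980297239244363631990788286978356771407966451940355027482482221214986913094429293119783637203651891554932411838711432508326301285041671687337157748668760713266629537573118797138874444569461852918253874908658417237872595051167252649865895113950710695334898569579857018187788530259404561385353138907675088085868030204239518632639850931249656983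94401527196092902634144752335219256281515837407252790448667651329238500012634525331240597209600352689228089236696021789400821234045498517815691264505079753491767872433834781344903712882967846789158140052777185329759989696394939811818887682954750808128768936090896249709293411847287754482363203826062410597746725926111507500246994389686644014058251763352169585808072128591259409055025122299752276671532382046208897335611059478866061478945937958637158921658204563801455148499810832155856499570038799225034170324250576721333611172608727170790116129411656541186281458630101134494598476790869976068167590124394861417894408918384680039952055340483745281829802913898489808140299178382998906112155345382610254177791104013422862137643580035014399240572954218377953917765488365150927291743082905173486793275723529717630532038037660923910302606903626922683022556551724699624644430274146466101158281653594721246890249394382757570095551272322293008706175611243859145482055542324328037726328389046583934368116778555186128962042679501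32203867898177873982948249100535774673821376004545529126109473132913012943093912563508771980991789815058278077907401389040319462642276204547082347768850419748813447526643557657538612876464114668722414404882410577495395729703759981896270311510950685458331132404161052641558795308930724905213717446479533645509193152284953724314793082540960592837350569470797836626372316550322635988117937392210410466889598252225984366757748034317043877443723130974952316663595123165466140237999280193783030149291309451681039018740507373811675940819335507603429251935725266349476557855439826395795239249679279005540018493572968556555857369826611732593756073847521129407477695380474050584261755099915439334337609016688217735606834969887224737662939602164040676357049123303247947717209792136960756802956718259710539368198889819230251066158174524969050540289106618042041152170449414081698189894360817365619128355649250779496077217548714303911850246731366331818539670802098106556489986478151207184621688472246905464535062935389923572188281244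92550772640463389055813381518841746917134905010399827549482617247003632493030561084971011828591657289335852414324256789240936899362359336213762255953963828676595805989433060285130148286338812119017953646501281098413234527448952400392299385164748438274498836083194762640822846148065677609652226567771586956528952005166382747414798285335546525921634337027923143573645859226227194205430198595003040768471109507395116576985150376271816709408915334186449007104431267330010678922154496501615545942094730506894327746723794801258221765362121848970274015408584320066640609320897696454410552875019386464655459892917049632831106892594080813216787994115083616924172405347106797815740147206069536281165193519520922160144431672667580052845206926460540287348725454416184708611313355608166723156683723600049113112524809736947921908852025001548527455419333035238039714321991643561744467260850452893965522361490038869540576900597262187457491581315605617292752249531745454746279474423156351489208642573551762728554476448462227674447673424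39761131655459103210566311677574800038342199115368085286988773231935575042215717827627369187305042195578119282250894284640037010858611151102095975870278833874935698444626240431846572869234410403086374931856195906001764682084420379646511668880330526605725264519150215372771865584494046270753964869916751965174171123082792152059958461617748601429974985485478428508174440324373970592507835129116295830105341886660307825863841328245645365948678175900941236719073327339481702928033030819221120783833574337276136664485765430501737661225466531796106302036563396367852773395161734645148630620723528640502157429896945602367228934396962937979232962416767506696964737898906918369131674215742672557565131178310543652167404309577234209658812968513960286222995259634130910489125174340672130749494013494859342193387882715207952523251101855378253830564533995115452364824442752276917064768936361522509146811605568333902275792456158386775314933713129419181625408490738078710560956436922552063254732392825738000971661236825962006944542491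06875934263271680616831073835281780261619936745308580870396927852770574198631728449701892342315870927634360894444686316965213032765625363956056273930081663091378668085038436611624101143733651911522958477374978022443416370512213414453719884918456183175126783708431732093057847469147363442549606611505285151184914823087837137173770496794587932289800744138423417434187366394247771220017248286106928382854215405599921235419637462007873275739856995713624599423984707287309638546899175281392276479165133662594592200788193569914489604824615426414782119912270759757968579304023632903165267150526032528260326737436459983880281062349164663828622776065192106642893197236916126963571725889959279979932531530263291886418887004641054207017199848509346821455096012694860273807784771870935088749044196536243831682338058008710041465008827259157064515126442804339181052233706709188701697550573125523862467246528606637799396410635226669554284647745357954377002922405332525006708208647507104648800158614193438306153718763279001296383397936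89531111031925940598285871169932878974436091620702777914133228478189958408643888122875953787775533339144463218740644316996711805902614704047850775958782905763182049316506885861510457364991028747922988152510153697288111018137658879317144174169780058948442077257272831671573963580073970400255507904126084037179357979838618608376823301047415689812496282661062213143303492882140769088895800983604282687948488418927967058681831419232041354230274844071471309926762484601820660396379551092084496632392913406679294548726166001628854846361368399659775085258025912648487606070580526825131012428978995423845955446591807281359483120912196138093541187229565056671603047701848312234373710982917773804157327925280504348132343209785125614661636765073653087596445585366239905724024323025753891424384427146036831500719463835979999036457529239957850371726626703417801314973737327140904680232678913523719705105855016585314363359907506410102271073471148274586411887509869873246971145675174122874933783731541856226803917834660728722555680592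99469757629285755451973921555848725035615828592694950534646396101847066395045448262787178835165491717011654450189204094613940253248116172902567761663960829742290868575613164730161341687112607469139717777365475369454782600373406568805661362122798119348840001586253306193592114226584606827440155552500445868005675732713084243715754967636458972368721520033918710146174319011984802369938325966450162842262164641909803016690289972399635833435326121656932455146244548846818982511895790855600871260160023064904111896020595804083714555526581175773813439179783231874934921573239108129518146009940993873851665014035319536550058714729945717594947197811377001698803278330215240217794370144005409330569319518159426624342720417938219573898486994614002110787995670490932125873579098717334727389458674728876195010397584168639725622636224819216292862438565023235630714401337496976880085681269298702677222210432245589785346859711830815459835585902811540467946483258651074481909325828376779022447093436119846477109024482910078751551151475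41080205436280317367167664242938079957707442298473528319530747742989440436700347803026441642988881196785207469327399280859444359879653330442087098528254923837315367722805837256113334065042058285493898321779233120410749057339788237731120285736923841684016593511972335141703739946089951067188131412837735146965514224925551962481612867096366261205510363368006086304491388964753783328269640313882387427617863117563514651997905450334000197230373123569756419594338705776867195884114168469147517809361417409896330611070483317964239893539724701116692801973747265312280805479285456368074412527444866414707945083992075882908434012200741605038335734922792782499719325925418367481153424486387378920059320491967421254470373163085019027098214358406404197692447187667900373924913556622222518063092113703341447022672178379291941273315348222157712118556860217492082915480072059483358898189827561584345276346521518086723805256579504446369126259016774627612260222772215992352933251950028052516367123972255078180999777797021133720777077548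13029664914313011234893828724884278239934809955370772446443955255960740774100014096132689320301826100867577930964656169391458567659139455703974244585862812610059046260542270774313438372680440301368194778211765245941681427245330435912557458970851083743850616322705151844928683832913010541470032022763198976363997576831558348073808426926456689553382684207613838029840696641993170669430875967590588822442449981721280671995252237704402892697606217031520073200904099120164339157651516983476242011415532541943998580983220194112147283433170643548411402518267497095767868615618676148580959239030846426297320936893017516388523937377002877237818061252731014640104742959774096849804096110507941749697132316867726668386790762218495580360166045693794164421687731622891651567940369906681727761339204143938873265255191014763208605632192157912420243225180958667701994076392837103850911383914677991397977481396941488667294499111974829266109895264581799969417400428014006144691984859386690736411245744865504557809292536295350603953323713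95000561650731561368104591977531322292593705987432477358044417040606427447995463113562603957644470591335423256652884232889650434441543603037557000070381286047869573859590978317900265170196735338426951480672364448926828134653107404661382465771868114583981343816206029953080676565975193672937305358408907443542494102612661373100163705714871267522210053435207440994376000980879597060344460772177403320485990380895611153634409892478501897228088225502458932370062397087127822849660857893320671884025080213350497838298372601259266570284097126984935356555304739105338172717616687104783204482538577345935866488176796185148189108467247860902544409032338786024398347063224958923567495813066512691080840709816690264561129376344844464925807481713618640945610904140719139588694909045172561833158344753577001364407537682102489114614877363835398784381974612491569696850506205518657075514638586891411340777570437972138863130086575454966447715940609553341916077967854545485299020819883025972875927916896477566865894529348151216073870215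47113971406944936043331687033892425271961536693233046092051413276085792368703204867691591470089251562840597899810624665242679718767079505699822412284601307124330693575590105422489597465717206442371466986032653678840551916711137719658331483443066663264696391859262784639319185089829151473785839059984659729313282036956063114975702794701341078512520841581442018785938627172752786921184145087791754722674668411948897265075131725895105186776600653728109813025252874221153058778241574251087259529368968854242563915862254746812623953172210033050320628060136153498190440941853871037776050900780411277889216194041840258837813378599639510630981237723319230291958003888535087820808186515242701449272393300974919723873910273913464838326554686072441908302612144243705935977066893660923654230497831411349271360053629537693553860808580382251996233630121257116670868754269786633643611955341038656992026485833012331660709491702115737826163510592058189536846763080348011183936254025101430762070684432366446673935298580722577932000618860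14102572562586757232261366248434913328388673574244555993400086935873424785652298604050342659045311155769674397775725684969557129579541632473324823884045823747146663886693002617098547131039506141138109627953102993703908593460003911763658288377959671330802087535298984621789068420229675426891431031989999862105285083828743175984752625596111344995110196287908866685042259623577344678040517123994224596512978429269367261031943710141529817580186680134880722310910789150167591943432488400481884547076550164530639489352107421147771597746007142529793609382256656503298240935336238983950129428506724162440326129344121483396223313773548042400797972674169098465437808475659259624530136279959172055406114459581048760624785391258662863928713169413330047765636694284365534731611711658222275627949321437782243925617218166532415329768165620122396569597330765737206052814116476026276397402051585648203716975578268028023305942170281131312372819544325079385799809140100204885376336259452879716900356849473826870836235346926315975258824664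759574755737110492498074596888914250419814455819311028479228547474860750688822735256518361469070186192257739827728580698679053454734273474045301340057027851778407125764171918530400559700631164976843564247673755249648058104921906915891051870472487303214246819221734529705381948015869327295162474768055505055162873513275540156039848039099433674451199649790451541271355697261757052844340794792793167337780002343184514501124044296101737928480531036677266961005744422119939536653568811063667656431192125909095944316776587082036636857465109136046807017578997308478733954538725308024904104268800449304042287373395230744938252726190879386243318777940973387325160468481059752053251891096887708989027759087598277843990767189607391603084560268175369058420100015342116922764191153787577408093059089231723738583841065132111744478183217933245561877138152288821092054416165961238277643996432957440)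

noncomputable def rc24 : Nat := (nat_lit 2280940399822522832791978578298722947104348400128156796724767862293886872081491370445631372646081450910069936199221880627846613405378989463137841156456253811896334912502865243829320845807135727832862480864895156121356113764848212228722460684190437930903860062267606332725671662859086492469421654546011254170747367347694351430859755145948793070013871785424350143891720215176164296307103643347312772946759011962217084681023828689601429732753496638062139774701042117430720702341546432996479090838318779122064084629400806330404045022614760918256255408040448117852090609823996534826957143178482092744502120122517740500815815367098534359166317999460323721453756389537861360371891583620546721049039160912224089163554265459106825624267057683305079988065616010444746524300355502071094005691134627982152404427474472737050849233013232942411933524114601270032212719577629096282257641350235492079116530940882398005262761272009768158359485674780138250345807429430318303061860123084743689569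10416812035106792995698971947999059374262549323517922437836719314134700593968346089206221745129665574938680456375927919235805315959420234785243620740713582531328393387896624977805010825970723945600421348895908828139658572149095502027861174149036773421272723748811092786446819073917440534450834162705198147676280437482402823502167668023681688469959122405935556127998928586810532554969526286047720119365581391770805310427164148914573112449156772137489709081352917252914524283632573746440121169807362672571685555110631229098799143193887211459466176071382763166815617685380171041171707312258274136666097412880103915544157281651576398574781253878105246257437270203796445689331902474312920736820779945208162318913247980656770519814095265254486777679567869256049946833192563359983312411511487998650486607012085699976213545992608954442335909359175404374730782535672615304484343257982532526180804470875569899104118557968796977816037277343845634239526838214539714942832308815148100671775808917894249163452396542910493625746516036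02559756654650661095994298521945954967955759103224586927977339756702050299483311716020087163491571381535702842385164401774076966518710400596007718321891387891856714153259742909562150638236988970427041020383337382116541280951545954498957112847740305725808811916366236589600736499730184196497549614207937570751804914859068547258542797962623538641061434772650305589918200840318539747489359605893960602127557190885011751312025095568771282356417462090675000418362708724683178500152846990724902453604801669211877061208211668058915470969967304237308356319208296809909637964365966656808482339032658189278713153658322856167236757196329764277086812371433252562171998401217795328518619111605659924359333079303022454025028170360333970092300268806708281868520914819922704139402137862260469739533811951750987002807158292764866940993400478274010402473819366006448821952762052393774040586988606725490078900754417668958563005471005770888302031279098115639895017160662198526948449789823140600400863131514578028580380718359704257331899051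78225386258709119051339764398135711792677843167585875508079197438374061922098411870421457212642885322694019942298228103965039782105531131486613102649253150895041153021008523600915619781653024363602327037600257226200679312749948867508697754560822707142862538619484605573663497076899376092056139221139126888765388069393910571124347717293824528625682313405255140858310294512091794116150301817903428337597726184698838829872268311481034727235666324981342722147747753434519465241533423785173186612417688525707409462836292564670005628998512235963898532399605499302968797217174769537075265665259960846730595994653604943608449551353378793853555449626494259322817681871945930900654237791469220585390513686491577733390103387360726353160064895026285273524075170334236724606813564050199935587615112563096167261519306651013861540646675538933986099688998244670943704011987523290427975593895644471715089638532799363623691469284970685763575850182298386709991596689328149702923402191067479690578828702257651310712612236180905678543751310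19955983294608548152004503916299420453349181725263208953156836368637932583105086232058786213310355248694623670319278072626698917800193599172852949139367971988961916393994635694400195125411962231873847584873775330872398430040920716057846462642953787197813299562868861416759050803159897154872325163525959712581155047804122562658272537735894523999694848973682279249925490817165800546161823378348894524376876864775805524513978612229863220952450392380875233197018994373095682535452614048681080896640310498599450494482242461976542874960062675586473011845273059597436600731909215975555958826365379309231817855928547961414841545041453525637461235616176296810435240281423475208359595718064368667256211686960583219160812714448964130200996525952157847053642372942799661151556782662823391999606835094500672978891222543953453151347715106783682090113803455025010193629127983172607696391725577515003481869224755874739840761804597947203544724488793942523145238117264429741176411185348861260578042553981151339811393792475407143464795679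25376112992042994604748168308164464832291379339932568932721424191954823646464603122358431162961898447246292539725928997518043830117884754360762272232836775275146368157023205551039955039609997865783943301815606766455023105219321823740414586513108701699623347643933785112523474306287979437323481540139136988562869347001378469989568784161737342328327377717574117315200572957659028261803739655477939193547603629610230676768409861048267567287457583840291930424190790894427952765330384194889796290214983172010461064585963385140300305514321671889886578513317726436456314804494834902689011111618185559662593622174556075077456625716294162152569828963795070867343570803784462789661441077628627714886035846598287335795715541269549611148959608694696352194577421612010759455249246408246089981126294116176635802751288194907533018116956939791539889516886276219881989395731715411747002299475226804774752739810048179672132443410103982492588131133770219485680352949070634623672292411498548823292554604708179223572282157826487147309863506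48664486169228883133828517150629203497747461877348332167061593680985609058641727557644033641016878441937933621780494999089113598947102569502215475589257549904944176851837772437515335122420660612950119856303587057765718926185436834358929702895467712487893546237142154430546923456371318922218398037295219944346054364809212544386898264511751819529989695265400893612975172307997982970529929349122527010468979740057378458619598675124311698661303876257682432201746693596851425982929703049738587747484321992101302549949762527690027734032983686693224648103543858287553679166671494940226698958848349494615455843904598299697470912320099537499705846137650016966913860677125191739730206571169122559010671267018781485572453762930643168994002347830505696516814281401181108350261582779084783255485060184617399572004978224870891670205828093932936664513192803220923081449006163455598340607041080281027005104134528157320552018781977077243419507276168328141083513610192370662067013809896004277317395498429016916772222160927169616811230294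87617088788174431247153675022832869458318726107747184350196616091827261973674091317520301437989509384733725004638872959749453627428594206686729901168723809165832342668262072632410141034079015708986237867300466815966307978311491015001255651154054961513572111598713035386457691484237286105615186280010886208324777664814783737412264945880678024177489978915308500187606805789874973019908870206339744955356907335593418253443755840225069533110515093694508932016991426748420925761951929627262742302404109695444200888366707706441403800105171156547168155850502797087259128313259575837199344773103557301910849144117246388780779388494758477431428851696711596156139755509394413333885151312186297167042664557569222053327438970376106482188445690059838443846071035893385419097246183447481978289321268318568152662466952999521072480875402317970851092987465766226404128483562910961869881069221909660375175998059200872927107436227045079682857978369893324191182653300825292861287239082707738806461564602449512394851929543491126554927164584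47371814378566435104376700609739366679337157272721729855614502796113241754816454576124006331460285142199900459850493151585803875565140674541312792830426928370329462373767207983390363853838603391333028741598306937784063933923624282573830857116053664745171790429980950470393720361280380248116785137365934034437150086285229444825595751276275669882688266915984753354093682892426088273693339477764454237821687818006410246028656098564652504419710179232492598188580384368762276353476232656421194392925482709972587611064770619332436073138619038478532263386416958574873022207239459168665721618351453576836079420794180128333287224754551179263550328936036122239331119116763900391276581800522304301087384292630154302241847302175940769092977060957850771027342418067879299148902976897259625281669039041869837640672552928739342835601086015199262198339925819545566727866242998605243079307977712425155054086598786403538151823576893654573929702480495699097973990784486035498059585800679764774618299137105754283935605002134565535653183589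05555105859605315770616598834500752316992169419932893485002049401061650341038979151308350527397723797099665178759527999732652496283370367400664633146500192720440253888940010068604537072511921325154819602632023673109612235976475296813729373270415361907713134310567232292038818462009036039314739246643928175819275158663437750424454584820443529224532580879358887768889864218553163575396334091779551568933433625700628511934244732309123098385397784992633474084809446849206861075186447220035144581662040899907516991979287751587034954539135179273339478227530236829488880517259890492924670031278050895546562299106919771879094533754711674888318221526710288927993031336951322256529646836220838639874870355169616376781467849589427340386079157716480578187234469080604419830149701331839691971513152801076872367298313485863113203717669742601749342385297994639408141785367864243069101508685392383587541646605816270892707573171330594338575222895010648699297698769836536308244941254843089120860689061830385149884305350914577197030718495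21993900312878650916726790493557809911340732804818183247544690646123741823768274804770110628353269147390403256559982444804218563707451803364105670123771354463557051900092553752978299252474679752478699087943274812938420617269903156267016711677440112169575439605166808413881533116047155424406797370725949095483993841974038623396338308711221817917941693956595522763980409470977996641295638584021541658933093338496408400030824482876369014618015609104770760085729015653018150276593411366123638796311166162120727608349013665559821358286610401110640138366335171232227786933442286933920210124945986535106847778537592859120499682257640114640243348314146229003064435964486950333124982331089251447846758372017413217225098977990819045810061840857236171239018803649132047534498874706349658441508394869605045966769364247020093373717914715607926127265905444331422073588145898251315011616052615784744571892156604012006896518348381886085282543267249343201630653691357297317869102489248327538124406787090433283503392770689816499021965544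47689962579001452513227144696830537285230901761893560198109084049095562363108992220734983108705822492079219312891368509599985139741143602357378332879662025478641057672980100693664213357022493035236251616279420915216188961775799864209350239296738485740485812571814054409990203663189603361780009159232783919002888423119360961818089208132235844197175788573249040000385729222420911453761806811130846210025770300610279382282776778911357054716041695263989405316930163392959732630626145865086275766345803467712079584124462102828165902183867918956665350422740391561639324908880969141848186273292783151239970496237551659719256786209242612390452228997794860604433477467195452719791676333766008357762277197422195207152147472107349259359558353480801406015172715507448937157176852028370710439624777310916717227914295717407021666920955324746983989428003216740032542413767306310994721479068731192507856842686800022536448541630789201209304656303963369331645400427555179447071810763259717231420839678722413407363380166261267473559407173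12799755200620516719686656616465135735465213660505705925704702224895231870736444085074764938735388617773496808604230622687900097858316775778386990411868789682315397179125764214019894051905935944114309739261277019658479467605721073998366752679286739518522729252419369767116735253845879428856974987545224881707284091740971887834721119731213004597319579517669851079172124790373769895873322001362320551770135918495512222889419298311250551702829383843523184928692315549299151378511018661220075295557516165284292812362228275811989543154777360750337238903914546863410667640133743952116505813823804018790322760362060702116436719677822106511410408570383968961591338582197202402881448200538806911234795086886656239775916471677805985735517114297522144188992220444047945455625149264789398078474217330274232639302702692245967279144753642826470681682168048792095393830051159900978586475576398604725586787811797783148741103766287237887536986013986489064079834070074289446019581706185861540917296904972398119999818596223071662104741959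98381302343102561673386356502321232867840737338598112428490162776796242213316677715448582071811014712954377399778160636302942933323253076582129302558196518716900885916116975256490722728656297579705861244659068449507905653422708381596044383556818525503293802563177264333365329783604054983824228758307245057135739040692725736112241974416704926233769837922103926999932139902431234879187261988143606067553893488930254045157884023835929716000225484532262924959779348484903977826448465191977824911309887149199004703598175856788015193078920773939090783249840561807355454741301841431221053430242119650612492081521683703254477024571594406008538362191587352886005653510428936977301444841677025632056114883764854812006867013303186458184010829296928968324902400940092882838504897557166110343572708133655474459711633386707905113461882499031287585797009184489079287356295357693285924751047131802521987064531137917447262957877664509408197130681640586675449210679157376186689435371735403238525379490447688754219059381643706108650481937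36327265599031198046143411657592788127745972999465793571218831389789690990190401024793273786586628749194056112005260133286373689767695170102203852859826506592597353185537396378685945237262199185419560168462705214547138384234746572938639361531259722358700440335593716093033237117857055255518898627219936652070065056639507051019129084171254774974112244074644355154080102614073668867978359078623515857484399459008724549292124195709030511480655638967016450639415211965525505378416558092480824614308945157784550195223934482562681012609141326931832736116966068464963699442989865383919452399092332821631621639732384808839499593305218855624277578616261582257017634894609482641002168428288622979874413272389856486883506112824030586431546788709587207566066858599722775912890072523891368328837809810091683972084420475019011166184293645230972444258529320313584412231481242165295879205928827862791556608025385552274149056086740750434419291771670289690105511256640802576356622731537806715220876224789599638734989680666053675107580080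04617078427214809535927473805148044331869736409807123843209651433041021635194034000603150190682170181927284918283761819658184555344430514414599025794387501485792435417625339696809880038844910450460048916315417053165951528297199034308446604159089972704631364261512610714879513071337212416109121357778534720928946582200845671014407154630560778386127138274473118795766607422783982448605990605743409586521684459167876909152881505490040307235936145533855267074112498767632093078206511113046961742668053152328326696442028888842027382992017275419377014029544761360925635787222930912236405109406335987995123083253345463065562277739675232824908833878886956329713119291570288622879912110614382836835229763980471768950657514866197894758696825644560254955879831531941822320926831057977269836646755622310732801123806987031546004916991341999375816882013675539345941622657583765293387182680237927705251703768424783886990939591351564019828589372400777546049673405557344349735471599455484292774788040290071938732035962369210339808265427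41704291448120897251449553110680340866382553810494503593411893721501071190726550529550216896567819058520139765018288595921875192822760423666963363472844067544866208287709997478639847478345471894157822165593425909959475676690271110030565785890339847038609019509422495335253501970886360240128586486278371451856285891816162147761929317765724469923680619328027212253858079570409707524447132208137558006181677674197316817231148794949526048729953450628159746392273711358795426537112847183183045587979848042289579002870651766192883465493886475670928208347494242473577572921352776193380641201921888471913276060009786634784164018453419322310862966636769571835682638784561142175069473765022702925997503090865011283689510993629997472883824457235149677191924002258093695167495837442725038657171508224997961521626633857445957999497378146554617599364675166466213621241902644494851315278824149052909204171410176596557396183729402757691852936420595393201990136362136818695431827966634335114037969107559406919370594803035830371854831042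244421240087619319255715422545109049452718648596819926986474272575587934239778377325662691772078360096042627330561448765534218892106769790360873605247918251635793092327429816608641324137973197165242519841666260990363059744942112273111117357449825384333502307120057930058905205418832754332737249945327048811094124821996274150501872489093571374386328385171905417316787802447460271371752701061863845511173556895732700495211418230407203274853115903582863955534700227366229490464489043352463069057314073368845952523955402255624195709463739506881825110523681018392583346653787940571020509632907501393556247810086451286566095956080649880915281483533303388452695411239718049800134713252286771902937132615741464671729935233019811579231029966817517448972024255221456734394427948717103290631167842921633527421737640957959942600121562937732775673588663923845575576776730139606029665062195560448)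

noncomputable def rc25 : Nat := (nat_lit 2284571743868428923852241034011575033496462830762810462658314108932814559941311879291499734544534065147859848782143100509192491557118575477772277305380161661699435563075106719237334448229609976135994632366054861994357067903754411142352828648547514678150711852109148396067654861606431227207739179871415975830836081900282967579663224259489291962766117498632658637880967163622135073386466153406800181987563925399617506102215152854330626328906606364401676450087266698050892507401726423533272272895804973336738666026278150635895419358441913182587912580486648101333062490905748229974057374030934428751483270704906893836807674899898638791132410074334150539015873860421907991461685326194015625972627801463512238627711433574012563382024239672408828022519356454103606578052954206143778708310205551818782972441841683275120674920624448618197170254500480139249106201960605591474847965825348608239776759057721117375626122384493893866815011485135509530439441594660660970935738532612973191813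60487060793658507469341385642664679784048540009036145994286475534452998521608781923284500879850404233724636785190290739480660514836929699083488244178819485711857324430574408817666210995670439074873524445079433296776325703282313569771887686251622490318820444318875252390456347348905869965716924113233111482668269399787779737424887114606429800542034926772620350604571871564567132297200242542697861251674489925531939263474931112958635642961099846308202381668074401301233963394947305014226869247928843830282925373940206838509383809255566135500762572430513884612534505338822670324941924514124787352254654131114973081840860360872868924556775591994327884116531368273666980331591257109218050905639405009576941611473498679936267804492129098255669560551681084301085244740300312608832525014962620373307478618929007972950082401613873171543216754348475141606975332526321706864853483605342782900438641911646861033679427603708761741324841933412702893493267810006948479501852522313818934896515415616526046807969166991292315314869734570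18284937864696365931409960380258376176460045576647626750812365961467234305874133203917741628468704945221197035774421203004904624793837370529808516686392036044213674039809103648905498260702181729110828784286794074163450878767797432845143016525263078521291629400977305547425028312957016369400371721183398638550977003578850225467090413695298571206665788470458214383404995272303805118423022161038112828017936052294678921692208775221051318393078987326644550299213488243282768246734565766497117310928171786382321823588263526005314016433877169245317792501899723785426872163023341362175386937848940034997891961252997530685210871021941989401007131630154207716405447673984036573155038685072661063663588255261249543739966908467619796724602993801625915096505774228767835024539333503039800254422390766745274491188927832166057311020370402344494932669112714695469169573444392147669467461888409985891826335741002353309351277493574566768424099478588942895517956343526711407124725029975443181739571924804151138550315491563317813466151363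56173163000775815268415980747330734966192072548260309359418583168963354770345351001133561602394366304077342471881800453281611934653880397199655179371332884196516055160270016792707125748959738587653542913655596016831623779421328745743625058855445859321494499904753115764083265044520949742299025789119251078830075512418146085686545273306590685971824015690176126142496134458190421556590842143469065346179183502956805391390756402332124523162771998221348647599292430103955862253170954677264642644422370628213629809917662657774101003236900260396092481765796767700215773461510436343785564995412772720617340777961550550057329307010170649131675651395790722862420626675752483476265694195936286236231823021694095859742759891794664058495371623719637576145848096315856105317774455835748117289386539296626066817768526424694429180992431914497858405072425153731779842498821613599138361851946948719791852261030175217971761851358093623956334208996834337681678828684134284603167348523018941276303918413220405396766223278258971686246345424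92536362463312707589923307959266676274582043165711539123940905182182577821734056991847933375836745018125137346413949523750759784150877755209169625078323236484537473180638940713223970197434267199110170754830632246802233286270324277354788129120480499988298342430514821780538674474348181190757724136092091429372668831662573188797348934999598210197692163705268044741976314805592381244210241941912285290394786689234808248803316155216568992491693676168489948890850402565750509388601322897192797355920538560583620556908208681438369614381859241425565773330805997273742545301903630662183620028150547898317430812956953168947540848717739785422725615116766256296787207581785181558525030518187712880948718842704283301565490592153046657917385054390199053725065743441997999501947689910041539233820782363337986092010448211645787843792262103907321275076363627922311049313198143192386883482938531610167846355571000889919261333281822641635499902307792286817519402281452841373544017597647396607883201230170130935551872667902614246528530150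19679289123781540250687978924903403504343761273555537134389634417752827827169665883736019210609065125730494262849116503897297595318417612413637172436558887236215578669309242121467622968344062778002691005715032565987562234866080548369309185873444602697264046488704726016885553799025911186465729472504079235780017027864914905044697786457985825869844010793269971420870580371208660032911464500633289997414292584293094066840047510009915244995551139753954344014177198470971131084813984050700164922918835597099122005322478980031482576412853494291652791970031756127039137003884113561192252881786952805427909256047809707598247620757060263665270556984527898455312149117941657670268701000949037347292249745233465638019888101271327683814508166646678003044212793771666531701380159778877556642062215683541342988438464653723298771445152060019098231238049763779417264237006397540304800377609649032880108017485837312464410077456985777369131862841268366303756003181291291440520789138210439494563969482783009476571047394375314738643008895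50342812740140877460826990713835453771560548615658122664233194067137985728497773766324855900137957100595378709078366968015537198361683841398693239633503107006843788196355854728922545911071143873614744548396255734814813485013984124843616115644640966202763929597871835203490661016441995519071144473212402479678297277535371977222653546591127385180481935778886931049585031500938920499410977032953719625521834736398927420270466788857764354651717203194807781580551519168839293348399994168208723026200466972761425815200970198865425458940843909212011269363094483252473631039477789854955563376713149068314442266578019896435724902287996536075237422869445485316874972665921047946119177832689591442554722915723338791666021022241268716410598769670370469892149633416496653737383845489891276398308598515209558361220664466684643235759788277070935860175202918710200072445104239437120029771584637000825642944248677723404915675996371875500188850079718550487718795077271026495897686472977924550676626036500279711384791899821773970536527325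72880023181090705009168050129965167589117136772912731507997931263904461015278755116868334651414662895623741110815970000698049271890882319193814600164326966573062933532306526457950185762434974924039185719558241785665498946752392295744270242085324808444690932098180756569292100665517479876650161441146031729432960005401479561821600268581355317323364120938241817645210902723922287813370575031362088681936134366731298592912132439571316338936096546880296897575602690404609483411786692936452851539936788952350598544362220741319973011398881992537893777115367716647810345406306431589956684911828582922055886825696439540404071677543531756155476688961849002289004868967948339612765958162668185495566590740885027507492713830388007800934020166890702668832848330519207675174089283679803661174694449082757279741161237219540650066273082471363860323522501524849562321889375313646478418292348805799457409098080061027033917850541594968894740431366435546281906878950006819121838237664960405466496961052473159140120558072349867445165847286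92550552595415184452324010526536879737055397565625934624673520347077691489343296086261122788425907318628725042637895789088067012819925084205683290533736894266253817431347278277415957839858149865333256612894970942809579408961680025165429786640369609295421322729375673582745035051120407745169959536620918350538292624827792001707072914853663452494681200691891708314090113326564641120732349233564266007796170695672762498429396150643827899830394221886391554270928842646067388357698293243626054614897432289369111261468498129068842401384669198149794821408448877421002046129427456368140552178382417962140015160496253299766456526709117706235835377407622418829887762188604183270243935274468622177410660737461019521788104082675412653069040850619906204124376156654509665084219847567031474978203732172648578633145709127278293625873443802429535141548709053268176120373769013693433442155641232520260574269803034023020656395475226345425157721130751510628520706920994606126161955648452874260197754919934885879663770694754994083092410874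55461167414024275451805998806315404573300527984039938871703646959519998847901903596453924463259717658450761704434691425706186486984799357690078906215467685979007339936636615602663066656249525834991458831660262464086132267880355449458217619789518358770723987173344113940770613303474014699169188159051848706803858270309034141761306848030962279603097956944638244745756871039867600246736823152855838941083446725774013515038707835215775081682937076574101958426911431171648018436767962965281441218517258667174169354936752054898694010207982828367934568217934879322057833469435051857646453253727202723253131461911250292709556501764718031656245340177815186653773620410801082445760074444324404399548174379158837470445461635279851504484820768940891452018959388207812308603410737390879454458402306121912529214952058994167721794909361086663613680253150685990872914002203147040846601696209936297602686673473690952183922827400877629158735260592102536204527097559749473706856998618279603729065848353831648132755620968334098682738071329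95095123769308490709069435662345955097314037355153543153394885572407613389343143152009848855106113694114924928201348230347912389176613616528052853208352162933970652593145853520913629134475459527612187620158398102186419087781024524041349801925972681677898359800376137820132392691983736709106605445705917461340947764239876246782650399769101637456474806695683622250668599578585070336008365138538846925658804655476267152272067442839816845801050934828597610387071780794685841305744004976887561040333763100675269175850520549975826612063119794527856004107046327731900865088460263355139867579984775779541438618875039660296458369056231302513211880528172388111504342671572620132762593344644825959366906820246359379628236846212108863928185827339119292486014044130590798135803243416230229219391316419779782871565705442384687506160212569702761696237451321781712984870498233018204598702911994800160723038586278920549239693794238030866989025899761486904148818650555857651329573174037426773726963460787695211238928691238840250553855743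48110077525554623582867931794062001380294597107756986297280283925496653166843406934098471028027994982212241659560927897674729269084630497275012381930902544893777351894917345716674088801160066674326762643014564279002752543911815119536817267541532922118870681995685753226734921976030521489283602343068206143189190896426550918299403613012771724140124185492089232258257547224605448700514384343588882458313504108691391264898236642708195507923884656242484169407677938809949800613797982177386924180610291920221024333239928442515399718021176346251916115884875256097664703657057889671453168423226411059279966911944218889044688893304216776672528421153772593488231883636107423738810770836773217851935201476473486065350109653237252504582663965581792614018959598368709651530541791718641402930242790725029241513805377731827667784947248308577640091375377279082324714038407493753616014030684738127857348597279087346709785976431542960307898800955657983061052324160207960421780145313632873738190913469537835506748878954801452192010077221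97214197346894714666641192457327850918983146901463174575458687795213978209724003638201475409925322928311554824426994539452834471759488787944245118736652980417070753513687869756278176787513368801870204307720731344449248913665616818840560914826121453208046519033359528768336776538553224817698326527145441283297191368397111775532999349273727072294284159465077664571994106439796706170311010977297527385415558382260484607742551024129588473922092061042558841988664785384823531472879291424779023860356965972711080204344104556025382278093669277360528139215333739087702818511207920058233759998540767491875836202703874887663931308270086363509153699347198682564846821380308722276328729605923044134475894218814717435099755098287031583283471258609646459142513264669853195525697553879362511455799870410801728649506630002071378464012828355679492663818261404786101459970461273618618674932250542025961735267743564044200383490637029050236623933877612670404785390241742757383959676863249131903740235383940271653201599730383133558180655618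85483087397845962551524393003271509733740403741975537858602470255988530183672949481415939754767716037739805948927838056252841460322016465268680706788402755479670824925621082681938433203066825972377466365526546145955369313519633281537461818713328907514518617789679639530878400531412932593746393718696277412124679278560260723205744747941127066988104542015450741860194182969318051851644103081891480031737825666611738261812265183449928883180728135383742086711892165508621862971550854600314485430548943312621213059919281214824790839761800153552507644295176280521878229615223737026281460929821445563361797879053467104617904257146189403027136958696232463700372499256042974200019843892601543384360830335100410715369009610688460427733534780658713014645743169428999011290317812702240922584034545908931617851106792961758004561818084313752341730256689618593754013016954012263175630263997288297544845157499438708410250411290558834260235564569228018500338982545067839024047025903639962451727235331077555433056328115004783703680138684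07179769091460173139893885514215087463211184474979704368990604282080126246903903242374232899935682754916530359930850632788232590553332183416462547246006517021760937158423508457151647205007461751803676410564206067860064032952635124127825702016425267794960885862723413654064430905094268210862795072576739948543122200295368316189619610406873367951579960733906454426309397511283652271559368657498173982185047755821046279848813259602480057839357627359806123362292229326971007902162646692649672447224281606714663105612144717793327653974281507981943624266145196083441769770351787272427997645278381794725464670407165780726993504268626061551150835423827891861483042247909352951239822659326000354847275172655701532619781212183895928611442425737453158738499229315187844070727158810863205321093729812290805481180006679393857445588097680061543247216102145307162261027728359122820178791382380473922712738914012902400272822363223380826173925730529932780855194924054834920994885592458883968694948054678396794669807622883505952514176192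06887343020703834627377109848846165965210366628592807822922177477345550159556394053291426592852124404398346788535520037731343508789559936494203632459103174677385326302409080373142341513520027959601926580812318585558732669292569419860527963648702216698038312960904849868530255310790869108509413089487513202748103669336395517876426496215777382676766688843953744794941455036926256470202227624174953011421780891236527623495819028117993560731825861349897501024021813291113357282582583062830540384524620629948018110301253240257608617427943083771535296042304102079415583092658693826149409751319842216692676337143676815570476504439575265612497468240985167410697173012427126898427691310100883266076863833307792846999639860200671022059475573767916057662789530189845604261243158733510462399980512182146333275965138742530886067302938717026549685638344485849329723665713258293719307992051646347164308277744736796705555681971215088965593969601069535792410039499668108415959541185873639549212101593099016910035472512583531781546598381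98562284229730419042392631762307282847134555670890499038978378516243071725907158067996746919110795238451802646340220340128714658679300605352547372216460074576986746355344884776372005566367551981791791872313068004502321889983908348610292938037756723381184193869907708272006282966433590989913545219071364494234855611812155238564922782645791028023784424699145768936383311896091663643880368656719579157102888035018788473505626431242901273136466932689993455025699227536475123011817143701660555705224720847573254877237195612410199878560986696574401527576488710738687032215257809168516775282015061556000172042479799779109102187011954654524390109327957263141540808343869365836839881807341059285349421026654678107759351410583429179416339349811149185524666201049862978515083113396130346363019651320040348425891914213525447140359162741762347833770751219099179027096862559034425066783282621728885750603278158614886293259689996066895193269321496648991152211215661931197035214152692556210161346582583687474560484222513974552316813438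448115098458524738638431057512923199912723574040063879690028390490530381016831908367827240668515814205859428577250369889336530364262445671771117347767675328204411804610381923739735790408879297607421316759565580491849034801861990725520156961435445054764340376954955083074903854732272704613688144072838420217553791865205485710379292963150462212237919353415734384012089250295539544961053945484070790717152498738983701406878789738707752918458577933025533208909650628489057068311968247368443083882240867665141766238713783796123500591077750635461513350739232033614462383021090834592111038235021204399523466431624854080855047220231317364615571402952090917091136581879912135072479371130800954413125981095624416452577658026045614112319105928602353696890827042720563457448904817082496499958740285253238228620798117384203358317353350147942618327083709116080924617556214207892698571882427842560)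

noncomputable def rc26 : Nat := (nat_lit 2288165839536360867626510502076842100754717334782880652705285700960201290900189219849146668368184383746751126047079480725031583571995410870561050236934929237282680400504608119278420052380668274221280574965888054367977296453835329584014950416021013848393781076355887164998969694255972680454823949435080176815531671079807826182544788787985509887879539517478587538465312744312161625025396957763312105190994909971732674590637121876477325149381736511873516878927686789057340303276072900172770829920184274408074429972031038600913857641291610104356619069430934345639452138649478646796956825815429815262750740706218461991637126169085861410312956494598645028986695039751529426564101030712080475306846944891629808937161620275831409053928694374652194402847206594845123846211388448435839852438038494678375196667205348478377280208079641641521425313957802657788734558335045206057286052395876713686379115653518415160450884383686720614113373864316861126897644217544043801575471569300340983909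03789550199813068749620272968703640818155317595179413904370884720757152757140852899104681080669763067801686947500594819312681681398210889790905277176980920211417187376773291363008065566817439445082651010413467060473371906399503253831595502737640823899197983526931557479154434998626704191556660025179475439399526235066253579420551695374080640530037005214996286226424543488099353017498548212804156816159814272079063422951465860501705581943323563632643263713055144798396584803506800516528637551513218788688021641395059226699585470446319235020911781130556939064726332190262206900664383556181427991882511146517258682033514725005951701044754041406794754728106277290835282843890694448189996129152240991143159778308115640783081868414121706365212430468507907147642078295248459651520070259577443975697269198965981032036601469173823118523345800587540631794361101667458670453331173108711676187002826199067603518213930252954059230898340437761919636763640069303854550255390162897582690358623846056749876465916583531592038951052120263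09218044984958969936064434400922095179209477126325197449882700372784957796034432566698680724502819350713682449671674942141855813027835492804253151250267815441014823679002711839758673156212973717828182233434032207303406642007051843382073576393062361096921778324747333437213959176014674361289565867797202051422465168863419408442397063524452643849698147139826803061097727249054137142149282484851155487682210827869129566336441505594971455283436981830220443977986461639956877688948621612522841804611343084231530382221452617359213746625263697105849108284104588123470403870739277392139076361739524870722871692477255624109565719938174601252104002080412616646204409388902787416722648606743542470443226601259542797075175725158009226445465417241006688871939534828151821144302664151064258207375856281406390131313646826726692519568624252053804189221304155457985504522699886469205799884120847641719055900460297330688707557042376630457655709927132656885069488619112219839818312248835496776197996018045619955884942582215977385127224252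82566972970305787349357824790749278406455689544445872424352729089552607208796120137511708279241886925523749356312190502087360563458520064452205644716536928315998729622166466269143048389473167217469135456439889530464804534016651026343065849368122026350112948465808105488461069775101708980567866431336165917206533010908739224462954801469674645959931379689127508106597090033211123093725995849115678118904468419635983726189748065435131858604543811927009057890548337385003989948628991640955656794415037226980683521402848356289691530728931039528119455097997179868317402601133487666129135566107896119299604469948701696208756975231925263382809570334888035542585542641877706720117594397598060352610072235020133450798416272784048162447328182921196940561315124445161920096808453532680932423140985841867619124396068223361242581734221460860952115332141422535303679259828730019673013108135456193622469386189156802730765737842133346259304089457656730855819938745227781783666374049977273831635154576612376818046089822986940062342225803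18306495662762026149992456587699933068965251663116617248475469357018107618562874708003406632397641240117941734768317316067572890743555997956235304984121435181983611785949465080870641131566264491769171565033395599663511362394605653760045353852714591476889950185734917753417964087088223801366421099680880661802416609593361454527462572584816836695793424024495703443932575798268236674691969054585474627816576491395754207042954355600594595321403339935263316521334361080073527119750446100500523356947629555999987711779245340938776194123849112007022141319467366300744728751964329113852026710931550872479467878347119222364163623579016386662469591088849579708098627605976223838377641526267459051425944379828597117042778436269585467355521397380205892525290315629646761910541283267704354992503678799210109207313401062878322663237489129933604888392567639571104481735537201310505305997396275481461082330408237807778149737395363358771466549244322654431357708108187694413421751943835127155145632703279762535530468195610817228919504455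17350140534774558650922207771939223249948395176738576665043308090330407154995465787654962606833859020220754184608142950678498700381862000446854229537895166971291478356382085516012746630592682724387783464933997779291932214730020422551714072696587513976222994448338338801939451199406226263561455630114194073324472546249407786269428066217761653171674058182182474396007230649247044895136390628985447933448599275308400863664164915487167647624540299598788467667074193343001367026288652027989875738754252999384520495931710642674815840555426636779001604468049144784152227472165658975055620762191981928301146601453693091700824724752718614703486716192527932217116346658864558259263481489950293494558201015123891480382162116342584771987628025121880202085200477398571828396989036929371457482416969076195572006208946321462386700853348859379547606824126923518994370825543005633154683316565439918569793519296602579862169540969590280138068128256941191599120835462206893232953354207446411063776710717234085104025090307581925267516181104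24099612395784514750077730911159262004570200642467760545440210328117143200595176238887252661132552456900476553514864822924459463878901443588109248221977934600039084164710236350801632008603023094958598323906759805826240222894441258432574751743258003684900767685106572563840836959060827086087812349536112231857316263932082939920275258502352591146200266849537668034234360852326167658275377368813327225091995277621647452026004093535158764992158993243845506848104212025314021428894808321588098987561869690703595799512194781056589666438380571794992266361169795712736462668420899208613231423457407768278785518977973587390055401247661532563849581701500654966225555345682704350658690673296817015753364023117270378102111388198611551781112563482020183109971176449699847572165231353155166470398196853742214999190328450812013082150668061292925296610315981204579780294132442913500667536302344077623299681185687220972170082922164597745413542249466014396457153893274590940016660440226271052314146923080921962317239262656979766106218870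71002126430234431527660663326098101579577373741465543540079729519104654658454726944065407005646239752399117686066794212309455289468311813683042377417836943351308488060929854468473447653295130802488680144707284858742357201594590191115350961730582111978373013682096690971684680914471910373413577911347384655909346203996947015336301945427463770847682633792045503008012125412411290992447941763883004273003604508121167564988941411974685860732778247168991930509367514700835673611897703121586581699300724953257232889267563774615649026143052556156711159931371725847497934548890963485050492938175259121675979946442489065838321881763638818810746495945767140430950440892146303831970408851608246131746918887348905991367279262886412821340001168269266884534637641598765522545584822358229502891460854876097975148786245971565140823000847075051271779582543031672471729131502613875295380099497096101970164821795602279358347119071170430333390411429677810556422030537797538234597425375634155587189528356524054877293821952935157234521058730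35276532709235795931911693786153106649254690683303154329835523594554352907575837793886892558553684158630628898636369265387587922800781921284221889550797231759913463025281768780273239720632201686861102133527530219443547781579939752683578213875364602838351335689885330556062622626270212712893777021697591041914965622665445807013160201260451431484362362516845119919636073286453672394617531620321186076250170053267084946683666239463216495408907378041741160982474322485382071214068725192016011211620234402392176041465467948874012412138143631376769790516108515415397780997722448799182456206283887092713161857104359140489124171314987670693069138965993881198332555169839197884786554263111205559064011516690757890832093603192491008001688262423464194276580808552759309333744558963394121660787175800546265164069316476130519768189577560756129803929142432113206444334542344135391648366197361430849801802495669379976637085924398429272875988196174165273980361954204865091158697699457025870960182256048323886994179883611445870512540829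09773124691827224467248859457635291410942258340070953213501894169432207664664539229535547625795320187561737702815449616135695970962007529216709938832188529668232117951556040330469691782309631781888392840274219466706672755592651667560989375804572670017120094229445701450348336914092398879000365356083387264117212380371806594658226855592423283346797080760421619152065717688650128969672635995082815660951789096770795039408536506403933914422035798676566819940384087866338281241798711502514268452378338445836892338522663403433714965000011401159119594911315679372805913626495366942756809195631097982918832072302598992149521479547060081547459494051086422546449181427408578455299406417396798177826737093520305862743847547549719809961503521668115923277863644066360085158598111605950117376373462479256019444639050125611089708281728401727159287731078233996363966955048010105952070841787988109388565703640637275033655956294319730394827132094175743739019066453982568041643796998657084106435157805348299424738040919824821873344888645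96987242735372882184363920306386453516210136591766615462735528955367009077876467826559850881261018905254757443478555809053904807478475237744759614837017028612347058032055855989683018088146984047291360352198828997422156334396356851989020883085428779567804570780607410113375030430542805664757857154899385562270100836434238759108937291282106936401569463205117745703017441742696248675380494068685154486615253690684259748784239875567266365908032647176855722055386076111327719464547527073980086542049246541432620139500857254242685085020043774227118565689221018372483013642281693731643643567236498332963573742455154380658947684562804527451880969927671450448619979823847605409444965635695474458680404063531006983087589337533354266190302184089020202802942007503937791301296623384024935553354754795934656566834748778605677564085723875575979374946183517241107963214583054477370799971303566420743129720798303134204964294126233966368033238816329183291331593190993626853839037160557916089464884805721834059741812585852370750872072534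45266552086826127529667750917321608750312631753653890546828511742310856208340786170857950459011124319173182422513388230067722957269776008050973409010776613052821776708417486851304573260327157098453580654516870763300138911446506215457881941108205559081993968229495214103173174899971531884671901909700792346609574718764520385256002480061146726848937024957152871542324062422106321099520814549237775334429670025484309908972650404220034295530795121186472220924640071945776013171530516776191567250295323586388342787595490626095583684870180978208528424230280572278853201061428359015859491830287038394631176934984887812017944001177016576386156704088542224675640374235515076706395178563910926596439293423617799128925469553753619346837712416407326117857425709091012125169114793290674379556458549908531855249833936225771913442135705301585004509917856401568829223519470336592818605814850096047528113650616141913453969760132037180287242430492452174925347038073197393899885530446087387007247564123292118208210772665807155018141638410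25107673208202513619789084354359547630423832389900642532310049222721620277839498039364526094778684046323366032972689489994636072548961734741204457521905106441848513956273421465574520522088506433303798466449478518600511813606004169870575308375664154726256136417176759057397840675246540034675922217732577342552529161165301641303127036232147918245307682263469409880809912088263048667702427358261843319517085357961957768736121255146953378401955305620086581931521724116678597189421890318276150388912961902328173570380571772346625297367668598718839318389316773908821209514450054334963088230250974018224959031927080280596012215743977767468838032605442531656404315777008194855576088420524853101677455331725557847211944030663065141709230921244365919395204871500366334001212366314355953300677531130350867046595997484811431697836630296361689048013210966408549452088469171097036105537509250526320953118231910087935251379264702081563923050915726287057916860164053063345284434837247692193215421151746760074111393255100000888710298398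31001532881743087050415012666251049019168546258933120260746099952808561973149062395166625397989692291636458900787161105712522768315079176445611300504860181767610213183304059298981144094166844622727340821573458026154025974542457570286311240665467675789036760983301821801104292567050105473197798545549076721587160450868378502162358129720755631834968377674428353959335930326236047192033855844222949891496174580605393046908135154899953366597231704586345523381291580468332369743752255639409344612473473403825169613984637059168742254279554387490976070045440756098119399919775021203993768803226864753310639441391231159463333633928993950076854631786305245438500737942864802045892604499221637712802202472281893793027290400077415580486727230099810991724160397542789456798686841147891396776975295877626080079214610029163112622606430925642105183923773115870263547962089195903312924385659402293526614161772185567154898077315229364120621856713896194039524253658893014633142703614008679146199999280701787952136714704737755384042315054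45790993187653496799072452132310411532809863372811170277187265218309141521407578376717409737637070693610591616512085447278049608054638936102411318451738128384715721355237071328447297060397979572439569981788147738958870658415198184668431985472772512990384386587022472634195147321065726673124111867636236840299387146826143067719615242220782726588713294860180187589730853020689117862418269167372403457084005431237857371440024144491973451867003692955070779075399386665251444547539684911588296865509578273388604727839181051265862469669223237012600364447709275514386176953489730557617658778233986901292692422902217456956561803251823921929834898435224373457993775555973749030172351921226372731950400851726170336788034658342295505422580281031070330002270384169400952050539557794817566346644704531178526108426860569350887658975681419253069863554010929530014883640942969397284356806597181709017927142516118655265895489980124148307574539510187633858001480669347112520401503693691525479642558371429917971067026123606444377240481895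57900585676971678241770744875542977718574421749681510704643589966153255735638457861590376510908602576798253289337588762535480473131710965385948397871146468415659121780062868543849805527930917092985745233296574086266298985826754279338346140377535507077268457611441863290191838521554239198596895949453364106062264259736359002207266228025927334910637145771255151023254168320287502264264193941956524189745911614407090119296836848218791603367842666679139390907456390542948174102797219856499755042771305214597750224120457343362539634088956114606535024019348995567889749666004412090301818848215431872155757828240272009966152330702836683721539994703729271480579375893943789677730801855899272431890668653898284797530423457629252339912223033370872303451937232568408900948672445058430592725382958254367569421573170420099602376783881820937847705967966703763918400428765823842687293235086332131666130532578096331469417101339011420463629484209191636568693425155368903575824058158775410180886521166464829014160688428547228668544063536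58884991761421990850052932779966439811752726368220839013066234705524742804918592430224789959451529874353484189197160681375286540988672295705225956689905620246056381287858707434806977781634801039100722673379746533381242926884383800310280696680195500120306104340216354583674739818331690844789446739900981577185559852503215022866071457152889996780802310471319492328729703096341965314733381621708469025195529408674934292093003091129626025885264246868300676771178360541898374843828975483475823596039628432510404033915125865707917041716657582866605415030295190706735335197377911037768449651136561583562500340927329002952869272638297627036675619531284050023075423427620616068090119280243991357509076499960545894497596456052558305200739022695984075162755632123634229494990807738334200294658034349574678936471613998138824077761561844714575444580090369612417299383395197629308125029065038069090444304135307494610881528866742228107539072311727080278495023450785465464683816821190002296077798087672182108327933827985133409019184176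611406015540397145945002863636711686155233976589426868708518007215733928158268021180296875513044127443985920545676545532054010208439311895560834687456012182686724408426523264441418504633198089307632337754290203060930602279955843904661239604707771518052190415135167449789729277262965599925413016957141197573432171282948908174691297978295774760234134083811937377751095377192768389632209582728148506767732351500209800054317595158961128745572342701523064239041747594735426372775111457118152038520056886686764916670037550561524332888736309473619281011855775598510138280559673294635324966785254503673615781774967931508639301193198948385762696952123475615893983643326965812459545553319680290691215864062642815122636530103515720132256988657838986534543165855122345259679364390143689334144117789301298396743283194939832900970380201438362483772420021694716258145426918294158931494042045775872)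

noncomputable def rc27 : Nat := (nat_lit 2291722933361309401631739949006338061680168539127538617593046991592941319483044185729210966251632773582304115780257757117046696662581705692161753279368260089792458871857297420779439231145918513180521489870716318867288515655025731985969944285312652447839782970061174939605508591505219394128070129603282949455276042895935562317568007659474366233134975347990431016690923756839291500813731502591368143118797188858676451883489289245649824381527226350210859870834912590204607757761219406026550396388353567583512121578518228096497295342883702206597032166910889464789946358031052541761864177982590950743825477800750416998168084932993049503094935175628426649716071865274653637170203706542594653671183039943782790227529478555044650215795159183304523091869997756111265055023601372427037611166743903112923379357665037662769372660537116766783821418198038075680586095366202759480523768946776977120812417467566082897413721265422850613433346474951494503319764047279574903852568137375747113324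03760306386665050696630598151767344606928052280330561222928232934781600298399873950370987060640342151292944872827001761711635594615699175183066497219880270478691325284217837847305629700597028563415362526088630398399057473966997997334229746886959163514027727520715862288011458724210045610373209628953710775326729829932363508846260301009095410597567234057889250587435413668367346185855542945294741436176901264065761225051435328693540990734990851667100825508440661213118238396654078283134689405258028710499428549615132508399615626926433975450994977491186289581082275867978022024632969551954116184322384500757323906457116321601915276245706284893703484922509280398587255772512103070509766926664860750608758271030430017072310637841335241481438755067556149389556106456498728781317128512461926356848844402845300710709100600193488661408328603303179389530311554567377807082567418604023011870082001207067997897525302175914628142453784102731944825325874710675505647610801359705840236599710884416173059868736108798861256881898927158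19588579781671263604924147673748576560648559288362467471080840226998736714459133590511218288742931853266882500403786872783689827799576380176659307169148551106749202962472219294226569020704910210667119485917365681852793442550984943963923434629416433308690761241573962694617927705789146798702435597148138459419686304579528617470349008597184169144273897937952358827155681574676662414333598061466067488067452259585311583534167675249732397625271961334640477123968243769887450690753832235412916857842024775811632477044946894527017018717253281523763093027605158357122852403397521221296238814680945751953722897988543321359118774697004750926708685220933962527995378206543787320768776134504307611622182742598667274412826384736314758047007890011839363562623082873339898498390449228651179532120509833407403730311207479774517295539811537182009691684345589508423543840128604727938914270330899287652195603451617897312168414858949617805454821625549688631689117965050116429379807265330505411151054706480376138831004224084182650695803362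64838408610775058694237557793335882560104663313700171263140255829233835022157021159060571044621415029590308452632329390676329959658456658299274322525929641347008847489858350875437894392573308369948055113382386579873051071612441904545782368996614588599999209952837166351930595742963313534264234982363079609607213173456287718546109450889189054549300844686694397695599502868216616269336487283738851132703235749984971586195591966333071079497242624935588879786076047230218053538253787960660464350814595754064418391884027286027527139189683919327313669377133973273217068476254438498192981466385335881837601914333967424560073213159960695133938116288129149841096407058928556585832828992653773865576299228530610256029840146049722029169749432769176848263296069023516331872588713270014185451006154073530168412860164020373697113597218405447498760991766748090590451210079714611949399728047474829157506582090150547791161710666446700782103653700413599424959864537273434930949620714557377915266773027212076218853243289155310900108817318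56574366169128775084644387044257897832352902549621973993090521741063982751539518289976267240193085984009819623978078124017693118324948117165569328310263630473447163607558706554197250958799301062408671988113963079891115684520993157948143540757480281433926225672382844419374501695460592141804407503564038108409423371360843361971258946716938363872359509787876006676212106366883782325791950159143854105041817632066535594291081510898513780537066091312534650254843284552271666819698181519536660774744107054319716437160590949679150012357983071689792029576541538301717348255210560340807009750389324964970583577058286851077800466781798546798329098407086205981250942801666760848292390789985143339167016050503112320038203888932714733090408025063007906514670048293521755831002679255230820701699474132856414578735241098543275368057211127752112160561817852965386509632959655684952053928970464067375973844984190334312096234625783879469915504156315475212531545171395949387615811310175807952350159870185105829942815437953149383259913488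24231161764055006413998773374453702098337765359066399238793469398690798891401386330549549679506796902344636742890335964880442760017825470909594366529710775563292578407663466554524999257869930648275799590435351227350244780449811510816685484977456690455820264258372874622788280013389258628203092752234560780988124185489962515383865574335782791956642866322420103116966237170255044836779124392196292963408302340884379150700472310698728021799391852896963882095810622993607551632947285165089438961530280295708120419919418572630442154188725217761309839981603133976618798806348670272274045938551016412962643455674855545279444544367524864796706476510585563548841457967188624469558719416194354109078848141380347641725543790239947768864653159109807165897827334085417923158485656008229624133154279197714007961287276958377241967678991062552940161777612502853029201420704651599794322891248821046761283321877243777967203070934359329596670153638888855222244037398421237450679642496343239571448123393227987828765893473019904044211584779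17904446493008822087164180904016768187809541342666715536818279556700353274193765471949850992469501913593129950988875473170266884467084009162683261160879736452150235303449171281035494602147838553844397293068266425728737693678846570906057891017134081224475724429718283376750559584763665092390623376073240934169077629063707918594720851055907637052765224987504426560723479792741563111875269431980587724030959573283461781713486701937918932352322181014963916635530721586834853791104587330058929611919960494207843611314698988865684484276560892197698154052771158628578094602381383136240869632519612482421878984865629385489289435570415553111470013138957227017878057496910619608088917219888243838475367718286508942279200349665457156380739079667969592707872868618052588138605718303494102693521900863101924247125068023830447248736316743722368932756303890252917127702276865808451959849093805100025648156238573107951951885500922782551751938206392260271715573907733137068182093464282899210866172417327953559627137586548115864121149327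69293779046842887622249143817503737998434669642316031615442038157667629876471179808799434736635433520742673533165378883041733920005811458420700695407708910066590984675700661371269950640819474251093943053597591410900084445089125133453807806608436247881682896356045381282675245996350665692084431539792210182313466607439777025716525807732538218620708318770536837988071532320205778390237939537539684480133644198924657484579085341829215147081192606521883808088570926918986591891285170074323002197467448223880224901616545121482217517763849271853269530827910676966740303764680353514881528548621877228589589517549463694888402431184514102362493923727923525341491356179417034794007884782201514103674749636864019712640006907418214873999622836437076738323941018434768761393449542691856156865845605699184731755777618926247723516538201658789518743278198849747022873490054286470364918507591515947822255307800180038117607096305836120685648651879658921599667238530583965898700155842055990047834083760224666365964867178734396264315013467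27337893695241975673928173805625575858947575595203556360990020929448149100676543328329358370490884486667450639471425000608301119981246718771959337067771264927826699506892510352532805717029876666602464753081586649010174579598511193882818395565295313677180746975515726237666506841773104018150640851295171119075153773928543434307527439170966383189472861799078606532359009243590470136602804729646945109009005575018757888150499653166541956898622167944299622812342613983898939649728931581030861290333418621023171408627194673912731533655709336550943426668291553924162634449913344818376734603274496813941147665855409301952717084864930112532832197517332447854972303458531426346260537031190329858214583823151932650031789054973075851916558061390422310492437859119437457750556427077879562857782643634804247061230329607763818573206946397777393965194955926139257472189472882682231277742740330701468285765816251424626919927416273948871473745312984302291864177997326849168573033557193791933061561476136871905469784346459274051577587697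97512697468603808762993490129318617254419478193584318047845001724752955859251153850039262124407707652671273754117321266976080514299397682164216318572006921032131619624277716924078254894294679118642361581756078205990916007754397484243562902808624522352579227341900147147954560018681496321650812500507014864625092603729753189737538680388579270645642446476993744925482061245778159326843584984079573700331415247801321794872139298646582211523884654009531369018148768346235682496478912675741279293953559118580313668666588678904513703532737030068461493270688217383175527410468956240656066073236156856406706693047421732193116909280223881676315908429476368287766154081134212990389809574613455334669209861958402064822079329539185458394945859515616320125857907123844418480460554087462407390872784958982822585674999046708748401300857228067620367226022169552979767764380145402451075554426262229573712314837344993979551295590703370786538032585364114766193269718720632810356773277174556685393594142689566299026076081325759234005935387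41636287631410065974604109490136828596258523852578665122880868401707126893173175577556206688327018531655387778636883239063783461627738863169213071843387680547244024950733910494841912921964524037614549978428996424216510337979292990901940096581026388913869529846064310098573860365771153342005350213487782040424095203660541369177099578916623293773501619502101539043234729287694393629001607330505115214675633567779532971170730602632461406781046611289387192584447949274374166375639926656179805563852233658999614357257187481355742924062074594825222201513508268722448462017564029428248449855870354096216664755126011379758771047194082238671779358887325983304818816445124694982185883431472462031970199975828998405164859428840139865590672677942906483387871342617565810407513221090945351347793967920769665183840828125837680437138170260837207193920696104712666607173899839755141137757706586665055015682162567711359812700351924001826985121652256641296710649191345200785276416405264186472891164427852547122635710470741983832367556880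64566538191414504533457514189123651950397875714271256093132550950488141313475823947747536209828830230344709498267611501991062418740870846797864063479954305984937786745636241479304247916554668147244366686530736172314656372665298495039322322201466214162536139169857797437266431895167096207735066380578578812222077463132780855420210870300400830498442920467133444225020365270277201662792824260605155651534301960421576735493302149430963451321556487195686200953177455653256509834491984779150585408525628024042502859156914782208384210031405817347720283723125665693635845508543239529916424072755915934271043864107920158034873261944439986862487589722928786991043623493754916388912246393838732129984218463471525958260326999438269024515756856793238699808610327458324527825021740951832153751170629832639570812599353066475007453261597508281291775674630217733708309296839540692282729870413443418749739226183922399525959515563916070414492819332030385263878773188444032843510345898890910987498504385600982979057057200700092778319868949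70284692810526474181052233369208781504864126046701321190849005978895806075080441682014776256309410661114593357473334120444053893823778191930781180413814347012323501252141622463863007032649867559029160273208947225184100771123285845264219249015194775751762608895819225726443586537586475782171214188507890271026995000562748256180397035922835791854066148504761491466763929585541994664569282412563380069187784658219317134890220484033134366153912891443577876162369164887177029211597623163594902567950396504590145584890928052681913790060490657797681253745558586698089987786565261310122532454394508609364901533990415697741981794923041675377876412585140835523001033383641211512661694016347172420959060753270612423605454322587425465586664352211434980968545481126112541935234944655919740813932396741105996038981106736024766253992695643702106610743186639316694473970924709372217591963146640078202835522419937660929432345587986687429648480656484547576900911715872239435839794386967521308807950609413358186493515160707890105376076041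19887178263385715880348914999325238073869124874598059209525119679893849391272776327768545477407951719583925627784132332770498073319165245739583966387104891277789092343568546787967186193571731852434255369250225692171132112750128061674482470905715969818087693659222094001245345117967355824876090326779528849574099196034126877365397126403599933685247840152935610765528430405055230302634559577250607176777019649961982499866201754850365032577648481982814062666999748068682196621567739002068355376699671283517387283988603844204661230875365541477733051754458192522602224450434112038911465813731398831797953016484552076732921310555543423777642844693262410102631575464335453032748559064425333234333627694426113301709550399257662676047484349385290450763003646066960063906634089964969035288728186791143656156847532920077088478910363197638519390681979464204691519145033859745203390991582824570671741304307247773882389850058932073296746316768130047189783273113548179803594458659338139187894201582040042580220611899769785897149742703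76718969042689773709137253237853259291342886446198316073373939961832355067723807407557895314768658570893972383530681630399215396462095816875893554961500148598747436424998994896355467187370607611152113125984516744116311163799268640231022184276748866912814644762904883904075004651160395441435917322127790262575948292267074583078738589216987910764752268374617242070997931374281894257121573326421392713991848291263850263629266234719437567864377371486467815014213398663967586913870379806353750363602227519501985295894020661882949520246850034026848885908837997419886193073010492668089508020392649653265112918876265802926707887984564967710899509589688757539498810625899702000331712822315573224746217709127619571102495386684097114564357461290939329372306330679367946193649510305704107211064900534816461487635816525502605062849484456625936778602126993463299600771558140298685883075106814232503709467162745733855014373439092323672100270078443779143224709190542493707601459477748254145937003485333000250455734181854223007445506834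62887751406090940562136212794368734701675127581793845596997514122004702251151078462614020557343447830704516503336951788477531621030998459541803636291412833334313070997009899277125617999441986217509752257888774364866845573433282267317544443284867809245183500056060383056088302843349400476705129198991302314281044770005534199419521765033684577865334273319662440004259136866850271467509614028548436695976427140236499406902913001713690437624304543529743077860844250978407220567275578949811833354153582139699871246595340688531595701840774800905559655143187515594639143319935858789743691626035005171474934024590337920220688009641931087984233898365257804077005842771400621088428407169146799283143149888825235151733960079031085106310312355601787531554347208837424245803812477076281320467135855980087968597722372912783316151737146942538806662658918275173500113166550573542899966915239533615286109872541324431606363842277218320917478618190610541643342752957147541114219855529404234915436690254929275954313291773820571992238824980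62136316390957509685408468231404833127276093179839150752710331872957349028762547801405992871758963522962211944748374767953391176446048778676249894328308536020772777008146012642580255577283223649832578936937644124132268972388549637049476392305669877627349875573676876123226724768237292670192278671241549735465078291709300972799370769944213217008095007906350066057923162223710723588907173470780952563810000234715545966699567312155972806882133805899432510895631850574313374625891420845192547676131794649923380410508481696236309935205702263087144790163273647674404516088514287499003252925880560656601667204081332314255750501002899189989395499662488369627405512430519565674227507440397225701480905294630246188460097048265518772502080638327378420098132886474760671324513501123430483347145969435422247237703691098932007983473045345758708746032383458178830095080368221582536989966115785630006930517707105990209410520894802454989114988386495805746920367080621689964670613512938577930914605442822462174266922325551530344978858842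006069079490041290589466480328608478926259650125326138296663264296802095481168777955865803474279853804618467241161972200101923460839154579648006194653966552259317681540360504485898733878448358035968674431446260888582301451302888790711625733841532003785541556126833410814601184321654348257432936425345556403973995796991584469969524623790178850692123707776220944382636531142316392865509315757833614369939689215740258017794955945101907243286538593148173884358583268555895997906034366442687147436510874345982011871102146831354477864143743028197261299892935406948076609798891333178648409666120169597996845369111587393297125741665565491256259003140540347584165086549602073066335005777005710558173499444696561556744947580989541834305923891700421014015959493054478796777913924763894729713629748432923234498883997193851732452890850877540961161629027620642999032735437337754212389856487669760)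

noncomputable def rc28 : Nat := (nat_lit 2295243252125106907149296941848279708372431582856740866135410981824847942990520141791892157638652605463597453398881854469087822681936439001706177919241405524320921808996612113771342427474510809942874230946939508053751736977575769894343499191040927061201977608164737638430459334526737397567609539786911370327140324531509495557910563423189459612056671445058317648370181378477599573263213689268636546709419816705182842445647349709675464965964795804206556073779879499596809351083914713905761066593723442697232294363354009378451729365854512179392126101541527849855921073031380680160981082454127858571989562541016722195614594470920285306288747635464093958339824104634755670971100617688954249018424686873218798946639772411881831860081720498734385860654499171961717268307289538435670337256011106367202862133823319122967706499524060256182903632139894692896107429384756273650882188961592448963776560982047728917890893915437668105989523536626739785787666184208774342750236591269038354998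48398971919665685222766335652474804078234174810576903250184315492622085754591208750721824101490238325672949003853187430033433650964569170259791805511994359692466959755666397207960057204654529528745709796465574353102821206513220974754239058703616016161235957061185696572353037092339411257856440253760866348972789804186796327970783660324466862391477325248208318550851139562583516603297571485186620557137517014670363159657087731687938597438704651165272654414396425060519072958138631253139674513062141902245418214146835519507762944784075192393649876194232569520781932283577088365915155527499437651982010335371720388378014687634592468675741052813534129326480848964008364851973513399942967438343822459738788979351550346660731324750046421813532930412361928795694555066603228099259215850148865796744441720260465033949171018621534001899149907427954208288410326888619243259552063155345777718299297999386934948576940681502525955583856810279584092909113846524358376350336203086221862744613023987966100659359573532261445800746980845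14068508227435732045130686578100280811052135942563391096750927808517611962769666428718655688611400570858127380153499585360604269491933893952140089327016968051713510646374820074079823887457624933921269115599357458607415305414681003590944757115380118325794474589397579543196604331028542467572965219589595362455790800593079386852829375534653424041665972286717429018791468520311624382918768840928215609340282721048953254666423049008954068743204001764852806241823973379602818485114134213191599082592611290564729811285447923422096224930647584454203424204240731360940049078231300024455655361713999027250021834527247164262094646435588005859641806877204098212516987661984167136280710326247545033505449492445369736749706860988807155000492747114060136208663620395990168552927108138419542294938473075382976382811218745936302639612610975134858024875078016186976229134875622822024007656638715548977955863893634850870150852196228936827722496871693660024505510789727803175854690857255515434032408744633863319265141833977670934452672275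95776733026521640951631834356446035494598509129485342284492986019093238445625457637025236994452551196863531842739304684598691253747598430354843277898315078353742181231778385369838077225224456892182520187198153235591082763141443411026858061895565560242042567989719729272106409734790983102781726181659894993664942258482697298572434135377298196617515041573527255459173523122947144436011017689702935062321007406838169041081587342507865688992927648214349783701663599060798858140275054435262352844970510169647660383942552166085775827978912528094868132393975653214278617179648552487721938668905531177759995905669595767207032994101145856019627494125321175171992231432854505629134232610502723215672994246259979923571691237700432304446632737519985810758570878623759591950540116812204901990532598601794263272289788776964548196588987586418953057896493815233122113141956279376559747378075067322289895899254902805029975738604653646828708683089089766311285377384718788027628704405989290734096627302182782593014575411327501811403145215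38796091958431030944651722675751409150543751531275387031353049888735544180256359818583608586709713441312306003017379021937522024917778569780744093578826143214735820535170326717937655471395300814914704164630657003911157602978708760699322186485061576427200059776873071662356371771858060250469007054005563137936589852408676474072830675758493910015876953512601538237131976165126307800253413690417825153528903149190663958334828478441509162235532444901055546141221919301509857613337234349726762710381716814636746182826054692903964868096881242139927712196787586371372060218847510150650931151799814300372977053614267319199384836959836180494423208890042991777165245282924127433281913363177014738969125373422626675917216230354351618148723548782524467050435127280057857298360707431076230215819251773054097354654925274576274883265723654956213531098157140674119071792428920198159737144421737889255241316812603622245508253442462843937653817571174421605021402089810703195559130347083347120869175593097758093025645269136826256180419292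03902054485183399339258664353143617088011565393923801052155136188809024886451833478134735169540514027226227493281281929050869020471884166114735816349164576355010370304432405981452140609014721317198686646674924666420506761562648820268087447684094808566574301584126842829093986799895934606432846870015577130400497936056411777971386437630888037451537452680484085416460004802018840393419489765874534276082608131751060212408720793527213781249296591500445291010221340142165780410541800340674769907365365040594178706018069108732143746494459037280187624459623154668853367383908924337378239062697244099942098340326650233926441260253023149095158758964881403213624004442340828787609781308031395485762704188358269675851635660086525156671576240843406187285143750554016582098523164803137845586627506713624524196624830673407549456131637692975465043886608220559750300365479667183969477225798924114589765506877039967314236335715422503365659179922432542902582495363327046333790408574717049928396693597521154484788505567807994265848396172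27798614458295444168707842663358459178426834515673392964044588229350605101411679560560963791826116048749180081610775660867538182287423168176161289578843718796111745587739798532250164527789881413056968745344452192552799837801182435473193515973159892993661743800972480448616972995745664920171726675402735420081451430422502071717970989116133238349433739726697340257642650189404860755911251710239604317446689644140512847418842750150706344398624674191564587843882899186234894414178148736651216120847133415635175936141052594212937947905371797455676814796856058679908618788578244120022870843163348201331659877274566348539696168145548337310555218897657588331660391718014322812884024285527442526408036132655223264425210398935736713194012645037958409343057451549870948390999131259246551198294346190286526131437716010773695045570932628672997498535305232175856541924607498551789164490530179395912356330575819840548656487852058893975384108781522879797185387732862764305714184138022456504926732238161093044494337918487129918276977742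04838921055746239460704314356783060483092425037889846736849960361178538744072057703412855605461641085539327251404036102589598026874512133618918191532401750610670110360247047280162418758054294123927425375359267670998573874443046598423453354138784446096009723150160758952003177871481221058658342682216535379089423924774929244005154453451469811280886465496590337699471104594248442038260984830152785627797732969359042702473412884660596319030983406018244885905395878493191616119669466533434523096056319553837507248613909673724521400453786198620612641052581231648351351626076937208768676291259326824227219364045169300448159827155358549120529594625234462578917259695963213437939500315569722923281715896903149199098471979502913925497337601104290456100244808747989606149763314618417661207218472980476997884357464463586471079651068156275977338262678800843341851540865342899376606810342711121037899727226173711031738420795003648135552684011224736969365776447174264720641771935695346680223915285011087264548058393018626562011057094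02244205904575149591296546589831523682711875820397048642122926801305896426746872446011245673206503414982477375761152499639922018871466186449759520210293512586452849463206529598651713739465400228368358837979359230264898149581201496766627201404429491700111054307919570793808813286955316376371624515821511996252650793337224486837022108282388043591855568142110430811850346090814175397496378217727330447096608620368671191874701141984845098687519249970779679577694422818730626638422678288409278947328091394944510513703893645568633433485338504319313294446745201835236555967598122704929082162909934455237580750586246953029615244054235625199547519832654671501827204893111409545518999329252271160371469969575739118816925477140382322502010158682151184503414121485621356509703334455936793386664712704841216342269693019689552675175442792354897861754057399706031123063935681518785620491758983071539079939910881752932478544023730636218454382790707380088023354581921402978432479935109257699475628436733831840302059737879804333420973199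52249216271740181473213126499754380937017576340769022536687731185488097185033867542679456381052043410576578194598827911399512355575877660609781582154479110490276765466456138418749548675825175134351939275062875333337838408539192387607229923804354609882508008846706926250201795935857032459464858328324432901673817062855686948758937168135296233527291009717679162945095407367973845105286986869381843573025054581687407608153771906996196270550257996808927356247576111973814278171930123873349369993506500221033220725564287388313465018952212702812803679703932950763650742786203250969086569682213756282394195156225259517936829420604162451296733055674125931872427369086106349118516379648798781701558877654245983219840014237395290945124446557073938190394136742487824162504770959512879773801313137205912093495970599668067805047338372860118909600382176795882860312506475366063977828914920102021279677417978916668833446252233137743455939838014009985460629340919873454844898913713566183545497908111689570789963226699480805671167573333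65394448347178262894085836848398354066037123816799623182889552499813529709023650265297895738019672835345118464520886189877724780381884083712466923283873121367755458815707606014311461917841692291764273461208646591002306013920188382366050030545472448392126714429547463337429722317087993075388712303656367608425207544985536278618328370824977668060216607051525430336031231431495285339734740450170917022871732387756071508167727623006547812851603553500187034250688401767736115524702162376389427197534365137449938271288986205004974583875279563222682690748753065721327153459865570402628994271446697438967572891544734418110811875664314836651426765114308928354091034722820892561483296581986728212922075648523273208840377823095374379082627526166057970782296882106202680008895133119105652327414390011756278068414613103466077566806687347818110454572800838888233748816707107183398221991878222852954123228976232005108109411803602161018712357985511759321830507166954573682480970808552498262793559512814811897520124955933121512400640255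34100500492147165534279793935866839110885855692657044475848782774678123103483684056094417734688014319605652277720005625447261066125422902915839300632273681729394544634567628429621641626173859946828597752280231460183865139316587228848147272507050919384175822802807138476741000951216981162280534376116030052691926498545161579247916626327198117818600464425738982269783606742998494309257707669982607170858631608886598555993365770958245810612408394608428757661415919365192494712249133767056458757307736371507300839067675265521212096689869322585336199102192443935839120112882082798067818467250584857756473315073691833566380210804658502140588715077494884192927181313800091590940539933755130809693886395588910440324395304950624563722040009600536376633454846861865532599919169209349011553838090867310448447724431307099183940040616394124882579815457728075108828158458091962258324730881670741270741841759226895443456556197999119391894641362186924867486087473206273068651171118004254074689129843235463293778767064532870115542799029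04914608765104888942400396927865491126590068653705952053067587998469346363010152368106483328619927086049024960359274024581084648241033956398284039333178946476904259001850119325173269705381326905035313245418417778727652088991909186115755699857132304523837827648563634054825239773116187694795821389800000358305924518290312800477433200693425506823477641011805172964075661221555277146878362434754398990976567609034942568441702611699060260199209950456955633691195638631881135953688527854955120262603732716439828456733759478468041009728964089110823763924228258011367720599025748804885256076354590648764645367994182709053362225534905387510830154983540760613490718229436819593527103268107818930451551104628035313387514219782944242117682524283940111189055556377900329204791777086595486615419863083000025527890521233405389733941671270440200471549101082426002934656752724771901763437590568955198632721595066116377502026267398374793418414993871419096365658346073131728602088873058149128145601666657847458366977943974072413842982016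29104036336071499219669479793878196498729688417703289479176825552684231845675413415159501108941589979701617023485421537245183956541873669302157235460020754247652597041431112712356209535134682920585401782414932910433741847943739248779394566624853186580486517796218260388448709130326731901965706928041092235587654100491048312454045920384474825368728611355945536740694057432374372380345969525465503966707956257752231502222803372810329417492278509411237847178564875945559246934219164606349556868131249547873600175701142645782224498146171594580936699578323535222023256330530203473772466600179755954328594795747623191947159306380993405490950383415602932054919291517597306855783140327329968743097579032821783176552174519694352486704539569677641482163529489916034428490777445350924356672803772300276907175100708454971055197292435051558294785644252927346338414213093500250912196355268020548428688974900249052875909361693312708609167535680025993046648585479325345123963638644172959103190352923149105638995943025276964181959406616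07497351393428183470343096080411052131328414734510255333504150441415922115972162824562141325278497657525927672156583161491456465711543784191699048087414496790314327630254601288010126522870717951899834964079318067841080435334305351181769222174879679701905784030544551837384767777911545579057700632428572250850065062994006268040501584286263560911725534306625477059061473620717947742101237029321465771199693083743084024024718921283470895962957425432116138369915689487041924872634664246078419951639480704517835470282312943203327988517507081475862642510992989148843938674615888187889501517423758186361467637609847749285818614977160975941145578166084019671178512465084157841962519704654151715977999861112703015872217782602816552476963820845058932032085467665488872131904809075169999652303202001275476230317835048470976909922881679568234857080076609438250147348350097865627601041851349078551679350579598571501187432150209154727502493426768691094501021213026349588288375123689894495904221601446412311678720731930722265614778185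50066842824003465883384933646669761737275237753591470744083364345341802726293273744192471259777684417202863936919353007702005392151684586447907640359012324679949618362299590323688623767057777034441271733586182752499679396876923479995501721023817721861344737968818564600521415132122506530550522530801939971565168275422107529718717995288357677687774176664967562456367852246606621273499728344220346758986279933773798194227729645569481911451378010742182923510137524517929663779971694585638656647338293649813927075113285509547231333333119425367295128885805706928274766906291541284712427684330718566921414841875010501191076129866549113045180372363316433471282975193824619982852852071036830870959219990447618414578342895959467483092892983052858769129504773464830654462683629056775300820451986975360251412431747696385983268861140957055053453228351238657821104221985260192177889682714622147658389521580644651557495826969995236730590301581189568504942365120157733022053935894012820857772936129384571508233150893305971701786250706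88499998920182554342129653885776027561970428288352999526599587738201851242383391869248979639876581293185446703014900041311530948670617387231317244040540070061404516710380354920326421279870491142224247095400455913071773448607880085521587690878012143419325637382994763857433983566382973193154631967769097123907313236474062523807709372629360259596933930252947268346528942834784889144991231053818149297586897361074095531965766012396078138791385056563764153813834837320542316558065017201701471481761251707985269367316880083732021402495538629991730920611882295751673915310553178027599587795679993715450526829003236567585365886934250069466698947046386185176995675048565968412518152730636778803867683734918512799566650485572689120056719781379444937494397998067750530583501840240396488679650839924716213294049442373414149204234935568255625795705970794637834360632511003478841010869829397180715647386547996329443625720932547483867982977523488123721800816190645409456972280194179525056133011587972759245326226909363362858192582357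564158826378497057108060675818531059942112590736531250002524806902514182872376312142543335113880253888415515279478000960409858898580085471675451751005578417239281155041313074360292097086094287972063305309340331607696465453564775136723991175227498884243836698206426635744086539107216264510048598190925044671780531317172598183129640841803854117541197618996742751421758497995910177226677654661112345117316101051699197011697331610848979877615747186320317730799614794132947220388480095225641734697272810720778954692146353629580691042997291730881078781567995450368953997150444580436881815665620266417261523603919546227417522499749517519532802541931166450341985370280219114389658525443593430605634493809972388569086376138898177236067337095815744875897898294833952687330619669392830469952168851461703100701765243444349543470150977928540535781759821040361753809807941765730923289274302332928)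

noncomputable def rc29 : Nat := (nat_lit 2298726998728474842469378795531689407397265368146775189858750035015924026918544359753838926403091673810505743985768220280535731431666420942037767049958742606796498356615913698035149672711104263342950670559121208767577199764660621857554171671850395245127034883472549256679377398303448350770871893651768686216996030685031394741595700895192071569691053080877592956291746729585742647576585273979033584385924169429631525013525205441553176235103763727013971487974359604023810326584861983525276158009867586053973402131142057771992862834709593775767803932364231407142095724320702011162936690790744277185023664342686365263689335289552058701733800941187335750966694473567760910592451770040455399355491956124382593840423872505357125286652066785727055756864957214802350248601608157700166129947416625007621704551910281131691584409510423785299780241882236126155478161343975338282772207175180599533753426322596379045218339389526962399532502361951716916378165501975863028470115628941908046901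74569049783494397581861423453281303450935538813181108393549389166804579932056563005838471481759016814348497922385404083166059397258312782578351030072330863167814732940822416694324064781114554628019708878479440782902563802687644144142119339085672806769345720782677952759596391452827698569358776594895238205514162681082851899033653155749518827466791833527387152402019725949517065232221444811111979262628807318621452754899089339992977871627361745731835209977953939094994930707752803156361762357399166076413657635055162354088763227534696026164770617900852294268752265435420291432536945625631236655661829238874560780691277494384211079599524995975823465409588880366769839534625873605266220326809627773078187090411922435711450871777334651523686895675598725328527981097186316888035330700617537602573782711683382012733694275676283899036252003270966948557397106011578221803037449096199226464253841053043022557865624244050209377985297329247595373096129786769094370137230769433885449094282758324667639774000162860117597308667289667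49780254390686028291227354514506970930172234987307381586139922787525114939074008795093551452186822165888528717051204009312642082098008640754557496779948783770520296176988291363837617135616054774388935450052056513725025717546832683276091408342724266007952049243119754999325926908778916327089100293106755496724605516747586544123936495053280191696853452649333689043957609233434085439856590103114893332266967342398463693997435620660885434857875918550092582887758721924640624749987262773294609388031861406071511564427439661912176822876900601926398318982356384644674017603105456624807615850847832924634008795464030791068894353051610138772149150538248853101290880581629132347679989903985579723264881619966830893542218069619990565261525918994145358739280937770107342832195338345511288625208015844550069843297286653761530129371142313747176155090904271573181732177125702284122703088474464508806125617178328276603175327194679420743496147287999487410172213368516929388060550105098879108563746451449411823032021638044952529557923380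11229534707585889274918354412819091722174807669281821456038755315012664365136731674263522593188507800902996250917400564403628090204476353571317603974174500805774943759574641801855561299209382118197161468963437674882912842079165717047127026761100020243644858084479583707278693745116900152413358499977088756782636288730622218301932197918622451775277311772825135041471743036851855310379800164976681127242911676894342873081243518794312885017054987434303337362482081442051859661086678354535467472081588173251903398919830158433684713202985139265397330581004728038123804365456853486487073385811701264381656352823847772867513984878709176915161212519263204042360257815424366015243235085970328817141591341141989581510287287582355710084342970832705940200638060675715306246150383109634673652728495407923916172716378192430992631574268249645352914403581929531948061014481291737413527359170189416272934086542479758048552185155579590974152685883923163015034704314255657285871838698787211897132076795307045057395093001630219000747334390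20610196464696146469363239324021892933719256777935009376911280163710796011847003409236516894758236709883334170242618490385173337568354522757443474237896863515552300803996950254837384671493772477764140213767493252907930196314450214508734332917350680920213638208702772034983192903564144030641952874231396046544944189424777289259023733081745403246268943594998818267153383955773636505891703975161984464966265500208491738535491771797000408300607874488782923556626036296015143456307564447088131346327892955562645464133799343442892428234093422140581162617575713711245198220995013981929864949840631938418728484855453453411829864101228775698497280747705316670273730458163347573861732887893780622855699235670293173381401431963325250739039232794790375824616977149237405992870931364255077544921757689274853153461280025971302989482092822869797708806264713685921209274149834893582829754289084346451932476578531627329750610943515086402763569754819986285090695016874358897299294493041666969758981943999998652968186246811511398033684499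62304426050205400451042723894882673031420279564262216804918262822625271636555290769854108429841073332683132708373367686868133197780195560349129839606474428210088383201057996365278745118669146569216630550454489921747501719516274424064577079102303184625612128032502577290005897425835521541396696018339297164806270295216540952867853039351819733001397177277320491433616707358762485823868001274218847258433582427669827952151667908031055656345550820567543113112326746589028183544839016225166246213414858955570853850466226973426156997576653080682263464999767701185233281237031026090227556940085410898019767430970537304898707262661873320305792399251058414056585386594748963286498701923387693623683362852085297475762458375671669672388762722855292648413820974928630428047043497333707469161012215936191616860611495701431129842450525457377078933252935946397436619270611938588666090445242221908715385166503857381985161438086320991023934529022143210820729549662442119484169733060511846531341637424396995882020330741561599169052822325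00812290429125455328096353504663577730521401933381227751494975742597499182614628112070369853625292907621336003692583207886408482748059775161646079727007888641437129716256397538712404412775684425308586110871108484326161059401808747925944962380127424824885770478307324256635479554733104447819823822130708982993067136805321706790947821608094929157810429011919045053397303104923375826704281257703831266189384978570877661571781391038275578674658478262085677769620960136095246710832244323215398177382963811021438996744515483498997018389428154958566751058928448919007391087933239517522723968940282751242411424451917311246237676027596570601192328577940997666972482943034900069896556045995340928424219507580212686191479659376000341261779258314740037365680593821581758809913183594531639364872246854455124965607799504946855466676895718769165284012892816410931908145211009103964512113093776570257508053827806285348013463963760400626735115916273613383153926962511716596700377972884871487660730787389271219003843135689580475250356725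98919084635232860534899212905203199197194701079215082243179404940266292008969598705270070569477937423375022672858884627130476707741823227291299318263404989501371210977888669380733644416890356998540406828943324280591644528156823603369681624578650508108420669853009375110166687555078141572692358630569132053530391391836993585604830789997996128151154513895801941576705711275967081099106686335527914454645284868192991920156090271462711227540768073031914859645897519058014736541448417763376465372115488277483110103874072394464808571193784303509851963946028338414671425283022628901903711020631861612683920939942726836301632829177804566317957753598215581143049586691932449009734320325826476600564129598489337360812180944176306019056767759322695739543748120913046781970100949088538663315381101399600310170585168831025658525651621926690639928521086806251909193389036016056665761919525295369471303473129878322745124082835020486004723047435420107214617372150790414929190324309830010621252917116892638100268078862329428169181302106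26826235929480326746153698930120845609324592136314896638967188599526681921931975020913407294941353286124925092488596623983929306328201378928819720758586892941475294699305118485727572924516373199297921929599302060926866771762669276566264138161436109517820606995806269628034818378024876865817863443287965422106148751127717926977925080373229615298886681163434990670205841553261354468984342454217186987793637804198471276883538683933864560038312990481399620277243254042258331422673426313664606666909043393912602507987109579542964187250236360598321142411492197839839309861315288803232380169445949501189703246843417569195081254744619549405056773173450412915455406282464957132980712698632778722861636257316713768213044824673270571381107617662341244816605861703649461806445501414101817240361574809522322536883981533456752574125221924068931397368298566118669963374698990205752626352613004543066510232908172901443487705375092799311556144564822742008619316751738699412739447040256745330136776010197752733513548103479506398023106102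32215788028070961502647544172349778233013034855305795324335154521665252912115796527908299616306428686315010935419946099807708896925521348067036831229037010209605535894496095782062942500889737860780462872869784153342003072996532299732677690181941210180539689564616388825483361871168006065049817569022351797048864481543583878323658536136409152327489613984671512196184011211456435686912132019883118366452590509538736889812627585630486616326382644179707823672955681508924006147590333317961517393856795815320856952867646437141307181699504178291014053205556983433115756699388797097809194478923488743992991713651710288331494730776000027607120949828177035713057425950828143768845335753463150134432622902755115706617996522945447354478065255423963601636999025380104496111144798648558210815598260554796872980088854995366298281897360470062590559824174533090452739621259728989971298382824437811887111892781477589343020293085734650002614402155932447734750546801413966376240621715232568017193271883970524164871540775785102878437460646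56823007549638975468112430260273986606120030402913321922371387650980313888608616286315951960044461713469885861568029319829257259353331428678334117033482101832982072308000566151686342825154300559317806446635554283383884641924485069258057967241964607519117159587026642882329077665097989973685343302939028559971493068360557091805403086681257608910838157021843145903594788245987914575127718357042111840197704879005175763997710108180050290344953077025324436841470015998654663087018565309733418906769145434927855226795452986464539072294538485398089448107520741266664954783490584112226483062755802971403334886886646309315767206714964508562095344940672597745818013259347686532712324215658099559820516971198760125428959889063659563455006752304054780077176448881401079136107600286777280684512623851779517749635583758316336238908489814257041328871206382498447070180247540632931358433690628312290532961537899175583508942624815253799386686146616362674315524313252008640213063709285134422264739700242334254921386286725107793193970780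99154363157508631799737241402309180141635391140092348395651014713846937129675604257012829532971628858232314907447581417562120144897930946862277137440326310216883750042540658185237715383647878604514117789797248888978661817095843720639594703795419632106430068530432016582419503442358430177435720285208793560721461641961980214997176291880572484667945649052622447979212250455717068141705474671579771032865854480123941924828444894999419438892395151136978150553642192969225893841537812564760946134849105570074601298385828104727840029406516812414289548060391417649187106869853658041986494827944136414981599061088129525590551915303892682873339546311536400198070073260568335339080590773201142921001952983040201922157307466603334473118955265317234757650574715465197007337245393897803584750943377525915067115289016518325504734357979458041333005046721663762985763448344742818746291415248435699008311951191311826632946255148757854156906457106317569645853566195249712068423055208303265309692024395946213608765645008154251176177691837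26040077950597963508993346318386849067073793887677800057504402943161033479924181474216638546530289898179116899099758774104664735822421272528162668958356553922952228520426478903445514227535759748267718706612445024985468575921670134753989729061341769910438387835372477281576644750372063274212340978638979613394169891279991960583447545829249018703623296901036701706258644018070735546958467764324847040986527845905038362736639891716090862112647316952466366877698538147530693248827725419230376515146859647539900640690617907422142721023750307406547514228419243576473271876951581778486717408666003497077775739180717164304494108181419335620593121608356124386844302471650849070776345338249522598490873552696848214278909690038952345718911470292990391167490022155203515629076821784064165309856497869843052518767954444870463602667161196404737318110599690271847969565002879686795059307574985175329478482504097313561236321953285591226040059303018962111371738911181997252884829028716343400216150940721523989486702837494383054398444217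69121880240840637461280376897432740274333429772793007232217392570835141593230636543215040683593063465253329920379814738694225641917889813881068814322144478576654389455204258931102515534122297569044174407782618221547789201185625884651923412937122556255989231077182983701225405253534741202565534265078068569904897022622250938331112614694549733934578223653989745138628434547762142386687796680681125744323868234918337151448100638875581713326790382400550798051462697834984645625601938645149156680976970385825613879027289765324252893185861608615208811710169764043651236088175696186584386308416945122544992974770027164708025446572746124259397160391704834405624731580189369425371546792777494568334456389409621941195797196491840077287640325907771799206516399275902197524462891890148930169990367102075827745476915126160685037703037301927295915627168074738008628464552607906663958375808214365463099283365380667400294322249936210826317205400980621931089943613052098535680821848320253409879120365480578186890649292508114239182641963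18474015723678330321501186490454804498766050278233944033843385120132311848075328695538305369033810754995588545968482807109078639204130595300731682187846269230716341864717903638508280290750595282565641181952613613340163435544208829424861346738583063155815860119311003225526438193419882756512833226913741631759944685457976489512264448932203189511020220428426977955147095777293690198289744006455795936595160194489187293103848947445381525931992154446277538560957409831028204341824577169418330349398218067686781857910607743573458970256800605002687328271742645036637322531065855710265227420966281654116102326772919275793658953909811226909050626406837760478969644420259558067373796664857841373862178032240446388922888114743435292992914084714378248014680060628416809560844598586083551638884679155150772530533773860847564971527057169276850847571237563746727228094527442850300614204512821006192616565644997115756391709156635530319395072789640243423639845892194726736586881039546683280022015386697930684476267285248633831191337880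80186370581514630370215232830245656186713691004666575760455398294337519726382973844246963476601257066440397491227795316974140974230561594001589810819991732238169667865839016915448940377548762653790683095533412742694042303783347210466129263712724032299486525757117503839312080249379030658194520340224559333159217348808476122590804146698918141369678499141099383146679100701853394309623212001746587040591765909574344716369962122148991720875996273505624511050214339050979550511603147879191973858713304248335841820813276453250878600790570021582904067047261174271940572535158030671456491563274954268585363030932195449599847850334022786281380098277213649976174089165435553545569253979279876100665936116813103497159626792306635057752353748521576405677815966207234778276773169091872891385025894961416682763181292319222186242836599549619157386680750194271835866027675961650120211739559327616129472982745873055220383262172796565851463324656940576977489114294490857563118819347606601948587784328986067352964555030276072427004406373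01087596546341408754109358062880228104478036389176078240331058348307505822422880322963743943834762110988866522471084994222898253663056753448627107710459138034591796285605733087212310895448336443621675298092002102903485163461531105185047890474258590802634141003266673725805187139234278437619212314008890008631082948282581201982116409689134979345911036162010135214397936485771461146363932588874105880776915587351690328966763914004276705464292878575330963167850036644314108823500854849814494223620658789935837054397042228830402051866675526392443360677735419287222075754848338737239415937775088514040469857632400040251614640454789845264205218151766092923349208463257892930577418267481531669380472584884305996666129803087831703990500450258743209010889125070611073951405161752130836225267739097626681580482536684663248034932072029606800869275260609944236179796106588026868496391368752358589843734288140735322966923048377994126844726263636040745031594212118342462583894537081723661298210512174680603229863890679671221686333903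858041693528785983153365624783623818258209574256182694993500700594814928635660173442214555604851428071970018097924169528451963004207311168294817163483898180140095391324553156673862012535252598953503178242477429732277001783281988960213646243778524864255091405260840877087761569173053112418586714047509466055645273858026282530501575213889267955688724257560883398943371722685363831263769950969838706993677900040136345252298821092012471367737896486966386953219880381454997396389218687237275767081382480897806518830344724373790348072592943637032684863898521812237539910210684232918540254929096927947375988973076992137455852104322209530639212468042509707699883941374918355727501474971222302556730404086730206113877743873750521103473469764934259325609046261063547484249672359400076871470433379697364797848855542874350081001166675292252285394850939042965054515707990241525183218730930274304)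

noncomputable def rc30 : Nat := (nat_lit 2302174160808383772202156255606155646524223528115127872472020004112543853791265680104850302067680252538959588153782437403118885288359899329632978270836741095051089087111098072879121330883308191511276154943548398321129980580515889190745886360991254109766754439319854872861324813637306497976235697104053387133538173726910382885658790802845626432574730924786715623961067193587931787845659780817300405692906058017481025754036656036326569245510888414962032919044580017406372458304941742901167447828844454497497556257024586497652013160815609505724094718908977725457370241086925152912846164761233414073650680332057107122821204340759368733290343975613664820320772456290423472295718929042489972792262260566229031488781484211281318055538472680530027334970431848986684220870456452004617589509474634385839099590379387925940021449391834832127479654263276731554003194882561577733561041094888389489140461399784764527955237289605274013646005387270542859176192129187850508363915872803983462166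26874910770980759784659079140291298027814539538221557706837853476846124953905978049037300472977864473148576496077203786582965109916912542146209991667961975233705373194529736328955339337965025666540854772993967292604704098185919479760069686951442095873861670977182224805598620770162023994317902885246980471338168969410936052492831883867730646863095250195227911342294798839932425137080246923437885266508059370827124112891007650720904320906025995739853072354029292204759375427990948922498404485181436457546405641016667284480441103181787812542614795616088263801258304042645393397024012852590417597334023686082949138928907031026481405235703214254927202833251987714005567489176664063866588514994978490463613951746005317511862783629707364770077580720770547153943678794985210455202533420860672699717599381857202337270497174879938473778090646084653461126916110160857447701635667736027425218932993427470334749499811502098640057627221296314527972488621869725409269294560765378528950034886440030619682835148841258987593525313607161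50161578265190264810322129759683587854169203293918204054975460710662205519787111328138378337451101392509660328217767708479184305422775316873108885960067065941868516301433785702674232336232405520719609399551823526691871131587487481810046878651580790093947018231370897794474180681675365763321487113253280653206584164398620785376716692487658542495746500602980805341207627952404189634269276373730964451255610974134593902906585966024365037203339877398969480907329313415472795306559121092137524634790214058084505824418511778033226365743537534103865259054651052591374832810124168581696926951769652719986187984066314719989586270122924249217200179498447773017304208351910118009373801816269547273123981903765465605602188977208143177698279533355753202336185429257507963951514990217220989294582735397701071837252803461598413947888676606537215659602780087337268109940071575184273306096770293269593967955218633108694594051198026341312608289937584083189192644422368086521862840798421487695182067928382980228599227853912695040525364999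73118181294093389627613443551132261777290330713719548805559851497617877009355705795891195808428412619047031466474988893181782643185405460973154300720646103493645512311975843590988582112460971021269169195240598173679120989246394911259992995225630685979853440705332107579845079833964176166350057756352354468112812414808944203171111400953373141805420613162380779525915789955708666885376863608412813108863393770866095404984700856098600409961896492059100632694619141342644443395900457114870834454378471815607907949936208297290403561843741701965615352978691919976998824078161221273193055772386870909396994152962357225652432661704446642090052997678291360644703166692009026019778588249395895460063542945230838449109327651668885414674832241884959106897109408593174051155367176126502558916920496360109525715021222566418516684435103918338508655939840501430406357721192531041820327161286243786249864864609420845228439066879955365369568270184963026465068628541257881058751802721031488200575820177359365423732901462650595553246387802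03090977233006272600980054841734633930390377572854463557431619353018740912091590268313615430431665270580796548058906877064825646488400781169869720411842624214945607039343489440371026309802248532649360670974165792890354137748592650153778996880541848395730324656586723841121672583777238140962219170544725078661971131812306883879089644683345786325640492849587233914226477306579039939743195382154367208690380435638969820953909060688791095220775449578549966060407376280201967536499792450082011080215307959584371984722190494347733325244724896780725288656399856335461161638543038957445159560272748361832524830868466939046974970192232669526081143500197949122611104268085712852036122362836934146210905640630400921413104038431714653789232380669594013474329222213807311865641062904982418038253467232327193104844474223618228538102349325638289001257905230738003506873855266188796938365983819540349957570680072661782322929623037729415206098554729934883338389708141200249465207321322542390795993079263918773490263382851646267140829496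29510873221431419060160420231033361428195516212603985088931998034484089348831261177223153790759073154133251295098172670237647773657626612627337208630571797335759942690059650200605514057169610758337661664143276471555748898828766714678428851130510108557488664674688130016682805516031507634202323317279350345496034198402712735749677678488067887382532462047314972729257773186291883206282549763913880847650044744464707169917847539864874976607857556050552859395544797058515985298479695491744568669007907750696191751606061625847483819998397597543520976282549392709540687840738226715742807236486504377454417400641147794498606339548866910567316583451511628839516291081169077997725571236848060250176067919232777643548239827642564504578469190101638258460301588893938960750512605742482680829203712999229284720673001747309561637666667837846190820152666000751596068609145347449152069905419930204267565181648951194954386965933313665831276152984123177314677794900829624479329902726689310160419094364573085428593685489958029361647725754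70335355530959572796415017039584550366543287388903136364073392548919245474476380801907737393233984508394613368872877584597071885797252751018990183717886224495670427265429752317087785217942678025194465387618735551418245822857313203559195717623585314928808487659233404561414123739326439777278726472109387789077381803601929521082031212450431687337883619307020906296365934559266268805937124641989619065397829691641993120056270275864649933749951250810439997679511180854517270843050189676896525268024800026081035732741650440636186513784581146482323016842139417715407909156903953651915115147839419220697836362347468566103945341753883885662172553450746963405608533409360006551713419432577525694481006072126130480315371188793861723292294199344166299270855915203919053952435715288456313525946694227132620044461463886032558466676595175859220820840239365701710854878191849699631633161933418878368298150248980869003660702497395755113993055471922738357217460249455568673807443731118769119201028644343493146982945255293295857102366276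56515529213085472523800125052661491185996877226866479298811194950485526966394153721724449025795736076585766288757909415079137567419503240155241400849873310925369066326863483339153194223303313281345812559357056314697009286420691527165899844567634797514476852537502919912251328233971671237194693325736254399310109518106602617111531124196540591331897727716416422414018375770176118520855675634513544030648548765585772826515400297099627003120924433213305608713271246687743645601641561437568287150515945887904955341184116533124612237953032266922367193397508561519991946090417428017425362413727577589499021896312380649684327036499581794220778295530270934732729117774534578915748117920647711773619701083349955817547644291655637258246610014425968286298183681018863847393775613433239659478152854769242518606399517105596867094077667000054630947973721420068739419780552534992039331905898743417046723127119653897905156836421987592827008228529338757492040587642426452564426522207350362790939612275865819639401889156592001568413045842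34086810316219557798609214777829333585791372284080757289168548880424536893943807313310816744839426618007480578737171093962055867721083512268285878019272392546084840774513130489072449281006966420822502023984243655453310778776771510104390715488444979952002173099042204936976165476773333704970104448503677579638781804624773430861353945637646094230834799224195507969448337675449235491405974768958910499208047166658520683887389728276998355451040805193954944710826254442493350052025081118327387606942696761547376760333110746396254988395372438600514870128769910885865038978723468042685130869983788678907479858609551121170335480086735939447340859629999108278604847276585968811345512575555265111462225984999133300193642349829052193850564015315822334033250833481268523436648165332851639392615839782258029146221452207854285442633174494315437013941921398285196334403954818054037371377412899931407558155666092828913159549689330123635789362699796925831765834614551363993435759536809395112975843868842149186762414288062460504308760277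49524948756050839779373425289725721516935420110445105546133440098008801766712480974837240762328520281391579907265613459462610170214986556468918089852940289026314712430237178320990035743279648436834585041416378053802278840120710982948240882524001865684175975273239820235115428656266631730376215413383169397320290708980382874819814300000783620305679408203343658491920098269718366947901871010929083280235101943089445785627244052206075560809456699463396351161763106664481761783853742111362878093831820640441353522917743508268583009945271390603201422930256885200470568978588325409020506888276013910294441375978403886461627843851280639669194385737601608952425217451923126470943260964418440384058828633542361021197237878321312615447975454654823934230859857174512122229734289717796171766539404392774863291923390787662569171436608115336644995647826129473255275413030403833942910035056178493100999486555527137935411772934768405277411194524810583474010669277714561928484527160480460931169926693713512793033299393268611666506509799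85969403738812125607337694619279293200140695160682711349910065684053046484101627440845584474962135011213987926326377278210034169872130631457992629511234953132328536336195512133759781636070239913612858825705521693648982544619444799114431871228695696309667496538243929741637514593226535361588401719532085247391710327059555240294742045140560796999455438423994428207737394006081739188355880168617433504969738708606574356180448441304963601749186354833830006461235971288361715663545646141410132756982640537488667243827791404342819161785799706564061786808909046268968861615419257062037305610394970113302008326753754376205351969975035553416609427899652582541204950918712698610165686907090936646003862282715986951824121658262588441811491609236392108575199512898635857447780956673095509613121087882451147248632717886584569188411255999629552188244216297266003721649258267470994675459359077803590762567213221755442221188463870106467019037793694426621791724189895602297168302493286248687608952242825273549804296361543373863683401743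39829247896584229503367368812639015794682813672849591573367311782482082594703649768311550982871310327730160243560785059076768575986028043936550568612439790267971206711925395285967390250047608488951444846927080667323450329399160178278908900833969409126941092900562632690064596654515631478730708676198348927859141218941483323070745326474795186638008218481988600165564355065525840767713334986436167677109226518800586858058912117594045845499086443361834029824653596329861022467499720620640249468890429521472647181499686884968616124174482733447811174878022544032903203230725512811609610404437597344575091921302479525514042660516667529532782780571075264140422705998863029383954709366679089433524188945216815629395439329563216756474942115835541712033718161782554528425306221802104858912908669345826510621518580444735914910263538669248299389480860426035540330534676335514640233099776606589943167970220981341446193856677533414531200510084616589490159272542443739172670982193483516277774449127824155616036066900111768908755063337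99634434474401343991560038586860057236850615091111722795759002529797991277832319604155353608715597636274330924584088077859932734187034291922340813372184584922659311963603969083932554934709546312605963977554988351697960918392986373157607026376430982396902658422791586816653980455674095549743944581932179262429714231848721585297905151702851881249423633874021126622022480059867101232364185676996639405969220593509143276704348861119658880527099902002523628207324622043936320619448494977911955471734117596588090875431199635315040877594477080660606457033765570013990033828148038760325485886729871140556494974217195057616055299802873993653390085279487606471708367700226558006361609688535915355267982027490382314496596977342013528726376522663319165126738254817354444894529250516928267731133163335016117980218123764339476301603110102518689421010688538314173907615646084449310590103419050477952127001332096585809990270052010797574411752133562186898855608725491623002797176383773111568634337296238187933309271844902743418444162219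87522744304918903465428052870146825019323937950167827780285607443988083875895588549486450363310224044715550356137271087777300846487211502291168763759689034892581285667769508294795888874534788751964625800991795118986125071223455385817768915954065202240370519339999374827240238177658002267947299712716903724209177171208539885197446556619553630696398562095708628848710783141751101254925064929410012672408631967363145077980044281781312150344912611369484896473167380233201086084019017500534806620057582362585334253309241552166444723351701907242595247355171025778210702187183161171193708539381883815952955966468079035797914445098641546221486856981038863427259752713730276712071634985597908664818619454238397345665577012116453700185837472362570989763034522021609032214991527830467971098783533194377173124472092738288137738983222334373741962082220026322017736773339421018736317349950669794294276312755162736407950325676987986035766650276643327917473667249826843905880627488462119880242855967987319609256825053043213251960115763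93650611873019415128169061126343324158700771101040722136915964867532003611705903674491264083538068363359913553261834942866050487748731463038782145262923622302788390398055569283368912664897972650454033254909346729241362206953374793930641649586236646449549565577092060873677524504412083286095736961074765501064298558716492688746570527774406679384618194922208473165696512920975432892708658912714005616976132914889630486226239737669526499268203936562925938657627114552354811638656124107692232211580293403135359415761744201559290662133344927054491852724505968040377692056720871773432972273284561562287949463047909298883319361564836782058274476387165654235131773918667382923220053042124158814706236717704134565547343205903192984273122760515654229114312645415678582089217450627039156628748403741449842533727302467082075386043348953389304652561850273751684583616430300030640326618244390528674228067520255184064222951735813179679716549160045419417356573306785748493475898920674779289593485641403885641723916921345547423981174348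54847615125209657611144743313628567582778270570423649393900211684547393406750869584019421792744602987024661051126911496441266323353921559985502162328027375943413234023054817901248872034171771354197964579094726977817502956674650456887141363443038323767383939860019945738423664673528458315455943618626034414390810761747903185980802487229692180787735020669300394361150032251041652913286013043303392929654965096258974645924844361326620520822754334857118999816593508500211589622575939964945909049816395577620375444107479150626506083588402327042108580024147992059627799430993234638643026578809572738516675598072120001368378997656823328476892620130356120663561553369261172156211514839594949476895936218105845313742043809768692951356190846149856013075978014408150578279387037686850697664611492444538341847161824507198690165815370809200435972717844137620050833540289419342673035235301474976050145778241904937963624608643500911565478657598900238938010786773011630942691978305551931113700755684038489189980529344035490093181738590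41195977899217281606859885210584943816331026593278510234364098085255217797923798608829877028856978457287920463961800098364781633057416380413245924105924516777795229621261014624469732341390959482113059746644573162743090177360794811390709988284061998823796681271074462033192849350358087806636642845846118385836619579511347278044685388945419534845624629037247750312641043372660444900503452527937266226023565615424852726522879444128628911069259738484704262621852678268460679850537571042972400476804884352248470032819055344592278114730331675788484117705472379631351444256623284122395713791550595020907822578714776221465181716267499002668135341652114026251404319410536852666982984751655553734150504303344235583130007061858421760957659503462303226003648909973607200569205058727242805832883475104294110756527250132843223351633425535811157410281160882542142690054477959089484203196988308896207618726713033826987671890588019858557049622855887576936514220577759092480735343427070418527420672811730631056949370583607503044139836870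249569696258207421424469437539821934841245780760689315031767631885437215943165564217924281974647566252140676974853269059188664547899714433473851112508455778302172197113696879411195662802946607012601615329019056043724930837729518424151344492098138171176538442033689341155647446934680353866741708960145576694358253846102936566317326654815153935865311989146198352525246620572549014596721529418378364506647753162310138547871605933999528259882903502554519881952737253277862144323857313012816888718904673467097792669390119599028598040903706724079287160528206905643277994884595835034932150966574796750019959967008953573130821740058523362292660994391550376009540818363704379002398671344398045733292069841360720178827368453419150612548966769248154113900824557277419316591439368758815372121246378321762062925931004275837871300869476236857071904595567111643109913376207967778028754012228026368)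

noncomputable def rc31 : Nat := (nat_lit 2305584812555546100279710354954019979713282832529612797272928442437276837890543027854140176022295700650104276027315725972207348514922859530572141940490075412409224312984111604516031118008960959554954441750348396208876886034932297301775735753107539198372026560750394564076384998301296543109276700140329187160420744202733107575478353101257401601581815017581056039730422662938757397367139111133520701254454332662850631721764707263291359658533587370021928081011366134594477020768018435689988081572118087454663561349690923734135284949725132127191211367370268435257398208852770650051431525819767062736925202561168181000685757735350947330877369750963559518259598602402756922966105380069683216031957138841695918061696433330510415505076671735754817760072101004047442271498478389462832208794120252094885029249710500372975370578283461615871884335627634368611602662946363593959351283701856265205238135345731104645067909998420255157848287101111051494885977875575821311236117252965783062950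00746146520709186371367368838384815142649963555135336417038429440239501590412708223185629394896274593510191062154759507944526604976887633936373731387992184182427036037935446350098202017435548719066062248573600033635410247238092570375639072983962452327360664968909584654059282644780363558126882713569900785324136983128290454285383576098337490645193847732582619377593639624196679665305973721970353796691482840752939546339573140851879011282539289816488714645553245847940416379079737580712112366370882838855082409753486970351324206069861074054277841756384622095844759331389529391360661972748915297638138189626404911603940569480527962198269888843216901616402396310604960864323936145816257832897983550448461560550067628527285012942951318016104685650118057548675292345896093171816137606963038178392929798266159632193568673007838093438685104104486730844128908130639953408851554310547302001922052219914450431817436480427981361295779589661407608872095668337992563129232623527159574673849972095577751549465817215485071264309370847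78466215467447043130725279492730669675398701961043198788352645657487564799910661243657898569304636753397476546164598362226343486842461433464497310133026278376429936634438536127651684191318052570503512246704537447501383176520305828601299389334443597135618822500994385371746927494500347671154485090700796891216954294697906398166025135782128652342487611913133901044888368136079243982773422550483589222151868241735529442786057229525754733521343841294109521590576997909302232998289540564743822614692005007535220612694203924348410659157690978498674132319629130638120399734523046553891777961371285394006020555984217459838158931892039187316701544967597974639250771146580617535638787029409631382933882171726603424159862754823114367945250187347737879605204015166465401561455668450145783984503169202066157711259989690367096239111149953445895392964416075372416751225693259569781738543888242802472846303134035587566237940198974223881680507238795711967445266000021847148758253764787286972678181191893686228713084148881952520056802131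93188246741756169944738442724973095992590341215396335569674938949704225611794385575757434022182996559962359148669871990740368634066997115129980089595338735517315397067020764670534597599167531213175749510075917817838394624561407732066273393662831921936113083535600334636206365964940469146099694647011440674965406795507787057049173473751368476544743957979696767403870559552851464699919982684469259144179218953222965208718521361328338663204810150927033956545101610225898778585881199799780868129582708519599108690858121897387977621734193769719838332954677305521745778816250574785144042825126702945590333142448348254888006540703126155213519462408032449841338587750472057890614824540800871739799090944063187620976337857808906203539751642525383038829769807807971781221221629192298066190068080909622228574028596636670095797482431638192469782142916127231508602674962493123881154597879221068056991107719102327042892371065193441147069533976255462908423884557482782342681422249951773043305870827322452871492993150722404369791878198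13627155405263624867024221451922156611886795048327162910794856248437281704114617992679147153844915025731997676058975477756910242926823121496831802858278265150313096573488951758715806519895722595332624755640472756516321240453728925869681875870091962227432198526736469756139612842906971768761951978495559922743160303259283318548750252371591240197205124639308062736308130319217536572724066324656403790494387158198429759167679331641370122462815513324552110313738441728718527871266100585180188677436836524489722374481661023304473931700857157534787963637855248044855451331586323317547574277992366833293260873858745575962916614079958172136968473247591485632521606946327427012643194550366851409706574889399290040612641044642911441679912002698079227077781193443546111457006422566545855104860124506412773018985478833061870115385350071129704367749304421652503150158289917397384819586074661554842620120010071941349738872515359599687670613804400037153308844133970076838051774677211118639844610154247578751760253514139529322313595973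50067512981338627419951858679550889592055139012242116385621413325003513053067918559857365485380864757078130433976521881346772786572502897753655714416971201869387872875397788195330293116341610150688954388635986138136444478849385352153815676985996596609011550479500839877525194864325625635373652661422410649457206942921955500921699719303668228676839970342187380632275833211979954727678954310143532875213583042319107234978773882877541585074768367513238715223271399833689464502652937866056076406715893410643864338211918526996505489683744236078089234704335558363140735070613283021527096850814324392522828427846310472112806913288516625220506029913832673275226248043263972619186541687793852014024204988974811169117317011107991087805191881991081215262548724296709053662058527245504740410041554763525720867218502414895899741391575743448817378308306782420031938627087378565711817196280041448542605581187646686561473679090408339289037552859029296711536721195684792121638865499342572074560069903405276156792009966426010562913813589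07115562145470401754027559344762727932237863226921840009762164751700381420689832595184147578143565775337688835165041497188031876033788173046813266642995229240324887125044948890536748658766168053564998699594164326445138416675946864350809718542130663621092140529090920671517612491682755669432944070154108615277796894019102065061788240377807317387602174737860511772010130575418352329913076417249003609655235397823698136737975775906140938220437999682504372463925400474434326722742299428707934138060820306880235292472213847666308466558465753740526764730727310755774649709659150761525042283892171143109228292796451659655189383907461011462709142653451023972029301132508278463877370868791350585228805030094558183359110612483508404752360780029168908619192547258719861288612033796118202684224444975304871719206573380095484037420487101088581503662724783011614394828826177534429893501951573560590363116995553326105873192905850599086297035108869272525741829415053871868646585971509382601095664956949363742827021725137658835522237236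81025322051942480669825466523037609781282382246246742682744097419571456913350743263834847457218402283691823527121202234588390270087841606849507350799376126604505755427136782091517804630063079900074212230211522599236718943613197265546239332683264132840504857098843764526451533386282146212558701653441503712874137831497774775996464726854833919270288042030397580768760403062002569306107510558780146635562226901643891547932741002026729173088652206111638949539426592935749113225400397491729061359120089029065795669970251994777537415835971466587390652044825788168907602162695521535823386729467472557804365296282759102884555581927384018690576008180351341876976485292764394283667380845560696531311355754945620160517031931313807298691515159948805006416532352392401912938253464401332769808305618742491433576421438156879917322278590396756824117994936200548131484967254101466492084957981865007105242484616441186278071110917693878109932791441884073302553509719790875055785999008106823423508014016555019820599871625200344927552098811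44565145982531197382920557824582039533993823621323428265066462999689428831821602030160509326900405448988100169891093618512589905167614256602349097100062250991116663165174603549844233214484321996598654815331442002344385366522037039345447074439308395132720043896949413921816370429566608322766601195136804617718244202748929849973670704932346716982779884746128901987876511021491011928016552707905474158891476315009648198286516515702408458963579549330968483108447358946309015101453187232209185172076669183164566083557884618986635876344787347824909215482329621326492900776405524711728677907480990421987839370994011501603473769162920613063738800345372116110143258572815371934174227123871849794688654139673774222946929316401583031871398423810521691012168679584374806896478131799465186862682890061285076157522966072622110034922473585328973281990875244584482531838582943647512662146521858758030822157600007490878986342786918380849760998870439464866354068674774369449957335247532543595907160462414261324719043505877865221963892294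66235863594785020081704066453024877957178654157771110992177122618748359591518751262932844081643136183397320875084607921203433873635982524785958770547738981660190840596023766591394934214249436731433553778625583585590624807196020069732684236321871325472239385385269604566100370121463824217818113088782862785555689706253659629475834960525613294469299704349890828444614150391938545909167923350386085699830006210299399983405856105679833399079315767214910114573855208603410969114301013306451445397974085456239505300713395126059666343794941654332331179329747392855163032046506953805333196732341002764830696432526251120573541124464225260301282122624358767209036058291462029571508450351870683357387015387386695881550555816415869323073586742469100481461658601361095370288409996860321435984746131359099573483019760409135803449885280533598829682589829709064557820373909660949569795274437749890964005608746175901911353230697310337620249267901561818906243491214815091849337566930915141982865431359283160862838138567119794766829815325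90753669690912538206058025391591674668556350726027299986148894299441564571870525805831025416372095898187941946907039319478788521004340186880155738329138683681668068415441317381472239856376130884270357377813548173177558895878281230324845252098224849088709917482714884112732096182046340898766768035583697784436078404261022770251171108204286730087907150507686548218164181201546247557962755079206980934058614979225052528063130976183077662795647748448273203693298488349856398122072792552350160692406097899207392717041166929469131638866740696237001935961019042971739253350130956854151719992753631560117974150810820460080432008657135526094217853429188952934826471967294684495550085652661221649594644719406527372787939978859627825847068952649010090454968480225818221021024876975470461180900704665530072905686385232083871656952637039529012729512359930933037945906072851961602239185921333969431816248450125247240483324008462897405525346983930449024289083667004937107523969871640764640278499490630541408342202090961272242691751530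36396006616386035111646528780075872103741821856670235074202652423982800821644870207492363504773117770590085655758611638844270691114469672821908080383090909965573954275927678813204076092432732052819867380607327715021121761848698638373759712338041257563690701679775984383015138764857256721797801616915249957546371828319972568733853809502067778071478155042423826027174988625307528152576700394803510012350818201549476128086679218707026511154300780164644495763229565226759472630892587255578465607041371994246424780173635037358579646672576071001014304213388262093372247552527450094310182157942935017815692414314585471247223437384088098487357786542497338657920142788206022357066042346591000792724763619828463700410168172791904549679931774990450298376840377455734970247234030185848234014957851339621440044181293533246711517906788178779159907063235710718330547908357862420769147982774487677558060863879242551634255416262467982707656947960284362495878556543135651524819155131759169843586998933043700953381325650993441820495958376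85879141457422123874505938823661461105966977996647230691014596154498341960590983104541723931954498062209935600693459731665755334241384461814994005044695339830188007922646665609764766851133604756074380767939795017849996805784817373474367569260424807561629883971329552047338832461219106519039238693957582289700361225263143327240619761504214905952689488870214350064279750068136242884508767574506974927039886872577254329535608115463182939809618265414298978924464119936240208669249580097149268064841243177370418441925230238529437775332911524938513230954238512421319038958027839765752624809401289558463008662594587097180181541355069233200464596091517214664687568833464598342390887459753371433849525613389887766040013020121142355034330873680705231245953302275852272533690464983025169965120995235220045353930856609447355419922004247678878474459027282239484307310997178781737431563045827564242362851976120693832738927468576736531796759841546803806956842372978999276395838597959692275135449571389660482633568306964737792531671847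27752760520386065106212860433248670315591090029391913052001237757144748947941385960935183747543794317985192749228600921186278353251429686186531746409147122671003058074955017910782360560802634206593442116470985119542635398078103286930733397980976655932730155921094568596566616916042450844912731764701202553526592823044769547970614757731732433318455100440191076077537728361345838585882917857090035184620528870282987207884549370214718250051961457204639023710944459909388064463939036773831880415441369348153585617502178325121912781501716728415368514288568090827658084502764316734766372041735417878255377325835476562805476736103635799902285365061765445535702384074747456969940553856678664517976260601028394076103924120807524222893860977844336325035515274629557593876769277508484391740446559294894559396119736073743579601242279302396485091297787180441005994291953093271503636696586530361057741028165812691030920109430307961857586302495877919959495054943200465307636207570911571638466396519644998386205887078266713786481885421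91062390228330758176547401914345925751289163963996740940383821030559644264298458980607796841076873738810488939079713412894660990688313233706063858288903482396162099088625115106067081732715631736286497334559931273623854611680786717072881777715072987301943373552030441505421350137799827581114691143621767620265492896381845094449449227825201010709629652762523899773050314668443885079379764530588940404277385304292660338611389963780130611881509126631952405169293564728897736098872342054591618674266475431931272873382530988876165523602850587626812376995099649552586191485930030903106680317732797936793716375274238914436609640979844817029242257336528731549314220806250990619600002686330741128261567419374619223537057615199276365581457355650304981454839293115831732509369789538524840278123594881731284082996670391669096907255314108763254700058136404700104072788238278362019055916491763992867994126029584000210236706343923251130676762389804409928017099902953243253849147061310896659863568819493274196086544565958166492053076318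22739216444490568395693511882087088225512534771112337963132977837252887597247683380103662023493752047999977474513342271452615137615330027176925582526890681487837750847323107947484013622425731234163696732549316850350653137312809406863275897986594657288158378507542559293103171285258451539198648481550691342651220190770619666606374014032326778102350549177061597696569438430157149108538431050936784323853440161356019397974543937799020911904484644694706908512273755122081050482533731696120498962383551568141542962444695815524196343409768550788908709701937734691275746634771282481359388537125385894259828628177267551972615930866539525124259464283297737708487140178021682642212165818501111441364497984414392246160282105031154740827838429897176286718564550531199632539233807893110970598226265346357502865430689818312918032037406147306995159794266907389312102913906704933002286504613329051488847799704565291223425130433807730368584196832461688143224817182028550942581342305341027854813937112306565113455541941477967836572847787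40742248913963136617897388779165533168836575118258636155350568301894681164852096494568089151369459002794444570726825573632855491147549203164804800835558486046115059125866544714349697938349443065654263977094356709711146699726172910093551432633720108819054908539131985832981177774418990332940031169340711075730773442248489070249567528782494032260690425733458187703495642898362276905451903333993344648969266298859204295380483524888547695476222511788517552090277403765842365327971415830428373394320469620942558505723272414044024322134341502561050297155558421451985168183319088428327607568155724511030273205780642574506228458316900729705453924296629832697277207665413689844090005755330221061911962124245455343978660926604874369274001716676979345329707727661260452023828982615605619913553642280176834687444016278135805323632380721499456434437409948405714360434312561469520615294507050753084028059122130018594919797495806026149184434732672225741413106280358804743605935266425001629545070624447347603366688606743467109147832776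457505683025632557850968064196626900735529776801942192064783276686712854472255088100375644684505938914943480968047018185550354020450956167759686486527329673867002126927848489898056002340065916920286925218132158394529190277073841247024627388263030103252603302050398700645362521989714141148231933740416076300776053916101284547310638437604300757195976999804647441052815093249880987845878619044509240652619343121769116756959415112251471971124027746376205671233200426379729364726782782224641186384800019069307796875759294591750612071107944459166427159022738800338912535762842843025349104117228252212037508128590422538446684804984688800851867387029818310942031782173953710111381913319673864724200545278918759926084129635269052110705056874564324940783140706349217311575815601092295619837102793041878279126039879590294331240251900231837215535987677862704058512280104297446069979001399541760)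

noncomputable def rc32 : Nat := (nat_lit 2308959153850614781650389115582866056837323073521478820644763996295335268777108590990056212721112510213069895012801230314443850976170728063424497554786991702247131644620961804044030829450002388722396029013194203499172341062388342604211801298460476541492412800362331425556244676672426866448146646493026455454093800585963127935183335857032383473059360310833652475831880508292200416671672660873967332646784383913887642383274508774974706829818768531036316922067803334937801392146224784435507709439358173371140899057215100561750434013178783511543273387321312798781759474019418029335742094623642982821143186350678935030742949180825525247472477604686984069615411119682957392760383833630958833243277150535229719888266525003606019489640277460180983678846843499199624997267110848919843070799857125623144332467965834482204694348392234166579127344377763849059311524280512595309546991864381208854592229892223192225400698940918253763166691520971249944270103018217288280794492217772501409819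00454130512466897682636875996750778650483156110049831189946727945853845153695497525524715719776137228538492300788104558316054599495520305617323125478972925224871898654142200720360263128501194134471487662212512715070993954154174348098448929175853964588489748742545670669870164748973714899115363600764007851861721061342863746280159235129084551711957873689465610990851874907312114093815417718853962347452705624596040454671023907977715523145885900013064363790436456700711704119804993036490550238686055510707097486133166131065525422107123360776635229336918607151672663759931585525666966233145358581414886449936304403550173926728598401348549398935660733845468863512649574004590577925102230408872556071539380509674372821148423779191845691326591727666626549306631287976251924644987944472159244816835461540633982836032293115338046225767676986139977470853810725205745828342893196153721241986460713588566589049244802164672618240723293699956520935058728059005283242529056413393838547895105403159043386247306609317557858467028855363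79799268713683647900211384263756950299975724978727239873779960207001901739362166561958744178778138402422000744824114462794602392847185679718299856161305114169005271216535336414754677511074395013581541628132177542456414361964190197018777521650648697044245653540918867282875609814399807947822383391333142814621470304369563908450167332140346878572837883295386696176387437596123995902367380882373866009677819914561300879294922730036940411220892835330319535167401606808176148623317168508458882960771811625597312587679046425774053650233149130292319364584486350016441172502295927469326473689211848211796247735748547378981688840230824143632053108613028023698100837387602643765686166682499966465764258614482577620166825278225046187468183947974519656473519997196951767763054412697804768609815710123153847759403547338001001176900420409640863531960567294408282731156768188192020905675955647064696504432013766251873864852574114775779945855082011356318814120497482431796557806605206116822347433555659291023326750009546646801308529579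83620405527116671014252292358476622431893231173113672395186250527789440355686459006769490966755476132934606125441926198269777889274752175058534410266353795988395187620745434647434719146742419942535222856107681522981926371235702613427576023805628815182132515627522156700965059319214741440032091266065880514491613418078762690619907596208073199607844516535794093887966604007664144691683104605725168113992613957301041942042004697918980529710530567824489598998294826346960408466430348620290020348969124563976963541739444386938442014065421434669013282493031309115432624622438360819229719504875460067700318055363748955280628554599869288507030288329586448979419355814141065317224703923855238706783304550160275139918919071417268497056638241360768177513227678492334520423995764762911387432712226376127565103885242632863596714724201849591485161362617862067527989589042742527647009750776170316319781559618646058959734906188359881226839831306281079087959086417952177581019652835038487359878286990965758084121861302497365833733724093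88225171427515765804844321629192596568034803720734351009586904680493928039854295652451128430658870952812719097532618301828971256041830053609058169372365674558039696828912443765193776304546808289239255723671010420279035163255355645946881667598309323081461296521843382889755515354126997096529348122751352733814488568423878090486739828295721248706402861604150356539258018282646473377617623286158376879734133235379829344102693927061480370671690303581540458430113773996862753659018300014261853836946635177662699900187148186556371198518913826437963252275553431598468376920619010729463419511468340643114123718394265290181469076131136499524345795301302300898652501767510363838183032712722085274049154952747409674942456604699252961905161272042769007833813023530789814892479947818000927673118859029709810310189082959752572724701614056723417402940988070167563462370822200386182122204823203251032174953458476718180757376334305745512152462064322418381574876002469262723849605420618741471472189335228377550660614326608836859153729022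01185379572945616709236006098299692013097078733597199784494867504679311217220492450311400060356300397963303672748475583004868281423923903635663458990316885088691863809158103285300157255107323990013672276757997256263761703453859615108629190103591270872873090408990967833785951095495262072789248448892334949913906751089634988141655411537478592582398743638184263994588281982545158640977458751590211829016082046215759584583197320852203714996112896378905804141006393318880968286652379401671697154445806896528916855167040248096555340877490550965002616711175069024876924411600010222453207594468880500041618378273091680799863544285704924040298664621735904388089311691961269069658824281527993932916326490242472257100409651669093256689066969449976868931061464000421053316223173065437659422337107966682012948749305831769135892510382368262598173527252389962219857615180723573914502164094675855763839685311789924551134665083563796210734121598834478345494571797523062520272631759542693390083259991163540755761176031020399149158675961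02015495650264731722384689686945297237209564122028864877419715524629768596432102239023942051678132472899486950948973958696991669795419506219247050926212977557392055763916478608716820965239253199868958959474327238078175604185070132177777957201586369245689110634179352581564148472467361318122117182091459229388803111298166843591337441264830777151861170439899309007731950169477053316888531576554496027824967943612242148504493488463920531308634792220285498845618800229541045059245616921863521152959086733009525326489527971071423911633184978910498124645008898942659080854188216114046798721639440624105951971878793559849622898825541427796755331683441365046322702242128026216318700618586938252791533440336785652722543812236959149637458345218623583831159574875370730747935927165531506702607636021674755722158124422456697147978853287029081527038559595644317122936802449380280922760357609714372349455803858251293430234212508929909375099088470743117053594323020016255222445838786212115805154033146627541978999729008185060759050647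46181318911201134221883248012404237667790373697749939853083822115821553414537019677777038021837787793007247619439069892029816311092724113814590681198472475614187539462567037893992082348529525013553507956347722600725564294752426276262522590365202837414530339750316496259604886681542352637280084891245375124270227082780686939672854152821405467854224313603216398751599660851973266826225327999464309115208033451505340281564400477873311038811889445598994695410493700646848021284455362400602354156590766257666713319146609525136088853649834212946966169631495816585794682333590795646817291073432539065496594966865414236284717761698536416718557169092611686485409833246666347697251122201951800485941997936997024597200801085332970076083099405962167791532298732152779026884558404066240980469499325017351591471676144265895390359058115694991598640376933011962563677158001228613495086830705099970626083357875624325724148120537353129839650309688395268300110916938708562332541669528620347099343878025885540339665634852664698954485573020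81541191352192380051443317126216646953190285358388266666600710231293828399845103517617922036821782195035900539082535193688017262779893789429661450442288730176208657849663491740268322415096638936086245907910439436818935159631149000694340797891542103058086854069632111271529175766694687059647931770445581260778573885388958689090944770350235810120786364545670656837822144072123241805155727514960382072400006250609196954342364005045966870017428947984447141823813226289090986536253327011169324607261646757435683328726373861914207072288092932810608471762822645914300383361963334130716203934295691085791792947586154027426661321997405713047655865804105119901531600196492137970054081328578048391717647209109625713452604084088671759544500968770371620276966918505781731674692843421351151525706703847786913111931448782910666881098315100592226427102303796251451564502498224756159071011877381088235515470412324049183291463371871423998761901136207324442288775372250866881326077422469695776030994357516810159559436711962272415671488720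27839625772059750924118128682372536173282445037992917477748230289720259878717773165391766204359919562734905567910930591824629661568266713856362938919764845704682174095405777252395119300652622653767394934097083968458097865318668515046115151882997009867835007828949507386803487484843531741857763365774257741731995817873466375718118216849700900037536774322495487528100632011902933665539273807647581731484701983268688402137703389649670141299237046836212258378719050100454068242119481659416160844083806961867470851532977284370133209805918445756895420190687335009092632821061843502720141934697450240901039239687960467531674022291097864859869963630407374125824915662060373397000548041627260385001880774799531768764178445825081311973579810508186620890837373849016775326431044399475149945216650657227176169898391365191498056974324801388872224050403717776212483729341753688638810731474669581470749770436869176829945443823954089026997140069388070959803563065727249246441728291730273431335459181146059883479427324952917687719581738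39752787771711159474118806701120763009354177514650354647511558634685693967536431433733924807025387898513762837432940982635900757548771732468810293993835874277538267336938057638389424027894587109217877358871230014470177834298863582386595454813390515396835841927497649143801228238077244884836240747831056446627528795828841828866455100832570329352155025212892412208728027298483636866584418232693856999863988346855004587713015313118272511975236003967285613462315735684734083996603103023401868726422344147794987130672579373649273896301761240324799365758025655767641056259133857549997770487544211933998415833432634792283302118702605515677417186937495183417810185723211776186664913694907804817442473642307530455243980137362691523488783167377425698570352096718955330686787401993488758007265577546015765089705328915568039720352522601452224526712249084305928299417391121816231638587958127469456389547890717518902973229581128956717201992993281014012910799968335627199579625879173242788944758385064936355033843233838899361188583504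62735575397487633661448939171909567866917389168867505562012986134670412565687285286906378259170930110030259474940417754647502376315236309330633769723776055870126715584842859156157390894240497097477560199265248301469557768176841724434173611105211879391273762677079724499458486795016852635501862744815109991957191982977328395771334618539187005604606357776611268568404162828836828130265495304026945434758595521399758859618305677034927783354221003232026680904147994538351787385050766601527627284904605673641010482208630674332524844144158306392396741911153707234318276534743686452096749944673947846000154396011069316720057902117758872307083648713998783663426099162532418611707283025516190375187146518924865132592278374023512029238345884262361711734025176845907949277538919740780243472838944522945172126062162872980871383112703166499556759945526606191631034722453842481986561838828707997031141361026126534876874517610264147679485111988510659965521935802614318226787628592580964566690247615037897922392882808539693099686040188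56746139342238530758531068131571577598899200821892593671296527099182661190409237487437374013247709356268665255482853727342278236300327062041743889612774865626678784331606883672153980257243217470210457514716796315323691041007134085607235443759961858713794097054255795778833429028324955169656174632676237925131931545887791517539058868275363041617549005277702606909869558897272642695696920508744704846693188412599404139760369968935450970961013890431392410944424965426753154143224246942350870035105886019076068494993826072854545811277231510117360801156042212660213390293352655828483144670328766324563184465517866719508224990777247209732598175234897382132313460636881434444427300586801029182235967950030483625269955975575419850241035715483393213560497187243491418382217890771224222293757661799937854544977382441841180995256521180121579100511026774048143230034721290129614492530329384090742760206713342641838193291331686128690974157786979274328811706488434103403635632673367809899120201322442282439561186950488410781972355525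83976960718132754966653106481474211816951061912289766229803608659652708367655643988740628506365533581982725217464887127367912473816923938851386096041768426547010183460802515406366107913745903981942194758520246634751900673431089253104911400748163707731178605862438281571802288689532664757027927074577332438843523332747561128908088958766567559653263642305100374942975900071930752761743298303861727204445412949458004792222809829991902308329444841950596127072457206325326608602969368832366099462766359745151551524602821402584085796666209154902020452046169956239721831346459178073129605038911707835772064059108735892452739513150171329893702689602276135250851301355790098607937340765788770400014677145396080060757902009756300373655179185650703101692619486179169705694322465539159095186425495845119092569596271220485121254545943998732706276495077793598362672528092063523947996072337552974049396006437743999654539781449315828670600737912989560345834505549233706649918331368983870114686260624546451458483776472712483904374560228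00269529761264086979021149393224033737310981196675731529151079825993609734026356390642931440073123069349309484657986458780196082219431068807321689862074951862458500208092781914061907736399307492885739914483180168251254716905273641238579023624203678622517462443492087594575836903666899088295480069525323581665860511224047873562402087404923432245179024947392327420903078741625238946748875076721665302942159358949939392980922192248304045311563710808820457327511596107697223478873824989039719393960689294492545617564436594342201827776303712724218921973836306546850633708608549087985563401468752293985831432088863169254780668702395339154823738218433117667566612506053165100389301859729332420062562035331314467497733855063867646085270550266938066841823852556651847866058526033326865376237983321549991606984607974153552440142849431659722961498195527291747323110249343690693990310605628779350070439131610809136156405074750422281417386631782293124313275554509918354489437244732475316533327410407072955962009947611196802664319727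54564849651398138787792597077168488362639400747815498968347147960616508769015164376623452638936615997963640790900609975358210438008415871417257241471768458450118696671086330227775380204942283086792437288641181814546798422873700611616565553235872147903438928731144915711245862935122802913092773109519304547493340825408605423092804165818677396196776661841069449773586468976556915678196634063770777934788628171874131987008185236801167279761326742038873381212542348120008888338799699411678514321955408192559217830832649128186831812981343022707365679965911854308764168274953182163599346526810453229495325404627196706492494150840818598072301254688733497434624225098721097351114251775729156430966646355139080757664769393418721191849804614599662033618116268252751229447024425634777293318269784741528717971996187642414960191135569708261883158114228219930299442453782318948600006775573040546189922858797174343417903002092824321605100465912469553720777815465623638246418112972354534349298741090401522196356227975293888322842222399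52621688633948205126312442995424429796248847375937308671821357433036221274339921487083209877407984978131592175192882153390409978506574943920808411660749805868305666011140936173749062624598931015707542880175452141703688969012110250355860225423583175173962471447871568943647698475704879987797776873492760660771583395465725829195417913130070006726608613507770400039193796031790471936241804438363943392575363533515421078467417461088467679934144326879940856052968652485761318759327085367481161664587312126241750694141260111261605866168441771395603654068730512123089355524475033805089217158496041127308871064676969421328056880612654684722306966166585574279705412719623043218288232712936222094111518149337500316034588878305315467119567915337016501084220868127689982869402124605960591142706307686595856982478468137608452893254363806221758170820247267687517728282515648310285901341298302925863967929113987550828381534413090809820176612142508136694474122731358573300668244412794321686897585791018987831851175151219213212982456898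012431618806159988838811050049207673816420345153860723380140365525991464293947515445388940853285111268168046369673994829245054026234833096961577001099879636006595949965838406073181846445965121091742983714398211453470401288442903906597502330269168558124882012867033793623180793628956152596295854621525175360041754093274463657282069024284018392888665031147695844259847255983164974761590931453046735970637782394335859476679598786975271295146615126021716843162031481974911688198871057525491665291812684976857414885531912554211366291138125841071173648930873759319875388958717088960651093360466002248953677945012195809793679425821825240834960826581244123578802168958943009324268417010610727585849683776992686944560420145325638237897999352908124316216277243615903921910195205166202725515452782057314251722931514434713535671202892040884319635271586977108310646047272374796363003957709111296)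

noncomputable def rc33 : Nat := (nat_lit 2312297425497632170237727293490055807153024976855780656837470928314011104703773859832662487071561304066458958152179328381990359990350365048432481181330113819574070968709026686373170303848563786376855505681727347692701799561148511856409025511436610805463957296498844073884146610271064741916827258181961571158786108310631485694810468986792757586827383033021416316373532367934626166725177912332528276975743758543139210163378064449813048620701212191776651566903060724070713601783035905810533553125144368957764616318464454400886114852343808216667095156570026517146230288701665501520342406735969996021382182634074636939493377831629352341430684522081521450140830556579214656835446035127672632027102201299361964249098357815478465427162760346915638207285456777492558875876070094395611622477080383621386868843679983254402112003763498221539154418036487415418675648332499500587156595353476751029217511626293221563798738030429269726932523966069760461920829060564131147012372265686222728646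25575975517265436505428032032017401582088163315901408575440848161233308503852526080898783515903842783515349636545097036951769763193061875199740194968359185135274498263477671069902512609847202704084872773477083865374275814583299690472651448335853169205390389554153607044836725885155517497160847173081358070046568888136597741002816277992551870328609991495196965332944982300939247079399754271559020068794897415627996768507169828815920638010163883032225148836643905604608151489504542262250745543455214154215290741760166156389355149967004644913139461336935084431347003071557600288518428210219908892216769882193966591101828891078560544505237151583723313431199385256818723365004184656251510184698685662515414765799521604501229702377231061677632233720704264776282337186112200056351458690840837215985980677615814141724872831100197924824720636095943682411708167760373923912310765486585355360414454467978882109490230359158795520747865299790231247842145183406947716659101461924480240279976302811200562240522801859411805250302897175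12858838964340239352200843160752376140852468324326586043545782670810421844391304074108294425002848959174720230260543352750263733818687551879565709036195629012636415317751107638189120755493832792941465046668786377102389480536411629746935763350633191379756782345257235556348394153082488849352415368698079127373902359502637102099602243658366209702970403511294499858379417169947910161011135939678130161683203982538248272626867767569429076021369647301884913447045831378104367386234874056228022925853216828668911694743115217112357481169679178871586494623241017883481821316860639659576571417325095135816785536482918789146123988294430692272437609869306717194620457995507199199886385570423453198442282041185714857417010888224285236373265285474094507639567554543010628968716565089239888320017874370598555498083410451791902551694346746771358630295715355789210295089687068857630285118046828219544421125992867681002620547053721829545542300548880608744025520044996038389879615991320987079877545329860769424166971189148637756559866644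49750534811052282273511723504119712437821895663377403979794945317428124895551274376119887333783252181878877829905182286801141956259428593450962295970202219027628675324270728933702679011846011450141245227417239840554665278522531658464969718916370115887979088426082081091023943443451005572935545284744133338555433779197117553343707965535340999412584219342079698983692686620209068782129860362038388205793592941004437017809467601824718107826457092486254392384058164123103742260361788815283871215945449098870210212289983799100779111481573134365221590915318321705316482519230745795375674664783000822701736950593873182622967636908064321710661679705218424386154824261952927295156760057230547263929451729021192164900659228873421943771661668513833565843691014651639357836425692971323429373140560602456854199743735433603008876671965091788178663175863756244287807706512621468300239369555799064469453587515509850296970997777571464423352440768775188454367446732986974188800852118854593538242081436809318563853075552163329338118054015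32143161448714475656771867200348378977079904772820569848853618319567102227501009495440266098418281739384281349813346455087601304397559981174059754099162307953914734880107874262882721013645976960259501052019409865380788837867103181300131231957256859547066463239643729580923503763888154211317028193640149090627153792659456381536799143931846642705646122975222781807036509981899561134622667570003195187820665182897132557989459320003867488819163313360692900832853740485661294149512310341422842881501697873191916214943263075717938494294567860128917418647844868299591955984134965704292674403680129078297469040709439734178906383032329683121130178697274279344115370158348046077369136938780520868503340889297773820007516042007084043967675756039771660138064797381036872187225258524538016905942156679202976215984964252445549536954200779663019897066776728165254718074538405729671438311503871933480201848342610296407895567556353006466946597925376476753720259141286123771264825840954294424366875784429239321516257409124680995148123821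48944620677540912271396676297141233628673822918733503309339345808455040790167564725946869790192044946620680121938903322247741484283527323774665625209985096451073508010340585796399910563700750002219813524723308455954281918067424470663252250313774393374889935385631490135338912961592821437233565848789151056149299714881713202295498053097965850905121647326026553039768334972694007331685918779103939681266219361137692821923789645995986159269372027381921528874908039713080666895199484932104518402913883711375638485933708553913230648343731408270279127873842108992994089043420315392998440197028124735475543814510223205302790992074600378505757748099066363070842163959353911595420805607754284350752601005186387734310459884594220664138858177070424632224100040164211256008846053258753943068417814408307984482710261063006634951732393060150992056584943841946988108265516593514110460729177085184634701004192072986738446806615179198525300785647120447864277271888651996692455869483623184301430464691050970510590723261058340905324613557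66541457552843560973456852786866551907278127743232910923242152780781317977604427117404360416758425052010394572513676536347203104100298699181452256652168461306655675118986275354887101921838094314843608731689775205036944640938856226423599740994371652098873912212510549091703626402513382879363837867603568821543950331450924542410351758395525595603446825912976011083843177023429715983707060608078065117607990616363838778889943848790332116294257816649106171037307514433393054831417855284053952371321239650564119727903515083546660985440523868107173170733759577669585020531336064292380897648528301762943139218966243203086530119923979779942949366438710818792642567096290630180245617678611153324557229103224447948506835264703775995095169255648990314138689588995849609247391667475018519936502120136893272024868154014043049053075217922726699558579655396729945577297250463137403202528087804699613465909993798565519039025046970853391749434878633857186936322367556133774416875655837086224101164094950837372090310383475223437837299441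45976156469129216610329548497968067131210083903028165874330955827549408338839371702427173890636267651778964586852048723840457556356931826805388253669785155635980150332004298123285123408071136007463236156974962125323956326251940115238429852224530827082235738133753899585431719821318526876995939470681006375689495154250937035234047434408384445015092396943077177074034031448784354196295801914049476473984361886175212840761646500990988763569591551830325277817778787356081621780593596907693525609474543532021918342546108960588481211302918504939431799443104670048398011970889604673067766145031468486788813047511056928678422836901665496962850163821935178988515257809515756567665359333637728230682154600788059188828569131308977339216649679544190757033132779016068856867943857337080358485243242009069201819512181231214309317614743328742663648858206959446676750800100155957215092590934409946466598787516816891548954486974206008378623827484621424724229920090953303473657611625456637605869457463328344367750996566441474498501410655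97679856947022817176323948752583735224440624926596093536954520371673673658949410137772240234402699536382396356155189045457342059375722291780408465698923577828349016746076544893960287767487363616714235733019219041527967706617584592532536930037539501482524435366255001285969603963030849409347063767819472623947755013504739636409527525520425965664997739340376881175228296247357261296834188495133806463697454095403310301663943124919432184149579365433070162639957320047530774245471061615673895507409643049593025416442272284435850479410840287316937304912869057648511516545617262839005457822503391856432703158945044753028727814189238120340159569376618451193903183270129286474774176081537305143190243394149333182183218456902830329264041336090028013189786893863638380531594851688619021239572456910583550482519028952834769133513282504980366504575954996242149362115045205333584714643670671497188838430872478255207161880664781600471921381092759762380509386585481788331012623222603053089257916597339261587979333860896379263818499867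71115694870497349340655315095463084529737324407575969486029961282723342586607404251331830753539007645187732039573796642670799249952042146241827890177893671771486001258505569057826061899451328914147797863063498675089611676575469558499708842939042370799384251605630361535561345172971059870428443586925564308467370072009115498063999578124375670071091964446077158294507439918284815756693293048952590696560590221493454281347270880155949034346141559082718123976064846272992570253705781577640273149317765092154380570746255422348441807061149038053974904624283005183117640310932288106357040982335700420428625604181589746943688424293004453051791138674018495887485836253823566770994495648087483158940127196653534715541553491620396162495112848342238513215499362982634761866575227726742517325062511467783089329320341639862546887448069267643096588939416435414860629998285088115352717753009038719602576621854696346751535412066337886683153919809483994691835693574862082992126966338054401156120909353611600287534428583680517066748173101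27925662253481404047258291859017641795119610944513245560051165130339512575132016513424399268269976360384556026435166386234864646846951836835533932140766674893813637626526519551514901844406294286653577559336379621348729795853006393884536141764626438585132992652212861262142596710714610096917943701780416174823676913480459068149594371980432233726241482199731846216706502456811863766322930807238818973250863627658171402722807101105761265713379969188644693889522302435106308551027330487879014900914027585355725506424060627382583079399218071827455360759129413682504599732150090075925815424550202065154862767089075129321129356345346429076506200157861010300978518901254431495378083316176520323455484051543903291346453225019155357443315930934719660419483196871601762382057977327330021938931428864434051613239615009851059490927656988060644082348453866204759148064244907859940396960609287813597320846288329029463269454206929245678550699915014283839093431319455240836940214111350850789020165335548735064828622388573739029741698852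63968629396247486890218576016941184525395784285551463718652769007838197006551175222610559675498984361050994069170327332146967625543275649257987403308697052815423279313944968617129120375565275462349541985094669826034199028525194098321832335644723285971783432177845789591397783396899306108554402924114561822615114456407057457993258673094758426127886101371236918511683903948717644045367263751253243657779426848937947451522406200097802398264363804947063862511878563179383023180505303097988252373056372383833151056174101399845246393697087945554480481873462564519117673158571683099739454714217191407875741877743184021520801620826209616346098263353802158497812411042903771839396016001117023235830120315410745067436224940438450844138749833118796335751110445592741993577238906376667835158924820374376513442357408108980063649517697949397632112837173976049657179625503352430741514879304711954421219912302655602204985432732908817675310078923034644833442353924153171491312274333730283327832303756046679604360233214460793920197367956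03539154902141969529820786819305691993785195297533859427945243703974785586070918450105418013019246072400339081752001175893685501104926953215231616669245283051693768907435616178865952178247861384785627119645995978563193369679794460070120204292500785754405005079704698490314555955665764935123901975157119502769216161635874881946235811919522441908186455719098386688137093536521065471248567056647114235092643601568142787287826524779447568800910648813482665757654353173090793550397854870963093079933631544485538399329425698408184699870680710521759045763179215508916939319063438986137107766015055547378698777292357318208529789913895389020964933364407881067010889015986582323305104163921504296931331313766094617056170605714861741994957962093024953473200894020342396670281442855715691372625781694641129230698249069367162896856834341220999626156414068390051994696555035294486808529195089319122415592535265111770230908757169187622424728049823310595208233816450109283483224884132365782189251955639808603469948907345386227161845868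11280767848839832400024725816006298813788398197963685332192529579391895725057934033740495562144565842865442450277361392662598788169385085201935614974187029462259830045828872341838298046644767106884463846707200659147069711670545332444928892883140205853849493943954968947355642730381193534191258056274932862165365136242811517853571967438132886737761131006279030493219977810737301383196097980298215780514471628330905095202614786306955764944837101248529967336102139080654109902937589336998437588804641492982822621165334246294186166826648606538766500748767151881762948131910247857788867093040113523810667755818006722862282621680373341870322955685474130560558329084002625538465182553164391207401988063591023893828331548672496153201310467091554405606970808871218694527290112524061292266607822723472089252367152370394170211938312779596872185239759805903950726345993213806092876008454968644407174519879303224133861394579508593311342655848353750843012706697465708711072045279935565584155408012893900427419825928289025045306547068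15403516254229452605385738874083130923169910661219462931137061664410589083276851524184924127786162998421669062588857871095680637163745386900716616457166769972712783391634674254426564421375170959197708761341836633352395128912378868972741815604753823366082165361778160823493565277378216237136631049138205695613899347393231059432082458058793872027349142970781990460162851223548680789082358866185103449166770608129816431821480853656782791306163515968858552519150288394820869483286763000573654270346414507174443289762444644662882417737221470323923178868391294520498136832248355341198621116759329720350279104786825393574028902610221590272897331914541401648797569166610106846832439927933152887320783102619002459059177423300178666888063122960425449294589300077192169002008379929098391771829698673455288278987265062241614538255226507863244534132640460148639089373743770639063097152446101665409691855624298823035941606514040728638174398699547039867845337523854176143515681637017814261790761299989407464902499928626105516839771704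09667407684829325356451532577283734303021193685159440460110005963610875987286273129601746564045429453722221334617220208074280555300849287098360106830741090847406004065172398900886997423285110158335056552721448370849391028249791658130539063675747789016870919444187336780268015299440150870844383003690781453589127692033382789278128883405231308146052423815353575285100064376311512528008190823786645310691572350698996691108581457925369539813358387189332556302168204907851993127649111275199786841475550430692224034485626228673214918907601959760152766387642049476896662878908730138295639254504860164992227464807981357377884866156862448293788298100968493149008793667275967591212760683045360431343395773294794713646746725407148651410432070469449529941845225445244436017285224485186384298230562115767582193992786995400689430756119987205279994603087950413106305293110127992101583748705981204357400556000188430908426236785757798337646643883293370962912660088994322634312756776978777385123815565778870707223091486904410365184294477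98296521598281849444950739390689109766140550681547320593829545319492141855925572427417781208589532247430979308085523465711311016816567305017263577784522039639216363484799837231771270262840838896851401914800095831629491462463194694107992796213331223941853329318740320461210635887097649921526142733425597768599568561657545961890152332662518729214412819371326299243400137133257312408071012829904317256579024201395772109655791419368894728508728555249139573053351725507349502724203305403555927230888952470718988787762079644579822898414198710785531046564022688309895500460957524443544176037018320593375400283051587984463576877719471519864079824894046945001360814681625523081876304201996186496315983059176199250117845808327883861640874280259675317910797743435831615833673810013856412542659514900524348821375292523260769280021948386664347752733837229970798014141881942936293751411308633979731220456007221755454885836189034673059686889421019450735128696153895316554466119352243741924885130932476393228905428066133890940511630474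671514613748135432023808935165298454311305930833357826564620336220146136229862126245673309224396942413666982783866948667864207073247696372206212872766762510397710063326234152947504147134347277171498461143998162922857810064864731036845047703117577214367018982119212132454617523905835917502497553638751624472448770861852325798596679414611690913240952445600923920870955090394331401746292801509614084379492899375169812630805988784579489158103306695972625327489931053327039092345116174709272577805237575928641815519663219951918199939132112010691251710553823151765205074075972344349921854440497732995676355146516320851323114435793362478125724434078314789113179217809016529486007827612440533909774773611846108555296239169163769089217743021954282974865571021864316956237003141941290700366195816317755592754608583846158953254845406557199714271452885398740783663193286568885077863023389966336)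

noncomputable def rc34 : Nat := (nat_lit 2315599943139348149697630442036642302844760560382673615448358202913752253534846005424815249405795174665200379766701247045084112520938066717822633455762883073919112548499202160304439830561157147988697891956351961670517751944031562411046532957996618147251066158294354133675869669649251353654901785140685252185393613348619942935934390801786899685610845347503518876191078846349292805475230830488758287857191947719534034736015353771962128226961807583347722665528435629537326437868909510695192474052987049454353033118412231709448948314473649809036824994780902371463537165961677398487329856168410560351206868281656692358076087987572945169608555027732419034751980952942687633338088702569159090748637968156680066596442842016260635849040695683249778848473282344680345547303060245874885960866980784475919603569937513703893858144519566257688683074781106922334472953040444751595924625425090505882507138872298868840827053234582597229637198545859838776022391060882948726677270265041888955578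19862815408484763409432495694639297633736404203740980171340182348147347191956899511909341668271371759589994531490726980406247783750637343754323131978376640972704316284004575642980602267437067225865420039224834971090676387252121854627806238241349177511038287053576980010880897487551233940368269668824827329417087103816352973327399959864081320967720301225703779078102935195369076207913322012674982445995474406567645366096643588797772968865525480495185851052462991119170771196149038964776832288369728177695732024494070294206504661039045319760204319564446037442812332332251567789912937944410094853950501085458757194943635982366098120437592610611841887392698567059171890477902179548328900110585123369200982684651109885499166913577627866646938602903520792999246803500617980114226473091228368358221549440664340617695792560327674612796374544990667908269678110191853284889217115096616157895115216097609716810097359755784735454906920029609362783977649134647863882490236017986344116053608117231259767244922504149375053353180903632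22682624255229246489945634619923945475826747810467826047989490099760497777485429509866083820005040032105855879044490730519695774856085118246140823185072469287606100767754902847569707062140719967937367926151954997285436237214161555408339147262426484804387438276566517299187207654504769056433591681085688303768659157927290285621983797369859748005157698947134447284262307389457243827706058876412247654660830007261149211629803227952068613507529955194867354923830413039863671278752101263103778670106122691117773413170648319986404740169610338482236617952173363681477658813856977171970134437807611408287761608318641774327722424951273328684201320122585771265603976692092972152844102013993776659656373736796755025198131524760018168949544045605877923726471878834852428138862929483647546758302128520326911059541809307794492933978252790220308094370466978238448832796407572687237620752017884253757431929331422024909169810224225248609668269409052951875990715049761736295304660694793117760430610013778705933357262424140808596376405222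81395277519635866841014974060640921774661875444830969913903616740064945980291425041791488117483658532386926263621607685679412720239379184173927415566458759951541617625825362776019147538479426300050081723375135862755493557429575705790559558455915644019636465422106653181644233888729911084569588903692987054466783422833479114319899749826833345676023671416882413241373939293423278964193574893460615868008123704676826771922976233363545381537960610570489370912546227552826550497648525395906802360011315522607183460045904415114354517635126394318851721258580938187118590810760800643949754846468793067163283772450443450988948501484811677146377654172396366130592801523543953789547820978703910690409826369608616415040434505476350488633122332136363771189095557483978828556272052691908195059879136139407492534585539797633481123676434134630098801869627793549755359744763238909860225924704170696881239024622212700123094180918043587331613992222441986106907837703602153283788522708706716585740465299296532743441108999927484103369478790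01934087925665101734658774483739373039510897916563492633478607445478339182114350511722900415547346143135061917952841020257218843151128467456114908468467152425233481176747237681677082699611472218183804209035252815812917792481238824666595359880360468042472555062312976945912657872393080098978963209962227328794932872827215386332375320631823680280583090091843781845655625565955200122222440563657294800068654051729630754770973972337928231754490857680122222942086334396580137041674886279857273932231618870466313660213964950697199710517115098488332897388411745197358357713645450933668529374846709491016905309518664608047233296169932295343776592512469252725564785548626470002215017718463738413214953165813225538305969879004017834999450089714372203521769275205337763627355165448816668160512750617407554197178134990125965854443939385369318392512284005473665748921711146054577859711831683293049900948041064492825323384486447139487221256562687831015773202655395874620587161120110572906338251478823065606142831030844284379969383284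89664465999116852405426882840204115105196813482664863889245255929793433916979968737501179686245000793127150428046852010669454177208072942891398894629273423525368586473037448357094263957552956736152412602561217424487258357023688108995254692411082861603152112910518669845030138954176602689182261054799695901901018606976769619120109699917616913287632686335786788431097921643865277067743462244761768986566954699296749150290002662636473492347341183730640048267015819330280149735130184234240238175188120866538389454585725812347039259384357267258985376160073707050477736913174649542934428884637133370524958027307133018349526487576163845997509983882889405939200151736065995189522677512570623217890063100639336731628016437816716574314516607890242821226309899579835446298680641505729815084493335385267824435516374919511685242774719878824364975257336560166682067179067722351721757530855780364678167049288899717392129692982161933851102017555398485580399346604227716531296337752391643796374256041482316656156871417574842584647856598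32216680117281150218932131662008753799278448342234008681728543578771474066987680292443667963023648325633862250619968715447316807926154812829825284882389045281462263074801966869548740446899866732270903855348618482489733414160527596093365738184166332352685798951878667938585555292584807549534391028486817844116671772137047962707351050467791199778803573534492404939166021191557122916605465387254604059136204298575417491262857967444752741968033045972025023107911639417508119851223318844478091217067733785007988612762504265587948411502927198048277237238765405086249035076017769093693278492122400914053295186745598947357897035782259676137452189392345224822985606299251206547212640429616520477192380313053692523984622903744550371240167595837558764828608400687263321129246720724803484096719938574126554774170022352751909359943123820953334883153683699500675242223318952267991973339825191768389805035706690089393696578152143301104251840817004650604009264080091705696729108829479487182785770256177661533923864045640058673168319696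23114884745917430072199523868903801377485605423325595899746202097819399366422967894972514624658812274334299886831449127258688206474828170109330744700745541469407039221559605625649673170853751277433320364777894990391572502940646846674034880670909029049782322079885290176320365754592641706089529838978736526847587673683438016597324699000469944286715324558507843026812670568736628531067939784958406623501045927327963035072699278017969346310778504157550280635967552646928393312127023704672296715321100359127691424800285062815955798193364272388239517234434221047716485147196239337978380116530170208364214794929326572950513910073139937053784088798103220733207931872970716002725176229169627737602610391483801193129480786230234291357509048119656772524955874514993829332254007838765722397695833781455887349526496945740540897918140618629978747646245373954631671411461267067502654777941813155380899859529879218298876023568963162668828744981276571155293884703207208966351517465901510008435309066724921955198041388383695276582328791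07993608841844243189771968919007777594232030326838986947389535716626305005608185408909368179818627020060574728240565308572573173107259808904893621944086786468000613740305692783547964669247737559360256655518716992308028932522581669332902671004461789552384140360119256484905267619476529931547727456765755290149983670334951439064659624664398427813128234821687092445454606000553852555959867552728026578547706844022738221558063246467239811684601051750567409680630263162598649536966620811236282726720786308382616940721297453756558059541312705767712220309987638491718028277585853657447617492990194929016800101036676949130884260279400996149349880358296941005083233036755709771037774245507560087792421737168328781833032323775453304367483468016428293100287675104422776751527399268652061702261709731950585012216675408491248684106426042461919897812684325954163016288984664023826020229851067395240358333960230180384042766981807218307833459771485469789251213075496987573470409422549866468203025543909288549929754719496781652026592322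39885045076924318592831029201568897611321323359276302164536784180200160262443609380565564736809498161076779988274144106370166746053710687272534446814963352025668343793966546749364302828805066898711806597303147371072894255701681703014388279158011327459539720758983811067584123257029163839986668584491900372587555738318020370652591666966491466088002014894527311986035118091623276192352396366868018525843822713023274333802644960372314296231864488820646890636455750561055468769772987314476248026924522585778856810284825793558484804382231069611803014776382357319903397791881651185822539524849018609243442878654521007420644686258969974420694159566538254289391422935972332858031197988858056166934077783854074915334778264974073167215398311800720305722496791359945410564655818508896913225958445089048672154256746204116727775377139088779896440437033235647087242557330853387827900332446600769344245051622791775081399240114548023499146432340016743794512820999643748317772202299702715301260693559019162348786223962442639249268708338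61611605446460061400207133648887644709692815014476589920894006131509865063903564216949800660541800828777178912368382109603792267204718158097681088488941064693775966732856378409450988704224742426233733130792678010413602259195144470230948847700573873241413756624037543050859485061477178673664988353189404367727462239090973949417684330193276664204909300427835433242634165298070859004184904416239147841800225277437928359764027405931681908507550951100987587501090385867697290503101933226515595262519123263256309679954760600161602683133186778982094981098314496889051314261418355578978051382823683682221399609375984316517814227235171772250614081034450522903857766131516329980082828849262485755784092011185414942253587942815630527943135161449721869228267463620841400668275302744442638846889780870730428916151831633941845955555433085285627119486533464700435928719720443699694427483012157395068813604326307769293751100841477229530529545659016373206859402608574244677928535109634934949946454078431452696525133310347453070760595991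02109702414525484202439131155683341839881833437282587428802303054774961307685231734149105423935973441260485107573601518971352737051434957437903785873187072604328122639351420886805486809256968153838255414113040669081658559004958108407362397983286832477698181860184101834953624372137605397731605770832797265676116830699455595629770178407980227338447790183263591794999700437901328805126537303213378177293549445409604453934977292652170301222783764064656962771995357739995695051890777282329971118229591741221901056214269536535661672248724059602203850875519661341522584072581182035773874878466608211156615662538522408679011446985363201165732859049537382601779333934864193087814720462766538837552663189286599671807043448694171557411753504908213069359640356732320701547640609874176593320071440848395094660943565688314704312558941636867851274627921799725184507088955286318172321195887604730472784820353352440050171425174482033535617853234587961824872233678460727542865789872319413694099359522003482763290294203891835848652105385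05212919416601191162461104258962199142974150373797124975670683313280700944223859923902151429332657298786036732202753889533057687460038657384638901187600694148461137642249706690046578753417140034719187726463690674544344331349537524227620651808917188011460801593782768026813252205434025156487399251937043446364415105002553830089010181885424630456238004219180908186252955794475479532101019023328842369634101562466130286060841710029465698741194374536771749381486326175769388067009608888962901018725823242363604476187279453519161510549657609945590730277105567304539640256274134753984068398995496695053419584903214183368471995640681818263272372638070773954290614534137281457849731753327697705740095261350151260985303178784532897532348808488477744929805343426161541672492794171848214070435389029523175424399170029001478835014987987720045310300147599914876030584182884077240567051654736314320153248812162771327121712973177689800364694934725701691288123636708005642381814789748887047090340395075460009473436560476015846110089781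62552872239612964239204726323566506372430331141594457391608477373200106917341926169938361569994030312720687913779946115274065261727731479994785884318360062296711619012703712078973819397218215106102339856333592255862774865817750792739485010299661811096956916615966738362919727752753841963875397696722521387725502522509472244160542511309678526877055483691404598378293099556266663496693317174509695689396811481284867339572696254660877038395608786287924913998737885686898779620557743495058987982027535730770245994359850443035404660273934818693163786419058923702805238253809824781247386473302310715507927040449550990068221660756669254313650536769422837159873839546817190080058166386571879984128671137191356134231073671610380507023356337967372008702300474212095317142175115289399517260394694365282580983296971543209138000155440143293100240151868456418766878080304546703656431667326161229802642877797488189789616139817828426974531980495496095959645149504290139239859007527115228535464637528731630372304691493590828688335368897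31457199151414782787086636469827426789779656734334358885640576380879423545664543186315046977638523819986312801906805196365230691534679763642682850269996872215976282062770333659967433184531164918230692745371524412290680657228399059413918112651051689364574706681305821922233893810933568162046323160761246294740689279583635112025905621562911312784383328137119214344737172865970267261107482917292702386799578256528803389480292255519290506797116330983464703958714992788229866110113804274925467605799848451093644343012980552080223582641215156684857407214987150104739093757462688710272697421780676915619714941966613327728457183614222126953958202239328446286912930140352274438173867934359479810513764321858126268893791913574787541013236592576171100254757465982181223763738478322188731661618977461627453346404626148962607370638752397518613835420373365165005026569188163265318101027327626226907108936741126223469898855471261035442398675193303490678998367759662950644262690374189014271465241965735339960519417805758315233010719302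24355421496555186482679819417726367249464084550862128094461384101884732480643363792674101750577279780619855101292441338036521299606894377174559608862015037108727685776123947681161143893578528251200829890814495719586321167298643188356454779929129373828565099773636462624620063672721936035204579152007895679820191830514675990884076382467659845224709401907005914598011581209046805215696319690723514229090347183136976981178620678137930924173451359394293819990058815135698680128208738625890091934114981357275144666060198620864062986870086821895641058880476361189078858057229572674180777889835024768352398221961431529592095821623414453548352731343489702423736934949299128784176344842974270462687461983731098224080881075959963209177794254809709220757167793352035580792703797022788174350522488497498343261781290372059365028841175201515369940868310633357419507568225338920629114817191574440733067222976697295772593323740888296785719969482741211065103293701745013947466896287226732805048990806100792574043675485264702591998467685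94677319915146638221379986185962206699671612008673538890011807175501291409130825025906314021378385031839284634868243067259920659265757887182547255629096677417248387028062654634919929858614202308353649893489833385010664668686029786237388096496723875460826087196398452232441236613038960640678225644485622343242621813987763344114918051736936396056322312061677888053002622645313662668886027774562328524189967717320004479810120432369639925713269741686097234965675299372563070452345975464040092946194129661299709526388383694817539058603629792580414827973066466194816187498975491678667302054579672405546159944384855552639271780905400915830287778617325477282228650630433070796551869174528061739778337686458934534670937956898955566749116722303642846888805117025111473065810901716207068959818758869532637408192895003762513706993925073377299768718466887369259936666615928033288309052761399997908922461291031085661606829500585938354799905740084027003515205962726127513564751814296963090002434401468917424970280472734805954760463861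336484592092061335722018031979882571156981619416263609640949342888975505690964990671781082739894515907145148220668206167650243990930229537352020139626602602112481833196982682101319691882459692869633014836769635156120585369618202880484947439595628463119274165636017593791849449362101268429167633955361987936745683626613634282383331360494247044025376215073343765020080260231348713884983176441135814550673487762760641656928470708607453642696187301121098004525556643660535269318734340845534854094399988223913385246588939230529169891434109512178001727386773726920419384480070844576469487663059924956579397461937420443934256226526538839999096778649092224772454162421015766298206248755259881723652700665468273020829699522596786326281051806669453687009335296269352953982231335665596677937613376083699058607844472730371544151561018991117097086829208208419603948633312068275413562655091195904)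

noncomputable def rc35 : Nat := (nat_lit 2318866851272455330425826748576090263054510006004624813534644531223256479838019118933192141316917314304880739262715220525236726456339598912807182965366889310374100287069795197218424051915422327824689342177191229029216103946110178141080969263152813145298193554683185659979352171836784133394148607199180147985364085146857573183912695878643555201527136924133472039067308058446493270061413073476963641500956222208731488027854545341086562498017419174736929419212706200431577191541176939080410740858432444529994148611973864203429570989070809354857323572662057331387932498833290389719266577253596928386205000247312874850964113142641604445141126812421278172656275603141378589020694745648703084095839238376993607628750390689594191705146969828369506763099973730498379977689871523191166384447484626238412057118786279118520921445113554434839410401537743417121224851455996436964951269447875331322439180036616114367530781695800399232704217831852574392328450834839135613733060042347988402012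20918388816318089941872954250370118805316821446334219976022176572157212542679405954214246526459961756842597716576078542124155525295795169215237292790885458052045967566678280163565834729331052865898890271037794701166648702421428722852664752421829420582202441664045405274385712391135990459773458975691833033967668466581239855589602395571923293069844701643466875705473204362326045637423093885585290994809782378828112478346527511916060379128008712238093097652397077735026540094905337965045570581900698603342410273648669646039141570843071162402907321004456284856166233734847231965266527473502455324508217837166118579919399712942285531865848441035296880434249735345555534692183414037849052335770222288850718094132414875197346243476030370289607894368885182858626704452961874594694358518267650109053102133721280282815899909000454580331325914522627335211460991539563209563093298280655999681124798093511519567870837914794344398378594231062103243340837597169157783110048025851847083214800560190476179883551356447430422727504929885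53442213297126676151741089413006533615802232503411844196869307640034863491690972119467987331228666950731626331338232597968376593813057507606190858108509722275547112019884129224293835176137645413207706466728061971304259295296289662208188037233298430820795706529094576805033133551641088464107382545523232523244868576087106863790648485501846672831241847028101663453412886193125053741143754805335752148164254233822406564945766924563040221346155128457486118452803891339218358299080375815711056584522083794341102472420365837259601361829527473075183026351324981285723354244899929090858173110864093110589815899855700208980622706816488257119239354312077831228912059239320322498713632185795686042173667628196221267829869900967117108663510041489137013810494208968901857942316924631296567349960948338883458018690739866839345956143877363876392712800260896726508896167382406411846740645096933907527934395228567780905688632579578201766958265660211946724597189060743376799955389956011820548745163933308159867684455470110743781374462815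04003411154749546956310486143851603621408938206253036157715461532089359777518321016820133231609259837029112311594296453150992067747871497435446465596311463167097715676591306582607983822486126792954988887618772002532672290888120378952640061280318212872706844694743559043055376431506120985420027904059104782676529444466531832018939490849764120140166385655510396836966117073756527414640049939980504473051829597107325360342167438709700421392910142059954965149659981535410913989581376509264017840266377457767382355879504900843300293695003659356121508407027556059670932144039675462271272254943310499994673757852555993825891314203378540098009784718956741462513149810404800064711582032912974667481081620699359021964230190693465813341869754556628273092830105298138797958557260116094491583405587319630936502209955090646546557116765823575691260254461825939946604407142365559508326890193805366993380907416576809432368447405691295439184810103606246210406118408291295586236873761517899181466618462312041785051622815185168329904217927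40547549149988068619395258184998483344611871044254121099875829016330628871966991933101788719356938428945574843127097538997939408420101989516008765121683630173940713886250037839576269263801291560900371215652788964363412647696481622720255648240587392178489975577193706908960328186161472049207432293749134599332201058997376842773275627879776992104152470737114878373014055810664216703661491498823138744044130212342410120197334516567358038902178774557667195292067052288101289857668058188522831639869915710063576565796637050926926278116757861613466032538699931595903698356816349692679858358459587206134974577550103078724367815416757980546763007017934870720863572478580149701333683059564957506180032918212403406485171813195064624437815693214145344426456517912962883584457564661536710887411821877413725247805539877366340230259663587142750850228318270941695430780790707134817570207790476812354159265703099688015017215737899373862431532305637034075799721518814733887005902892880751547587388967922503966366942628879089348608526859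07568328261329880327401466478275342351680837398819273167733624515487927774013603415616343085545229969846817337916428120150411294000383118892255352555120755275061422918050061273338223828441935851465121755103356855733008363918991811710049122978785896850391460958112382408551215212187183103068307693108645262557160977022884007668091364489608542359863180530828029087385487041643158100619912589824546591995499022581796475441558744938057451392358334284491880316820358300103441845299270161407655048615782825742920982248111271050441555741681539789735357886720682188067099936039255897982926779831943588121809097587679656230469461512289781908053401535309281668790985074594021810553944363951110472205492983636253703679828647937091932952450744765468194426664820213689168271014737122545360823293960175984332978274418497135924434983695812848538426481233374367910990868069520726526890544509158758048231272273207005852186962834385560599956720020694690482953869683328815329712329195599277757565497259017895902139256017531694319208509374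39351400079945570398754107589925337274455158344445986821249971924967495070147775943472168998677276648922603659939293338014720244775359861411493516881309339788373296759343740764397923951690246848681892552376869139735154738797427540724043058134054945404947995991646083202445860298284739697872583073652474033385944161303847957371385709206046046433269018564557426334824535066315797438253542227281617102392249108013731640131925690256941913613475586501127890009311905743967980303333320528853707412001702501778351210875156118794551382537030959716436704846391705105759340306927158563693772030202923648952516686644099978676400825268144780348618941816112811603721657113766704752553219701236815797684255463828166237308170783361623470345887517975299277028694233723895829655319743453868728271563541523666373362063280275627338666099529843395871702368123634078263829276399694179345978590711851795895800855937231307693420286769505550058714878056952000248294800350109233797315284137908885871210075583936458972463216158556777686974359734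93254581666234893437219468759271034744267271599269671958953830091709393719901539165155503254326619749253534983148656581800513327436816851035871879573781939870581431682631303702470654444269742509940475268342575624772900032321269209434230361377495644724440222582506611581081955952660475699882020879569976599775816968426830378652276640122545069763698986676477749595798938383781929037122267248290091313354042224299525511539521891620000976703918356808028977933950525476722824457399101314748543499992192601759990507471127504404276773215409231186718853209641760269345665878583898594737530118246613230873952241303262073245903847289401914794401330001022787467109047793531428038206145095413415478781476691649132994127491737244892801309179480904040276116259871593059734445803940723422864772079456737715478218106970960685382730433048838792052670298161240752317781657764443227339767787535568415608915574715645193815578335353225622992169637092379377166745513685780136212264664339544517394340304374397895301525748470362165868148824658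48101208104339781920700500659076100297693138634033606367933272441803635735130294795035723071425969996772186484812954685536704582451703951925971768002126313696354620116707491424107104131393563588013431514945537242913112250152482455189706608967057614277747221155588701249977131937031463856370979379844753526532956192394641267840166100211623021235996242852334369915369615232485175596085382327933427612429208114848315184891577672098047505525074330290302240052069806106716824419838991145644534382982303869893473880758984075421881564933643476355623321563082936493987299814884068358470000944052653388569427110320361254774281492299451900183240133427695160302213131031156198705347405593254252968430726211246827664700413333989920545762335840635076695070052325456389674023431657145424404345336813236155780416665963989626328479094673773314758953330135623185477665973872426507759761728919293418006629998402267529536260743935874119544678064449396602912349534242924269329286786388449627192255942499392230179754522676960511867022244720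59452556035901052392707372555649110875206220711575128692930551810376474299998467648972595441274357812996951408709967102592458017845699434377174791885504443054376521131550027292845999997137061551031827774192612703544130427418639379002949087370091292506250392660630823569811085097529198660696315583204762682022706276067236632657526626731064743501730141854472941701776126654353762880301091547292260611570989787734677830448912495908043853729459126703945622916070754989860177887120037168541894404987014711522296983801839862875466520375716883499135319797380390063349158109555718116374043410092858402515732312286826030356243270522071756242588454216246736044545369515192565429083289191004133042128715825422942348895209663132739672126640264699221997386090175154618156501921133955963485411381021759923603558730482136954032801921339844868963352085844821573092112139287940080471099180588805158725768898904910279432198974670977429275508276414845436040332411882740295193420593865703435139441580288404201618175378106736601155031333446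79932302134127477560991785560493166293836546443908100489533756693333681870991545846746736206440225310944489816328311105349436609270152809419067333763945941095096517097885466998787358793756387226415094004667426670704948621179546169766716527789005037022552991656465012075220461377297084630121287253272999524606806065935038592870469123221619906332048955401676755827244324107299052981577649048511899346234115652359932834497722526036505307374883966145537508399205799671805755103300795672878966569114866046129979037562983401041206209352859025794779671972707027488348395984609670812996681562993762601828966961902939024378630786066491353918854480738984044921607493881401562347485540348412299235296302987637776079547686496712213233854410273067673653002404462732150539326562309600320543196612443477286324425599802031407608023495033553881608298397541369383307801108584459017262102478553301578106765581647084440330706033084956411201857216653673728201359339558764055762637718916134669902191144134015946665867609346648756640658824239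20007407720866025060704452607436567605104559103569332909347637974464590362500177733801429948720333233064313882604468190987111755305585852218404997833088278062229746009441412873637622083203554349237984299796063981743805969042931920765887916355311395265291173864904599468909170919812406854503648936167327353487068561738987877652121434125796920340965815100198377408931984482835988723608358565529232575179257712026204119771643227627355115602198755838865055856749475018221324145687075155882635112542524993363597579073036728478076605408751147420278988830820675791931323559935995671503269500356055127747808905224857562076301664264886005828934643395791351504051737135062760011553647219545990858159956901635125303815476495142517195980228632228526695069760530754562938737366815956765348542734596669723037027210636887689810126818128601527824886441501964223811885410246148664465623797634536986302671770694407620353271844155514912042006966827133630201272486389016251212762178089838119888007670444948724177747264668810001594449658271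63779383377066096499612385577881509860223792468856238865104107752646989682181672832073250818168768944792057210332055484130508688588044235707852077922143184660604778331497790185890859902883903703334527155536678620913218815208537570621527380059316541250664209484806524149457862628526618173065413150685549529787471128764965423054858306833681040808160876621953666921715853518492877922530323337433716987604296384140868899627907435757557839489240138008540491943390571503427998668337269101966954421163071257120801198502565114531587177548680581520903639450527890653305704300566483924247807755955051285170425776280737795643692418470657396004962675290952000441422776604207691318249430109214868962132342942020079928729336447770663682742015030367182713216575200881515759763196317224122933922805844917186442045610464295630313075453383275023794331487298341117251908420673155133083832611632325949298024300327379941377197351881356780722481850350505783830477240153293646702727316256966638342940760716839397090189325093283150726695862935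49982082966637445481416363097677880477431181469964766111178725989912274585802795796222451569904094764255182824668240644286058999349992471768676831037683100504229626145014939321579898413700380502645163491064431879269683460514366885253498335984700088169635474419247939049838545033367919921165171884387830714171725301657579976213540031867405528050926377784916234778747997289154039567055365043962613326338657781792085020497433612703017115445489331885388257999061078247848285167432957392455423292015871148399686976265088880790934029077443895984396925083239513517706472378556628736201169688359632513784232455083763773779738868095690981463491410692581778616601715387548278517239272090071988038027164545569768196139105297936029174591652851132744334184746727528640065622170026858294175276016249271706857047579042428977696876503155026741084722894159198451408824892318572905851347243769365300029652586937167896634337282876248427194225237107464090985755687744371687243469355229669355108127729772151520403173306605844075502660065609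63875462896996874888990627154851944679578273778378344083288013419598964200231188986712886249276919004862121070791749914662826621815794058052628758572965077486187459304178173837449406988667317318858778497424690366133592657332622249608709817754115424950280985899321394730135240867939989354742093963637890469570485888715722475757823716648067815382877912160220623041769440062428569956415313996284117644126927484890380028088704802644597995285802306546381168854881671762393786157326965881143040904062264686061477026183711027635772538225984722504748979885326612576696055248982405125940565030543626859349227049972083893193902032222722589227777609248173643031885003489185354987319581394708689063485737698412195102908901823870028780934113435851277110153663725651270668810546805407511582778963203802126063265576093918907360869290630144624004271960585126693854611712764400779785100554865539461466224873283321335470153239913284979699639401728194778696245068567933141533291503674063661588022159081204785233621439846580589869915992931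81518354664316929491906828203317865815327773830268359127436092820588468857402180666058274905500910862910276405468248520394031886843976599063774718962161112920524306024914785320582379652965070140116412873108971568147641306650660657780786657378758288302317682445126695059792122038724478636060856755267292196232794018829034738997301780811848826581743491256007235453822789903731142152899906334200168065195557284944793920548631971701598255110811978886310219831010104808875737411302335928655525980132071678500235732904879698906200227793964916727951357929976397645932595664487310722984288586051402236207183569277535822240001350533763311148898985504804006968306068986757009183557701541536020490150670168425609094649511076974231227417424363234306397171807809041690826634084494991483944799370905134306231947269416918211542266594573227690378910069637587514028942062044474242868109595532498389996519131463668556808322480761012882930130439407310304643299534818040713782017447275074553940473717877322041089091396159378670828454604433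24895742316896965919971229004411129790798070771832266581691341939066274254557657819097618257073428641240976897955580939485869110986308605273796969286505844501449408977493068344271508882399938390882663556081279280073383907503489976459973881566364950986407063778971614094173512175183102791306717803512386357564567664822902307230878151897095367557971904461085509230397482278023655469238613935474022943537742570567725054979549203961976167639667268471694753394695429125997170863659988302787157430429040241248086319948330545275736655944030135565220690707717703545974825187843345847817431242884357251023580190331685710548350434135896243699686650387803948232339684765847752489697218108632534527496391514596924283175532224305705993208949587208857121951763186397420356086640191389273985726759461514243936834646790609453948668430606413498822226916108630971381165850942775110089075529009478422841408305836713770414811959428581136347703804643464865038925983966468822116132149655936484822112085764601616463670246194818813690074797613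130393614196758946823241120828626224686420436689608668055335056493762457822922008370007479442353109386073980667931550271767960451559595161933584742353660767095452285554917746320854938569427030951939513515468000571827399510090960608909524463977868631159893473710320988620859447461763931729181633370733894240708456200709377679021371142469796639686926057713795676063264488049490181126429785783027501081880369280614657963583277059147752041707181717094214981238659072156767078958637093948328908967390870460707518019364438650516012932970822023399248329068362835925613512931784330174188500076932958363787654491290971567475353106751217958246662475807296820748491191373578810880670430834861967845965504272564713797733742284221991523756577298744157568002138853801488185755462412419421593695142942818638325610919448732530553990709103931140702759227093855997246829377912780098326706802625871872)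

noncomputable def rc36 : Nat := (nat_lit 2322098318234480514048047560858634668940732488509259112480992927293342280359910340319582501045657349017458539705954323662237538895235629867827343219215208350626777175041544538737448469681430233796426498075487486018802941505454107327067761868298346070319792493279377920089738350015741565991427468055360323662201587032038659004576259492338858385084802597928180887522765554118045320734467772096589696946914688536912487308037329469541832026615657610789812935235003243683105498668070474017053824325895446225590507529238891019982949295619454050056336871246710925842489539243352513916950409063264195521798645345155292132025132657867346031133431206348322870715031560925612227614777566983099960809107758568299100211070994358522688092885594305421661013657462319311572304947518335841025193185094172744883894998041613504373525769443606684057365648868035042090245527405390012733717167046657514307717157430534659193715732715992539463700006473157238526827123141113108985068565199577288275740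37965065642326434768983735138236614819386974510679513275016038901564431252134184411678507907955768519082336225665330857089973359104140475448596282867486972729944001152103158616828506839110289898157702613447162537106402659366414969950519839079336533894871408378206072427464230217332856317895355522430714079688218695026123897197312119773751745239756241804333067515413634220998515736706229728491161714686976411021343374185042680925182591307869183825912950809561659712379346113828987384590445127589415763438169717210076111213565633693382057386081110337076580174996601135443430834598194951264491466596696738665595360218815509205055898635538709906333584659661907758584103137264059789672279935855528100396436660010501348419695341132687324900449192318419668450794638300409908224340376925887551580371296717959266182259906345254075852227145729914530040270218284262948899569307428202905750115330093933441658164824724142801453346403884309743477570696863598342695179226713914022904789918682949796277959589905376363674032417627881788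66159165647591429663182617999701240594504720100081433852858595345665609773087635820524607192256473544305990994747828905544805171537397295458136862376933732988250969568564563413895302203441662899222699897130018720162015546430721403740734906750273679613461297974652814429594523953682306408955405974583503333945931056394111050321468541284104917098971396639920964928588039287880633473608844398586342792434625470280810852831219710121697448623862765234763529569521795366201619074280152619975234169795214068188607179361953611444660949762082014987811112846614256246751441625338179062338671502082450293214750540357857857268989532325885083247092368797530645662457538751410395514524478987593552219600440667648223866828154002192021062263971332426582208454095711989356401177313975104707570347073087829902231224033471830726728073303821154013415540980576212498458563778743855624103784977606149017047143696891247899573686919044982508764218423366444749850788192299092632057659349730572000460525669963890015958500014298667628545137461006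50948423756001399634297448609382256232066943081368201309680663221847471273017653501514415196183108707375243710730530498225746727042775941346728766505014894522941928638817460246028798037796770675361246659396601409202330771586106530077767998775697119671659697788957693005917725638823097734813031822003935865700400781529538722493159363798432488160926114958809834318788245077163455321212249258442717414625585030377875151225321037930103704297246796845772723072965901943078690465538178927866414831838651190936628273908659223730835841946989758683383438042756986577280700361741925268984326345075679821443661009648442132674309036098792822082429206791957583504671468848937177979458640848302611953727932794586772938100601939269085101070646742301546223260011241942269730801204991576343840206419945807915764600727806114534314730479992162177917076269722804419080517011216199513930362593152107559114181247848718812062727354455448412629628178412548348819591641745022153948655234585225633326846377125380773223428464259478046120568051305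71823404727040773130850740430442960115517899326752761390375568653313761162445996316353701892856502638812239483666246765698783944497757462218616106188754152950921310227516637773602862715204651834111606078253586655383852677560393451963305360216805545657055976618690345812573288549156959783892640131439431920295913534537035445031978213637314375240166520674982278852211854378757354763761624562071000027735271229832350086713496692816874640100997505899384522096493334117603486178474877441357087940129011326967520560117591928618748402850208561249540282538956176022672731682127413523974823503863262836535154870177139961941349451490482365203412793137286293560782716904668874253677645086483258071813500467990303722875361887632627690025731292658831292276718860932084926977981950285285639131019220339535226938143734496142725197430471966199977345809346957530514829041724625151317037701638200446124721931105304073237366291760761448296428628160660315545025847088890707206344098614868149029233565333665730920789335472212232036342858040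14503350129214856591270230570663359281419168338287069036974382659389146952756536195213633797846125251729547635372910150477573504189967228633921647741043645261665489862909134259569792742246066344675587862250075953869256660124912367369701420661306404944694316674592855739999486189266664714563430656732943738596902326015035365927202129690267484960759728202393642277092242421398891406003087366666061004807531419617352112413858280371494053251952883953423640264564764801177813632189562791577071579079903855812660255629760068317627878251935910397703816137417391845835773085879563155586509113091981189165247105017878226352804077364600564217823898489149337885624463526372667571727383866435984735303099869894665015582238711434754660207188851247253657243804190604084298380163674546771172768651387130026198940617319705609537776021915145529372484552443039285231201122065917712583476129920047679001639905836182224611683964692529465263091531242743107410340040785824391058636003130483027004343691732595198881793389513298888392612386080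22650027057879457423836049943185921662306538637952009274768707777537168730357875815772806969106386861756426654032159935423188376932198781301236425557884746774431359467379246316249699521691125678271542746946974690261383915320949887638794570018690402077583117916057976122298327160696931067126156346336283770594845451654776520768311828383918505446134815623083733422521612289563028931010463449553988445537269744502722369844189120041571227048761279026460195808999305220001720531861436325964741800004465691358969924812368227530739374579740971479903710256341012887236761480212666677745606353875305907742693040135421804953847727990372918651614658188558812210823577525864174478677715773417852138296540768690618586887585260782294566918830962292435285633132315463650079131694405566824293122134432440657573490731789993817730537233998297233474884709147473788649407419433260702893034932922477653530879951897722437907143290463927445995224020636951514372160553463833952214196506397795020429468157764985052126916367077931989443479543241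23199788012479106242963385486482150530971379710476573663911942810787314295085697427194734679072566284952484264148921188373471413137812038583906885913075827200502475418258004569297781619127930741130273581157076396974640844661589843449659056866795283614103916938754937649018989298939532634069218681809584465326444592245954381254323117010904775157398874601689411682394479093142501023652975458801117877083206640027071877373639434099538151268931810953634902283429035876986276566268914860113435461436439233716132013932019891140994393449014912353947173186637923302845502189095050641842020576299995008165039558568265931810789194217732132549358087467675462344215025705007628641152552313273513726924132157540101976402996960534880672935381250971521814947198653810520288619118336390784575135116173568316902196739239154407456993039553391570640506820486748151521030039255338286434903092725738842590206522371181276843358228301357496209834776175892825836103868402200738958399232208626465965161069963602740809380469479295486314509735449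17317727376577800178778487839161013182752597287822215833989480801972434108999845617658744074667885166176512283956732688474525642153767879249770048752013356595914669136743101511227121192062891550136277878960954179289351831477178780511358603667151327833237784013812959367843698956707367628162342535986609862820403700180669671339758859079490329561806771157791830235293690906210334393287147928394011707089242762483237966760357446854557357065485049583175092132047035237982349791028604528808955172539048221194149027895731858624448547592640657632137071256385630654475999065899281639224451109027451106741312553360434038311746353139675829186964317685234577641844008799581629348032666122859057721916029599037931026892114079859357106175987314824450422442009345271123592946040712473849885056551632330832519188070436047076918756295682602006848331190341799472195828022495400872435591706419784764143927849970989602394403296176071821856543247336860504038782212114314940638683634805126260492007892219855208917597193449840566688545407230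86453051715622375972979386597793121389681629937267923023533143583404354572103487960164108680695871342497143890974736992526754814317318668765196702128412014996345436201236558689784622597331634754917305916281024863361908497011130197548706553856782633655226510556606917575649523863242252183495546515352476887883241893268708345574242260804711049125058850872298909417840860809481848321364884096405870073911177161436210913557726513008949361868452886417751634106311174220903631177030188486746825814132025333487274707842242505277492703753403402295493350134855828384036325189910263048893223800691301643298887896809767255149180026030249114922712035285826589780899629687204195323180693974321736415695655972308194881426730336852777306257062378635886321737146179856557374216212168735314465864025848163526149718127946806530159920616966277152977440831065873013360891070407701952053298614757274121892075106179281260764673116322265807245669622982246120549965780945126137703088087359416138217927816608345633920310832616666691051332276447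25837755183342586784240105282425115830433191799655618263048990237312002978988468094680324032921350146299955690823131771182776873126736632923187742683044198751595908587129608277330405720926633611702622828062265250386119358360017842256826982494282975144904973767764056123900212618049084884674250746072884114231941693378514273427499121205640608033070460335398581210124974427464239481495770590347047793847522218490858698489174141990447392072022392386814993677805392107707141655557947777665834141492222324244734176267764858981234206491345439839005581426768596349107822754795196186450258756395542073479230441206275691985098970916316908381233486696182339209584115816414428620858930220227049719151724176567365141230222288161874342296797236089996964230188917626722083785021982263004584725044741117775444871705951332054533241260173993915445155658092630906579946224399046855417134074390599909115224353189783168582800298339465725120859320316362754044650993336820111931426117257802973419152843401576315085398089243646533206646541505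28173432275611967946338935946746464624310783677919522702827520149952054437485505996001124821319010393897591769620824881002420063783916400652938062866995647635627204242000414467680699218268000539692875619278366823603204300991161769183692524318931894325965610371236181429574656447328324303845946112272981105061266583644017749575174592116636098610417964407332937318344296533337902569748445613582439172525593761456483739048589372099491751826231760366686637006045597871778882397937875718831279386759913360097812195151807921322770115683909041558216857443427779660295934908832271081423716101511887902861104348670277206314562111268234546396574731448860182669467371576449069269610758952480714670437357301032585578664780419122468714706912705431537759232520566421937731168556923774579733105837139411120735648600617597459465165738687608818976640058550792195251355749649253358273650106203030233340203929101804081163503331353229477264541532984505799115432553528259636093852076569458965963718303593483930818764371187099705740326049290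60594878307208471295780127727899179390042055066417275022636984185251799481633348068519491491624996212761699972928275252035628946060345551746319152558398995773517766492463238211121662839773775242659327890851180358657676710411862118562405047576099518169871950199203035730435607941660724570151354587462489423210036281496429760528219296877873552946039496776241655384356318877676161893527371145941773912145985644469099493222205413499087661427933702145668917325478293929557582541966749654162726483910562948842972878350906511802767562623336332759440995421508848156363902387913731533141029888799231932323460265537468533713657057817375322538185210954385676471986902231511105738146462995175333261384761063708520060042876231929771090568502660323203576430180687232334938518702338772844033889653854003468552540507145152727583073648822500808127197800721781151942591653066820461189294787800411875951607741359853061796872352732518711976991401302080492271179552939152886230288313186570884526257459034227481943133806804515363929459050452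64074929482781778448535609515345062109321533264081785155203247803136030256241801489752406073882635699491620474934611760333144004456156711834223932309141960873019880993339322527219248759857130799613439389504258376173560434890619503585411140072161008992202126106760326721298171794789672914942063314864511643757233019447854498117082408267932307865565545014624088882645225535309345127196658424143051580366614790557713708974617776685402008516031275152854656470358654552042592681180958212578636705043757275305564867861452536912497776967037452143736847108718528952592235179395933840297883374418008799132579803502772739667321047711730230220894647519978562551376479812569005137155051850016285513411834701076538629817472966821802721839635218590861739409998235564135882024008995588658596589282394858856271543516307809802523813172574017294570363887051803670616976493853352719957963949202073805737635188473954174273722707567524912522503595142528427938111599135747733553980761919572900043049474920150012990317892002684922799422211258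14361559893746794373554989738433141957232540035172160829262037050200732446178512506486350383028963827051730279812552792936648663042403602251085895840706190719795429466581657127990316330590208610667504744244556980306964619059752788067633889322980717845209684860279521140418616903670082378084494733769721556845152317050487949719312446805877371134354148822615240618474219701026702339071698064254461120204058904056273918834768538438631605147685831013418520256975417924165696677893919738633088356263896753989960330794051790566574070158233892539068757868599106303954266007797337493532130102982244785615057314884805563520911501087957737881315875816449375014019136964237353562715320243468687855938713999384268911475441448886115781081045518026870971362314425389241418445801490926506006769081112567279988658086383107670265960364638208498556945872817205396911039253869501836182407398343304627724125841780996824297961577957183910970599552683791735589675845227595269090593752580726546213162097467606259248033227518344369975189905612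45590823353671744335918415788497839456220177185109620656193844511129949076252757542673380903033440258768595391348109109608832370776029119869441883460011900944849635935071679211522828654691994165715278833203480825447503954071277658399226256855429694670300395627832425707679629658260658214417696764912457344637071386712492781500049045048780541096032900454195749165674502774354513165784182807423110467855243136685257850782983405424574429039245430008102256324949648271487218485661177402356846226367489557302757024311145374001566715327223145208090567005909244753720703261664751885549498734777507259524343742060455043668305863362327392711479542381953413328188693497473704579308257518476380470059805400018452445497872411362761203231040699114138305849117577199821727495299678421108458109738057238461657103431365952274356742477062878956186479273583349111354336689312605356358949625704981685593376646582564633429909309013601463880981984357514946701224706037997135477342021011348590975713196114122488193871642266807727849101387352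64348732846049356759306388286212661686022778109136995985317741890280073420896928161623433481054119925069268722232549478095376280515786597550345866810500091469885592593329157512644175689646023286674246611695128796951364593822097132757898266196860232042428692598630462920924669330491595042418047302207224832935614259756697549714465398976032779432558427640957499373983453708219731977478580831328452621762530020763512721502626291821121629651527817676330900438302748106323284648550466830205247759352426850673729055864895474658291090760605230169819939387853282158443506527727930013247026272454853959358449322051407021439346865850405803556522455879544096765942871330732390405378221735841166495810113814319555670452927850040867008268086623848117973502302001034948857340108552328185540172208687133717972352617770576366745802370977334730265645502761625999884428014463234416739482695990343552829571096394975387123182310185930291797357421811720037262196440375044065048522605715620289366170289171350792384420849457704031032209224549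794852454695698666713342544357673036935001630657396112966891818595366011944705447061482707011862484960359392251756723931341057431681450781694734066236277022846549382895808335104409811962694892470746471803604498394498567305575252236572530045666932332742559235780769274024042323591956079926848046872772875043645715703405532242745933040477521211332213811636617195210364927255406240351094700200893263846945435254517687362029527407628993623088151795866335657230559723256554632953725458346977246332391997770837556968293643639745957251424398693342336967459115193020342119776574448792227198663060405060782047171784595722024172557774963130535646198347436984935078306618058258239447260421883038070898551542310166085494248436326917786011060990909257966745951102322463422358638160974440480806738327612978868308542106910077170741139258030535301507507797784110701970300171143712889152909260881920)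

noncomputable def rc37 : Nat := (nat_lit 2325294449468493541523385830462939582133398798658760309919302853959502359551109031885006968612233475849206401496784567204091160120477666623948713067251986377226080533578732964305516488759736537287653620489232943897011869274154033457826327565107325792740338423432131235071245963966136569044650984810460808287738379723234707375622472854237672734171889934339031736114634650770308955549523115239564666736002630784208138298230483631816236850420247615697358670466657379958515707380663998511764315690182580700538382906274958080310960269854059653146453612063973768536254324720049259002057412734011500272744411782672928973189427737419957359809747198134214446394871336884306319990821483546541895576962442482291017232764912013905015539755376759747532544086320466368641357411564633684186985421633335618066485015803339025664699547102653404968851858304006902565310196454637701626342457679242040199090516605320519116700401417116362539451612086285997628364265819680000976882325054098484546825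83570518779071656790973433636537540358603697669832371350716399954495692485499611064355726017253018729454043557950639830487936558757069999854911646785029094275091869930246167063387411972541008854947439816632386790411038552980104856739693489219663439302758693655662373335022339190339389081939862041188641550725786161200056548256474750889135313512504503971414621141354784422986623523479725756259372776617549116239370827673900455475105465410242109315031844860904231079802928636393552537217470316168314763177657032392840372647416637508978169182520920327694635966244740187720138479259400537178476959443219052889453369253829297620538365350291127397885810241368184975079327900150334234628351285016631654010993543593545606108918812985924636710277036588153032796830756494589479380198332916793556434355913288521758934789452596112746445071654138615633782244464688426335428041176142590159214507234119707634064362382515815199622573203235381088554500823044039944146196586223783631542261372771232070633459295638360561940019128771841108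15659295828604806401020820837183644983082787408370545780629550670463062196842105717597209242830654329780025339482537151749585013320974433325990780072004467411312975427345611821951396654182667946384460934517936910583172684613717713052127068480779007370601909465595347988809282662988469417000714841090787210735530882673149696403458403290044494029965399048934410422437242876299988006902019142255423866140407970223078581041761180508528501619134477085407193958168578885006135296668854058103255269639234004830115782626171635248480213841194477126956377253933535259591594022249894207143948074285107453787146257363296132269642122121763376535110081516396125581906016225581070581590435364244243887121468572220002641746425730555039768767037230110418709397374451193899767826317544557277155026277459599911825888381939807176113304227267540972337371653255913075884845457310366255003183161641836494628175058157418945373386611809307882410943909264912037298840897756406714439358348839292832345333804767764582020634370085742383152184354356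61145069174757857886801583816143069401123602847461494483692187807578876757963130478863850071853261395567132611413574158189928810216952683246289040595554027631526749561734847330017400929237833827640008713043865398413083920547105261207562826690802181464234153986977877355454021988106349261997838359986859145275983867957551539787975795340491521776202231760142328685168045249094023869162708349239104766445743278222878794966828609456808420051840984537229047131856493154783886918987289882527618254432938343979238519193255470471340459058934475711633914822972898468336916132361223945263980218783699755700626732081311766042040482732867025188350241770154604796570940666159034503043650442797590818986233486700771258729264105743175674605955161570488268697719968088726258265549340978413109037833610519584577566333884515829899835884194932976445260966794750632690142179238413036052891792154999939763957070711872836699371981702070566929466801715288798837398431379607166327339996091366208904933057566913749037780305067796500707364247301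78437606767219099738767170085369285565658435747222662366562915692289049763362419265075345181110740065014169141819900603627535337308718093556453889465860740465448406064258472094620686440347428800792194619798902521393383722008638497044190087224104132906106612118627584792159343247942319723288619694633800937192750685227110958295839033094558237596274235314596647818793526863313608359598448305834625320998382673270931995364226643952295332919172024022932165414638826761544917306951205688154279315140618732893937783410802175630168730447038168826410166749473436698293385410791489474457222835230435385263102978531917224427005356479072026057069373422067684176000916226488633327024557088492727144873196062470581621621089714061058500424793348991505025997717924379512311146244180871822990156686869221835072794458887713843333400407293570707077790667468773889240583975793969238928249859830047075589095630573056345077325316820333850456414796441856305599443400538545145875817981963682653857995300367204523305189429462215972081469785229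79828986565571051285619711414464542324758968315516533041681630004720333403877222778260342659968288844426259301170908533470507434112083319905542611785827931893605220841786637952333202699137201903298196658337710340972412275507882224194804046557663632226333010024254590574804213583691994726379741279666173462702962425665067297221941033821569625262060882334159650733649865565736654906757469977965950826862433762744336767448773923530155412812281287850304046878656874430557221449000554376739883415540427691664117955000100815814232458334124511706163837472028750848373133740967100152002003103760839712228489076076050532970482782067175768657250960906952451234982261880297362086242337357863040554387528338180470389051879880978922967386976058436636731190148587031425375199896127172722765312610355219697465407869797594926324365524400144310310143692408018730493227437012618963229681736078661703150113172326438315517748887313306943976872667541650716633802164725944489037715649173401829878551348311799860327540940235582700155772360514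81211831577239043768050365124123689953317725175511280126073342158016616790093665479967326701627984984642311024049927709923353169701524998328115255561701681994370411719883529965347815933415390020059405210582776881143792393858100803036883680141267122742283451137528300954241369525541493669239827462244642013943239497715674352408828112677871350935202106749386312364291219936200603451900128380040542339652238060072168411215174037885702529712721962141488785913515387816435332506504880725429051917842583904629777967235604150389853940398081631862208738338298313245908917106786086744221073469449047120584110164585008254706886136380393497770047161859767383863724320435273552981902683906619933639115797443005318967927660933539712756495106069205970093148871059247371643317560361091880757032674154048485765714125391553491249689461159263394766775405869272781587429260998215377122868583711126082458094652362979040705114810273202912792122688542204289327208685700323805153796355876498943636685445944090993371033633945513441005178093036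64945285814942429271726650897948339527319885963849548759007607812829585830394528321417854507042308572607085522908249328611700802558524091650927803480097043382547055354028520516783135849961575818631129021031703268583285572793511378298402725589650630138922419186626682948133450721649677146796444728902729609160856947935109340427132621552690470694079202391335674869907500164503640522030865189859895315116010899953100539137719234646195996559435475675578315276298188694166996141641418285117762977299550352691151102377741846745276909937687336573020169365252157247035333834162822354704304603214614827904018805709497509624102789666149116348948598388998392025960452809175343401806431237500548777538381989003504634704762181277469893575969834516002567677257067088747538815744809994485673313201306025699587926573545903608764023094477504188096737993190372534880764975986476564447094827510824418148348366831158077940215720244246259779835146806575252832289644191708898013526186976703958810021547135358498881911530855075679616346087790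00809949396837398913301375829806161510881176032061550984792545748010789383312309551432799145348306861477541114339649941122748166722258655926848751224351934162633184453940516286609028280732523985071790090569798869886622256669810389592654589542725178090767150837284390823758407319671802424882775702179672684375882529293532039628856679095203412788772560678065379087220223426796039934598777674408080292752146084576797630107467648956991271107236500744546479518410078398230620125691694024892274458948051900558737354374445326009771356813182158284083654046558771770026430442124481108517365920990423838016323138912857270222310671241343137984624111123135195944501862945693707540896057952012050429722409564823785808276202299965677147130374303166798940216011179021365219177797153433862955010874603736640595268031177885102130223040801343535865462076406088055463657897609608208697455081365809464101315844109489858906198807391751904921556558980346339391087102711253651784343201186286547240202977743684016870815852060120665062795551948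82679907851964315413914953879827578754354805596446684129293426226699806630357191687665067398886346469357303867760999973991593013909950841634427774268278539416512036893316577655157372201819332065661671691704164088611026156201868270266503088816632409285872515766660667238422530090069732475892741886356788452924515824588890045401569247054273788077873012533613284292700968983173543307042475982430062413710730788270883195062896739020284812327399877917766289747065443885066096136871117438240835677993431645764754843192014801055451063233146916851788331086365948627939720353663293202503520024323536395164099124504695701118421047218961857784752862458660193390152220488931782434835245965255587692061712044499276766602184002417118864295688838599821481599006168504468396012133680227654419475267650609461138962018339713081161225472877758957122589973881324610954599602174427231709625223539818536857053682163720689686862291154970070031550632614462821763091735838695564188600669930510730705103373906652765830145962652542595512953670226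87012162525099197899628704711694499291412437277756430965612688741253279297752299229360479391865856249322871473798614844148708732632684145956912098378873810653332508214236140416102060742357542057934547540235763800959770724198739092674028201213595704730037159023011191976457531241682687875785152646063231357394868654481669170749395619489190391090752987051331066201200949861790644339092738664332229801495569917305305644788996024274737718999837054352717925890579896694036229304306094132276159122884235755252924881624752847565505636385569244946825243089551169204197226671930087424392045326345262681266969996930034678617707630251682000811118599477653373968903377038822181701452236321813086577792285177087576372952111264847590817774786476133619076880967552925439376329480454760377830005424328932178629858655467367633590217892820691439565495470952316671215994292099753332905006634424139941825800455618429854134619041905714060012399032628760471624133670871834844131794251924617200827303166300486227198850605543941767705537613776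82797966131044148924317000759928957904457612423444827081568391050660298079590220011366200643179967295972900290417424986715571883869767583640014195034194129269643696289721014776849137878286521522156688562277301098124743777585125235055599074498600439681452743496562519696408598877257003245081476236327920066189600758378517359021787750660620272034939907023893372593815115790963323681435753622872553318876573806618236064403886671811722981666389604708998282517082288533057559328894444420167476915214021155252004303446102631417002296967294633707406165104025568848788765596374630098196506604248460335191115507061638479146417026487259667917454754224774945459085394814089701798980281645886375283734336464562567606409688924845011148027841301942350880388970447010222878556566111819824763248208009304159304394416782898274362275950600631628555048066921367204120426741558335022284506005793585932448586181498655242647066264960374416632541403506731486521397947314117822825526290063552504579179464701049535846970218424316117400173355990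41123820992103075634364822890052959060938941677839533810835467059357446484362771626634103012364788234407695690481458088014986901464436646663460430744756951143278360737624892848456199277089843485642208856572215738394120859768421276002282452105131801537818208709357630611341092907840534580027013686518402284363947159754135641171222432103714342475949009605369846293070632962725774147220976511289066686195612097119992434083526608796606117605969172827131314691382100986637469167246998266936205160247867517730742602563268171280954385239571851719195316249519156721709166370987433839480529421652076881404585503734861384899966666121885263618932268176744445670099658744580622860600194052581227151328245163736093628648499575578843622867352328418012290233540290927406371956905819687042721567970709442420954708191848603814521396016056459776800074843957197082724818450831465902859270011323367986375588129929830028167456577905312362136373280843581901476850264822753450673621859236080033382699196726296553405628110846174995825736031332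38106018303743789623917762791962292171491567450138242196480682189055111260080486118655262566062018477035432449310479112821939585865868794341829491829008922730719503866537721968772439925428966856812323418313773124577082574422214900743208923277798613984585327235796780101463832449485720175582123576710694344896639796785137482106700319329702433875524678910631328680122598170139264307614238119762474246646344874990588447339907429367489460330134454715155302632372694216976280608474716802961267150817655775254820508068630776707623830355338236368340961496471833350329405639385830040962108843079106750238920252397634636314827626004023140527428426825420480014769030316004654239272693469319511980245707054258224496554984420184181560586827706653488495853729620329552094760817796197434854631082842508071322665314192929631157242889286645519379873170324877822878263886355711288035104262552872977334063781961306126255343335130391478756550547167592455117029582837969361582718755527389823311800285783945749932450177861149550354019661172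39180067642324598662156445538184926012681398845063106995617902772667913666867561891343937836294159029974256925599039337177445848155340955718330717165897434918319488594570280266531018034296711551291430803187370730567843762137642813303116184225778456702237226471121578582172154253629826306178581020768337309054951458297740230799815563505299074436637511132915733503138381968632593367051818346535723270179246219782673344632683824321401373698445673907346856562273119183659074360766078135192468516763054133354011462268351494328130271147821674036628066757614482478466999827380500177688975243147790378430989863705665706333123228633785081888507500771419170349397770148821986767360618628652805007418785619995525081091114363300928633552392748641304224211481669747174936323457369861034365660315727838186147618666668421620273035610842547245786653914015709167781576376847836223561978896413014268932076453877673804402706044119906784862677638083014169010037003422736325531366469861202004891134736300456926939513432217082289850050509882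55235465446839754521501080525624121567765785994864075769492766364603592722941878428371913702004589880098445370625099471416418122599414782306471962679128326178254636947481570144465566118293331398786228813014651461418837616491883965818579785074442189608267270651674395705016593867064069508778611409398499353229030013669697009918107086074859611172531546113895101514028225476860899549825610553632078160064918783602910566209843903985480666603923295482932922817040018068719022833385161928317454946812063420019284087111111201826765729407036091119250689966096521069597035371417111713380093026746612577396666676672526761463669340534824468305638490302270011385517511081377425847305791613791139973309314754646425308810521218577111263413159156064990818432523149805738631051130146144620916129405150539013526351413588930075719081872496464204083544252265670083187738106945014598407151351042921269553881466528974172631953070177252308293547708816578320806846727775461392124492327341818274216312283931018788812941347026628214912121932289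09731156293603765637254438265274495573397935997186531579128065741514300423178765779416527789822638817708631929890943859859016134298274879504896346532882197224339513722474502054301574902203449842134419600633053211336148550706211223063303087194203933063172111315816744626003155344927815251920586021205369824858210384118383113062257357124417776227733145519550082127717662889022752479158860867093679783345020665276476605097303154912725437315520152955269618835975622691678892865299997259174304069528667678905883740158119321432564391894739570381132659402695617566909969577974848239599602262623755415690349078452799127777328694412971688013593186494682349597853991075555349167516235175717823305090060207030497634110383465000883045460660675228910333814653856316810589417471174115990580668032507596513211984992479517694632530312498809348706284833832181130640129083549930159020148898828840747861979977597567892414752516891765218324474546234629011905647676423200801437708623739427240224880276252694263726561372226523566749928978407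867455891946563857696871912392177896848281360906981139164467364158463906091484652838400924522994311088939018068195799901752823193347067131958910961229612865994750888093923165755622496937496911703144613534977640041355503734566985428334987363868205146109760904821396370435481224409121321493876204923786559752798315785828569511041708444245117390063605492945690573725013595714478715231993014385995171946508716051390556551515499895238050890458586688549566683284139086217568381113106218132242377690733848966326235531185009875775118005084761980397112512933241111194207980085655584837828265710727160450595477811276289291405417722456721130745904700109260859858484583415180196342394882901138000382943431998290000282813696448386817535945147615382907493948323886744835047818705254046380221253196031830947381007349288728022476476691775192650498102260955449294999444132407560704284059641187401728)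

noncomputable def rc38 : Nat := (nat_lit 2328455622723874929387672128155946521636820869620235225236438191307889425047360156843307706493588123147524303908970355479550209065255824041425497910138403771442563348104510517592449506218499996064931688808324302227537680613540465670430629214433210867484385576188176307972187726629564636715710607075911805843857678518019510049554340507238170040302396253645051666670581043194355980673895933721460812043205474498383815175427256045794819539742792800123022925712672444312846187664197091699608427537675901895435559037859004817977405960279628963065199350586377862235323394388895763841694391036159101876120054295382882122003592498443584895206901411970709848869271216799592128143978854603275113949616173665615739280489117134601225021726521166131944836486634447229095421745777849254910556654467757845741707610029327523972934483853755427392022905657876253962225396347632232756367803265801111681080320243050255680047164929827301420582054408056808154385626567134505476524181861429703213854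08378706272904963687606234642270343252998456748550629465930262036272782051062268755630747819340485560750182759574496285770309152832113779862093431493706219893449638321689548991036048847099662897947344745523481788510749603282454886331823032259075294349979730941379071289260867529399909641079116397183830558688982473440362705064929424373654519854904522031292200859628580252002834201442003562985798856762368437944997666584326703905191015128420759214997178371486705150213073782687394376387017497527725815201384209231973605659699058681664323456922309083730312692179493389532936455095081183494638559823590726224424715926959698189774589107460099078076701786525133643881709633303524636752783584349067459857308903076072960701626572332983934860978705721178101702749652796446462351887283559970667253570917866158671950684970136395490370486109319816364150816623944824236467273505780362831902717576242180750078433983619156159638440150621415283204019287065105991317677474983692343736782854027016451082694949406847747912865237803273145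90776081774889907915493741308961189529153105337218541934310556334447749495500503555999656703163377214330986513764159469880337904676736346054692208478877332672247949720308700695704638913472924928998404155017264003167230241426015799828056819624315008622743195245972056125783332970161399305053455894849051297432975664098668389721007547505632356825814049990524753187103018977768820838349350892515167982883815925968226312555947037394506552642070072566376932155037562981053549527065900222838069546124261801985896610869038317960214742130167715211453292429411450096439022996999191298256879926620833444841834852578119139407312628029405102512380600010582366256168249896553976513896682211689135293085453924681430149737748304383646611458513255251575917921160305697448386398636837510373381012108706476956935199883575709124535261880845207575365129963926104621270844913929658941724162927631977946869802439167083007242330176683148167698421053978447520914441196724142477337422498071492600044198796457272965826406398855089967885634108876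64124148463809845702029655064171446712076758631686280268977493319675907072577203796809693161883033011645331119512822039961820245493180046659265252209314075841909599709658946965486827936347834396086561134428808347475990568955600412856654657538730453902812100087109310393958394469343302593164863744371134885557665589352910019000592651843248303743011441718564192744410440704086048768632447110298302249115943182373271495246408291387398483945103073117076300780190968765917666494587962971756092552261685183636175580674890859625907118378642153688430223307864948545228030280117366086715475821411519866425120459402908678139892222805512835002688938383610232618884217381836311743069915720820221281866108516441286121033319808037901532793929712992666223759914352192200238337051270333510996463979362887527337517592831549004629161810912360878444567837867403123980121058774035186903046978413512379013851946235133473556333501961698586982223137665251839316894160722023849742516502935510385264148205114758108008607400143375021643776653308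50495488424235811544626889615994981527691956910154051340754401937533172161245974494624461261824883975147917311468519184683973582884844607987446311152366836310666351833782249575504950854524464245779023969214549950310369182647556364453708526413568660266229675482836879090814903027929127515723222436284668840939851626986896669148159149841422592320986672547855790136257699653468167362000894103551033863990012011058780439641261024204431403207343041579583246950120451174833794764763720325641334988851057222589172162931661006973353887746178561988967988405865335659092761964995808656934843901671033645514490267929444825820696718217507484852379795554554317616276492332713523192177447003504279408518331661244636975433217376612057394139315131894744517622691937748832263711484936952447508301748885202213600704792728924093410941119716192781613995326080032537194164658176152010289311901841257584791019177941528482815669836282986174993709546842438569986046708693982816595434602107965334514575213027502871132189082368485083774324735946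07568788419162111674797155714883335128010598676762122204044740610599299935391530008382515454148107073271040511919262832785522899176025629008971939619378760568041168196342293911367252900081400765164881782123073351650598007251496576968275890839402772118206084681451331150336500285375593991745892372430248300304088826967931784428305425251105264990863278387199542376208047388440270749485467069087661471263827413004889954139862240179858869706418198221291040399716104149616243846985119325026559316521615359682616605958761260989155455318500108376198167733162614429972010609842333484221366797629510075901346347583770683911486608341693542808230617035014572694342614714666568644634048881404733506180383934257032560601861726638373994924027199646219320306540563009409191129789175033856203258755875422743024547266859780384683639866323952831341371292746028112369137822895299880187716793255280006458532391276262389523214226383671731433284032348935075993685740688770431128464233570791231582397910168059963257043558513079821187391489901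25619104226336184104362664977972741194740048416282060648287487507451265117539542007063614985102377164703338242188443805095091188364797527834473337672224744464204569182530524331419358627937995759716804033764943303577685549344634250564804446185378995846211825721609218365499075627944777595048584269511692393315030481135663465895239500575378745382660254755142744404111658521634124238187229656253338610361964999476806829226450689343487970050846635632186548384782357608801203360848062068445957500875584156304224341711949568442350380074065116180054147161805194757157203108535585984108405520057713308883673146965863918453832190296523691037316134592035706249745417505229766107157024524711725579964308839417798600171890337380944857469688134347333367869956293028765826335676005776901358527047249797363106548872175518850361788894916773277865960932335392167616319495610617814419016944377262607467700344099669634375530925654730931556948691087407772550778083551979963504597577208044302709991480346973522535007374150047191696402974842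45854122283515086359150145094392629513824678787465414642679826355581250719750854425742288293384222182021639006929355199585840014762645812999777985597268849105445265567618944301582053951190881389489461848637851021620758365753992791190106496256830119379551496418079036005865716367621064615061021708414410516462926109752906226647217835281222721074927039006616692989311054135445592321107703762188685208648997758182719942450577271279217881769383564489441965268234744771024624491478389624614532174853312475237898351824184638806298279133489134045182122975613101116561542520630714549418813856036527422836292109250645524132274681156945680270641610738621849425853552991310845917491374255380676288247526924543199495890564317125447690324201679203252629116211130716131168080686876682750678898425990638287567225141241991480358571835816696355427097191011234176109039156004787185783082608329349792415500278819617374841148366960894847707730966056141569410762463030531697165538875535389613696064130260197439567203009999541875026580828505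83680060688043500809438655717746720024127797169545019978282661868007119497171847439498511542480464027384411170214373581615779267693863364830736891307546515767826609124122575215670570015794003171142020928485734595884648814237681822165144486845658099553190450956175228925478352982708752045569797446170368875686436708701731920340690599893426379036726038063297644749621950906418696703137436420103215956709844206689816197517773426833317699946506010136513588739725076188140500636385861822103026158475285683289292737950447696869207761465441615689224091935865690002535328797196848991877277016820101692825248506795423869127567932481774985991483934282806929752890837725153044886924254303888745530326073985369919059473475131231980622791641628341058372066324086373274440459824612932988372103125290349013956307346187380400684124618480835815889963389224997905502693874610717770211396061471801724044196781920876468987872368750295592812784055211102422067370653573215486356205215606371268862779516556745190878476285071719151618203547645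51539258654762476364723757503277075076917818290382942153730728364473933462181566638286472751674879604733309344058241342171116304849062113881971665483403261804379747003569059529489217479466692668170128562533480712666929571993870896308796908996390930574510956631706769132405815098670488472970412119768347098321905301229257440746330490908093799779025965401667834486803167205274530232608546659235246531422464895925711048236625696956881119841933810758478242075432511397744770408774460014311511735353780276174046716677137730734554076727206047622235127091130320093988074362891109254794187744961434550690859166996273702306501641766755557732502901019140795469349411149248893269503157146757128886715872275811733037095115278061078532363024200196766447081305774321665187019492294775389932178892391896410464504986039030200898000381962026344280141243612294087005123676198251479174829700837494490069912572545767057213452583599996510197976320123142784890818841187141968679327615871057996271348273216642841801110919604784846069126803265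04793666170391745931631048576337720482199094502918153308564512245528464336284532195007395527286242365046458346812076815532545671971068291755655210837242092203680553187545203485566740144756471315432020853763137102576593122447083315710826452103583449798055054149589425302947019252573313986760464895158733103869686049574613192939977768030803288873746721537320566855406916047882789044808486520866816645367977470732754701636992662945702436708709894184007835929827760893982847889028549364429593025775786149255933116046080637537098591196546293608892361511767202522164206068147496540629984868890879095276540021643266133768173248996665120347676381041203515494443924704602685880907268118772614097538856273280564367190457534445352797200534521890102629375970373735267819755262409598963027006153552675833353928221882048740498037867059018154000450856817863290185550783674742084578704480266512865218048837760060899477698986491472547394162076572858110582027332336545249330679652826050879768604827378416505814173544965712546383874646169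06021311910522821928554143849624225963050380719118998052086011108847263926230547569824178218031096016448158460053981789125734330531732738837145214341201610819934200184399035584604628369843303176561509928770952165980263315012252428561991476438392329457798227291631410533621759768568305828467656964712045864049127654936432497574424980265321751419659871310993537955419262007384657472787143549695743293649816299921780115239468349861855057129893608116144421691904270180458299637579569776034838493689186822103873401298465234392526594627271060203119481056976861407432992030742094338926913001629931442143102916379142693354270491244584440288429855794288243586451136858750666279675800266964493049909074195256261404672674724407636384366997202001684418912359006597536896521143141598962106535902408480729580747555389313833598365801135998499958323982719602552121872728657324200242509773464934832154827427906133260281622560377789972810200581938124275735992911863181677051660035011712885764452998272589029423625834017574893727782102480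42189103142556951656826998817929942706684767754361780557180891940484427556155358499964287565564666128404406456592943678164099375134329938619958023171152791271682706193012151478267038648823566963259365450808840891226703720018106833533004347976736225166750460417735659126263414747054415747182168814157396556531447116964436682668751185659263476977806628873388295887718403202274957370926340250920680506343814112996519309369202318753806391653986428176580179911403695903110582899411510814806730017637716156625796969573295758292627763002443416461902548835260717907926081642464133414532359854117191318190295738523375549063552171504688205381962861421308057435461163735097874845640225891403865557658247025848189372027886992000560796809887721157322633783790627056430932872768365444784404386019310570765822104542612617061091593593069789740079054245352159917700156847659094405994097578068005759031979767199069595474952895053168388080157745521863378467248152124972151996137724234494808022762842549864006232312901870422129003803162267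48430348445871699116634706204983137916782796151882404188079384040438014504292916443516838147427626161626745707559038916474286771219472974294130756973912172342128104980855026650459880082211185055485855573074177295801457677266953020253528151678762699211614896349925003715188134889392067114090707073827946713126976534864525378867988229367666428758123959658937247020602384497760493012999213934934868185524402498811010296091697961842954717671273986447267145615191753019969722997334557428265631310413542409972726258708923349851674716342649735517694533963231781722963499703165316150468252285877735129277538320344057288931076269598164386311799725114269805709179242609800769872223682262355557559684131319623624399776136917360040316826109115991477464790527998208874209555869618225234551323397107030727011952292037677506040208338387436869522846190183195533947361405473613799625495397646748497369989946644739280706429012146482483445050329401729574760553778309265066193821189220150347718426599174803586338519527603639494776624777232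36743423726351914228490010789270378471507891242950738538920503378544109445193100140047165627594204570240962171176548952343313135498302473081337476609394563003606149395665491784306581934788328661130534628510078213564206499646859114702742964211528015433345872815534302872892727578523901498431722095025144543594932204329352584397501556564179934321353498888273383282275190449222668035684153626401741345760494036906041523398421600741881482809688740351878480153473209885404917715777031820378667476712424783064033325931347930557147637649707856325729037294933306230027778734790683565607089034934730517890356357030934393704633416631207508601113375280961221826695707529694821690690103469671376034871700926786663469447644608390427735920502875421144460902358924017856434949933392526210176961697342995352368780222004828364873262963026944946785308956055888906774064363999230306004261458988612189609603039183063355525035921485776328737440766972170417816143763225403607089104677664145841615768978757711504390423425611149905479449081396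20093960833841580886002987279953435149957871343468039882807581328545149154179059536055296572271799962714444646689558425740839161959541472561953795563413294594978740657662217103876466387967212787163828409935548221359110126101923271605576447487668293509504220784523332889132421986824301110393769077495086965900886641218566751087881521173153548176333389478389876770087841538462815861106580678430640290978742658384957626513497925804662870032135972777931349286116200570361474138998281633845207953346257718601090604512089108990515416180611619807151414851788521069555680831318742406065763516714329417646438469945947160405843902661845056980196146114681070084846438737292681149960458827557286791373508477808482276705096431095530773695082149737551800991188335297287898266647759141866975085830117551542066592811614196966913918857011546333484365130229632148827006021935559539091928886805582696281261336650478115626670022003717257736512197465547917439920421450293009023124343603035172785997493640338712979996026150923080897438948632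90285375414844459056084712514420751943189487410804138542372600884968781534985464243797968674725987140083975107592788740309399389457821237379821359108299528100527160658968388537283649057877868646544168713802235514463736928468595024677855215061595139601082867655164136319353096608843429771082856667229242242447712374460282876814704799791344131646272636508246553883977372680809874630169162974603922367965663685469476504549941619383589085636459626827970451595848921732407350346341232793097498568175055297051966494378517444368428124505595678898305968198265939142722350122046838469495447328223652585341033701761386584375029560467658094281469440303252133794766895001469868473787104153746479881833024222349539341149070556310764734551039272570573314426912292409860418387548982113751227999495858453198772356122360403521182429270982447684847842875993890727404319530823855152647229905596642546880023225547367635593994318257409602576402558949931605286613903857632821293877952213589854146060691671476759276283604854071337654991436213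565666326689518755374946503825877077403344414783185836244558321608137582225377142628777474632706386588591386259237263827222430537538084187617594104063085453394551189756922121747394408587408335616667940239794982684089520869760534519701167121101851872749682538130882779701861936394046624088002663313919364535975964862835792575580566908380937891440033816642968001228071899705709861600120905376486002426668778673210865993226021609410081160729016182206463741857364092059383658655327035649919707464363571896370121850335461834533328884299353611116298966852397599399756060492426915141941638459849822453429953477116939503813878316152151958935353586164508112936479409100612425758916914983907068294804457021577291771370242438626574358956279914739558708870421363068901325510423874666075209068545543729039907615572643776416259966709748616552772034957973759289107268507249641941291375482820886528)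

noncomputable def rc39 : Nat := (nat_lit 2331582020258413663435218193899881351318614609914189483589505040762936065200857429155861974589768183859472059342661160761875547388154764082900673166460079454830966213665323598580499268675586175023928065154321647705101355745213756158308516087187766578976889074036990724453618474755701544745740329676512028567237575015554636328328715380287412700013002981343625364329540370456061771930353483524860937174717206660713443860797345076999441744837979104861738105763080374814640023093981382792383970076440624379416666160849469638919902371801643837032490388849791382755496777774234130237232164260527654366457997226813846114545970472504075918030024029677908546887601629286942089878109328640171789993436060294886366877725501769202776877478312763028501281741082904332624588169784481889789378925382804123575380913737864820275066702737425877684575831076836450946631200386762224431274262260021571361845532250930021474557693383013729293365320506619276279267434604408144741650282155523337065928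71494129067918137169886616835182657084381297433661452383023452538392008448469694516775857908615529082752793025547014834880911027502038950869185489901108188031844028258344379529378356059433084204842399411575928888147697095931427252249676092212633949039425052127126445256974917070566403955422203433871133339881242979385760513798594664366573492536330421871464061931482418807757943297900274859334948379614945815285765012850788559033645485857912084880680314762880021332137346854051093421038469468192248101967232097479025389266553307484614499058286711820829295595103980753597403620943037029151332650179823097446226133124080026428808242437295001874222323875848376349849629584675776909554336483357718261558978373366799352120671227457257530529891696472241176928154574773249013152397208839418514110316826305436683776173914639631779090087229480298823462866460824446150431945973975632062909958223839300288640480913678861410427380123590876459158120258935093963465380583483441009978514910754310081260450131395458268298633255578775085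38179033480919763528790274823444092608022283320704692577799560835143182255585298882770656356805407703329442582948892427614076367255161864528863070955533527156176971861758202630270215057476360942771611467384041370693689685967003299492579666964283933088466714699410750988642156026347061059030347407534450917903917629785982081574527619015763487354167566280606984634813127323487070037691951723974507710143735272225350145358159682614882806514493620448309728007378548080121861702219192631713545138869683705297344236490703936276397809767358612668045260828416469258662662370684258526384378212421943157951939258365493957418924637821681895478722115654112686465128505709852644894117208280802162130020424928480001031628943795363295490427405449165673048529407338382881387930533231540067637596192411472049584449710526263482073428478219804617717285304960711189600869560921242201804994040900848700285192861308758700648699531952586359716783193384027731172345405687600271958332721841038405106165725968489174314554901702478389776773972617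01749506621152090382638649072232942751577938179206028518412484536302226489032054558458793097807268294677423108777299074028463061202890149617624279246339703870271462935507912624115493424380975395590099496005044389474255523852718710593563907990379692902959540257184543191127769656272547282068195639555952578526849850776587971426564814090390991833384958470030505173355412962547675206582815806507436198940636547134680247338875698073535358192964686918812373134328864638115794645081397121576010588397554210988445530237723490347318136727295562013493068919393325635805571405648308266915232479870572193427990126218749994494941442499361311354731750723873432330731496105912650733522310515984227898386976655438710907219282953328280275163043548488758264292037354715791614700847251803682813232071639786416387819109814684021740191487473518161874297406155069165202221321980394648512189613016589335819981675141130302478390416304502190594205157173470257185052135198452672761344271420374585486895047233392369897462210868272889153536787621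57086234092338887046766783073765478552650292227239342174484178525920934820414450046522517246077037775728914385328064815853817373294796846930640473618003431877485026791543846762130665016006229824569042433020802329879328705465789563529660868421699086477347644912701412635476778201044927445857212049028008360186547565103856257222414961388289149337137849436091913409081089700819669321610934304696291693958121517708048920259574216802356856964194534303975310104831735010564176588949557125416487318610072734416176377271569908036878714558101504621033200319046223275234212714939098798170941920141561992636339424439601208932592970527798529866878978535445782096510401549595519528499221970853126968122366950300533310353057634103016862270610813357266120773442725312022483525229167032653218352529589378238025845689256987035797070555737207724266830195805326067336248802414630760863245564909588093959442784973664360764384114867716716953583005064117644944819895821076337212495282113995960021194857898914780609558149021940872702553353230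46220913168474364032095871653859302390783174659499076481968918398543073214604447319461184805131796944872025848465341756326376918186654332269161011673646117896263091889213739868759003125267151586278447085072232988373721468322147334545634478645375929410405104401624090733995391942397705224709387501776260832046269890249046075785536239435967514554955622261452443533897231882437944525605231953007507480067409047127190089892389982250471256829998509594476889621564598919026085597202525055664084940464143147904881067203298835918137143783617370001300562915033924174444332961917009873931917102872929921852136381748258698932940845063702168401841198840543610489051063531469831598310267948939992382682656096177368158232828978208156315299004338800123264537587235736223484037618494235319080995987329844693310222880626253518508189240812020635552750281570441467498940378179330167359641904169553621670230731248935605425187845605124517336928834500151923402473998676248334329054081619186419278611342172421942665330012955569574651626166864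44206727361474515856403495444515976582502525399213197335820774520537342121389273998906669220386887167462239005065701451479481099724130623222849740656264687301513025217328295353318773911861287759734759142888008352090995013696067735400224944936594060012755107700527284288895273649947003013964367545000384905477931543480832918786696288606933466256120908640380191190483843179688960202751815048235072286950755208124314356227950157703591012662961375799745849174148665970159075713027316463783401971334494149307753616513110204993208491861461035116255585488851156259360572529950310721029803325654443063367230247028515939029665819686800889994649105583788535566191544346036966725905363220355199643403897229170538136028504768164751302808076637299707487819700469609352831950563388224687184245618373568683419283950798049186313196642038688124646173756458411693884344875338605013528998169057408145244296774438749279455657534491680792858383994543538674085575691687393432223310848370896327473913146856403965690740394128987470739659905499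17020051964927874615965460777617524497946500159477969698547259261236637670717358327332716856127277617520565496739017158600625561071659991374783862771542994919623673488140567464426741464521178539399590913000546828138941899761040799455802597750436440624567330777107131746868062423953759602147339592179035034477567061231737805384747257476318435614226700231707134382613293618932730179581432097331523225641699770007472862332806803313905969757498067048978001582980475122623052046499540044255745844414076589882256890795057913036542183335991350267148853188142037680757445295493810017445322174486551743854502182435445371546411150732025369135914041157221112319450417413965074837497271918579103799503245876013576141729152590612732740576381775689693705891301117420981749200468575219554761082846170244786679253639670116270581840096166106616565985629566766211994102565272382961965322227793794605897519276240377696084707998450111858150097501880805587836991059416016162433150482589904275463843977430811728473014839433052447746539405979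58786585864648332003007379801352972961268443356315186569680299644357776771184676684944043587195562636725231072142092196799918085328756054369215209685492776163095729701716933052215320729630259108700066612334076400252648069344954823125159609016374802553727583295453332963046023849045068432431381003040868761859931399257839859735723573856352697646973830062763126633562175017108705074836517756491016539272438481865268686155471275478962268423969640032145748562516110821538910618753474418860532402266943810710916691192404908317489319534355356610167628874281299493516696318652581201320660142413540994969311931676333879052239513389150652367044558872415561216842444340670088368804040300379949620039666264635887789992001440244014070386079353611833555433615508470028252072742456061571054620532674672534523990906398094494822709998132574845509743062669719495632554483673484056203288912176262408409368105086438553984522553349292506952644694300957391155470538888341305999478080396403145837805939722012234995906948807138614329057486218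58688146616710891624349078586358196825631599011832089694427785120711748182460409458275152815156119171164433404636686845409773102276036118122557555539227058534216737804212820043898099133405894757936618635697805570557841399357709910368278957113003168769563388247639925972107320940071059541420382561211159706938664204214121260839294450062649519271396986686915344071447599486994545336683325880958267050484230446298895961852601090147267493517135313923775824899854559655010523080693331346123449795235816388104902974154891915717626623073414683715354103267903242438920548129036120649574457996680010662714392595598594393301332006674751390180253158821642891073445014961761985364384653287710215362197719257211075466121458101470210834178493267548234203506536584684391014674237172510175451531960318386017598221857639856433814588407590437232105373556275341593466803099307041987332104589079807273243455419812023070336549161900101970805241409822400842954570270863565617540960313195954867751917061312529934149542351588024369692290694774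94220610559018873734727719442291293748514850394996681365818427318186285449106960796712443228185714876795779494651350260886864759212613933687341944974759914862003749034349708928955488500122770061963319506127104814409838626372452587508098388763215231405294551074021402520674292484312270462783454576963266322776575827706901713151125751545449671549086804288758384223055285925147468035262752508098061495560207202894299323342306450460996031554270193198892027935584443701824978046395709353066455620712757217915129415415456909415467317628183565291914095638324836949593835718844295777996028090299698661782738288268590168912586201420763121445741872659682034416815428095903746446937674676394115259468625844176026332775745117856316294988288698799615990389614862921564134580631093247768642897220449221130066063070188358531206534493006993515795118370273125703300979704412520215984857288786967525062878662347068675771766641720013388302359467557873576958843187622191889924085931943433405730496449893457805484554985302213686897356587615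48257087540075252438435929703897367852921700700542913921005816076411740972787844008853313644725748091642797814541296591713747499963548860271288970637831238309839329079076101040543110706751638155330233738380650055038419039009281267411743765209562334764154849583265095785543152389031959217691497414683356799971925752145829905240776360835582914150493708522942759637102538903243347272220491521700241447718743102634386361448231811402913921702902348810792197851572219775307321552642897177163007721194035258863932453344453325164422886661780222375077272922831010917616455247609384546186770283138908721616135676500761785692518501953432158240413199229492168773332076119462841132263023189247285155807630089071417387791576355400744087350594578225147260735809555595307564949559677624483667703149110743911767098809455574003016902272382836193467855494266050424914571354159628139094261821764483997456100389593153639124362037758019925021972414875909764815412176922347911104411083580848519755354700373325756726516161309227617490373996351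21059047791652917550865132542385219850643104774285375295926028958825762613884049823316558886473803087699068105355071141056742821870728977128116385300258383938328119783280349546210049410917958576580638731937448361680678427090796702187791603633629695659934142067482580806123423102943178939848761200157453086452720218816728509600938329742788211499484122027982417404526542732604917553575713217300806237226110250351374801389500049954523770413496083761924329386829912354944408573931981690709071268936338189896952559480828889019155680429762137638240925220900397387819854111857604082769872495979942519376253525700078213925435334378746550465273247074105809958609413392903991636204119293064994670104391751550558782349486383199155750339320246106587479598215946363112219382594473729356543214647051282900795655496219067604910000991993342656738440299058859718602466660593771889297569484540720005523619830957042673586249896027615878498485035561906483266878612682289046702028607794718132939273964202439315083684253483952387900022323373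41575570709105465040004028763857189417561707666512925453005848754458413913717822283628066703073636368810292932149698613160202358900599978790782942850416528573911454700915570777317743878878314905831702933298929700123280682315647788491908028765405563674981174488757633994639001544647109875591602565496020911558810167151954140350110108636635745360723873963873579179774362005830988553843450426922367519529874614211812944939302639847500800722677374674620502647904604433540163769935954757162589847848853124224913774763227366848357152840905737436388034970450564931863368803437117394228390003283917288382874758508620349461022619693520315675431153655069423050999033243150594954488652754221371026321884493688682122011758317234666398875641407016325303593660682114476042670262147894986672477731332441701500739613894967704672582942250636304826823866865907724626120702387428316458100221411650628428507735363838106805392876075596450013772913033017572715239927017354369196754831877836035913479986706036991316917558743682643473638077136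43806933742786091276514964241726064992401830355007685813110093507849841338227736907280976066289690710406752696289195847089173416355457305060168777936255841481571058492004885656729724655092940588661779326716151341733480548151087536676925098880761590478878038115613824137010015445380214383071288832268674707208389309251421066607290534146637264052693599391598728635469954082248493401592857357444387715483581793123525998410896665580928400987157916943710907472744408922222943246945138187924169774849514719825059677514214776775030384919757333711205835615552129007369237299525873727218979262046913220790415277811867139061718516103533044605929129351136698954340291382614951407155071012179200076945463938862462036490050164472097897099315249646629529805393868978341530327789944216773670300606437544978596913177382075443612956960971017174576218574767499235173513580963809803585043168947506318727547913487244187144394128114730721144880892032917782823270146706656804222823599464128666380774673577944048346249942837471659830620835936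74397327208617393471527664912215709819328702797824314547646291082509408970408756715835273007688127049029279168111466134149086254257761863290798567172028189374098909737530764369378048505000933901131332655925617031885410923739952174529665192868108357445884077949982248791739822333136548408927387481482014203994714788020137664973361654743250032549843426256407742881070913576145587530386218963997296723312819380728731636213957432639180351612924812225025678819669736809627773655607799545333090404143203796723329288288695179684611522504374098940323038896214897550245308548977057285671619993586116968480441160799682977034189534586332773523862463824482346198825288849470498838083596200064446607797996849856486065827411450822953020396260375939321913490375367277678447907651709982353504094601909536985555736206805176032826484103983636201962257742733561102458721031720598627880031899620454304366899488985785701129202824292919768177190254983346731666386354176915045696651549882458280478396185178483842644377335081524064609638528463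10120018055702508739162824883943632682600246023948553902512775067500675325144328264875408144038399612660002588616445039001959340910455814854795664797472796311671157252426305124969335209432510949236206244126713065953878785637493946020515948602505037567268557191260440302131308559614811247491129330805527557213770307001678256837223135674168491168151376648887986841376829604477099428124313992265735023507500863663494696699565372181058161832581978241157096269432675523321776374198120557084421094293316003222230543106664680850274246984525478287146618447112921352002143135007000038697052457627824782911326468527630158519802103504490778355767499632098382654738433103299374866617606597616329957244920685621232000487354498377874000043560505602657068403029723600522360033947097791251578104805041534493501140927894068921561801416595761297659547972542587323661797169718334071746492528749029232377915236061930156103803656764856870385662634087609742178345945640147425669716827892640504296053687814304812414717794859750961751000181350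299719471076173990107189349466441366342059996346068097500902858200149002969941022081002538877429231143165511573401953020273136636641947863191138221988755397193950068179581667172282603181456557634097418899770533921273167543149636624112878377947916425989137739297301587497050741159215073319601656734335121531511326101529226503018915065537140164211722530924505162580128432974020879259478127407168831682188900537207269914429479704740367940259454739000052207546868131661750125449975042800200474355806591224977886588147287899855880363719722757529362880174899828967067533255024098817177272661635426903052588564423222306037856047661693227599150760109648513805991440010481347470133990147040465898803303959928112654931212819293243466373942085016760598186399219201014165111214331265587878784686666241401605529225005227055393890899141404938295018851238156313976664578349412566660134254279655424)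

noncomputable def rc40 : Nat := (nat_lit 2334674028365637152033371514908216332262524477145584587348584597995973111407429772279676143868162565145825684434393786479485087393609586849933355304610148615655583180968927688638910156741795445414773852282299374505490594866234777724139843727871555506981525540104652771912594701929353836073194517672747883052363054588492723774794285341710454035611617976549031109484949202966148180552372012139536406322629762223353686098473703986113260705137751453258198247704919864060196236668727267518167033513388973634134092046974870140568216611301211952276302183810437983216419334172011078896939473842253532918756533955962761345362032482749516506181137857301641847317268451086972547608602548688014615224054523634689236438346465062701051719484550794598025529904417433156138062590710553102431502637132270621299099725819888757860072738675009152463794340166098580577141654586741528955825970520174384839346828239291353334897803144473600699178659981906145041577291696525354735888210081968531641875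33145581282873643093199726732309973180388012083256800055060953139270797776498545633465898787050469428022948449475593178454824414870091018311648455381381575591086484682299591405571518210890778127868785904642889300372194672879872925593758385155806680339766730603095282584447035925582704749561162791329448894634692264686279113078369723676163426819358128238749084582651753223079788111853774388670985043326734345670769435604118619366264316805097425469852568294053197961351911395146140534333466811355601533701649765725102590170702853043735009008055147044173627268359264086490616440522911516279466218781374944239240413977963053428451067670371117574059423890898129962739603237839924510990698532504538587673109493373790102468244793310541421317601968670588006015302342823310373064113784852439040901642515203632266442125973651710598378246610232928224871262171314285747203647555863487176152134879972399810363804186141136638294429193178795379544615778789028843817802907675089962134310442556238380564635245498986898531214494139478432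83209078940884920022851406453205301540512209756881927241488450501569738236539414889042808146146349576594786449430591468884674420062039130936517041405277682071690462524746499137379875313120146337670400925012716380398015534907899567880565596060744157645369452760456335379245850962384161832147954232211014036347988994767162980671609789493545464950596879024301859798587225622842864399672340079800983737988341869160357547958065154741374240178014783201392146661322725268941589294945074293910524526798043469995911774015868590198734216026059643663555116970995216891847385299560703373370511939187798521823685903811173257001141572759111300091268763596601670591021627490696988758721591755006100373525240237470951276771651212097623575317651108898080124279742841491855373845957930163919196194684995776748052064876150583353868833585362812167271647883614159253740649962691242935282112580580085422370876148792203316626376487424430429789400412334077833373089646023993762175822275540081151365349366208009257937322260239521409852393643582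04763926140413711151135172472962880160372557575164658335451332386537872045112912009087242494882673812987900844472286326216636562071085279200216234532222644477929043511348683897908257585879069426377969565939363215005757406263502114279672628117431738375398251803758734065023745922002445188727505726676672136039617196732697471561639809396463366300785929406696999654066276103350911815387748128577488305447077353436490492496487495535290816285575062255083023832377544811639927843679227734381242771292000831855349510888166101031316801779976978761039918785952609287937997258169509939537420291934211255669611944586442785592483271500547870138236326680842183926797428634718080288180136378291658515742057657402452327704602092749865655370701064056152011609815682059985820958832686913412516442753633315088432726448166144994189042576526986529238658997864989914022087203676143788718803303262097018311966220067634918641249271072745649518916037795833830892744777240390254774489607842936048955713706713075952774685634774099023669129640294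12905542361186924105796739906187206327684718351497921604009743135057789212728831223889174666249841748352196278368754797444615914404371146840629246465685012396086399056292588322144886866396459957253764935774460030152845732870946417114393040862629298004248950948468072777867050637718458566426511151192793412257121379378096557114252123656600495701692196076799206129562388969616264604275269259366840263884850017051135486644248041608149704140434175160007306917862885461919188026007600923139327529250499157702384509395829715653452014798077077290238420263873428826115943110424826373398959755020464405408187872525407500880127550689930404521527622237770028739819582466978298757721467802080980194531729487768444613842280816497658301105851956903922090213291749271979398723967965873931664372071484052189690109987196469748247102895137630969549571130158089667855515273429520586535025764418215604136566429619932134207719151729477385916182729046557655283515189444217662380410608762598309883099024228317976404043042223314020798195315969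58343927035407111362369760879810775876746005886410867548040268937887948230360181606771918557895695031322893784543454893410409524454037944625700450016571781588875295053020989048286767645850028184856256806345754700871021937465915123262619991515939560816847412169386443003669903681392669403518001989980722197891402350671431517586441583735877621392617541221850155632936467240752405972746640186265073795958939148133513496318183843802905791026455840867026748375661319602602803218493626499552445446993573593292152574380535258886710042808545788730121070422847404546444859418630516894409332661172594946013255553008091222924414609313683729942957062967347388525876424738036244130969500016643227905419101482970465402955374368806560656139658925149286800395540224825355480780652237927731764756315215856266117455071656320264391325439857562451776892674206766683915184716419780970895587025121314351513906134157221312321228826758944280878382288796170572115518667591045362351778906484720783199086732518814381010782801906862068129944055601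50730575802921675079217958060567606560319326576279454820804004115923063464606956419476882127635295299772773193727185691013247406619800577627792991785350146824302177555308091870488005085239905724723041638340618746178003763198383856355755018531753821071258265634496795666029433002958216104941743365453940702096805093420987580631537312474230044465196474458647810824713140223582676320167779858551560351473832138439117699427574279833396797053935455855492741902295509032319373711936094297743076745295346005151452959452335937557127764926223864391889116092645121934041448996546152735235462343777072670641577449841624016021325444297668854417356198641487730395356256363786724866361162963692889013644274914087589628464614050159021367346747581595637903608556004891907693533719388934957930554001148426213255156323705351549478903519462287521085814382911112784305935224565645458565955255906860143129167591865595292115627238434929525547486553880011375374074394319356565114398490185198640146041259216470136403637551274946763849452912173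66242463967055281227530337425692589486059449997131296829710711500590943116894519090523952103347789038416095909438717973143528467896387454307122706110143550339347089423459672708619797123041436499507702506867431372217391379654543947996119856375237422738840210545151411418650408186018182749646769448960360410481584639207002378304948257765649160804296418179125410862021321143367657614112005741692331489732744083787969206192828707666255593119377837153466388225050001482548716543817378049032926680158438441376922460718745748062569066832866004810952558286255432555854962838839928985342267187990282343179199869890481833725012288010779382477131605371214342546713606656529379146311957478305379386771803948198344384343735708810954335832175232479000201549112346554938215725884898761502766976280668045483813278701490807302717878039669059319207497199222745541285041823942090027772678437276994590107368350740866348621071795738805705983922003477964117730707918104510768347462394707607477547672474501999829955436871746476063837495575412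40288853021705463420904058727388481560864939623052545746834281043698702964658947767559205778728665172941033744226264209182135119067517139360952622585270877636929717920268546159956442205455175323188177730738132490799229488908369747382046772051999840495928600961718103855063222499866468916188293283344125699075300264867053824203014768203475725468841974999037317507547628405219828975656431532720427783223894398313892091989426482969443421088619256657409045897783213261059545258553762619645773507986666053111361260147920702689201108089554438902006422541916500562913173543821618441471043361406019460664737784484607195189371768466319997904278691651737216912697288975541000483800389072048604701732437592650870471059078292248454635030573445840885527471164131692457452296218171644867751994492095390357131254863470812800201208170136240880933661987940202129113591303967815959900837224322259916706905255046493645405834379750256992272936687116091868074836132722118959230083016698601877692641938112618022022366562731917037166106846223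80999932855071443816160498076885493618189516425901808852417858632616785655074018609270627084229252966604829520218274071357466603814238389759011418683762294316089264189979874229316905530629209789016149876891536029466753792302578300796235991184117020605987220428896098601039086451785219247410352981502806837467549667019871258999230475589247149055288661089155119948628299185161821800823138179799553048339138806489596375072231513779566256152249652140283935546287182041021345732917671661723064567268166354106589265895080855180860727538369686000956361888566424108085574670246255930534607054887343644848126119708833673277758469814743322201720662427731963425067847449781798763964753740778429868183454458752327887596955814131639101043936238672152987225771220150304239340736806881595934029869943590390864788510602678969585939293475742949409296113032715886449830187562829178212381189638957084578650117090713137471927918744508438563843917225321857622079463459370215266556076838012564851711267573542970468851690318111797122564532856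79707196215935365482358433015857595808359694129031735730365211934055688860206886462383411785783245747190031724951681029823043118479738903508778144759457886955960573374502508279362967120159239566601116900031368530097620561940476439301209123312464528156396481297112586359555892443280481769216196013349804586200201257162540762687385078047842582667485875865588785036331036469725028301484347501808427524810668873016062424741524004438980788204280109512243253741673202489455675199079261524536538937282383262012999464076624190817151610325009395830683616764669977595973178975091311773749517390418603616617890283108966730759404558552533869976919685612436325219748353032445311390715377229072312543074598380076193857576145202996019059875038661450693007644269066181238425253771487851992790603985518555936157251376364435828868886266260327775617586818293963679151606152951681549656387533593717304439324200464879755633054091714193269002400058981966693181769532236508434150224208974425553908704826019696402826771806761675189754199260110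76918122145615078996364286381285561016713150242673541252925860317196748237557924728461463291146208884913499438658940172969793155228878154537846621379615528326382981088423781782399087615563919313963064301003334620335868838763077259619067039634098650656392476384059215074758397693459351409494700987478449781986689369489969624102299147839294279067548890602842073607982694419310806975187019509481412599853036696934850810593263751170125131062006276284839086643568054095416616664603590726858164765271279512427609779576279344799794768388824293488767556463228961256900733958337376825835957821138462892405441198591506160980236479893882231198932898512920499742399562071401646400038277087408187543034899937497639365434148229379764000478019885333013148178861827663843166228042174888205403378873308224965169810106856043638198637777623829103704717752147307936133600252537916855714308799899277050247003571020908601846680904861430991174000468685393601435481520553593133594825060743776558533078144462719025713244867946679868715790006246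11137874454712776061236422571634627850074953123033010610306400286322819306012169723026963546136265065276674848097532516197891709566829787936062681739526975878808197573779362265077656655830767838697246056940977835016520447342653059816068298674614588701099868709738793451712693961968673765602496037496693415717795323510271727589488000152553741225479862189638463629506450988158243816704793576877983219272105061259126421252753585899118908166763296788955673979595852716157618217307214239969532111233390427464645124956621286275173814983873236690118239390658346424073344822676688143229618626139408959964458354239230358441619024358079175628036134482687204447072232420263736539464766487893787920999339679231450337814837413660131511046654956687860400917079443113644613036112212555012323765800014133686515923726862192274235992794753890598362746076115799909402846590040539063591728680041161271437899601736843940549075617573683788418324151075266596907322397221104476499610532801308695709259098921665714744866074727561140456976460190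06290422716884520703394502193068139494863267196749380867501407802938463472569663103419164262805330865128812779671712773713002970690676903623884349464320958827722842281668049961790368491747558311914464023273611692321634366561005957301405831304660509067553993228606893031099823551642879127987234054374851684277543636742770173770615771439557297674707423632989390719407718933526874383234306369907510060826468850788183393294160488486800008622994797734856083718580809850257257012778906593321757764354167256915820894412333356571990439856716762224946784186633468600596440050887699802985295529476468079287093451307255890196823855476890930536697154791375162831061369392048006863177525086945588874344066252584352253164309528082596601153070743672429612991537280718124781321483096666146019521113348755852113233804198289532707166033323250341196550489856058242720647954109142873491132261418419401415917960185254916147342394245124132881304537189754175668322068224648023134814510151058203215066219796671568429784976905694224222228441045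38019921964874281012895314014784709521500928604885929960825988098066378255602939360622684444265161055453703428958252358995377615307696167316830684240887408788542907937812966664489843543720451305598630331452491312819950296630198176584800408292618943541820237043898821793013679614459741546399893157040715671040031919691320275021382528530031514429714031164762330220617451497263940689659724299637324030703767662378968923723969315660537842724079759158410434343586448716486401921131888322969767582352097587091884469330687731086452356081435708033743742723795675082855966883211717139472425388806957204379788897589575395046648752962710876698452844293930142552079684767534081969740872228830715412937399689589917346271956196147450876951208229283313271576915964933987890985371949790816901020997305149366275746366534254752405857857989059471719357373427327146245345338985355911791932523575472361297013590704287037029815847979193703499265731442486367118240511909238023085001770683959062080451524634024534757413734458227256802413644677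92810511070925603017407888557056343165257194528265627123675692921113191078435859604881756639667895312142283698503684498223385283599837145017742796913898588032982835323850986882115299750531641995716640241170394941343072433215244005454535427746516938582128400329876123427841460026842418576664386838910228989651137396694991676633863405263324669786067613431436970780867401291207237401741136528487245048688751769998266190653405234959503299194413296454482417601349517049302299095971052122215150124534920315654265482434640856931822500353017684667960520885446168137327097101355957058848858071759679135105189776672153092014521490631082145932754655576646041963826430564621821267676544842564128011858592380266663946047971251234032192052880484375848844356843112356850256990885473202236880667292229220457786915200162975950964751626444264594905005548117309588705661814891321097406093895029558925461459887088195646385820815441753429628806300436052553953449075180874506351908000844942249936680389773847048489938333899343781369704311180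85452099871504515083316012582347704509280175693041429032757270409612680917057628907333160306217622106057065625717635247450501691877650897390951312097829913603381520756300733411733201599454408193538227260751524008736443951693868804318139567647511101526814415049687834497539316622862392742760376934834298498688442423232319695083691028426532090260911480727706709031896435862040494271318377663028961564997230026519151953326252127363017830118564977385879358296032649643106921868355882613359826690286261652135153941091184642861713711969679061522847535102339698341069276861104038868966788585256669954163336145534672811193699596373260088278286177031412695971385639503124081257789168108499923241505842812342965020339781802514507393491194182283453840624481483444017007254998801988475791002577559928834858248227984325395981222041879487606410705327249500725500175118164393789481957231010920735374140001123818717224279760857327729102022876709165723974121821663968952810105753037956772244985292285601001705148773973602281891393754773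434637614435247247555844871521245944253358776208112320610913744314312674914972188902966429903728400240310042144978833630849515204722462597829587227245303795897261133987429955603029169685503201280295177271078215275202721703891395000677642250233218694160999275988948444519584606835699990983984340321871736077852121821045428862151490480317058076313283461127003330803985274093655095088514710799457630891879238529072572019002042828319791841717051749491905927318200756599818850467077648967255102520621199021372737959247737322529396897083078791716371446086209423039808363587262826147051071630610924375403027321695822967864300433919656615056330760774390038917732884179715034345973321872391504216632412357096640874680907520607615907387852177745517358413134777862976678376801957199481727886809713787350577172273321025131945586301618904317136744788521987310171455186680207364066399734875553792)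

noncomputable def rc41 : Nat := (nat_lit 2337731853276105079812705793702794284749297743516700010942688952036233127590031513195090338990459617245270748889224347736693199052988690302241389683404993121318925217258016268846130570428401941666347896526009030118234751887537670705392306195573479753172847763839064696819376723150765443240660565194410451413665296903064703165690831663329181911519319776529991950015286311752766570896128635226781045351257556972639958896038830197997281969384500448213241364240357680694780720932394131083992880522871885781814362032528036274768363392535288204816233250408566294256407633940934073511419108682168356551740854373544473882852420455710468487026198100816109180413210345352331012241462538571255241571841499912496725248003298472822735053599592954068562874683695087192712891822565568461406810303582823591798571787056748197689049282324826395123326333261553101769519046257928534465914104469368146716333429254822327797632375234958460094788983057178334408329154554841706944254695410192802215621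76466506446997044640327186236156553296960716696760801485590795272249115944459534445518733878957714269187885538347423309473495998563887308170494052396031124454044588966546378353115153208488280364865992774848675219813979651302546239214970744138038483026727732146498988047092122249311810027305771086570466725339832215349592665620269495170851902538148252286071381711302201776406517433149508641038935278044275399859998701072994436783859486116130653021926614484702667593293710209020651861559176817015128746911765281130518753921769507286914202058154140146976275320661669522935541177504188275934222061234333181598888227950476242196232811632836282386214572540521495893203638618255870673371870724658275129004602927827082711436149073512217525650256121816172653848323969783902719672970319789398964739321652747171279395573547399568113558625680519414023191269012236630400997509324060289602411875042668993301413820510632926240930162801358480483305457361523311006867582315488210473293547917468827076943399140736633725422430774187621788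86507001277765106282785777837562537205286025938053979787106091695953246301296953105600858698139530972675811432610319563597022641230162526820091534879970718798619234831375576018447730413819578943056601173500093297234575593598324203300203968804846689259969229408554238246303803678921401143132065707254056218473918703940669309023170112923890886920185693656094160106223208134515377747070725058906690379974673143507166242102165840832071162823988835783327444725934026123565282226008210560675969762303338869892352416630527183929215543805427181817150854799763842502019735110707786241660815184104229340801550064603651262748572557066847650318386958686385892463779612267955846793227300808605020802535576618760810201543898264865353745079905613020593689293531551996980514524840078025166876112725755199859173047312121492434118984048211867978368330439120893117979366397071778399272182089033996512738724364887906867539292755150900052141585952306828130100299815254689270517282018449468662647496967644793344025161940287587375208132937945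32358769168306921755548885936884561129590892383987857432536914880877816197788143023804846317913814796161162382223313964059505706685119117470419656593185479419621363969473713573773618702987608052714011158184610670737311555890095470386971667455807879614736145543406757493692549303212791131824444826831084332119346690880111869351152766105698058982204908943751328425626406888364905119113665872606280572561616343882813715876816527987352111607542964045848220474086428191786244890671064161543054457714357530978407278857611260784493063268619921509628162158348699065044509249620704892889399145554199815308697830278082383560451649974300750184214814021120021092191688050675853514021590023959305441622021953027648814766006822545504349049343431124157152587398516820540259723837337217250509239038655077540130861584336510856267690368787899004988472554024268627324830725586839528151952402088459346343278003548335507129950046309031928208338641375735258460282418804754823016945732692071147598806844454302732472729687790327464940339389496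72893229695744932987514228101623108396772704784057456286456512210071620352209242417594597770736494890386181266633563517063535393203614636710579010980890652681622393138033624358788357580686984598050358200386177729595852731329578999829987010336039240246822769962081712504273000330469002764632111381898548189797105065463872329857567811798993708211798228744337214695550522761560358503381099349850124711440059267413207773828707788175898931039741822189561695418124843132960411721814955874487172347261386379076529225986287983324887313962313627875502595123833130196282608373369802844706018966550286237430279033117376352020680145923229116694678812857938655570774622938145750116884503040174595381956089509363670752274691306480744434231376112389907655700753703098911437903652813174097440931180820411352172881908306415633574703042848671518939251537509961021872681147599142770246570311649001402819551323988555256580685399030008971922376425375023305339270620843540486753080808521000207999018958532611570700814295356943040568690353893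16189558393443462453744562934447169196940515318757766063532991520537344873096678197713129065272390304917634610540202859541111415933897300501820749311024142115410218715716615149590854745948797173690618617399354497241685162662414379939547371812237987474212938065114098026888315480013973880963413484281372958717283858577494031410843644961288511569931372422323115531903066059783876764701999456064739359041442071108259111538266361901998524671048309999239314543268186191631080856630997983687189217719423200567988212791604016172324118166061183390103082379304097456334919813970503261783287015857485261659643123451113470392552133993925116702422907342180011028772494939004075611081840117558074317245041120779903039667540155311007960651561208103968299272697241158306788160797180759643491012475327447599824139653391474098866766075555077217558529384706793233547527028038735652120646817541868706839386881573364398995248154543064648781737345358322374288443966424159170958796043272055352818592649033678435107293237448219823460483051929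02306130593179126152274329220721562034835632036507106933212747501239733644829329762074464832530150054617573252047514853433566854759444799808192692844031569175508134835873435981545191454150172818235055017691300027035681692973387763044042880459106386462654116665531482621555212279107161121052337615492037822080413851885930278899794769720335160855373778459217642361728795275245036185989197694913391053920246661473629151098820857440675143451411639702476014411980415623045988452594116389093124183781655670273782987160272224076034595595234913963383004104824014901189350438046686181746200943954993647421645863220240078707280508386247840411847931725685003947550703926064909311710173937540480638269491315020415041857310612247426674100280764291470614231592665476849285491750024740478886957117364697679678993797625945500833725854292125894155528903815851807603872212296461396632359737108521016325209351311501751154699325371213639259256903815132408834261815993600821398129126991118496920561066206014992861900941264695158980550033332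14465675868645395231458440357784284541915333162580853845909646428954149233803942774176266215680808579232561474977654489560123173370652430629414166123253136113033371764696812744390704131848926950943921077235025542115536952432968494393252387785388506352398483817577718307996015203400802090256397018860530640475598449708510797844097710309814582871739482590657372975044635564927045927811716083308267341212190189126105798533247159606760608784678307310976008705015499180750216507754269714998909204402713536486652136449823950659425283340301165235958357473461846606818203704250288022717892407626259369040028844664919819357140702547990661134933186803201829048909085541213893059523473104415979232682324617097373142097561698915620731235040021013481394471300502745710663478353751107364169132998398485921864814557535544336494967143161564661325154192381633354478192580021193829182418451828611250514277981480114329309129500173713084656828840049609036785835713832674582522192824432407148579129240071967676856339580798890560037252682703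01623531148512298220555959942491555133749228382330199854564960322445284740518840219823861102465224452326692924454893199825060622278364391322874313707968412521326854455644789376145987573954563819721896668846461231327327389420883658178568200766161986307914866572125109905796730694799213682663415413437214795986874136954682488966645417743174911039330295468717043898882483464780429747121604005017366160488006867421011856432885115180505732985706656785339729112110424091285028164509040643005479649601507059084698159922717151506764959049741533286116634688850390789913873464679479612547552969946616457753934669039181108586256483437959436318981520186022296006735845764086220281769619421798659741828070144640659392449544975972336838095634406730045506555038480108051486133209204674529407568548503480798555459416988336492969965026042398057095081756957667424267546681794308983227432176033467654326225765807056829054669733927121345725499225899664067250525497853091604938721443552637678648235256526764025556653541165793795200883681617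80395074664261613212076516163170355895828662109715216565722641576236177893915523932299996475170971812066530691797092413805387404087065981382306374314831494119701022647692968957633631999669689017300486634854215624307038496722555517697027081131756839883797636230887493269607027183761643870120297722122031952930407569069708610365816763770870817945533385472510450973328179477357643329805310819466050013228401903895679977960264631127801370643977690339076303462014499902757287457528824600806080715765564284420742448606772703048372739961397297912172422197775877168963229513226780922139590024499052294056582747372772549371182869465287835686180756651520206579084250135901817934695016395008169150847663368628729015575453100273491081977379293682020769615213892866106969640441899459418462703767073292116539363827035466698391311973723923073052515878712480573349687106636429586311996976005089983919639518367601151636499091708120226876854119559004457459428265072838910637239497011105018591341016293034502547100999084748407939080139972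46508723021015472923147020480920797655433717071171385450967074570546365820604118665074469438852268480914146963875191267121295814185413513277758001611196792755140642658498171883400541014154856950882274817329136666105204482058592696315071995281100856387237470430814070673285790714002426363229809162062840145399647629910830106824232264709955032409651766702365100681456151476225846109400914150318443102561002050869943376140320839493158502075708484281390934144530936485625077037162564958206895682924144133346282766222072941945344918095789785512867050837761231838582561225839010470067549030357311460424257684980799763197131910008214386361576790575506726869056823461940030048932270581798059161815532103888324635155311971541211833415224360112068850134628410561419963887921285006546785763784607246346243332630877647488290149646083013635941603977825489428231445638462551044350138527471614885780559223507893301639433258297296255143234771635431995313539917256005659851502606728068394319099071051915077606770823102414704364212618840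72856560996778134695861737488908518261409456567136722029251472296949992891579201195772352373437001773100479530039318671253369917835687821287685681098496379294386077583424476571066892881429231165887548461314108539358192369551271675570009638176270733179966330476260305725488091782237962081822330211152588284200695322288354359034043096960748235662084133737624878149233928396838938677946746744041102793857389390172772880071974031085862466985690814119575317527125347440766955668656125825748207955947420178403201279180155743692163706410426047736754563626617367920142984819293185869622549247294015349676793126243126560817712523287797630552709721778498101030795380197065975646182285147630464887510874908068287021466719328383327132798741856201541527445443032950020334255324717674305641687767441635646749762465429144241060990850083970390098614573116093474988648630997890142238648562507803741262515466893796157443520743618523781294532039963965254547920750199035311707097166214598833634869811056069675951039340183101936578315297426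82746246464985046753659930476326654063836804489600205804376347238600837580223129688856522820015489455724385557873122533456031207957471877665890426056737874050283209463851867811226772684601148985630611838552714074551226803007504091900551297894684354719668370061930356440034926922330415171927397151072304182420732518380369830271486351764092825385765882514984606089749904316853693300582379586724943391773765475173145467042792689788485517457165035029088602638746409936698982975960369175016335516186927630219513282110312017057668729438189186434912901845156312252174195473829969483915620048220186637069121724372408837461047591812217829236404146937082289185450470146485476671889136314894855910837382045743095541933157830994341506654430114190104254043815992695892318720735108304278421254506488109585260776705591014912689987444923592284399363492169739127591880462666745143964732248077668366611201456046120976932010164614198851474745235708888640283778755632170390272899076366992066409861561356443926643165377417395102527617774803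97859664995689450115846159643931593396128691858544454854928303053873684411707428567768192803439293250106556607424857914405507006689546775410357552578663000766348592275839959836607979065143897587416870190693661037146847777360728264022247485114764111186021537219255794979896474113511921213551114277293933220733098590676464122078810842132970978117165045980366088396820691255911420350470910398375658336569765182837511493159939458413478030748479232125226275287736710743463532817163044739584155281981955056214856769821139044307530276109400729151968227016339508188320603872306534133235827483242316758445201810120811093120343987895572736759289776011460952350307296600191892783446962370288652720602443852241710054817031358914078426183900158285460559176870567105148879394855281636791264969801523226839522794480133507612855654075545555677671046889432852449545825282323532668520934500791988679375272437326456691064249038268438279255112550249705503524933875947078515960993184983088143055494221922424928170683339979413048212641246573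75515978668495290635938767839252135060133536219642213684936968162929959151130734176445621871755831669190769875456502850299545522435527999393108888278655065523398623028416399133734869546094632496660994291174053668518971176304066658046431251782930069113003639858998092002547035980724722285791428412471185209260723523407287932578249812672735101787206560185164451086777146223574921839059913866106726629532899855240086213232146287797872554293837710258177025530741323568120230154010133743619565548624396398587999660443021132661264775535739802486102379598672769169384727589273793624210937626276031656036992490245707844018280446604031952457652766151503787883477913668153621234353495601144394627750769704220607828853535121007804079838292194028688240175363647481614112968012365023011813744149593466222908853682677147176532489587687885116367252075001425339491682541767620158121946366920631861553640372638093654923429956826731979280983839805489625499753618581458185217759102829317780677744463005730236249587123007970380908994851067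09129763539569635754992019224452384059670569506658631601173298559242136346473628260753671032898235534601868262052568537027803630645477460119414161468357420278647711116433097167396276951089202853473140056589210800082445945439777646522888573102937263913128309068220667254220692249146529847295115419980846902305267896706519799066606305455585883705160058970129360187557548142538601602811776688088084040152662118986147341421826718085697271807342717680824638115883345248894241264235233942377004731337061424403588357383808812297788399912517205772812429565121594985598560963995314819363843790375695592173020745194956456188232975953383240093168435182335318995011593317949996924249233765999513723395800252954368579361385278396779493587706925060874055051905855070679283884208286759162356057031429183754364578175532078011576537333888512166089488973870941664372347665709609306254599170706708176223975146851995401349381129169231776458007340299080357290001046076464937537600561010120467342611619817950863826584802674841163443188082170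96060080091260316064904732258651926717710706196515300824283085410852912339285030443274050564793806950034048912831994520308497556629497775418120829047541099623639632441459270669498731747818481796834463554465676144626809994842553746686619154675350419030134251222259921563619177624529136268071894647050785456762109118527581734962457150037974771688915857899637525416401265512205483150902755489776482093484479959848812092925599073378501846825664357671988701444617259710701175140003393197029371302709633034126356680992145749121563581384635184645868642887988055680964987813051525599118563629339421473413260605166963989061111539733395849537452224369598154676559759981267163451818111596703393490478061795320630943975285836375603605635944121215125564780612656450603240134676623661140608613905801408172540139640117328110173737863922246816231499761936364405375697371155315632978888367943434669661048280667999219191966971648273038139557947981371882291833741948702063059674681872612467176343015482058102247121937799544024619148536442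849796602095665550152975646499317922092631956522667267930222432763133966445188139386396879035906022175358956278438236367352897562993589079054332383387903120364756254534938465804119291137333164732189961148463189344963746086960844042643347518229237336997312468444716536985152501367493492779476979724944294845143338063922458018848552740669896071361115886859231485788486818428423416973237619652862880196864465709683339131887320961876233816581703974748862106680895869020153322716900350584465618161656686582968961712185693805659288778794126114900778946285368872619186717314115069278537865085915685595499761507907113960400200660342484497798109631487720007441728046536610491389850863253522248523393019410654366996411654365899480134324643173328177073308077297068852016447318274184754237601085445665456988016016065706848922779787230025560544492353079209626697450406265013964381409860288249856)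

noncomputable def rc42 : Nat := (nat_lit 2340755674767265590726289466431614166808193529727934471855918323974759737252361023943537358612253289731278386732152641028291321877378560969293596682176051904789632201323083456912851128990257083582461851040824697934984005685025374177168533482367838820347893113585142722031078759619924121361695669132945026692776432891547888187702948452878155819236057487824237042181668083222455614785826196069324868045144617095048541972628577208428867893478176042798782503009792051172479908557592070081111975349282755219054760160122123761829399947686033087688635460734000546688026922424496603959689196595924882936720731909672806654707075511821474012208701484894125641254620781500099369284799590668751279164601688039926805770128428759283373976644135997790932187343393924871614531062883191080098600297982693810200025796424770022640453071574145590673729961435334388209895794270085182975059120352249965158030591022426604228684932342391893626020930793488849320039853056536204794110390006457842168519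87147926358800439122341056074656580998786358989398731324554005313071064847875100233708955868942250014612575652404259652197727994455972890311146656094487375055288639967758993329745187783578821814252744621574361180762641454554747840596418528167387557547785702865955098660734004034162080610554932666531410292241860087913255396481529421558415932557764398739744597558230851895632009952950269237257225218321610027330018037457052113721537790678709135454841009161767232899930835847097690435372392157537921791565943883998654706238535495530858727905552519982313345218386542285789551422622080861911018244654826830947996453078928358635486709621406027305775212899984841244368467921577132530461897435679991382896849555890158037477221112917748734293476647299542176712337891624619435657259187692403560452820434428552113123383966059724168106259707608359462364753221452500850740111150952443041450572704201815776895674861725393714411669537578260527556425236940391984567816742554884834175901751107277301990343587722547580857865058617283793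98214525561717096764446779492132453549137736262438211505645509782405288768423568267691927146657439755341118196245504612225530779103777936663625879605592436555535711338704625541423601113252185453881915565640585870414534905068479484128997899526141431318682981633488810751424030949858944250546728036518780938345982073578016158081236153328973338665154946707337018734966525417144283729803968143979728443607878822460559432621764225096302911315082376634993548474081373486160140759646705719285275051104282167640242183200879634710749435117753783144962640961759943563414328464920821339614222371229223361832089798754409651448018217610016320930645307138195106256879614385064540079650521201888614777436155040033841399001110372679210316590516256576082237231033049303920966565764939888559083463134162331122077335077012557521753663153662810875700399606904870595232959976666356640454460835468148086387684993803540200955783215345295711608413646388659751506393692136730392351965751341181416059872175871294053897966063104137759185395203066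71275383482171562075616708364140045793373929071793823018078387581866402874259496998814733112195768679241948390731201365921063269696011525288783369614990166890625362660823961655337677718993892514356443838504665403512351735205337201850672176531828025197316352198240160892218490391170549140940258478801406426644530313317013298566848380540046258448867779462181145864505244491441032561887707933230964777870856607355228929185825163185348743897545798018073987746970717053334897661521604369943689740867321154278448653106026715628073222659204907844384516905444274000065892443162868444836562959389135174103680894284017409687376374627299113988500988708631992440651031484349868712113271856370100853973207308377528213694783148411832273105196538834909344886649380097979813467602158754626407602847985864665300965067028863144062721707189994878641231481659219465203868390105217047810670005737030759505440858230871888408944089311803326003574093037745989883767077987601726910572281709902537280553489460973782165640064841609806606740498563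48126597625449981548922219264175721298213442509701262428920422177701909952121681522517169262308103792244584008599545484423411647769198069908856498247913359331029452562730874542347219425024576524325450202823096471133904785207516121204106645363701667190492356960827987011577838934261048254973264402122698783782217364911854442518007553858589355828304990320398514767189550385145013050484812573035759105521065161918648899790567958987485622789989900565851059598528115473188285415573592927950425691351256028015822992125529883230164764931683822476279760134757857727647677575452337766011663605306809677155520333664176209883160242268588945221705139544143999630098151309561747977397998743272890989406387114114105479135170873472199550306806983772227548662111534341878211824097897965674842778507550509027313361381224514803184525425117308717008199709596479892301936037876707742406365011862420788457872463733111146425124352064555485489925866012973677213652769435948950494217181997544376727910718336962571386192030418366647349310416384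73302880578640278057149955591512774439679399448865767207489725511040125537336399898440858157194469480323822772616612238240841015657584763610789435466753805475936082278332138768171146513471257469563936409305854433956923497098821637802349554538726854575659664507194969563942790536035221175875020001003888660691261536694900804391100936450127971038980698189607277094109520830575093460811192016759906291288489281014694975952719389798733002664902544977560151832760526067190673253949211644802203276159502564683952241175464779707126998562237853352070835091996240325247121717510755323291542691075444671344800818023355022201788229534142569450023814041494645998003337195462454981290079686342134433278679562882781270693068683420521614937679624697919756444539339545150213205163379616873512578416662167467861477313841936645539384940256530987288988914980682528578873008784722112634206592710781288011533815349791781251797129861206398702291276701500557565701787225418773322084856404442819622415750642939037944418427525490740042304010237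52211749135163135705391727107872685476966504077570732116414229361894591931076209358605467125622730666138649282919562750548777930688913113915120245694029105795747121238024329972801620747250004974729560161094414917885510784404712279371825654580052069104352741400785442367457180517195546467456185412778594414510641405134645713989384041442357771069642203733304430327763404407992704963714872057525127768065383762270788376844218639378675766567208688077030502148045985099701647227945094138955603766794686290870729119906195715405047782049864730315108499258973518056480594769799070010266673270414487409372704764714230710504462368738263415926326002237103810594874164271093087155962458762014905666033820725038523597864826004742472604008555074145783057176687701252332585886822798949854580852629590934942616941361427532886918223912366727649232494789772086066762344256229464774366472735084004360169217462547002158984400750397400446404019685868483301684464503512854487437451423067634923992109485183046660071088674371564043933641997118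61864177007009442881525075480722396017332244840066121160285932320340161127151999047061403191924797446563849337611914037394009325978235562349715826693023967360950060311412529817881797932479514266632555961733318306343455979496496660496851295395104569794498450348230915429017558454795619700176775621557328503029520371693316572124032688048775585676095966050090211070608383025491372458146370012821239233142919278508705042884860332009552685284515367408411342118590548381933112586747839331939516604730117002292676767722295816210677564227926422607300029653389450912865655427543815394103302196703063449793006938704908078269051376969381449601962135717832541522217204061363974229779947909057803544670266367989106437265857681782001664960188270207087970588641701261911025090509351833364081766823016821466675946501317567164873412714405631241928932784032682602268554947400020085183926639758886672103713701985041333962139172654797507953274901904096666974346458278055015578606531540494435089719865051678589857688203760124132508881641587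47667489156257026506198746718511559020518247779995155310853037156798762608709735623379477119629984149116682133874074225054895623684933353229666023776896745271624098742622195089122616608824620607451391740969870879426259802089294446041915498494738622738901865110748872093148976852625214774429629554415656251439373382797570694138263837008045291353109805918543192215936466000252712995270053705834444510381686306878462320268459838941005902093178004262833289750493260775790443161227349253564639083843343203054393697619216282475973322016643906794666085830937146536747530177000260386592371224317214358260015237485467042358457828675107688030156375683801721026841768192905097140367788244174643196996211851986072655967870551086693689795196206418943693016844114147519940617293851184679413915127770291015031557330439173018147372222447029132691716789484101436946529966236554309767222056276381756865018832396298668391801685982876456212827268427417700642859914629739032674085580280268686233543316029626392143267692038853320794200423200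88262574972927591267101227763981843535030450950049022429826314624818794995666563235373798724088413084134514950794396391093336055664662336421396125566672533546928477881531768042221955404890500037260853873582275822193449157488225552476075050524091198015236990586577296908222239908746514024623847682939373631057832627159639127981633928148289482515229957183322850478349794896487767694812956507496393996384830665582824722527278368099807902592724919250600633508538994626296772782963828119472449773243239544451641491386194028637619847118775465147115292093946242245356040114704521558802054284099307924073430383816618727928877982111456326541749273065254978755732031356160477437775742064979071425234598853691490354363709841672271563647246664976088358932756256593950873546602696310607112460180672455715500861231018444803634935430164266625521521739374612260155115937932813045944469501373317913321751399656934643778204685731909893122630297400940016470387615740844603079390989718753297190758170625245068836741278946934862926128503086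52753202405890691991096770814335055380197005320511980182684665603489171931726345829568086584842204060931029389400171481472041827904443668903244476607481903760706869116165215800383676947741468803871507381436649337584704619321562941898248669614583243221304892472119737889203484732406703552656702519385184855739308090822955473178504072597884522152282385230982212209534968706453848399435445639717307142831620790543097313826676018709041835518327533092393732107912972020118712579355598223021678418856003802768559550230724997569308615712893944785643231308563963344804462002935422940096156730672111834014484888605998651422236057217720208743147938077140666923700859381814868117556694986860075682791061006902953997645076215796061797499148161667776333444231023279291142332872762907071252451466134499546889299791887950547192675426021415623568427605547732496162569454646838950836860736880486704384569605353994475697976741161501063564217419414167017195227369406335214468276348282432202917889972766839099698085867500346122952592860697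79578132335776260502560890287852165259328045412753093554349522914619980020133554240920869765704323092363801645803371891892307836299890309875520649511770476478027550273448000497628788450142740801291472249489928696367927785663887258002285456471917652269544206083888915709744909320687561721608382317392499461293724324928313531685770487089056059324304991030197471387058042905463773735112386677588699823436843813032987836060547322522737966481204658830832830030373917743467374024414444404069604058334782440318131763141052616731534887912870846692070400610467825017438876783088389770506125998909548623043148420218556149038071258094033939520124983925420060911761984286129898644009856225019272171973433307175959458305068888480682346399182460578756974885751092267295697985105343844336910103841993364422480481811376133077949040754512805960380366748252071140346647652996537496807299505305931746979638749809174098120637168751528568798357555597850465711765395221749336077736697189299490848549692586235805599337870088717484554128158708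35627684488768811897654960621493658004852916415748782599204642741383761569931035501215930324413869026586629498007246913918622819792740456917935249705581657110837845778551792946453203308161269851765878213395053741926445582618593516040221674200991191614264013145326669043858672718852171926432851836315377371706842674557323538061554150603615007083869116006485079330092488757204005853109772156947393718680631689076536538065961886355462136542389286596067308504978481488222572164703445276955228693707656429172331272048932889682513656843352137725034560040911627729360352665026205905663910799538549561398401957647474385630793513246818256084848327941165169975552991650561347646875407322494818235749630862682455227372204529091608459873224608562397539251704989926401821538056117452428962831718417110317031953553829654261923243306865068843766939770884908144517974471853097812020095334071881873608236734534547090335145885343743046280364807152431250344200918002004639147757803760550847315612498944174033063612264017699652628218464927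78092135445564391576830506934869485338728990353842199696520056530060497337639611747910408396987675409251233654380776567584568734457047204673350636967469427536900597762455660376555021547850297770250255933805291289009480665681380705692154844695180447962870609420612273061438471647368044273121426426481135476038635498526416730673577383964388396570459064241156341016330638520321569434527923581707753371287042316141161450071242377931236012829845815663931126377898757023679357084132599235295561166690496745330141936853344520880604130301047578762261331332039136490922223590726712207149288153884634813804656983210622820473449733130801932608005637956264160584002391029451267478676418479313568742578975809293602091144650553372501098683123408129726089161385826802329439016512139918665188791238948403260365643743689791560745084602711544405468721528431320944774554727127988866251511913131372617103455155005463000709559125564395153010655153234202678206822192155054259003079251945792301699285627377352842993772275016195140690066225840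65128659931253137148968564617251438439904303933477158857507244171955126363951022532798352974978080922071257952041592759640192973457524480449250597450898629008921369008269809868065224945545685103446121063230822731164693445283555930386969973370400678945942505335711727410976245790248250927231325177740621189497394224257058860173802048759528553903302476650350327843235503689803793629823503075226751594114597306773132990773252739764563683602995499355752851082151461063095275497703077566962007748884874387058844837567802568142359028542080361477666421410125787967747162885926584212641532457474034927788849446458260321472220721852928942965985879528689346716608767939250082265339151330000521134199156366330770628210306748754389424476293756394123743384371656275887183048343127758100674956345561248393218909561249053411710241095712384096960750407865791281503774990270796201994052122893436988594206753677659944456644561138615461873592578643736570308883156066921203356502021131303268047009524944166131477633043019947027480351155176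20741884973132193250369027483308906660564493298581442257106825460590266115507819256357189358535333404695963444923177796999816182750015517435593015972447126070978908085317849334989040917190399338455949669791467043587365271275373495078576714488327433200931621536311169853229570927064651479122720774343924844043066894072555436288037903028045409254462457572930946719229390272917101871647623278151088965275784080949279855958145194348846957238969219746431448654825739500709903096105393144827816490939970436789159523088495831743523169709747515372431150525040239718727820376716135368884567407615294305774265496530463478923057004733647745657812922260121166432657068849253963287442650950936525042392282202849547621771158004252470224054064445591215529547421338918807374890558292301871631433769555629572540774288617948290130534738013951190794347277936121928598029126238219746813542459930312962405045598525189636327610866450302608527671800661464042440481524541707924328869041366577097991972459964789357142389462737076418747510794640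48625406055298231625261203912259647575211686148074202865841840557498309253204798308477271960380098374908877326307607361314660226565571034987220246037236257469100977170559781212442858008405246066481281104882755782249414272651624089706177935792704344280184217676613283659436757405574678369063755131722066973234250689467005209268370349233220140841193360425815207095352018097808388047279419295644540046967376065852700249773327743461885300633997636982501038748475009980968772757123088248221081382521655280176484985765348135477409314865669711163200541466959503251147389986340100667408831972662859204698895075779037243036591151763377855084057047795520880808558640821319693150474396762528469195657005210287429141720123074444087813395436496793009263438716474353147694109191108111889828578744725211180106322279108716208373869231753732344828308523199603802788433428482375818517388897019779846868245189960412818782384095121129335714290817264697027228985421742198947286909209988827609608844710278156482884607792136341549244897947714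772373475839066062718827754330291236637807769890717827069255530651667879474912160739459093105931479813183140037396032682532512526019250288836653605100784295261511153817718681553436885390489367373967499110076857340963625682737780040445462940925830215227918522264016255029189369001667554971850979599297276107612550753625254000607970281649201590338353214261392826146016036980390955920582134002007837475721722067591536008343772852935854394078109231059414244230940173455521758819504954525527506149224486365489879727097357276879075910457155259940207501338272736767749627282430636937877385895620563811357488831410057243768302391913461851008008265372615129457889550664285968034719081597563597143525577993538765871986562606368677378597588160566339394478139797697298974121798869343462161641610591939659171984031962544467675113051030140079735347858784175366970754689195112158121385442670542848)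

noncomputable def rc43 : Nat := (nat_lit 2343745650734765724632500743325187623160234978121753889197284576579880400416141103736842087821330929034307024131964588976579436548047403682007268365069178711656569660108720513978728006797683927464097723764204888821653867170744146457185304441529003070743040363935027372640094854795184305186150948531383311820100593880212598942410905063738546374374414352510572888805885699731178822328408726496896291856443320603173733757918856248218062472671243700884436226202707266601631060094641606776910093162616885319296570957755482377343923275686450253839882000820181797146888173898552243866684924745409558974784860225144638907953118540677208316993261121867017916400770979529004210159390365938945204751589148126162792034610207259917815041735629041308256447085684217745340011837491486034444218049868697914176917485722095647228480725400817649443009252761353397539685293072311258884108869703243959662289311756793063732150653214090669679290150567811303594874699922099291290829806560999091496600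53565652106511827317796095962185071165736694948497280907515224477190926760511108466244688137095112414507818813330502437770543537754632887377696280921985405316637338917846867496169437940545518165438202078514660967182372069194871335909364589378375025484808410052430839749915565504512055731008794809231244535685770971524735929785246042764410240206217649985450393558689605593497243915493324933932890913853431327369249097999153146097358073926553152031744807543352069864532828714460017538308176665728470013117666787378579747464877758903152356917500357879864257922230466129735110612365282996628423920680256717935551127814916723061604825419274392482481932240323855081201228927938388501407801203384659960163834647831720961029294607462230873776710116379243499115061961912705268730309988575387483165088990630772680002613705757822834284742682047797395712397542700436206201776817191667262994477452009250736994462522756037705462126925954527859974755590454805842202248824054529771347804845215874162118035259173584484794948073796584503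85591744235920140746923048638724296569759604877532363846801448966744786691855036586489204550919898327266278261095204867013006443038456943190074262665313759139189012397164686811410788006308751725204653912661249119750901544026410001863763187952014126340720778551567414417735079557783210238037401077257216407087182786831610188770575496329271251279331113690642315892123906789867950620571329347835221049783887179955866537096386430745216110424451691214677771238381279736654300661913491633283767468208141288826237187467092835895468865032098650397668638051586530528591900158052532288893151107209849187464718646199345223556048380693869840543450161971613011587607167103525618711620196093511158899473938667566413662336394600182467713660394371947030148882519486711848552403378438793614825890828270037531727523801470433401475133775448950910608259595185824177387807734855139746777566840648601450744965106841417344746063788018890496050158405834752154019504621181316054287763508316032366931959890725279474344571588414554086413149308025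41344326834981066561570542088673880816881131972654657022718879136363002567509938849142157742910042737476678447553759437770670174902834117808630943304502783342573795950238607967351523181331446211959333719805591073701999263078194257746295077520360974063140154480119954867188272367287017718514970959194131865759995343994459066155294048665005404986696498451853837225245257044272474693185529693721693091149072707243706781156585571606373181882066232836386695403622375729544237198362138977752302700678881714741922340837063207184160745123803411907151104767229053182224778903433808136353603333028301294580527448266524512285426448656965437725151744302345303857157101086838577877010264594777053292715124556130146247671734591789458206286740080174898980513860210357035602472876331268460698911850407846863102899382432043539165151149123422596303105373780100482917007595727636170837282116752914796180237590820054761431679935661465802658857243575535548309866947946197209867987792836648053340849704128381785433761790659740377233364566698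88429198829641116616787874300008265643303918166383437391842886169793377120736972321466165590301301542464008107178141240603593045222999407919675024627221939517725294396522184682120798833715262612524834670601750438352637418533606999009046242241996749990942367115254146671638144850012261288077239860757002340625740612517022302744827543870724833065712498341771142467032708035465589033268428355135079907865371905911797193687407500651841981775556586323584328559171450772935732760958447088332665591000100734689224817337327282183948803584681323055930966835468955274585572516086975712599768276010207052849238828314323999796007685415976768058998219224849231400281548316743824733652349470256198087441342168198702707936315347879902072659476005630868258314231047690888872386746019928166788938201483596699588804786902171286760664960057071650667065684369295273568044816382231348596275385205743790180730196780590773866859965555478152455345889084688378786332122500450666387285051633366206018897373873903519435362844808470311174264725755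10725640220233841108658101090028439155175695392805699428358282358429589779796183257713311135018155650953232470873589870648774936643069250166682775370094774077830216297316181786711429587969941253776139102044807739966115229141369082799510151307903952761107392785946499313359471145258837743799749116352657398744616933533876336369750748721003353565406775169975051992664739851351489528930578821355238135961760498207835137459847904112572660649637785485798479984016893731187975995072173516116841905116518550003671128390583895819423548290595051338037705624344817466155023372190799503376933918671860601034355961135106834377535906152539369805359322002711218103982173640024828647404147874346708548107680050829666544920353968946043003316044314529996445140258752252211197354765195071964721177813335057746258299183117881565625205753623774052198126838754684201212831686201744120915678618822390139461060365249629955007429064691885856816357761927882619897016833416746927694679446429451429997420666246340041542834052511177202693545790316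71975246383735830168471638661903662013214253365862524433314249329438890972917443643752092614863127643634537733809342897847524172296312269991706433468873628595870142157353464254027395545050539747020383505277719528142859861715641767827704426324346428984125518042522051500966293294732730292944096355762027151960073238819335498773432792506247910437114375419512085125057006181299109139801751022688163493201933853914654320707660929074278134821841153154868499106753888387821272085607644645277249265614357061888356064704315040604661917746527473766590082275218439014425702145798274754842338024120886109058087245864635589631284881389474063043994321973097572166568678525476592318591960333448725865974071125418574989769327689601964460399819826069672405885833444194921369255657169487320030673762060282307852577288951768545691889261248660643332034479010904535964144185605539447110973017403361234138917841205507975687666909236748744260501565494383008174460199056953002677639222946040145289508005616007347012208684630725883799688705156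59538241183128277667076131357082419166745239642635766822493418890283771269310930790132760202779854943969707037263995941523097372490799303393900262761328602252759425256976283687903681903300929763093011096810512536092634910426957057756217294157801988247098859207123600536023939222261788656082065300580624682551954525977283030275284405591313448772372618844712443177807488422694176087352244602031859069421969341634445000009817431835095245953545754661592940800428585221384837468552209786882847567631147204009886956405228617601998216276876570507765947067629703092267537498763257787983801856718546010590123253470266936708104293765656230853761152136313404915540350009683758407196162222469443738481316609051191721162585625312466394369441626001437891863922644517131353235679497238654846519464321601697565696914556540696496367686432990598359798079237546512682156716064361564557154797823901459694742772560475026516421662751382082649870726249610703026096225692203287358042091897564940418420938059621425009489634942353598424872981499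71204143627844825750375445411388794964754825629717435871048045313315695439904482605958038551308913196404786806489802859012030059111383143387568141296599582501596121757701843583958651700090789917088612526947446515981270087038560758542727449293811810364042319391007354888955379716292847994206487803871817205616765545577352329702702904816844278911909619949781789474068228026218083793153184712923761734195397803629832527405520368808502409923862667021540257039153023380582341937677211669756689533828018649427706490932373817774954793360946084104921225588687098457874380696470937653956569347393449407197785373288604235744424895087519344278750318888772579028906716540304694571962355920211163367932856036505248504561643279561217774410939780422282502105111796703146484308076741768646717845366091394549298925585471181990430369893585448239274417139078407312055453520172864518087234028914141628720384869484719482896254915073158159037831532575569559439606608986165581916844271195058996168308953118072887601663242764493265773982766982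49850996128416761286906741369576497373300975054412674719550632780597810603658378913498703042997738065955752847949148326620842076191967998660346327888517672095135016814823551188884456188820515140373587149588982832891304781254374426906379883247100919909920690977934073840264705585681113044681235417100828364026485265175732439276903066971617134403288720791984719732420363784693175378352937596158506282729409572778591245258895726902682954084293910445272036059037465660369041230930173807356907695758898178120478067044477997219591358058804873086537720013483503249068481844305242161721330647007065500932657892504396236151333108345795321340181643031386830186706905479699142828264130983470597184238950624966083787298471940345956716138434563484513489418428555833014887965391413036656447210189839037611135598626881530492392921442836502034475838582329708582985768045366991877599975281444886785159027222323996871418580333865226781044168465189152129926277959616487683159801990443478608808699251856550246492922879333500019318950379338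25531528504901468276721692145024086264967514717911941955665438625907719394250908472993637945653191488451351809449087440055555230335848649277985824785936516048152954038072945584015527329122352770920546119380008524284876275416373124607792058828334981253757279958448741623333186701089520316192419011449674762398464711327806201613219107870518951090206490159329994045401307215164327663585763331139527625050441191689971962687463352228516899792264200849630674351165226283709084466040704479029905737501498636348156320482408437208638814224997645741501487374109064712031839863956509258627866309555424307659634798736049520997397323206596241240899791504890376937545221135582400025298936460426593099464017123619515512510932259020639396126774988682212009664502256785447653108275064841209559072585483562751137037417070979179500931575508544493711505137436505702873337561598524223292186764187096495378192898052587252076102611164249988997649752218834227593254994245705982640206301252854585744551707069998988429220842459446775534034443388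95581195057892983268386347559008979997614884939184029219447463754930416028817277749056080536585970669455955524776529410489259096282008997542304102637308125457855725744975178179659692126557173857602440271797774785039325880120127901536107633856548971347311755893502475204869777321646389197578561853236164252978247425692484525528287451179380796179741137511811818101802666060290396469521729797628214548346708110291647318641821693961945728217963561840710956604279584122262377923122352206554804591822711601641100366407267034645397393915564843506155480038550885729786727612575281797594594008918603317249581671902367695398438628437489717592722669731078908492033820517809314952843165041118457747803474200107401676464663195946586155909279548306047236562408480343132308048033763951374056463654248675019673309573874748052029382333312677169629348089347209857023713188438440948371155981175608927503547542845337015745576099204163289256107703672344375448928997921691446446985471684336854308613450620064165233510153109343912392559155769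86443080634916085346620871122522246513456010207044711659247713108159495787501805874595358052895187760236886457676669860965213374740379536101927375865526465594070270189339725150912141504791087323553146469933020448445767701260236413890319215948068805680029492918662123879581982832813825771506548332250661778424913778142680032888079728164240184511157252747471258119102742714506802636101228292963374492379540375946435901845836499501720312027237490914086640146108270121978718340739041050427641097434529724603766083573682082878781653123107395937659749031431670742573438809362723122343813700901767932923059945437125318287365119630257323551237816268031834212141102428713821796443710735915029694007458998081528363982900198116123122909520081622130316548328450519884374681402144906160271489490143066486301625686738797993652652421623909450297013197919527816449840883539317849558851961840334866872408629177247788170403989678355647984563015616945586442202678071996258005571200678195235575118248155340794938148214210184060043448885174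69384550212696333507994389254495593313433335769340936373824526860870434205392378621245418469280762333912505138590515158733619589838480843240369443820941301405834868969057314924564315453322199702734569136162692524178495326325754813151972075786934899614842883438535165574549493256514395861845631537921020441557308862189819640273085414948531454220757188264494059847281030078627398245407365488781343222584381536706416494018794193917622698632292338216092321267266755061263963067272805208559840613446029516701257110107741082857416217143477926217835448979195085261799567003914101625207774595502977548926832598495086285476792859777736723949538666565444703376673570113110251013411663751387829410801641853304788836636676184366294874192338176052427772827468306042764594512990941504281828498105360659329674504536095165688569683607319129470704232754667480102689039959709710863987531584884701633088090768243493413903977734844560307006205300974249315263472662239387626439839567178091130976678947709851206511693137649998841547191924973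09207962935374468343625008792394377368724613742014925381058329631135178672687189853252803304202492395239841884087973820742310984885451920608443569034986251493968897242805102436026271467375699356158041114410681874094164502800756329574527238464977025102361057374510543828847216604052079656367121935106782295998218186818204577306243264417473306220674741623671757074875228767093843840438119190845759088831816208408786020471475084057046918755688521724861045431273496931411267366653427942692260227935165373111190779139933204285680995122508486754075091160114697032289682468792819473197846949505775018761488187683949247091563571149535983273309957223175647287648480473235123868538646385246910053669522721076783309212680985534599840404660481796249016990264861374814441343055032500711290111037808971170307204985661141499098164695917903290715306821945728852725666779889643276820713986658987023041987351940663776134417920717209323140026370252947426373893442243644519298922451735630082954943341976114978201267768296423428799461513348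97658748146312034388866476618703891953430999623289203764441753436834281278024641451584439111821965468398081114265371562985296457261242722446201278311788980923862112652056552596596556892247169447812145401237485294380519326644356677307932950916285698095774204206320731226454521978556565197001648815051220088641014288860128603755371389256120361874013364758915560579406925419201636284357325293953471627718849490091631103070544315260294860013693467132944135489423872238125399759195422297851941109026216510033443228770508616454042357827023172912055170008175593464144214528414153042109659732637685625014295039809542496511858834058393887910399061202053691757669369476911986060121978855451823002603119064699776831407395242946994838627827023260665743511636071968933558279918768655964359980209656712637884843538394862888986650202616673578147213694171218690914038612416826423772960739088729836027473655666180524484707688469037694495418605082361941584021856529201722578664042593198594397085330639400891403876273536458179604300141225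78201691775831875332961236716601794394099101318088741076278390119617735366454584481197522356500431153036448724130526709489295277830383772803437750894589888952096220746575046952322036723885732859667804365532065601668610984148954648886493685690342004151728185263962520115957460726306168233102771501659099878032310213470986447908249609759004535740259237605087907321825286830190214926228183060649717580704446375975440949213400877651834302103499285896103170972648798582372321978027669559973003278600970836062271846151606707782118577057265106838370579595275069079756369859196146479635685018033121456416028914456022400078416489622262858976382754942206287030068151006357489313818121972144332940537083498886875209785321285641523176333023647482877764183927619337862054216805903267170984499018134901682712331228902775532961837720604394752836993433811170882579676289686624280068618570366622783075462436955460688206754745769913101355679515370757305661072515693891211589835305440573329642178227573116858403039372832896379127202150250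265174966570185561491651628732286567559439962444695446274680494216609981358367655151670757372162687896433854079162252979074996377392588041739394877482454134299853844396272304654644877280671367028398502378724193823424333158185895239706971063436075133793099528689718665854757732216878929874111338225624469909836390035961621698449123304780107165543975094088206363571455291529583143343517781506815174867605652912851265855088621791039836355795921849205629418388430214770330964209437676346823334935904041747819531270881998513857368622062573828380025696938644527829300142029103444583767234311469455743133194334371153371811703954342989099076483180820751861521723285949606694707497193287799151029007124000984422662441306354539410685519356182108527528222956535806395852947939231153914678868024955131968142388688281721080665779643096238960728585704396215624202813871600018271285222577098719232)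

noncomputable def rc44 : Nat := (nat_lit 2346701924895485058413527105769067427605567003876964673278083305016534366049553915052778270359019944916341378250658141037939003219935851791740349350432709691054950015252056096604457704130628270275927158890659594195600343097848544111873559946866746066877310529038997805316312366950657156177587638085394167911722579469927612833211774121450958626102303337926612352197697222687758624013083151148778027337934371825498050699612504245930242638081543784856370054723646209046254603708880253977146388222873031658821946280900462350359087537487285425908250657078888387231619983434556365671669923445712672765478125794663685119547124459881924831044845654715684624731596929363050435874365643608094227459350289239109356856007633237002902940366877162189988840480901049709051260194255594047508761194780841327349561098787163079136044314368593165962045042945215275334993680720445985450284393201546164478992327747927280167178793304120632142439761980037560352097274360265512255464792267204901193642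94532235514864161239727606007055559330768835659260320707307827304137861730216424820650193013119941519970521983811964114118869389293928015600647687551217693017519451959898642316601404754287846537442452246963286643068504657807242587018326902487124031733134076312672195784973863014073497508383541053591099447290695113661936259030252523294803585423025975702208142228113439656217406984317377934965068308652847619719671244778212961701888913999203876135160522221112215725136989878893237819045558754233265022696042279258604423960910641018461168383716590919173833199680984211089491282280758701126958414113744672311496287132367901409392322470685902618265400267302891066357769157175693087558784417138683812858681908047267392487137092345529894046314298668865782805456745854056989619293554767112227597931123333720065158260213633874896181849396956778104948603848796392229027850983187942838522978277475604115149476288983584884271527052328574841618894277735989244194828391239989212351695434938474642555172895935011026723321315275690485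98408416533804267392843281019846823543686175437829280424198465671151368818650038034541884476683928637018817438483011350416327219415177333453934470450157959239125714387054614409409421415879614414198382766612873926715921032954365020603158607698415658467028383560608583667370121127950098815112037815782716707744658722184712307827215935566459790303881255604922633597645377534367817819896524291967980347258605618559710219092149673790560867322618747519084705974253559376685224629175410934028912376431509468306403433286722885918826888808349954861943858027988592944538837936397507711483021659400076503496619128460358374896683766379704022161642819531651646968919249427177670085440120269490065183912652722771572775349410952049681646134492624933730708239934229569079896621797990833148909504919041379389714309378495825296612181641218545221794669408087411016982027624907713147956343601829258191909851644860270038323232902212243500340388548770314355542951149545941295876798719579215231442671619473549501469857584974795793808737079916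24608913572633515380776866704786287200650170038844461849831845025689514040441639949628463614280623312966423005058216571097417091503830573256566308383474712799964032334036641463524727754151259161390297184627853977058351868720966949639823455521439717109530160439070068444996844520989662885982727744045242248896541126711333539489378019213719254632149182784146150047592653787859410673476655682650608372759217112160155597548723413061160383597258881867354627381957003132053253651359024763909662441854734129748878806577201394669587088016396625924855477180390796003334681983235188694921190725355183247559588432051834851760111578988868997989821679288178745537347157604096456573638615646460340773007573134740554810496683259807309006562872761972191497395646751954574332060308806371204740683254174411364119945535691367910203177562538513666928762818362192042414473542588080693291417483442998408224735712867683296736502215251913277146928084297306542231523694878692274233286341865092244401055633449389138145520016125121453615627225477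51438050895375480566069485973672667226456282832896684824135013281057846515395078944653522586796375012961955543778757122400756257164002087284242767631237908762257305758616852506195331012957858143021885676638880544455431227681696235826413685983266743395666646932407808582809737942109611612003686179497655681386814663835647023691073126513606451237138224193979636716955471706727856824478502981252573459911189473255716535884911447939829781971493090939437821779208880934457473418057980463279846103563483478212982399682506579998448546998524514336626751305664818019916244681204655389806901633817232222483808048476972958911295334288720503044563913928992206365651386446306430020154306070139430704810647837078821011495969793969409117469364324430436833000760945930017624996717697630481701100348048209830117874139538646211771165090968250668707411292803069770823946547392737461552244013858249859661173305853193553620090434096460423072541069243036692954404560869862049688056691810109413778728223899238194767304023580474317449840496107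02465761306472081791846578790409812083799563837146956201972769617681384030618814762800444442175551157261657737077850265722127701684197197831023636072790299549309739301773050909381538240178737964071029342422745673539611218498601728126541259598953603680105550785540619869816188482375709214297100924348242511408447856730596009037728386897662660832912893781043155115375757998390377219624939552117539433648478286150739271178016292951039958748326585355042099732295492823373327743562054487709981541841111318568519630939980069020962636217509233692527886180910135716261176308791127542977160871113126165529439282022800111288895791103811272610668523364414383038285241756613009280331924013424200521698390993040435937685013553247009751895469939843810109109727977784123178704534974529726996154710205911652180195770828762724669962625625567195822972095364741062838872983991701463229451718059733697567895081298393914584271494517094792427695224697993624872502856174995909891983153594592194948262602533802281148225899313127987181317964217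03019000556712065795529090302746045786085761437244671751027855842228388395228999736971308194385304177909652314529461039951932756504305441202331439345795729288674394806769429045243671547011945087685733858573902129112582979687808349878062449112703519538935256881450521271847611125625967879293729299329353609561364833603536642278948337515145730842604157279331406005892059484082083045144692815777956237017669824151027199180253984043594021746194377741657887515249231586688151387266978922399713173729197677636302795187581224419116967718548435792962456173644974939215769900786809285352371031454615311408607533658721446969016296514109068392811660515435476002844774267814682525344120373804132634846381895697498716759174965569010911557244689479191983938934220012854833422120606345198987142556473200838098333468712678730262026750307945658897978426729614512611750331361862264071458935768936047224992793865486920736499449002013922266896003302861962092357848412875919487238805992930196273878781111557168685784673037688267375100298701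74064410243729150587873121978535775406870876834493937227328769173479262630855177368949668090997894887311561890458253991057652513701778768523678843273817046721812673572704549888038048029605045928326882471286520304197987657692858267948038315366172768215876311813414260987558211508799271063087129013181189916155812755315525198706871121311771986734331206261660040851058371163001890989486721522827380217746213706586644462069597457514523165667720633549388213588715096118647344923286382895863381848492348437155682751260110680798503782239318921565639482625855024182399447373414113180898082107065597557478342753476074403375953594757406813262388549903011640916051742989341575351151196005674596493873413751117831220519174952807668142014818339229975329203253436888964766541752756212974824804252468432731434532898976742872445548483970592306342256479118975301150157716623940631530198765328954596713366675270998873286297995519882168493913333822509643932421566991955937441547850676894236903676540885182871367872646636282244129026738549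49673307210620655104013265448063605533963590973651546677035952095375305397478442153224809611748000993814753763504139641522387211023367844042010957262074729225270824095205597590036738805383781725462268846765608337935633337131037903926530954102854891198201458292025204693022668099568933807162371567086218408928952160832756766887920336035354134224291615861827715811112351048860949230862543041547370314836155878768660887274545563900965841475525934158143216364574673764458535491400107016793257978537239140476491292035402288045843411165479329487022815484315997359926510007775543085925692879536138381488282518671478515554910536589111479202446745790595035001375308374295087208769473975641340855090840969623572684620613545388250695448725244337495748200487401677335060275635074535015654909978135653845449455656139322282018773732921647348535194041231850815768216805077234927123972329702642658810990751644239729884286517960056952370314085223489099840855881246194814595430264676873532645068918319460297267241247413937170929674794315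61175665046367817974811483442667991981628730366570108587721712079761687682912175135505056495017311942915626537382848022790493978854909576722086500361995894533648703834865061037909650013313459196796020832819046665982399454323109668856177664427755033826909062040961304357067914065426215657356043783446733074441304670586582598880388941032031365051714325622536411292417955911165999447450241451306941645031850609405706946898156315914882326275604509540054246035343653626266000526181543581163092143906960896071531245322680595381809388301587266841001131008010620052206061679800429531332492301214463641634616244393952744110437411239843785610930321550896210674758962570432046271552775312417277984904721304843157472399776427399806984475909360089449589587708005585195510523069977449646290266684714249166732149107174193068514763768243202751837956052099086790731573836699701958174713370083400191891141437280482146764477861017354906253826387551413244146192250836307962547804990933066644912293069544738329454497494938306221577889269120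08000925310127951314125049355931083054336587160367147619097599455828448019547790125655529368287351643667766829158738388065021824198178255577278513790238238387274205066769082666141462919232669162293013671807274986372261830157168097372574520125311776502077876738831872354646976201470722945959975756335265295426650887356111733363356745279572748619034018777270757382817739402916679895782543534155832533633372817818708244785991309937784533488438866364439575263636121840934881299658603752812224126898183651071021428007805590708935197536579317852240877711197947630735236234041479970445071820893640668867120228589279207401210079234523128306018514201148934170941619482390544845468935576499696275240291479624752630306182627785105579221514776530586796132880841445002955690256301147616197082412599159324035613672597518988240260509858551909155675164060741851610987945878617225749233519321018894439007548702285964432731775483490315115076461540994484291318870126864209622239481454163930248613565481370813660548498329353481527390947670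87951601401931640299984056113935318320106638823792028545771023884023322414117575531555124212474506533394847872020131421846657151792452964001973119448885418322225386117821368193356739416053393570737656704811034343163891686985579229215345260689445776012387267922628803646023786322634270743368904693934690097882145052944241161327989449881739996334759980710227443940045540257320791955005153328674230875541592944886094466702450844592118611727373815836097551112699335209950625975851169793044189032575005337422580870972683831174660398842029725755913556940185061048150106891173958458066231651508791837946717712660409934990051660928018325794632366557314423511247832170758717875394598379100330513573378725379385611940697456292996116057983090832473377796419984200726848284094214703934175212845989535319010266794732904861627182496297963391739722786198987570717255730373768660832130208241379501961402366202511546542097855139018517786710078450945288535873407399421291145104133527764282082827608856665646906928903944176581570051502260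46495158249907307999391392698066695548125496415953939502157899806007636175328821132200441634123308966917296537762391245156139863121584679494555341669657811052918475423050650098497889832549539583128515186588386888535079065357364926633903066959857615410826871774821682140965419271959739845986834575833168010048622468871469504961953084693402455213482390106977388963542889846246262351545436640823168876756100980917886500337516394687197468572548947859139001773798411318215323261046288290795340665530924324406446662217035863966388796672226515441775420768113634763216846866220255382270312761244987651375553439614165336382234846603895563081817081468386161819197353188436478874584565055553466413579825044182156574181037123441198490484626197494484525401640954055570543180746400203257422335588794258617270894079530551480200111637638194442162679140512922162815553194516702526825952221658727693933302875100030195541616324119850526921215862094628694008332867138066771246872970056232064526193588739477926540277016430341299453897861280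50339233066855313347263304395779104049898704095489096155829377181124680005041647805205653978942560735175917256236056874192571860475885249033215526205169205833550583761616915970133173308688158895842502109977923989438408711163649782912575337685654383592685523436404185778704365806636584160656669063252407045679109819674108260350340665511619878383754591628323883455107086038860086963398013801629578891245526640143855396351953836532284724197156734499753331745208710091959937971364751340648053232572723972673783246594044266722147290561653647805134614045467400771851344126618265581956098164772403650743484981254664637474936621286569141074993715893004411020681330421498646936961315439738048761821013348036353706986277334069849941880672383794833141981062837464014920308188497090662104116357521657210337537723992457540001220291984421910032044694601874665660720488225897415768092488191062725331117331058013448371023250987335857177341118529506518202120740318248470296773473936928243386193303993356182041201407140831679201526553645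93228489010426295542075291367239493995311096220008871686976072832284794242100839642994569679197918618997901316178413217271499462769338854193410038658727800506806084757072410027391386972471779228157735237249245777837572396807722785414639652873985670285626393035738632534676683894121878364742370741875053661061848809397360758316864414730872279630101580994714847469888490612442729167260407857797369814759734882214317044948186250614635165433099351417902103874709594251751511684428838121367735915550132884759795740270645177718357537279447194444761305278934647893363714358537024915243903452801181753326651362082001207631729396081163874430929055806557700573674358401063912924212336711791810424744005014092933524121207337559029624004814586963840812309547674087619903388041116244468145010671124292747013072473132203200070583924468629577699568283634884352813738693044351091055752493210448537583744348155418640184226708990076354684649625780918234335426106042083482905423053225070864562724731230546481430304391972397162166571766343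35974961999147710749236293966522916745563430699631511785059752702425115083508957862856268344325457141549680704536275938609857637916042001501543045291711013750602512392589819154506191112554545685045588019473681550111407386151765397472795186104299610955358427523844954822777072940521680031112611329125185165999898818563396781955666863994033293655673574234985870921406163918416435096227891733374437476035743968656169358426067673868953741884344469624419784625093175887905030347401371785595854257422147496073106029448343283062107788750220792006717104106280738661471699794832571568015637455008141521133537576589673720276716042215664373783745329380989822503333450385995631684282857448035770965280190943415070907401630553659923209471595406893856191684394437354874276591646868382449513290297406027116949694593832847193067700567302189430572990415520383769999712097694731463475688829442102571099493399488958617828405437664540169580712459085977058019376730309884988331867933679443973902846506242155008580937506479015599006322736492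38351426202204665766545548009340614542828436512598544111600046490791765131049731744329490614234763521943923075846616446021651837927116053593965594402163198455382188633525049672482548000126737713960707978644546141050080476095101540811618524206125677977833091856891557186497581120435460668748804702781273807676572047102120248242897599000059352046480799667484670907396774971899376511160185743609039608353717199405723829773692378508342145961585147516746238899529210902444283621391037815565325901929093388067799766064579090008670989119194106831340284033444152308082818108245544205198175080353284399062544841393370458795546394959241224979422648262262295455331282793833734220048143488569201695032840991518828284140770073265996470286354988263813084240804249371550032200654035633089413529227043286968297763141081500005694037863497827844773087210264338770870140330347401888019440889830181140738165018694727620476215704112675690472700354553605572473765763940366052873433690476541961754590113098304622682852597464137667265105004425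550836348231196978365053647905648837257608238266373460465125673778655935955741239934816595606986090670959883249123558057876790513118614205145668530103866441924837173451080911189706308660045926051017556180331825902573657590564061585975644928337410495156573207214047071443440836840539810622442683817625500324012680404656972076271438603183314440231288915454898584866786167600577407386369677126240960099833310488244315728178588263082721960482856820153923415939789604903715130451338117977639993522041147922406104083479785116282880603424328805261064178854218442855919734298176347924134273493805983002475401132938832163644954156706519949357279029838631059249649807905953084601194810077451716345133386317949674130809394930825552587178661644237054997488474463968432246306032451537841329647668230803078705647501392798434730172161807224301950004088468387011393396806083541402564775181543276544)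

noncomputable def rc45 : Nat := (nat_lit 2349624681286389970871337653125397270845408122402270625876859637651416466818900754730198098753592159632126609249872517040040421959395163377275390216749572932629367861342920734317888786085379936253722279617210099079888141023071507436140932668462035517186238085445800621829961467479883544371314342625355295927651786573082115574245149315053122624662681262361749243178953262993906120459779419496379306788852002871118183735207920448546958993683083386717150688850223272230077527252081214534400760380691324471891568296395915565827247048569002467036746415314751031942591709365992309910275337526601528025549579908092486717139676279892313202146497951931993719544383707308441323393770747506893158951399714225504780545042031781306307452836746642334504301097562194508455834408147561917329036293414827745217436258358007658096278814428765178451028126422989262236509225904837359759875462585197117427246207962831730329978142683755133272535319348897059806527608442614567242268828578818010367372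63680584824293569785839347620171930760939905136916538246137198654912017234096347423345219796494437827613629469204746583227234272940598265539003534455816973183998390865909293107085055040262719708551582335156231617769309100937503946687882478034876364201415265871506529398930112229521413581961225069894882866659452999228432099067450657516858349818304472648550969162105532639991305216395843060927292273017091343133528816408654222614256688890593662026820794717412629431341433257095825194730780431067893738823457681616189201988213251333337823939372527504215585088791033297269934401587330459946969206703550457885288892940439184416608797449853258649048494408681895105334436596973946577752584439896516337500923129646866305730327017721147962581149289972181091615226227564303915416026203394749944234557823375899981730106519495265894091474996986347772091836239192452473558113704385661985766312603296124198461830209961952517976519363563415146945606265877366558746138638853706846809102819024221957327022661251610170693460272743103330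30337853272990328081309906015021749070363308131411947732279829156464840731438034867006572628912735747971089460100316862563702703462869371506172840565410061687467838226998637246159709220100979637267127298745312951651129331961904476763783147660574980132517594798987932222278613427547734497198941228198022098333964649031272482442313884602487114378456663957080038295458300603850241792429840420135239365869786173631847643962862047808668016692287396205659852687311738291659463161782997242932046474481411708362188857407505744710256672731731830097466048971631727478841829783591652804509809536542043245892777142262493858435645260823277463865038498507133041745399878171825925040582766537851812949085585121357666101497812047765966071104676643312611241232011707595393356439056068483733662441122125212851003506399512703112784272449168508530014256807114661828140693380447350371724489576593417729662525220900304090954267109329292057902825017005837342519249216097667118291360712748758281830216137024605046164379145639735457238255696193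31237602540153881327611949141738585615231385201303280569216174530459274069424575228539438365531715708942065846007217323030881317442177536991463655396800942909619485055987989190650671209835521707100108660867635022456642881680420830038253519771386792383935534070925301209408575953003274607757659311437151568938858219623421550599094872651338957110280693937079740081304078851774033625751267326635113385771348775920924027422771009046368119468058304231896348620426267850210163183569447948285679226664675449094187442436372902386815866577233369714050580860258998011601668823697363677598887989765335825008599605414759388389634939834925299054666301028884121408040163207495181274938537188319872688547042524724799503154729808230452386022678890606801423706407646400904794789350390246647590237770144231191343044176644409367118123010194532704432545561415118434520716340974041029217674180143344982626583373240390451513577379648151475209391518215690413056636773453969086034608665750620631976801357562989232081480479363437806004782661015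76982074640727270106890210126026117573725328689077574390572626491838957273089686131376339188736444976074480022970609166012082216638402045772852673093479221525044887516810888961341050382543734118313908302882900243252422358840076730417979049015204903562722401242792687097384931053917725092462157481109527526267867580826039186242074149035282212294330504573139589720211842740186271261848954330717128756095329420254301026664510650892096318045798573723095925505332039632322773012268608576045664338224804692119427311483751557955066803585325546751463553081762253502848509885839507307722711508628796037080640455276911134105691783797628078989048732984739867335263664234073757782483322230123260268508961184778089214004301040930861745748306903781089664789217259465903515433303255133400476831580864131452615129030434947823894252123235658599099774722165695620123629311621910976316930676805213037324534677424333978587753571338135780031645637363440718045590086848507483868046706704974595156349343500706316535362329984065243659827399841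71088316709760056286732531321886329266968720173261233361220842160075871545083732911395997313603619576364132998658471362159244274673141428075404702747418704372994881751913667485480774496690989226090750334221717254469484425051151460066595523546718680728288535127625650635304024471694541246321944633700966152795782235200239347660781395815072955362421199110376577886795290419752861518018072329858702191959199332709757817724697846615759042967387955108761497614837044045790092291616347720561822791779340105962520444726800213558065701592265921165733435447810374044061215558283040863269710744235333838424343268109110999874487676348556774696967176317254344666060862700934274137529467769085594297604361090096529003175437748005348643009570271691961988305962780020703441705736257163878850634902222423618509883370493443020795406907796892733823086007319557376890733995346132945352618043503380301835249661722700235925455600995416044860479753577142923960326305685061726731512547675183793794194533539756881916413554710223493196062049630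74778397925545763853076903993408803933314341807433000141728412465681047120528960322577083213858376048464550890596730637742959317643098236384957980721948577703760039276466679120016210549896115811838997344207235327620801589845303051643157358096381197943085045743142290683935062804813175355145997753907267530173296819934775633338235634431705777489320314713642590139402210067448223392543450570271444372963777767360171113606155584483906620630563347014043681700769904163290822892385208739632403219012016367353419800371867869264682158387417127602821799091921467253469790210451328579106207528935440097567745206527932339149981969680529080053667086782791374173830806775273986761572740235691373226645153640684464286875453988847463783711296961620242173564333352690603295837061295298835579712909634278045669227043786786244956070491880198859433320506982517920785128970495772804737597654489908752119079425777572999800642845221793172466746239279465766382822018150793713341565367083562463902079968226724593231772898449502679911440208476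73987676354496464017366117286422652937052435568362300099953760482348341785930804907768583761640338193324186305145135077371778611943783133682981252979160271526844147350382893521650646093234649317541040150236824609667282962528210132352522260885230576825428528072531485240145906973699679826152191269510967161110107705085569909953840144582177956273009978990535566811701859719687384955650699113443568043380821978798273483349389282179014221877125391606995756973317403244487533673759556471634115965342949971619571808672875745217027025153392200073030522396453664260631877041162608843108941506454087776106785847701402968612963258850962846975065580460602960046006685831511057360175202702108044639499751317360472162762303627900251029026908251096038332204790807973883169081762192607643884788091461710734671313610766952380553566585510382792608991114689807217500702871448631382721241227257063562687773790810495068568137341326999556585226772845941586787591185855371000149002118653366400542910890943364952085759302758335786979851680035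18334455843656701571497741428818128366350128169308697352468606547367837506212628049815374705858066394515785492409312334773481399053221106792169421378004042997894821959135678681334733678163297308406326248650891625178216911956126272010377387998030356385380092581711602584542018841294561615552184180367181563442041776624943805069148422470780431158866481624326380743129611898047352691196126968203941768240757972586314213020826078949686107291254551627044215436694845666892547335875551235590785112548069454550046908654557721070048287242633304862445862200233847497338471200574532263574467514298113333984330780947088557099957117226082235000069656064513382580787714004791525571095647110949252204382190439514528662222321947097540751953791416330827079677404680567172371854789287770201423439580330623409474410095406062132813212169413900904005816026880473010994890230271271372579047920852386780506238424286758435091402759932620497742178201154594631517680788625924165641681165301219023026297172510300781062662822067934376448338122224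86981203971467646090471864054181739666552568151909468787901849843679641049827242913463849900780268594870528080133506642725560371275422558437602893698326714424106732085109972219470445439556473270663771887580346040172521445920223578823585286038322528018491965426177882628085076206833357395978302015927633046826572266121528400329702472376300816441146986617112983435892965318898061638048400341105146157949780356814741820798663440747121881606719311431008001657434445968335872624554443618031338553706090301682908004063185182478867849131930779401311107876552522418811830529104470943520255199962521607830686088195498636048785699673580443878452371798329973572253036226526792307752508114308310341500746736041783718002751022712829512972106656709411017387670690608893424913397815913945347513199593359849547318636807167466221449142456940571070532386678368204457972509384956888263768783848690895933215231042984241884436343735749996076694172325254696599752564749883441988753381828482813427176853400625623959332352897562434340639937406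17003963218904473483778685147955867858273393471950224412187176859986010318009199476701292652499645727371043246892312552322868938401734954163745220680733138610694613641085762418697693842216184105914676661963782614334603750033273289441627729587699492242833173639234532332201924157965075947101728530777225964697100990892844102123472931280377034156832291397626036381290627953220451820229730116397557248785844184793396674481319788163391133354105278589118309273166112421668471905527281695409399105282728284205114553807555023493512349677891056411950583827102845493796512586947178010035893366127466410121996547819815699370988118518927231072781912880693814932539723588173267555496175061437076527584653758020313671208747558860988395612332109956426873671354273509935868318685534621341190038765463450178644889587963437892305415495537484020025460069404332755622461216398039242777274225203982913274545862479109273750229055757577787388153588122612609199988239140948070411282913508726051684518346195487673392242884339724531581079393438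32210581637225149892720322348919312841101073395964366284212922131252529806334563628744796279800495794356874655582064874078361352269706772747777089637879946236403478956572382624001007984847424947116160948658707025057203508145928459237297352180467493561787212498554049511640743766867491946022869921102157184179436732275847332225774005717178440832305074060032594429313753349815408614750330585793326067018764305446108067650014468605936321786656253808712864508372837744354693475660307017448242057606870482990367868754190952138480273213013148376257341986240130437053816738044344182992849488493930354649054583986234841616350883385455765921891923191328154168641542636607883499451326551371539165624667224987037016321701081483517292519308142947201044456192856663093311463678646108384605540612833491290826649433111978051565590229265995593587936901613465222234378596384061818259177085235611030961419772275747309084096236836590684425954360345461556990167594651006521159138447042570396638266665931683315948460951085291065343813995737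03910982814214068715666293449410835667779161416745092434734670827054494559402147313686013336415995152213257716810021932189944887066096267981549164747061950195399328974226918095413375935724858857731889974252499509875465856798573558986806119805950091606601400886946849191961045735120932642672809008883881686583409390424044196357042164937629554047631401836486706396684746115959120785538832005904878501929543999427534582554007160541375716065878323288076600915383021179848575904891133963179652210108083967964940015367827038050599779090084017324332034768022764500474396964654496689841773001435555839901319073006859091484577382106852137925531130153653974877392990261689067718696166478630122471664291409757724771580095129427332340259216095082409060561569223848456911590486936439327123394956994033723101543398204705534428802477086089432890711213057814119058275271962846112548849469388589998403619055155379874922271212177014607355593151724538820343646563929303700395259255739851707361005163032170820429866028208994044000240788859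47185658271611457564628693067652574874220625328859570903665964093747592110281230728819952457623958719654469472130464762973395793720474111331354175770774704336245407496929073410985493523089949222627517381271133377482418932196240658458172580871886255233916412812028092498920332033959484252771571302608050750623441379440088895414942339857146410089684515751288877719428228465859126826569752538214259291280550712132109139157586945853738349910359498604033059530383570700449395829463762102229844912876959647760513675247970782124082463182662842847942525431007685515086280623113201209062827430640259010418443638268028983710000515670085606960778219123774595347256301363392756720329211488630568922649852503717016895628331336730739885842237642481372192959069219510359672421326509262457975327556766852337338483380647971171085552334576387365632746086122723459022190243753066098008647740442374064048830147560795625773125000423688839682244100049829385704230068953699593599352252131165975059007703024125974813109138963697669387212315696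65385261224468171884408280491133658756544217414395662137798403751669040001101867959655419869542346530530100015629587983931777708127172531292834191619840710830873617856106678440985948655370910124039233500633476393811244202334370640224811160381486779755272199724206394805493486362402962547454098168027178117595854917019331280576918876656082457697674512350310746760480417180369599600572573678965808252188687516490207883820647036024001853678853796807566048370501643780493386448756501334461171501609262612502143267573801627833149554605067122331548206794603793744490105202646830518625512024361003562329970561085919775501266098594164573563110902309577822340105626091214731526318331133908574232251656404324452792311554898744293671392058240013066003889248373616790220318603420709352934947334234621126453758974610457477084516939374832011297943842084240902246614298612607278983461530113804081704002860454354834177964429137255752465063824654815220943133488390958753925914632249021913155503271753706180631279128953002501299958066125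26915401046208655365918366856317243662360103547715367042636461898379996002259500000322025144545885660678919759173721771575282320714116890544563811047130997142989774100074267761061826867655405155884207137512369608752832781556206414661186087268030184392800779479434712915501441837876608195377143222004954547199563689714301392955271820286015223921674087929139784444031303239675112436367294372704858438266209656384913926752975180035041942557926755203170814635256259283264715777500349838021688921020937930201818304259846330705364921396252865417586891295997773305457985096057457735324381060920687549543906282957004509700644484615077759663286336470299644002034113266725622476911530110840407550123460449338562426297798930367725884012059208200953565946129250839899836910234516549353989673128069983736665346993016012595169796648656449965535063821498452209702018100906167945519246007447411671095142779585537580869249464599381757337849202683217222975094433185436815455339040696326445255643632054493639418440291829508084461864473947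70364325445996176055718921323527823709686670942374080750395829377194651730735876654063895564964661565006292542775337596952911493340393793191228756680477545310795592624349417619159026883958531721652457151986102881756136042506224621544267575830331233442310638140029959729890821167129153202790583893285794516639509269721987315690964259915045097310404584014909494904092902196240440026316146558296060638567214318237026496156342745867978119869148954884586958786176785542970640784269844511801431635010653856712159676938224002565755541815099461155649761520250359490990948278793797922455352741305743345454323180761507605443626555728314004823450701522731370590525885820949338253401796832739144126338206247774534727585911579099579334451473630776432718620031470125297122454686774298153649762734392770409735120071575477489323515678636865781699347575759357632939497468215673709821870993369122407884188467356600255315085975996481761820821473917356299110849167485681222242174289980381139693201505479217882636491190761583470345210582372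436383925176352150409531416836810651677092206518932897989780888277130127969886977985251140408740811678683606540969454022229054814542563327738882717367042845536012972433870473112145540448805920540052656886724245339467067511315237487987711936711250895753597603411034470560226473413616543456021391271956193928151912299274417929091750708252384792482740025857825492930705847189301060527708711195519029763407960588446241641602427867253354765525030842223042937627281072535387320178153069264235046539822291306637652774078634099550294220508015304388764869635753881016617368360229853422569558928879875344885904290911992825857652124065688271536297856860102251165305434759973791793091388518572626458393931188207795543640153474119679691672325459605185858458515708995012687031286449919262379764399445860355486762765574228780054542978719558595627943972440019454109146313925321236633344487337230336)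

noncomputable def rc46 : Nat := (nat_lit 2352514248493845274221686993379172702697254451717674159008651126586073611141897097211261947763729555697695504051072287655559269894111470548739453305061705132000008155159187751622683191585051627017742010652676143792333759793071069479224334515070756766716369495346809982226096865275347737014030249538889159822437485667478358205178419596535246568977916792123900745979887524070362289071233862564234125330944601381742633519641931241607279931378668322950445146097624511844724570987206497104227125269869459853632331930920128997682954699704292706426131063570834239386956545310960129848893021870760933658320185862312208072057295864426114638539564691219584504643840396667067400576453893125612101178386893108996141352271209257527133500390913412655473487930077613757366574297917979425944160943566485265940901591906420716518416909027830127529984492603199661247662812686704151189540059050043324855697644727697535925980374899917114742719315866699200611382831696598327550081922717369805724069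88186147502341841260163081009230832155056631982794815444862942292457510260308568032171446640754734421476627612940312318214965251432565177246150803819170247666565140521207814169286016045332179688879455245953649448332260476505415277644055620231220450400130987941977434438321123896007263979057844167316184005452228893782444475826368078203726339740828691091902300555170853491309269848511171640708341827622295138345167293053415772466476886983274628035888420518904586205528014600922636983355819979837218093766841008756287122201599478031273275084946220138155358247875430564048669103859134618624007017368689504900839463516902132859579584640219608849291448236313490221086224853929593678103213445109810553289936830035200056954837314918863823771635510306791770153946823132024669432160860581062368831335129857876686499752739563252521721357711740785594197362830479904546822947686935434761777447541169974537870844885919844950267573824836236984886785892801422790631110893487968617825019897217642898264969686484018742564808975229346180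58362758462224676828566808800099998296154983465179556045974792240594761980811496021807539528058274444857973483544494298957199340823898853800975066908657378803756915414384124028880445132428337949385866543811800973737288436244332380529663818567995320689499544350742115575530368319546417545017766837385051656989257028500407280663247606146080445747397202095861847710552704907390702538276541325738556589812122394468231760827976796369407753753169799108421142803427540935072738019818053387909257500206799551500091834273651621025084951180282793280556776885377289361138398384440288036562396843135492783714131092484371621297022947962747023077582753639732162146785525640515648179427826418918099093008443498913375218646158447821832078574303258951684587699155916513866028356642976561482917176642681916602033430810959803566259945690186626857232146897222774097385408695895508976863002100463100046525850586772883712495147974989914393566052229441063880912893227965781435054082842316068324277392146105583620327290812848544237422271221723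12655381710027386565791800684232426652645351637264981932774445560724602117214068648870007051501761421873370843200827227775860470080359628686657272436407263482155444984346275188625513828455542890271627701790513404137839378221561056203998086397121419265568922186862652504903974922553898935008561525939999293895198203604449847429876433409688861541246955793542494465995429758318783077018273348948820504180411678612508466019548553871650077075267435473679026930863148057019610444327096889035490169786068604137164178633220666822678886689553679765400023345283856818537742791215776106096489161304950255688197398539283420755399335409631130034485679407222187996559701908368252778151637953156286816948885235329405622798052954991577505737188905282876812285544735623200723634246240447992879450176280323369675683041145669109758308224526659132338111021155572450580392418591316015397557246638498799856898593802816438203264066346991435638493426465996637481983367200150241195480614336465425453996373807444754972575981583263231447931320354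26767042553543393502615546459121527331126995752771146723422385532623309077403401857096083323657029225494406515906111020896936923133220396174072505932123346502319840867748278880713340376954910249215233191162430580723650687506322831407025357769573942540534948295932688472117660834688541206183414921768016574204095877851331109924016394642916870065932168739552183617348299523575221007798548909522287269340962142745707018848745997978726665938226343290744705157376589249981947115083587906366555560681597006974452485791544953321851874019341530835973142962183187916150669842974291836895055287349936897584742420316367415578208028658754686012950864544109158867533604458983135497242537383333598819740311282048525912448181765748739114711517146078983688216813741032163557561727369607020535573028875841150440040929393721090633731832614898412065616433073057432708580603985412274507381549327389997681808382988626756233010424381791973570642880299858364580755994600531595489602326571183862563933307521354333472998945789510155145185715980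71366776545379124093664668552440002305465882107295931411543339647696286414143570022574410577553658510827261119650199270433785157397892914397022224596522294129278670964637318258919477958778192069278221946071058271976623780842134090940685053159385769746357628769155433015176121373372645190414371950735726807610389950165767116428230347418379513502332354754822078940287042289179535896921770633610678748929950230802287433802585432228043791062173459592779194799699484991840297394230927900885744412449318386838598807918749567299131354903810130071481165589871841783741100726797916478432751237626181267422970960291249732594261188149020511468927778760365860967319912531648119759783388354773950623683691274195108286493401250203977645728825185820927415781108972994769983253520441316639246467559826463635984629368575267248698339370178628841092423628330802052185612435986264253187823681807492522015138324287079099072339189401487582181055977028360299317273830137063308741634860522878277558504630296115025304794559832494722074766645919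92334569265991625640138856942710850892291141727000803821353680566322189966463062232651941430068437049081063791160724396605089472089698800256172520464613887717664738760586389844571554617181232612462811326846434924920121549060492519848740183965442172662354325812214065503763005842777556307879222834427695440577927728131598551806880921126166372023578267340287294169279785476292228395045275911246728593647091893596636653113275587975725148585776902109072997484249957853540248723078325502709325362817705694255134123419228300385914474634206158615004017322311947567923522816101618310911353720866937209526389296152567105761173844473157756871868045212189255120030417082427928767743879245765323345884469500694652391213634431037565133246151560527911066177301137413468841903914070595244145786568996064152686882132914073730130836796106857551982422802289226648389274607130116090772296248295289743332760722689804317956657011800515614992272859486966114341525869499699947947070000945431049529032938097806324820287959971244353152863742987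17117496369065671335430935127438786794651785565494167816474320262978139786523860760425909175133197337859030587406703883488005616703266299640124611787432206761211206928286708684083337926929703391218483879355121500543753653024534089987121657933022762313281883208103208361924006056374698545106217439687234036844205817429530627131027553588321207874591338332991785335436864333355085445942460714592542575446753689402141193100955916723612942955577285429769569526234150578330513411101612878836937104762870185584157430290295294475384252723041259774867862147812631889055506091849696469592853406375794434468800632064929331019200923522032192147750486362406630642673302466130640150853270938540307271126366558324780384531449607209636687142888733290157579042388248430040000700697539341164195815437629982343007761185821650421292815432171056489205299601079233599171322684462806932152297761183020486395227545614268100097560686916392557603617263568853520556813114292811210229891796946253617514199244236404648717286026505843702308075176985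83621707757050979506898609546635935329810644532951764618476139825142829755307337038294471923524806642505022046245798785323644450263049663994344782508473716646375726800457329726587752936905607500821880985039006239710382941677644460141169633715989425788600734689578160461401614694934012044442841593429093859667636231279247210129543310338691752605829777027113815662422146554641829212449874328210318357938927650477898891036455944489029787511266095886364489606530242635049313788470761504680778681854127195470004303876809267241240839834573354117656289513248907848958894915804093066656916318084145284217175343569834015640667411449522736421183993533485657378999324648358437065913283679496383769954729585983377404373923181277724484741948398522587662678417259331366102074549131810767619500351219012360262759712239680977034938662571774427247260614622503568361784044797428552560045191475166026124781277976646192979711682325033157763220214361410793059235763436144550031071958046316141464564640606382219162873037100792731752382275257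16092691541313669088676913030912338825513733534972008191198266343253611725697212679544098809070216390701911544587797596453811307548870769431478670302791443408157188634289087220463707632890210729112939816911764938698316751721974800294540591999147319240589768670158287523281550372240122391827672247425832249003174411087665105431026879511739900086477604524019110383356305925504465115664736624092465030627138273452547142438359831056138598024871841170766878005205637250944058432261311582147321855867939557806539412859797676532606302147265433608982296690951701865798668653295603014013636855608304508397896655459127288639345519595829404045318421877487084435119578187225866577183638962865102810375984607287043797977188382240372748963631731031821151491391458038262525220994002569330675290585342931829582396904128635401172442995613075729067838752419943612742115781559189784166499184120699188399114027695716820976162233842236987836427096980847523328123208426565954255970834127182907540884994284661685096201013477487106590729391415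09037941746430085069696502525711097778548391792399383272425997977845448553123299717350383235632017912867076828727698521206131708797569706847721288890680534637636532264149744967695976031723073276041587549585778365558501167138443255875970588063732162705241459555691634753762942273503393928827558200766361549787529852627955562562767216226587183306178866681167581930803877281969726908798769152953017941410482231492978366557276765179529670023030305256729991316630177400324296778316752508760938573738704794365432364850570966139795806797631432936092442843526322014899692554018819156327199416227221665052665883005335897054331251951165976001395159871097758462728932565545686454339544429614364925439869116925719270175580352051222416914881084715191377126371200876727902431659596002343270481712282199537176017948557223269202202154597330547404484094589378763314944529351439293371796376012567376785978688439470547091061415071240105831254167879741932887900121709484268923467191439687769957831400165104548692432787042664352765969074285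71152549596270725089460059906086495620862700170076468625820252829712152001935918354980567524527536091954978266916113967011886864506097412932597345481134210386582204890243466301817665242935298101457494860821730312271650808038512980507489214836338479080428167634758249389541324503066394552628731018425542298989165342209945217137476448040970023611337265945255808406641083163503579283987772517013537388053389555302375893682558317941601908705418595742125472183997288538269212555687641524389025100381344734820420305082416209185922534382150504048490489311131531169198246243448162072762998766389920908626005549087794788912495040201049788097556184083421590319234603368979409551470071504000396161096261887865541470742555300920724538956175055990989335167250187321692568677330020451346888381318874580163433635791910257375426661262174961685185273025620208917673574320500358458857345487045202017350548473572818581214742457596457525225500365595910845064331084571744885910515882399208860285811440319992979696071399337833556416135830835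31580583649943532373640704516258861724528182201610838222003002679672515594847535564055784830074781511020482402958211235720059090974608895202130075134928719331567236104803535426088921358936328754481473252873783576340376776992962866989673850222783760555422826058304674519879298070624969735539240106225304957194322913567797971555601398124574692107987107548146884079583834383953929882343948672981362262912792057330808302290957657996553873941165348307668183308736688126072846620523348240797417431630871091897309389310092414028068877430541393452884660363111386075889617692002660603069125682063048870984081057049802753553991456948302685309123371003554786078150074681462987436687460286033375547233076800895216555864486387066887379080779979511689995425560678842208836704804139900004651733418400515684179304578288389261240666685581206016377446807871959051619300858655359734578280666459106994557910174656489104693447565705500450668954177431488442997120981141232743660791812399431946721735861383332811172539684195375778063374671184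61039975242923411738340919614870964644606858896651175646324119378987801282047947335098916529447615731473615827066526651342793285267489363001169161965861456439264822485426000800036492690463726482691693104181807829756587086522667211541602764177915683698893525185366072685866176345971756690409276214158830062811630436613046365615772655706707098939770153043052083909371368063645622806745439266582275534662087522719180201282788747636522350278677236252432394955413512905981153668829353267514958199688994547760613567188145788030690285053973655314553926170792825614291673628692729394961435753656198729168745665692499519122849560709545996869936535061424540575210249262895290271122270355749936100167841628536441343630798592210622082748537472226088665373397907767006875095660878153051236531906666402646818816006488965701064755459437947490312284798784364902350336575677205278870993838767630268309756464585234082304857552073142803081620181836679333890045015481312908195082758891293333493708236823137646550603691946543756036539821411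88357084311456348423260414836854773214161466488855836454367040734279193337700075658503931943651147469034259703042099950824217052280719565155865507029897837745812515294050569572360733415764259381461771041608657835979796882077821305179340951930255315865242974827430776893065541856987030830606444190154839594411726725914204853474034576554276934906162251878085437406429328308866990181915734617465894413947753577743836890181425213218308216404884877744687258101335292115419411065620384600753192958025714425022408751239126374666392833374564221051588511032735281021882397730535376397190905622357065271844679188185338065555217052492522437845173345270212890962256618918292904587688326942490562343523835735003697025848890037013451486477014658200215145534152115360232103549382159225718061903769540708482629487525023082503917418694502117212579284942654383045155189972855635089285441939332939981093316172740303083174224360529783242691804625468996610854921260775836876854687099465481169949399463661037753484112621484427387945149202564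55797686057416341192701820099833000539719747321289196452366838510256216445572022390765688709728670772943621810861204675508751036706323291714894793711210070167342173526214283449009046209671604390439265394505122680789370801948359464892818462654984748838337416635298911950990818744493924419322303119781865037758597691057606205998204331940054697468041244970507254963727178854852976325517038244816330991789128893491430609591183098222481090746849429857932067514536850691411193466426170156059438434278753778889593303142664683104686802137349964095366035476272696843560907679264044138768450727768904180935509940134636690694730078517791555053416530676640584647076557218390154136885280541581919968502429578247016768429687925519895902419356539768458735077412370507245550185119766342399651450243194169954381222739395727666660134138232528571359513829035782439536092974909447966521810169453996694937555614560107170247437871536109561365594787340981930979636677197517809757687949366519986910251927017980712525318026212141432121647739629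74674479812449981032401464354640693871065739518956879172922097237944847612758317245530123809121828867727256514606512316559963840426526574239957042480986803833941489242223347714079019994050114660436238063747640151223359811270403667400674524408640973679807205655250014415682328740040998377259684968149126144497912775653073354590961654306904978936477162018256709851393763526970410349327928719498772545413309711228253033385719581646354531263775297452383365933330828862707230643655805550857768874137675065653337559099040934912101759277854624212099386015602918416433735326268110464178194603561426644634081105756240655551745370378269777536407790932336164658551332724808997714006348993441083765712709966671171426172087038534205624286716118644052727760824905733073247783302823563515194454274644915723478258785083142897110585414566696305053931386471697253453132434005924461530049349214662201878262504606833066802143555319175891113707097077694610486944370363378845836482852323831674159901392995623168800568490234497206056397994874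012003055624449455006725655225598503694327591293160396952223493832691427764926953258310013573693922541570103268116982653997395965345488191935361415775554253727341122148790411801148534972774816639220414835095509141810308091916779016029173708984450453188932006693370767097539758263370106249945448711423708929275282875173547558229836289170945985536709029065113254980671031865579801740880737139253944018115912098909741818246842910660492839322104594769539728621854987645403805624226480975595384355407504373918420049510752840780121313195959191118558138328784306277208957281923440328008803523240910475755275364727769678612138072195286486829240871963847002665028383787478152883509336503190539872188990747850505255512945319679031233783065096133746524782360191942072405514320798697763423760388430061882895707657083851110884691348057504514276062768988227076512936846159629357858884280651874304)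

noncomputable def rc47 : Nat := (nat_lit 2355371107679680008996213914691123486716548509510841800049234421049502812847204107170598755894280644085474657647653769361964834366460289061344765200162447558290704866991436263566976951945361486837252649920789850231364903331559158653363019348329024842443287455288428911901840506494434814805417324563941758789916695003394296024932107838030463623217524177421647971580209228673701957927437377743479810143045190005227667136277561823410316726047097458298928736791501675257722865741419729019721644643160725849024874093491468850789381289840989519792545358823440734839996557182389039770538350053309878840200717783836206841876110392439765572099463439044162217943233494017639739738760245658403218721116423672767367861601763733842403923315481050494047943427033248298859286802619570962300625596816986144418294608869751702294205160868960515903888865855304924296822237657388167239941104198022277188565785048307662444908807239595832327519347199801461379312308353999019434550378712064529253637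25582688787742284531047028222927675988977039439180690193245877367998663624967752257079219248219722620963958742786080071377562931501214199764118904408963360242729383005604916891615409132534755719465801904718270016586624231871218841878137119828279370790049989453219072394904762896373955185984572003600452268667783624967903008049617588273570641318566516749796014306273173306404002664524629603045855272925517905288553318087215834808066202963603081370554781218696777724622169042573573506385509667904221356285114290487275591441155343513906664746644681602657619150273257905736213807064670125985817983934135528181936654036416147541298405325106597161574009417405987679229209603587421251694867818574482271476161869946765048790574029641589815527541539700089422205811804392771756194909899281565857673681580263852008560792841477822909922125233529673040064914830283003613882112827792890607418209292171810897175464936527875401677075917221889245635202412658560177730632066315103585099271790717817465882668547917421547368341459797275276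81081246195680921712822493978201899886516569088648167313297955354277507243708650042481875897151864212453287392682721822176650189165326235079144319820658757285821891491914687749499200675258302825263907520651243149333610818693476183041129120856086673454740949674225282073006160970120602579694387222030454926902367428906247630998417931501603403107354928362876416905151445897680432732172023800244620694356869529416125321271194190445090357837076477713060094244709316662317777273455101938685600076329071047499514804347375513027299455934080871620761935457823302020949915344397145640105351037063207024785650407416815566590810162319056393145566633610089284597410337394149782023218831883520379205197373421970499549567483861855190730008381329455499428621084616532135734343318555395846628613434132053571471669770385046634730229263070430437262177791755586314401779043194144463414083842175408740706034092060766425862430259034517430975671061964755991218927589036893322934368500079955235217451025031797955161431863841216363815321189279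97470184789417310641275664718509908701275834586988530948755392048438235091553063263078658662064483982136378282275807118464746049654858011477812709103559277505071440606747497024693308891940419696708476411470903762605529907876333222886636698063119869564416879727381683827300612795890160839777642836466391632067356207087282219874561451938976655242898801293269539570867688863122782775121463174244871053762686021715777170124202255839332843517246447573722778182035831477320423570916997988218358715937997744026485181094174461833022582994784378416146030865241502029307757271711612927676919097971020954786478734084619965364556995816143178939732793039742681548915635924557997956325720303017085338864014944848690125360981022127226994344251809091832847087123634619950597740257089831182151073338089952433265977647598484082911992763182080233343569134147572839527265286551954692260148444530432325045694020590543889376816381675806835015398831898180180596571637478809058146849427489513644272902518997132688420459905230128146269889373274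40958416941610824220028013796193747317916623246094338157750144995866454794473816149924265079516829534522721263852254003364256490624601854749018674570647022115833088806122849492417588934929886291128111169647033066861281997515859458100111987248981526199657816577057486505508001093924484785004375285415889615447889081782335705504345962745715407912578901522535836610414727665382884966670224626703492140224635500830404413185643385278831951824900379423532251389973971025300794026240912144634288265385395186311841699234539629613832236373047288003587385250145717786858811066002559326445429404618491824623397039631874277593146187236136308895084997891064636069912667672670846990499845985764480451467716541557202206466347137653212479178887759132580514528301803126350009122267207729410368739357379576993137169742945274730586895113481678276657879119233608534732475667852482250167210285601639040281158201582241953970193646379357492016793711646282153430137221606826259582838031647628449148415128725942897685394079043087840832000733647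60479822708296966245130172639803685281443818106426814696800147238418594169706197689242605077008135819558744644067277143885614634531929986965054559776060305343899488584644187796737531900497344359103918657304416303013598781880595795089573163083126101555946725553794270091038777818789831752736845707406488576791828364913296474289841887305760131980003875942588305130435389952372829020349522467374884630036902044731647548614201559181783466109533044632629428948397239399270662011198214227039739172924295120331957617562582809473077453205382539999572986785764072360607997845071135143439743809869499786080535627212429143684694213700311728961899462285041096341938487046483268385333040376155421859426622533782004549527735195163432288213798925104414905066191308877163987106537054393031469601335875051819986312613534506468117636450502268089568723351305081460886803929418311373169081036750660238415522889229161890862986298354091807605318730427169063277927598339138639206931597420503375129780007152757015745701098561038636731237210186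79133752972574275465060694669595769004945450690912751418723008868382851819729678731934687163069108260697981591430866838072743594318339924815172723430386365085906051442377728950296499806257321554627025791537152688188754765469897526787834569655209451475093781708098414904481454674548026997982687372709230653531259813493270558372023872338470974897054138460000871061611061074341311832279014891208678746817012551952364447970791924637909889826410107520723617996120990402369700504018717258861381165866523337278075051027022454056865477791526675643475009882629650989915888760387422975318414247050211486858433400240515136602902617830087432531884372326314872219880794081289190545682416952954306076086637919916130742251252253200933396438660928826983732880654566974433136327926363256037086706372355813591460214818575092417728252674538209759808296124300664745067664031409241134046527787924790703867274664261651771585190348624423099367447411471506296291804706303483282908203978306643611456198509016248916594516043717370397582343097920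24653968807741056284527184581068675561073721131327768932432456031996895731667912734932914747173498863402940105846195986499422434979200015986853168722534336140494634690379995132138269257982264619492348285741620533611659166702731537203478006257109207843322254183138619838570062466933990348428738219628552721652495684264984561591800439390374368337214909091695495421404980687796478640005768106783118004158671971900962399847050957242770935186143242835473322190342060764632541511572517392118629993778757824143834445338843448139034446901178810594410062688575266788206496768518208842571551020788615450049137159104358829621065961192262667129157380892518193524323812751627732244171910019062398293320685167682233891712561516106225303973453376703392792375234715509337422681604763700277941386171082409679338065536269305300612955516660120044368453421837062243329719579146080585136369717091753010850798649779964497502411375459188357227174658339311366662038894844910207314170942877031923961084121442361476584714300325339664800290350612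66762706842212223734277054401440011116500245931062339451071469941048077336463224688374050711914529180883203538672942431255131802670231212155127723231567866306086552466353656178661123522143413021334542483413346843053496268546061586919904238239997168025660349218044276471575828033823083937967063927107348008912658480893423139760728056115294287787729354641922323205457329974914701830009798248867900588137486776044497413528289936429206656862233533464970384001219800276567520869720120408626558892703547112696343379090867021691668234026889301310581759491152642444907074120638368398001906632020231794273229281852116505305367459036105965424861724336403375070568671535814264279881807789094666795919336192501859543244044527723208128228205135065635678312039359087697603625648472344488266708555830860315722380322243315365590962050248107618401907837203932089602915507922876829515093430789574269949882577514676719533754992407091474167947881419515985083000953802691818478411226991982483386556909087123777357951424690333177266705800694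12824774376076717326940525895108405821247501207859913931979269030846914359738093820560216029348098580592105285567809447916536145857823340191757260942931427560114564605825290435071210231377599702368093935497895831956485401420390674966675581224056582454292939707595745069080994315030435589332794718835658249894149899675854303809199679312608722090304391856981632340569547711481930005163510390290654069651066521168355700060306486969069561702408052984486662260819809880865834376660687666001505802399729812812372299372820841179648611551415864113481990280404525727523639836640482634134644895590211750773046828534069816311261446409273141154074760709939225710474433042035265079829832909715167123508610595935591976353976161488766827379435859825182297986527217124624942240214658466517135953748065081812089415216117981456930399040019263276164173662047407929347814662909512705889697032604151167034140905268083605726607579157652427124602722811099375709555223031600525394653693119558122084431770900700613327985821367811749789903349223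31687882598969877306105261214449243757497397607081549957806624088279911572373620548674930397488493310197674655533819119179863031655986297945955719637759336293517914996223047438238777665579028063286787694798112159012282861505813299455123148200119167621798148158449528954148067950386850297112341272795761827078423660781278567652911816211020046381628749794293736823336372452223475680478101945149636335625821458209963734709813051253112165321765965346441620796404092749435880201160939298465586169427590554993115521620916018851498794731427037426191734682527827226100353505704929554714798873475320764450803443819688280932925759412689722401110077650494774308696428366850056411243523257388723427274322892591267184236353987089515063607370441984276251224936591413003098338557069549119851716073713138854255806705025317956708498712235565003099898898205087376401025310516549155029985744683071956279882272958035099800407416861032315798126189296929297245333871170403731052558187797005488073323439098243658909082060565885752090117770421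80181287484724345577165970665746584909767995745964907362400905697807386380486741928665502232855748890180746036353248412781755474642072197737004473008269345476257468365540488476852893992191707028953292703185785221235204573959600247738936265650083447335026467349450641188660152045881043967751724513153294256597291554287479250359973932551638169994581824071682434640506334133558602684044145203863466105314956819218228686753565849558036686129925480962076207095000733685998747015712446891373598331892945422692853306440272718588273131695843693236604715767396927824321860452222810755380866458089195054645202574295090036117801094885398110492932634368560487884164875935196709790472940770513014736074033703217946577858842639049134114820131359945750913959515656760448511059368741399630143325656148786145549636122611148970137839004304358758911136382855887170285239282612850123415988776062792022692498158523051967551955543768975434582093613720485634687212834015033899995515564593203907102913690703903824195221058881695400480203823690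83278696502060054525538931013742158841257180259455114233248119467922993173218002618135033062781543668588219213641332261546237563945059438749577165113815209477465887701786771486979719116640155513393577073176445475971139330784876290730443957031388354487051258827618309337345901514361033054672785730431048767956427332859760757636067354254472993973256505829402244340450255085108217039145795841817178235612314818720857253203734022066541868619640314970759156884132522254927318538697931730376011233623320640775291234983361141389324662306097059906705231378294779710474986268779419845522559181950314938276383194096818429377210577770424363631255203251496887582963911121661185507332006770304144781478626507241471942989005616686510372724396914370624919035664297717406598369355313655071653473362837214223480389617022951089515550149427734238968868559262408484702148141682542057782665392854401953006496713869077842536009035247139233036067155635479558919839267624990128076890697906783424331675502993394371416309744406398545042433888144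01621641288595746457085574227740926957880982938698745988575715834688004981334956952630614440949678128305399568302742113243797615581984755537453902800434770318358906420667620410198811246622121861690974316364410303059866965969694267533577026414271398278486648343262297106116228859601972283064797983583981513421389752927272641802072164738857835737286768985681078557234786067362256533184654096531183677930702490591347416266794893476312811046125026974132783467941240687591479834237342003653771348997060748569978728222437721515616670772224744415188142736847264884982864309722887025054302280970920877288345523086175267463104083215772542980880197169156001281192547902003127893671243901142446973845825846384401480916266921493331260520013697289676669724963716693217117268533847139527664099689523320089787895437361167021686123690796519292701006304669165925516336861237868900217793926666733528690949211962070472604298623614939446924808886952078567927600281898524926481292263343885809266781257912280423210310228696562648340766928484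05140583706310909519585394387082909959640894641621521983718545116594512018225348552818064991236910891486487927100294585747061964895737692730759425112154284901221156689229735306502014531492069221935803019411164115952160196859930835298004123496453420431784598773015538652871874194917337416648440591009482856098647588896685741924770977872985040652700863066846799049868052562720479160272105363116897604880288731084207940066273711655520751210572029184424655453776696271659353640160020304885236246815623615416825482772316849608367039924677473935649286321412940257219999327612704716583431353646075539299250435340144917991607256411605176961527873840198716511517953062439286744692570041036746297514559238434079423236765333072959333039102553558027441680754120298177070387727454161943065968783842133089268670042907870204278533338658165149684793710372140978193112837192203434367304932192112044599817131496151556404847526796213516732166388122822032129775810916326889144772845074571075264788653034902355052212400814158071609954702550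61465478042076635568003667599181266246073425709127846523405969173265604725095292045729616491741446147785231037909157171782264547481075992414740856851524005323522257493274453325395509319049389909502293525859185920579129694473980202607942666524956078691683004223871517950858943239891010051287081429805062811001580081734357078448153363196589003108584308052782996580035137224312763296732922428437446421075893713470871555981029480861964020683371719807448379978566624431409744625106309406626588625281548697233457079705216160968361805210192594967982236362960461761780826601300378817168747991348173684427312941142389433076099542498011823128045845864200480723776072074074113286213255719384305243134929704866018115236303252971560009044190789925529979451019788484340056421815305494241247887776572978517382170131742824654034406029791644905009074658212079514720538099183186631729863632707091496067459822344591889040919023089867941006234123192622831826414089547068748746927756861422554312248596226022284298716072039405424723372422689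22300136850236487883530556172383901886359442140050465912497939483386441343255263764305384620154654617084900966769122806257708201216486924763593789887133069332310256440319525131161944227093377968817154306705879316266362712288703571475849892793745669477351531338098330829030935316910294447621461246873851113499021910628417971039037770148224283519164286918938254067495211751118190122937936325387267948705413222605101441694007928443453689472669978502450986905633138431434076225803868588636572191454646730592363026680260052562735678790827062156519588701172220097487441809744171179011605792430896082915697053654437840870645872415828667951823355654599384579008549479511126448172592183435084226545164226498522597721357497277253109881165467452542188291113042332102846520362088585876045981522247812560722149632201121074440877227492436668807648148371737292975348092318381932985555925490602134152663354752599193987518194450016852691311245107931774979017040386630147635384435113356407158637939012680268582798256822024919307194402266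455165405682478407776234651962235006713419327661509946018810643978217754129860299520140101510369323772382165653564944630819244641735886444512112210912819345153399775978097448778980088820863841272901347925967620329629943113933593103017623891421647988135394158841453533146550628077997981625110198431012005427922769120688269597530323093823889894345257487950596851243937734190803318456424647572109587966626825749537854202990325746083772069253969759989057721978168149245846263270351143334471356730600610571327285799103652192856543144131737765367904642709289543560121272379035089046110497931880467402748015137027379655610714476897621941398569292090020444069867329662368241608240304995096371879440763417031953342262621413688119726418365807263417632273282684486594771471790679089626254712419225616078645212000013268098518397302911873486884320358004504912771255720172125814089064546226405376)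

noncomputable def rc48 : Nat := (nat_lit 2358195492240829080305161971503517384500978667026272549135140003609978901123014893934460339905331854877450192071952446153528516078601569336834429572895329038081207524373841773875897812287826384606646968967947027142712347566592361857579919179426527369113608993352323027345311063085260831353989590081395194433129635541149645760313705674899611045995306279862284518733051084635646527482235012074928361852106676594520685347022909856246780306794973361179737413082831492333319834349578265921199834051755484390520292434737110434438628664611465462730143218491079066189808606184222735779340478303249865025336481362959067017834040623249982404028333805940651658075467239504569516378119562085319618443114652220271838092831576212186896902069735697509406640000117724662838676598484862362510476739036690373909282269610853432556349405547228902413657123634573265661684088566464236621395556812712242631497492787992701856754020641281545818264902889315493192835025416700412597826683242412590722671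95542332747786269366958227163955461467913636277834200098562376960152332003344490548429520496408213085688962619733817707193858743176252775996633232692591703436287986645967370397347564733264401234456897379688334971838281845164818882497043999411794353274973083292710638159835889622446089707667694683247841396351332878132508050557560146828560274897094157618199232744163589529959094485648424605134547145341147140916529430720131148708484710126503835205268080626922540407534014787429741962500205913649843658109138808452828125821958443971303315166890364000630603719958013731084890980714209212365276012226828960621869452820774438206535936690791498120028138981642951191675913655757060395439516052587989722715970048488015574344065213435419620231701306221319254959213248787737801305824246182920216106319550375402713878104531335356806930945854840668791746175517347341568896656049273191055921643211155002151469718221281163080805602023569941858440517361256719035166704450782441267002775041666390596259909132896962238830754830518265722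90619869816483673419947317406034436378552421913855051256603700987690943364808784147961280047660907595055787706162363115569906555930468189405236299981902644175895789630672891595927629032822726770360322993007409531030139929491925486837001825841265049787406576342740314776197691134636278458430553899973374282092683318097861321547103645306364728630817507338101481729213280448886965020029311556988618876010581202605487495444065037782084821118267532496030198311854885234228837283204160915774353698924767035760827962154997461420317095679665411101911899909245517361959561134744211912181920381462014551476005798617027106125772596720922579539612744139015817371647190961975166583297444292764599816436603883741540908896008182013227193781320338752810598457530663159808379556761309609666507125540136619609551812833297713934893429542968097508936602949839943670353176244682027925920571394830759500504350617031971826360922567332837387105639354787424812607375883362279049283468668254591254901413386450097196255517455178223337769592672601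54949155949573444198082400906113934209979492913773766675889802769670491422363417848982064458228228490805781616311930592967766069658954263058357477536529588593175284808992418058004170762089599567667169115724334261459912233398370875567062597626078685946143494430159228460464419793549749220627762683382257159993794980944564547126971464097391955320130366884968272455645638092655954881078314845077258859624418254310749690489453022239918117154631683585560660921491487555054474379575053575913590689329863125873167317896797770219587338626683439712966300973307194266635694745200368816682927823295520206427816426212684303568366451062875174056967462539306426928478310795981392168610998429887120063646200409647416906414381843860844567178893082887987788622342553935863761419537397032383880552288461082894179937994395823895214438127252732476537122897021257127723137076090051254472768959250191998778501597584233180271372603583376475823643811552670962011553330952261048648246322415854374381004250012561895999330687542674517633177805813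51522628919602666125645302970220439675233258225616494831611213131595072080162659137312628951207628222448739498358164334605345685816300963695757539266783210222904265393935503700294706940083896022874273491353309984020310220671806303808513684077077214437944884171566442850923067435568941615335723058512787476646974792524228239218255530550042265123756740027625084498588297480530886998840622473267540194575761647110347833190291283850352501305995277151534739981153322444355234502605672071872189848730506810772122664493970584275114345289972208666573584025574281733609264820118341156532605605065133862325285954784209237685708514973076732823014049916462141154985908192813008964752212259981527940592231281233697967421852924448098209788692110793529705354629590919182248072481542556244176751700747844876552839007543161719624335492932608261508421464647746657766275403349416808417698047997387046527393569374797736252435617051159792194421804945558864309385102988013475993151073758922038371184281576371276316707355871124041651987395204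61829274682491646567230287515836446022999947499255025741147590821183223683895277482729684666303829779874552292759910851957116802354985779234944766512655500246481108472788963965721134237289103162998382511552610637995697655461378569476874464876280122612396827023538258899991649261355846243621238516746832982138629123657620886117580218200816795684232121097505283315787496495445260488482092444339270479541928822981736086428256363706621275308956899669568330067823000291007367062893358688614748383602415376258402336645254940388488685095212111407165701687346393160560356360232477677200615036054469629861265347056103988669222356039363751713149340783088514679126954249226259682842167602763287311193657549796441692843816954078321062066359616951532955203173676710170226176653444372565128099962973909034921697284469141044368099873525043760422104294168345295954793851818828168380947737744542184748681056959697563443804119820345656007349023939867351900847522746072180819529570626128381467296726522604197713522687485960027762242713217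55662385707467477178748073883517571291000859330397336232043843746947711511837365302995105812160566872996809398722510602203843081011474294361676026198107386404678613621725736805866522135801661238740974848657105201019319576053073300273042762463946485684283946111020892984421982586362836855088300553657804402616100622595338103558159642529759101808082476166609600696027826701086380694584763688772337052470183768872694728201204316852191762469971592557454007994958831523633587994227485127369205561643561264457117261708166513371854420986835899997203033274428646456797384855748118151954592903425995690016500273328861954245720923195785605667584381737131207633862264223250308561920631071241004951591448841102668789668575014907757279474472082554233918568181800472467584593768203012530222316612026097683075878907130212873599592718288688007307322394555709311987726304217199206178022728268483556523106633390664780847766870377242913190250665906536799649993077722585412331725802843875961343655133477523519566887573763627357997343150598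27016369936052144340841513879903250694877358527314677857294588517145473868949820720823205943707006618029979898078670490113923418262023164093870660725166820967549768120381034750291270544772496062632049875385089569851174409915434370257286761285650115982325226988970468799468974750425625018366346912075850408476035307297637189447930541397277993621135277619370045001531571376159155602122411045027158025723388506701596867165697063151914778386057283004046948818147631286087877504190150946990287782799813404497451387699577598718144943451413097237363051690768434384516140072696420599489430108463161239792650379007671133257165408481524919757872518400663806920348281497434040793555458597595059972672273956898271497558377704275123855204096485123636735774334453592379579544807306172886546023556049191264815625060143003585707096139993755131160680939561837308591213931729877091744139548117605646786299242900514754888908785690801684584660454929920695515869353775906356803995199762429124206876043575875444803372000251714389807213248857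32863359874025130144665167184943733561803042336392480566240571282015923635796766396459500167204610593493261736072899257540261553941284612576594033838668102546560028625013098196878198900662715020926282375233588353538955392362776245442786346559961635848827964991682039947351076924130937654380994750959650167212560831575082290867280686313526547727502390011637993653946180039725580095428957620077814212036095414875638660048198993926225576359367004799164345914277510456407385602470028296026535270657930757577924327934102631236364734015407890735455325678735211184640414253743821990806655848389162392226458395211675736250387993876337534637412505839774151456625431777785354916541503802285814920762759719760809243505565386739293534425960555267806286901590343012630927581446680230000905077802232230224955173668679178097081215490588756098501284136153391975876591060687837569981861654114278569649462448782826041571743937566798444879293204592844744267852220543176473128261020913722571194617161756978365833395970393029455276235568887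81353707037763849205737253934774744848038133555026485478577762502749077293142856550159277365421709832680102367662086775951996855152429544626183121162942232376206387629035070149991083745463054075927557511121901012449560999276231510629397917046964380519537820757600595524004177057459317302039190768632014656088807838139557760141468640514143095266152894770301062229681235735601174543988023106025289009150914721644869103269538692000397148014807353243199218034018511394738851242273613636703521808303111543478726458864459893384056533979753205611578548939456646814769566164231334375744781965182393728993908523895713788133138364997906985715050596977094751771615272985120212198799296823721292260204285392229730173126868445609824922638491641095519748100973660251408423290545180961101549941478852975742901575536598478275497004449358476853236621435138107483223519652666696589881919844211071620902419270100976641485436903784954200733672414744070583710731146766422026011871149953046459603406698722675689490601006437350984604253155981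77468137609549850390921893117709654354088106195997762123229028611828472374280477583306107272968184309272081305708731416627838324046645115775521442210114780025691849068522596390696690890053038450309587862865579703323752635000481231347304052878065685611337063733113319353128314287932673092026269120598996394205686381899289495802564127969816339650288364550393626091793734896837999569273795511080527416745381226819974527364611294425831888952106315829427912236526742278552891640780222003778522917381600478919264638353158678425453506234606036730558341835424212855532182549961735200313024263884585533225056976159256290926554306622482493740026990521899874971202653893948966904768743582317332747905933456396861435532167918647616261826297582460976675238487454677729667236848233055482387298674224365270445814453237424182430488711035948082111995200747628486042284139052322942307596504746967375666738450510092865542018596938050184725735220301998661628839542492653034848148331811659730280498675383134924723654167893045416413820973551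30500217728082261517234163587591376308604152032374481025611918826242533010917701049265916615392711458912034185717765521141498636967872960720618095737718168906689490027433422125073505155126766530866217336774878602155438772151687911229754810385443084502842239610098259833415922951096556306606915619569169986203069107370225468442470798974140311274133763704716687801793616733221665164686847394464392384390924331137156815006059736189487669702182383998795193325907436879517793658554728193729582554849008489247423613909277159708343889748567336205362929048314090351157781318682400155571428018584878177498748737414074995340171560600874320209281552530830169448996917182795781453688831844616367187814881429533772162696874785590561297910121743190261274936931784145637858646612851636705769758177106666618048453361376406441452513612303429012047018486302182532310272526462657700028708113987443795864152210585608507263667582739869358174356850314363395938732456630231500161879515632859939367670776306086981897273379330856278516006797228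07122409080219770018855504574164398029579252060944787705594791789912434026430912165991240515606941755017362477784255361491787805553360970492652483642850273531549401780400823883554190231305767906938098439163246815038062953369812840237206491548845742028517265581903268752325176441422872393480932603927880396285929969127187582474072737840191892496341610570754779425149824023757351964405140041063265873521628781608068793145400671321967556749533216391013259467040969811883277043165277013127339889919064339244102811460266180336749289465101879689863768977089833107676380957209709546402020840603303393694009611319360422477919401596222030903428313746027151249700454470690355561238101498721077070338027465049364254797625267286616887690478610968283627327399493678474374882974904258064999800523611796044508716828785387773124998602326820099425408540197103879263674815636694962687782375635883961156086499521641790868343282212019063732743750812950699769743840779549729244565818330053378864321795792813824423098881556158967133985300533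76723210222044798949307322452337755253702658679705024079871327860926693793600928259240013935334512876477344077738229242942169482103976633534296210361808758997919995430927043456614792868719787986957657234972817549526737162001901553085527565283460038140164106631479946935707502137861141475052074965357832234116462554580199840234392958433969941468726941949115513567785356169262956216034272062774485662685994652619934531349759730429588040102321574799114901858575575023140445105173703681912531788202283313031481526510329499911635200760133598725410737636490466400573193261310799541052898423393473748717651820028593649509077411024482076753243423195250563989273510655179694293215981287960243257626761450772162143397045329767056979155912811174247381429641964348077232842092480872017247832927838866986696783261110578548011000949072506316858816843422831436191477372940790183168261067142152433624863424111628261942650659330627631540997781592174527349256929380640918416299817811938353429728237872314851760228462753295401220461430418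75131054979732200407758411601044921242411529711171771678523773690558184325088582600409444651067657667742924226677447255434690839545913735657599730842961103178349738427069861870126991014951448006546571812860724996246478434669775680275776579514725871351596950890817737227817403669646034311460630454113087051255217227570579473310898215187693054903288307491281069089191050141195926577726632736377864891757646299528590893765241494980810645809146236234839972223543722110914113170639231367226506400836829269777533792560986447811721993774906152730724713468492009706773385717106547452189461607670217030361963833035168417689562069351588480336170336905697430347960776350522915572927938272683325983877212631775802502345584006208620502255183999717150244900350696276930949274598577502806851104888010826240233490279202388975225874353203396690007193592682295740873224236093284644004741729256747946270026658448539525977726218857101748429894944064933281243867732321732482917524017382125623291482676942894932703107187743059377017580647230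22588434274245622560054308235468043106102882019982897102632192445511730899407104502166095888748052750827801082141847176284273855984808407472200370010419210355959789020370958589163107866874200757264831478206225005607803605489341888396250535207213818240350219827509518778720303343664656778119061650216753604969918799213682349219800990716050885820956518725737877347665196782725992575151697297939012959453648919932210488138083920908450910119443251705022535472891103713028408729112870325304231422336758542829850396086392072469386698232654717796790206520612007722999999771333153702300502911669411555322240010366423409237093253369690294927997529261272362484560196789572562851693508829009486225237573888935877164976910743375874719433412102180160679612347599644425655060157290129657032937928097374051797573959855433318365875267145361042319611752256735073132873649613741502030892766295170711034290001745208042282197837196777134352110933673171177348216961535896182610522087059159286068932774810579134533987637974007004078249176720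61137622189280279071220121749388835632948109491835281676955482324604047002006016918826689457549938766166937657400928213971739963890669161917552186874059787962040667494270434691840326944240433287798779530397141747205811491133595334448785644704594236735450419176058368690804583922781666479396284712868139087977182279259300559265954157410213716607177634013982013762005736821951935379951516997900312610411617942373974919733390724727720848369893726706000550102237275782253725130266687977207660104906303656986498990489738316283310152971231010145020512766337163944459879407380137108189661475225933859735087899475747051392532598000128243489623058272435554786202367122893451774962041245402201738605457259756148318124402901060472104860055277880310796670648038477921332928664041646138487173534753636555114399672652157859159054437427915763510989366885053612560938464985736783688368008610240516351852963448741947542644270077914758313323817640613369655322620984320603150401358090956695046891841287966104929273862224160712427207584115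942088248012333627660515893185194421107393989814773608003793709013964227543346340192177689225236393090131991455495333699789897939235510135391115285921749292753407520549923034854794300994531304679575775859945379410293957630069534182245965426780871321386006139030844878717496771866964701457225264265754049729575795201956040485101471582894718471908977944017640841443345847277247909689793399419380152036228783044627807887925213680277935453942733395092082053634048978734684623296945049144811448584984722499892855267095836351831511208172214737946400464621417711509232572914741679263531399355574747311796992687671238590650880802696893636174985961265403512592719718753346053636304132209126751780601185827826397721119370988088384892918030132829161375591748704673896629669024491311746452113075211996797579241489072294930771441021586322726957823759605621923162031653295335635015259432146698240)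

noncomputable def rc49 : Nat := (nat_lit 2360987566748642569234007494829867896902045566158355385711902960168562893704404643773164240362575509353904531820591667626667972844448954244126204073658872639901385583240321659388475974086607181434425833743666055927165239576153673435755334925814277282186043960114189855378148165619692487320401730677646896974595332417531274392660704578444030518673588720910626238372402471822421379952786814699797557218912372776189418702345848100089278511256150063677309903333789595930383035486990798744794955177622616331041091955449462098303827672501674068894719547271235108950204791501221223026005069073544636211418739546687350520961576337666001307642677325257311989501841691462276226578890668386970028458912830739566733624538704096187521982401908633086115283206005507018813146076615785502025498859783929711596993106530886233711681674971086343828729015499367412402571566268530964912350295300803393269683434200753933551734934074216097718854568508549594310214643998025813357270488251913138940381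38747104160445151283727839544689765048899734107818372926646856925297617830392294325049476221876377034456334429308093867302032241455755025616299044014453960697330474326588012812167533404252078467541315357261656634928695516193911346802242926966238474479387367829530133932803408817368995089263707771671638472996244989209247674443873486017331066687181940808695116052678760763390174967429366715540505694894631420740139646384256910319452246746109427162927741987658545755740772645219740127918885829592147305230759767733319721205346489226613762450306332483824652221443658517002523877797088025071959915127329827828261827792146922128832211978968090677451020818006210319579018323349755780780803020597529586249850612404608612637391021317307224720465552797780393565581821285855239236757833104706381971815507762893255224648821306973175617076586586860880471025990833912640914519026319871805906141910989899549212566956001163996332704404800942758010806825482621929041380981534945358703933675443495816127919394156149138271293085335803611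16679001856796785510232424229648781543186621646171258606771215022598633176471865083600806459850982318603815970005156424639114605456125854601793184779841398703028966223665017408518381057209084883099289847839342696718047622831182983166229415082538930224403410108640697937683808890593309152321412159154249685243927914779010661087392374274668919623644774404787585400110685330982035603024114422303332521115778298394683438102100591813461197251914812847664546863902103566463850689896765343459441424987901741989640263940207027853668528809281725356153870581314313227508144920496072166987658665803441121281065667772698844550298050473149330092490960342183856929932365244328041404911880256555962005294862203572398527253238148650966298181936490052543138619722400948956366809508018314662850683011579301516462121324130427386220880780160521849794924412631791113532630861630921405738408396771198944559836271567519003692370031825230900798926712797243011797966528266879057976029448290236976801215384652276991352571479775993672890899006028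27142768533701121427055860269659482266113082628833216558828788827717057307351213260924105158703154611864196226884389285916189864323473600059125359792868469815374979094750818844241034546794642069524297674960489299884864893818557911676961828522532855151141093718435563604863486730794932103642887928147073000555309445897506197214269719038372052976319012582550213721297359085462411567619228999395617452387590808703420361863108486027309459598516076263014130461984327534786308557808414818791665191641868836449517032636241344914900143511278049504002986913484322897787540545550692331230595985216004572399774174234041766734625201107124693041762151311149946771467722493086215842427553129650314077123892371045655421488406414235887577625805448657333125093439751959013809875016742299773930955301338143084763945843120521408801029586089102727909716017504237360258482033976905835764320792126496448055260020419687975156190019356616221365779202604639745402814087286710782798972988458699391328080591044284756715453269195237986354776815854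51945305221574522799159467370185219430311192134337693604475647401927469638027357020673542337293610934245873619900268645763994083614016120699978860462990657113210006081875476001218300566033369878933975031394940550115540937878927940045751272130619097091456148685995089311397377046461570099437959581565988081542782358144730304193653180307257414620821923078295304059879400186527254739627800290455102643666577321647877729539913448887627257249292964343255399897498030083152205174663864872934131867816430491125893261759466362163408345471443969119136924842178829202341909552200893713444718983739758742557676879891073390468057771622066251452402447004852428023025987378339268803709057961489419251424701977406569127302785051298304752642277050971312315318437412684796079862621122575935066470601143014407228232833932042862834329995078562819642220226126311225109052562539447590880079895101050373149964337676478964124054483162558440879902759372402342475160815818212153756931191837897658719523973845042231658328946087775434927082053334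27907571460179321878008755273352152436249284987125351996280972565835039482329367312368864181260407855128443891665310159394436672821712621408010652549319838185463350172226874492503255077883656849314725472666468030795609298077227215582697122886481620562286660852728237134127208373405306946468444668379999106355833769225609121313823906768798824934874193615992307003863572900610902617432953708374693395025578380506765800057775476708832323983009101892911469531270298023794291528479835987655121648012666782489085388373309674035927640884557233276656709656521316796960186826749590363515478392322304683755960226514574540140409230511385701620601552384982434646610468752457610159924246044067584524564470955253450182791795132694596145296170832419023079722952788573420917836280921072677012135333536281137723354538239235826071954511167869828116179342512278749210595617105990292169014628508092546086850705998962665849189843999834333434696942240245370910024355187548877404175982332218865440095597623927458261463479828187770094821268740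61799012205814439749275581285888623062950455372220653459627657136684497559639150144362783717071662800600155912065635349345704605772244340448628908664204491370503570016257327729705343451100820992874789948391240598063808814030933175635344158945028740334107265810066860499583164434602521416706437967515775189587925959040225631529227727465635479172956886033268705432169529028073498482885935289992254349896009040253972826427138812487772610044773897526457660375534333960834837860749569665685918351394567926137131056284188043210555039044786099822116611910094293842293920342338711406974929888443916439745058399890100674676331483947999369066871509522895731036866399725001364462686683437527580646575403010402985888930046538857839316787721980057293305476262123447778969841093219984863383754527250356555308232646236442688577763912117211507988251313527856985511931801603493550282079710085572385793231957695755282674660625803234114201649437635515604571105255669840056573927242840042086930137682373810823630024085240871655891404165807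01591894756118868126965150850441579376853350143181647165103295162819088957569086970476944923614764679815507329001573816646714803520807327699043440835781952395777428590184183054110656195405092169624279652253920044213593468878529037533874620799077838607756138570985132168707077295284923295889988985559690604845438715006426633099051973931366607855565452252231216840711270581502507541633763260674332053376784279554500584551333083127579896590683179532745604871767298581473519529824647706362357764301499968827233780355067689494106526456497910375720831953169854277861253163799332932746729403028114397343699334123663045084335187638886663880790005832342191816282927839915168024004444098586658468328853727214726587779590927618945922208293239523644873274874157694417836265240826822932591387485020155926064381280774431337756653372363613720855344945654397204142636642081216227458657430249274127413199564512790728054416601576854807397251207917751519695596743347546160285375910636390817767536661847613069150909755731567281580944074376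40247455398915003029358803074443341777450808022718140178890080397079797368567609945356611751266988969180629646981345463378397854890483226835479716736266250856115872711434306281942501765564591466019428293490335579818383147749685487873616055597249740768419731276483825331722387349441788142906644910938893561848352606156969724933025485168887492769796684380946412333275222916590647838528285823045985707540742463739426598449764877501546079655703073438823988677133944166598425837689398376965031923669036937073789799395864585305509511107691126617077339141811199589457786897576032519448061264431526451691239953492444797708945891775485783854344658542408315314172486902150853009827954316961567789349526059303543431275758837017296136973970092906154792477804977562617052836008386028549992785794052381528814060490800452966624888473935420195058723204976953659862684025291318519013190054627426651579682759437034472801317215504742868340983534040071887740829624609399468540765359887816221573803964063423161512415055349571811832566115105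20853861074158310386108574747165325990899821730797488742304478707111855840676932248362041629644780518299858097762321193257642996864675369560183440450890917893298528428098788008452822940450863742337353373496136486223092038830549850118255730819894247239898801329178403259973385704003356000924639760732539879691225362061172883156489285689155538967981870333884973514581906009639560794803055939642538497649273705597762251181053791182356820530721709333887135951764976751510148281047356708568616260255633597459983992048999255993134155321402000458979645346677244723633553124371732263251292934524845465159834681470305989892228156102316401656734944622753134207221360050259799363276286681391207793661486712093630406238152732096151639002752802000805557254152992213737806013917760523284892249735331142100465514128132059433906731156780642618417835313036423383000119738466274286172278555725000661932321427522405286558247068140298929994928141401427307754852405202299594308336141886118480933313904436228733755884501488254448726470421519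59290859835438047416390781390914213224145303130622124786275358823009995326215108718149849519931876339478277162331156082792801641267966678622371269666207759377005472536740030833043791986653826383409379616140426160248839515643205133839937422052669926371612247641340252015408161065616537968873370996052665148049625498607816465395691759853308965140513219728790129946763368994846039279367190141207692265321669894189888670554503631915479299812952503290390347958481510211255038184929537027897691126739428163933397830725676523870804676425936838955725950200543526341922298747507792414955355968439604102549216761948031086825742345630764161070149725685992366193672491037488714620786236959823408138849420029765764257362488374213576307878523458345784624751594241296864039654981606249980866985534394039361492958870122255098149888338452164063279750769868736666402495634785741635270529182828568382638906348454739855901320259888629442649478245039137886323469836009186628430797372331065718787389651606538905357459898253506152163565772623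97314992301205151606011862648973078567851885828336708621395345209436025714176103796044663165876114147873175055543537900556862582400706960356728295042253045195029134960966190598341280048074725947740267791907171679234364097627257420976119722757508940196255776807207039825378845281802683420787550863970349845286537587762720844262327584375161367867990516082516620917457946361823317513619717698071188298391733962938183111165619669852732225032094563423737383904878413555929789169250486671144259813330043116625939009938482150431579978130129856449273186483548077635818640566944032444180851472037697704958747324181179839030328176374376134611815368736090088617187358909127490579666647473462390023740292430897399182019617152621450559641540516770524591330757605799409634697055538419262732269098317244998561486328489585468334387614167902351543575250446136038378822705511281439465694266544193105910443779333871749197215804015787601077151081441970777478422265705960265662020050146749092602893861168737218633180083808877018024218893940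59746966669309595114926886683335999583654544203085535798440465135404880076837316605187782314238114767057385544694803095334147601724346218387454683822030078621394877458490593340419234186270586159259049655594197032182271158806948558771853418088307036245430507914553040273135884923574089004428397589790910455508173631503741643246806777583665845322809246772339546639861772496987998760143948476169981829561361061844597016515174303118925193275285395946003186434579376909279411285382872722621607915083102894502824424353022255438978571576573704098762516443086499408998545825886035543393120539709427974633317134929490625249067980056484121471245853149957039800973350376126412895162836497273363818378333190166331315318516606717140216698487210174732176415222517553145213994452863679287919606087549072772454896811581913632796525864144170777288381690449318622797450821126187499902991871115785177436558288195483944241127605012995964797936636728456193900277954269732832384942109213702567717969528678015627941478719156865981077832874483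04345998684541781231064903229439737007051395530359740355933810042334376299172672284726761258308048359968682583455928742745081575922595568773606945019018458123361095384102468655304211205634801414779448968983980411419794866291617414203449115445573352751060379092976796840372217589060389106882784494600036762900933506835252090314607626045262331743415273578232190152469831808291935784584220150134277899001868980693052783896829956248535359047274888060772328709648296679641289103431804322324060000240290862949415868217038699945872965735074335504483741371430552823933496248941589789381807524499594822403929951097478522936625683775931084325508459462855713471924106005307880385724256506040127997145016208322122657827716282203360256772145125606342750770943762902438448492456136380667584596515995976213061374280232224670054035514978428084278915463041188802439642918006021475994832352237388372049337943155888101838278623313177472490227394634587606976645832185258175542112739614483609885620326452796360238194473178973162801995411671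56743232537792628997476297342157806135948336895065696370390319749388827838734265164037208214372711231636123796360706662151290280348393574916896756582683973077135589165496752052924411319413003018338099722327335045115899634012550865354482846781461077729164577607986088918535627448899004577568566259065542941697353936370094249410469159959901889952632309585044188060292440919525587243375924086571715898227353656610493300815290833723470135228020136519874498156996130434360808523428619215289171008062874536688375347804823862551954304953061609030072146790812658689809594307862830766633857666765234460265956333902118005911862252661251822277114756586111933971168012885161889364813036626356894494217012293218898374229134848601737666644290822273799559024405234391999775930313409784071774144246073570487731205952197975724628455803712001053857902076939139247233624721050758756117725308164338312789857307350308199295122217288144700439942375395878276567421337591647434494448963060513338020249100224956736671670236076829257338517782774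36466911384639123241988869865198640845930309720193174831845818445009765902007692269662189104140392418986206606357657492823285819483799235341629174255530718362478492836469404025254099415508837802399909697280193176433851824218464166247949928284477806137867468969261336073263609473003147828078577764950312819708779261720069732481490401359361426247234171515945368332351804716659100875299940135097880661319540903726075845693527116431410465418659720546444571555130697063171565185981004258995915077341579610561963374529716859383731125625160561920519068328914007751314638303289057924137152276468798807928723760513945438069450302881503241597561747569054183899427995889977440065325846883371371962748901838509011752088201463058156099789389087630854445730320683517474794263109603903044537231972030082795194677207183314559029544082827848463676135677128407172846940035842696194713185035684410627851934738007347085280323953112275094541624511607839664022539246371958495408073598493242703281377185456946440995774943106977530537199106267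88441976514037307639465801623555296058833755890430033848815541084606156791319990177299793932179624028615014909732898504878253253012960786321701841901813585905933297261562331941809683445084759082597021831200894630812179785976044282348574434133694888240869721888270572474862463865454342790153959669896852329721530221818222542788446291127589463310998879509079045173996594605412430071556130588018618757724118942146236541200643406129702080826186704652042455051031087581352902952906180285603860785763788845749937333295810586742940021029558121696702002755109237523445630263166507528768061521555272382345308419039540920504476107846726937501480357404529225632555025250405980876247518598685076360663527423753595421057940746751276083223782754496134363393488584210297333785333036749196025468740108623916102715993014863182633086895465373347318886591562584286888436737347986746629733174613545895670233460791389532885837174543140230874643905021425024764075277195473052748641963841453102708626807514439849752078331419049188414121148352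239141674346092808743124146746954838887881246295702460788703878808311547909177611348291679417144921233114644682034227157854744804190070612965805143604213354438027109063665396119140691342397170137131953715443163531755400154758838269306959122104281125592729449283827808225240972451412818951963124956661831707181235158976315575153200137955730196029867838057326650385715741941559551275725929328350292077689571062086901443094583142130978931703241676600828644877290400694240966986351671967195256453062850524260040848808278856331954260970143158954004475894011752898485268057802725881853653438633172440503596587691062738863030929797543966365096171283104665414266162621835030380091674446035723821053752073096477177753824430987219122289915168079197471838891171566911572937892048431305860111757208688594705602999637427866556262937903523432282178511635965582810661378928003474006052094334730240)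

noncomputable def rc50 : Nat := (nat_lit 2363747511026213087901893280235818729803467668684340586029435768135658858494429954299215627943157148692035176630709003899201324686979797703229660706334616767892075920959828605325102867861723820416729699277813616534593576561569207647650949094674522359128709468307105527136686175614892243019503141910871880310634614580527663291681286854299408613939935250841660490644705043983256447190006253305552276472517863053077656602250726973937990512985129286194608951884655751332516372297360150816482813356919699716259546254728213948331970851715590758480369314537322968401325580146351491945465357084802462492805776663652677367421356319449608126917074233647981240396918179187599906090424455068618790096526977876264319333472210913265881891903405949753892039944628069044856989674899587832200316337117543317106541604304693733357501429545929784428982406732396383481831703136250098855325925915000909244815613820675479268997168017091978955051176539181990037249827479713731432313124207706033361740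66191995791577630576453171505033633497507656330558021327981829753199757329022441958872765513334925498943282593133968185068439368194160981285855584039185537244373472145784617410904122241073711613774841858045906381646292363888686751328126192915403827598913541823851328459752766239417798047283404564151066689392419294005571461617488378631893430330926911890630648935020472214950284381426540839742511531370218852242833018046122726913189621671009640858678264388677934562677110107947153947548491325053095718384291152070303673574931672177856176297821215413537021161118924486845639355467010827733285074692205702709436432827053621459547215073918216057944270706581969392464660875609337329026282399574341404190245275645676741392548865481737506721292842864108133874839039541911835119199379580659897595937774982653476055601481373664973208834099324009766979307396936167303614187051972985879597741591520632558383645423416325593376311373684563582418053026663689955004101274352954856213215695084737738501163911469063419445934042437240934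83723435088085059665674196814348635814923550248639832783435252623858419778896156020933822505375120815347789134168909779884224657395103634597589748402038946874219192502487422085927841794607660969212512123100107949146024772793186290322525800147356835653399293023431521105279221349737230983341516352629106518965650655447378741680204345625442729006255305220792046156573237195024209216979974827632096199201416474165040187457262956653613050571910414999901685953474145304174045034531452315406844808991057865516867567838536575583328496369397402417818989558179512935441232391634365242491791233557145353114760273632215678572496007253495874772718793742081574811069829641639800665873989970452296154525824953359477196655187621694424771380241406432278484273294092488733837271434991267775266205995513997941208811623971317319021001889102847434593950537301757051876148650428157567185890142514543642435066227929900586693309142210189029503613263296732577340577188294964864239090950372040952561174579781732358945681545833837593857526212237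89265622054480378103113319357087138219993436591873611438134269954235102855224582107035577714946399380283775017983261510913378478349260433688182972617043207934888506343123886968856898126662064649317264122222326686154329735088623620638715737766601513420363883061895851538930273799198302909401734958033980939590771491316391085775580590765923159498120418013777631774478349672122526999095554085234653221073186010515978381509521822983572273277872590791245713745249819542827786173081164326149070160346839473285938595378836665141349941817345706549660460168915310770808029770424284898986562017828736386769732276379757220173126855396903337880345013628223641322787013654090464725085689987845113415022974810553167709292023441540175201661878346621770214252459431333413986765769052740090902863182513982830243861304962780177835543123909115333715104488667152317974341488249461681146147637271328381073463460242914213721761165503799110704411167980909632293205354041094468206933670748642069317331016678228715317106541643365191440786624619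51786171214735012062913475645636734936838651285593566356174192865134535325868418200976281477012921420892118417846225522237688809156693986926750781398482647212108557890870896515449465854929200142426378245193233148685476953001568864000311025419699208022680663095269402152020870241572806022545791003717380093867569232935681572855073255962607228918008526528121201000645377758090993492148736941508554597667222121626411036498068731659679877906817472591788560766679744112653599624519078085283782854404040752868724846232561381471059721086828781773658597997785919450635355459466927417840272552623619974941743039556983553522163493106824166335255948550666608217538778318585161655244661681931791594520614751973717425174377062322190809068246688652768375538487505595085286499784043700916033219445098991327586359682992467643592332170068728383856098036376223590925363662771920105782064637913624085522629312488274953395850136661780801031883412965187015127275293753081204571152451620559020556028748451494417290409363150606930768282335948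87802464107303572546896179122297496227952570761189366519305439764189303696870121381944915474981454932646062416936245895444768744290228733682814949548934734515547507269600642532898285634263577146066396989756067420199817059614133896822569320924761986148966943186413185662312522827516095726513903945689970858244699765193382633364637117465870961925745202354990941983865890639033387851424812414801193571242069953052480960198092936063919274829669471475080401405271921213117259145636925186981679292395305226829722754385585321365955556124427292251914144922078743547113425289907433694829578652327814372655999409159235813916558490788811687758295182063357805484333987491342906729312263624918920703043389710412051338177180167049078142511539904916995920035374753206836079122864369698925169157940279358035142676019586224481928535607496781668832467152057330746278172937161412902513799125127281510445118162003200832472517821574478433340284055388531017419220438222109476315173764980326693778132699270133008421212551811937651742594696137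40312559644776887252699185454806404735122592551188733169353477046963133110272271049364556211257183478716178772267980260963965991376570118883106450227151242438807559404937476679744402041483902077597645170888349505273148954312254735520559514048330531886575858124767135457222731632511449255239683009819272814685589245074406827708862640107185791188924158400513273243375887960646137485771443483917832655045488911613871845045310613477280663435586739922653084521456241077157241994100351415704707500456627112024784045647541330654010401041378194491274281338913481849456923569984751320195953926056794464966316640010057681827713398415634246515773709470312625475232426287499543744052363828837214533168583334529891587063955074072829681959556566181316679671273392351476606454185660228791177202434491253690823520535938650251688855275694028237877819068566420083694619424419645491431239772563381061676841476891500351954160547847084136966365550069474074238387636538515778272049058597505932068535702082033843206666379390219183851999879875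97915869938868477453594910824107296538337740080789479808578698182541865625463594816009591029330072713406269160254257585737334120268921765438467296382888589439827915278500670822839171744568724626784576052385338389647504914396775069281814091420646345982341652829660847011570199794078247018030133119353869347912621134718999172789554933874349421525387327752027263095998460327119146934263302748500451230240198691552668076853246565140892434729250703233256577913273761085662264545324270823022795323396628008255134176037171303378913086537364686094368296177000894890843193079182394949438224880192453579930306001821888888780680363058116456918947233472805583158017999070349368193076552516313709030113825185294570850907470665810578786216796418473170345163094213129076986992555768993678795062139693626988390920257892529480382444372915795825769550247553784818709520789025864801285695602209007327981620323638962474099156370301918931839695099182606265510827557403594915680148476362202320004709233744598527524671729954937481903185974102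25849034466708756377018336244826969866372037226941594007060537119190613537923425518427103088989878339695356209232921115704928303627692103984725671238501794433390732722281873463101937411643506448204937671303118617783573595019664405089856629090341409462895130807639078897411141501188753355879322608001003069008136334825142319258453517440618481584276404887399597205012423067682059287589679887092511564933413252525481993983498137916844382661690062176515053844082398796780198269478707336356793482026220454799753646353493546246303994889919610886642030692686280217272667239320916095046683149930743832752298173083570871945896510844529324897337575410843917116308999639737415320319605942779962014211374091703451128388974928395338571085858440333735290901588200352237308543043332160228910493635326829595396172982718684885147352482742071387123083069628506470087899023077178078694809995899685619582101929529324891465739170682573104585802548168595082164463803151623350765301114420568154190945728653788920252080775106170789675255683973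44461626559400847564290399042000707776133644255248109282981869467363501940754172232875968881127893893251741982561239225055946169648533720507955090154852083893706065090967766375389516543100069556677394830697789290227422531971906115592462775546110508903401427488409027388556813592518752997026650731512745654978421727526315914131523143489439913445708415710824094691677355937708865066643767717204585271866542760161528079122332671261890286538785220399278994637319295711741864192340613570574271884776404089114629933140507502514487883830182345931921759385890248230287777236175040895194375593150704099555665172084322166520208805315003749118535748506014167609296548953599215462501087515199983226761454716321978564519870554302434600561277817204204579665672820590677261778532366925921175931972183752948308819697096653955796805740590866762782907049397048477573601075031981975188535133412645766106231046829902793607159187246311674300259065121972865252301913502122611778673346315852740609432943891036211802544863195193080387033727755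81837182681834091271023502464514345463582806900492796334661636693638110127800774488483350405006984997174651568986257088726276295038450788446814060601938549428774114568172097295970252329232641505534180405831136993935820186188208237141372382785262286069164697141805788043256267018592253232528732471733698437296413932615361241775843286846044218358318709037745041014743841864169073733297124862300161012144176690070740212041829453447220530630021118287101369119464635057749287391714778192607054322794420319416819889697134111199503023289165221822542659296815532041621283248785704490663225433156637979367971253568612385837038670288880763442219376068736942536349145120572213868588311471152315886945877310522965794024552872684471274149674224997081905647224770016426620055326343131722274635650327428778731408229462927485298907565514369880459485770829975478190007471897605625046638719308317667051611609299104440329602205397910138942634299682686232198596519756775242409561435205715362387463386090421434351279469938154957708976220167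18663286210097110348427690349375347722543795065669136107123585825455744249961386654247200065430253118097872643992685562851916856519155845889355059874563869397856976148201326684672833462567690961735075742084262934520973838033187108380412504756764105733401096390388212341876579575638549620646000219959664970723659889464432570659416674538402352020529912814552320717292078922314263905007139883962649205098383266600349118009068613719542913749173586666633260778951961182622225354482923322796114469288526199754175085076456603946291462764619167426404316942052490084696508063253348701333523410367503537677168732476852154750636248653316744633873087838291694536241520900354201024395116168228377673054470116442340801978012479163561512751308884243578664179000769546508677223384089534759561019151006614877186353801330353393664884798597388074593049638093345522271271606044427156591838513839560917338995341298008789837204691794654134909829073365290988187840827637697835990130973215081291496941960307084811100931723209816099342822684794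91615164610949056645324774374883754068434443404860497491544072710113463826506072319264504460128464162791755373343662843319584815277143098745849304921158679944458699669380172787357368819108188463420895239760233836771531539442692008014021026178387623206460521428353643242541985849353779942304192956787676307569203757801593769321456013159950985914860264467551209985990019304119044883526198827408809969382207733822097176327663598474541989317408296358663414436231716829823163355097900780763180034357919713793437402092524215665474492778687249542667549398205169544778436074063275712085987906321143809817071604307580376914356915213151416040861066177359093644739062171294536607218153460080357925824666731790929596985253549202072855684040094469234389379656906609131377059028921868746370986531693490041832480041014277603841466488510907394852508291934716306248115386476542685044834287107919339523917315778664522378618092578936896945058323376863185668218376338295479611500917658420289673615002002495508656037500810485166100474842507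31031694064025217996431906582069409836396909924933332596875403399390392703391910362529689177246292508645499355914707766434400957804508075153666098914673685784238445980036565798107562654253538057361786547994056932575248170716086830134798752675077954401528632356337745885367472505809748510291677074740163451815289646741539471270376364797928175012183942922920799837359308462067869040749586507165337060144874096412867928723285079670450962569515058362428670168181123756629890398417332972781225487226919015958388941201194671866115037246503623593930758941311829629695188714662122925399160165433532918239041078739526791180632868400052143058739497432698008947274130146425024565175825156783481874109874972437369493800132445287959481145660992346368709058926242567987651371995723651272502191096818970561513770893945896618592693253282254830058719472978575331667320525513113260286282254963053015178275651291151906715654957954995243204853460993166691098523790301035286062416444696932358737224861877303692591536017147676119164725678795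83638751466753724750854151947124885097225129251515385827364095557788088062150168058831997323218685012906575624612740691588282030650387149830956439527053900435904804632944311048953184634746065318211465251749108376321476984674286647849448005901213316858556943607493807147075145177914780077280521996678115573919755514927606951759423786896967514760043958095465377303444645959291141950866262479490344037064579877941140855134474973616255063876665915328013567023435945467162367958945292453406078275205521881278173616425406790325876822793572591378147032526251039972695428746454932289675759393953069676468964501524561364922633101863381796355717719939193429642056847213501374134145080276620935374283439834928649852420373495754656007182055762132877129406808864481128069226809208449529416584510663023974647803398878297605490864648396641641162406014585220587299547392168362411496301433508756906134109999719234123642512237634332084852231913166948795442239723448375805859019592791497640824864531195056938163183343055214151728699759903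48914860335018409167379636058731565323893148378592331274436788420381650454825182145332868912697096779043059641881722711024697790406671279405018280223230753782054100077914153888084010073659781278026888961083769640368035436689900935096587727173620814767155068404155780640992443351403559707089346658879361308894184447708906845868439342548068605752087738926472132136830927860417029952919608144064215896557638865479169329249175031184936204132059362701825409814764130131036992875956996748347804848110418943829885226254894874341187239146128001153382592802634626475630910306592876300733854393754547674381135608163958369961430291106890534541872787308278863249589955929856465549571268552427840646428306578237192053181169817575155863929486830700201138477240083233201884034661509099617653730198669150003527421110677539563824470367741841504329674732820444642331168186106706672349875320831367612267295955222796704061555797599541772885759804635069157981789742728811370004334660565307418060411594550372531802475786373172819599011473875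38370696649293596711055425381058864682952136125652503421328387386762640902115882628498350475729294553687576642325866469327918782631998290656390991648042822356556738904591781816078370148256052479567544525978213853098264762967777115424439490292264497634240785041887439870405124598177693856831754715985635418536320616666315335109714748917118384756989814952757042360247588433608967932872497199472080003428978577901655476551143278109046297017986271214286498918048393745885851840982137650900896041346100360113028647703453194161862906270154599272538014210450458985125480371645270834203201685706885675757264696001563592234884572437274121405215702811982490127897772920185666889427025257852687713533527212909185290090888260215017267094952533440438452742389673500292792762102390113134660730252090686099642374496415356342312487270239378086307174688751045642608350536210080542351227946556566477631591900246362873002023312474936621670686032300291050951247214069645426331000487356205306454568582260163492891178408551044455483984036570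600486953040352964513279537889893126190685503067599930757426090913030738853134072337237994137903923220107737531202124289105682302586728681289823986873726074458703351960484858000613376149794215158033421145340811352396440025790223652359228265539099251963688617091648895771530979665114566370822412763769945686105511442918060840077327507564408416297511115606022011920573138090955053686432304467327584318429307885709356707601221710340136870813698284079692065717174434308423342117933666681184097832215199708486557153838760088831136112156581688418251319240697111165552941459486646768220580006760917564158888665278378501114244914414265802470330049907399087583882941780527926188370245829446751511900318151322118187521278806133865856925255157178921028096375907843657577683221735086472530952564348368110834675118897245942693667966733044803640470856941982236259769284133670775003678645201928192)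

noncomputable def rc51 : Nat := (nat_lit 2366475376360160212371404437678016714067678549908291873732058409423992476811105347919847998002576550819329204558018194117644165250578401311598996098360386064076274853314331110121476166840355572087899569502561147428733851353456373726800080751494206276608218081567138826238529743602305788617563855004030716727066932526128986765875478854251721246183060713028743014543181194389434995783298321013341061236455120733664806776060557220987009818991691591187006535675383531444338140631562860211292759758525482067256421419463114411445378404341966809453808466353992044374412428719084596640920116634661676662239165037908708572310229355505963289043033944094657092994548247717446526485176361878493501666314594379288680103726242965027724891253110056400104339749918429120133284645289763082441174242923031061901616585168575569373632481695199977898146312483072519345416972148025024552762616904669787218321861354533524891513201876103349645399448795815129644350601902817734269412078050526134234594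13666442733187289828602643338325034177440347149496261475626008985433275211719552279847313049545187333762857826187875814389115463787039131083302893083015058403619868633537534951449233800936457544467349860940405796776611493697738593651977017834557113860952027677772888526729006263334007609584768983828455765024163207847198892911918441131175659290055901019080352643343809247459725947780828103022612570786977664535666800809067820286810453730057373557156314220713159257053893781152716123913792104010727554714609610276742175035825233258653193012302894228104802112976983399896760846888864424969502822558654916238770888712898973709281112472838778929185740392560662742219594602941449538498169160122550487371978451404280837925616769051675263056121379762582308924766739097733683496952676946719163250164560906546419532783914757746033562666886344773969048354107072352404819409164254145586815153011674663187353890789013864916545223476856263354431691366651781681158788822383137567560630215594435197685645210072738534769996796841332640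99628296101218105954133102831474314208042040083573323757484748995648578043526725291838646776418676991091680262917540247524284701367129054491487237887055866925555823401978115780108607891229449509566171195459160857343242386302276091822181274293155540054815059281844696272585125836574211716888268936365086516859423556365778886008373757380606021626103016293941167753119432499689876963011397045400981632622109894545112926055353989683173449477875816714410361175256905405653040504523909201122806182052331196783428608975306430176988010970038398974216449128806666759405614453451344296502993370791497996621876386863480245556665232720126689529271518349554158210352385527221764263134284543294073880745245223473449273784339018007171281807035298125190268610341157162675912534810947325459898476816802368519139818735746700347351029886369378882407141326102556704072888266410881359971977722354204716883922117406634478332798362392311976381470277224497367458775781951787788986500441917644319883386067250762197319062666172727866143091938875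39638920689970000339870650672407506554984995722599120930208270613674300233056350859267658551171797435859475871262650207181065084589623454544612450594050929916085891008760507564027391158850683227935606053214628483678897979456647804630397484575412522786372328605194744481060948661869716709706021326637596247700710436361332032447274759175272403371051682240977629909127477901113030643578636279880051534548633587726129535468891379721216255915564270502335810687634871713988698508467713847094829109567361049267359935034045435640997223698369843665301626182993995786507902019680134866824102516130316329809674748497767823920052078865016577365550915202723210316287396611837152520205516338768024679197917010526072391832459273804003996011339171446770800012335986469376422467327524421857943123469721061242155253098241049983760164002028520472873019939148875328683514641276413329912494729515639844116177999589041192700276603636644573341435563984726911335072081190121140429788160813535556571328444910450922485676913598724784628201929603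65268390606485192742181913781572581697830067335649559174526576363692497133349364592672802810057091201402290255052616697905393928452324334639252437124956773093997882534144594792028839822052936895654670522985525100127407711828570185492643436212558684063287504030599226797384160588916012857739553493831229478034377855466072902237387408754997313197863274291449372057587149232149563892506718398900777079647031423239572508484673547921697807018017300982140136044450078805241636894261766591168153921541460971946302034900066159515224334526369585048240274080344179718626886138738267540380784554473471888683488945439196477977730667665641231562709801483264252344989973470433345426740240945061962391446446370150880119410925306453648121552975380591968677636055818259998047159175717407225470885473844104864996621174377733156512482625588106345953555997339602096216695609210026820844253255688246599187252117472947306243852269514937154036565499056929787872551120761124951279957850085888824444663556171165949853893301644159571049075163685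69197695702141107349495380387841849207318980285279941806263460220657879709136758138163671967817454098466210187378114534952314770409629650187873135115927931014465205215325629157940898373736871300884162306650403278583933665210809886983370938166100827905910073468040090266303936559790445786545114903616986680084090154332153036007195183882711774207687060722827857572138906108947083127682120521258569931123369370583668602686859660081901646261376891572500888982238179780042603346800929370206483497131427886482625163132818262134562042503994849999480826021779520981842592997151143133277123615282956497896627755986975816984388400973093192619422120766970399379308771996857271431145545582620964092132919752202663904697646577429421995932050878348309134737426301731955638835926070166514635921000647675574027502139270918606746836578377048297421760543977009678267207479375812217463566656661065539202655347778028308058775416488437258357871010223852473719554519760621531893217253453029481023282979270077832358570292434065991581733135280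92532129765424199688163070163951006878113248434304129172517512999481032438101640289487663558528820144715974718456316522754295687812553121069280545858095165693200311987782822108697821653289184062308602588053533252739137053725674662087199020438431709862597529608102121067919249157132561878060575616155342526228755327451361536218288620346138148900259035458295694423796962176636060093327758110142923019542172398981119652809702799156379467594698892942977673277114371780595096663886840981398963512479033325121136570410477852312969256102327307775005153807763324607847775750068494052754971723193466378644302191665537644083583166415028353321490966065917143969888597329740093407278096785528876588071396998663470667067110272722102444349895028705604115312784275243646421889907251487939527427549052920469705462708206909414685926964457536377164863617744403801153063898390411852777069823228567205868065008962923920201155399202847089215940536402682802883950207602623278568920845539676988669090039249856547232486504140244452433490502040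45677774726141548328387935710419223819478171664324699339799511664713032706512818165760060697743708090664585808184109439744491388285509200977823729917259009319873143747256179937354330117825508714406737085914013464361863699853913150690412501021132962787795097982851281683196597711466353764038965719990890686273002803135783106661642143189631916049257110487282502911904010635693085569946401064360191041866851335909351397816423829312634132969579303986043439727626018147747137751546013669130331629777927757981756534838595512210029053236886112597113749491000241781626773149513538261295712120429462844024628339422196105906158881368937004518048910720648325572386876243840204856338364332931665067393483301247007262524175870848474792380927479975826309285739672177971412421906143745587961883470014725520870262649149718369920551075425149538730745085407891773171810665507748954306977039487061642806847831091052498543296433833963068296362610719449018282153628436917310487054790039672911045138187821995383986889992574617025731872326205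07407925933903696447483522077104565746704059345311344217789722209415610528771696528577886378720385090980450011217536158824304129078623162191151001696460331648059310249621623403424551035249019293501060236890264429862815126403164064117601894514630662544159849627890828324166382564777171419443783357336822076322466813168970950269450315875478869585276004003087017060437443536630721597638588844511296499394802721543685656080669522309397231409520266867241999580003401356310336912496287347748121093056791057718409317930091937343667932524276460517947483232074460433439347158049744723470381836074569459125394571825918019117468798651302206944376502663563611967715581029856537519712980855646004663547231606883368246945404115868832584920554809204229263979615840867044638279677903270654363604380081703664038959687703824703666731777490759038046473285083297286429582989218875912805250465574477000085953691724216204451955820446101853849725808000345741921759534448785954206406752100687582664016807587127123800357503728196820918777313050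52936184577611270079037559392811631404873606381123895209385784140784282615042777559010092039493316255755195500111453987548856283526787587071900773552127172499030045932132768022245459717210322654639708452405016842251473421497753269237656468046839513947945996325684029740354312171645391759380587874615259140063076041111518313473068604326840761854774717710569667376381446325745794341055057326172230383350756386814882416721424063229242870336799288010362974798260024398156394331735144397141413534812734076480881524861508732473141718320183277543725331337767304952058285808775055603889434098200399888507998879523969972741065300273199028629114357623572122686115497690311174366395175362474653266680045555572093696518775326833489365167151010743702983697316486335444514667807298790991836133587214581464247097143514962903757811575867278884714923774538757554635470760862844273261306433246246978648929559119399347522723029018744676525730865625788359270414246080848419026109882839056968561798779266402642152144116021747076356215304698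74733740447555025533687119654091332691429499616310139629621785558299467018659054976374753098027658622689134909856803103591785721218862397617031747826268209665509584427723313360045958097611887475079595145607342827515891466815423645352887183529430694264343815311019386176242211951708286065520364012677971253484679251750707510541641287270848536529976320545192234294315368713686391969530847051445959349804248521685963135198705539729344296798888690623020056048751648511170874839936509980774834990250445641670122937093234489035675426722649946387408417638648633176584518957221254808439917635664289048728906594118302564428199202649441991810641787679656629433461815131032743327615495911494578223435745652943330742633659068292320474278462725082238641005188244412177290334320789891489674617890089982588219871894066986183071744643497842615628721198829514542271815532311041469174488222842020046449894146574824696482172019375609069184820555043848743972688579367797584010592837338538527131207317695640608797403103332587038207470739116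18555275786391736997904966498450905178454854906746577733682696504259532930697119968849649868534916258523449343390935420687811469387570623276486316850247961987318219329707654786747344443418085054479634300243462546140100049315049735238523083176196235952071091985982459058149279623745891162707225734360876350144652936096035651759399106004032522563261838589954304268881994524933095129475818518276367763797320281147455674161527724051959933199331296622271759825824466098011396911377849268997547612118203917133521384663435891615697064507325427393772062959198827469439901867409700033692444715299361496414603893586005222022681283056026986178762171095841864006053935153490007843069471140019531390819470581593711724094962182343373995171141920185337764461131350601344408562125307267791882078061296401090426035558799740420556256938559428439531676722049537937579432274129760802750406960665468921761476984205288356248464586378034518608766637354848316810671885726950608403867420865400601401092483309675122445438321665222484898066434341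22721578357865977708440032308251392040451083050580592253597702123290802666827679351484513620477051583199209671023030215930846709620304801597334947624749548718071451962620257971817621276451579528868016425472849243640848989927717674476242155626121427879091202574602396996794535092494473960147149298294490596804759877010106112631663302687629200479928717064853490079620516234712552355734884065801580682178453091161032369353486352007636992722285813158416036972290846910140004058833002491344863675097917266262331771265426347922804514138958578559039145933578502486061055748764638430071369453016645866228415333528228005405371548043638463539797597733789723144000521187049491089882117158980623355174905205756853621309725872982925987947045505257295633749757772434764532801164723653870752031357375180317537564351165139222118061868575068301060547366589407280807677285692840295509644393818100394906266730464165963032148204530643078204865571028124854994816214891424983048498828847282561869019478357227609812639837564793469768295474043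83712427249825492329969424294140473434017729911866757397001860980259477528564398037795851569942504994769004750198201024875362735258942413714713153181564970747525621599492622237087102408363757607119938791950872568082313110549646293995203505644613952421150185035287682584737478185054132983543088997233864747207328774908616108906905863119029086738690477108319660748083244378358428713205970608613476715339310052254710432636914123210755719979763703334588402197161105547879944385367019797917571318245520509846894345136644583070624196100879531029757032337232304821518673243662780543074410553820194741711074022691418764113166662377118003187116021138961049532258463001150750290394279631502811674674267102885952591100343522656035055553900927091610392790425720065874777954945246619166517314812152006529798632530932871122548045798037556069352983903375954176678159412734813177449161335698987350620652157921757263839639393101972398005978781247784854247257425490285859062170633799896880555069375674825971380035622464012213681485127191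47205006509816532244680348082557047099104068263295362213666730553775989536643712800908500707541791966475563954597740117917006598845962063916069679781146896364908825780534279210956742888794806322939903653114681797767913042385005906660373748337355765920666339673800460080858865023944247513702776994615694943691827903962118999475023294235363232597992117734039851877532761916366587818483304527129868702962223995610781541541422605961668598259275110848744114602758464364363735917395349882062159790511883608623284470699055343482570371377789685344691408004406548844388375255759662007005814731113046311164990039434968902124451003937116339796836373272473862609873710106896040984629173719700073444696430430231718799809801667252649301388325246488148000674613947175876721820055839235188361324761720685279024911908118524999351545601202174131889620812265071283718576075951996587380850485080751642386553570443447743011620535746814508302440102110261605463739258764549625926899210725205177597232336459150272633107046317708037622062431299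99632754672306561344600725695729511108705419636639516680472993286795887817172740160146060576067612832000284676750585226561604768914467120569065948051520277285639935560881096778575487777085334889903361340015292676699680807275606876233236269775867523849245789399728713095638281472285092749920986401849910105582691363608630320594912892533601935359271433775787648446286702043445020179924453304717812442317336543583487813967133386601695583358626590054457792762800043016431854087635073726043184033730700029393391893603413548896197043707051271023800926210626954215278770618490586614704463819554050324415852093011237188760442552021426216684165948790562811576823788134602788814071010336825320371172210467688255483839317868985063133252311066868546213415138340915791478223624091996032283047039354181051634401024854561991733597913323926263103955506660428723693731221929279914558210392416845026432341613889014084044732832912407217028391495317684654189196832371392116814030945693596536761330494885319523402093903229035379146894088744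13393880169594513841758305804053625130289936052594414171291984647914234710232716074027570876767477460513369887798373300300863790504013673151714746334813746841141912424363510056888050436479800145462748876187088714497949753649742335283265032969290329372989113038509540580329022448352962178895311567320635082509227930215134221767169228812361725126491562524467798764814767276131976407963601463915695679588355133597281013014955462858882960294549827362079179117628378018148872667645680236062866109275102131013530145109581499562595857709369645752460676514982763583524046560909024557301791872515276629832633038039189156637110307994924000322938467104840677645283808671989886303033122516047165716161139022090937016400638990882582290796525586894594748903765817824935850254033847473282766028757874043469130881917139831058400971152310651403068395584240885328387456347738433930700508074030103067213708320975264576173884845048159241297810173857499925482711007244301889807487229334511484589725669643825809545186192412168503275134933107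766751249616130936139602022018039037416529302403687795158625800434635048498785994508783532264735077278594738621800474234261473812339929461423714478404161085944622183576157901167822728952406832105411886644593115245799332305919468611155425348667200322851486983258635746244000265407973850234074207677230644777655658060026411923387348581982540779419418938244948256756434414642432065915507202294050356998047363332914369545598358391078656092406428227729911457734024690306914917840028452316761569588695371243133538155904206146313436668815969951780405354672590249681054217025926626949104868916828223487198424103819191679049491694874526131434189292970465494730734983399800450433387801841831358878184274330124622735108247561623620620854315730693656174367711601569458779893414981841973856527840308368690517784626546221284143257779896590654128403751970460643000520195927800556323953062392627200)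

noncomputable def rc52 : Nat := (nat_lit 2369171463461296791271867106007313416338042423563947507545413622543190865030110707804059382371551639447312659888559245045498175572680435290400262789236841925620857770128746120178008677375509982650151017515693853410486041414781062191824005642418225218609014932791073373967054704158400715792481213421342114355100767898205800321633854534058047816313249522339951003579826430639933240285538242750090094571521841128741877490241732224382553612149610574051141307183434426382761719349935190468815619904327246524051211708526590351774399419138936808396259735320856871862706176977721974928975687608736891834516417878028496215306999293138451910855314825234967113899491578989961670923389291378636465206401418633608162955256621987892988192346130706159018748253236771845396961762047409252432624716438821349666317129425069400827193448707722033076915581424632999364032919678007309624615594282948601617445291634065949700470420380998165664140085190520088797986561058261941528126074651989218634370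99828035270030405280806496541403249832526079445248997941742333141966703691629836277942029651988089843505568492096545317782161940121975950880346644068309843376625964391572060116960065880396910498635495790379255485487960377461599995528177219659097860446879734178886084283306597701910065182461414519579530587406283460980569404770175159202214529205377614145819255951005461127670644785480584069446173916971988541600489284312839161814569470577271617012563986337365333220979847064363604311129595771831095342113728729785202013397609596237105872526755100832196771688635766273649654118981453992054415088182832872373758708418243095496026405005427137752180327336461430352640530555654037844127852271109839970011529550140001838378997177267476984002108677940575854501384418738290935464133025978301641845789613883620073826862802540346683108071427847912921561902802084445954589093194533810015062044316349464076916267795631053224049369007124529671853794772976687797998622753451915091375200701299675269250708710578018233584593731251963219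52166982230989841911732408954224639054652806650199436355632436683952561332326642674948652018610645742192902023472310683185565158752140924998259509881211976302292242797771608770888956525490602049107874066129008435548935604455187240039769004608555985173225088196278315928304795965308867040392229635990649774217531590222997957023855705142653234259065604947079388322923182288755572595264647500871376311911512265528273828403237871575750688990906990004846719541707546260543670284205943997735139387606496391557818151391214291412740245338642608569033533317893142001713636693590354091182292487567851307924784007713790493928055449387109851786287058562855700706560408216604987370410517199288476276085071472000958962817055431485278999138031312380776795594113012634137223583383223299324069551136869994807175682744697948002222921255983568300759037595448471802845592719372882107501473852265330236836938495519998065361275550920087753217399475659194306114667919067191383152915640510635398598337530680319326579560895577782178649319391296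43637954963150645062144496234833238841272372377348739989681591142645625610566268824193048167029354781754823964774268604871167747476640086748161467657069853839370022246431449225956728721743958037438262841397741936805517254457430353115554673869075155374643040828653420492180944250633426736639477462898981218284187107634615866310254629746228010161629356961103317897842691478716590597671264516004576038130338862431582298391217899451511293671804332873092312716060683702694325322106777158579898934566369175429834069487707764319055468747441092678817824954384253749616036891141707021004707686772532317920133093244143518717862957951509934976356655567079542218712530312532356445104825312643323571573896296394856038572479734498510825388629697483911989729766114221296767734563266165515824195860566188160131864485599942106240027223443382291814322758329080591690272534025373335564694232051102726965257663219326672039487287083773852954149926735110246430914914438206812041727153256064978247947932024649313979161894077003351845959541040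05025690187963990047037384069776285603009140220638430945093117116458055361499822281439708360600518794398007250754940566845958447990050385867509401026609890948202239323289286840537712808743667945148678439532893350829359808328672453440449968532055453841354770486689762991553082114440204183910747794169885957287827754183234177088611885855585367265652107951755496689988958960412912321488685503266760904481315843883944969670122634440026579948685467308600160288555689240962845803648052412851382868037306459690896855086259940317451158791614062457632699550673278878374700493745660711186978295308308602179344353614806375034357026281835038170205261621761574717148492122694738562824888309784591778915059866514038425121925054984474958457756811549357931065819810756533713409334277172342473619291312464289991492994196356267591422505305851912921117347617162685520991127112201811001875479080784764173885119443418627378840513645319131157743004585716467145113250750321973570039522877030184964431023200624336488332569097711459880258644916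17726626084873180932654031192198266882879921768458521853276680141211109275034219687852582752027041269816903096532295400570175710703251011818788769938872321598905345744312145920859941560954948236279532684711253511382433951327823449892241539557703789095439190858078912577610182605972005401084710135152116565800526835716415849601496486607370255626449135867726932539673235491186639726933323460261875803453186196037445567399761907354024861324038221825942899076689089965412034098876328767593008074937782092842672398535676042895959816420982432205905619820137947259599752242204427701970570017997424181034324113116159932669013968537352029207817051269415652063166733312203896981205712464990459282746823477946089344005926722010570874367870689016321265561537566810704819738292411717132171326607291203582892902972066504222264785691446836645193096645634508311329779288366596778318706397508782248318671162010221787954525225547546600311494857553123489532816803754669938458190599481461870640824779791079429796111071439220163708848443017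31523068809342466061044907999143604692628360702063668926534643788127179596781640890924824503743442592854267525492631777433594837204344680897150140729013767288375842219415874699941569281192567898546773213810922706372026025222262933266226750998209863802601882257091000824677667126418396539677381610752572571805164936412991526078607058166408937117347765913755129900811000114366683250234104543526770797476970894463390134535333442884104979834155697367909962478281100815628471807310919801349239145238034690369878353524536012319845619300813301254952461235733238302604378035494657743595917903101250071401914756344642078174882614677676919761643775331517625552372099234110743189336963805960499268692670685516531355979675719913921057868717884620355966412442719108336163466763587370757240643327503820753575036992406229937423454775702742516878132018178665734090376584183892681717232658864915932086979640399274380147249112115376729628239948034649593514114355138158190189293278072959721067174620804613368006248550754425707823764619456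24127467744346506880576573973238909416621506603523568894723063013818133842485128089059651998534550983274065979679935386935108049431779237245352801140214355861818960440611783104780683700509343165185336823860152627273552860109451424053140859878989429705127191444734792630257179186148997087188453250496001236698449787561008815850749570564753012989897706426467543588075562280745566546709313774889891187799368118660893376616337270149338027985644635295747871992591894425918696800331874345688151753382418731701540243625644237606809369786026523932739884615334654603492645233479200196057634795059670956350808400632381536700840060110899856948408668889252907897009194275219339337955586003307706010954485944373263406462946634620600071498160882264722149336204573893828718640088449092114031993991434557009739740559862123755581842007100316388454802058313778367056977328122939808965513743810689278965883903741657835113736970408090276731275915196289268632159446780714232262133711488811661141031726239530961345244800853077201661543582878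88499501107156491833071964737663439879628499798985596483297983857698394233702054842362171227871628041384457934711348731046531913655874443420094148176294405147779312219906963006536789656392806271980557007010194987466627506067730880613953166480723326585340034965206586666302940332803108272893318104884627930960509343344800878968046079051743003005773451232603644143813812070140184199419971487693288006617650455423664228735667248191750953695967121512831048212747419480656094234975755434622730656795734975445927971779780930214693555066758878058330065905151414862363831250598248528629728993028119178776411542943759299066014907096249606257933086164960751025070364773163628072699181369232831315970727910346034276166613229211497500734335306025691756624381639540351205409456755858875053679157437478203704199178323012246375869060202707457969078180993592253762797430634122303109068376150022648421800296434907395584732278540785514705532852622435012528973506545035066448333090626668583478082562154661916721716168401188460822398245767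37463244832877807014966977262849826001964030832965419481728141290242513502587766423390426144491290610793710152126124234054530873311027959630184692349876500125054911542581388666742427668878642773107502427505634682149059139224128350828253358856442952053082227794768287454216445050188793482172007858942144149252528440640446587403605884110888241074152959329959440164404281060622638222257871756830497681239755018134775260548970222805034332576598939399977238288521736868091869337099127499189099261423764122130042370371579006576479803040833690159149775592991388064854645087245897404155023722390943483576565464637086965290061613395275422278537812164576750400291929041993256903578285330197042069055133979741892451915029699143812563552456522844994643959759248237670328131438309520022895880881389695541148149354861855457030365556573845883185611824346538817348135112064591839616888351568935266761689953703646780057443360381821128913247765414171854422757084970071587335190457804574720709255197960105483592633132542909705103218054248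66733943634519606742254861487028709917553441826704001285587505033450522029967812255915038433915263676518236475161622112131912254043100993528465580566096826064353464611215317934302172461083393734468613714558189966650772612107616390062545920565830617913291744240592477593997778824411542082894994630352364311636041768700662802458310206955359949471381206045427654529420270323602774177955579566583052935344728999205954637970515094543018635427583886440033417168058908189555181120549144419613032987288582071685089881049965384772939405812780879655116626965445754033214904073462169530019578359129214773912891240747182074329534010100938455616320014300310911794838577114813322088981973481951876131115673524968062516507149222114121311815053804320065366567653694512107643974187083084721156727448316756284287697188188835169710585212714428375520188114093033870465707725697103798437408022968621771959683713321773840196683346133601996859450337829407235345908977617671478157768877368260490488588475282662144529290524917140606075420481472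10983057558347886582385287696683797807167361171369250533591686589535173332919950342713970601010110187252497274594058575704494290751338302213030155123098768696160687624305470187456392085217026891065763095691792155142276206865349073725687519647371268501926538350219168440054098478737848005434331935455926153166350810882999322040684905206604126728544630621658474797373677717107484037388436390735815565050988218942135819650720398303488684366692462406827379632005034657910469307695548618703307390413426068037037082569851941541025669274301665707613209723743445308558387510460700616843075846451967706319942590855908177747171099163496424127064210444519514331186974324380951239927932396870760687845379137169832947914177943661598870663453929322814190044360745548283852811065924508453255593591513768931727019819886866877285045055227352674828125087453897752443511922091854864609428448355547907739973484864704241789442165936186006454411349729382202657840797270502858676188817586542100531956903223859804440395567677734458279137770933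94520917988389432304798942320590155135088361804772038701904190682569555170655130654427948087498985389314525077806512048428523606427637884521552244088416209462139697151343554270334207934278337315344554172864861537367903141066968960601423703962422393528949743248315116858465080617870850700345912499939891390341929850585514147947767532080371290245451094456731161403352415102598148073666178741376724674613189178104077697471749713494021336088999976370820162279666908606348524646768536190267215258269144709938779992597265381429698449349951256352727116262164371051081567917761348034458745698394134849889522958389583558842775165966961059383356094828428302225661853908529618580929964598424445685077104176712898571021297537373766327304255944273056051754162595349837167988883574382244656087212497525917068945327853717021151517006260274074028557535972559620175305171640296651152887576846185048857358368438350277182546894996077245430815736622341851658361716478925497607451925219848460554408857596327671907529496332610341448415353469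22365670547836987320708839196585115641656874307024709012068414663740331660557203376879446773364400540945515331407728549788599654764304722528661203843841602707221668944919469331100726132116464285920820403086639081080994874189709911952213373934838038075664356793729504285989361521873115116116952157249448268080865426850065352723490634452608764569783925673425107444461735777100563426607075901802413128327797442008014898276073435850938955490395187006228290556484595360775305187743864650064592919216432416872606385287118162648905530632330009989654861365524417486152941811153786084620457965460489589449434204224744969994915361608168753546643453242463542775743254123491917159357288279745173794841712662219585388281018277700126824865320151245475537057610766672219542260255825532980266465049900617734233058356001187306806951011499816375026219767199790389321958179316172363951350878205730855912703324137934347987549183999076569070441039805686170452048019791637244080211517021481083526839768793303180761600443185303543106556829099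47801884983621608503046263767211506835521205247027501692276801402713265552880776716110874363484229315091760808938008365466902397731765887010367470147109690106680134401734311257004982409351686653994853999902990573857647272691750023267464927610522621159792942235481474314093073955171416112403470028798606453126490615117052709428132499810923254312920329977643144774919763249226089634893216036094169754797187023719301927579159828287768983793555299367778170670680849970997850167390480054358583786638693994554584406053623293703706214902808746343497200729373217585350942211566330958241404954784582564347178118932441282991552628401228573461342986916196879301075846713328257509641431912507895499042373041790090783051974778067730097272926309955272025091195920175485536739208737740746993326975282540363514697924483446470554047726131749225602924712852197910561365666021739213958234732252025169915677093035016070518887572887864470372710597375705414636098935825600558387228457947057666155332171716535241003949087621483544336387225227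43202501913339731465485939226360296903070679873236500313539124649402602625077675953229309372817114515063324714268543632754097800523184983200854041453180757662911724645287780464713435708344558049571681403810938358535020669517283792838712941759686484739429155239139830867809815986108896899589320048578486816103709181387466671222901800733661210343838930688887947489434277060951184333235367775656151428943879474822572777912442282383241502860625077895735781542597085197596292739284580579968803118461862333412457291809191593763093151071297142587758227892388485382901812574790445505311960960815057507264691509404376102228329410271124380844862203786867646269761064728737210793953769859142165825113668338868532980648590251940569139747935665633498966751885075131797458133424616746451240992859651307440612965071933284380987703313737047595082950363690070158707930570481582067722375888512870011854620838581857660576952039816052201020173767183845103751759857911800419184786107915365502821913129438594677267437304871742600571279952012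28992849099246736475546028884168566243961596368667821627552314455680383693189543793523043652284148609119397479089565746857739428816863376431277016768010359135066545701837201298801289532289094458077444481826147873104239536686803408426489355209766385750965377729921918172977404155187621958218658241589291264925776051456832133083434699331292378528014236845800077966518064360427450165551967131694015405307798901988191064065581860431345784325050370702282589476184713415509788123910860368317193665485066008254781339315038147547579367471016884778591974655084475344697020301197997422708700266228873671762647917290101204129196934044233319515593573124003968789520244645273318701603478786255838165509515829865420455584505849499879953714152112639807020929743130865499840548785397549983227443133183428040569622776755957943118578403379344765683688525221003767800787646744862520818441579791034555844245072459573219530642600285970483269429356326050301166257459829022588743284459784361965903714539547272820834744537945558328091416294917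847816530272358916746955155412892489381612056901534437380864161424947995133394033114225780609774137501811539446524961612300352740839752259815668699278616975711539242322932626407696123197753490721930556984431242733068538905672989101721698110172327922358803329131802406781381467588610245131630468069118025326582246422450136260819945829876928145412750753175831104507054801240723139511374960259286402398900020116745573725111569969209063601070080896587305834799000643359226418070105471246284859895625727193664127468907354811300642345048478149564027901342457543986123269330124757346022896058215766262421095571914124699552514603828868739364264334752179323271305716693904781825979088064070614060901759663338922635596692100292551700877048172537239558445981368073953278733790884105300617689498821660363407692793908015332561671229959522930833799071278861112126205719735974183035437724622389248)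

noncomputable def rc53 : Nat := (nat_lit 2371836163481303028271281863989578841207704312815549187735452781937926193265774095402797419963816515737880024456284003912886936747647691611168887706287056072732334230724916619429789310545519538199486363538369150807406002288940561953673196830703389413992450536608099231915058414180325078495342564861035755751044437331571147378242826159949082166852133200181046830076826852629501306012562237164348327695994959471867062635322006249932586986337449721214148643726922150552299880056493897395961894308196081153888368092872691823667727462604454992777320657912181758439196776894265145198514670743279009772834677019262205846309137248465356140327061452354234153562785066697547191429612849089786322676880638779372594163708634157323689739496258907707331601735434424771539580399413981472981477884405983867169042154612086884413252148824192002205119350608104688178824250143805709086633399459062847405968637096658603936551552779240173154702962018350060795531518094165674092930972086733794554869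68632115056645734080540261825651752977508348574253432405280285913556518184830911016488883084795922942860732265317344614866926698411564503905271432739209178611685556130453265446783477988122417384211363414062643321850691067409374346410586365476292583801714771490613317621123440966379736489439307192481136596246515426973995195372172720153694048725774313566884558569915246322641393094700003622217628545570066653810099265960483187896291328408570916073079818886958673191630055429528662070533980376189765571552382238292070566820014554921178553237316704281054630973284223020056589209432726584826170707310910171855393932872722713695557822164166225139046118994217737923529922749899453863608899777299205598316890895593942240058078374292175573527827407580814620542748361062767457999036541465452131611198883376728540823689596512919510673412726746021315184638223482104153952913988126532482227233663290573352071333825269369139870631067365765303040915964390134819480337440004633454288482765057384585415118507996542970573476783854806299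65894741189735529215167585607920728042835935304174575323504442499587957907264027948196116993651985723097431147774726245837157386074200296415344045727791769468118226910250413647542689901935475825334475763282008983704968643112762092338854717511156343156201738025900959377685741943439096718900441598640352570558031558103278915994273570399613090597053751374809561389552141786624377556788333047559521489739647424935749989008768746373588653105200839023521913215834611219528272232830180709122735943201135318119248937142369897995925194414497404097255469986194764581866546968518572452807991671541632375820172639746618952940556064655747941143242260806678245860806112748413797935893685346118597670019756643346875163644884441917883038026867728917603784659286326279510465392517823327828915700986443624656040869222200222710998476843158361401682688002628823541553647983100655069924028414714586685031503218302899165546011366492439427321205790103507084176398302385696586600878036466583669160032148423179333767386003454860027224125554463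90994599646467643760887537623338577228789646761023771728818648631352277090926831816819341280487657960724059830778629263710748895892290224904167094806192834852254336339653969864925866063255325463315311673643703958040975988202827889753097421745026612445222705144468279533992150069002618151149593959478718350986020601849328430476616083561285369008483151867252209082621798948094878217414493439025039021413052567077673714174746578960997472225745215611574928589709071928714734365520358139836046289047739982656085026528388754337794240890128298421296580512347679621537352079602462400133276431511716754376570778200439418424940234130451809083633819530183820991342568026273028676162632796046471783252802879827037270814548575072139017119576220389265245533730257832756623488075155668184525000631525236382973048859185318567373801145908162332079022482643119578826880310719713894454755906916539688447281660796771517876990475983919715618926091914395085273808452093790550166648382710876656675370467658916133020853987073266593263950132022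91389028093677404845042488619989645827914129110170358220448607253011658781976333388973799734054218892191070949051363676190857937345706721650475076147242286779939231130020898096364418659703043385707115192069766380789572780298785028846383050760474928415831697258286558035919132071355808232185547650887672697856775677568141773818431434072629890395314255954431394455223733440496732954510927803112875374746160423391427700601635259100032782369046573913466118347455452430433421976419258680094628585928843937997618302915119105604107784004549532100886669038493658043022644235813503463689639847927489749726002718630721861908759511090361848369948286040151750245385753331875561374533304438219276443481651356277811386243937096758807419506753546112596915983634139976719873535343633245014523105515759949389252105888291580039111220443274551134771568365577928505375197341871398412995145268784550243612882164602805779324355449968908216305284846629067600560727588501705537680212075625346737517201391697499276215314953310278842015018547956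86194006747861390656270004463832782236522793416804336135182194758304776898192698205515863832212335194597718923175641620188961614879127579355209422286840817101250181991625894568990504010188647953729039236136629329232664807433746174780100284558290258337460758061204982867754232378855968228375441264868614079648494921976120818625232442081273448094889222032734637225978276904589531971659007997041137802962248206049064953428754901673980060223121234811270389719781717893979325136208569087723437314744025964541983822964761656968806821301567333808862203311053297940702458839740582900098681321730225163524272127913558909522103434832580730976138627074111415100939924400919747980370345758982459362317927355966053742596333419541703291569678644200942670904254770617210237825939854255857512912547140061660085739523777392874123237805414165565838299541588921840792450647158016630183958465255054254210277941865218103905199874780807387736684857776734965868886630653146065528324031879306016379128278695013736053355589853993038121555966248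53844238268065110861623166472325497053124522089243775138802009870446373528330478143221735745460857063385865190958373638727744805167505878353243609560319817129466467859598171775948705940569157145068153626921021566912507182914313646790210596912746264303186940794872459523903739553406172321748991915542915273567414572156929144142243806141532817965054617324980059994642927854999738172210086399506072993177873442736307884980696502720600353714691625218109659749145446351181491671594102756274563829917823831043389012437835476207487160491234661847167949031166098014342789935192309313205681327870887830384048730930373789143757188874870178951839644407294644815616393391106895720613293071787040713606014832924425403632317218947347564490941848016278594981323848390760446504726660676115437805096371358694233467819624363906595940906020974796347639790862914777582015287167640392852044302311965874620639521522251050921588286751572951967026091946740059000585792725989889990470861519076506688606149602159265870497889957904334858452903016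57650436535768344793792966342883558572360271634421228780585060007431617730469386375977591687404098710655132811679172290401340558305410254988534118705539403625271400941839543721572137786447234853100811871959542049115813379501808785936024676330306671917309236361128828718077368987638593371829009594178582533270717959419321704857660971264279586487173007784755543268693269858937606477656011272078993372860988563833676412719004024602015670204012604886541817129151375869353489347904157197533017397670887201769459823919878265148090860940958016278930950315187929205731666178328857234347511913908106333402784286817320376967980328720994445449316911937527203833971479696585994683548397556540096930431980256536119874911399490729890848353952289396301828243216751968080556325594519932035270866587245420383068600036442495377807745123518887959231978741736041694599854306699587265212349549927746356335179885292559297754250592429166091870376366064559828457901232770865250062643920467722171699789041470095055227573928605279090513542502469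22455910269734667800499073014014800927153651813599324701592191332915882305646137795406079870991384916780829540326842355509381512441120957324061409828794601266374531797974515849599555371896309281945265995907703642475619959572221133992403282619595502172636335178678344765025453447131032692391763555375771846260123161241097237899913436554322425082748290190376502895143222402589308659266776781095042573628504621737794491600209960173152806672162957698751589685719306364126025689032080338619891306119118157715115660318408630885950841790716536564568215830684459252252186916982759538309954431772428167081376841627558058839106099892686199965466600358460449292954193688564682359953049145868095686157729197246389031958793634289192368354156725566745757456471928392269050828586788479190759403240053757931327083299695378729514786416881207297081792196666737826670326837557860543333865831794486443443081107333870914677592799253837993789085308570826225213484013722690931921181640666124542888710789416410131877325644760792100262231573436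06541821340226275723733989755369713867041839303252024789463446563575986290686158959995967114009207591298378843452906290513982576415339236006414331601175210306201717093565731767414085290925249136349987419002581891610287010429564311344045390846230583494091825531845174088193291211117579296174154185715742636570573964846632667716814397904703983917206529049026826261634719689861059640013413188979020091557474791003135497748978633422155917399572100954123878376091881738488502122503955918439321498108131794557481821296365032167502640398547645493762949481525906972597501690704045115237652049831591153471612705842354619610497103186943080479654217861255867449994860414830195278302473741416500817264324428647014633924834820851466635712662548841113198094980211452576638423494917210735412391329269520630334363907625046855936082630742050680446596195248384431113308861475143333859564639709684440504084844651558545756689028508016896337212689205215596404952411682001191531506213579627095020970212618562309561118693335537714899115875684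55723014632887281920586524946579584212779183113926498467535927057208544381135739545942042713674218882097456652000078032348439666856852338955999319969844038319275443293647928335708427295053147264300550094799711710237469388787981225555072798571835071692757145728543392359945779547329516228212196525353236157543826088627570658930265015395552633133174101938699438032014319944467196612160924929849228452023562460713054541666095277828754855089647295487038883552488388486653380930158271005022257630362165928466060403538490977107414298445787343005737097936298384372725084251919814747625408091563768831377507754985631568642987768087075997303921779125034724387253882728217514215528711984336633469383377018648327327347850709899040426356123283203013688218208764845176910494875539862604576755766372736325128353685835168102991974461703323716361580290500538219378651934125435434461606959846079292297371189746310862861483264750330988505515161613216449428406407380348494284783543735652078958831475562257179619274520727384013327320977956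72822388654356211692348771806494489325186332065579366714580898989973634188040867292579270967740204667027245294495693993621781874491272683651025859722943818539875148739555357621739302077008375363996335068433639147024972717157823674719297199672259973978069453377644950191837027646589149465216536102903715320855942005688979497107979733441463841172507998404242032263187883270725175120327769491317030557657884394374184742740424465963331537110912361949855864285966395370234230146003143300164196927962504767724431875659660433901878036493888037779737087552346118075118618334887121473568031796120140122704263364722704366595366717857718427725930219343116592593645339860219659677394947146387481198564496096010136490397179641408124781552364201058547023010334434602544265391598833412831500408093973884148176009653115125931175763414901893369418500293979549756453061257841702286754184309308564033809462947825098140328918476135177869146187991458070500431133121008003214880716093471232268899344304682356560898381032728733392874386771067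10171554398484355657785741988312432080362064348109429472572936438496188363540309641025941043820687152350130734088240765506018907801751909275189917213583907910757003405053519717671165916027022732420409639063730029486243171213936592595197114815536460063998623068857496261081659578004123579005779443795198028272448792522200330214951438816454035513386887334775004692388621284189842102622651641288766824211584634964100073322129886899455653862425533020231156104541566554022391744327189570400736788416336000170572555684446834949079441298067591675471584093162202526616719581068830818730189765531361250086940638205941311249528313420091709890218230319771563197166279674174679838705784118469508709558120191628515267915855955996627165156351939686450705555692890004204865885032411836863842566046713061425991792984525416321848391556807150965463668852652071142381669278107917636947028809745282291683995233670464591271951571763910908507713657866396533097294148102304113397523368258849943702296546533530384228941526458899649952127868169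46670345615647544640895084838164985812255072660667631908800000587215804190447800884093271104475614666428964593309370897849585545549802432899676810068382332886340565623805436220922576998339195571290938270897600876174004712328216513713370363751373662273599440526788524457725305473209190383673783198758448531212482760210346832253434383825405743657988744954251137277759233904762350166294771744906331746060219158427747249055425240410104715798747598973525699456723121655161120020096941221949049144445600938734807347603962151391350470236400725449856678557340140911378403282270356451480450681913106867072347486047429607999804571054745347132358732598739545616237325253114488929532396311612730426597781193004408511993292124575702327637712668378975654899503951641063057986403237183585363414282040401852000422451017637181992568993930792235432605040625993498325549731896557655643469936593104142499011039651055667793189586620981599673460327482794021638008279825703129691119100666221282389138784793941167656429248965330797865446616295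42465374116114857499760611158920012683455408553493897511223799118712978519742004667974649009655938860956050047800143982710090493646943244925446782862304981162718267641800490244693852246991192220628607043111358540756850579219819855428413265586083679525401352330557384702482487958849948451168568718250755407573047627987175667412351713106144973370924437999002326211603441741642685579527930022137035853921015972579570675915266569708312707787216950841686918097261540163140184818326780161137966923328722129668283071285199500421250298768529132298751457249904152708041407767434177949121201837415688243849405988924973503654733527706312357677445695250444890890643190437643041040357612453449189881922668485599240509135397368684141124685755341970603756122836903980345094014105921738734610151961278163619283536854968601207156983374414738087185881120507567331327096680293270392018051240837303374242491111391330739492144672107277713586716563348538530273276741189922691521274947041928435149618680240910556571931483405371375432763610402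81364593173733275818976815706460533241646669378500418228740638097589659296118776539751687745225650551591754159386526162107482273577963290539934101944881138376137185626116767743396493231959808654161444288241242525186327843755782943059097639601360897557359024562695959292181041517542493947387641056783394992026061586422658117851887672796655746624763478247311421993826989429454202377191577199351255943915019432650198870732710542536881908377042129169357306538015531224207774861191029822407385769624954112715815196892036166013952025558605931742283121525347560652597598167150329201801154305385836595155991950295767049459836698385555041536798834550554353973908558765661937493751109112233828947610463469928542572420156543147063747639586673497978370838447456440845138949487517038526902891198095539754412425192581142350119219108297483066921089736191586912488117993872431677553669508984302033215793974205682339880203166796839648978113028632617264200981552345376305744517541327827785108080410350787829411498467715837389529782119660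87268752924950875222136199842501829935083094987679751799883799874165306330523004074025316538258009578699012399483540693491550435649946923314364472193029238962510547650836655407941822572036322692701498674039531901725391080768771714147062799483159488829159906759126671940397822038644664465185592464381871915160283006048972609931040201187219721742225077167264025069604011491796783033419908114752868350638261160061689507510626805124167394161178884496939440923708634290534208268279410447552826216082204150291951549123300628031383882746403452414836054846040806403687147249073982873773203558275366095277007578197396643295018205280365442989975667213899894199689137095237709881748080713982614612739575764906962090457726770550742669564593197904410541103587569624279231801988740046678930578006170489138868549560812507444106052557027219033989154742814894396853752841963071377167604515689522832860258354311325579707273831076722014283619008525445255871215554712120066181612092051106840930566583170976203523107503974676269822654011825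827216775288710093865230688505831294634254953616861738898300789101953623881464215197821486125676407803071926833761136492075082166276531946860589631069686628759164999330226542657804583777249972741649593209620886479701375751642639803065808730131878518854947105768052514613027640841644002593961709657558406106169022936326773342795258870391378725567104950939231659108855982869274516154345928378634664842970458778757375529945969088304103355385004844332153213474304608075349001375348649398275703070453418867040972089261884774348202071645757456482245435748810751554559782892150893107113461538301955383560969544762286914435236371119862363013126906851618226945897753320010898086758045270668685364739292544395168530585648822141803458216566438984284825933395050872456653356579836426894178390679998447439401274373948767485976724401705229167054502538147313574452598755716474351514624043432017920)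

noncomputable def rc54 : Nat := (nat_lit 2374469887035571545911762636845493041184318013928718445410335181960522744893453885267086789093896722737354435533452904585600163419698446420100263792956080108374044174377102530441200708851783507554160049599998010012691007151833494149893109381019709403688759406001703611855491747903252682822400080748518777955507059886944486102661133119986032978612943010366177198748527644004023884676691977333160972450670304167840326201430577809380758103764741985104641561802399955219598914815454256553306847968489579574522563169820223242579389664666120725507976103182616155926096084729725956308974782360819179352312150574720619587884025114385998583233625622543006861296056604939954197899807052774731181854154564509468560372175174973291301970502045463332829196106634114571794501891347631681122879631288591565931716940533564094580078369466673745990214425192031751555612057147681040891314363889457249818189510274580577196713372677244278448156864388810128036997571468425089555281795499797332969295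77077224383062147673371544415598948074983116643344977917071320812136882505478138606648323855493463512008756151086342868684746443161363096486888900247214613778266774979045732185059514919951630114312036695942076880944229631581044512458663740669179945617620921540237219638182982441199435501283838069758043809806541810182606775370880047894457766935670873964225175506260442526573302231370430348236499685604495731921421934898231915456988418838646585385711169904308839235071821061449660196292694156421498852413871473518144581113144731705847465263459353008427002099822268920766646928275078212545634401025631166502323634605049489845102885831928188227986629959469941340864674315383464580096819369566633055660594674308203731248246386358013066539902219815262651075010850667109591270011974222040555345366034888109387461402450706727467131413258227953972877833890644066402363013926657974998670353585502744130261340055169014134532255807439654335121080487184472677877839421535424199818763171896056720678083808395538540978098802428176207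36032439590754744485037986673450535616784335564898213356546532280108437375931460950759773909991478098582995464880220833454193344681710607419826833132174494123066386115857153041944183364787815050172674346777705730970458286413343947519153744554427372330608910959722968739141865925223930430043178054188286798464146941404979955851904826826280108896849952195957802412270778786329822718835524087603718046772147475967430563216000203664829148477319068712452654400743535631914481270458499506815865080581879903454951347797308512709208390671792232605421849013463510516601262556880904769705543998508095731355911269213927401191142686866501536179269895376799894724665258200450237817507894863489713798420464661442449084862314203314361268524165068785876117579130933883255158061212534042235421655593664489128358127584530209502409182764794639024291234095500887834284143860602877033391475066683451464192170443907548081127449761367509537839048719579949351467961468198323378155808344469646661985389076526097858632417918958421096463963477442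73581838828083496393729451597437862857884083631926697328110553464284846777423761694335702375194874385629160077867820187258283298644498561495340667108014383019989918038201827268293709873237111526047175588026576048167087125596654764651138051379647434105317102758501847871548567523290310531619370061880162874497971931545057838627180987523118863934044900557833352490729883493207553957515663279211341093708037111501972112594682045446111792975008503609970984717670453552486043072062485224072280285947805224016982834396279039165275658565834668052994582879913054359861946248924306270027462508176523987240429778164672515667714442159272787902139705267419348767969466904033075828998769545358407951958127552654939281204773934193757916810775259217915343263125906158229816586670123473912873222960497252791710514604901527082983412714631222807837376149749555941526794624611125095304887470740883462173058835955959176482734929050508596609688990237292273898389147865159578713514088366503646500854425688337548050588668083733041430031850523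09669157335868269025593194212392972273547005895332925611246703910007619684317734807570180816454950785474353888986264742218652603319951410556981902787728052767449750549521767367355476009703812042767095328852729675777121526491903446217659473265491750596063509774810048076684524373109969969428057573693768128254111141075002239650390162752164691848158164416259290793813324601326954332517995694782011988630250935211285843061074551673205405538628338074781301706246135659623552277042971442539546734488458665199756088663872174332141923282238271050114318193578650560652515846541020928649106484592655847548593144471431203717599045074974325216169051819712837389907427699550548070944727102748164117475521481165218344741600227534353036751853461032240376743330480445690581960969045042132986223167149158966085247415270874813019776840115056373978745773084115385217674632384308967527537720733796750192722644017265305248641707879541211807303451142706750796358070647564791304107549002951632007819370671219489262222900859843600833142704510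19060621263307010874452050646301922307581770005378011676230105740973468982701824794586824755387214858289922607530564928561995317553532892357782064395123525277571344907718149076841640166328763813010576888507723636024018191557912720514194067930594442062035394232072248432145708542073585273481646425705816520003971691578626657218724646013613344437088090623577403066468121118320631173822114474492683017944209897253945791412466669698641861810645113875566298832107097026711284572470751420296156556370245275329513009908754706916215706788608173054170119037915999291582368699099515024289538548555207093849858573564165229808036564780850334865594968872295608955550846499381978232088537132155660528173420269114661441113847579375237387081786816898072857354688713649693742564478770050169347513888909935752443277822406497840386900490057638858423489935221766680761843857755305198683491092910737245094095224465796085793247694430830509152555052472998543202134542746241765050265690146986267664379535201181856919869593903292531910708524679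18516366724402798682302587723838777653764442762078270515937736286786789581457791165364703188385064313737186471717452477377505291132700527846984648689953213668888618898104817890113737027738623442123430588612228154069555505200763674427279571320668158014800913315878921962246074891656878972857305716243555597354439129136154871448714246126958712083878709117575324852757197616490251796058498527114379239884560748813307947007719453173610576529785838752121683023763160116312371778253908795012526015667098838022061833439605005348270634846175491992778205218378233200728198599042572399415331122269825188853683822808718693782798701454504829640589765975268749438139024663147581776591105998175011242304992996500799894377888981694809110431238435277971939476628152982322171261441766759917757752534395133813797091381955131950022325968433276043662601443067661973494841416943527551487386841190633855218224494653329202689969966996836283703601407254506224073318969126717645288937708603293099916927477159894540458017233818485739171315906648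60831610576190400318733732116010427110440391318763486868253319804244940829152277141853915430750700028899131038330190952854758890587802281838351383034013047669884327875524610165797542026088615069980473017017415768720811283409704823486111046662086478442953474339877351866133241657129939272262446349072046051566366351068461490949038838030130218259237232917273246010185163379328242071509900905838622637828441871837014427404903802323670918147767590483735373824664880737817753180947771766258877739058545165841978639549591157110634962676148221171994701569269318760665540229961688127688483711266769422192043506778938595782537046368344795191812555259827854722567349457800263268349202417605783409445784598745770779798079149528098071434830101104528764610604409595847127859935717882514009424081698667784358361064302775499772796710395557283767964049944194439454327807652677259173019981391541601008991220996792294446872246138561784635150691765577279154271778214454457424972082422404244189493486240700588709753443673427795120290023171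58661036767393407096855148508242005952974688229509060551389777328123508936198569011143761396821452864755325564803561713051622778089547237347170997238088576895521294085719907926177106918851348993317699464699856317462908257038214401952692771511043532956694691449620291458873222508637531865179973545651632861305019755808818320050675840587789021054000639552183932896277423014647006432369483925191842013343073259722389755414666986382620246811504544850683879591776120278478980605133908987365756473317239030878867412271143036366606311096811091120078574438615796010694549604599263499662949656246961113230700350290015508737710521454113355783997590319365244270902736312176689386328283413814663380560891726135123396233265666538941928761005720270432483652947487453639935520628694399150076828734509138123549314045967608657190150401708895130683547175869413271768286612187631251583709882064494771461874178721254506244778131427167009348465837907140589022787743686242069466130338928201696625396140965844354756329970946556167223949937075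72804772568014100101059234989797070679937876028601960178325854778107053162851213789333147810139722744255666769224605518590641577371597238720056232250404295741349135397551971117096432282272890528544328235607639754490675928209395690318845762012318352882409290127167821222295144741842210006163890986472794075854007243010258103611229138350182062611745603975363473310994033913022858444951276957212765144145344609287654471254548210010027855090297005673271608790323598418205838688845792794949707300089092209459387410299539467592236579052837692465246229901953341061359791969606777304152167082128671122636499511105097548534150103355957806265761477754369027992035173060991643750754075309409875502568313131912597587369935241841867234282773747359230202560532283570485355389411128741562890153809477329535111181414000311813757726282009770064339033806400804395252929166831138221819417212893712720613472747784499903953565203078875954664831306751551786209338632726395234319766106572573655858252846978167185852016271012059580946523053446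70768718214109500915067289441874072860473361611847519471598680983563887842574122889519538943168115912804802737421758845131998864886705483915217669604757557323917454350954193593012594184620180746627252476147074991456623199916521769334709959295875491842014228905656174948265106995492436701752722760225831088245824418543969342963205141247611381921584177287852778317402486054515234007764975146557556489423870364122245190696758528944549307307787983354643052838702447992787259165235606149239933046411781777952996546620376814480674042868338166213512428600420894957380784766672837986601500519602225886833670549265050611987069885890089184051210074350150337963958760867926920145703350212284244030643627283835931481475808802969633170460421727654953720607197856296623546779740764120817094973324146274286473177773306729059910135522135888465108560474379536238135645059286258166900400459016744000727361755677622565681840674667000574421405474935771958959217259471695796884629087035539070771849159918586894143894719972079891428137281482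58144761901874144389683979553784230138425313158423613966779463821973756567922496255596338519154504823676418771255562988108401607851512717027000972940370522067834665023583934066509676754220740923195304719591832362172269976991304084881481626816267669378162524383602566949977054386409607778955777493734676159210188647557880015066130867901241320161068744109029144901312457696691675319455096700488692207560908030736720229953533281628992491386737224048534104182744991530542184491637542446257427330754857224380685000289417520545315271523627306152437153182638458099000705649993391032515230903479741566754361385650292844464255440503794948806656028226986835489484369074695542086876223154356685949279909457289749569070818036685608152632231153085603187626666870912554270774742734817678825416541918752018901952253632679256565829060881224548797469353571403946705054890911178379292464917331030371100898105549359365768425304576372061412273746003182379889663554069659880527362326633544679389950858263017915652077273950061066420802713104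68240249583175249762511653595968315491437667619209149860310492088790274034274429070922862135407091214437880746280550658103426111137795877712214071424267604512536396342997677733949090574617126763741327753323864957737777641377266960926664182110123298794726360442504514041525919902249893097230381093620821008122778799328491125126777113569717307437958993031750079049654975211811538118674937216769595106587253484709754761631787661597635484107579651964241990913886515965351389719038833482066320180085942343542872755336136701418327927066434016661208955517817883569955503460853659127945992253321831904817491341993577028939254900331808123598366185864656455648993511200935439523907415260638301248246509740446992861702756095068411822513041163430293549948461341205463339664988741268368013746355928569464879117196727051069641833577059445272926997876117147098596874935600350396987173708896421526441286273626239923608165802727869939526855516373531307397348231068690073744398172149569099561847108002906266699110500391513802504324739025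80822457380355176284583090237395815196084521576481825967293195097193582362717518242973108083310489888328884764524645742398368623550909352411589576942577143143120036145506564808543555496563147413556297612408765601999986492374615925792744829705488100381705439342365728884167499582264298003961761724484155509301554699231134281657307174942971823207474154220371509231613268973474489989884119417471450644304861601188886339155034367178112708666190026829635517157330372609587437562679744306537416009024155386176278488806048679602914016352181965498436593202236092309862220580849577541185769151775137230168411272954422366784137262098503108011698775036988368417166358821780570639163310527855438406961219830211693578626282530477616880790822973731191059473902028608823708687341266032737276724342186256497717992981416544602540252752439001515275323937543130294104487582557973804570606014201045837215877596932012346188956737055913600260062795097425631429269889185583283034664719728388496899661852112268795083513622265674781586417500533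34928621450313376393043915078475952655979900235088436447945636136239274181194240521508696837402357607457994361460893467461166614723484305086212400530651373967223415939388424514905781617208261244914696681848487796869570479502486324836597844836977574310070126397711525649981398287746581778581820824652438525959743249952670060993351788985372993063287960379900962304543493118153519828965296749301153904137282886727014112877325717514605957222115069271647741520031864142398878994066133614834397414406203616786655938515715651703174468527818048168493933279965440544329818346370841855174776705737725710365369798544991931138744700123383328323328211063878531874561154835746667319023172508799170314258936051191333781282904157828067498432194036670976876770488377123468147983914016661934005125886983893384207463081129788639209821948383767070460796494834527453232347056786444022938836246377155195046074604435581603514444332609932949857724543476043247823451220808505502794061349242062018080280761176644138620815367951001249150896805807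05649635226547542124333113818214461009979518547953341276949762486078346974387056996393695498187277018659989093396039804094816318016258010402380017400676823365509447748587076748678800572712809842333342277824819084209642924064132669738336668858139229485438318071949627826960998431222274684266321273107142400529268306889067119773114678919626802662089382569155774754337456159013746561989390434843060998447981022268536137394208808906993316254380316443958490670830488152846948077012967889898538627372207680581496659423548108065385244966367864612251059982776875612973694173611539647054248973097153189069034325547245457707111486981204354257957328288444649445685066004965149588815506354211332945130090807883611203126790503863617612143601965620265766326022448434367738605826350381450240992681385756457365314082836384596765531191218300793363652131631587061049426619345096575243044284683162820327698782993381331288872708476905874404970908405564739459877498317994775725653774852653523383238304332591461077695798559734777526650153764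79068971325797104310769916287708266734687018265472951754351301248352909439019467562330810275688016558386850396599906792463967177120200973217584627113367104631109851673563145847477782261598258430626904423761944628625198573150382856032452341873513308094128111451676452293491074877640782448419160253216410119365208506537939023112545572431071701086430707127004776562498547901958547245479743248225489901739339286912651705502040186396306052289606392769197068967560048328429382065037439008067925844267557319672439479010397362663278136953776696143751998962459285474883813180245778925071033043596412011780000053691582931342996423233613694751048082137360313013068553353689182999132174876279047810930049541335896350868178187608645722747905106102457954734216305643482368280559930558541125888134915951297272719538925653814245405392438703353457599620070573660724880982687310959416250099486936098105086787033992134108361451341866645591112361443607945487826208347571547835070009388620634799793600505717554506674717521156646751972539420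114376401058869689918575444505078095673856020981255081043199579280105034977663358222137896748562297949854766355958534200702322239856018698389561421174659650735021107948234816006348767476657336812810893014911743774365842097629213941519143864130215273058414431050180680824503155580448177933219435586188045828667341239311884652660242177468257201990373534451446997990198294882165494238558606708439300118689434731509850094481753064266836764653565115742034635783956335403608778222896741294031669623153950547139371324825577857618016440680770609883560004869155874656421562705530946916877232527061909116946224124131494241945329415246413408461926039974163956824184762673640342078209745145557447619882039837275220495128327038959174186091083350911184247337650102373988803452917718454531744212155467777655896666417052791527941777055569140797716853919388777601871158897258281119273869367704551424)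

end Vale.Agent.Lib.P154.PChain.BB.S9
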